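import Crest.Agent.R186.Frame_515
import Crest.Agent.R186.PreDG_84

/-!
Row 186 (A), helper255: change of rings on `Frame_515`, cell resolutions of dg modules.

* `Hm A B` : homomorphisms of strict dg algebras.
* `resL`, `resR`, `resBL`, `resBR` : restriction (same carrier, grading, differential).
* `LCells.push`, `RCells.push` : induction; `tG_push`, `tY_push` hold by `rfl`.
* `selfR A`, `selfL A`, `selfB A` : the algebra itself.
* `LRes X N`, `RRes Y G` : augmented cells with acyclic cone (elementwise).
-/

set_option autoImplicit false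
set_option linter.style.haveILetI false
set_option linter.unusedSectionVars false

open MulOpposite

namespace Crest.Agent.R186.Res255

open Hat827 Hat827.DGA Frame515

variable {K : Type} [Field K]

/-- homomorphism of strict dg algebras -/
structure Hm (A B : DGA K) where
  f : A.C →ₐ[K] B.C
  mem : ∀ {k : ℤ} {a : A.C}, a ∈ A.G k → f a ∈ B.G k
  D : ∀ a : A.C, f (A.D a) = B.D (f a)

namespace Hm

variable {A B C : DGA K}

/-- identity -/
def id (A : DGA K) : Hm A A := ⟨AlgHom.id K A.C, fun h => h, fun _ => rfl⟩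

/-- composition -/
def comp (g : Hm B C) (h : Hm A B) : Hm A C :=
  ⟨g.f.comp h.f, fun ha => g.mem (h.mem ha), fun a => by
    rw [AlgHom.comp_apply, AlgHom.comp_apply, h.D, g.D]⟩

@[simp] theorem id_f (a : A.C) : (Hm.id A).f a = a := rfl
@[simp] theorem comp_f (g : Hm B C) (h : Hm A B) (a : A.C) : (g.comp h).f a = g.f (h.f a) := rfl

end Hm

section res

variable {A B : DGA K}

/-- restriction of a left dg module -/
def resL (h : Hm A B) (N : LM B) : LM A :=
  letI i1 : Module A.C N.X := Module.compHom N.X h.f.toRingHom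
  { toGC := N.toGC
    act := i1
    tower := ⟨fun r a x => by
      change h.f (r • a) • x = r • (h.f a • x)
      rw [map_smul, smul_assoc]⟩
    smul_mem := fun ha hx => N.smul_mem (h.mem ha) hx
    leib := fun a x => by
      change N.d (h.f a • x) = h.f (A.D a) • x + h.f a • N.d x
      rw [N.leib, h.D] }

/-- restriction of a right dg module -/
def resR (h : Hm A B) (G : RM B) : RM A :=
  letI i1 : Module A.Cᵐᵒᵖ G.X := Module.compHom G.X (RingHom.op h.f.toRingHom)
  { toGC := G.toGC
    act := i1
    tower := ⟨fun r a x => by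
      change op (h.f (r • a).unop) • x = r • (op (h.f a.unop) • x)
      rw [unop_smul, map_smul, op_smul, smul_assoc]⟩
    smul_mem := fun ha hx => G.smul_mem (h.mem ha) hx
    leib := fun a x => by
      change G.d (op (h.f a) • x) = op (h.f (A.D a)) • x + op (h.f a) • G.d x
      rw [G.leib, h.D] }

theorem resL_smul (h : Hm A B) (N : LM B) (a : A.C) (x : N.X) :
    (show (resL h N).X from a • (show (resL h N).X from x)) = h.f a • x := rfl

theorem resR_smul (h : Hm A B) (G : RM B) (a : A.C) (x : G.X) :
    (show (resR h G).X from op a • (show (resR h G).X from x)) = op (h.f a) • x := rfl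

end res

section resB

variable {A A' B B' : DGA K}

/-- restriction on the left of a bimodule -/
def resBL (h : Hm A' A) (P : BM A B) : BM A' B :=
  letI i1 : Module A'.C P.X := Module.compHom P.X h.f.toRingHom
  { toGC := P.toGC
    actL := i1
    towerL := ⟨fun r a x => by
      change h.f (r • a) • x = r • (h.f a • x)
      rw [map_smul, smul_assoc]⟩
    actR := P.actR
    towerR := P.towerR
    comm := ⟨fun a b x => smul_comm (h.f a) b x⟩
    smul_mem := fun ha hx => P.smul_mem (h.mem ha) hx
    leib := fun a x => by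
      change P.d (h.f a • x) = h.f (A'.D a) • x + h.f a • P.d x
      rw [P.leib, h.D]
    smul_memR := P.smul_memR
    leibR := P.leibR }

/-- restriction on the right of a bimodule -/
def resBR (h : Hm B' B) (P : BM A B) : BM A B' :=
  letI i1 : Module B'.Cᵐᵒᵖ P.X := Module.compHom P.X (RingHom.op h.f.toRingHom)
  { toGC := P.toGC
    actL := P.actL
    towerL := P.towerL
    actR := i1
    towerR := ⟨fun r a x => by
      change op (h.f (r • a).unop) • x = r • (op (h.f a.unop) • x)
      rw [unop_smul, map_smul, op_smul, smul_assoc]⟩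
    comm := ⟨fun a b x => smul_comm a (op (h.f b.unop)) x⟩
    smul_mem := P.smul_mem
    leib := P.leib
    smul_memR := fun ha hx => P.smul_memR (h.mem ha) hx
    leibR := fun a x => by
      change P.d (op (h.f a) • x) = op (h.f (B'.D a)) • x + op (h.f a) • P.d x
      rw [P.leibR, h.D] }

end resB

/-! ### push-forward of cells -/

section push

variable {A B : DGA K}

/-- induction of left cells -/
def pushL (h : Hm A B) (X : LCells A) : LCells B where
  ι := X.ι
  s := X.s
  F := X.F
  mem_F := X.mem_F
  e σ := h.f (X.e σ)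
  e_mem σ := h.mem (X.e_mem σ)
  e_idem σ := by rw [← map_mul, X.e_idem]
  c σ τ := h.f (X.c σ τ)
  c_mem σ τ := h.mem (X.c_mem σ τ)
  c_left σ τ := by rw [← map_mul, X.c_left]
  c_right σ τ := by rw [← map_mul, X.c_right]
  mc σ τ := by
    simp only [← map_mul, ← h.D]
    rw [← map_sum, ← map_add, X.mc, map_zero]

/-- induction of right cells -/
def pushR (h : Hm A B) (Y : RCells A) : RCells B where
  ι := Y.ι
  s := Y.s
  F := Y.F
  mem_F := Y.mem_F
  e σ := h.f (Y.e σ)
  e_mem σ := h.mem (Y.e_mem σ)
  e_idem σ := by rw [← map_mul, Y.e_idem]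
  c σ τ := h.f (Y.c σ τ)
  c_mem σ τ := h.mem (Y.c_mem σ τ)
  c_left σ τ := by rw [← map_mul, Y.c_left]
  c_right σ τ := by rw [← map_mul, Y.c_right]
  mc σ τ := by
    simp only [← map_mul, ← h.D]
    rw [← map_sum, ← map_add, Y.mc, map_zero]

theorem tG_push (h : Hm A B) (G : RM B) (X : LCells A) :
    tG G (pushL h X) = tG (resR h G) X := rfl

theorem tY_push (h : Hm A B) (Y : RCells A) (N : LM B) :
    tY (pushR h Y) N = tY Y (resL h N) := rfl

end push

/-! ### the algebra itself -/

section self

variable (A : DGA K)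

/-- `A` as a dg bimodule over itself -/
def selfB : BM A A where
  X := A.C
  gr := A.G
  d := A.D
  d_mem := A.D_mem
  d_d := A.D_D
  smul_mem ha hx := A.mul_mem ha hx
  leib a x := A.D_mul a x
  smul_memR := by
    intro k l b x hb hx
    change x * b ∈ _
    rw [add_comm]
    exact A.mul_mem hx hb
  leibR b x := by
    change A.D (x * b) = x * A.D b + A.D x * b
    rw [A.D_mul, add_comm]

/-- `A` as a left dg module -/
def selfL : LM A := (selfB A).toLM

/-- `A` as a right dg module -/
def selfR : RM A := (selfB A).toRM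

variable {A}

theorem selfL_smul (a x : A.C) : (show (selfL A).X from a • (show (selfL A).X from x)) = a * x :=
  rfl

theorem selfR_smul (a x : A.C) :
    (show (selfR A).X from op a • (show (selfR A).X from x)) = x * a := rfl

end self

/-! ### augmented cells -/

section aug

variable {A : DGA K}

/-- the linear map `x ↦ ∑ x σ • v σ` -/
noncomputable def augL (X : LCells A) (N : LM A) (v : X.ι → N.X) : (X.ι →₀ A.C) →ₗ[K] N.X :=
  Finsupp.lsum K fun σ =>
    { toFun := fun a => a • v σ
      map_add' := fun a b => add_smul a b (v σ)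
      map_smul' := fun r a => smul_assoc r a (v σ) }

theorem augL_single (X : LCells A) (N : LM A) (v : X.ι → N.X) (σ : X.ι) (a : A.C) :
    augL X N v (Finsupp.single σ a) = a • v σ := by
  simp [augL]

theorem augL_apply (X : LCells A) (N : LM A) (v : X.ι → N.X) (x : X.ι →₀ A.C) :
    augL X N v x = x.sum fun σ a => a • v σ := by
  simp [augL, Finsupp.lsum_apply]

/-- the linear map `y ↦ ∑ v σ * y σ` -/
noncomputable def augR (Y : RCells A) (G : RM A) (v : Y.ι → G.X) : (Y.ι →₀ A.C) →ₗ[K] G.X :=
  Finsupp.lsum K fun σ =>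
    { toFun := fun a => op a • v σ
      map_add' := fun a b => by rw [op_add, add_smul]
      map_smul' := fun r a => by rw [op_smul, smul_assoc]; rfl }

theorem augR_single (Y : RCells A) (G : RM A) (v : Y.ι → G.X) (σ : Y.ι) (a : A.C) :
    augR Y G v (Finsupp.single σ a) = op a • v σ := by
  simp [augR]

/-- the left cells `X` with a chain map `X → N[lo]` -/
structure LAug (X : LCells A) (N : LM A) where
  lo : ℤ
  v : X.ι → N.X
  v_mem : ∀ σ, v σ ∈ N.gr (lo + X.s σ)
  v_e : ∀ σ, X.e σ • v σ = v σ
  v_d : ∀ σ, N.d (v σ) = ∑ τ ∈ X.F (X.s σ), X.c σ τ • v τ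

/-- the right cells `Y` with a chain map `Y → G[lo]` -/
structure RAug (Y : RCells A) (G : RM A) where
  lo : ℤ
  v : Y.ι → G.X
  v_mem : ∀ σ, v σ ∈ G.gr (lo + Y.s σ)
  v_e : ∀ σ, op (Y.e σ) • v σ = v σ
  v_d : ∀ σ, G.d (v σ) = ∑ τ ∈ Y.F (Y.s σ), op (Y.c τ σ) • v τ

/-- left cell resolution: the cone of `X → N` is acyclic -/
structure LRes (X : LCells A) (N : LM A) extends LAug X N where
  ex : ∀ (k : ℤ) (x : X.ι →₀ A.C) (n : N.X), x ∈ (tG (selfR A) X).gr (k - 1) →
    (tG (selfR A) X).d x = 0 → n ∈ N.gr (lo + k) → augL X N v x + N.d n = 0 →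
    ∃ y ∈ (tG (selfR A) X).gr k, ∃ n' ∈ N.gr (lo + k + 1),
      (tG (selfR A) X).d y = x ∧ n = augL X N v y + N.d n'

/-- right cell resolution: the cone of `Y → G` is acyclic -/
structure RRes (Y : RCells A) (G : RM A) extends RAug Y G where
  ex : ∀ (k : ℤ) (x : Y.ι →₀ A.C) (n : G.X), x ∈ (tY Y (selfL A)).gr (k - 1) →
    (tY Y (selfL A)).d x = 0 → n ∈ G.gr (lo + k) → augR Y G v x + G.d n = 0 →
    ∃ y ∈ (tY Y (selfL A)).gr k, ∃ n' ∈ G.gr (lo + k + 1),
      (tY Y (selfL A)).d y = x ∧ n = augR Y G v y + G.d n'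

end aug

end Crest.Agent.R186.Res255
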