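import Crest.Agent.R186.Frame_515

/-!
Row 186, half (A) (helper726): calculus of "exactness modulo a dg submodule" for `Y ⊗ N`
(`Y` right cells, `N` a left dg module): transitivity, quotients, copies, Koszul, degree induction.
-/

set_option autoImplicit false
set_option linter.style.haveILetI false
set_option linter.unusedSectionVars false

open MulOpposite

namespace Crest.Agent.R186.AcY726

open Hat827 Hat827.DGA Frame515

variable {K : Type} [Field K] {A : DGA K}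

/-- `F`-valued families exact modulo `F'` in degree `n` -/
def AcQ (Y : RCells A) (N : LM A) (F F' : Submodule A.C N.X) (n : ℤ) : Prop :=
  ∀ x : Y.ι →₀ N.X, x ∈ (tY Y N).gr n → (∀ σ, x σ ∈ F) → (∀ σ, (tY Y N).d x σ ∈ F') →
    ∃ y ∈ (tY Y N).gr (n + 1), (∀ σ, y σ ∈ F) ∧ ∀ σ, x σ - (tY Y N).d y σ ∈ F'

variable {Y : RCells A} {N : LM A}

theorem d_apply (x : Y.ι →₀ N.X) (S : Finset Y.ι) (hS : x.support ⊆ S) (τ : Y.ι) :
    (tY Y N).d x τ = N.d (x τ) + ∑ σ ∈ S, Y.c τ σ • x σ :=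
  (twY Y N).dd_apply' x S hS τ

theorem mem_grY {x : Y.ι →₀ N.X} {n : ℤ} :
    x ∈ (tY Y N).gr n ↔ ∀ σ, x σ ∈ N.gr (n - Y.s σ) ∧ Y.e σ • x σ = x σ := Iff.rfl

theorem d_mem_gr {x : Y.ι →₀ N.X} {n : ℤ} (h : x ∈ (tY Y N).gr (n + 1)) :
    (tY Y N).d x ∈ (tY Y N).gr n := by
  have := (tY Y N).d_mem h
  rwa [add_sub_cancel_right] at this

theorem d_mem_F {F : Submodule A.C N.X} (hF : ∀ x ∈ F, N.d x ∈ F) {x : Y.ι →₀ N.X}
    (h : ∀ σ, x σ ∈ F) (σ : Y.ι) : (tY Y N).d x σ ∈ F := by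
  rw [d_apply x x.support (Finset.Subset.refl _)]
  exact F.add_mem (hF _ (h σ)) (F.sum_mem fun ρ _ => F.smul_mem _ (h ρ))

theorem AcQ.trans {F F' F'' : Submodule A.C N.X} {n : ℤ} (h1 : AcQ Y N F F' n)
    (h2 : AcQ Y N F' F'' n) (hFF : F' ≤ F) (hF : F'' ≤ F') : AcQ Y N F F'' n := by
  intro x hx hxF hdx
  obtain ⟨y, hy, hyF, hxy⟩ := h1 x hx hxF fun σ => hF (hdx σ)
  have hx' : x - (tY Y N).d y ∈ (tY Y N).gr n := Submodule.sub_mem _ hx (d_mem_gr hy)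
  obtain ⟨z, hz, hzF, hxz⟩ := h2 (x - (tY Y N).d y) hx' (fun σ => hxy σ) (fun σ => by
    rw [map_sub, (tY Y N).d_d, sub_zero]; exact hdx σ)
  refine ⟨y + z, Submodule.add_mem _ hy hz, fun σ => F.add_mem (hyF σ) (hFF (hzF σ)), fun σ => ?_⟩
  have := hxz σ
  rwa [Finsupp.sub_apply, sub_sub, ← Finsupp.add_apply, ← map_add] at this

theorem AcQ.quot {J : Submodule A.C N.X} {n : ℤ} (h1 : AcQ Y N ⊤ ⊥ (n + 1))
    (h2 : AcQ Y N J ⊥ n) : AcQ Y N ⊤ J (n + 1) := by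
  intro x hx _ hdx
  obtain ⟨y, hy, hyJ, hxy⟩ := h2 ((tY Y N).d x) (d_mem_gr hx) hdx (fun σ => by
    rw [(tY Y N).d_d]; exact Submodule.zero_mem _)
  have hx' : x - y ∈ (tY Y N).gr (n + 1) := Submodule.sub_mem _ hx hy
  have hd : ∀ σ, (tY Y N).d (x - y) σ ∈ (⊥ : Submodule A.C N.X) := fun σ => by
    rw [map_sub]
    exact hxy σ
  obtain ⟨z, hz, -, hxz⟩ := h1 (x - y) hx' (fun σ => trivial) hd
  refine ⟨z, hz, fun σ => trivial, fun σ => ?_⟩
  have h3 : (x - y) σ - (tY Y N).d z σ = 0 := (Submodule.mem_bot _).1 (hxz σ)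
  have h4 : x σ - (tY Y N).d z σ = y σ := by
    rw [Finsupp.sub_apply] at h3
    rw [← sub_eq_zero, ← h3]; abel
  rw [h4]
  exact hyJ σ

theorem AcQ.zero {F F' : Submodule A.C N.X} (h0 : ∀ j : ℤ, j < 0 → N.gr j = ⊥) {n : ℤ} (hn : n < 0) :
    AcQ Y N F F' n := by
  intro x hx _ _
  have hx0 : x = 0 := by
    ext σ
    have h := (hx σ).1
    rw [h0 _ (by omega), Submodule.mem_bot] at h
    rw [h]; rfl
  refine ⟨0, Submodule.zero_mem _, fun σ => F.zero_mem, fun σ => ?_⟩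
  rw [hx0, map_zero, Finsupp.zero_apply, sub_zero]
  exact F'.zero_mem

theorem acQ_iff {n : ℤ} : AcQ Y N ⊤ ⊥ n ↔
    ∀ x ∈ (tY Y N).gr n, (tY Y N).d x = 0 → ∃ y ∈ (tY Y N).gr (n + 1), (tY Y N).d y = x := by
  constructor
  · intro h x hx hd
    obtain ⟨y, hy, -, hxy⟩ := h x hx (fun σ => trivial) (fun σ => by rw [hd]; exact Submodule.zero_mem _)
    refine ⟨y, hy, ?_⟩
    ext σ
    exact (sub_eq_zero.1 ((Submodule.mem_bot _).1 (hxy σ))).symm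
  · intro h x hx _ hd
    obtain ⟨y, hy, hxy⟩ := h x hx (by ext σ; exact (Submodule.mem_bot _).1 (hd σ))
    exact ⟨y, hy, fun σ => trivial, fun σ => by rw [hxy, sub_self]; exact Submodule.zero_mem _⟩

/-- an `A`-linear map applied to all coordinates -/
noncomputable def um {N' : LM A} (u : N'.X →+ N.X) (x : Y.ι →₀ N'.X) : Y.ι →₀ N.X :=
  Finsupp.mapRange u (map_zero u) x

@[simp] theorem um_apply {N' : LM A} (u : N'.X →+ N.X) (x : Y.ι →₀ N'.X) (σ : Y.ι) :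
    um (Y := Y) u x σ = u (x σ) := rfl

/-- commutation of `um` with the differential, modulo a submodule -/
theorem um_d {N' : LM A} (u : N'.X →+ N.X) (hu : ∀ (a : A.C) r, u (a • r) = a • u r)
    (F' : Submodule A.C N.X) {x : Y.ι →₀ N'.X} (hd : ∀ σ, N.d (u (x σ)) - u (N'.d (x σ)) ∈ F')
    (τ : Y.ι) : (tY Y N).d (um u x) τ - u ((tY Y N').d x τ) ∈ F' := by
  rw [d_apply (um u x) x.support (Finsupp.support_mapRange), d_apply x x.support (Finset.Subset.refl _),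
    map_add, map_sum]
  have : ∑ σ ∈ x.support, Y.c τ σ • (um u x) σ = ∑ σ ∈ x.support, u (Y.c τ σ • x σ) :=
    Finset.sum_congr rfl fun σ _ => by rw [hu, um_apply]
  rw [this, um_apply, add_sub_add_right_eq_sub]
  exact hd τ

/-- `F / F'` is a finite direct sum of shifted copies of `N' k / J k` -/
structure Copies (N : LM A) (F F' : Submodule A.C N.X) (κ : Type) [Fintype κ] (N' : κ → LM A)
    (J : ∀ k, Submodule A.C (N' k).X) (c : κ → ℤ) where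
  u : ∀ k, (N' k).X →+ N.X
  u_smul : ∀ k (a : A.C) r, u k (a • r) = a • u k r
  u_mem : ∀ k {j : ℤ} {r}, r ∈ (N' k).gr j → u k r ∈ N.gr (j + c k)
  u_F : ∀ k r, u k r ∈ F
  u_J : ∀ k, ∀ r ∈ J k, u k r ∈ F'
  u_d : ∀ k r, N.d (u k r) - u k ((N' k).d r) ∈ F'
  gen : ∀ {j : ℤ} {x : N.X}, x ∈ N.gr j → x ∈ F → ∃ r : ∀ k, (N' k).X,
    (∀ k, r k ∈ (N' k).gr (j - c k)) ∧ x - ∑ k, u k (r k) ∈ F'
  uniq : ∀ (j : ℤ) (r : ∀ k, (N' k).X), (∀ k, r k ∈ (N' k).gr (j - c k)) → ∑ k, u k (r k) ∈ F' →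
    ∀ k, r k ∈ J k

theorem LM.smul_gr0 {N : LM A} {a : A.C} {x : N.X} {j : ℤ} (ha : a ∈ A.G 0) (hx : x ∈ N.gr j) :
    a • x ∈ N.gr j := by
  have := N.smul_mem ha hx
  rwa [zero_add] at this

theorem Copies.acQ {F F' : Submodule A.C N.X} {κ : Type} [Fintype κ] {N' : κ → LM A}
    {J : ∀ k, Submodule A.C (N' k).X} {c : κ → ℤ} (Q : Copies N F F' κ N' J c)
    (hF' : ∀ x ∈ F', N.d x ∈ F') {n : ℤ} (h : ∀ k, AcQ Y (N' k) ⊤ (J k) (n - c k)) :
    AcQ Y N F F' n := by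
  classical
  intro x hx hxF hdx
  have h1 : ∀ σ, ∃ r : ∀ k, (N' k).X, (∀ k, r k ∈ (N' k).gr (n - Y.s σ - c k)) ∧
      x σ - ∑ k, Q.u k (r k) ∈ F' := fun σ => Q.gen (hx σ).1 (hxF σ)
  choose r0 hr0 hr0' using h1
  -- the families
  let R : ∀ k, Y.ι →₀ (N' k).X := fun k =>
    Finsupp.onFinset x.support (fun σ => if x σ = 0 then 0 else Y.e σ • r0 σ k) (by
      intro σ hσ
      rw [Finsupp.mem_support_iff]
      intro h0
      exact hσ (if_pos h0))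
  have hR : ∀ k σ, R k σ = if x σ = 0 then 0 else Y.e σ • r0 σ k := fun k σ => rfl
  have hRgr : ∀ k, R k ∈ (tY Y (N' k)).gr (n - c k) := by
    intro k σ
    rw [hR]
    split_ifs with h0
    · exact ⟨Submodule.zero_mem _, smul_zero _⟩
    · refine ⟨?_, ?_⟩
      · have := LM.smul_gr0 (Y.e_mem σ) (hr0 σ k)
        rwa [show n - (Y.s σ : ℤ) - c k = n - c k - Y.s σ by ring] at this
      · change Y.e σ • Y.e σ • r0 σ k = Y.e σ • r0 σ k
        rw [smul_smul, Y.e_idem]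
  have hRs : ∀ k, (R k).support ⊆ x.support := fun k => Finsupp.support_onFinset_subset
  have hxR : ∀ σ, x σ - ∑ k, Q.u k (R k σ) ∈ F' := by
    intro σ
    by_cases h0 : x σ = 0
    · have : ∑ k, Q.u k (R k σ) = 0 := Finset.sum_eq_zero fun k _ => by
        rw [hR, if_pos h0, map_zero]
      rw [h0, this, sub_zero]
      exact F'.zero_mem
    · have h2 : ∑ k, Q.u k (R k σ) = Y.e σ • ∑ k, Q.u k (r0 σ k) := by
        rw [Finset.smul_sum]
        exact Finset.sum_congr rfl fun k _ => by rw [hR, if_neg h0, Q.u_smul]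
      have h3 : x σ - ∑ k, Q.u k (R k σ) = Y.e σ • (x σ - ∑ k, Q.u k (r0 σ k)) := by
        rw [h2, smul_sub]
        congr 1
        exact (hx σ).2.symm
      rw [h3]
      exact F'.smul_mem _ (hr0' σ)
  -- differentials
  have hum : ∀ k (z : Y.ι →₀ (N' k).X) τ,
      (tY Y N).d (um (Q.u k) z) τ - Q.u k ((tY Y (N' k)).d z τ) ∈ F' := fun k z τ =>
    um_d (Q.u k) (Q.u_smul k) F' (fun σ => Q.u_d k _) τ
  have hdR : ∀ τ, ∑ k, Q.u k ((tY Y (N' k)).d (R k) τ) ∈ F' := by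
    intro τ
    have h2 : (tY Y N).d (x - ∑ k, um (Q.u k) (R k)) τ ∈ F' := by
      refine d_mem_F hF' (fun σ => ?_) τ
      rw [Finsupp.sub_apply, Finsupp.finsetSum_apply]
      exact hxR σ
    rw [map_sub, map_sum, Finsupp.sub_apply, Finsupp.finsetSum_apply] at h2
    have h3 : ∑ k, Q.u k ((tY Y (N' k)).d (R k) τ) = (tY Y N).d x τ -
        ((tY Y N).d x τ - ∑ k, (tY Y N).d (um (Q.u k) (R k)) τ) -
        ∑ k, ((tY Y N).d (um (Q.u k) (R k)) τ - Q.u k ((tY Y (N' k)).d (R k) τ)) := by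
      rw [Finset.sum_sub_distrib]; abel
    rw [h3]
    exact F'.sub_mem (F'.sub_mem (hdx τ) h2) (F'.sum_mem fun k _ => hum k _ τ)
  have hJ : ∀ τ k, (tY Y (N' k)).d (R k) τ ∈ J k := by
    intro τ
    refine Q.uniq (n - 1 - Y.s τ) _ (fun k => ?_) (hdR τ)
    have := ((tY Y (N' k)).d_mem (hRgr k) τ).1
    rwa [show n - c k - 1 - (Y.s τ : ℤ) = n - 1 - Y.s τ - c k by ring] at this
  have h5 := fun k => h k (R k) (hRgr k) (fun σ => trivial) (fun τ => hJ τ k)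
  choose z hz _ hRz using h5
  refine ⟨∑ k, um (Q.u k) (z k), Submodule.sum_mem _ fun k _ σ => ⟨?_, ?_⟩, fun σ => ?_, fun σ => ?_⟩
  · rw [um_apply]
    have := Q.u_mem k (hz k σ).1
    rwa [show n - c k + 1 - (Y.s σ : ℤ) + c k = n + 1 - Y.s σ by ring] at this
  · change Y.e σ • (um (Q.u k) (z k)) σ = (um (Q.u k) (z k)) σ
    rw [um_apply, ← Q.u_smul]
    congr 1
    exact (hz k σ).2
  · rw [Finsupp.finsetSum_apply]
    exact F.sum_mem fun k _ => Q.u_F k _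
  · rw [map_sum, Finsupp.finsetSum_apply]
    have h3 : x σ - ∑ k, (tY Y N).d (um (Q.u k) (z k)) σ = (x σ - ∑ k, Q.u k (R k σ)) +
        ∑ k, Q.u k (R k σ - (tY Y (N' k)).d (z k) σ) -
        ∑ k, ((tY Y N).d (um (Q.u k) (z k)) σ - Q.u k ((tY Y (N' k)).d (z k) σ)) := by
      simp only [map_sub, Finset.sum_sub_distrib]; abel
    rw [h3]
    exact F'.sub_mem (F'.add_mem (hxR σ) (F'.sum_mem fun k _ => Q.u_J k _ (hRz k σ)))
      (F'.sum_mem fun k _ => hum k _ σ)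

/-- Koszul data `N1 → N0 ⊕ N0 → N`, modulo submodules -/
structure Kos (N1 N0 N : LM A) (J1 : Submodule A.C N1.X) (J0 : Submodule A.C N0.X)
    (J : Submodule A.C N.X) where
  a : Fin 2 → N1.X →+ N0.X
  b : Fin 2 → N0.X →+ N.X
  a_smul : ∀ t (s : A.C) r, a t (s • r) = s • a t r
  b_smul : ∀ t (s : A.C) r, b t (s • r) = s • b t r
  a_mem : ∀ t {j : ℤ} {r}, r ∈ N1.gr j → a t r ∈ N0.gr j
  b_mem : ∀ t {j : ℤ} {r}, r ∈ N0.gr j → b t r ∈ N.gr j
  a_d : ∀ t r, N0.d (a t r) = a t (N1.d r)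
  b_d : ∀ t r, N.d (b t r) = b t (N0.d r)
  b_J : ∀ t, ∀ r ∈ J0, b t r ∈ J
  ba : ∀ r, b 0 (a 0 r) + b 1 (a 1 r) ∈ J
  gen : ∀ {j : ℤ} {x : N.X}, x ∈ N.gr j → ∃ r : Fin 2 → N0.X, (∀ t, r t ∈ N0.gr j) ∧
    x - (b 0 (r 0) + b 1 (r 1)) ∈ J
  ker : ∀ {j : ℤ} (r : Fin 2 → N0.X), (∀ t, r t ∈ N0.gr j) → b 0 (r 0) + b 1 (r 1) ∈ J →
    ∃ c ∈ N1.gr j, ∀ t, r t - a t c ∈ J0
  inj : ∀ {j : ℤ} {c : N1.X}, c ∈ N1.gr j → a 0 c ∈ J0 → c ∈ J1

theorem Kos.acQ {N1 N0 : LM A} {J1 : Submodule A.C N1.X} {J0 : Submodule A.C N0.X}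
    {J : Submodule A.C N.X} (Q : Kos N1 N0 N J1 J0 J) (hJ0 : ∀ x ∈ J0, N0.d x ∈ J0)
    (hJ : ∀ x ∈ J, N.d x ∈ J) (haJ : ∀ t, ∀ r ∈ J1, Q.a t r ∈ J0) {n : ℤ}
    (h0 : AcQ Y N0 ⊤ J0 n) (h1 : AcQ Y N1 ⊤ J1 (n - 1)) :
    AcQ Y N ⊤ J n := by
  classical
  intro x hx _ hdx
  have e1 : ∀ σ, ∃ r : Fin 2 → N0.X, (∀ t, r t ∈ N0.gr (n - Y.s σ)) ∧
      x σ - (Q.b 0 (r 0) + Q.b 1 (r 1)) ∈ J := fun σ => Q.gen (hx σ).1
  choose r0 hr0 hr0' using e1
  let R : Fin 2 → (Y.ι →₀ N0.X) := fun t =>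
    Finsupp.onFinset x.support (fun σ => if x σ = 0 then 0 else Y.e σ • r0 σ t) (by
      intro σ hσ
      rw [Finsupp.mem_support_iff]
      intro h0
      exact hσ (if_pos h0))
  have hR : ∀ t σ, R t σ = if x σ = 0 then 0 else Y.e σ • r0 σ t := fun k σ => rfl
  have hRgr : ∀ t, R t ∈ (tY Y N0).gr n := by
    intro t σ
    rw [hR]
    split_ifs with h0
    · exact ⟨Submodule.zero_mem _, smul_zero _⟩
    · refine ⟨LM.smul_gr0 (Y.e_mem σ) (hr0 σ t), ?_⟩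
      change Y.e σ • Y.e σ • r0 σ t = Y.e σ • r0 σ t
      rw [smul_smul, Y.e_idem]
  have hxR : ∀ σ, x σ - (Q.b 0 (R 0 σ) + Q.b 1 (R 1 σ)) ∈ J := by
    intro σ
    by_cases h0 : x σ = 0
    · rw [hR, hR, if_pos h0, if_pos h0, map_zero, map_zero, h0, add_zero, sub_zero]
      exact J.zero_mem
    · have h3 : x σ - (Q.b 0 (R 0 σ) + Q.b 1 (R 1 σ)) =
          Y.e σ • (x σ - (Q.b 0 (r0 σ 0) + Q.b 1 (r0 σ 1))) := by
        rw [hR, hR, if_neg h0, if_neg h0, Q.b_smul, Q.b_smul, smul_sub, smul_add]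
        congr 1
        exact (hx σ).2.symm
      rw [h3]
      exact J.smul_mem _ (hr0' σ)
  have hb : ∀ t (z : Y.ι →₀ N0.X) τ, (tY Y N).d (um (Q.b t) z) τ = Q.b t ((tY Y N0).d z τ) := by
    intro t z τ
    have := um_d (Y := Y) (N := N) (Q.b t) (Q.b_smul t) ⊥ (x := z) (fun σ => by
      rw [Q.b_d, sub_self]; exact Submodule.zero_mem _) τ
    exact sub_eq_zero.1 ((Submodule.mem_bot _).1 this)
  have ha : ∀ t (z : Y.ι →₀ N1.X) τ, (tY Y N0).d (um (Q.a t) z) τ = Q.a t ((tY Y N1).d z τ) := by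
    intro t z τ
    have := um_d (Y := Y) (N := N0) (Q.a t) (Q.a_smul t) ⊥ (x := z) (fun σ => by
      rw [Q.a_d, sub_self]; exact Submodule.zero_mem _) τ
    exact sub_eq_zero.1 ((Submodule.mem_bot _).1 this)
  have hdR : ∀ τ, Q.b 0 ((tY Y N0).d (R 0) τ) + Q.b 1 ((tY Y N0).d (R 1) τ) ∈ J := by
    intro τ
    have h2 : (tY Y N).d (x - (um (Q.b 0) (R 0) + um (Q.b 1) (R 1))) τ ∈ J := by
      refine d_mem_F hJ (fun σ => ?_) τ
      exact hxR σ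
    rw [map_sub, map_add, Finsupp.sub_apply, Finsupp.add_apply, hb, hb] at h2
    have := J.sub_mem (hdx τ) h2
    rwa [sub_sub_cancel] at this
  have e2 : ∀ τ, ∃ c ∈ N1.gr (n - 1 - Y.s τ), ∀ t, (tY Y N0).d (R t) τ - Q.a t c ∈ J0 := fun τ =>
    Q.ker (fun t => (tY Y N0).d (R t) τ) (fun t => ((tY Y N0).d_mem (hRgr t) τ).1) (hdR τ)
  choose c0 hc0 hc0' using e2
  let S : Finset Y.ι := ((tY Y N0).d (R 0)).support ∪ ((tY Y N0).d (R 1)).support
  let C : Y.ι →₀ N1.X := Finsupp.onFinset S (fun σ => if σ ∈ S then Y.e σ • c0 σ else 0) (by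
      intro σ hσ
      by_contra h0
      exact hσ (if_neg h0))
  have hC : ∀ σ, C σ = if σ ∈ S then Y.e σ • c0 σ else 0 := fun σ => rfl
  have hCgr : C ∈ (tY Y N1).gr (n - 1) := by
    intro σ
    rw [hC]
    split_ifs with h0
    · refine ⟨LM.smul_gr0 (Y.e_mem σ) (hc0 σ), ?_⟩
      change Y.e σ • Y.e σ • c0 σ = Y.e σ • c0 σ
      rw [smul_smul, Y.e_idem]
    · exact ⟨Submodule.zero_mem _, smul_zero _⟩
  have hRC : ∀ t σ, (tY Y N0).d (R t) σ - Q.a t (C σ) ∈ J0 := by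
    intro t σ
    by_cases h0 : σ ∈ S
    · have h3 : (tY Y N0).d (R t) σ - Q.a t (C σ) = Y.e σ • ((tY Y N0).d (R t) σ - Q.a t (c0 σ)) := by
        rw [hC, if_pos h0, Q.a_smul, smul_sub]
        congr 1
        exact ((tY Y N0).d_mem (hRgr t) σ).2.symm
      rw [h3]
      exact J0.smul_mem _ (hc0' σ t)
    · have h4 : (tY Y N0).d (R t) σ = 0 := by
        by_contra hne
        apply h0
        have h6 : σ ∈ ((tY Y N0).d (R t)).support := Finsupp.mem_support_iff.2 hne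
        rcases (by omega : t = 0 ∨ t = 1) with rfl | rfl
        · exact Finset.mem_union_left _ h6
        · exact Finset.mem_union_right _ h6
      rw [h4, hC, if_neg h0, map_zero, sub_zero]
      exact J0.zero_mem
  have hdC : ∀ σ, (tY Y N1).d C σ ∈ J1 := by
    intro σ
    refine Q.inj ((tY Y N1).d_mem hCgr σ).1 ?_
    rw [← ha]
    have h2 : (tY Y N0).d ((tY Y N0).d (R 0) - um (Q.a 0) C) σ ∈ J0 :=
      d_mem_F hJ0 (fun τ => hRC 0 τ) σ
    rw [map_sub, (tY Y N0).d_d, zero_sub, Finsupp.neg_apply] at h2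
    exact (J0.neg_mem_iff).1 h2
  obtain ⟨E, hE, -, hCE⟩ := h1 C hCgr (fun σ => trivial) hdC
  rw [sub_add_cancel] at hE
  -- correct `R`
  have hR' : ∀ t, R t - um (Q.a t) E ∈ (tY Y N0).gr n := by
    intro t
    refine Submodule.sub_mem _ (hRgr t) fun σ => ⟨Q.a_mem t (hE σ).1, ?_⟩
    change Y.e σ • (um (Q.a t) E) σ = (um (Q.a t) E) σ
    rw [um_apply, ← Q.a_smul]
    congr 1
    exact (hE σ).2
  have hdR' : ∀ t σ, (tY Y N0).d (R t - um (Q.a t) E) σ ∈ J0 := by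
    intro t σ
    rw [map_sub, Finsupp.sub_apply, ha]
    have h3 : (tY Y N0).d (R t) σ - Q.a t ((tY Y N1).d E σ) =
        ((tY Y N0).d (R t) σ - Q.a t (C σ)) + Q.a t (C σ - (tY Y N1).d E σ) := by
      rw [map_sub]; abel
    rw [h3]
    exact J0.add_mem (hRC t σ) (haJ t _ (hCE σ))
  have e3 := fun t => h0 (R t - um (Q.a t) E) (hR' t) (fun σ => trivial) (hdR' t)
  choose s hs _ hRs using e3
  refine ⟨um (Q.b 0) (s 0) + um (Q.b 1) (s 1), ?_, fun σ => trivial, fun σ => ?_⟩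
  · have hbm : ∀ t, um (Q.b t) (s t) ∈ (tY Y N).gr (n + 1) := by
      intro t σ
      refine ⟨Q.b_mem t (hs t σ).1, ?_⟩
      change Y.e σ • (um (Q.b t) (s t)) σ = (um (Q.b t) (s t)) σ
      rw [um_apply, ← Q.b_smul]
      congr 1
      exact (hs t σ).2
    exact Submodule.add_mem _ (hbm 0) (hbm 1)
  · rw [map_add, Finsupp.add_apply, hb, hb]
    have h3 : x σ - (Q.b 0 ((tY Y N0).d (s 0) σ) + Q.b 1 ((tY Y N0).d (s 1) σ)) =
        (x σ - (Q.b 0 (R 0 σ) + Q.b 1 (R 1 σ))) +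
        (Q.b 0 (R 0 σ - Q.a 0 (E σ) - (tY Y N0).d (s 0) σ) +
          Q.b 1 (R 1 σ - Q.a 1 (E σ) - (tY Y N0).d (s 1) σ)) +
        (Q.b 0 (Q.a 0 (E σ)) + Q.b 1 (Q.a 1 (E σ))) := by
      simp only [map_sub]; abel
    rw [h3]
    exact J.add_mem (J.add_mem (hxR σ) (J.add_mem (Q.b_J 0 _ (hRs 0 σ)) (Q.b_J 1 _ (hRs 1 σ))))
      (Q.ba _)

/-- a chain of submodules with quotients made of copies -/
structure Chain (N : LM A) (N' : LM A) (J : Submodule A.C N'.X) (r : ℕ) where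
  F : ℕ → Submodule A.C N.X
  F_d : ∀ i, ∀ x ∈ F i, N.d x ∈ F i
  F_le : ∀ i, F (i + 1) ≤ F i
  F_bot : F r = ⊥
  κ : ℕ → Type
  fin : ∀ i, Fintype (κ i)
  c : ∀ i, κ i → ℤ
  c_nn : ∀ i k, 0 ≤ c i k
  cop : ∀ i, i < r → Copies N (F i) (F (i + 1)) (κ i) (fun _ => N') (fun _ => J) (c i)

theorem Chain.acQ {N' : LM A} {J : Submodule A.C N'.X} {r : ℕ} (Q : Chain N N' J r) {n : ℤ}
    (h : ∀ m, m ≤ n → AcQ Y N' ⊤ J m) (hr : 0 < r) : AcQ Y N (Q.F 0) ⊥ n := by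
  have key : ∀ i, i < r → AcQ Y N (Q.F 0) (Q.F (i + 1)) n ∧ Q.F (i + 1) ≤ Q.F 0 := by
    intro i
    induction i with
    | zero =>
      intro h0
      letI := Q.fin 0
      refine ⟨(Q.cop 0 h0).acQ (Q.F_d 1) fun k => h _ ?_, Q.F_le 0⟩
      have := Q.c_nn 0 k
      omega
    | succ i ih =>
      intro h0
      obtain ⟨h1, h2⟩ := ih (by omega)
      letI := Q.fin (i + 1)
      refine ⟨h1.trans ((Q.cop (i + 1) h0).acQ (Q.F_d (i + 2)) fun k => h _ ?_) h2 (Q.F_le _),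
        (Q.F_le _).trans h2⟩
      have := Q.c_nn (i + 1) k
      omega
  obtain ⟨h1, _⟩ := key (r - 1) (by omega)
  rwa [show r - 1 + 1 = r by omega, Q.F_bot] at h1

/-- degree induction: `J` is filtered by copies of `N / J`, `Y ⊗ N` is acyclic, hence so is
`Y ⊗ (N / J)` -/
theorem jac {J : Submodule A.C N.X} {r : ℕ} (hr : 0 < r) (Q : Chain N N J r) (hJ : Q.F 0 = J)
    (h0 : ∀ j : ℤ, j < 0 → N.gr j = ⊥) (hac : ∀ n, AcQ Y N ⊤ ⊥ n) (n : ℤ) : AcQ Y N ⊤ J n := by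
  have key : ∀ (m : ℕ) (n : ℤ), n < m → AcQ Y N ⊤ J n := by
    intro m
    induction m with
    | zero => intro n hn; exact AcQ.zero h0 (by exact_mod_cast hn)
    | succ m ih =>
      intro n hn
      by_cases h1 : n < m
      · exact ih n h1
      · have h2 : AcQ Y N J ⊥ (n - 1) := by
          rw [← hJ]
          refine Q.acQ (fun k hk => ih k ?_) hr
          push_cast at hn
          omega
        have h3 := AcQ.quot (n := n - 1) (by rw [sub_add_cancel]; exact hac n) h2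
        rwa [sub_add_cancel] at h3
  exact key (n + 1).toNat n (by omega)

end Crest.Agent.R186.AcY726
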