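import Mathlib

/-!
Row 186 (A): pure linear algebra of differential spaces (helper154).

A differential space is a bare `K`-module `M` with an endomorphism `d`; `Acyc d` says that every
cycle is a boundary.  No gradings, no bundling.  `QI dM dN f` says that `f` is a
quasi-isomorphism.  Every lemma is stated with the chain-map identities as plain hypotheses.
-/

set_option autoImplicit false

noncomputable section

namespace Crest.Agent.R186.Acy154

open TensorProduct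

section Basic

variable {K : Type*} [Field K]
variable {M : Type*} [AddCommGroup M] [Module K M]
variable {N : Type*} [AddCommGroup N] [Module K N]
variable {P : Type*} [AddCommGroup P] [Module K P]

/-- every cycle is a boundary -/
def Acyc (d : M →ₗ[K] M) : Prop := ∀ x, d x = 0 → ∃ y, d y = x

/-- `f` is a quasi-isomorphism of differential spaces (`f` is meant to commute with `d`) -/
def QI (dM : M →ₗ[K] M) (dN : N →ₗ[K] N) (f : M →ₗ[K] N) : Prop :=
  (∀ x, dM x = 0 → (∃ y, dN y = f x) → ∃ z, dM z = x) ∧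
    ∀ y, dN y = 0 → ∃ x z, dM x = 0 ∧ f x + dN z = y

/-- **acyclicity from a contracting homotopy up to a locally nilpotent error** -/
theorem acyc_of_homotopy (d H ν : M →ₗ[K] M) (hdd : ∀ x, d (d x) = 0)
    (h : ∀ x, d (H x) + H (d x) = x + ν x) (hν : ∀ x, ∃ n, (ν ^ n) x = 0) : Acyc d := by
  have hcomm : ∀ x, d (ν x) = ν (d x) := by
    intro x
    have h1 := congrArg d (h x)
    have h2 := h (d x)
    rw [map_add, map_add, hdd, zero_add] at h1
    rw [hdd, map_zero, add_zero] at h2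
    rw [h2] at h1
    exact (add_left_cancel h1).symm
  have key : ∀ n x, (ν ^ n) x = 0 → d x = 0 → ∃ y, d y = x := by
    intro n
    induction n with
    | zero =>
      intro x hx _
      exact ⟨0, by rw [map_zero]; exact hx.symm⟩
    | succ n ih =>
      intro x hx hdx
      have hx' : (ν ^ n) (ν x) = 0 := by
        rw [pow_succ] at hx
        exact hx
      obtain ⟨y, hy⟩ := ih (ν x) hx' (by rw [hcomm, hdx, map_zero])
      refine ⟨H x - y, ?_⟩
      have h1 := h x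
      rw [hdx, map_zero, add_zero] at h1
      rw [map_sub, h1, hy, add_sub_cancel_right]
  intro x hx
  obtain ⟨n, hn⟩ := hν x
  exact key n x hn hx

/-- contracting homotopy gives acyclicity -/
theorem acyc_of_contraction (d H : M →ₗ[K] M)
    (h : ∀ x, d (H x) + H (d x) = x) : Acyc d := by
  intro x hx
  refine ⟨H x, ?_⟩
  have := h x
  rwa [hx, map_zero, add_zero] at this

/-- over a field an acyclic differential has a linear contraction -/
theorem exists_contraction {d : M →ₗ[K] M} (hdd : ∀ x, d (d x) = 0) (hd : Acyc d) :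
    ∃ h : M →ₗ[K] M, ∀ x, d (h x) + h (d x) = x := by
  let dd : M →ₗ[K] LinearMap.ker d := d.codRestrict (LinearMap.ker d)
    (fun x => by rw [LinearMap.mem_ker, hdd])
  have hsurj : LinearMap.range dd = ⊤ := by
    rw [LinearMap.range_eq_top]
    rintro ⟨z, hz⟩
    obtain ⟨y, hy⟩ := hd z (LinearMap.mem_ker.1 hz)
    exact ⟨y, Subtype.ext hy⟩
  obtain ⟨s, hs⟩ := LinearMap.exists_rightInverse_of_surjective dd hsurj
  have hs' : ∀ z : LinearMap.ker d, d (s z) = (z : M) := fun z =>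
    congrArg Subtype.val (LinearMap.congr_fun hs z)
  let e : M →ₗ[K] LinearMap.ker d :=
    (LinearMap.id - s ∘ₗ dd).codRestrict (LinearMap.ker d) (fun x => by
      rw [LinearMap.mem_ker, LinearMap.sub_apply, map_sub, LinearMap.comp_apply, hs']
      exact sub_self _)
  have he : ∀ x, ((e x : LinearMap.ker d) : M) = x - s (dd x) := fun x => rfl
  refine ⟨s ∘ₗ e, fun x => ?_⟩
  rw [LinearMap.comp_apply, LinearMap.comp_apply, hs', he]
  have h0 : dd (d x) = 0 := Subtype.ext (hdd x)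
  have h1 : e (d x) = dd x := by
    apply Subtype.ext
    rw [he, h0, map_zero, sub_zero]
    rfl
  rw [h1, sub_add_cancel]

/-! ### short exact sequences -/

variable {dM : M →ₗ[K] M} {dN : N →ₗ[K] N} {dP : P →ₗ[K] P}
variable {i : M →ₗ[K] N} {p : N →ₗ[K] P}

theorem acyc_mid (hi : Function.Injective i) (hp : Function.Surjective p)
    (hex : ∀ x, p x = 0 → ∃ m, i m = x)
    (ci : ∀ x, dN (i x) = i (dM x)) (cp : ∀ x, dP (p x) = p (dN x))
    (hNN : ∀ x, dN (dN x) = 0) (hM : Acyc dM) (hP : Acyc dP) : Acyc dN := by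
  intro x hx
  obtain ⟨y', hy'⟩ := hP (p x) (by rw [cp, hx, map_zero])
  obtain ⟨y, rfl⟩ := hp y'
  obtain ⟨m, hm⟩ := hex (x - dN y) (by rw [map_sub, ← cp, hy', sub_self])
  have hdm : dM m = 0 := by
    apply hi
    rw [← ci, hm, map_sub, hx, hNN, sub_zero, map_zero]
  obtain ⟨m', hm'⟩ := hM m hdm
  refine ⟨y + i m', ?_⟩
  rw [map_add, ci, hm', hm, add_sub_cancel]

theorem acyc_right (hi : Function.Injective i) (hp : Function.Surjective p)
    (hpi : ∀ m, p (i m) = 0) (hex : ∀ x, p x = 0 → ∃ m, i m = x)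
    (ci : ∀ x, dN (i x) = i (dM x)) (cp : ∀ x, dP (p x) = p (dN x))
    (hNN : ∀ x, dN (dN x) = 0) (hM : Acyc dM) (hN : Acyc dN) : Acyc dP := by
  intro z hz
  obtain ⟨x, rfl⟩ := hp z
  obtain ⟨m, hm⟩ := hex (dN x) (by rw [← cp, hz])
  have hdm : dM m = 0 := by
    apply hi
    rw [← ci, hm, hNN, map_zero]
  obtain ⟨m', hm'⟩ := hM m hdm
  obtain ⟨y, hy⟩ := hN (x - i m') (by rw [map_sub, ci, hm', hm, sub_self])
  refine ⟨p y, ?_⟩
  rw [cp, hy, map_sub, hpi, sub_zero]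

theorem acyc_left (hi : Function.Injective i) (hp : Function.Surjective p)
    (hpi : ∀ m, p (i m) = 0) (hex : ∀ x, p x = 0 → ∃ m, i m = x)
    (ci : ∀ x, dN (i x) = i (dM x)) (cp : ∀ x, dP (p x) = p (dN x))
    (hNN : ∀ x, dN (dN x) = 0) (hN : Acyc dN) (hP : Acyc dP) : Acyc dM := by
  intro m hm
  obtain ⟨x, hx⟩ := hN (i m) (by rw [ci, hm, map_zero])
  obtain ⟨z, hz⟩ := hP (p x) (by rw [cp, hx, hpi])
  obtain ⟨y, rfl⟩ := hp z
  obtain ⟨m', hm'⟩ := hex (x - dN y) (by rw [map_sub, ← cp, hz, sub_self])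
  refine ⟨m', ?_⟩
  apply hi
  rw [← ci, hm', map_sub, hNN, sub_zero, hx]

/-- transport along a linear bijection -/
theorem acyc_of_equiv (e : M ≃ₗ[K] N) (ce : ∀ x, dN (e x) = e (dM x)) (hM : Acyc dM) :
    Acyc dN := by
  intro x hx
  obtain ⟨y, hy⟩ := hM (e.symm x) (by
    apply e.injective
    rw [← ce, e.apply_symm_apply, hx, map_zero])
  exact ⟨e y, by rw [ce, hy, e.apply_symm_apply]⟩

theorem acyc_of_subsingleton [Subsingleton M] (d : M →ₗ[K] M) : Acyc d :=
  fun x _ => ⟨0, Subsingleton.elim _ _⟩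

/-- a retract of an acyclic space is acyclic -/
theorem acyc_of_retract (s : M →ₗ[K] N) (r : N →ₗ[K] M) (hrs : ∀ x, r (s x) = x)
    (cs : ∀ x, dN (s x) = s (dM x)) (cr : ∀ x, dM (r x) = r (dN x)) (hN : Acyc dN) :
    Acyc dM := by
  intro x hx
  obtain ⟨y, hy⟩ := hN (s x) (by rw [cs, hx, map_zero])
  exact ⟨r y, by rw [cr, hy, hrs]⟩

theorem acyc_prod (hM : Acyc dM) (hN : Acyc dN) : Acyc (dM.prodMap dN) := by
  rintro ⟨x, y⟩ h
  have h1 : dM x = 0 := congrArg Prod.fst h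
  have h2 : dN y = 0 := congrArg Prod.snd h
  obtain ⟨x', hx'⟩ := hM x h1
  obtain ⟨y', hy'⟩ := hN y h2
  exact ⟨(x', y'), Prod.ext hx' hy'⟩

/-! ### filtrations -/

/-- **increasing exhaustive filtration with acyclic steps** -/
theorem acyc_of_incr (d : M →ₗ[K] M) (hdd : ∀ x, d (d x) = 0) (F : ℕ → Submodule K M)
    (h0 : ∀ x ∈ F 0, d x = 0 → ∃ y, d y = x)
    (hstep : ∀ n, ∀ x ∈ F (n + 1), d x ∈ F n → ∃ y ∈ F (n + 1), x - d y ∈ F n)
    (hex : ∀ x, ∃ n, x ∈ F n) : Acyc d := by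
  have key : ∀ n, ∀ x ∈ F n, d x = 0 → ∃ y, d y = x := by
    intro n
    induction n with
    | zero => exact h0
    | succ n ih =>
      intro x hx hdx
      obtain ⟨y, _, hy⟩ := hstep n x hx (by rw [hdx]; exact zero_mem _)
      obtain ⟨z, hz⟩ := ih (x - d y) hy (by rw [map_sub, hdd, hdx, sub_zero])
      exact ⟨z + y, by rw [map_add, hz, sub_add_cancel]⟩
  intro x hx
  obtain ⟨n, hn⟩ := hex x
  exact key n x hn hx

/-- **decreasing filtration with acyclic steps which ends below every element of a family `G`**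
(`G` = the homogeneous elements of one degree, `T` = those of the degree of the primitives) -/
theorem acyc_of_decr_on (d : M →ₗ[K] M) (hdd : ∀ x, d (d x) = 0) (F : ℕ → Submodule K M)
    (G T : Submodule K M) (hT : ∀ y ∈ T, d y ∈ G)
    (hstep : ∀ n, ∀ x ∈ F n, x ∈ G → d x = 0 → ∃ y ∈ T, x - d y ∈ F (n + 1))
    (n₀ : ℕ) (hend : ∀ x ∈ F n₀, x ∈ G → x = 0) :
    ∀ x ∈ F 0, x ∈ G → d x = 0 → ∃ y ∈ T, d y = x := by
  have key : ∀ k n, n + k = n₀ → ∀ x ∈ F n, x ∈ G → d x = 0 → ∃ y ∈ T, d y = x := by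
    intro k
    induction k with
    | zero =>
      intro n hn x hx hG _
      rw [add_zero] at hn
      subst hn
      exact ⟨0, zero_mem _, by rw [hend x hx hG, map_zero]⟩
    | succ k ih =>
      intro n hn x hx hG hdx
      obtain ⟨y, hyT, hy⟩ := hstep n x hx hG hdx
      obtain ⟨z, hzT, hz⟩ := ih (n + 1) (by omega) (x - d y) hy (sub_mem hG (hT y hyT))
        (by rw [map_sub, hdd, hdx, sub_zero])
      exact ⟨z + y, add_mem hzT hyT, by rw [map_add, hz, sub_add_cancel]⟩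
  exact key n₀ 0 (by omega)

/-! ### quasi-isomorphisms and cones -/

/-- the differential of the cone of `f : M → N`, on `M × N` -/
def coneD (dM : M →ₗ[K] M) (dN : N →ₗ[K] N) (f : M →ₗ[K] N) : (M × N) →ₗ[K] (M × N) :=
  ((-dM) ∘ₗ LinearMap.fst K M N).prod
    (f ∘ₗ LinearMap.fst K M N + dN ∘ₗ LinearMap.snd K M N)

@[simp] theorem coneD_apply (dM : M →ₗ[K] M) (dN : N →ₗ[K] N) (f : M →ₗ[K] N) (x : M × N) :
    coneD dM dN f x = (-dM x.1, f x.1 + dN x.2) := rfl

theorem coneD_sq {f : M →ₗ[K] N} (hMM : ∀ x, dM (dM x) = 0) (hNN : ∀ x, dN (dN x) = 0)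
    (cf : ∀ x, dN (f x) = f (dM x)) (x : M × N) : coneD dM dN f (coneD dM dN f x) = 0 := by
  rw [coneD_apply, coneD_apply]
  refine Prod.ext ?_ ?_
  · show -dM (-dM x.1) = 0
    rw [map_neg, hMM, neg_zero, neg_zero]
  · show f (-dM x.1) + dN (f x.1 + dN x.2) = 0
    rw [map_neg, map_add, cf, hNN, add_zero, neg_add_cancel]

theorem qi_of_cone {f : M →ₗ[K] N} (h : Acyc (coneD dM dN f)) (cf : ∀ x, dN (f x) = f (dM x)) :
    QI dM dN f := by
  constructor
  · rintro x hx ⟨y, hy⟩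
    obtain ⟨⟨z, w⟩, hz⟩ := h (x, -y) (by
      rw [coneD_apply]
      refine Prod.ext ?_ ?_
      · show -dM x = 0
        rw [hx, neg_zero]
      · show f x + dN (-y) = 0
        rw [map_neg, hy, add_neg_cancel])
    have h1 : -dM z = x := congrArg Prod.fst hz
    exact ⟨-z, by rw [map_neg, h1]⟩
  · intro y hy
    obtain ⟨⟨z, w⟩, hz⟩ := h (0, y) (by
      rw [coneD_apply]
      refine Prod.ext ?_ ?_
      · show -dM 0 = 0
        rw [map_zero, neg_zero]
      · show f 0 + dN y = 0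
        rw [map_zero, hy, add_zero])
    have h1 : -dM z = 0 := congrArg Prod.fst hz
    have h2 : f z + dN w = y := congrArg Prod.snd hz
    exact ⟨z, w, neg_eq_zero.1 h1, h2⟩

theorem cone_of_qi {f : M →ₗ[K] N} (h : QI dM dN f) (cf : ∀ x, dN (f x) = f (dM x)) :
    Acyc (coneD dM dN f) := by
  rintro ⟨x, y⟩ hxy
  have h1 : -dM x = 0 := congrArg Prod.fst hxy
  have h2 : f x + dN y = 0 := congrArg Prod.snd hxy
  obtain ⟨z, hz⟩ := h.1 x (neg_eq_zero.1 h1) ⟨-y, by
    rw [map_neg]; exact (eq_neg_of_add_eq_zero_left h2).symm⟩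
  -- `d (-z) = x`, so `y - f (-z)` is a cycle
  obtain ⟨a, b, ha, hb⟩ := h.2 (y + f z) (by
    rw [map_add, cf, hz, add_comm]; exact h2)
  refine ⟨(-z + a, b), ?_⟩
  rw [coneD_apply]
  refine Prod.ext ?_ ?_
  · show -dM (-z + a) = x
    rw [map_add, map_neg, hz, ha, add_zero, neg_neg]
  · show f (-z + a) + dN b = y
    rw [map_add, map_neg, add_assoc, hb]
    abel

theorem qi_iff_cone {f : M →ₗ[K] N} (cf : ∀ x, dN (f x) = f (dM x)) :
    QI dM dN f ↔ Acyc (coneD dM dN f) :=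
  ⟨fun h => cone_of_qi h cf, fun h => qi_of_cone h cf⟩

theorem qi_id : QI dM dM (LinearMap.id) :=
  ⟨fun _ _ h => h, fun y hy => ⟨y, 0, hy, by rw [map_zero, add_zero]; rfl⟩⟩

theorem qi_equiv (e : M ≃ₗ[K] N) (ce : ∀ x, dN (e x) = e (dM x)) :
    QI dM dN (e : M →ₗ[K] N) := by
  constructor
  · rintro x _ ⟨y, hy⟩
    refine ⟨e.symm y, e.injective ?_⟩
    rw [← ce, e.apply_symm_apply]
    exact hy
  · intro y hy
    refine ⟨e.symm y, 0, e.injective ?_, ?_⟩
    · rw [← ce, e.apply_symm_apply, hy, map_zero]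
    · rw [map_zero, add_zero]
      exact e.apply_symm_apply y

theorem qi_comp {f : M →ₗ[K] N} {g : N →ₗ[K] P} (cf : ∀ x, dN (f x) = f (dM x))
    (cg : ∀ x, dP (g x) = g (dN x)) (hf : QI dM dN f) (hg : QI dN dP g) :
    QI dM dP (g ∘ₗ f) := by
  constructor
  · rintro x hx ⟨y, hy⟩
    exact hf.1 x hx (hg.1 (f x) (by rw [cf, hx, map_zero]) ⟨y, hy⟩)
  · intro y hy
    obtain ⟨a, b, ha, hb⟩ := hg.2 y hy
    obtain ⟨a', b', ha', hb'⟩ := hf.2 a ha
    refine ⟨a', g b' + b, ha', ?_⟩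
    rw [LinearMap.comp_apply, map_add, cg, ← add_assoc, ← map_add, hb', hb]

theorem qi_of_comp_right {f : M →ₗ[K] N} {g : N →ₗ[K] P} (cf : ∀ x, dN (f x) = f (dM x))
    (cg : ∀ x, dP (g x) = g (dN x)) (hg : QI dN dP g) (hgf : QI dM dP (g ∘ₗ f)) :
    QI dM dN f := by
  constructor
  · rintro x hx ⟨y, hy⟩
    exact hgf.1 x hx ⟨g y, by rw [cg, hy]; rfl⟩
  · intro y hy
    obtain ⟨x, z, hx, hz⟩ := hgf.2 (g y) (by rw [cg, hy, map_zero])
    obtain ⟨w, hw⟩ := hg.1 (y - f x) (by rw [map_sub, cf, hx, hy, map_zero, sub_zero])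
      ⟨z, by rw [map_sub]; exact eq_sub_of_add_eq' hz⟩
    exact ⟨x, w, hx, by rw [hw, add_sub_cancel]⟩

theorem qi_of_comp_left {f : M →ₗ[K] N} {g : N →ₗ[K] P} (cf : ∀ x, dN (f x) = f (dM x))
    (cg : ∀ x, dP (g x) = g (dN x)) (hf : QI dM dN f) (hgf : QI dM dP (g ∘ₗ f)) :
    QI dN dP g := by
  constructor
  · rintro y hy ⟨z, hz⟩
    obtain ⟨x, w, hx, hw⟩ := hf.2 y hy
    obtain ⟨x', hx'⟩ := hgf.1 x hx ⟨z - g w, by
      rw [map_sub, hz, cg, ← hw, map_add, add_sub_cancel_right]; rfl⟩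
    exact ⟨f x' + w, by rw [map_add, cf, hx', hw]⟩
  · intro z hz
    obtain ⟨x, w, hx, hw⟩ := hgf.2 z hz
    exact ⟨f x, w, by rw [cf, hx, map_zero], hw⟩

/-- a homotopic map is a quasi-isomorphism too -/
theorem qi_homotopy {f g : M →ₗ[K] N} (H : M →ₗ[K] N)
    (hH : ∀ x, g x = f x + (dN (H x) + H (dM x))) (hf : QI dM dN f) : QI dM dN g := by
  constructor
  · rintro x hx ⟨y, hy⟩
    refine hf.1 x hx ⟨y - H x, ?_⟩
    rw [map_sub, hy, hH, hx, map_zero, add_zero, add_sub_cancel_right]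
  · intro y hy
    obtain ⟨a, b, ha, hb⟩ := hf.2 y hy
    refine ⟨a, b - H a, ha, ?_⟩
    rw [hH, ha, map_zero, add_zero, map_sub, ← hb]
    abel

theorem acyc_of_qi_left {f : M →ₗ[K] N} (cf : ∀ x, dN (f x) = f (dM x)) (hf : QI dM dN f)
    (hN : Acyc dN) : Acyc dM :=
  fun x hx => hf.1 x hx (hN (f x) (by rw [cf, hx, map_zero]))

theorem acyc_of_qi_right {f : M →ₗ[K] N} (cf : ∀ x, dN (f x) = f (dM x)) (hf : QI dM dN f)
    (hM : Acyc dM) : Acyc dN := by
  intro y hy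
  obtain ⟨a, b, ha, hb⟩ := hf.2 y hy
  obtain ⟨z, hz⟩ := hM a ha
  exact ⟨f z + b, by rw [map_add, cf, hz, hb]⟩

theorem qi_of_acyc {f : M →ₗ[K] N} (hM : Acyc dM) (hN : Acyc dN) : QI dM dN f :=
  ⟨fun x hx _ => hM x hx, fun y hy => by
    obtain ⟨z, hz⟩ := hN y hy
    exact ⟨0, z, map_zero _, by rw [map_zero, zero_add, hz]⟩⟩

/-- in `0 → M → N → P → 0`: `p` is a quasi-isomorphism when `M` is acyclic -/
theorem qi_proj (hi : Function.Injective i) (hp : Function.Surjective p)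
    (hpi : ∀ m, p (i m) = 0) (hex : ∀ x, p x = 0 → ∃ m, i m = x)
    (ci : ∀ x, dN (i x) = i (dM x)) (cp : ∀ x, dP (p x) = p (dN x))
    (hNN : ∀ x, dN (dN x) = 0) (hM : Acyc dM) : QI dN dP p := by
  constructor
  · rintro x hx ⟨z, hz⟩
    obtain ⟨y, rfl⟩ := hp z
    obtain ⟨m, hm⟩ := hex (x - dN y) (by rw [map_sub, ← cp, hz, sub_self])
    obtain ⟨m', hm'⟩ := hM m (by
      apply hi
      rw [← ci, hm, map_sub, hx, hNN, sub_zero, map_zero])
    exact ⟨i m' + y, by rw [map_add, ci, hm', hm, sub_add_cancel]⟩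
  · intro z hz
    obtain ⟨x, rfl⟩ := hp z
    obtain ⟨m, hm⟩ := hex (dN x) (by rw [← cp, hz])
    obtain ⟨m', hm'⟩ := hM m (by
      apply hi
      rw [← ci, hm, hNN, map_zero])
    refine ⟨x - i m', 0, ?_, ?_⟩
    · rw [map_sub, ci, hm', hm, sub_self]
    · rw [map_sub, hpi, sub_zero, map_zero, add_zero]

/-- in `0 → M → N → P → 0`: `i` is a quasi-isomorphism when `P` is acyclic -/
theorem qi_incl (hi : Function.Injective i) (hp : Function.Surjective p)
    (hpi : ∀ m, p (i m) = 0) (hex : ∀ x, p x = 0 → ∃ m, i m = x)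
    (ci : ∀ x, dN (i x) = i (dM x)) (cp : ∀ x, dP (p x) = p (dN x))
    (hNN : ∀ x, dN (dN x) = 0) (hP : Acyc dP) : QI dM dN i := by
  constructor
  · rintro m hm ⟨x, hx⟩
    obtain ⟨z, hz⟩ := hP (p x) (by rw [cp, hx, hpi])
    obtain ⟨y, rfl⟩ := hp z
    obtain ⟨m', hm'⟩ := hex (x - dN y) (by rw [map_sub, ← cp, hz, sub_self])
    exact ⟨m', hi (by rw [← ci, hm', map_sub, hNN, sub_zero, hx])⟩
  · intro x hx
    obtain ⟨z, hz⟩ := hP (p x) (by rw [cp, hx, map_zero])
    obtain ⟨y, rfl⟩ := hp z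
    obtain ⟨m', hm'⟩ := hex (x - dN y) (by rw [map_sub, ← cp, hz, sub_self])
    refine ⟨m', y, ?_, by rw [hm', sub_add_cancel]⟩
    apply hi
    rw [← ci, hm', map_sub, hNN, sub_zero, hx, map_zero]

end Basic

/-! ### five lemma (two out of three quasi-isomorphisms) -/

section Five

variable {K : Type*} [Field K]
variable {M N P : Type*} [AddCommGroup M] [Module K M] [AddCommGroup N] [Module K N]
  [AddCommGroup P] [Module K P]
variable {M' N' P' : Type*} [AddCommGroup M'] [Module K M'] [AddCommGroup N'] [Module K N']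
  [AddCommGroup P'] [Module K P']
variable {dM : M →ₗ[K] M} {dN : N →ₗ[K] N} {dP : P →ₗ[K] P}
variable {dM' : M' →ₗ[K] M'} {dN' : N' →ₗ[K] N'} {dP' : P' →ₗ[K] P'}
variable {i : M →ₗ[K] N} {p : N →ₗ[K] P} {i' : M' →ₗ[K] N'} {p' : N' →ₗ[K] P'}
variable {f : M →ₗ[K] M'} {g : N →ₗ[K] N'} {h : P →ₗ[K] P'}

/-- a map of short exact sequences of differential spaces -/
structure SES (dM : M →ₗ[K] M) (dN : N →ₗ[K] N) (dP : P →ₗ[K] P)
    (i : M →ₗ[K] N) (p : N →ₗ[K] P) : Prop where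
  inj : Function.Injective i
  surj : Function.Surjective p
  pi : ∀ m, p (i m) = 0
  ex : ∀ x, p x = 0 → ∃ m, i m = x
  ci : ∀ x, dN (i x) = i (dM x)
  cp : ∀ x, dP (p x) = p (dN x)
  sq : ∀ x, dN (dN x) = 0

theorem SES.sqM (S : SES dM dN dP i p) (x : M) : dM (dM x) = 0 := by
  apply S.inj
  rw [← S.ci, ← S.ci, S.sq, map_zero]

theorem SES.sqP (S : SES dM dN dP i p) (x : P) : dP (dP x) = 0 := by
  obtain ⟨y, rfl⟩ := S.surj x
  rw [S.cp, S.cp, S.sq, map_zero]

theorem SES.mid (S : SES dM dN dP i p) (hM : Acyc dM) (hP : Acyc dP) : Acyc dN :=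
  acyc_mid S.inj S.surj S.ex S.ci S.cp S.sq hM hP

theorem SES.right (S : SES dM dN dP i p) (hM : Acyc dM) (hN : Acyc dN) : Acyc dP :=
  acyc_right S.inj S.surj S.pi S.ex S.ci S.cp S.sq hM hN

theorem SES.left (S : SES dM dN dP i p) (hN : Acyc dN) (hP : Acyc dP) : Acyc dM :=
  acyc_left S.inj S.surj S.pi S.ex S.ci S.cp S.sq hN hP

/-- the sequence of cones -/
theorem SES.cone (S : SES dM dN dP i p) (S' : SES dM' dN' dP' i' p')
    (cg : ∀ x, dN' (g x) = g (dN x))
    (hfg : ∀ x, g (i x) = i' (f x)) (hgh : ∀ x, h (p x) = p' (g x)) :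
    SES (coneD dM dM' f) (coneD dN dN' g) (coneD dP dP' h) (i.prodMap i') (p.prodMap p') where
  inj := by
    rintro ⟨a, b⟩ ⟨a', b'⟩ hh
    have h1 : i a = i a' := congrArg Prod.fst hh
    have h2 : i' b = i' b' := congrArg Prod.snd hh
    rw [S.inj h1, S'.inj h2]
  surj := by
    rintro ⟨a, b⟩
    obtain ⟨x, hx⟩ := S.surj a
    obtain ⟨y, hy⟩ := S'.surj b
    exact ⟨(x, y), Prod.ext hx hy⟩
  pi := fun m => Prod.ext (S.pi _) (S'.pi _)
  ex := by
    rintro ⟨a, b⟩ hh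
    have h1 : p a = 0 := congrArg Prod.fst hh
    have h2 : p' b = 0 := congrArg Prod.snd hh
    obtain ⟨x, hx⟩ := S.ex a h1
    obtain ⟨y, hy⟩ := S'.ex b h2
    exact ⟨(x, y), Prod.ext hx hy⟩
  ci := by
    rintro ⟨a, b⟩
    refine Prod.ext ?_ ?_
    · show -dN (i a) = i (-dM a)
      rw [S.ci, map_neg]
    · show g (i a) + dN' (i' b) = i' (f a + dM' b)
      rw [hfg, S'.ci, map_add]
  cp := by
    rintro ⟨a, b⟩
    refine Prod.ext ?_ ?_
    · show -dP (p a) = p (-dN a)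
      rw [S.cp, map_neg]
    · show h (p a) + dP' (p' b) = p' (g a + dN' b)
      rw [hgh, S'.cp, map_add]
  sq := fun x => coneD_sq S.sq S'.sq cg x

theorem SES.qi_mid (S : SES dM dN dP i p) (S' : SES dM' dN' dP' i' p')
    (cf : ∀ x, dM' (f x) = f (dM x)) (cg : ∀ x, dN' (g x) = g (dN x))
    (ch : ∀ x, dP' (h x) = h (dP x))
    (hfg : ∀ x, g (i x) = i' (f x)) (hgh : ∀ x, h (p x) = p' (g x))
    (hf : QI dM dM' f) (hh : QI dP dP' h) : QI dN dN' g :=
  qi_of_cone ((S.cone S' cg hfg hgh).mid (cone_of_qi hf cf) (cone_of_qi hh ch)) cg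

theorem SES.qi_right (S : SES dM dN dP i p) (S' : SES dM' dN' dP' i' p')
    (cf : ∀ x, dM' (f x) = f (dM x)) (cg : ∀ x, dN' (g x) = g (dN x))
    (ch : ∀ x, dP' (h x) = h (dP x))
    (hfg : ∀ x, g (i x) = i' (f x)) (hgh : ∀ x, h (p x) = p' (g x))
    (hf : QI dM dM' f) (hg : QI dN dN' g) : QI dP dP' h :=
  qi_of_cone ((S.cone S' cg hfg hgh).right (cone_of_qi hf cf) (cone_of_qi hg cg)) ch

theorem SES.qi_left (S : SES dM dN dP i p) (S' : SES dM' dN' dP' i' p')
    (cf : ∀ x, dM' (f x) = f (dM x)) (cg : ∀ x, dN' (g x) = g (dN x))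
    (ch : ∀ x, dP' (h x) = h (dP x))
    (hfg : ∀ x, g (i x) = i' (f x)) (hgh : ∀ x, h (p x) = p' (g x))
    (hg : QI dN dN' g) (hh : QI dP dP' h) : QI dM dM' f :=
  qi_of_cone ((S.cone S' cg hfg hgh).left (cone_of_qi hg cg) (cone_of_qi hh ch)) cf

end Five

/-! ### tensor products, characteristic two -/

section Tensor

variable {K : Type*} [Field K]
variable {M : Type*} [AddCommGroup M] [Module K M]
variable {N : Type*} [AddCommGroup N] [Module K N]
variable {M' : Type*} [AddCommGroup M'] [Module K M']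
variable {N' : Type*} [AddCommGroup N'] [Module K N']

/-- the total differential of `M ⊗ N`, without signs (characteristic two) -/
def tD (dM : M →ₗ[K] M) (dN : N →ₗ[K] N) : (M ⊗[K] N) →ₗ[K] (M ⊗[K] N) :=
  TensorProduct.map dM LinearMap.id + TensorProduct.map LinearMap.id dN

@[simp] theorem tD_tmul (dM : M →ₗ[K] M) (dN : N →ₗ[K] N) (x : M) (y : N) :
    tD dM dN (x ⊗ₜ y) = dM x ⊗ₜ y + x ⊗ₜ dN y := rfl

theorem two_smul_eq_zero [CharP K 2] (x : M) : x + x = 0 := by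
  rw [← two_smul K x, CharTwo.two_eq_zero, zero_smul]

theorem tD_sq [CharP K 2] {dM : M →ₗ[K] M} {dN : N →ₗ[K] N} (hMM : ∀ x, dM (dM x) = 0)
    (hNN : ∀ x, dN (dN x) = 0) (x : M ⊗[K] N) : tD dM dN (tD dM dN x) = 0 := by
  induction x using TensorProduct.induction_on with
  | zero => rw [map_zero, map_zero]
  | tmul x y =>
    rw [tD_tmul, map_add, tD_tmul, tD_tmul, hMM, hNN, TensorProduct.zero_tmul,
      TensorProduct.tmul_zero, zero_add, add_zero]
    exact two_smul_eq_zero (K := K) _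
  | add x y hx hy => rw [map_add, map_add, hx, hy, add_zero]

theorem acyc_tensor_left [CharP K 2] {dM : M →ₗ[K] M} (dN : N →ₗ[K] N)
    (hMM : ∀ x, dM (dM x) = 0) (hM : Acyc dM) : Acyc (tD dM dN) := by
  obtain ⟨h, hh⟩ := exists_contraction hMM hM
  refine acyc_of_contraction _ (TensorProduct.map h LinearMap.id) fun x => ?_
  induction x using TensorProduct.induction_on with
  | zero => simp only [map_zero, add_zero]
  | tmul x y =>
    rw [tD_tmul, map_add, TensorProduct.map_tmul, TensorProduct.map_tmul,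
      TensorProduct.map_tmul, tD_tmul]
    simp only [LinearMap.id_coe, id_eq]
    calc (dM (h x) ⊗ₜ[K] y + h x ⊗ₜ[K] dN y) + (h (dM x) ⊗ₜ[K] y + h x ⊗ₜ[K] dN y)
        = (dM (h x) ⊗ₜ[K] y + h (dM x) ⊗ₜ[K] y) + (h x ⊗ₜ[K] dN y + h x ⊗ₜ[K] dN y) := by abel
      _ = x ⊗ₜ[K] y := by
        rw [two_smul_eq_zero (K := K), add_zero, ← TensorProduct.add_tmul, hh]
  | add x y hx hy =>
    simp only [map_add]
    calc _ = ((tD dM dN) ((TensorProduct.map h LinearMap.id) x) +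
          (TensorProduct.map h LinearMap.id) ((tD dM dN) x)) +
          ((tD dM dN) ((TensorProduct.map h LinearMap.id) y) +
          (TensorProduct.map h LinearMap.id) ((tD dM dN) y)) := by abel
      _ = x + y := by rw [hx, hy]

theorem acyc_tensor_right [CharP K 2] (dM : M →ₗ[K] M) {dN : N →ₗ[K] N}
    (hNN : ∀ x, dN (dN x) = 0) (hN : Acyc dN) : Acyc (tD dM dN) := by
  obtain ⟨h, hh⟩ := exists_contraction hNN hN
  refine acyc_of_contraction _ (TensorProduct.map LinearMap.id h) fun x => ?_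
  induction x using TensorProduct.induction_on with
  | zero => simp only [map_zero, add_zero]
  | tmul x y =>
    rw [tD_tmul, map_add, TensorProduct.map_tmul, TensorProduct.map_tmul,
      TensorProduct.map_tmul, tD_tmul]
    simp only [LinearMap.id_coe, id_eq]
    calc (dM x ⊗ₜ[K] h y + x ⊗ₜ[K] dN (h y)) + (dM x ⊗ₜ[K] h y + x ⊗ₜ[K] h (dN y))
        = (x ⊗ₜ[K] dN (h y) + x ⊗ₜ[K] h (dN y)) + (dM x ⊗ₜ[K] h y + dM x ⊗ₜ[K] h y) := by abel
      _ = x ⊗ₜ[K] y := by
        rw [two_smul_eq_zero (K := K), add_zero, ← TensorProduct.tmul_add, hh]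
  | add x y hx hy =>
    simp only [map_add]
    calc _ = ((tD dM dN) ((TensorProduct.map LinearMap.id h) x) +
          (TensorProduct.map LinearMap.id h) ((tD dM dN) x)) +
          ((tD dM dN) ((TensorProduct.map LinearMap.id h) y) +
          (TensorProduct.map LinearMap.id h) ((tD dM dN) y)) := by abel
      _ = x + y := by rw [hx, hy]

end Tensor

end Crest.Agent.R186.Acy154
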