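import Crest.Agent.R186.ConeAlg_462

/-!
Row 186 (A), closing (helper186): adapter from graded finite dimensional dg modules (with
projections) to `ConeAlg462.Data`.
-/

set_option autoImplicit false
set_option linter.style.haveILetI false

namespace Crest.Agent.R186.Adapt186

open Hat827 ConeAlg462

variable {K : Type} [Field K]

/-- projections of a graded space in degrees `[0, N]` -/
structure GS (K : Type) [Field K] (Y : Type) [AddCommGroup Y] [Module K Y] where
  N : ℕ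
  pr : ℤ → Y →ₗ[K] Y
  pr_pr : ∀ k y, pr k (pr k y) = pr k y
  pr_ne : ∀ k l y, l ≠ k → pr l (pr k y) = 0
  total : ∀ y, ∑ k : Fin (N + 1), pr ((k : ℕ) : ℤ) y = y

namespace GS

variable {Y : Type} [AddCommGroup Y] [Module K Y] (g : GS K Y)

/-- homogeneous elements -/
def G (k : ℤ) : Submodule K Y := LinearMap.range (g.pr k)

theorem mem_G {k : ℤ} {y : Y} : y ∈ g.G k ↔ g.pr k y = y := by
  constructor
  · rintro ⟨x, rfl⟩
    exact g.pr_pr k x
  · intro h
    exact ⟨y, h⟩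

theorem pr_mem (k : ℤ) (y : Y) : g.pr k y ∈ g.G k := ⟨y, rfl⟩

/-- the decomposition -/
def e : Y ≃ₗ[K] ((k : Fin (g.N + 1)) → g.G ((k : ℕ) : ℤ)) where
  toFun y k := ⟨g.pr ((k : ℕ) : ℤ) y, g.pr_mem _ y⟩
  map_add' x y := by
    ext k
    simp
  map_smul' r y := by
    ext k
    simp
  invFun f := ∑ k, (f k).1
  left_inv y := g.total y
  right_inv f := by
    ext k
    change g.pr ((k : ℕ) : ℤ) (∑ j, (f j).1) = (f k).1
    rw [map_sum, Finset.sum_eq_single k]
    · exact g.mem_G.1 (f k).2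
    · intro j _ hj
      rw [← g.mem_G.1 (f j).2]
      exact g.pr_ne _ _ _ fun h => hj (Fin.ext (by exact_mod_cast h.symm))
    · intro h
      exact absurd (Finset.mem_univ _) h

/-- index type of the basis -/
abbrev B : Type := Σ k : Fin (g.N + 1), Fin (Module.finrank K (g.G ((k : ℕ) : ℤ)))

/-- degree of a basis element -/
def deg (b : g.B) : ℤ := ((b.1 : ℕ) : ℤ)

variable [Module.Finite K Y]

/-- a homogeneous basis -/
noncomputable def bas : Module.Basis g.B K Y :=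
  (Pi.basis fun k : Fin (g.N + 1) => Module.finBasis K (g.G ((k : ℕ) : ℤ))).map g.e.symm

theorem repr_apply (y : Y) (b : g.B) :
    g.bas.repr y b = (Module.finBasis K (g.G ((b.1 : ℕ) : ℤ))).repr
      ⟨g.pr ((b.1 : ℕ) : ℤ) y, g.pr_mem _ y⟩ b.2 := by
  unfold bas
  rw [Module.Basis.map_repr, LinearEquiv.trans_apply, LinearEquiv.symm_symm, Pi.basis_repr]
  rfl

theorem bas_mem (b : g.B) : g.bas b ∈ g.G (g.deg b) := by
  have h : ∀ k : Fin (g.N + 1), k ≠ b.1 → g.pr ((k : ℕ) : ℤ) (g.bas b) = 0 := by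
    intro k hk
    have h1 : (⟨g.pr ((k : ℕ) : ℤ) (g.bas b), g.pr_mem _ _⟩ : g.G ((k : ℕ) : ℤ)) = 0 := by
      apply (Module.finBasis K (g.G ((k : ℕ) : ℤ))).repr.injective
      ext i
      rw [← g.repr_apply (g.bas b) ⟨k, i⟩, Module.Basis.repr_self, map_zero]
      rw [Finsupp.single_apply, if_neg, Finsupp.zero_apply]
      intro h
      exact hk (congrArg Sigma.fst h).symm
    exact congrArg Subtype.val h1
  rw [g.mem_G]
  conv_rhs => rw [← g.total (g.bas b)]
  rw [Finset.sum_eq_single b.1]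
  · rfl
  · intro j _ hj
    exact h j hj
  · intro h
    exact absurd (Finset.mem_univ _) h

theorem deg_of_repr {m : ℤ} {y : Y} (hy : y ∈ g.G m) {b : g.B} (h : g.bas.repr y b ≠ 0) :
    g.deg b = m := by
  by_contra hne
  apply h
  rw [g.repr_apply]
  have h1 : (⟨g.pr ((b.1 : ℕ) : ℤ) y, g.pr_mem _ y⟩ : g.G ((b.1 : ℕ) : ℤ)) = 0 := by
    apply Subtype.ext
    change g.pr ((b.1 : ℕ) : ℤ) y = 0
    rw [← g.mem_G.1 hy]
    exact g.pr_ne _ _ _ hne
  rw [h1, map_zero, Finsupp.zero_apply]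

end GS

/-- input of the adapter -/
structure In (A : DGA K) where
  Y : Type
  Z : Type
  [gY : AddCommGroup Y]
  [mY : Module K Y]
  [fY : Module.Finite K Y]
  [gZ : AddCommGroup Z]
  [mZ : Module K Z]
  [fZ : Module.Finite K Z]
  gr : GS K Y
  gs : GS K Z
  /-- left action -/
  L : A.C →ₗ[K] Y →ₗ[K] Y
  L_one : ∀ y, L 1 y = y
  L_mul : ∀ a b y, L (a * b) y = L a (L b y)
  /-- right action `Rr a z = z a` -/
  Rr : A.C →ₗ[K] Z →ₗ[K] Z
  R_one : ∀ z, Rr 1 z = z
  R_mul : ∀ a b z, Rr (a * b) z = Rr b (Rr a z)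
  L_deg : ∀ {m k : ℤ} {a : A.C} {y : Y}, a ∈ A.G m → y ∈ gr.G k → L a y ∈ gr.G (k + m)
  R_deg : ∀ {m k : ℤ} {a : A.C} {z : Z}, a ∈ A.G m → z ∈ gs.G k → Rr a z ∈ gs.G (k + m)
  dY : Y →ₗ[K] Y
  dZ : Z →ₗ[K] Z
  dY_deg : ∀ {k : ℤ} {y : Y}, y ∈ gr.G k → dY y ∈ gr.G (k - 1)
  dZ_deg : ∀ {k : ℤ} {z : Z}, z ∈ gs.G k → dZ z ∈ gs.G (k - 1)
  dYY : ∀ y, dY (dY y) = 0
  dZZ : ∀ z, dZ (dZ z) = 0
  L_D : ∀ a y, L (A.D a) y = dY (L a y) + L a (dY y)
  R_D : ∀ a z, Rr (A.D a) z = dZ (Rr a z) + Rr a (dZ z)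
  ev : Y →ₗ[K] Z →ₗ[K] A.C
  ev_l : ∀ a y z, ev (L a y) z = a * ev y z
  ev_r : ∀ a y z, ev y (Rr a z) = ev y z * a
  ev_D : ∀ y z, A.D (ev y z) = ev (dY y) z + ev y (dZ z)
  ev_deg : ∀ {k l : ℤ} {y : Y} {z : Z}, y ∈ gr.G k → z ∈ gs.G l → ev y z ∈ A.G (k + l)
  pL : ∀ y z y', L (ev y z) y' = 0
  pR : ∀ y z z', Rr (ev y z) z' = 0

attribute [instance] In.gY In.mY In.fY In.gZ In.mZ In.fZ

namespace In

variable {A : DGA K} (I : In A)

/-- matrix of the left action -/
noncomputable def rho : A.C →ₐ[K] Matrix I.gr.B I.gr.B K :=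
  AlgHom.ofLinearMap
    ((LinearMap.toMatrix I.gr.bas I.gr.bas).toLinearMap ∘ₗ I.L)
    (by
      have h : I.L 1 = LinearMap.id := LinearMap.ext I.L_one
      change LinearMap.toMatrix I.gr.bas I.gr.bas (I.L 1) = 1
      rw [h, LinearMap.toMatrix_id])
    (by
      intro a b
      have h : I.L (a * b) = I.L a ∘ₗ I.L b := LinearMap.ext (I.L_mul a b)
      change LinearMap.toMatrix I.gr.bas I.gr.bas (I.L (a * b)) =
        LinearMap.toMatrix I.gr.bas I.gr.bas (I.L a) * LinearMap.toMatrix I.gr.bas I.gr.bas (I.L b)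
      rw [h, LinearMap.toMatrix_comp I.gr.bas I.gr.bas I.gr.bas])

theorem rho_eq (a : A.C) : I.rho a = LinearMap.toMatrix I.gr.bas I.gr.bas (I.L a) := rfl

/-- matrix of the right action -/
noncomputable def sig : A.C →ₐ[K] Matrix I.gs.B I.gs.B K :=
  AlgHom.ofLinearMap
    ((Matrix.transposeLinearEquiv I.gs.B I.gs.B K K).toLinearMap ∘ₗ
      (LinearMap.toMatrix I.gs.bas I.gs.bas).toLinearMap ∘ₗ I.Rr)
    (by
      have h : I.Rr 1 = LinearMap.id := LinearMap.ext I.R_one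
      change (LinearMap.toMatrix I.gs.bas I.gs.bas (I.Rr 1)).transpose = 1
      rw [h, LinearMap.toMatrix_id, Matrix.transpose_one])
    (by
      intro a b
      have h : I.Rr (a * b) = I.Rr b ∘ₗ I.Rr a := LinearMap.ext (I.R_mul a b)
      change (LinearMap.toMatrix I.gs.bas I.gs.bas (I.Rr (a * b))).transpose =
        (LinearMap.toMatrix I.gs.bas I.gs.bas (I.Rr a)).transpose *
          (LinearMap.toMatrix I.gs.bas I.gs.bas (I.Rr b)).transpose
      rw [h, LinearMap.toMatrix_comp I.gs.bas I.gs.bas I.gs.bas, Matrix.transpose_mul])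

theorem sig_eq (a : A.C) :
    I.sig a = (LinearMap.toMatrix I.gs.bas I.gs.bas (I.Rr a)).transpose := rfl

theorem sum_left (f : I.Y →ₗ[K] I.Y) (b : I.gr.B) :
    ∑ b', LinearMap.toMatrix I.gr.bas I.gr.bas f b' b • I.gr.bas b' = f (I.gr.bas b) := by
  conv_rhs => rw [← I.gr.bas.sum_repr (f (I.gr.bas b))]
  exact Finset.sum_congr rfl fun b' _ => by rw [LinearMap.toMatrix_apply]

theorem sum_right (f : I.Z →ₗ[K] I.Z) (b : I.gs.B) :
    ∑ b', LinearMap.toMatrix I.gs.bas I.gs.bas f b' b • I.gs.bas b' = f (I.gs.bas b) := by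
  conv_rhs => rw [← I.gs.bas.sum_repr (f (I.gs.bas b))]
  exact Finset.sum_congr rfl fun b' _ => by rw [LinearMap.toMatrix_apply]

/-- the evaluation on matrices -/
noncomputable def evM : Matrix I.gr.B I.gs.B K →ₗ[K] A.C where
  toFun t := ∑ b, ∑ c, t b c • I.ev (I.gr.bas b) (I.gs.bas c)
  map_add' t t' := by
    rw [← Finset.sum_add_distrib]
    refine Finset.sum_congr rfl fun b _ => ?_
    rw [← Finset.sum_add_distrib]
    exact Finset.sum_congr rfl fun c _ => by rw [Matrix.add_apply, add_smul]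
  map_smul' r t := by
    rw [RingHom.id_apply, Finset.smul_sum]
    refine Finset.sum_congr rfl fun b _ => ?_
    rw [Finset.smul_sum]
    exact Finset.sum_congr rfl fun c _ => by rw [Matrix.smul_apply, smul_assoc]

theorem evM_apply (t : Matrix I.gr.B I.gs.B K) :
    I.evM t = ∑ b, ∑ c, t b c • I.ev (I.gr.bas b) (I.gs.bas c) := rfl

theorem evM_left (f : I.Y →ₗ[K] I.Y) (t : Matrix I.gr.B I.gs.B K) :
    I.evM (LinearMap.toMatrix I.gr.bas I.gr.bas f * t) =
      ∑ b, ∑ c, t b c • I.ev (f (I.gr.bas b)) (I.gs.bas c) := by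
  rw [evM_apply]
  have h1 : ∀ b' c, (LinearMap.toMatrix I.gr.bas I.gr.bas f * t) b' c •
      I.ev (I.gr.bas b') (I.gs.bas c) =
      ∑ b, (t b c) • (LinearMap.toMatrix I.gr.bas I.gr.bas f b' b •
        I.ev (I.gr.bas b') (I.gs.bas c)) := by
    intro b' c
    rw [Matrix.mul_apply, Finset.sum_smul]
    exact Finset.sum_congr rfl fun b _ => by rw [smul_smul, mul_comm]
  simp_rw [h1]
  rw [Finset.sum_comm]
  have h2 : ∀ c : I.gs.B, ∑ b' : I.gr.B, ∑ b : I.gr.B, (t b c) •
      (LinearMap.toMatrix I.gr.bas I.gr.bas f b' b • I.ev (I.gr.bas b') (I.gs.bas c)) =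
      ∑ b : I.gr.B, t b c • I.ev (f (I.gr.bas b)) (I.gs.bas c) := by
    intro c
    rw [Finset.sum_comm]
    refine Finset.sum_congr rfl fun b _ => ?_
    rw [← Finset.smul_sum, ← I.sum_left f b, map_sum, LinearMap.sum_apply]
    simp_rw [map_smul, LinearMap.smul_apply]
  simp_rw [h2]
  rw [Finset.sum_comm]

theorem evM_right (f : I.Z →ₗ[K] I.Z) (t : Matrix I.gr.B I.gs.B K) :
    I.evM (t * (LinearMap.toMatrix I.gs.bas I.gs.bas f).transpose) =
      ∑ b, ∑ c, t b c • I.ev (I.gr.bas b) (f (I.gs.bas c)) := by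
  rw [evM_apply]
  refine Finset.sum_congr rfl fun b _ => ?_
  have h1 : ∀ c', (t * (LinearMap.toMatrix I.gs.bas I.gs.bas f).transpose) b c' •
      I.ev (I.gr.bas b) (I.gs.bas c') =
      ∑ c, (t b c) • (LinearMap.toMatrix I.gs.bas I.gs.bas f c' c •
        I.ev (I.gr.bas b) (I.gs.bas c')) := by
    intro c'
    rw [Matrix.mul_apply, Finset.sum_smul]
    exact Finset.sum_congr rfl fun c _ => by rw [smul_smul, Matrix.transpose_apply]
  simp_rw [h1]
  rw [Finset.sum_comm]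
  refine Finset.sum_congr rfl fun c _ => ?_
  rw [← Finset.smul_sum, ← I.sum_right f c, map_sum]
  simp_rw [map_smul]

/-- **the adapter** -/
noncomputable def data : Data A where
  β := I.gr.B
  γ := I.gs.B
  dk := I.gr.deg
  dh := I.gs.deg
  dk_nn b := by unfold GS.deg; positivity
  dh_nn b := by unfold GS.deg; positivity
  ρ := I.rho
  σ := I.sig
  ρ_deg {m a} ha b b' h := by
    rw [rho_eq, LinearMap.toMatrix_apply] at h
    exact I.gr.deg_of_repr (I.L_deg ha (I.gr.bas_mem b)) h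
  σ_deg {m a} ha c c' h := by
    rw [sig_eq, Matrix.transpose_apply, LinearMap.toMatrix_apply] at h
    exact I.gs.deg_of_repr (I.R_deg ha (I.gs.bas_mem c)) h
  δ := LinearMap.toMatrix I.gr.bas I.gr.bas I.dY
  ε := (LinearMap.toMatrix I.gs.bas I.gs.bas I.dZ).transpose
  δ_deg b b' h := by
    rw [LinearMap.toMatrix_apply] at h
    exact I.gr.deg_of_repr (I.dY_deg (I.gr.bas_mem b)) h
  ε_deg c c' h := by
    rw [Matrix.transpose_apply, LinearMap.toMatrix_apply] at h
    exact I.gs.deg_of_repr (I.dZ_deg (I.gs.bas_mem c)) h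
  δδ := by
    rw [← LinearMap.toMatrix_comp I.gr.bas I.gr.bas I.gr.bas]
    have h : I.dY ∘ₗ I.dY = 0 := LinearMap.ext I.dYY
    rw [h, map_zero]
  εε := by
    rw [← Matrix.transpose_mul, ← LinearMap.toMatrix_comp I.gs.bas I.gs.bas I.gs.bas]
    have h : I.dZ ∘ₗ I.dZ = 0 := LinearMap.ext I.dZZ
    rw [h, map_zero, Matrix.transpose_zero]
  ρ_D a := by
    have h : I.L (A.D a) = I.dY ∘ₗ I.L a + I.L a ∘ₗ I.dY := LinearMap.ext (I.L_D a)
    rw [rho_eq, rho_eq, h, map_add, LinearMap.toMatrix_comp I.gr.bas I.gr.bas I.gr.bas,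
      LinearMap.toMatrix_comp I.gr.bas I.gr.bas I.gr.bas]
  σ_D a := by
    have h : I.Rr (A.D a) = I.dZ ∘ₗ I.Rr a + I.Rr a ∘ₗ I.dZ := LinearMap.ext (I.R_D a)
    rw [sig_eq, sig_eq, h, map_add, LinearMap.toMatrix_comp I.gs.bas I.gs.bas I.gs.bas,
      LinearMap.toMatrix_comp I.gs.bas I.gs.bas I.gs.bas, Matrix.transpose_add,
      Matrix.transpose_mul, Matrix.transpose_mul, add_comm]
  ev := I.evM
  ev_l a t := by
    rw [rho_eq, evM_left, evM_apply, Finset.mul_sum]
    refine Finset.sum_congr rfl fun b _ => ?_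
    rw [Finset.mul_sum]
    exact Finset.sum_congr rfl fun c _ => by rw [I.ev_l, mul_smul_comm]
  ev_r a t := by
    rw [sig_eq, evM_right, evM_apply, Finset.sum_mul]
    refine Finset.sum_congr rfl fun b _ => ?_
    rw [Finset.sum_mul]
    exact Finset.sum_congr rfl fun c _ => by rw [I.ev_r, smul_mul_assoc]
  ev_D t := by
    rw [map_add, evM_left, evM_right, evM_apply, map_sum, ← Finset.sum_add_distrib]
    refine Finset.sum_congr rfl fun b _ => ?_
    rw [map_sum, ← Finset.sum_add_distrib]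
    exact Finset.sum_congr rfl fun c _ => by rw [map_smul, I.ev_D, smul_add]
  ev_deg m t ht := by
    rw [evM_apply]
    refine Submodule.sum_mem _ fun b _ => Submodule.sum_mem _ fun c _ => ?_
    by_cases h : t b c = 0
    · rw [h, zero_smul]
      exact Submodule.zero_mem _
    · rw [← ht b c h]
      exact Submodule.smul_mem _ _ (I.ev_deg (I.gr.bas_mem b) (I.gs.bas_mem c))
  peiffer t t' := by
    have h1 : I.rho (I.evM t) = 0 := by
      rw [rho_eq]
      have h : I.L (I.evM t) = 0 := by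
        rw [evM_apply, map_sum]
        refine Finset.sum_eq_zero fun b _ => ?_
        rw [map_sum]
        refine Finset.sum_eq_zero fun c _ => ?_
        rw [map_smul]
        have : I.L (I.ev (I.gr.bas b) (I.gs.bas c)) = 0 := LinearMap.ext fun y => I.pL _ _ y
        rw [this, smul_zero]
      rw [h, map_zero]
    have h2 : I.sig (I.evM t') = 0 := by
      rw [sig_eq]
      have h : I.Rr (I.evM t') = 0 := by
        rw [evM_apply, map_sum]
        refine Finset.sum_eq_zero fun b _ => ?_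
        rw [map_sum]
        refine Finset.sum_eq_zero fun c _ => ?_
        rw [map_smul]
        have : I.Rr (I.ev (I.gr.bas b) (I.gs.bas c)) = 0 := LinearMap.ext fun z => I.pR _ _ z
        rw [this, smul_zero]
      rw [h, map_zero, Matrix.transpose_zero]
    rw [h1, h2, Matrix.zero_mul, Matrix.mul_zero]

theorem data_ev (t : Matrix I.data.β I.data.γ K) :
    I.data.ev t = ∑ b : I.gr.B, ∑ c : I.gs.B, t b c • I.ev (I.gr.bas b) (I.gs.bas c) := rfl

/-- `ev` acts by zero on a module as soon as all `ev y z` do -/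
theorem data_ev_smul {V : Type} [AddCommGroup V] [Module K V] [Module A.C V]
    [IsScalarTower K A.C V] (h : ∀ y z (w : V), I.ev y z • w = 0)
    (t : Matrix I.data.β I.data.γ K) (w : V) : I.data.ev t • w = 0 := by
  rw [data_ev, Finset.sum_smul]
  refine Finset.sum_eq_zero fun b _ => ?_
  rw [Finset.sum_smul]
  refine Finset.sum_eq_zero fun c _ => ?_
  rw [smul_assoc, h, smul_zero]

end In

end Crest.Agent.R186.Adapt186
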