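import Mathlib

/-!
Row 186 (helper870): the residue pairing on `K[x₀^±1, x₁^±1]` (basis `ℤ × ℤ`) and adjoint
operators.
-/

set_option autoImplicit false

universe u

namespace Crest.Agent.R186.Adj870

variable {K : Type u} [Field K]

/-- the reflection `m ↦ (-1,-1) - m` -/
def sg : ℤ × ℤ ≃ ℤ × ℤ where
  toFun m := (-1 - m.1, -1 - m.2)
  invFun m := (-1 - m.1, -1 - m.2)
  left_inv m := by
    obtain ⟨a, b⟩ := m
    simp
  right_inv m := by
    obtain ⟨a, b⟩ := m
    simp

theorem sg_sg (m : ℤ × ℤ) : sg (sg m) = m := sg.left_inv m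

/-- the residue pairing: `⟨x^m, x^m'⟩ = [m + m' = (-1,-1)]` -/
noncomputable def B (u v : (ℤ × ℤ) →₀ K) : K := u.sum fun m a => a * v (sg m)

theorem B_add_left (u u' v : (ℤ × ℤ) →₀ K) : B (u + u') v = B u v + B u' v := by
  unfold B
  rw [Finsupp.sum_add_index' (fun _ => zero_mul _) fun _ _ _ => add_mul _ _ _]

theorem B_smul_left (c : K) (u v : (ℤ × ℤ) →₀ K) : B (c • u) v = c * B u v := by
  unfold B
  rw [Finsupp.sum_smul_index' (fun _ => zero_mul _), Finsupp.mul_sum]
  simp only [smul_eq_mul, mul_assoc]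

theorem B_add_right (u v v' : (ℤ × ℤ) →₀ K) : B u (v + v') = B u v + B u v' := by
  unfold B
  simp only [Finsupp.add_apply, mul_add, Finsupp.sum_add]

theorem B_smul_right (c : K) (u v : (ℤ × ℤ) →₀ K) : B u (c • v) = c * B u v := by
  unfold B
  rw [Finsupp.mul_sum]
  simp only [Finsupp.smul_apply, smul_eq_mul, mul_left_comm]

theorem B_single_left (m : ℤ × ℤ) (a : K) (v : (ℤ × ℤ) →₀ K) :
    B (Finsupp.single m a) v = a * v (sg m) := by
  unfold B
  rw [Finsupp.sum_single_index (zero_mul _)]

theorem B_comm (u v : (ℤ × ℤ) →₀ K) : B u v = B v u := by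
  induction u using Finsupp.induction_linear with
  | zero => simp [B]
  | add f g hf hg => rw [B_add_left, B_add_right, hf, hg]
  | single m a =>
    rw [B_single_left]
    induction v using Finsupp.induction_linear with
    | zero => simp [B]
    | add f g hf hg => rw [B_add_left, ← hf, ← hg, Finsupp.add_apply, mul_add]
    | single n b =>
      rw [B_single_left]
      by_cases h : sg m = n
      · subst h
        rw [Finsupp.single_eq_same, sg_sg, Finsupp.single_eq_same, mul_comm]
      · have h' : sg n ≠ m := fun h2 => h (by rw [← h2, sg_sg])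
        rw [Finsupp.single_eq_of_ne (fun h2 => h h2), Finsupp.single_eq_of_ne (fun h2 => h' h2)]
        ring

theorem B_single_right (m : ℤ × ℤ) (a : K) (u : (ℤ × ℤ) →₀ K) :
    B u (Finsupp.single m a) = a * u (sg m) := by
  rw [B_comm, B_single_left]

/-- nondegenerate -/
theorem B_left_ext {v v' : (ℤ × ℤ) →₀ K} (h : ∀ u, B u v = B u v') : v = v' := by
  ext m
  have h1 := h (Finsupp.single (sg m) 1)
  rw [B_single_left, B_single_left, one_mul, one_mul, sg_sg] at h1
  exact h1

theorem B_right_ext {u u' : (ℤ × ℤ) →₀ K} (h : ∀ v, B u v = B u' v) : u = u' :=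
  B_left_ext fun v => by rw [B_comm, h, B_comm]

/-- `g` is the adjoint of `f` -/
def Adj (f g : Module.End K ((ℤ × ℤ) →₀ K)) : Prop := ∀ u v, B (f u) v = B u (g v)

variable {f g f' g' : Module.End K ((ℤ × ℤ) →₀ K)}

theorem Adj.symm (h : Adj f g) : Adj g f := fun u v => by
  rw [B_comm, ← h, B_comm]

theorem Adj.mul (h : Adj f g) (h' : Adj f' g') : Adj (f * f') (g' * g) := fun u v => by
  rw [Module.End.mul_apply, Module.End.mul_apply, h, h']

theorem Adj.one : Adj (1 : Module.End K ((ℤ × ℤ) →₀ K)) 1 := fun _ _ => rfl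

theorem Adj.zero : Adj (0 : Module.End K ((ℤ × ℤ) →₀ K)) 0 := fun u v => by
  rw [LinearMap.zero_apply, LinearMap.zero_apply]
  simp [B]

theorem Adj.add (h : Adj f g) (h' : Adj f' g') : Adj (f + f') (g + g') := fun u v => by
  rw [LinearMap.add_apply, LinearMap.add_apply, B_add_left, B_add_right, h, h']

theorem Adj.smul (c : K) (h : Adj f g) : Adj (c • f) (c • g) := fun u v => by
  rw [LinearMap.smul_apply, LinearMap.smul_apply, B_smul_left, B_smul_right, h]

theorem Adj.neg (h : Adj f g) : Adj (-f) (-g) := by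
  rw [← neg_one_smul K f, ← neg_one_smul K g]
  exact h.smul (-1)

theorem Adj.sub (h : Adj f g) (h' : Adj f' g') : Adj (f - f') (g - g') := by
  have h1 : f - f' = f + -f' := sub_eq_add_neg f f'
  have h2 : g - g' = g + -g' := sub_eq_add_neg g g'
  rw [h1, h2]
  exact h.add h'.neg

theorem Adj.pow (h : Adj f g) (n : ℕ) : Adj (f ^ n) (g ^ n) := by
  induction n with
  | zero => exact Adj.one
  | succ n ih =>
    rw [pow_succ, pow_succ']
    exact ih.mul h

theorem Adj.uniq (h : Adj f g) (h' : Adj f g') : g = g' :=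
  LinearMap.ext fun v => B_left_ext fun u => by rw [← h, ← h']

theorem Adj.uniq' (h : Adj f g) (h' : Adj f' g) : f = f' :=
  h.symm.uniq h'.symm

/-- it is enough to check on monomials -/
theorem adj_of (h : ∀ m n : ℤ × ℤ, (f (Finsupp.single m 1)) (sg n) =
    (g (Finsupp.single n 1)) (sg m)) : Adj f g := by
  intro u v
  induction u using Finsupp.induction_linear with
  | zero => simp [B]
  | add a b ha hb => rw [map_add, B_add_left, B_add_left, ha, hb]
  | single m a =>
    induction v using Finsupp.induction_linear with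
    | zero => rw [map_zero]; simp [B]
    | add b c hb hc => rw [map_add, B_add_right, B_add_right, hb, hc]
    | single n b =>
      have h1 : (Finsupp.single m a : (ℤ × ℤ) →₀ K) = a • Finsupp.single m 1 := by
        rw [Finsupp.smul_single, smul_eq_mul, mul_one]
      have h2 : (Finsupp.single n b : (ℤ × ℤ) →₀ K) = b • Finsupp.single n 1 := by
        rw [Finsupp.smul_single, smul_eq_mul, mul_one]
      rw [h1, h2, map_smul, map_smul, B_smul_left, B_smul_left, B_smul_right, B_smul_right,
        B_single_right, B_single_left, h m n]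

end Crest.Agent.R186.Adj870
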