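import Crest.Agent.R186.Anti_860

/-!
Row 186, half (A) (helper860): the anti-isomorphism `th : R π' → R π`, compatibility with `D` and
with the pieces.
-/

set_option autoImplicit false

open MulOpposite

namespace Crest.Agent.R186.Anti860

open DefsQ830 Der580 Gen

variable {K : Type} [Field K] {π π' : Par K}

/-- the algebra map `R π' → (R π)ᵐᵒᵖ` -/
noncomputable def Th (H : Inv π π') : R π' →ₐ[K] (R π)ᵐᵒᵖ :=
  RingQuot.liftAlgHom K ⟨θ π, fun a b hab => by
    apply unop_injective
    exact ϑ_rel H hab⟩

/-- the anti-isomorphism, linear form -/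
noncomputable def th (H : Inv π π') : R π' →ₗ[K] R π where
  toFun r := unop (Th H r)
  map_add' a b := by rw [map_add, unop_add]
  map_smul' c a := by rw [map_smul, unop_smul, RingHom.id_apply]

theorem th_mk (H : Inv π π') (a : F K) : th H (mk π' a) = ϑ π a := by
  show unop (Th H (RingQuot.mkAlgHom K (Rel π') a)) = unop (θ π a)
  rw [Th, RingQuot.liftAlgHom_mkAlgHom_apply]

theorem th_X (H : Inv π π') (a : Gen) : th H (X π' a) = lam π a • X π a := by
  rw [← mk_L, th_mk, ϑ_L]

theorem th_mul (H : Inv π π') (a b : R π') : th H (a * b) = th H b * th H a := by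
  show unop (Th H (a * b)) = unop (Th H b) * unop (Th H a)
  rw [map_mul, unop_mul]

theorem th_one (H : Inv π π') : th H 1 = 1 := by
  show unop (Th H 1) = 1
  rw [map_one, unop_one]

theorem th_algebraMap (H : Inv π π') (c : K) : th H (algebraMap K (R π') c) = algebraMap K (R π) c := by
  rw [Algebra.algebraMap_eq_smul_one, map_smul, th_one, Algebra.algebraMap_eq_smul_one]

theorem th_th (H : Inv π π') (r : R π) : th H (th H.symm r) = r := by
  refine R_ind π (P := fun r => th H (th H.symm r) = r) (fun c => ?_) (fun a => ?_)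
    (fun a b h1 h2 => ?_) (fun a b h1 h2 => ?_) r
  · show th H (th H.symm (algebraMap K (R π) c)) = _
    rw [th_algebraMap, th_algebraMap]
  · show th H (th H.symm (X π a)) = _
    rw [th_X, map_smul, th_X, smul_smul, lam_mul H.symm, one_smul]
  · show th H (th H.symm (a * b)) = _
    rw [th_mul, th_mul, h1, h2]
  · show th H (th H.symm (a + b)) = _
    rw [map_add, map_add, h1, h2]

theorem th_th' (H : Inv π π') (r : R π') : th H.symm (th H r) = r := th_th H.symm r

theorem th_inj (H : Inv π π') {a b : R π'} (h : th H a = th H b) : a = b := by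
  rw [← th_th' H a, h, th_th']

theorem th_sum (H : Inv π π') {ι : Type} (s : Finset ι) (f : ι → R π') :
    th H (∑ i ∈ s, f i) = ∑ i ∈ s, th H (f i) := map_sum _ _ _

set_option maxHeartbeats 4000000 in
theorem ϑ_dGen (H : Inv π π') (a : Gen) : ϑ π (dGen π' a) = lam π a • mk π (dGen π a) := by
  have : CharP K 2 := CharTwo.of_one_ne_zero_of_two_eq_zero one_ne_zero π.two
  have g0 := π.g0
  have p0 := π.p0
  have q10 := π.q10
  have q20 := π.q20
  cases a with
  | x i => simp only [dGen, map_zero, smul_zero]
  | h => simp only [dGen, map_zero, smul_zero]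
  | d j => simp only [dGen, map_zero, smul_zero]
  | f => simp only [dGen, map_zero, smul_zero]
  | y s => simp only [dGen, map_zero, smul_zero]
  | yb s => simp only [dGen, map_zero, smul_zero]
  | zc => unD; unT H; all_goals (try idR)
  | gc => unD; unT H; all_goals (try idR)
  | z j =>
    revert j
    fin2 <;> (unD; unT H; all_goals (try idR))
  | u j =>
    revert j
    fin2 <;> (unD; unT H; all_goals (try idR))
  | e j =>
    revert j
    fin2 <;> (unD; unT H; all_goals (try idR))
  | gj j =>
    revert j
    fin2 <;> (unD; unT H; all_goals (try idR))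
  | v j =>
    revert j
    fin2 <;> (unD; unT H; all_goals (try idR))

theorem th_D (H : Inv π π') (r : R π') : th H (D π' r) = D π (th H r) := by
  refine R_ind π' (P := fun r => th H (D π' r) = D π (th H r)) (fun c => ?_) (fun a => ?_)
    (fun a b h1 h2 => ?_) (fun a b h1 h2 => ?_) r
  · show th H (D π' (algebraMap K (R π') c)) = D π (th H (algebraMap K (R π') c))
    rw [D_algebraMap, th_algebraMap, D_algebraMap, map_zero]
  · show th H (D π' (X π' a)) = D π (th H (X π' a))
    rw [D_X, th_mk, ϑ_dGen H, th_X, map_smul, D_X]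
  · show th H (D π' (a * b)) = D π (th H (a * b))
    rw [D_mul, map_add, th_mul, th_mul, th_mul, D_mul, h1, h2, add_comm]
  · show th H (D π' (a + b)) = D π (th H (a + b))
    rw [map_add, map_add, map_add, map_add, h1, h2]

/-! ### pieces -/

theorem th_wd (H : Inv π π') (w : List Gen) : ∃ c : K, th H (wd π' w) = c • wd π w.reverse := by
  induction w with
  | nil => exact ⟨1, by rw [wd_nil, th_one, one_smul]; rfl⟩
  | cons a w ih =>
    obtain ⟨c, hc⟩ := ih
    refine ⟨c * lam π a, ?_⟩
    rw [wd_cons, th_mul, hc, th_X, List.reverse_cons, wd_append, wd_cons, wd_nil, mul_one,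
      smul_mul_assoc, mul_smul_comm, smul_smul]

theorem wP_reverse (w : List Gen) : wP w.reverse = wP w := by
  simp [wP, List.map_reverse, List.sum_reverse]

theorem wA_reverse (w : List Gen) : wA w.reverse = wA w := by
  simp [wA, List.map_reverse, List.sum_reverse]

theorem wC_reverse (w : List Gen) : wC w.reverse = wC w := by
  simp [wC, List.map_reverse, List.sum_reverse]

theorem th_pc (H : Inv π π') {P : ℤ} {A C : ℕ} {r : R π'} (hr : r ∈ pc π' P A C) :
    th H r ∈ pc π P A C := by
  induction hr using Submodule.span_induction with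
  | mem a h =>
    obtain ⟨w, h1, h2, h3, rfl⟩ := h
    obtain ⟨c, hc⟩ := th_wd H w
    rw [hc]
    exact Submodule.smul_mem _ _ (mem_pc' π (by rw [wP_reverse, h1]) (by rw [wA_reverse, h2])
      (by rw [wC_reverse, h3]))
  | zero => rw [map_zero]; exact Submodule.zero_mem _
  | add x y _ _ hx hy => rw [map_add]; exact Submodule.add_mem _ hx hy
  | smul c x _ hx => rw [map_smul]; exact Submodule.smul_mem _ _ hx

end Crest.Agent.R186.Anti860
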