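import Crest.Agent.R186.Anti_870
import Crest.Agent.R186.FilPBW_633

/-!
Row 186, S0281 base (helper870): the anti-isomorphism `A g s ≃ (A g⁻¹ (1 - s))ᵐᵒᵖ`, part 2:
lattices, matrices, the algebra.
-/

set_option autoImplicit false

open Matrix

namespace Crest.Agent.R186.B281.Anti870

open Adj870

variable {K : Type} [Field K]

/-- generation of the lattices of the `K_j` (all `P`) -/
def KGen (g : K) : Prop := ∀ (j : ℕ) (k P : ℤ) (a b : Op K), a ∈ Fil g k P → b ∈ Fil g k P →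
  a * X 0 + b * X 1 ∈ Fil g (k - j) (P + 1) →
  ∃ y ∈ Fil g k (P - 1), ∃ a' ∈ Fil g (k - j) P, ∃ b' ∈ Fil g (k - j) P,
    a = a' + y * X 1 ∧ b = b' + (-1 : K) • (y * X 0)

theorem kgen {g : K} (hg : Gen g) : KGen g := by
  intro j k P a b ha hb hc
  obtain ⟨a', ha', b', hb', h⟩ := FilPBW633.X3R hg ha hb hc
  rw [add_sub_cancel_right] at ha' hb'
  have n1 : ∀ T : Op K, T + (-1 : K) • T = 0 := fun T => by
    have h1 : (1 : K) • T + (-1 : K) • T = 0 := by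
      rw [← add_smul]
      norm_num
    rwa [one_smul] at h1
  have hle : k - (j : ℤ) ≤ k := by omega
  have h0 : (a + (-1 : K) • a') * X 0 + (b + (-1 : K) • b') * X 1 = 0 := by
    rw [add_mul, add_mul, smul_mul_assoc, smul_mul_assoc, add_add_add_comm, h, ← smul_add]
    exact n1 _
  obtain ⟨e, he, h1, h2⟩ := FilPBW633.X2R hg
    (add_mem ha (Submodule.smul_mem _ (-1 : K) (Fil_mono g hle ha')))
    (add_mem hb (Submodule.smul_mem _ (-1 : K) (Fil_mono g hle hb'))) h0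
  refine ⟨e, he, a', ha', b', hb', ?_, ?_⟩
  · rw [← h1, add_comm, add_assoc, add_comm _ a', n1, add_zero]
  · have h3 : -(e * X 0) = (-1 : K) • (e * X 0) := by
      refine LinearMap.ext fun v => ?_
      rw [LinearMap.neg_apply, LinearMap.smul_apply, neg_smul, one_smul]
    rw [← h3, ← h2, add_comm, add_assoc, add_comm _ b', n1, add_zero]

theorem mem_Lat {g : K} {s k P : ℤ} {v : Fin 7 → Op K} : v ∈ Lat g s k P ↔
    (v 0 ∈ Fil g k P ∧ v 1 ∈ Fil g (k - 1) P ∧ v 2 ∈ Fil g (k - 2) P ∧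
    (v 3 ∈ Fil g (k - s) P ∧ v 4 ∈ Fil g (k - s) P ∧
      v 3 * X 0 + v 4 * X 1 ∈ Fil g (k - s - 1) (P + 1)) ∧
    (v 5 ∈ Fil g k P ∧ v 6 ∈ Fil g k P ∧ v 5 * X 0 + v 6 * X 1 ∈ Fil g (k - 2) (P + 1))) :=
  Iff.rfl

/-- the permutation of the positions -/
def sp : Fin 7 → Fin 7 := ![2, 1, 0, 4, 3, 6, 5]

/-- the signs -/
def ep (K : Type) [Field K] : Fin 7 → K := ![1, 1, 1, -1, 1, -1, 1]

theorem sp_sp (i : Fin 7) : sp (sp i) = i := by fin_cases i <;> rfl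

/-- the permutation as an equivalence -/
def spE : Fin 7 ≃ Fin 7 := ⟨sp, sp, sp_sp, sp_sp⟩

theorem ep_sq (i : Fin 7) : ep K i * ep K i = 1 := by fin_cases i <;> simp [ep]

/-- the dual lattice (columns) -/
def DLat (g : K) (s k P : ℤ) (u : Fin 7 → Op K) : Prop :=
  ∀ k' P' : ℤ, ∀ r ∈ Lat g s k' P', ∑ i, r i * u i ∈ Fil g (k' + k - 2) (P' + P)

/-- column to row -/
noncomputable def rho (u : Fin 7 → Op K) : Fin 7 → Op K := fun i => ep K i • tr (u (sp i))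

/-- the entries of a dual column -/
theorem DLat.entries {g : K} {s k P : ℤ} {u : Fin 7 → Op K} (h : DLat g s k P u) :
    u 0 ∈ Fil g (k - 2) P ∧ u 1 ∈ Fil g (k - 1) P ∧ u 2 ∈ Fil g k P ∧
    (u 3 ∈ Fil g (k + s - 1) P ∧ u 4 ∈ Fil g (k + s - 1) P ∧
      X 1 * u 3 + (-1 : K) • (X 0 * u 4) ∈ Fil g (k + s - 2) (P + 1)) ∧
    (u 5 ∈ Fil g k P ∧ u 6 ∈ Fil g k P ∧
      X 1 * u 5 + (-1 : K) • (X 0 * u 6) ∈ Fil g (k - 2) (P + 1)) := by
  have o : ∀ k : ℤ, 0 ≤ k → (1 : Op K) ∈ Fil g k 0 := fun k hk => one_mem_Fil g hk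
  have x : ∀ (i : Fin 2) (k : ℤ), 0 ≤ k → (X i : Op K) ∈ Fil g k (0 + 1) :=
    fun i k hk => X_mem_Fil g i hk
  have x1 : ∀ (k : ℤ), 0 ≤ k → (X 1 : Op K) ∈ Fil g k 1 := fun k hk => X_mem_Fil g 1 hk
  have x0 : ∀ (k : ℤ), 0 ≤ k → (-1 : K) • (X 0 : Op K) ∈ Fil g k 1 :=
    fun k hk => Submodule.smul_mem _ _ (X_mem_Fil g 0 hk)
  have z : ∀ k P : ℤ, (0 : Op K) ∈ Fil g k P := fun k P => zero_mem _
  have zz : ∀ k P : ℤ, (0 : Op K) * X 0 + 0 * X 1 ∈ Fil g k P := fun k P => by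
    rw [zero_mul, zero_mul, add_zero]
    exact zero_mem _
  have cm : (X 1 : Op K) * X 0 + ((-1 : K) • X 0) * X 1 = 0 := by
    rw [smul_mul_assoc, X_comm 1 0, ← one_smul K (X 0 * X 1 : Op K), smul_smul, ← add_smul]
    norm_num
  have h0 := h 0 0 ![1, 0, 0, 0, 0, 0, 0] ⟨o _ (by norm_num), z _ _, z _ _,
    ⟨z _ _, z _ _, zz _ _⟩, z _ _, z _ _, zz _ _⟩
  have h1 := h 1 0 ![0, 1, 0, 0, 0, 0, 0] ⟨z _ _, o _ (by norm_num), z _ _,
    ⟨z _ _, z _ _, zz _ _⟩, z _ _, z _ _, zz _ _⟩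
  have h2 := h 2 0 ![0, 0, 1, 0, 0, 0, 0] ⟨z _ _, z _ _, o _ (by norm_num),
    ⟨z _ _, z _ _, zz _ _⟩, z _ _, z _ _, zz _ _⟩
  have h3 := h (s + 1) 0 ![0, 0, 0, 1, 0, 0, 0] ⟨z _ _, z _ _, z _ _,
    ⟨o _ (by omega), z _ _, by
      show (1 : Op K) * X 0 + 0 * X 1 ∈ _
      rw [one_mul, zero_mul, add_zero]
      exact x _ _ (by omega)⟩, z _ _, z _ _, zz _ _⟩
  have h4 := h (s + 1) 0 ![0, 0, 0, 0, 1, 0, 0] ⟨z _ _, z _ _, z _ _,
    ⟨z _ _, o _ (by omega), by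
      show (0 : Op K) * X 0 + 1 * X 1 ∈ _
      rw [one_mul, zero_mul, zero_add (X 1 : Op K)]
      exact x _ _ (by omega)⟩, z _ _, z _ _, zz _ _⟩
  have h34 := h s 1 ![0, 0, 0, X 1, (-1 : K) • X 0, 0, 0] ⟨z _ _, z _ _, z _ _,
    ⟨x1 (s - s) (by omega), x0 (s - s) (by omega), by
      show (X 1 : Op K) * X 0 + ((-1 : K) • X 0) * X 1 ∈ _
      rw [cm]
      exact z _ _⟩, z _ _, z _ _, zz _ _⟩
  have h5 := h 2 0 ![0, 0, 0, 0, 0, 1, 0] ⟨z _ _, z _ _, z _ _, ⟨z _ _, z _ _, zz _ _⟩,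
    o _ (by norm_num), z _ _, by
      show (1 : Op K) * X 0 + 0 * X 1 ∈ _
      rw [one_mul, zero_mul, add_zero]
      exact x _ _ (by norm_num)⟩
  have h6 := h 2 0 ![0, 0, 0, 0, 0, 0, 1] ⟨z _ _, z _ _, z _ _, ⟨z _ _, z _ _, zz _ _⟩,
    z _ _, o _ (by norm_num), by
      show (0 : Op K) * X 0 + 1 * X 1 ∈ _
      rw [one_mul, zero_mul, zero_add (X 1 : Op K)]
      exact x _ _ (by norm_num)⟩
  have h56 := h 0 1 ![0, 0, 0, 0, 0, X 1, (-1 : K) • X 0] ⟨z _ _, z _ _, z _ _,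
    ⟨z _ _, z _ _, zz _ _⟩, x1 0 le_rfl, x0 0 le_rfl, by
      show (X 1 : Op K) * X 0 + ((-1 : K) • X 0) * X 1 ∈ _
      rw [cm]
      exact z _ _⟩
  rw [Fin.sum_univ_seven] at h0 h1 h2 h3 h4 h34 h5 h6 h56
  simp only [Matrix.cons_val, zero_mul, one_mul, add_zero, zero_add, smul_mul_assoc]
    at h0 h1 h2 h3 h4 h34 h5 h6 h56
  refine ⟨h0, ?_, ?_, ⟨?_, ?_, ?_⟩, ?_, ?_, ?_⟩
  · exact Fil_mono g (by omega) h1
  · exact Fil_mono g (by omega) h2
  · exact Fil_mono g (by omega) h3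
  · exact Fil_mono g (by omega) h4
  · rw [add_comm P 1]
    exact Fil_mono g (by omega) h34
  · exact Fil_mono g (by omega) h5
  · exact Fil_mono g (by omega) h6
  · rw [add_comm P 1]
    exact Fil_mono g (by omega) h56

theorem DLat.fil {g : K} {s k P : ℤ} {u : Fin 7 → Op K} (h : DLat g s k P u)
    (i : Fin 7) : ∃ l : ℤ, u i ∈ Fil g l P := by
  obtain ⟨h0, h1, h2, ⟨h3, h4, _⟩, h5, h6, _⟩ := h.entries
  fin_cases i
  exacts [⟨_, h0⟩, ⟨_, h1⟩, ⟨_, h2⟩, ⟨_, h3⟩, ⟨_, h4⟩, ⟨_, h5⟩, ⟨_, h6⟩]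

/-- dual columns become rows -/
theorem rho_mem {g : K} (hg : Gen g) {s k P : ℤ} {u : Fin 7 → Op K} (h : DLat g s k P u) :
    rho u ∈ Lat g⁻¹ (1 - s) k P := by
  obtain ⟨h0, h1, h2, ⟨h3, h4, h34⟩, h5, h6, h56⟩ := h.entries
  have e0 : rho u 0 = tr (u 2) := one_smul _ _
  have e1 : rho u 1 = tr (u 1) := one_smul _ _
  have e2 : rho u 2 = tr (u 0) := one_smul _ _
  have e3 : rho u 3 = (-1 : K) • tr (u 4) := rfl
  have e4 : rho u 4 = tr (u 3) := one_smul _ _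
  have e5 : rho u 5 = (-1 : K) • tr (u 6) := rfl
  have e6 : rho u 6 = tr (u 5) := one_smul _ _
  have key : ∀ a b : Op K, Ad a → Ad b →
      ((-1 : K) • tr b) * X 0 + tr a * X 1 = tr (X 1 * a + (-1 : K) • (X 0 * b)) := by
    intro a b ha hb
    rw [tr_add ((ad_X 1).mul ha) (((ad_X 0).mul hb).smul _), tr_mul (ad_X 1) ha, tr_smul _
      ((ad_X 0).mul hb), tr_mul (ad_X 0) hb, tr_X, tr_X, smul_mul_assoc, add_comm]
  refine ⟨?_, ?_, ?_, ⟨?_, ?_, ?_⟩, ?_, ?_, ?_⟩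
  · rw [e0]; exact tr_mem hg h2
  · rw [e1]; exact tr_mem hg h1
  · rw [e2]; exact tr_mem hg h0
  · rw [e3]; exact Submodule.smul_mem _ _ (Fil_mono _ (by omega) (tr_mem hg h4))
  · rw [e4]; exact Fil_mono _ (by omega) (tr_mem hg h3)
  · rw [e3, e4, key _ _ (ad_Fil hg h3) (ad_Fil hg h4)]
    exact Fil_mono _ (by omega) (tr_mem hg h34)
  · rw [e5]; exact Submodule.smul_mem _ _ (tr_mem hg h6)
  · rw [e6]; exact tr_mem hg h5
  · rw [e5, e6, key _ _ (ad_Fil hg h5) (ad_Fil hg h6)]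
    exact tr_mem hg h56

/-- row to column -/
noncomputable def rhoi (v : Fin 7 → Op K) : Fin 7 → Op K := fun i => ep K (sp i) • tr (v (sp i))

theorem rho_rhoi {v : Fin 7 → Op K} (h : ∀ i, Ad (v i)) : rho (rhoi v) = v := by
  funext i
  show ep K i • tr (ep K (sp (sp i)) • tr (v (sp (sp i)))) = v i
  rw [sp_sp, tr_smul _ (h i).tr, tr_tr (h i), smul_smul, ep_sq, one_smul]

theorem lat_fil {g : K} {s k P : ℤ} {v : Fin 7 → Op K} (h : v ∈ Lat g s k P)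
    (i : Fin 7) : ∃ l : ℤ, v i ∈ Fil g l P := by
  obtain ⟨h0, h1, h2, ⟨h3, h4, _⟩, h5, h6, _⟩ := h
  fin_cases i
  exacts [⟨_, h0⟩, ⟨_, h1⟩, ⟨_, h2⟩, ⟨_, h3⟩, ⟨_, h4⟩, ⟨_, h5⟩, ⟨_, h6⟩]

/-- pairing with a column of `K_j`-type -/
theorem pair_mem {g : K} (hg : Gen g) (hK : KGen g) {j : ℕ} {k k' l m P P' : ℤ}
    {a b u w : Op K} (ha : a ∈ Fil g k' P') (hb : b ∈ Fil g k' P')
    (hc : a * X 0 + b * X 1 ∈ Fil g (k' - j) (P' + 1)) (hu : u ∈ Fil g l P) (hw : w ∈ Fil g l P)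
    (hd : X 1 * u + (-1 : K) • (X 0 * w) ∈ Fil g m (P + 1)) (h1 : k' - j + l ≤ k)
    (h2 : k' + m ≤ k) : a * u + b * w ∈ Fil g k (P' + P) := by
  obtain ⟨y, hy, a', ha', b', hb', rfl, rfl⟩ := hK j k' P' a b ha hb hc
  have e : (a' + y * X 1) * u + (b' + (-1 : K) • (y * X 0)) * w =
      a' * u + b' * w + y * (X 1 * u + (-1 : K) • (X 0 * w)) := by
    simp only [add_mul, mul_add, smul_mul_assoc, mul_smul_comm, mul_assoc]
    abel
  rw [e]
  refine add_mem (add_mem (Fil_mono g h1 (Fil_mul' hg ha' hu))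
    (Fil_mono g h1 (Fil_mul' hg hb' hw))) ?_
  have := Fil_mul' hg hy hd
  rw [show P' - 1 + (P + 1) = P' + P by ring] at this
  exact Fil_mono g h2 this

theorem rhoi_dlat {g : K} (hg : Gen g) (hK : KGen g) {s k P : ℤ} {v : Fin 7 → Op K}
    (h : v ∈ Lat g⁻¹ (1 - s) k P) : DLat g s k P (rhoi v) := by
  have hg' := hg.inv
  have hgg : (g⁻¹)⁻¹ = g := inv_inv g
  have tm : ∀ {k P : ℤ} {T : Op K}, T ∈ Fil g⁻¹ k P → tr T ∈ Fil g k P := by
    intro k P T hT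
    have := tr_mem hg' hT
    rwa [hgg] at this
  obtain ⟨v0, v1, v2, ⟨v3, v4, v34⟩, v5, v6, v56⟩ := h
  intro k' P' r hr
  obtain ⟨r0, r1, r2, ⟨r3, r4, r34⟩, r5, r6, r56⟩ := hr
  have e0 : rhoi v 0 = tr (v 2) := one_smul _ _
  have e1 : rhoi v 1 = tr (v 1) := one_smul _ _
  have e2 : rhoi v 2 = tr (v 0) := one_smul _ _
  have e3 : rhoi v 3 = tr (v 4) := one_smul _ _
  have e4 : rhoi v 4 = (-1 : K) • tr (v 3) := rfl
  have e5 : rhoi v 5 = tr (v 6) := one_smul _ _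
  have e6 : rhoi v 6 = (-1 : K) • tr (v 5) := rfl
  rw [Fin.sum_univ_seven, e0, e1, e2, e3, e4, e5, e6]
  have key : ∀ a b : Op K, Ad a → Ad b →
      X 1 * tr b + (-1 : K) • (X 0 * ((-1 : K) • tr a)) = tr (a * X 0 + b * X 1) := by
    intro a b ha hb
    rw [tr_add (ha.mul (ad_X 0)) (hb.mul (ad_X 1)), tr_mul ha (ad_X 0), tr_mul hb (ad_X 1), tr_X,
      tr_X, mul_smul_comm, smul_smul, add_comm]
    norm_num
  have m0 : r 0 * tr (v 2) ∈ Fil g (k' + k - 2) (P' + P) :=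
    Fil_mono g (by omega) (Fil_mul' hg r0 (tm v2))
  have m1 : r 1 * tr (v 1) ∈ Fil g (k' + k - 2) (P' + P) :=
    Fil_mono g (by omega) (Fil_mul' hg r1 (tm v1))
  have m2 : r 2 * tr (v 0) ∈ Fil g (k' + k - 2) (P' + P) :=
    Fil_mono g (by omega) (Fil_mul' hg r2 (tm v0))
  have m34 : r 3 * tr (v 4) + r 4 * ((-1 : K) • tr (v 3)) ∈ Fil g (k' + k - 2) (P' + P) := by
    refine pair_mem hg hK (j := 1) (k' := k' - s) (l := k - (1 - s)) (m := k - (1 - s) - 1)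
      r3 r4 (by exact_mod_cast r34) (tm v4) (Submodule.smul_mem _ _ (tm v3)) ?_ (by push_cast; omega)
      (by omega)
    rw [key _ _ (ad_Fil hg' v3) (ad_Fil hg' v4)]
    exact tm v34
  have m56 : r 5 * tr (v 6) + r 6 * ((-1 : K) • tr (v 5)) ∈ Fil g (k' + k - 2) (P' + P) := by
    refine pair_mem hg hK (j := 2) (k' := k') (l := k) (m := k - 2)
      r5 r6 (by exact_mod_cast r56) (tm v6) (Submodule.smul_mem _ _ (tm v5)) ?_ (by push_cast; omega)
      (by omega)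
    rw [key _ _ (ad_Fil hg' v5) (ad_Fil hg' v6)]
    exact tm v56
  have := add_mem (add_mem (add_mem (add_mem m0 m1) m2) m34) m56
  rw [← add_assoc, ← add_assoc] at this
  exact this

/-! ### matrices -/

/-- signed transposition of matrices -/
noncomputable def anti (M : Mat K) : Mat K := fun j i => (ep K j * ep K i) • tr (M (sp i) (sp j))

/-- all entries adjointable -/
def AdM (M : Mat K) : Prop := ∀ i j, Ad (M i j)

theorem Pres.adM {g : K} (hg : Gen g) {s e : ℤ} {M : Mat K} (h : Pres g s e M) : AdM M :=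
  fun i j => by
    obtain ⟨k, hk⟩ := h.entry i j
    exact ad_Fil hg hk

theorem anti_add {M N : Mat K} (hM : AdM M) (hN : AdM N) : anti (M + N) = anti M + anti N := by
  funext j i
  show (ep K j * ep K i) • tr (M (sp i) (sp j) + N (sp i) (sp j)) =
    (ep K j * ep K i) • tr (M (sp i) (sp j)) + (ep K j * ep K i) • tr (N (sp i) (sp j))
  rw [tr_add (hM _ _) (hN _ _), smul_add]

theorem anti_smul (c : K) {M : Mat K} (hM : AdM M) : anti (c • M) = c • anti M := by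
  funext j i
  show (ep K j * ep K i) • tr (c • M (sp i) (sp j)) =
    c • ((ep K j * ep K i) • tr (M (sp i) (sp j)))
  rw [tr_smul _ (hM _ _), smul_comm]

theorem anti_zero : anti (0 : Mat K) = 0 := by
  funext j i
  show (ep K j * ep K i) • tr (0 : Op K) = 0
  rw [tr_zero, smul_zero]

theorem anti_one : anti (1 : Mat K) = 1 := by
  funext j i
  show (ep K j * ep K i) • tr ((1 : Mat K) (sp i) (sp j)) = (1 : Mat K) j i
  by_cases h : j = i
  · subst h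
    rw [Matrix.one_apply_eq, Matrix.one_apply_eq, tr_one, ep_sq, one_smul]
  · rw [Matrix.one_apply_ne h, Matrix.one_apply_ne, tr_zero, smul_zero]
    intro h2
    apply h
    rw [← sp_sp j, ← sp_sp i, h2]

theorem anti_mul {M N : Mat K} (hM : AdM M) (hN : AdM N) : anti (M * N) = anti N * anti M := by
  funext j i
  show (ep K j * ep K i) • tr ((M * N) (sp i) (sp j)) = (anti N * anti M) j i
  rw [Matrix.mul_apply, Matrix.mul_apply, tr_sum _ (fun l => (hM _ _).mul (hN _ _)),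
    Finset.smul_sum, ← Equiv.sum_comp spE]
  refine Finset.sum_congr rfl fun l _ => ?_
  show (ep K j * ep K i) • tr (M (sp i) (sp l) * N (sp l) (sp j)) =
    ((ep K j * ep K l) • tr (N (sp l) (sp j))) * ((ep K l * ep K i) • tr (M (sp i) (sp l)))
  rw [tr_mul (hM _ _) (hN _ _), smul_mul_assoc, mul_smul_comm, smul_smul]
  congr 1
  have := ep_sq (K := K) l
  linear_combination (-(ep K j * ep K i)) * this

theorem AdM.anti {M : Mat K} (hM : AdM M) : AdM (anti M) := fun _ _ => ((hM _ _).tr).smul _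

theorem vecMul_rho {M : Mat K} (hM : AdM M) {u : Fin 7 → Op K} (hu : ∀ i, Ad (u i)) :
    rho u ᵥ* anti M = rho (fun i => ∑ j, M i j * u j) := by
  funext i
  show ∑ j, (ep K j • tr (u (sp j))) * ((ep K j * ep K i) • tr (M (sp i) (sp j))) =
    ep K i • tr (∑ j, M (sp i) j * u j)
  rw [tr_sum _ (fun l => (hM _ _).mul (hu _)), ← Equiv.sum_comp spE (fun j =>
    tr (M (sp i) j * u j)), Finset.smul_sum]
  refine Finset.sum_congr rfl fun l _ => ?_
  show (ep K l • tr (u (sp l))) * ((ep K l * ep K i) • tr (M (sp i) (sp l))) =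
    ep K i • tr (M (sp i) (sp l) * u (sp l))
  rw [tr_mul (hM _ _) (hu _), smul_mul_assoc, mul_smul_comm, smul_smul]
  congr 1
  have := ep_sq (K := K) l
  linear_combination (ep K i) * this

/-- **matrices preserving the lattices are exchanged** -/
theorem Pres.anti {g : K} (hg : Gen g) (hK : KGen g) {s e : ℤ} {M : Mat K}
    (hM : Pres g s e M) : Pres g⁻¹ (1 - s) e (anti M) := by
  intro k P v hv
  have hva : ∀ i, Ad (v i) := fun i => by
    obtain ⟨l, hl⟩ := lat_fil hv i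
    exact ad_Fil hg.inv hl
  have hu : ∀ i, Ad (rhoi v i) := fun i => ((hva _).tr).smul _
  have hd := rhoi_dlat hg hK hv
  have h1 : v ᵥ* Anti870.anti M = rho (fun i => ∑ j, M i j * rhoi v j) := by
    rw [← vecMul_rho (Pres.adM hg hM) hu, rho_rhoi hva]
  rw [h1]
  apply rho_mem hg
  intro k' P' r hr
  have h2 := hd k' (P' + e) _ (hM k' P' r hr)
  rw [show P' + (P + e) = P' + e + P by ring]
  have h3 : ∑ i, r i * ∑ j, M i j * rhoi v j = ∑ i, (r ᵥ* M) i * rhoi v i := by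
    simp only [Finset.mul_sum, Matrix.vecMul, dotProduct, Finset.sum_mul, mul_assoc]
    rw [Finset.sum_comm]
  rw [h3]
  exact h2

end Crest.Agent.R186.B281.Anti870
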