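import Crest.Agent.R186.Defs281_128

/-!
Row 186, S0281, leaf B281.A2 (helper755): the modules `V g s n`, `E g s n` of `Defs281_128`
as `K`-spaces: instances, columns, non-triviality, the module `V g s 0` in coordinates.
-/

set_option autoImplicit false

open Matrix

namespace Crest.Agent.R186.B281

variable {K : Type} [Field K] {g : K} {s : ℤ}

noncomputable instance (n : ℤ) : SMul (A g s) (V g s n) :=
  (Submodule.module (V g s n)).toDistribMulAction.toMulAction.toSMul

noncomputable instance (n : ℤ) : SMul (A g s) (E g s n) :=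
  (Submodule.module (E g s n)).toDistribMulAction.toMulAction.toSMul

instance : IsScalarTower K (A g s) (Big K) := inferInstance

noncomputable instance (n : ℤ) : Module K (V g s n) := Submodule.module' _

instance (n : ℤ) : IsScalarTower K (A g s) (V g s n) :=
  ⟨fun c x p => Subtype.ext (smul_assoc c x p.1)⟩

noncomputable instance (n : ℤ) : Module K (E g s n) := Submodule.module' _

instance (n : ℤ) : IsScalarTower K (A g s) (E g s n) :=
  ⟨fun c x p => Subtype.ext (smul_assoc c x p.1)⟩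

theorem V_smul_fst (n : ℤ) (x : A g s) (p : V g s n) : (x • p).1.1 = 0 := (x • p).2.1

theorem V_smul_snd (n : ℤ) (x : A g s) (p : V g s n) : (x • p).1.2 = act x.1.fst p.1.2 := by
  show act x.1.fst p.1.2 + act x.1.snd p.1.1 = _
  rw [p.2.1, act_zero, add_zero]

theorem E_smul_fst (n : ℤ) (x : A g s) (p : E g s n) : (x • p).1.1 = act x.1.fst p.1.1 := rfl

theorem E_smul_snd (n : ℤ) (x : A g s) (p : E g s n) :
    (x • p).1.2 = act x.1.fst p.1.2 + act x.1.snd p.1.1 := rfl

theorem V_ext {n : ℤ} {p q : V g s n} (h : ∀ i, p.1.2 i = q.1.2 i) : p = q := by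
  apply Subtype.ext
  refine Prod.ext ?_ (funext h)
  rw [p.2.1, q.2.1]

theorem E_ext {n : ℤ} {p q : E g s n} (h1 : ∀ i, p.1.1 i = q.1.1 i) (h2 : ∀ i, p.1.2 i = q.1.2 i) :
    p = q := Subtype.ext (Prod.ext (funext h1) (funext h2))

variable (g s) in
/-- `V g s n` as columns -/
noncomputable def colV (n : ℤ) : V g s n ≃ₗ[K] (Fin 7 → Pol K n) where
  toFun p i := ⟨p.1.2 i, p.2.2 i⟩
  map_add' _ _ := rfl
  map_smul' _ _ := rfl
  invFun v := ⟨((0 : Fin 7 → Lau K), fun i => (v i).1), rfl, fun i => (v i).2⟩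
  left_inv _ := V_ext fun _ => rfl
  right_inv _ := rfl

variable (g s) in
/-- `E g s n` as pairs of columns -/
noncomputable def colE (n : ℤ) :
    E g s n ≃ₗ[K] (Fin 7 → Pol K n) × (Fin 7 → Pol K (n + 1)) where
  toFun p := (fun i => ⟨p.1.1 i, p.2.1 i⟩, fun i => ⟨p.1.2 i, p.2.2 i⟩)
  map_add' _ _ := rfl
  map_smul' _ _ := rfl
  invFun v := ⟨(fun i => (v.1 i).1, fun i => (v.2 i).1), fun i => (v.1 i).2, fun i => (v.2 i).2⟩
  left_inv _ := rfl
  right_inv _ := rfl

theorem proj_snd (n : ℤ) (p : E g s n) : (proj g s n p).1.2 = p.1.1 := rfl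

theorem iota_val (n : ℤ) (p : V g s (n + 1)) : (iota g s n p).1 = p.1 := rfl

theorem proj_iota (n : ℤ) (p : V g s (n + 1)) : proj g s n (iota g s n p) = 0 :=
  ((iota_proj g s n) _).2 ⟨p, rfl⟩

@[simp] theorem colV_apply (n : ℤ) (p : V g s n) (i : Fin 7) : (colV g s n p i : Lau K) = p.1.2 i :=
  rfl

/-- the constant `1 ∈ K[x₀, x₁]_0` -/
noncomputable def one0 : Pol K 0 :=
  ⟨Finsupp.single (0, 0) 1, Finsupp.single_mem_supported K _ (by simp)⟩

theorem Pol_zero_eq {f : Lau K} (hf : f ∈ Pol K 0) : f = Finsupp.single (0, 0) (f (0, 0)) := by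
  ext m
  by_cases hm : m = (0, 0)
  · rw [hm, Finsupp.single_eq_same]
  · rw [Finsupp.single_apply, if_neg (Ne.symm hm)]
    by_contra hne
    obtain ⟨h1, h2, h3⟩ := (Finsupp.mem_supported K f).1 hf (Finsupp.mem_support_iff.2 hne)
    exact hm (Prod.ext (by simp; omega) (by simp; omega))

variable (K) in
/-- `K[x₀, x₁]_0 = K` -/
noncomputable def pol0 : Pol K 0 ≃ₗ[K] K where
  toFun f := f.1 (0, 0)
  map_add' _ _ := rfl
  map_smul' _ _ := rfl
  invFun c := ⟨Finsupp.single (0, 0) c, Finsupp.single_mem_supported K _ (by simp)⟩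
  left_inv f := Subtype.ext (Pol_zero_eq f.2).symm
  right_inv c := by simp

/-- the monomial `x₀^n` -/
theorem single_Pol (a b : ℕ) (c : K) :
    (Finsupp.single ((a : ℤ), (b : ℤ)) c : Lau K) ∈ Pol K ((a : ℤ) + b) :=
  Finsupp.single_mem_supported K _ (by simp)

instance (n : ℕ) : Nontrivial (Pol K (n : ℤ)) :=
  ⟨⟨⟨Finsupp.single ((n : ℤ), (0 : ℤ)) 1, Finsupp.single_mem_supported K _ (by simp)⟩, 0, by
    intro h
    have h1 := congrArg (fun f : Pol K (n : ℤ) => f.1 ((n : ℤ), (0 : ℤ))) h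
    simp at h1⟩⟩

theorem nontrivial_V {n : ℤ} (hn : 0 ≤ n) : Nontrivial (V g s n) := by
  obtain ⟨n, rfl⟩ := Int.eq_ofNat_of_zero_le hn
  exact (colV g s n).toEquiv.nontrivial

instance (n : ℕ) : Nontrivial (V g s n) := nontrivial_V (Int.natCast_nonneg n)

instance (n : ℕ) : Nontrivial (V g s ((n : ℤ) + 1)) := nontrivial_V (by positivity)

instance : Nontrivial (V g s 0) := nontrivial_V le_rfl

instance (n : ℕ) : Nontrivial (E g s n) := (proj_surj g s n).nontrivial

/-! ### `V g s 0` in coordinates -/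

/-- the value of an operator on `1`, coefficient of `1` -/
noncomputable def ev1 (T : Op K) : K := T (Finsupp.single (0, 0) 1) (0, 0)

theorem ev1_add (S T : Op K) : ev1 (S + T) = ev1 S + ev1 T := rfl

theorem ev1_smul (c : K) (T : Op K) : ev1 (c • T) = c * ev1 T := rfl

theorem ev1_zero : ev1 (0 : Op K) = 0 := rfl

theorem ev1_one : ev1 (1 : Op K) = 1 := by simp [ev1]

theorem ev1_sum {ι : Type} (t : Finset ι) (T : ι → Op K) :
    ev1 (∑ i ∈ t, T i) = ∑ i ∈ t, ev1 (T i) := by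
  classical
  induction t using Finset.induction_on with
  | empty => simp [ev1_zero]
  | insert a t ha ih => rw [Finset.sum_insert ha, Finset.sum_insert ha, ev1_add, ih]

theorem mem_Pol0_one : (Finsupp.single (0, 0) 1 : Lau K) ∈ Pol K 0 :=
  Finsupp.single_mem_supported K _ (by simp)

/-- degree `0` operators on `1` -/
theorem Fil_one {k : ℤ} {T : Op K} (hT : T ∈ Fil g k 0) :
    T (Finsupp.single (0, 0) 1) = ev1 T • Finsupp.single (0, 0) 1 := by
  have h := Fil_Pol hT (mem_Pol0_one (K := K))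
  rw [add_zero] at h
  rw [Pol_zero_eq h]
  simp [ev1]

theorem Fil_apply0 {k : ℤ} {T : Op K} (hT : T ∈ Fil g k 0) {f : Lau K} (hf : f ∈ Pol K 0) :
    T f (0, 0) = ev1 T * f (0, 0) := by
  rw [Pol_zero_eq hf]
  have : (Finsupp.single (0, 0) (f (0, 0)) : Lau K) = f (0, 0) • Finsupp.single (0, 0) 1 := by
    simp
  rw [this, map_smul, Fil_one hT]
  simp [mul_comm]

theorem ev1_mul {k l : ℤ} {S T : Op K} (hS : S ∈ Fil g k 0) (hT : T ∈ Fil g l 0) :
    ev1 (S * T) = ev1 S * ev1 T := by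
  have h := Fil_Pol hT (mem_Pol0_one (K := K))
  rw [add_zero] at h
  show S (T _) (0, 0) = _
  rw [Fil_apply0 hS h]
  rfl

/-- `d_i` kills `1` -/
theorem ev1_D (T : Op K) (i : Fin 2) : ev1 (T * D g i) = 0 := by
  show (T (D g i _)) (0, 0) = 0
  rw [D_single]
  have : co i ((0 : ℤ), (0 : ℤ)) = 0 := by fin_cases i <;> rfl
  rw [this, cq_zero, zero_mul, Finsupp.single_zero, map_zero]
  rfl

variable (g s) in
/-- `V g s 0` in coordinates -/
noncomputable def cV0 : V g s 0 ≃ₗ[K] (Fin 7 → K) :=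
  (colV g s 0).trans (LinearEquiv.piCongrRight fun _ => pol0 K)

theorem cV0_apply (p : V g s 0) (i : Fin 7) : cV0 g s p i = p.1.2 i (0, 0) := rfl

theorem cV0_smul (x : A g s) (p : V g s 0) (i : Fin 7) :
    cV0 g s (x • p) i = ∑ j, ev1 (x.1.fst i j) * cV0 g s p j := by
  rw [cV0_apply, V_smul_snd]
  show (∑ j, x.1.fst i j (p.1.2 j)) (0, 0) = _
  rw [Finsupp.finsetSum_apply]
  refine Finset.sum_congr rfl fun j _ => ?_
  obtain ⟨k, hk⟩ := x.2.1.entry i j
  rw [Fil_apply0 hk (p.2.2 j)]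
  rfl

end Crest.Agent.R186.B281
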