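import Crest.Agent.R186.AntiM_870
import Crest.Agent.R186.VE_755
import Crest.Agent.R186.LinkC_328
import Crest.Agent.R186.Inst_823

/-!
Row 186, S0281 base (helper870): the anti-isomorphism, part 3: `tau : A g s ≃ (A g⁻¹ s')ᵐᵒᵖ`
(`s + s' = 1`) and the identifications `V g s 0 = Du (W g⁻¹ s')`, `W g s = Du (V g⁻¹ s' 0)`.
-/

set_option autoImplicit false

open Matrix MulOpposite

namespace Crest.Agent.R186.B281.Anti870

open Adj870 LinkC328 Dual700

variable {K : Type} [Field K] {g : K}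

theorem pres_anti' (hg : Gen g) {s s' e : ℤ} (h : s + s' = 1) {M : Mat K}
    (hM : Pres g s e M) : Pres g⁻¹ s' e (anti M) := by
  obtain rfl : s' = 1 - s := by omega
  exact Pres.anti hg (kgen hg) hM

theorem pres_antii (hg : Gen g) {s s' e : ℤ} (h : s + s' = 1) {M : Mat K}
    (hM : Pres g⁻¹ s' e M) : Pres g s e (anti M) := by
  have h1 := pres_anti' hg.inv (s := s') (s' := s) (by omega) hM
  rwa [inv_inv] at h1

theorem anti4 {M : Mat K} (hM : AdM M) : anti (anti (anti (anti M))) = M := by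
  have h2 : ∀ N : Mat K, AdM N → ∀ j i, anti (anti N) j i =
      ((ep K j * ep K i) * (ep K (sp i) * ep K (sp j))) • N j i := by
    intro N hN j i
    show (ep K j * ep K i) • tr ((ep K (sp i) * ep K (sp j)) • tr (N (sp (sp j)) (sp (sp i)))) = _
    rw [sp_sp, sp_sp, tr_smul _ (hN _ _).tr, tr_tr (hN _ _), smul_smul]
  funext j i
  rw [h2 _ hM.anti.anti, h2 _ hM, smul_smul]
  have h3 : ((ep K j * ep K i) * (ep K (sp i) * ep K (sp j))) *
      ((ep K j * ep K i) * (ep K (sp i) * ep K (sp j))) = 1 := by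
    have e1 := ep_sq (K := K) i
    have e2 := ep_sq (K := K) j
    have e3 := ep_sq (K := K) (sp i)
    have e4 := ep_sq (K := K) (sp j)
    calc _ = (ep K j * ep K j) * (ep K i * ep K i) * (ep K (sp i) * ep K (sp i)) *
        (ep K (sp j) * ep K (sp j)) := by ring
      _ = 1 := by rw [e1, e2, e3, e4]; norm_num
  rw [h3, one_smul]

/-- the map on elements -/
noncomputable def toF (hg : Gen g) {s s' : ℤ} (h : s + s' = 1) (x : A g s) : A g⁻¹ s' :=
  ⟨((anti x.1.fst, anti x.1.snd) : Mat K × Mat K), pres_anti' hg h x.2.1, pres_anti' hg h x.2.2⟩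

theorem toF_fst (hg : Gen g) {s s' : ℤ} (h : s + s' = 1) (x : A g s) :
    (toF hg h x).1.fst = anti x.1.fst := rfl

theorem toF_snd (hg : Gen g) {s s' : ℤ} (h : s + s' = 1) (x : A g s) :
    (toF hg h x).1.snd = anti x.1.snd := rfl

theorem A_ext {s : ℤ} {x y : A g s} (h1 : x.1.fst = y.1.fst) (h2 : x.1.snd = y.1.snd) : x = y :=
  Subtype.ext (TrivSqZeroExt.ext h1 h2)

theorem toF_mul (hg : Gen g) {s s' : ℤ} (h : s + s' = 1) (x y : A g s) :
    toF hg h (x * y) = toF hg h y * toF hg h x := by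
  have ax1 := Pres.adM hg x.2.1
  have ax2 := Pres.adM hg x.2.2
  have ay1 := Pres.adM hg y.2.1
  have ay2 := Pres.adM hg y.2.2
  apply A_ext
  · show anti (x.1 * y.1).fst = ((toF hg h y).1 * (toF hg h x).1).fst
    rw [TrivSqZeroExt.fst_mul, TrivSqZeroExt.fst_mul, anti_mul ax1 ay1]
    rfl
  · show anti (x.1 * y.1).snd = ((toF hg h y).1 * (toF hg h x).1).snd
    rw [TrivSqZeroExt.snd_mul, TrivSqZeroExt.snd_mul, smul_eq_mul, MulOpposite.smul_eq_mul_unop,
      MulOpposite.unop_op, smul_eq_mul, MulOpposite.smul_eq_mul_unop, MulOpposite.unop_op]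
    have e1 : AdM (x.1.fst * y.1.snd) := fun i j => by
      rw [Matrix.mul_apply]
      exact Ad.sum _ fun l => (ax1 _ _).mul (ay2 _ _)
    have e2 : AdM (x.1.snd * y.1.fst) := fun i j => by
      rw [Matrix.mul_apply]
      exact Ad.sum _ fun l => (ax2 _ _).mul (ay1 _ _)
    rw [anti_add e1 e2, anti_mul ax1 ay2, anti_mul ax2 ay1, add_comm]
    rfl

theorem toF_add (hg : Gen g) {s s' : ℤ} (h : s + s' = 1) (x y : A g s) :
    toF hg h (x + y) = toF hg h x + toF hg h y :=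
  A_ext (anti_add (Pres.adM hg x.2.1) (Pres.adM hg y.2.1))
    (anti_add (Pres.adM hg x.2.2) (Pres.adM hg y.2.2))

theorem toF_smul (hg : Gen g) {s s' : ℤ} (h : s + s' = 1) (c : K) (x : A g s) :
    toF hg h (c • x) = c • toF hg h x :=
  A_ext (anti_smul c (Pres.adM hg x.2.1)) (anti_smul c (Pres.adM hg x.2.2))

theorem toF_one (hg : Gen g) {s s' : ℤ} (h : s + s' = 1) :
    toF hg h (1 : A g s) = 1 := by
  apply A_ext
  · show anti (TrivSqZeroExt.fst (1 : DualNumber (Mat K))) =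
      TrivSqZeroExt.fst (1 : DualNumber (Mat K))
    rw [TrivSqZeroExt.fst_one, anti_one]
  · show anti (TrivSqZeroExt.snd (1 : DualNumber (Mat K))) =
      TrivSqZeroExt.snd (1 : DualNumber (Mat K))
    rw [TrivSqZeroExt.snd_one, anti_zero]

theorem toF_inj (hg : Gen g) {s s' : ℤ} (h : s + s' = 1) :
    Function.Injective (toF hg h : A g s → A g⁻¹ s') := by
  intro x y hxy
  have h1 : anti x.1.fst = anti y.1.fst := congrArg (fun z : A g⁻¹ s' => z.1.fst) hxy
  have h2 : anti x.1.snd = anti y.1.snd := congrArg (fun z : A g⁻¹ s' => z.1.snd) hxy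
  apply A_ext
  · rw [← anti4 (Pres.adM hg x.2.1), h1, anti4 (Pres.adM hg y.2.1)]
  · rw [← anti4 (Pres.adM hg x.2.2), h2, anti4 (Pres.adM hg y.2.2)]

theorem toF_surj (hg : Gen g) {s s' : ℤ} (h : s + s' = 1) :
    Function.Surjective (toF hg h : A g s → A g⁻¹ s') := by
  intro y
  have p1 := pres_antii hg h (pres_anti' hg h (pres_antii hg h y.2.1))
  have p2 := pres_antii hg h (pres_anti' hg h (pres_antii hg h y.2.2))
  refine ⟨⟨((anti (anti (anti y.1.fst)), anti (anti (anti y.1.snd))) : Mat K × Mat K),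
    p1, p2⟩, ?_⟩
  exact A_ext (anti4 (Pres.adM hg.inv y.2.1)) (anti4 (Pres.adM hg.inv y.2.2))

/-- the algebra map into the opposite -/
noncomputable def tauH (hg : Gen g) {s s' : ℤ} (h : s + s' = 1) : A g s →ₐ[K] (A g⁻¹ s')ᵐᵒᵖ where
  toFun x := op (toF hg h x)
  map_one' := by rw [toF_one]; rfl
  map_mul' x y := by rw [toF_mul]; rfl
  map_zero' := by
    have h1 : toF hg h (0 : A g s) = 0 := by
      have := toF_smul hg h (0 : K) (0 : A g s)
      rwa [zero_smul, zero_smul] at this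
    rw [h1]
    rfl
  map_add' x y := by rw [toF_add]; rfl
  commutes' c := by
    rw [Algebra.algebraMap_eq_smul_one, toF_smul, toF_one, Algebra.algebraMap_eq_smul_one]
    rfl

/-- **the anti-isomorphism of the two bases** -/
noncomputable def tau (hg : Gen g) {s s' : ℤ} (h : s + s' = 1) : A g s ≃ₐ[K] (A g⁻¹ s')ᵐᵒᵖ :=
  AlgEquiv.ofBijective (tauH hg h)
    ⟨fun x y hxy => toF_inj hg h (op_injective hxy), fun y => by
      obtain ⟨x, hx⟩ := toF_surj hg h y.unop
      exact ⟨x, by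
        show op (toF hg h x) = y
        rw [hx, op_unop]⟩⟩

theorem tau_unop (hg : Gen g) {s s' : ℤ} (h : s + s' = 1) (x : A g s) :
    (tau hg h x).unop = toF hg h x := rfl

/-! ### the modules -/

theorem res_tr {T : Op K} (hT : Ad T) : res (tr T) = ev1 T := by
  have h := hT (Finsupp.single (0, 0) 1) (Finsupp.single (-1, -1) 1)
  rw [B_single_right, B_single_left, one_mul, one_mul] at h
  exact h.symm

theorem ev1_tr {T : Op K} (hT : Ad T) : ev1 (tr T) = res T := by
  rw [← res_tr hT.tr, tr_tr hT]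

/-- the pairing of columns -/
noncomputable def PP (w c : Fin 7 → K) : K := ∑ j, ep K j * w j * c (sp j)

theorem PP_comm (Q Q' : Matrix (Fin 7) (Fin 7) K)
    (h : ∀ j i, Q' j i = ep K j * ep K i * Q (sp i) (sp j)) (w c : Fin 7 → K) :
    PP (fun j => ∑ i, Q' j i * w i) c = PP w (fun i => ∑ j, Q i j * c j) := by
  unfold PP
  have e1 : ∀ j, ep K j * (∑ i, Q' j i * w i) * c (sp j) =
      ∑ i, ep K i * w i * (Q (sp i) (sp j) * c (sp j)) := by
    intro j
    rw [Finset.mul_sum, Finset.sum_mul]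
    refine Finset.sum_congr rfl fun i _ => ?_
    rw [h]
    have := ep_sq (K := K) j
    linear_combination (ep K i * Q (sp i) (sp j) * w i * c (sp j)) * this
  rw [Finset.sum_congr rfl fun j _ => e1 j, Finset.sum_comm]
  refine Finset.sum_congr rfl fun i _ => ?_
  rw [← Finset.mul_sum]
  congr 1
  exact Equiv.sum_comp spE (fun j => Q (sp i) j * c j)

theorem PP_single (j : Fin 7) (c : Fin 7 → K) : PP (Pi.single j 1) c = ep K j * c (sp j) := by
  unfold PP
  rw [Finset.sum_eq_single j]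
  · rw [Pi.single_eq_same, mul_one]
  · intro i _ hi
    rw [Pi.single_eq_of_ne hi, mul_zero, zero_mul]
  · intro h
    exact absurd (Finset.mem_univ j) h

theorem PP_single' (j : Fin 7) (w : Fin 7 → K) :
    PP w (Pi.single j 1) = ep K (sp j) * w (sp j) := by
  unfold PP
  rw [Finset.sum_eq_single (sp j)]
  · rw [sp_sp, Pi.single_eq_same, mul_one]
  · intro i _ hi
    rw [Pi.single_eq_of_ne (fun h => hi (by rw [← h, sp_sp])), mul_zero]
  · intro h
    exact absurd (Finset.mem_univ _) h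

/-- `PP` as a bilinear map -/
noncomputable def PL : (Fin 7 → K) →ₗ[K] (Fin 7 → K) →ₗ[K] K :=
  LinearMap.mk₂ K PP
    (fun w w' c => by
      unfold PP
      rw [← Finset.sum_add_distrib]
      exact Finset.sum_congr rfl fun j _ => by rw [Pi.add_apply]; ring)
    (fun a w c => by
      unfold PP
      rw [Finset.smul_sum]
      exact Finset.sum_congr rfl fun j _ => by
        rw [Pi.smul_apply, smul_eq_mul, smul_eq_mul]; ring)
    (fun w c c' => by
      unfold PP
      rw [← Finset.sum_add_distrib]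
      exact Finset.sum_congr rfl fun j _ => by rw [Pi.add_apply]; ring)
    (fun a w c => by
      unfold PP
      rw [Finset.smul_sum]
      exact Finset.sum_congr rfl fun j _ => by
        rw [Pi.smul_apply, smul_eq_mul, smul_eq_mul]; ring)

theorem PL_apply (w c : Fin 7 → K) : PL w c = PP w c := rfl

theorem dual_ext {φ ψ : (Fin 7 → K) →ₗ[K] K}
    (h : ∀ j, φ (Pi.single j 1) = ψ (Pi.single j 1)) : φ = ψ := by
  refine LinearMap.pi_ext' fun j => LinearMap.ext_ring ?_
  exact h j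

theorem PL_surj (ψ : (Fin 7 → K) →ₗ[K] K) : ∃ c : Fin 7 → K, ∀ w, PP w c = ψ w := by
  refine ⟨fun i => ep K (sp i) * ψ (Pi.single (sp i) 1), fun w => ?_⟩
  have h1 : PL.flip (fun i => ep K (sp i) * ψ (Pi.single (sp i) 1)) = ψ := by
    apply dual_ext
    intro j
    show PP (Pi.single j 1) (fun i => ep K (sp i) * ψ (Pi.single (sp i) 1)) = ψ (Pi.single j 1)
    rw [PP_single, sp_sp, ← mul_assoc, ep_sq, one_mul]
  exact LinearMap.congr_fun h1 w

theorem PP_inj {c : Fin 7 → K} (h : ∀ w, PP w c = 0) : c = 0 := by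
  funext i
  have h1 := h (Pi.single (sp i) 1)
  rw [PP_single, sp_sp] at h1
  have h2 := ep_sq (K := K) (sp i)
  have h3 : c i = 0 := by linear_combination (ep K (sp i)) * h1 - (c i) * h2
  exact h3

/-- coordinates of `W` -/
noncomputable def cW (g : K) (s : ℤ) : W g s ≃ₗ[K] (Fin 7 → K) := LinearEquiv.refl K _

theorem cW_smul {s : ℤ} (x : A g s) (w : W g s) (i : Fin 7) :
    cW g s (x • w) i = ∑ j, res (x.1.fst i j) * cW g s w j := rfl

/-- the map `V → Du W'` -/
noncomputable def eVf (hg : Gen g) {s s' : ℤ} (h : s + s' = 1) :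
    V g s 0 →ₗ[A g s] Du K (tau hg h) (W g⁻¹ s') where
  toFun p := Du.mk K (tau hg h) (PL.flip (cV0 g s p) ∘ₗ (cW g⁻¹ s').toLinearMap)
  map_add' p q := by
    apply Du.ext
    intro w
    show PP (cW g⁻¹ s' w) (cV0 g s (p + q)) = PP (cW g⁻¹ s' w) (cV0 g s p) +
      PP (cW g⁻¹ s' w) (cV0 g s q)
    rw [map_add, ← PL_apply, map_add]
    rfl
  map_smul' a p := by
    apply Du.ext
    intro w
    rw [RingHom.id_apply, Du.ev_smul]
    show PP (cW g⁻¹ s' w) (cV0 g s (a • p)) =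
      PP (cW g⁻¹ s' ((tau hg h a).unop • w)) (cV0 g s p)
    have e1 : cV0 g s (a • p) = fun i => ∑ j, ev1 (a.1.fst i j) * cV0 g s p j := by
      funext i
      exact cV0_smul a p i
    have e2 : cW g⁻¹ s' ((tau hg h a).unop • w) =
        fun j => ∑ i, res (anti a.1.fst j i) * cW g⁻¹ s' w i := by
      funext j
      exact cW_smul _ w j
    rw [e1, e2]
    refine (PP_comm (fun i j => ev1 (a.1.fst i j)) (fun j i => res (anti a.1.fst j i)) ?_ _
      _).symm
    intro j i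
    show res ((ep K j * ep K i) • tr (a.1.fst (sp i) (sp j))) = _
    rw [res_smul, res_tr (Pres.adM hg a.2.1 _ _)]

theorem ev_eVf (hg : Gen g) {s s' : ℤ} (h : s + s' = 1) (p : V g s 0) (w : W g⁻¹ s') :
    Du.ev K (tau hg h) (eVf hg h p) w = PP (cW g⁻¹ s' w) (cV0 g s p) := rfl

theorem eVf_inj (hg : Gen g) {s s' : ℤ} (h : s + s' = 1) :
    Function.Injective (eVf hg h : V g s 0 →ₗ[A g s] Du K (tau hg h) (W g⁻¹ s')) := by
  intro p q hpq
  apply (cV0 g s).injective
  rw [← sub_eq_zero]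
  apply PP_inj
  intro w
  have h1 := congrArg (fun φ => Du.ev K (tau hg h) φ ((cW g⁻¹ s').symm w)) hpq
  simp only [ev_eVf, LinearEquiv.apply_symm_apply] at h1
  rw [← PL_apply, map_sub, PL_apply, PL_apply, h1, sub_self]

theorem eVf_surj (hg : Gen g) {s s' : ℤ} (h : s + s' = 1) :
    Function.Surjective (eVf hg h : V g s 0 →ₗ[A g s] Du K (tau hg h) (W g⁻¹ s')) := by
  intro φ
  obtain ⟨c, hc⟩ := PL_surj ((Du.fn K (tau hg h) φ) ∘ₗ (cW g⁻¹ s').symm.toLinearMap)
  obtain ⟨p, hp⟩ := (cV0 g s).surjective c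
  refine ⟨p, ?_⟩
  apply Du.ext
  intro w
  rw [ev_eVf, hp, hc]
  show Du.fn K (tau hg h) φ ((cW g⁻¹ s').symm (cW g⁻¹ s' w)) = _
  rw [LinearEquiv.symm_apply_apply]
  rfl

/-- **`V g s 0` is the twisted dual of `W g⁻¹ s'`** -/
noncomputable def eV (hg : Gen g) {s s' : ℤ} (h : s + s' = 1) :
    V g s 0 ≃ₗ[A g s] Du K (tau hg h) (W g⁻¹ s') :=
  LinearEquiv.ofBijective (eVf hg h) ⟨eVf_inj hg h, eVf_surj hg h⟩

/-- the map `W → Du V'` -/
noncomputable def eWf (hg : Gen g) {s s' : ℤ} (h : s + s' = 1) :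
    W g s →ₗ[A g s] Du K (tau hg h) (V g⁻¹ s' 0) where
  toFun w := Du.mk K (tau hg h) (PL.flip (cW g s w) ∘ₗ (cV0 g⁻¹ s').toLinearMap)
  map_add' p q := by
    apply Du.ext
    intro w
    show PP (cV0 g⁻¹ s' w) (cW g s (p + q)) = PP (cV0 g⁻¹ s' w) (cW g s p) +
      PP (cV0 g⁻¹ s' w) (cW g s q)
    rw [map_add, ← PL_apply, map_add]
    rfl
  map_smul' a p := by
    apply Du.ext
    intro w
    rw [RingHom.id_apply, Du.ev_smul]
    show PP (cV0 g⁻¹ s' w) (cW g s (a • p)) =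
      PP (cV0 g⁻¹ s' ((tau hg h a).unop • w)) (cW g s p)
    have e1 : cW g s (a • p) = fun i => ∑ j, res (a.1.fst i j) * cW g s p j := by
      funext i
      exact cW_smul a p i
    have e2 : cV0 g⁻¹ s' ((tau hg h a).unop • w) =
        fun j => ∑ i, ev1 (anti a.1.fst j i) * cV0 g⁻¹ s' w i := by
      funext j
      exact cV0_smul _ w j
    rw [e1, e2]
    refine (PP_comm (fun i j => res (a.1.fst i j)) (fun j i => ev1 (anti a.1.fst j i)) ?_ _
      _).symm
    intro j i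
    show ev1 ((ep K j * ep K i) • tr (a.1.fst (sp i) (sp j))) = _
    rw [ev1_smul, ev1_tr (Pres.adM hg a.2.1 _ _)]

theorem ev_eWf (hg : Gen g) {s s' : ℤ} (h : s + s' = 1) (w : W g s) (p : V g⁻¹ s' 0) :
    Du.ev K (tau hg h) (eWf hg h w) p = PP (cV0 g⁻¹ s' p) (cW g s w) := rfl

theorem eWf_inj (hg : Gen g) {s s' : ℤ} (h : s + s' = 1) :
    Function.Injective (eWf hg h : W g s →ₗ[A g s] Du K (tau hg h) (V g⁻¹ s' 0)) := by
  intro p q hpq
  apply (cW g s).injective
  rw [← sub_eq_zero]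
  apply PP_inj
  intro w
  have h1 := congrArg (fun φ => Du.ev K (tau hg h) φ ((cV0 g⁻¹ s').symm w)) hpq
  simp only [ev_eWf, LinearEquiv.apply_symm_apply] at h1
  rw [← PL_apply, map_sub, PL_apply, PL_apply, h1, sub_self]

theorem eWf_surj (hg : Gen g) {s s' : ℤ} (h : s + s' = 1) :
    Function.Surjective (eWf hg h : W g s →ₗ[A g s] Du K (tau hg h) (V g⁻¹ s' 0)) := by
  intro φ
  obtain ⟨c, hc⟩ := PL_surj ((Du.fn K (tau hg h) φ) ∘ₗ (cV0 g⁻¹ s').symm.toLinearMap)
  obtain ⟨p, hp⟩ := (cW g s).surjective c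
  refine ⟨p, ?_⟩
  apply Du.ext
  intro w
  rw [ev_eWf, hp, hc]
  show Du.fn K (tau hg h) φ ((cV0 g⁻¹ s').symm (cV0 g⁻¹ s' w)) = _
  rw [LinearEquiv.symm_apply_apply]
  rfl

/-- **`W g s` is the twisted dual of `V g⁻¹ s' 0`** -/
noncomputable def eW (hg : Gen g) {s s' : ℤ} (h : s + s' = 1) :
    W g s ≃ₗ[A g s] Du K (tau hg h) (V g⁻¹ s' 0) :=
  LinearEquiv.ofBijective (eWf hg h) ⟨eWf_inj hg h, eWf_surj hg h⟩

/-- the three ingredients of `Two`, literally -/
noncomputable example (hg : Gen g) : A g 0 ≃ₐ[K] (A g⁻¹ 1)ᵐᵒᵖ := tau hg (by norm_num)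
noncomputable example (hg : Gen g) :
    V g 0 0 ≃ₗ[A g 0] Du K (tau hg (s := 0) (s' := 1) (by norm_num)) (W g⁻¹ 1) := eV hg _
noncomputable example (hg : Gen g) :
    W g 0 ≃ₗ[A g 0] Du K (tau hg (s := 0) (s' := 1) (by norm_num)) (V g⁻¹ 1 0) := eW hg _

end Crest.Agent.R186.B281.Anti870
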