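import Crest.Agent.R186.RingA_580
import Crest.Agent.R186.Inst_823
import Crest.Agent.R186.VE_755

/-!
Row 186, S0281 (helper713): shortcut instances for the column modules `P : Submodule (A g s) (A g s)`
and their finite powers (all `inferInstance`, no diamonds), projectivity of finite powers.
-/

set_option autoImplicit false
namespace Crest.Agent.R186.B281


section gen
variable {R M : Type} [Ring R] [AddCommGroup M] [Module R M]

instance iProjPi (n : ℕ) [Module.Projective R M] : Module.Projective R (Fin n → M) := by
  classical
  exact Module.Projective.of_equiv (DirectSum.linearEquivFunOnFintype R (Fin n) (fun _ => M))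
end gen

variable {K : Type} [Field K] {g : K} {s : ℤ}
section
variable (P : Submodule (A g s) (A g s))
noncomputable instance iPg : AddCommGroup P := inferInstance
noncomputable instance iPm : Module (A g s) P := inferInstance
noncomputable instance iPk : Module K P := inferInstance
noncomputable instance iPs : SMul (A g s) P := (iPm P).toDistribMulAction.toDistribSMul.toSMulZeroClass.toSMul
noncomputable instance iPt : IsScalarTower K (A g s) P := inferInstance
noncomputable instance iP2m (n : ℕ) : Module (A g s) (Fin n → P) := inferInstance
noncomputable instance iP2k (n : ℕ) : Module K (Fin n → P) := inferInstance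
noncomputable instance iP2s (n : ℕ) : SMul (A g s) (Fin n → P) := (iP2m P n).toDistribMulAction.toDistribSMul.toSMulZeroClass.toSMul
noncomputable instance iP2t (n : ℕ) : IsScalarTower K (A g s) (Fin n → P) := inferInstance
noncomputable instance iP3m (n m : ℕ) : Module (A g s) (Fin n → Fin m → P) := inferInstance
noncomputable instance iP3k (n m : ℕ) : Module K (Fin n → Fin m → P) := inferInstance
noncomputable instance iP3s (n m : ℕ) : SMul (A g s) (Fin n → Fin m → P) := (iP3m P n m).toDistribMulAction.toDistribSMul.toSMulZeroClass.toSMul
noncomputable instance iP3t (n m : ℕ) : IsScalarTower K (A g s) (Fin n → Fin m → P) := inferInstance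

variable [Module.Finite (A g s) P] [Module.Projective (A g s) P]
example (n : ℕ) : Module.Finite (A g s) (Fin n → P) := inferInstance
example (n m : ℕ) : Module.Finite (A g s) (Fin n → Fin m → P) := inferInstance
example (n : ℕ) : Module.Projective (A g s) (Fin n → P) := inferInstance
example (n m : ℕ) : Module.Projective (A g s) (Fin n → Fin m → P) := inferInstance
end
end Crest.Agent.R186.B281
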