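import Crest.Agent.R186.AntiM_870
import Crest.Agent.R186.InstP_713
import Crest.Agent.R186.LinkC_328

/-!
Row 186, S0281 base, leaf ANTI (helper724): the twisted duals of `W` and `V` under the
anti-isomorphism `A g s ≃ (A g⁻¹ s')ᵐᵒᵖ`: `V g s 0 ≃ Du (W g⁻¹ s')`, `W g s ≃ Du (V g⁻¹ s' 0)`.
-/

set_option autoImplicit false

open Matrix MulOpposite

namespace Crest.Agent.R186.B281.AntiVW724

open Adj870 Anti870 LinkC328 Dual700

variable {K : Type} [Field K]

/-! ### residue and value at `1` are exchanged -/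

theorem ev1_eq (T : Op K) : ev1 T = B (T (Finsupp.single (0, 0) 1)) (dl K) := by
  rw [dl, B_single_right, one_mul]
  rfl

theorem res_eq (T : Op K) : res T = B (T (dl K)) (Finsupp.single (0, 0) 1) := by
  rw [B_single_right, one_mul]
  rfl

theorem res_tr {T : Op K} (h : Ad T) : res (tr T) = ev1 T := by
  rw [res_eq, ev1_eq, B_comm, ← h]

theorem ev1_tr {T : Op K} (h : Ad T) : ev1 (tr T) = res T := by
  rw [← res_tr h.tr, tr_tr h]

/-! ### the pairing on `K^7` -/

/-- the pairing `⟨u, w⟩ = ∑ ε_i u_(σ i) w_i` -/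
def pr (u w : Fin 7 → K) : K := ∑ i, ep K i * u (sp i) * w i

/-- the pairing as an isomorphism `K^7 ≃ (K^7)^*` -/
noncomputable def pe : (Fin 7 → K) ≃ₗ[K] ((Fin 7 → K) →ₗ[K] K) where
  toFun u :=
    { toFun := fun w => pr u w
      map_add' := fun w w' => by
        unfold pr
        rw [← Finset.sum_add_distrib]
        exact Finset.sum_congr rfl fun i _ => by rw [Pi.add_apply, mul_add]
      map_smul' := fun c w => by
        unfold pr
        rw [RingHom.id_apply, smul_eq_mul, Finset.mul_sum]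
        exact Finset.sum_congr rfl fun i _ => by rw [Pi.smul_apply, smul_eq_mul]; ring }
  map_add' u u' := by
    refine LinearMap.ext fun w => ?_
    show pr (u + u') w = pr u w + pr u' w
    unfold pr
    rw [← Finset.sum_add_distrib]
    exact Finset.sum_congr rfl fun i _ => by rw [Pi.add_apply]; ring
  map_smul' c u := by
    refine LinearMap.ext fun w => ?_
    show pr (c • u) w = c * pr u w
    unfold pr
    rw [Finset.mul_sum]
    exact Finset.sum_congr rfl fun i _ => by rw [Pi.smul_apply, smul_eq_mul]; ring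
  invFun φ := fun i => ep K (sp i) * φ (Pi.single (sp i) 1)
  left_inv u := by
    funext i
    show ep K (sp i) * pr u (Pi.single (sp i) 1) = u i
    unfold pr
    rw [Finset.sum_eq_single (sp i)]
    · rw [Pi.single_eq_same, sp_sp, mul_one, ← mul_assoc, ep_sq, one_mul]
    · intro j _ hj
      rw [Pi.single_eq_of_ne hj, mul_zero]
    · intro h
      exact absurd (Finset.mem_univ _) h
  right_inv φ := by
    refine LinearMap.pi_ext' fun i => LinearMap.ext_ring ?_
    show ∑ j, ep K j * (ep K (sp (sp j)) * φ (Pi.single (sp (sp j)) 1)) *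
      (Pi.single i 1 : Fin 7 → K) j = φ (Pi.single i 1)
    rw [Finset.sum_eq_single i]
    · rw [Pi.single_eq_same, sp_sp, mul_one, ← mul_assoc, ep_sq, one_mul]
    · intro j _ hj
      rw [Pi.single_eq_of_ne hj, mul_zero]
    · intro h
      exact absurd (Finset.mem_univ _) h

theorem pe_apply (u w : Fin 7 → K) : pe u w = pr u w := rfl

/-- adjunction of matrices for the pairing -/
theorem pr_adj (R S : Fin 7 → Fin 7 → K) (h : ∀ i j, S i j = ep K i * ep K j * R (sp j) (sp i))
    (u w : Fin 7 → K) : pr (fun i => ∑ j, R i j * u j) w = pr u (fun i => ∑ j, S i j * w j) := by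
  unfold pr
  have h1 : ∀ i, ep K i * (∑ j, R (sp i) j * u j) * w i =
      ∑ j, ep K i * R (sp i) (sp j) * u (sp j) * w i := by
    intro i
    rw [← Equiv.sum_comp spE (fun j => R (sp i) j * u j), Finset.mul_sum, Finset.sum_mul]
    refine Finset.sum_congr rfl fun j _ => ?_
    show ep K i * (R (sp i) (sp j) * u (sp j)) * w i = _
    ring
  rw [Finset.sum_congr rfl fun i _ => h1 i, Finset.sum_comm]
  refine Finset.sum_congr rfl fun i _ => ?_
  rw [Finset.mul_sum]
  refine Finset.sum_congr rfl fun j _ => ?_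
  rw [h i j]
  have := ep_sq (K := K) i
  linear_combination (-(ep K j * R (sp j) (sp i) * u (sp i) * w j)) * this

theorem res_anti {M : Mat K} (hM : AdM M) (i j : Fin 7) :
    res (anti M i j) = ep K i * ep K j * ev1 (M (sp j) (sp i)) := by
  show res ((ep K i * ep K j) • tr (M (sp j) (sp i))) = _
  rw [res_smul, res_tr (hM _ _)]

theorem ev1_anti {M : Mat K} (hM : AdM M) (i j : Fin 7) :
    ev1 (anti M i j) = ep K i * ep K j * res (M (sp j) (sp i)) := by
  show ev1 ((ep K i * ep K j) • tr (M (sp j) (sp i))) = _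
  rw [ev1_smul, ev1_tr (hM _ _)]

/-! ### the two isomorphisms -/

section

variable {g : K} (hg : Gen g) {s s' : ℤ} (τ : A g s ≃ₐ[K] (A g⁻¹ s')ᵐᵒᵖ)
  (hτ : ∀ x : A g s, (τ x).unop.1.fst = anti x.1.fst)

include hg hτ in
theorem eV_smul (x : A g s) (p : V g s 0) (w : W g⁻¹ s') :
    pr (cV0 g s (x • p)) w = pr (cV0 g s p) ((τ x).unop • w : W g⁻¹ s') := by
  have h1 : cV0 g s (x • p) = fun i => ∑ j, ev1 (x.1.fst i j) * cV0 g s p j :=
    funext fun i => cV0_smul x p i
  have h2 : ((τ x).unop • w : W g⁻¹ s') = (fun i => ∑ j, res (anti x.1.fst i j) * w j : Fin 7 → K) := by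
    funext i
    rw [W_smul_apply, hτ]
  rw [h1, h2]
  exact pr_adj _ _ (fun i j => res_anti (Pres.adM hg x.2.1) i j) _ _

include hg hτ in
theorem eW_smul (x : A g s) (w : W g s) (p : V g⁻¹ s' 0) :
    pr (x • w : W g s) (cV0 g⁻¹ s' p) = pr w (cV0 g⁻¹ s' ((τ x).unop • p)) := by
  have h1 : cV0 g⁻¹ s' ((τ x).unop • p) =
      fun i => ∑ j, ev1 (anti x.1.fst i j) * cV0 g⁻¹ s' p j := by
    funext i
    rw [cV0_smul, hτ]
  have h2 : (x • w : W g s) = (fun i => ∑ j, res (x.1.fst i j) * w j : Fin 7 → K) := by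
    funext i
    rw [W_smul_apply]
  rw [h1, h2]
  exact pr_adj _ _ (fun i j => ev1_anti (Pres.adM hg x.2.1) i j) _ _

/-- **`V_0 = D(W)`** -/
noncomputable def eV : V g s 0 ≃ₗ[A g s] Du K τ (W g⁻¹ s') where
  toFun p := Du.mk K τ (X := W g⁻¹ s') (pe (cV0 g s p))
  map_add' p q := by
    apply Du.ext
    intro w
    rw [Du.ev_add, Du.ev_mk, Du.ev_mk, Du.ev_mk, map_add, map_add]
    rfl
  map_smul' x p := by
    apply Du.ext
    intro w
    rw [RingHom.id_apply, Du.ev_smul, Du.ev_mk, Du.ev_mk]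
    exact eV_smul hg τ hτ x p w
  invFun φ := (cV0 g s).symm (pe.symm (Du.fn K τ φ))
  left_inv p := by
    show (cV0 g s).symm (pe.symm (pe (cV0 g s p))) = p
    rw [LinearEquiv.symm_apply_apply, LinearEquiv.symm_apply_apply]
  right_inv φ := by
    show (pe (cV0 g s ((cV0 g s).symm (pe.symm (Du.fn K τ φ)))) : (Fin 7 → K) →ₗ[K] K) = _
    rw [LinearEquiv.apply_symm_apply, LinearEquiv.apply_symm_apply]
    rfl

/-- **`W = D(V_0)`** -/
noncomputable def eW : W g s ≃ₗ[A g s] Du K τ (V g⁻¹ s' 0) where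
  toFun w := Du.mk K τ (X := V g⁻¹ s' 0) (pe (w : Fin 7 → K) ∘ₗ (cV0 g⁻¹ s').toLinearMap)
  map_add' w w' := by
    apply Du.ext
    intro p
    rw [Du.ev_add, Du.ev_mk, Du.ev_mk, Du.ev_mk]
    exact LinearMap.congr_fun (map_add pe (w : Fin 7 → K) w') (cV0 g⁻¹ s' p)
  map_smul' x w := by
    apply Du.ext
    intro p
    rw [RingHom.id_apply, Du.ev_smul, Du.ev_mk, Du.ev_mk]
    exact eW_smul hg τ hτ x w p
  invFun φ := pe.symm (Du.fn K τ φ ∘ₗ (cV0 g⁻¹ s').symm.toLinearMap)
  left_inv w := by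
    show pe.symm ((pe (w : Fin 7 → K) ∘ₗ (cV0 g⁻¹ s').toLinearMap) ∘ₗ
      (cV0 g⁻¹ s').symm.toLinearMap) = w
    rw [LinearMap.comp_assoc, LinearEquiv.comp_symm, LinearMap.comp_id]
    exact LinearEquiv.symm_apply_apply pe (w : Fin 7 → K)
  right_inv φ := by
    apply Du.ext
    intro p
    rw [Du.ev_mk]
    show pe (pe.symm (Du.fn K τ φ ∘ₗ (cV0 g⁻¹ s').symm.toLinearMap)) (cV0 g⁻¹ s' p) = _
    rw [LinearEquiv.apply_symm_apply]
    show Du.fn K τ φ ((cV0 g⁻¹ s').symm (cV0 g⁻¹ s' p)) = _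
    rw [LinearEquiv.symm_apply_apply]
    rfl

end

end Crest.Agent.R186.B281.AntiVW724
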