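import Mathlib

/-!
Row 186, literal definitions, QUASI-FREE model (helper221 #27230), helper830.
Supersedes Defs_830.

Field `K` of characteristic `2`, normalisation `al = p`, `be = 1`, no generator `π` (`π := y 0 * y 1`).
`R = O[h] (x) T(E)`, `O = K[x_0,x_1]`, `h` central, `E` = 15 free letters, the only relations move `x`
past a letter; `R'' = R (x) W`, `W = {1, y_x, y_x', y_xh, y_xh', π}`.

Letters (name : P-degree, Adams degree, minus cohomological degree)
  x i : (1,0,0)    h : (0,1,0)     d j : (-1,1,0)   f : (0,1,1)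
  z j : (-1,2,1)   zc : (0,2,2)    u 0 = u : (0,1,1)   u 1 = u' : (0,2,2)
  e j : (-1,2,2)   gj j : (-1,3,3)  gc : (0,3,4)    v 0 = v : (0,2,2)   v 1 = v' : (0,3,3)
(808 #27338: `u'` has Adams degree 2, so no `h` in the relation of `gc` and `h^2` in `d u'`, `d v'`.)
Left modules, printed order of products.
  y 0 = y_x : (0,0,0)  y 1 = y_x' : (0,0,1)  yb 0 = y_xh : (0,0,1)  yb 1 = y_x'h : (0,0,2)
-/

set_option autoImplicit false

namespace Crest.Agent.R186.DefsQ830

/-- parameters -/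
structure Par (K : Type) [Field K] where
  g : K
  p : K
  q1 : K
  q2 : K
  g0 : g ≠ 0
  p0 : p ≠ 0
  q10 : q1 ≠ 0
  q20 : q2 ≠ 0
  two : (2 : K) = 0
  gn : ∀ n : ℕ, 0 < n → g ^ n ≠ 1
  ind : ∀ i j k : ℤ, p ^ i * q1 ^ j * q2 ^ k = 1 → i = 0 ∧ j = 0 ∧ k = 0

inductive Gen
  | x (i : Fin 2)
  | h
  | d (j : Fin 2)
  | f
  | z (j : Fin 2)
  | zc
  | u (s : Fin 2)
  | e (j : Fin 2)
  | gj (j : Fin 2)
  | gc
  | v (s : Fin 2)
  | y (s : Fin 2)
  | yb (s : Fin 2)
  deriving DecidableEq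

namespace Gen

/-- P-degree -/
def dP : Gen → ℤ
  | x _ => 1
  | d _ => -1
  | z _ => -1
  | e _ => -1
  | gj _ => -1
  | _ => 0

/-- Adams degree -/
def dA : Gen → ℕ
  | x _ => 0
  | h => 1
  | d _ => 1
  | f => 1
  | z _ => 2
  | zc => 2
  | u s => 1 + s.val
  | e _ => 2
  | gj _ => 3
  | gc => 3
  | v s => 2 + s.val
  | y _ => 0
  | yb _ => 0

/-- minus the cohomological degree -/
def dC : Gen → ℕ
  | x _ => 0
  | h => 0
  | d _ => 0
  | f => 1
  | z _ => 1
  | zc => 2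
  | u s => 1 + s.val
  | e _ => 2
  | gj _ => 3
  | gc => 4
  | v s => 2 + s.val
  | y s => s.val
  | yb s => 1 + s.val

/-- the 15 free letters -/
def isE : Gen → Bool
  | x _ => false
  | h => false
  | y _ => false
  | yb _ => false
  | _ => true

/-- letters of `W` -/
def isW : Gen → Bool
  | y _ => true
  | yb _ => true
  | _ => false

end Gen

variable {K : Type} [Field K]

/-- `c 0 = g^2`, `c 1 = g` -/
def Par.c (π : Par K) (i : Fin 2) : K := if i = 0 then π.g ^ 2 else π.g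

/-- `c 0 * c 1 / c j`: `cz 0 = g`, `cz 1 = g^2` -/
def Par.cz (π : Par K) (j : Fin 2) : K := if j = 0 then π.g else π.g ^ 2

/-- characters of the `W`-letters against `u 0`, `v 0` (inverse against `u 1`, `v 1`) -/
def Par.chiy (π : Par K) (_s : Fin 2) : K := π.p

def Par.chiyb (π : Par K) (s : Fin 2) : K := if s = 0 then π.q1 else π.q2

/-- `χ^{±1}`: exponent `+1` for `s = 0`, `-1` for `s = 1` -/
def sg (a : K) (s : Fin 2) : K := if s = 0 then a else a⁻¹

section
variable (K)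
/-- the free algebra -/
abbrev F : Type := FreeAlgebra K Gen
/-- a letter in the free algebra -/
def L (a : Gen) : F K := FreeAlgebra.ι K a
end

open Gen

/-- `t = h + (g-1)(d_0 x_0 + d_1 x_1)` in the free algebra; `x_i t = g t x_i` -/
def tF (π : Par K) : F K :=
  L K h + (π.g - 1) • (L K (d 0) * L K (x 0) + L K (d 1) * L K (x 1))

/-- `r = d_1 d_0 + g d_0 d_1`; `x_i r = c_i r x_i` -/
def rF (π : Par K) : F K := L K (d 1) * L K (d 0) + π.g • (L K (d 0) * L K (d 1))

/-- `rho = e_1 d_0 + g d_1 e_0 + g e_0 d_1 + g^3 d_0 e_1`; `x_i rho = c_i^2 rho x_i` -/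
def rhoF (π : Par K) : F K :=
  L K (e 1) * L K (d 0) + π.g • (L K (d 1) * L K (e 0)) + π.g • (L K (e 0) * L K (d 1))
    + π.g ^ 3 • (L K (d 0) * L K (e 1))

/-- defining relations of `R''` -/
inductive Rel (π : Par K) : F K → F K → Prop
  | xx : Rel π (L K (x 0) * L K (x 1)) (L K (x 1) * L K (x 0))
  | hc (a : Gen) : Rel π (L K h * L K a) (L K a * L K h)
  | x0d0 : Rel π (L K (x 0) * L K (d 0)) (L K h + π.g • (L K (d 0) * L K (x 0)))
  | x0d1 : Rel π (L K (x 0) * L K (d 1)) (π.g • (L K (d 1) * L K (x 0)))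
  | x1d0 : Rel π (L K (x 1) * L K (d 0)) (L K (d 0) * L K (x 1))
  | x1d1 : Rel π (L K (x 1) * L K (d 1))
      (L K h + π.g • (L K (d 1) * L K (x 1)) + (π.g - 1) • (L K (d 0) * L K (x 0)))
  | xf (i : Fin 2) : Rel π (L K (x i) * L K f) (π.c i • (L K f * L K (x i)))
  | xz (i j : Fin 2) : Rel π (L K (x i) * L K (z j)) (π.c i • (L K (z j) * L K (x i)))
  | xzc (i : Fin 2) : Rel π (L K (x i) * L K zc) (π.c i • (L K zc * L K (x i)))
  | xu (i s : Fin 2) : Rel π (L K (x i) * L K (u s)) (π.c i • (L K (u s) * L K (x i)))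
  | x0e (j : Fin 2) : Rel π (L K (x 0) * L K (e j)) (π.g ^ 3 • (L K (e j) * L K (x 0)))
  | x1e0 : Rel π (L K (x 1) * L K (e 0)) (π.g • (L K (e 0) * L K (x 1)))
  | x1e1 : Rel π (L K (x 1) * L K (e 1))
      (π.g ^ 2 • (L K (e 1) * L K (x 1)) + (π.g * (π.g - 1)) • (L K (e 0) * L K (x 0)))
  | xgj (i j : Fin 2) : Rel π (L K (x i) * L K (gj j)) (π.c i ^ 2 • (L K (gj j) * L K (x i)))
  | xgc (i : Fin 2) : Rel π (L K (x i) * L K gc) (π.c i ^ 2 • (L K gc * L K (x i)))
  | xv (i s : Fin 2) : Rel π (L K (x i) * L K (v s)) ((π.g * π.c i) • (L K (v s) * L K (x i)))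
  -- the W-letters
  | xy (i s : Fin 2) : Rel π (L K (x i) * L K (y s)) (π.c i • (L K (y s) * L K (x i)))
  | xyb (i s : Fin 2) : Rel π (L K (x i) * L K (yb s)) (π.c i • (L K (yb s) * L K (x i)))
  | yd (j s : Fin 2) : Rel π (L K (y s) * L K (d j)) (π.c j • (L K (d j) * L K (y s)))
  | ybd (j s : Fin 2) : Rel π (L K (yb s) * L K (d j)) (π.c j • (L K (d j) * L K (yb s)))
  | ye (j s : Fin 2) : Rel π (L K (y s) * L K (e j)) (π.c j • (L K (e j) * L K (y s)))
  | ybe (j s : Fin 2) : Rel π (L K (yb s) * L K (e j)) (π.c j • (L K (e j) * L K (yb s)))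
  | yz (j s : Fin 2) : Rel π (L K (y s) * L K (z j)) (π.cz j • (L K (z j) * L K (y s)))
  | ybz (j s : Fin 2) : Rel π (L K (yb s) * L K (z j)) (π.cz j • (L K (z j) * L K (yb s)))
  | ygj (j s : Fin 2) : Rel π (L K (y s) * L K (gj j)) (π.cz j • (L K (gj j) * L K (y s)))
  | ybgj (j s : Fin 2) : Rel π (L K (yb s) * L K (gj j)) (π.cz j • (L K (gj j) * L K (yb s)))
  | yf (s : Fin 2) : Rel π (L K (y s) * L K f) (L K f * L K (y s))
  | ybf (s : Fin 2) : Rel π (L K (yb s) * L K f) (L K f * L K (yb s))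
  | yzc (s : Fin 2) : Rel π (L K (y s) * L K zc) (L K zc * L K (y s))
  | ybzc (s : Fin 2) : Rel π (L K (yb s) * L K zc) (L K zc * L K (yb s))
  | ygc (s : Fin 2) : Rel π (L K (y s) * L K gc) (L K gc * L K (y s))
  | ybgc (s : Fin 2) : Rel π (L K (yb s) * L K gc) (L K gc * L K (yb s))
  | yu (s t : Fin 2) : Rel π (L K (y s) * L K (u t)) (sg (π.chiy s) t • (L K (u t) * L K (y s)))
  | ybu (s t : Fin 2) : Rel π (L K (yb s) * L K (u t)) (sg (π.chiyb s) t • (L K (u t) * L K (yb s)))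
  | yv (s t : Fin 2) : Rel π (L K (y s) * L K (v t)) (sg (π.chiy s) t • (L K (v t) * L K (y s)))
  | ybv (s t : Fin 2) : Rel π (L K (yb s) * L K (v t)) (sg (π.chiyb s) t • (L K (v t) * L K (yb s)))
  | yy (s : Fin 2) : Rel π (L K (y s) * L K (y s)) 0
  | y10 : Rel π (L K (y 1) * L K (y 0)) (π.p • (L K (y 0) * L K (y 1)))
  | yyb (s t : Fin 2) : Rel π (L K (y s) * L K (yb t)) 0
  | yby (s t : Fin 2) : Rel π (L K (yb s) * L K (y t)) 0
  | ybyb (s t : Fin 2) : Rel π (L K (yb s) * L K (yb t)) 0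

/-- the algebra `R''` (all bidegrees) -/
abbrev R (π : Par K) : Type := RingQuot (Rel π)

/-- the projection from the free algebra -/
def mk (π : Par K) : F K →ₐ[K] R π := RingQuot.mkAlgHom K (Rel π)

/-- letters in `R''` -/
def X (π : Par K) (a : Gen) : R π := mk π (L K a)

theorem mk_L (π : Par K) (a : Gen) : mk π (L K a) = X π a := rfl

theorem mk_rel (π : Par K) {a b : F K} (hab : Rel π a b) : mk π a = mk π b :=
  RingQuot.mkAlgHom_rel K hab

/-- `h` for `s = 0`, `h^2` for `s = 1` -/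
def hs (s : Fin 2) : F K := if s = 0 then L K h else L K h * L K h

/-- value of the differential on the letters (in the free algebra), char 2:
`al = p`, `be = 1` -/
def dGen (π : Par K) : Gen → F K
  | z j => L K (x j) * rF π
  | zc => L K (x 0) * L K (z 1) + L K (x 1) * L K (z 0) + L K h * L K f
  | e j => L K f * L K (d j) + π.c j • (L K (d j) * L K f)
  | gj j => L K f * L K (z j) + π.cz j • (L K (z j) * L K f) + (π.c j)⁻¹ • (L K (x j) * rhoF π)
  | gc => L K f * L K zc + L K zc * L K f + (π.c 0)⁻¹ • (L K (x 0) * L K (gj 1))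
      + (π.c 1)⁻¹ • (L K (x 1) * L K (gj 0))
      + (π.p • (L K (u 0) * L K (u 1)) + L K (u 1) * L K (u 0))
  | u s => hs s * L K (y s)
  | v s => tF π * L K (u s) + L K (u s) * tF π + hs s * tF π * L K (yb s)
  | _ => 0

/-- a differential on `R''`: `K`-linear, Leibniz without signs (char 2), given on letters by `dGen` -/
structure IsDiff (π : Par K) (D : R π →ₗ[K] R π) : Prop where
  leib : ∀ a b : R π, D (a * b) = D a * b + a * D b
  gen : ∀ a : Gen, D (X π a) = mk π (dGen π a)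

/-- words -/
def wd (π : Par K) (w : List Gen) : R π := (w.map (X π)).prod

/-- P-degree, Adams degree, minus cohomological degree of a word -/
def wP (w : List Gen) : ℤ := (w.map dP).sum
def wA (w : List Gen) : ℕ := (w.map dA).sum
def wC (w : List Gen) : ℕ := (w.map dC).sum

/-- tri-homogeneous piece of `R''` -/
def pc (π : Par K) (P : ℤ) (A C : ℕ) : Submodule K (R π) :=
  Submodule.span K {r | ∃ w : List Gen, wP w = P ∧ wA w = A ∧ wC w = C ∧ r = wd π w}

/-- bihomogeneous piece of `R''` (all cohomological degrees) -/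
def pcB (π : Par K) (P : ℤ) (A : ℕ) : Submodule K (R π) :=
  Submodule.span K {r | ∃ w : List Gen, wP w = P ∧ wA w = A ∧ r = wd π w}

/-- objects of the window: `(i, b)`, `i ∈ {0,1}`, `b ∈ {0,1,2,3}` -/
abbrev Ob : Type := Fin 2 × Fin 4

def difP (o o' : Ob) : ℤ := (o'.1.val : ℤ) - (o.1.val : ℤ)
def difA (o o' : Ob) : ℤ := (o'.2.val : ℤ) - (o.2.val : ℤ)

/-- the entry space of the window algebra: left modules have components `M o`, the entry `(o', o)`
maps `M o` to `M o'` -/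
def ent (π : Par K) (o' o : Ob) : Submodule K (R π) :=
  if 0 ≤ difA o o' then pcB π (difP o o') (difA o o').toNat else ⊥

end Crest.Agent.R186.DefsQ830
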