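import Mathlib
import Crest.Agent.R186.DefsQ_830

/-!
Row 186, leaf R1 (helper128): PBW theorem for the quasi-free algebra `R''` of `DefsQ_830`.

Normal elements `nf (i,j,k,w,q) = x_0^i x_1^j h^k * (word w in the 15 free letters) * (basis element q
of W)` form a `K`-basis of `R π`.
-/

set_option autoImplicit false

noncomputable section

namespace Crest.Agent.R186.PBW128

open Crest.Agent.R186.DefsQ830

/-- the 15 free letters -/
inductive E
  | d (j : Fin 2)
  | f
  | z (j : Fin 2)
  | zc
  | u (s : Fin 2)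
  | e (j : Fin 2)
  | gj (j : Fin 2)
  | gc
  | v (s : Fin 2)
  deriving DecidableEq, Fintype

/-- the four `W`-letters -/
inductive Y
  | y (s : Fin 2)
  | yb (s : Fin 2)
  deriving DecidableEq, Fintype

/-- the six basis elements of `W` -/
inductive Wb
  | one
  | y (s : Fin 2)
  | yb (s : Fin 2)
  | pi
  deriving DecidableEq, Fintype

def E.toGen : E → Gen
  | .d j => .d j
  | .f => .f
  | .z j => .z j
  | .zc => .zc
  | .u s => .u s
  | .e j => .e j
  | .gj j => .gj j
  | .gc => .gc
  | .v s => .v s

def Y.toGen : Y → Gen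
  | .y s => .y s
  | .yb s => .yb s

/-- the `W`-word of a basis element -/
def Wb.word : Wb → List Gen
  | .one => []
  | .y s => [.y s]
  | .yb s => [.yb s]
  | .pi => [.y 0, .y 1]

variable {K : Type} [Field K]

/-- index set of normal elements: exponents of `x_0`, `x_1`, `h`, word, `W`-part -/
abbrev Ix : Type := ℕ × ℕ × ℕ × List E × Wb

variable (K) in
abbrev N : Type := Ix →₀ K

/-! ### structure constants: `l x_0 = al x_0 l + th h`, `l x_1 = be x_1 l + ga x_0 (mt l) + et h` -/

def mt : E → E
  | .d _ => .d 0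
  | .e _ => .e 0
  | l => l

def al (π : Par K) : E → K
  | .d _ => π.g⁻¹
  | .e _ => (π.g ^ 3)⁻¹
  | .gj _ => (π.g ^ 4)⁻¹
  | .gc => (π.g ^ 4)⁻¹
  | .v _ => (π.g ^ 3)⁻¹
  | _ => (π.g ^ 2)⁻¹

def be (π : Par K) : E → K
  | .d j => if j = 0 then 1 else π.g⁻¹
  | .e j => if j = 0 then π.g⁻¹ else (π.g ^ 2)⁻¹
  | .gj _ => (π.g ^ 2)⁻¹
  | .gc => (π.g ^ 2)⁻¹
  | .v _ => (π.g ^ 2)⁻¹
  | _ => π.g⁻¹

def ga (π : Par K) : E → K
  | .d j => if j = 0 then 0 else -((π.g - 1) * (π.g ^ 2)⁻¹)
  | .e j => if j = 0 then 0 else -((π.g - 1) * (π.g ^ 4)⁻¹)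
  | _ => 0

def th (π : Par K) : E → K
  | .d j => if j = 0 then - π.g⁻¹ else 0
  | _ => 0

def et (π : Par K) : E → K
  | .d j => if j = 0 then 0 else - (π.g ^ 2)⁻¹
  | _ => 0

/-- character of a `W`-letter -/
def Par.ch (π : Par K) : Y → K
  | .y s => π.chiy s
  | .yb s => π.chiyb s

/-- `y l = chi y l • l y` -/
def chi (π : Par K) (a : Y) : E → K
  | .d j => π.c j
  | .f => 1
  | .z j => π.cz j
  | .zc => 1
  | .u t => sg (Par.ch π a) t
  | .e j => π.c j
  | .gj j => π.cz j
  | .gc => 1
  | .v t => sg (Par.ch π a) t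

/-- target of the product `y · q` in `W` -/
def wt : Y → Wb → Wb
  | .y s, .one => .y s
  | .yb s, .one => .yb s
  | _, _ => .pi

/-- coefficient of the product `y · q` in `W` -/
def wk (π : Par K) : Y → Wb → K
  | .y _, .one => 1
  | .yb _, .one => 1
  | .y 0, .y 1 => 1
  | .y 1, .y 0 => π.p
  | _, _ => 0

theorem c1 (π : Par K) (l : E) : al π l * ga π l = ga π l * al π (mt l) := by
  cases l <;> simp only [al, mt] <;> exact mul_comm _ _

theorem c2 (π : Par K) (l : E) : al π l * et π l = ga π l * th π (mt l) + et π l := by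
  have hg := π.g0
  cases l with
  | d j =>
    by_cases hj : j = 0
    · simp [et, ga, hj]
    · simp only [al, et, ga, th, mt, hj, if_false, if_true]
      field_simp
      ring
  | _ => simp [al, et, ga, th, mt]

theorem c3 (π : Par K) (l : E) : th π l = be π l * th π l := by
  cases l with
  | d j =>
    by_cases hj : j = 0
    · simp [th, be, hj]
    · simp [th, hj]
  | _ => simp [th]

theorem k1 (π : Par K) (a : Y) (l : E) : th π l * (chi π a l * (π.c 0)⁻¹ - 1) = 0 := by
  have hg := π.g0
  cases l with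
  | d j =>
    by_cases hj : j = 0
    · subst hj; simp [th, chi, Par.c, hg]
    · simp [th, hj]
  | _ => simp [th]

theorem k2 (π : Par K) (a : Y) (l : E) :
    ga π l * (chi π a l * (π.c 1)⁻¹ - chi π a (mt l) * (π.c 0)⁻¹) = 0 := by
  have hg := π.g0
  cases l with
  | d j =>
    by_cases hj : j = 0
    · simp [ga, hj]
    · obtain rfl : j = 1 := by omega
      simp [ga, chi, mt, Par.c, hg]
  | e j =>
    by_cases hj : j = 0
    · simp [ga, hj]
    · obtain rfl : j = 1 := by omega
      simp [ga, chi, mt, Par.c, hg]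
  | _ => simp [ga]

theorem k3 (π : Par K) (a : Y) (l : E) : et π l * (chi π a l * (π.c 1)⁻¹ - 1) = 0 := by
  have hg := π.g0
  cases l with
  | d j =>
    by_cases hj : j = 0
    · simp [et, hj]
    · obtain rfl : j = 1 := by omega
      simp [et, chi, Par.c, hg]
  | _ => simp [et]

/-! ### operators on `N` -/

variable (K) in
def opX0 : N K →ₗ[K] N K := Finsupp.lmapDomain K K (fun ν : Ix => (ν.1 + 1, ν.2.1, ν.2.2.1, ν.2.2.2.1, ν.2.2.2.2))

variable (K) in
def opX1 : N K →ₗ[K] N K := Finsupp.lmapDomain K K (fun ν : Ix => (ν.1, ν.2.1 + 1, ν.2.2.1, ν.2.2.2.1, ν.2.2.2.2))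

variable (K) in
def opH : N K →ₗ[K] N K := Finsupp.lmapDomain K K (fun ν : Ix => (ν.1, ν.2.1, ν.2.2.1 + 1, ν.2.2.2.1, ν.2.2.2.2))

variable (K) in
/-- basis vector -/
def bv (i j k : ℕ) (w : List E) (q : Wb) : N K := Finsupp.single (i, j, k, w, q) 1

@[simp] theorem opX0_bv (i j k : ℕ) (w : List E) (q : Wb) : opX0 K (bv K i j k w q) = bv K (i + 1) j k w q := by
  simp [opX0, bv, Finsupp.lmapDomain_apply]

@[simp] theorem opX1_bv (i j k : ℕ) (w : List E) (q : Wb) : opX1 K (bv K i j k w q) = bv K i (j + 1) k w q := by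
  simp [opX1, bv, Finsupp.lmapDomain_apply]

@[simp] theorem opH_bv (i j k : ℕ) (w : List E) (q : Wb) : opH K (bv K i j k w q) = bv K i j (k + 1) w q := by
  simp [opH, bv, Finsupp.lmapDomain_apply]

theorem ext_bv {M : Type*} [AddCommMonoid M] [Module K M] {φ ψ : N K →ₗ[K] M}
    (h : ∀ i j k w q, φ (bv K i j k w q) = ψ (bv K i j k w q)) : φ = ψ := by
  apply Finsupp.lhom_ext'
  rintro ⟨i, j, k, w, q⟩
  apply LinearMap.ext_ring
  simpa [bv] using h i j k w q

theorem X0X1 (n : N K) : opX0 K (opX1 K n) = opX1 K (opX0 K n) := by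
  have : (opX0 K) ∘ₗ (opX1 K) = (opX1 K) ∘ₗ (opX0 K) := ext_bv (by intros; simp)
  exact LinearMap.congr_fun this n

theorem X0H (n : N K) : opX0 K (opH K n) = opH K (opX0 K n) := by
  have : (opX0 K) ∘ₗ (opH K) = (opH K) ∘ₗ (opX0 K) := ext_bv (by intros; simp)
  exact LinearMap.congr_fun this n

theorem X1H (n : N K) : opX1 K (opH K n) = opH K (opX1 K n) := by
  have : (opX1 K) ∘ₗ (opH K) = (opH K) ∘ₗ (opX1 K) := ext_bv (by intros; simp)
  exact LinearMap.congr_fun this n

/-- `l · x_1^j h^k w q` -/
def A0 (π : Par K) (k : ℕ) (w : List E) (q : Wb) : ℕ → E → N K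
  | 0, l => bv K 0 0 k (l :: w) q
  | j + 1, l => be π l • opX1 K (A0 π k w q j l) + ga π l • opX0 K (A0 π k w q j (mt l))
      + et π l • bv K 0 j (k + 1) w q

/-- `l · x_0^i x_1^j h^k w q` -/
def A1 (π : Par K) (k : ℕ) (w : List E) (q : Wb) (j : ℕ) : ℕ → E → N K
  | 0, l => A0 π k w q j l
  | i + 1, l => al π l • opX0 K (A1 π k w q j i l) + th π l • bv K i j (k + 1) w q

theorem A1_succ_j (π : Par K) (k : ℕ) (w : List E) (q : Wb) (j i : ℕ) (l : E) :
    A1 π k w q (j + 1) i l = be π l • opX1 K (A1 π k w q j i l) + ga π l • opX0 K (A1 π k w q j i (mt l))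
      + et π l • bv K i j (k + 1) w q := by
  induction i with
  | zero => rfl
  | succ i ih =>
    show al π l • opX0 K (A1 π k w q (j + 1) i l) + th π l • bv K i (j + 1) (k + 1) w q = _
    rw [ih]
    show _ = be π l • opX1 K (al π l • opX0 K (A1 π k w q j i l) + th π l • bv K i j (k + 1) w q)
      + ga π l • opX0 K (al π (mt l) • opX0 K (A1 π k w q j i (mt l)) + th π (mt l) • bv K i j (k + 1) w q)
      + et π l • bv K (i + 1) j (k + 1) w q
    simp only [map_add, map_smul, smul_add, smul_smul, opX0_bv, opX1_bv, X0X1]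
    rw [c1 π l, c2 π l, mul_comm (al π l) (be π l), ← c3 π l]
    simp only [add_smul]
    abel

theorem A1_succ_k (π : Par K) (k : ℕ) (w : List E) (q : Wb) (j i : ℕ) (l : E) :
    A1 π (k + 1) w q j i l = opH K (A1 π k w q j i l) := by
  induction i generalizing l with
  | zero =>
    show A0 π (k + 1) w q j l = opH K (A0 π k w q j l)
    induction j generalizing l with
    | zero => simp [A0]
    | succ j ih => simp only [A0, ih, map_add, map_smul, opH_bv, X0H, X1H]
  | succ i ih =>
    simp only [A1, ih, map_add, map_smul, opH_bv, X0H]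

/-- left multiplication by the letter `l` -/
def opL (π : Par K) (l : E) : N K →ₗ[K] N K :=
  Finsupp.linearCombination K (fun ν : Ix => A1 π ν.2.2.1 ν.2.2.2.1 ν.2.2.2.2 ν.2.1 ν.1 l)

theorem opL_bv (π : Par K) (l : E) (i j k : ℕ) (w : List E) (q : Wb) :
    opL π l (bv K i j k w q) = A1 π k w q j i l := by
  simp [opL, bv]

@[simp] theorem opL_bv00 (π : Par K) (l : E) (k : ℕ) (w : List E) (q : Wb) :
    opL π l (bv K 0 0 k w q) = bv K 0 0 k (l :: w) q := by
  rw [opL_bv]; rfl

theorem LX0 (π : Par K) (l : E) (n : N K) :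
    opL π l (opX0 K n) = al π l • opX0 K (opL π l n) + th π l • opH K n := by
  have : (opL π l) ∘ₗ (opX0 K) = al π l • ((opX0 K) ∘ₗ (opL π l)) + th π l • opH K := by
    apply ext_bv
    intro i j k w q
    simp only [LinearMap.comp_apply, LinearMap.add_apply, LinearMap.smul_apply, opX0_bv, opL_bv, opH_bv]
    rfl
  exact LinearMap.congr_fun this n

theorem LX1 (π : Par K) (l : E) (n : N K) :
    opL π l (opX1 K n) = be π l • opX1 K (opL π l n) + ga π l • opX0 K (opL π (mt l) n)
      + et π l • opH K n := by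
  have : (opL π l) ∘ₗ (opX1 K) = be π l • ((opX1 K) ∘ₗ (opL π l))
      + ga π l • ((opX0 K) ∘ₗ (opL π (mt l))) + et π l • opH K := by
    apply ext_bv
    intro i j k w q
    simp only [LinearMap.comp_apply, LinearMap.add_apply, LinearMap.smul_apply, opX1_bv, opL_bv, opH_bv]
    exact A1_succ_j π k w q j i l
  exact LinearMap.congr_fun this n

theorem LH (π : Par K) (l : E) (n : N K) : opL π l (opH K n) = opH K (opL π l n) := by
  have : (opL π l) ∘ₗ (opH K) = (opH K) ∘ₗ (opL π l) := by
    apply ext_bv
    intro i j k w q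
    simp only [LinearMap.comp_apply, opH_bv, opL_bv]
    exact A1_succ_k π k w q j i l
  exact LinearMap.congr_fun this n

/-- character value on the normal element `x_0^i x_1^j h^k w` -/
def sc (π : Par K) (a : Y) (i j : ℕ) (w : List E) : K :=
  (π.c 0)⁻¹ ^ i * (π.c 1)⁻¹ ^ j * (w.map (chi π a)).prod

/-- left multiplication by a `W`-letter -/
def opY (π : Par K) (a : Y) : N K →ₗ[K] N K :=
  Finsupp.linearCombination K (fun ν : Ix =>
    (sc π a ν.1 ν.2.1 ν.2.2.2.1 * wk π a ν.2.2.2.2) •
      bv K ν.1 ν.2.1 ν.2.2.1 ν.2.2.2.1 (wt a ν.2.2.2.2))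

@[simp] theorem opY_bv (π : Par K) (a : Y) (i j k : ℕ) (w : List E) (q : Wb) :
    opY π a (bv K i j k w q) = (sc π a i j w * wk π a q) • bv K i j k w (wt a q) := by
  simp [opY, bv]

theorem YX0 (π : Par K) (a : Y) (n : N K) :
    opY π a (opX0 K n) = (π.c 0)⁻¹ • opX0 K (opY π a n) := by
  have : (opY π a) ∘ₗ (opX0 K) = (π.c 0)⁻¹ • ((opX0 K) ∘ₗ (opY π a)) := by
    apply ext_bv
    intro i j k w q
    simp only [LinearMap.comp_apply, LinearMap.smul_apply, opX0_bv, opY_bv, map_smul, smul_smul, sc]
    congr 1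
    ring
  exact LinearMap.congr_fun this n

theorem YX1 (π : Par K) (a : Y) (n : N K) :
    opY π a (opX1 K n) = (π.c 1)⁻¹ • opX1 K (opY π a n) := by
  have : (opY π a) ∘ₗ (opX1 K) = (π.c 1)⁻¹ • ((opX1 K) ∘ₗ (opY π a)) := by
    apply ext_bv
    intro i j k w q
    simp only [LinearMap.comp_apply, LinearMap.smul_apply, opX1_bv, opY_bv, map_smul, smul_smul, sc]
    congr 1
    ring
  exact LinearMap.congr_fun this n

theorem YH (π : Par K) (a : Y) (n : N K) : opY π a (opH K n) = opH K (opY π a n) := by
  have : (opY π a) ∘ₗ (opH K) = (opH K) ∘ₗ (opY π a) := by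
    apply ext_bv
    intro i j k w q
    simp only [LinearMap.comp_apply, opH_bv, opY_bv, map_smul]
  exact LinearMap.congr_fun this n

theorem YA1 (π : Par K) (a : Y) (k : ℕ) (w : List E) (q : Wb) (j i : ℕ) (l : E) :
    opY π a (A1 π k w q j i l) = (chi π a l * (sc π a i j w * wk π a q)) • A1 π k w (wt a q) j i l := by
  induction i generalizing l with
  | zero =>
    show opY π a (A0 π k w q j l) = (chi π a l * (sc π a 0 j w * wk π a q)) • A0 π k w (wt a q) j l
    induction j generalizing l with
    | zero =>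
      simp only [A0, opY_bv, sc, pow_zero, List.map_cons, List.prod_cons]
      congr 1
      ring
    | succ j ih =>
      simp only [A0, map_add, map_smul, YX1, YX0, ih, smul_add, smul_smul, opY_bv, sc, pow_zero, pow_succ,
        one_mul]
      have h2 := k2 π a l
      have h3 := k3 π a l
      congr 1
      · congr 1
        · congr 1; ring
        · congr 1
          linear_combination (-(π.c 1)⁻¹ ^ j * (w.map (chi π a)).prod * wk π a q) * h2
      · congr 1
        linear_combination (-(π.c 1)⁻¹ ^ j * (w.map (chi π a)).prod * wk π a q) * h3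
  | succ i ih =>
    simp only [A1, map_add, map_smul, YX0, ih, smul_add, smul_smul, opY_bv, sc, pow_succ]
    have h1 := k1 π a l
    congr 1
    · congr 1; ring
    · congr 1
      linear_combination (-(π.c 0)⁻¹ ^ i * (π.c 1)⁻¹ ^ j * (w.map (chi π a)).prod * wk π a q) * h1

theorem YL (π : Par K) (a : Y) (l : E) (n : N K) :
    opY π a (opL π l n) = chi π a l • opL π l (opY π a n) := by
  have : (opY π a) ∘ₗ (opL π l) = chi π a l • ((opL π l) ∘ₗ (opY π a)) := by
    apply ext_bv
    intro i j k w q
    simp only [LinearMap.comp_apply, LinearMap.smul_apply, opL_bv, opY_bv, map_smul, YA1, smul_smul]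
  exact LinearMap.congr_fun this n

/-! ### the left regular representation in coordinates -/

/-- operators of the generators -/
def op (π : Par K) : Gen → Module.End K (N K)
  | .x i => if i = 0 then opX0 K else opX1 K
  | .h => opH K
  | .d j => opL π (.d j)
  | .f => opL π .f
  | .z j => opL π (.z j)
  | .zc => opL π .zc
  | .u s => opL π (.u s)
  | .e j => opL π (.e j)
  | .gj j => opL π (.gj j)
  | .gc => opL π .gc
  | .v s => opL π (.v s)
  | .y s => opY π (.y s)
  | .yb s => opY π (.yb s)

theorem op_toGen (π : Par K) (l : E) : op π l.toGen = opL π l := by cases l <;> rfl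

theorem op_ytoGen (π : Par K) (a : Y) : op π a.toGen = opY π a := by cases a <;> rfl

theorem fin2 (i : Fin 2) : i = 0 ∨ i = 1 := by omega

/-- diagonal letters: printed crossing rule from the left one -/
theorem XL0 (π : Par K) (l : E) (c : K) (hc : c * al π l = 1) (ht : th π l = 0) (n : N K) :
    opX0 K (opL π l n) = c • opL π l (opX0 K n) := by
  rw [LX0, ht, zero_smul, add_zero, smul_smul, hc, one_smul]

theorem XL1 (π : Par K) (l : E) (c : K) (hc : c * be π l = 1) (hg : ga π l = 0) (he : et π l = 0)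
    (n : N K) : opX1 K (opL π l n) = c • opL π l (opX1 K n) := by
  rw [LX1, hg, he, zero_smul, add_zero, zero_smul, add_zero, smul_smul, hc, one_smul]

theorem XY0 (π : Par K) (a : Y) (n : N K) : opX0 K (opY π a n) = π.c 0 • opY π a (opX0 K n) := by
  have h0 : π.c 0 ≠ 0 := by simp [Par.c, π.g0]
  rw [YX0, smul_smul, mul_inv_cancel₀ h0, one_smul]

theorem XY1 (π : Par K) (a : Y) (n : N K) : opX1 K (opY π a n) = π.c 1 • opY π a (opX1 K n) := by
  have h0 : π.c 1 ≠ 0 := by simp [Par.c, π.g0]
  rw [YX1, smul_smul, mul_inv_cancel₀ h0, one_smul]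

theorem YY0 (π : Par K) (a b : Y) (h : ∀ q, wk π b q * wk π a (wt b q) = 0) (n : N K) :
    opY π a (opY π b n) = 0 := by
  have : (opY π a) ∘ₗ (opY π b) = 0 := by
    apply ext_bv
    intro i j k w q
    simp only [LinearMap.comp_apply, opY_bv, map_smul, smul_smul, LinearMap.zero_apply]
    have := h q
    have h2 : sc π b i j w * wk π b q * (sc π a i j w * wk π a (wt b q)) = 0 := by
      linear_combination (sc π b i j w * sc π a i j w) * this
    rw [h2, zero_smul]
  exact LinearMap.congr_fun this n

theorem Y10 (π : Par K) (n : N K) :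
    opY π (.y 1) (opY π (.y 0) n) = π.p • opY π (.y 0) (opY π (.y 1) n) := by
  have : (opY π (.y 1)) ∘ₗ (opY π (.y 0)) = π.p • ((opY π (.y 0)) ∘ₗ (opY π (.y 1))) := by
    apply ext_bv
    intro i j k w q
    simp only [LinearMap.comp_apply, LinearMap.smul_apply, opY_bv, map_smul, smul_smul]
    have hs : sc π (.y 1) i j w = sc π (.y 0) i j w := rfl
    rw [hs]
    cases q with
    | one => simp [wk, wt]; ring_nf
    | y s => rcases fin2 s with rfl | rfl <;> simp [wk, wt]
    | yb s => simp [wk]
    | pi => simp [wk]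
  exact LinearMap.congr_fun this n

theorem lift_rel (π : Par K) {a b : F K} (h : Rel π a b) :
    FreeAlgebra.lift K (op π) a = FreeAlgebra.lift K (op π) b := by
  have hg := π.g0
  cases h <;> apply LinearMap.ext <;> intro n <;>
    simp only [L, map_mul, map_smul, map_add, FreeAlgebra.lift_ι_apply, Module.End.mul_apply,
      LinearMap.add_apply, LinearMap.smul_apply, map_zero, LinearMap.zero_apply]
  case xx => exact X0X1 n
  case hc a =>
    cases a with
    | x i => rcases fin2 i with rfl | rfl
             · exact (X0H n).symm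
             · exact (X1H n).symm
    | h => rfl
    | y s => exact (YH π _ n).symm
    | yb s => exact (YH π _ n).symm
    | _ => exact (LH π _ n).symm
  case x0d0 =>
    show opX0 K (opL π (.d 0) n) = opH K n + π.g • opL π (.d 0) (opX0 K n)
    rw [LX0]
    simp only [al, th, if_true, smul_add, smul_smul]
    match_scalars <;> field_simp <;> ring
  case x0d1 =>
    show opX0 K (opL π (.d 1) n) = π.g • opL π (.d 1) (opX0 K n)
    exact XL0 π _ _ (by simp [al, hg]) (by simp [th]) n
  case x1d0 =>
    show opX1 K (opL π (.d 0) n) = opL π (.d 0) (opX1 K n)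
    have := XL1 π (.d 0) 1 (by simp [be]) (by simp [ga]) (by simp [et]) n
    rw [this, one_smul]
  case x1d1 =>
    show opX1 K (opL π (.d 1) n) = opH K n + π.g • opL π (.d 1) (opX1 K n)
      + (π.g - 1) • opL π (.d 0) (opX0 K n)
    rw [LX0, LX1]
    have h10 : (1 : Fin 2) ≠ 0 := by decide
    simp only [al, th, be, ga, et, mt, h10, if_true, if_false, smul_add, smul_smul]
    match_scalars <;> field_simp <;> ring
  case xf i =>
    rcases fin2 i with rfl | rfl
    · exact XL0 π .f _ (by simp [al, Par.c, hg]) (by simp [th]) n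
    · exact XL1 π .f _ (by simp [be, Par.c, hg]) (by simp [ga]) (by simp [et]) n
  case xz i j =>
    rcases fin2 i with rfl | rfl
    · exact XL0 π (.z j) _ (by simp [al, Par.c, hg]) (by simp [th]) n
    · exact XL1 π (.z j) _ (by simp [be, Par.c, hg]) (by simp [ga]) (by simp [et]) n
  case xzc i =>
    rcases fin2 i with rfl | rfl
    · exact XL0 π .zc _ (by simp [al, Par.c, hg]) (by simp [th]) n
    · exact XL1 π .zc _ (by simp [be, Par.c, hg]) (by simp [ga]) (by simp [et]) n
  case xu i t =>
    rcases fin2 i with rfl | rfl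
    · exact XL0 π (.u t) _ (by simp [al, Par.c, hg]) (by simp [th]) n
    · exact XL1 π (.u t) _ (by simp [be, Par.c, hg]) (by simp [ga]) (by simp [et]) n
  case x0e j => exact XL0 π (.e j) _ (by simp [al, hg]) (by simp [th]) n
  case x1e0 => exact XL1 π (.e 0) _ (by simp [be, hg]) (by simp [ga]) (by simp [et]) n
  case x1e1 =>
    show opX1 K (opL π (.e 1) n) = π.g ^ 2 • opL π (.e 1) (opX1 K n)
      + (π.g * (π.g - 1)) • opL π (.e 0) (opX0 K n)
    rw [LX0, LX1]
    have h10 : (1 : Fin 2) ≠ 0 := by decide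
    simp only [al, th, be, ga, et, mt, h10, if_false, smul_add, smul_smul, zero_smul, add_zero]
    match_scalars <;> field_simp <;> ring
  case xgj i j =>
    rcases fin2 i with rfl | rfl
    · exact XL0 π (.gj j) _ (by simp [al, Par.c, hg, ← pow_mul]) (by simp [th]) n
    · exact XL1 π (.gj j) _ (by simp [be, Par.c, hg]) (by simp [ga]) (by simp [et]) n
  case xgc i =>
    rcases fin2 i with rfl | rfl
    · exact XL0 π .gc _ (by simp [al, Par.c, hg, ← pow_mul]) (by simp [th]) n
    · exact XL1 π .gc _ (by simp [be, Par.c, hg]) (by simp [ga]) (by simp [et]) n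
  case xv i t =>
    rcases fin2 i with rfl | rfl
    · refine XL0 π (.v t) _ ?_ (by simp [th]) n
      simp only [al, Par.c, if_true]; field_simp
    · refine XL1 π (.v t) _ ?_ (by simp [ga]) (by simp [et]) n
      have h10 : (1 : Fin 2) ≠ 0 := by decide
      simp only [be, Par.c, h10, if_false]; field_simp
  case xy i t =>
    rcases fin2 i with rfl | rfl
    · exact XY0 π _ n
    · exact XY1 π _ n
  case xyb i t =>
    rcases fin2 i with rfl | rfl
    · exact XY0 π _ n
    · exact XY1 π _ n
  case yf t => exact (YL π (.y t) .f n).trans (one_smul _ _)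
  case ybf t => exact (YL π (.yb t) .f n).trans (one_smul _ _)
  case yzc t => exact (YL π (.y t) .zc n).trans (one_smul _ _)
  case ybzc t => exact (YL π (.yb t) .zc n).trans (one_smul _ _)
  case ygc t => exact (YL π (.y t) .gc n).trans (one_smul _ _)
  case ybgc t => exact (YL π (.yb t) .gc n).trans (one_smul _ _)
  case yy t =>
    refine YY0 π _ _ ?_ n
    intro q
    rcases fin2 t with rfl | rfl <;> cases q <;> simp [wk, wt]
  case y10 => exact Y10 π n
  case yyb t t' =>
    refine YY0 π _ _ ?_ n
    intro q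
    cases q <;> simp [wk, wt]
  case yby t t' =>
    refine YY0 π _ _ ?_ n
    intro q
    cases q <;> simp [wk, wt]
  case ybyb t t' =>
    refine YY0 π _ _ ?_ n
    intro q
    cases q <;> simp [wk, wt]
  all_goals first
    | exact YL π _ _ n

/-- left regular representation of `R''` in coordinates -/
def rep (π : Par K) : R π →ₐ[K] Module.End K (N K) :=
  RingQuot.liftAlgHom K ⟨FreeAlgebra.lift K (op π), fun _ _ h => lift_rel π h⟩

@[simp] theorem rep_mk (π : Par K) (a : F K) : rep π (mk π a) = FreeAlgebra.lift K (op π) a := by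
  simp [rep, mk]

@[simp] theorem rep_X (π : Par K) (a : Gen) : rep π (X π a) = op π a := by
  simp [X, L]

theorem rep_x0 (π : Par K) (n : N K) : rep π (X π (.x 0)) n = opX0 K n := by simp [op]
theorem rep_x1 (π : Par K) (n : N K) : rep π (X π (.x 1)) n = opX1 K n := by simp [op]
theorem rep_h (π : Par K) (n : N K) : rep π (X π .h) n = opH K n := by simp [op]
theorem rep_E (π : Par K) (l : E) (n : N K) : rep π (X π l.toGen) n = opL π l n := by
  rw [rep_X, op_toGen]
theorem rep_Y (π : Par K) (a : Y) (n : N K) : rep π (X π a.toGen) n = opY π a n := by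
  rw [rep_X, op_ytoGen]

/-! ### normal elements -/

/-- word in the free letters -/
def we (π : Par K) (w : List E) : R π := wd π (w.map E.toGen)

/-- basis element of `W` in `R''` -/
def wq (π : Par K) (q : Wb) : R π := wd π q.word

/-- normal element -/
def nf (π : Par K) (ν : Ix) : R π :=
  X π (.x 0) ^ ν.1 * X π (.x 1) ^ ν.2.1 * X π .h ^ ν.2.2.1 * we π ν.2.2.2.1 * wq π ν.2.2.2.2

/-- the map `N → R''` -/
def Psi (π : Par K) : N K →ₗ[K] R π := Finsupp.linearCombination K (nf π)

@[simp] theorem Psi_bv (π : Par K) (i j k : ℕ) (w : List E) (q : Wb) :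
    Psi π (bv K i j k w q) = nf π (i, j, k, w, q) := by
  simp [Psi, bv]

theorem we_nil (π : Par K) : we π [] = 1 := rfl
theorem we_cons (π : Par K) (l : E) (w : List E) : we π (l :: w) = X π l.toGen * we π w := by
  simp [we, wd]
theorem we_append (π : Par K) (w w' : List E) : we π (w ++ w') = we π w * we π w' := by
  simp [we, wd]

/-! relations in `R''`, in the left normal form -/

theorem rxx (π : Par K) : X π (.x 0) * X π (.x 1) = X π (.x 1) * X π (.x 0) := by
  have := mk_rel π (Rel.xx (π := π))
  simpa [X] using this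

theorem rh (π : Par K) (a : Gen) : X π .h * X π a = X π a * X π .h := by
  have := mk_rel π (Rel.hc (π := π) a)
  simpa [X] using this

theorem flip {A : Type*} [Ring A] [Algebra K A] {a b : A} {c c' : K} (hc : c' * c = 1)
    (h : a * b = c • (b * a)) : b * a = c' • (a * b) := by
  rw [h, smul_smul, hc, one_smul]

theorem flip0 {A : Type*} [Ring A] [Algebra K A] {a b hh : A} {c c' : K} (hc : c' * c = 1)
    (h : a * b = c • (b * a)) : b * a = c' • (a * b) + (0 : K) • hh := by
  rw [h, smul_smul, hc, one_smul, zero_smul, add_zero]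

theorem flip1 {A : Type*} [Ring A] [Algebra K A] {a b m hh : A} {c c' : K} (hc : c' * c = 1)
    (h : a * b = c • (b * a)) : b * a = c' • (a * b) + (0 : K) • m + (0 : K) • hh := by
  rw [h, smul_smul, hc, one_smul, zero_smul, add_zero, zero_smul, add_zero]

theorem rE0 (π : Par K) (l : E) :
    X π l.toGen * X π (.x 0) = al π l • (X π (.x 0) * X π l.toGen) + th π l • X π .h := by
  have hg := π.g0
  have h10 : (1 : Fin 2) ≠ 0 := by decide
  cases l with
  | d j =>
    rcases fin2 j with rfl | rfl
    · have := mk_rel π (Rel.x0d0 (π := π))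
      simp only [map_mul, map_add, map_smul] at this
      show X π (.d 0) * X π (.x 0) = _
      simp only [E.toGen, al, th, if_true]
      change X π (.x 0) * X π (.d 0) = X π .h + π.g • (X π (.d 0) * X π (.x 0)) at this
      rw [this]
      match_scalars <;> field_simp <;> ring
    · have := mk_rel π (Rel.x0d1 (π := π))
      simp only [map_mul, map_smul] at this
      exact flip0 (by simp [al, hg]) this
  | f =>
    have := mk_rel π (Rel.xf (π := π) 0)
    simp only [map_mul, map_smul] at this
    exact flip0 (by simp [al, Par.c, hg]) this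
  | z j =>
    have := mk_rel π (Rel.xz (π := π) 0 j)
    simp only [map_mul, map_smul] at this
    exact flip0 (by simp [al, Par.c, hg]) this
  | zc =>
    have := mk_rel π (Rel.xzc (π := π) 0)
    simp only [map_mul, map_smul] at this
    exact flip0 (by simp [al, Par.c, hg]) this
  | u t =>
    have := mk_rel π (Rel.xu (π := π) 0 t)
    simp only [map_mul, map_smul] at this
    exact flip0 (by simp [al, Par.c, hg]) this
  | e j =>
    have := mk_rel π (Rel.x0e (π := π) j)
    simp only [map_mul, map_smul] at this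
    exact flip0 (by simp [al, hg]) this
  | gj j =>
    have := mk_rel π (Rel.xgj (π := π) 0 j)
    simp only [map_mul, map_smul] at this
    exact flip0 (by simp [al, Par.c, hg, ← pow_mul]) this
  | gc =>
    have := mk_rel π (Rel.xgc (π := π) 0)
    simp only [map_mul, map_smul] at this
    exact flip0 (by simp [al, Par.c, hg, ← pow_mul]) this
  | v t =>
    have := mk_rel π (Rel.xv (π := π) 0 t)
    simp only [map_mul, map_smul] at this
    refine flip0 ?_ this
    simp only [al, Par.c, if_true]; field_simp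

theorem rE1 (π : Par K) (l : E) :
    X π l.toGen * X π (.x 1) = be π l • (X π (.x 1) * X π l.toGen)
      + ga π l • (X π (.x 0) * X π (mt l).toGen) + et π l • X π .h := by
  have hg := π.g0
  have h10 : (1 : Fin 2) ≠ 0 := by decide
  cases l with
  | d j =>
    rcases fin2 j with rfl | rfl
    · have := mk_rel π (Rel.x1d0 (π := π))
      simp only [map_mul] at this
      exact flip1 (c := 1) (by simp [be]) (by rw [one_smul]; exact this)
    · have := mk_rel π (Rel.x1d1 (π := π))
      simp only [map_mul, map_add, map_smul] at this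
      have h0 := rE0 π (.d 0)
      simp only [al, th, if_true] at h0
      change X π (.x 1) * X π (.d 1) = X π .h + π.g • (X π (.d 1) * X π (.x 1))
        + (π.g - 1) • (X π (E.d 0).toGen * X π (.x 0)) at this
      rw [h0] at this
      show X π (.d 1) * X π (.x 1) = be π (.d 1) • (X π (.x 1) * X π (.d 1)) +
        ga π (.d 1) • (X π (.x 0) * X π (E.d 0).toGen) + et π (.d 1) • X π .h
      rw [this]
      simp only [be, ga, et, h10, if_false]
      match_scalars <;> field_simp <;> ring
  | f =>
    have := mk_rel π (Rel.xf (π := π) 1)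
    simp only [map_mul, map_smul] at this
    exact flip1 (by simp [be, Par.c, hg]) this
  | z j =>
    have := mk_rel π (Rel.xz (π := π) 1 j)
    simp only [map_mul, map_smul] at this
    exact flip1 (by simp [be, Par.c, hg]) this
  | zc =>
    have := mk_rel π (Rel.xzc (π := π) 1)
    simp only [map_mul, map_smul] at this
    exact flip1 (by simp [be, Par.c, hg]) this
  | u t =>
    have := mk_rel π (Rel.xu (π := π) 1 t)
    simp only [map_mul, map_smul] at this
    exact flip1 (by simp [be, Par.c, hg]) this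
  | e j =>
    rcases fin2 j with rfl | rfl
    · have := mk_rel π (Rel.x1e0 (π := π))
      simp only [map_mul, map_smul] at this
      exact flip1 (by simp [be, hg]) this
    · have := mk_rel π (Rel.x1e1 (π := π))
      simp only [map_mul, map_add, map_smul] at this
      have h0 := rE0 π (.e 0)
      simp only [al, th, zero_smul, add_zero] at h0
      change X π (.x 1) * X π (.e 1) = π.g ^ 2 • (X π (.e 1) * X π (.x 1))
        + (π.g * (π.g - 1)) • (X π (E.e 0).toGen * X π (.x 0)) at this
      rw [h0] at this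
      show X π (.e 1) * X π (.x 1) = be π (.e 1) • (X π (.x 1) * X π (.e 1)) +
        ga π (.e 1) • (X π (.x 0) * X π (E.e 0).toGen) + et π (.e 1) • X π .h
      rw [this]
      simp only [be, ga, et, h10, if_false, zero_smul, add_zero]
      match_scalars <;> field_simp <;> ring
  | gj j =>
    have := mk_rel π (Rel.xgj (π := π) 1 j)
    simp only [map_mul, map_smul] at this
    exact flip1 (by simp [be, Par.c, hg]) this
  | gc =>
    have := mk_rel π (Rel.xgc (π := π) 1)
    simp only [map_mul, map_smul] at this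
    exact flip1 (by simp [be, Par.c, hg]) this
  | v t =>
    have := mk_rel π (Rel.xv (π := π) 1 t)
    simp only [map_mul, map_smul] at this
    refine flip1 ?_ this
    simp only [be, Par.c, h10, if_false]; field_simp

theorem rY (π : Par K) (a : Y) (i : Fin 2) :
    X π a.toGen * X π (.x i) = (π.c i)⁻¹ • (X π (.x i) * X π a.toGen) := by
  have hg := π.g0
  have hc : π.c i ≠ 0 := by rcases fin2 i with rfl | rfl <;> simp [Par.c, hg]
  cases a with
  | y t =>
    have := mk_rel π (Rel.xy (π := π) i t)
    simp only [map_mul, map_smul] at this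
    exact flip (inv_mul_cancel₀ hc) this
  | yb t =>
    have := mk_rel π (Rel.xyb (π := π) i t)
    simp only [map_mul, map_smul] at this
    exact flip (inv_mul_cancel₀ hc) this

theorem m2 {π : Par K} {a b a' b' : Gen} {c : K} (h : Rel π (L K a * L K b) (c • (L K b' * L K a'))) :
    X π a * X π b = c • (X π b' * X π a') := by
  have := mk_rel π h
  simp only [map_mul, map_smul] at this
  exact this

theorem m1 {π : Par K} {a b a' b' : Gen} (h : Rel π (L K a * L K b) (L K b' * L K a')) :
    X π a * X π b = (1 : K) • (X π b' * X π a') := by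
  have := mk_rel π h
  simp only [map_mul] at this
  rw [one_smul]
  exact this

theorem m0 {π : Par K} {a b : Gen} (h : Rel π (L K a * L K b) 0) : X π a * X π b = 0 := by
  have := mk_rel π h
  simp only [map_mul, map_zero] at this
  exact this

theorem rYE (π : Par K) (a : Y) (l : E) :
    X π a.toGen * X π l.toGen = chi π a l • (X π l.toGen * X π a.toGen) := by
  cases a with
  | y t =>
    cases l with
    | d j => exact m2 (Rel.yd j t)
    | f => exact m1 (Rel.yf t)
    | z j => exact m2 (Rel.yz j t)
    | zc => exact m1 (Rel.yzc t)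
    | u j => exact m2 (Rel.yu t j)
    | e j => exact m2 (Rel.ye j t)
    | gj j => exact m2 (Rel.ygj j t)
    | gc => exact m1 (Rel.ygc t)
    | v j => exact m2 (Rel.yv t j)
  | yb t =>
    cases l with
    | d j => exact m2 (Rel.ybd j t)
    | f => exact m1 (Rel.ybf t)
    | z j => exact m2 (Rel.ybz j t)
    | zc => exact m1 (Rel.ybzc t)
    | u j => exact m2 (Rel.ybu t j)
    | e j => exact m2 (Rel.ybe j t)
    | gj j => exact m2 (Rel.ybgj j t)
    | gc => exact m1 (Rel.ybgc t)
    | v j => exact m2 (Rel.ybv t j)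

theorem wq_one (π : Par K) : wq π .one = 1 := rfl
theorem wq_y (π : Par K) (s : Fin 2) : wq π (.y s) = X π (.y s) := by simp [wq, wd, Wb.word]
theorem wq_yb (π : Par K) (s : Fin 2) : wq π (.yb s) = X π (.yb s) := by simp [wq, wd, Wb.word]
theorem wq_pi (π : Par K) : wq π .pi = X π (.y 0) * X π (.y 1) := by simp [wq, wd, Wb.word]

theorem ryy (π : Par K) (s : Fin 2) : X π (.y s) * X π (.y s) = 0 :=
  m0 (Rel.yy s)
theorem ry10 (π : Par K) : X π (.y 1) * X π (.y 0) = π.p • (X π (.y 0) * X π (.y 1)) :=
  m2 Rel.y10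
theorem ryyb (π : Par K) (s t : Fin 2) : X π (.y s) * X π (.yb t) = 0 :=
  m0 (Rel.yyb s t)
theorem ryby (π : Par K) (s t : Fin 2) : X π (.yb s) * X π (.y t) = 0 :=
  m0 (Rel.yby s t)
theorem rybyb (π : Par K) (s t : Fin 2) : X π (.yb s) * X π (.yb t) = 0 :=
  m0 (Rel.ybyb s t)

/-- left multiplication of a `W`-letter on the basis of `W` -/
theorem rW (π : Par K) (a : Y) (q : Wb) : X π a.toGen * wq π q = wk π a q • wq π (wt a q) := by
  cases a with
  | y s =>
    cases q with
    | one => simp [wk, wt, wq_one, wq_y, Y.toGen]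
    | y t =>
      rcases fin2 s with rfl | rfl <;> rcases fin2 t with rfl | rfl <;>
        simp [wk, wt, wq_y, wq_pi, Y.toGen, ryy, ry10]
    | yb t => simp [wk, wq_yb, Y.toGen, ryyb]
    | pi =>
      rcases fin2 s with rfl | rfl
      · simp [wk, wq_pi, Y.toGen, ← mul_assoc, ryy]
      · rw [show wk π (.y 1) .pi = 0 from rfl, zero_smul, wq_pi]
        show X π (.y 1) * (X π (.y 0) * X π (.y 1)) = 0
        rw [← mul_assoc, ry10, smul_mul_assoc, mul_assoc, ryy, mul_zero, smul_zero]
  | yb s =>
    cases q with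
    | one => simp [wk, wt, wq_one, wq_yb, Y.toGen]
    | y t => simp [wk, wq_y, Y.toGen, ryby]
    | yb t => simp [wk, wq_yb, Y.toGen, rybyb]
    | pi => simp [wk, wq_pi, Y.toGen, ← mul_assoc, ryby]

theorem comm_xx (π : Par K) : Commute (X π (.x 0)) (X π (.x 1)) := rxx π
theorem comm_h (π : Par K) (a : Gen) : Commute (X π .h) (X π a) := rh π a

theorem nf_X0 (π : Par K) (i j k : ℕ) (w : List E) (q : Wb) :
    nf π (i + 1, j, k, w, q) = X π (.x 0) * nf π (i, j, k, w, q) := by
  simp only [nf, pow_succ', mul_assoc]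

theorem nf_X1 (π : Par K) (i j k : ℕ) (w : List E) (q : Wb) :
    nf π (i, j + 1, k, w, q) = X π (.x 1) * nf π (i, j, k, w, q) := by
  simp only [nf, pow_succ', mul_assoc]
  rw [← mul_assoc, ((comm_xx π).pow_left i).eq, mul_assoc]

theorem nf_H (π : Par K) (i j k : ℕ) (w : List E) (q : Wb) :
    nf π (i, j, k + 1, w, q) = X π .h * nf π (i, j, k, w, q) := by
  simp only [nf, pow_succ', mul_assoc]
  rw [← mul_assoc (X π (.x 1) ^ j) (X π .h), ← ((comm_h π (.x 1)).pow_right j).eq, mul_assoc,
    ← mul_assoc (X π (.x 0) ^ i) (X π .h), ← ((comm_h π (.x 0)).pow_right i).eq, mul_assoc]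

theorem Psi_X0 (π : Par K) (n : N K) : Psi π (opX0 K n) = X π (.x 0) * Psi π n := by
  have : (Psi π) ∘ₗ (opX0 K) = (LinearMap.mulLeft K (X π (.x 0))) ∘ₗ (Psi π) := by
    apply ext_bv
    intro i j k w q
    simp [nf_X0]
  exact LinearMap.congr_fun this n

theorem Psi_X1 (π : Par K) (n : N K) : Psi π (opX1 K n) = X π (.x 1) * Psi π n := by
  have : (Psi π) ∘ₗ (opX1 K) = (LinearMap.mulLeft K (X π (.x 1))) ∘ₗ (Psi π) := by
    apply ext_bv
    intro i j k w q
    simp [nf_X1]
  exact LinearMap.congr_fun this n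

theorem Psi_H (π : Par K) (n : N K) : Psi π (opH K n) = X π .h * Psi π n := by
  have : (Psi π) ∘ₗ (opH K) = (LinearMap.mulLeft K (X π .h)) ∘ₗ (Psi π) := by
    apply ext_bv
    intro i j k w q
    simp [nf_H]
  exact LinearMap.congr_fun this n

theorem Psi_A1 (π : Par K) (k : ℕ) (w : List E) (q : Wb) (j i : ℕ) (l : E) :
    Psi π (A1 π k w q j i l) = X π l.toGen * nf π (i, j, k, w, q) := by
  induction i generalizing l with
  | zero =>
    show Psi π (A0 π k w q j l) = X π l.toGen * nf π (0, j, k, w, q)
    induction j generalizing l with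
    | zero =>
      simp only [A0, Psi_bv, nf, pow_zero, one_mul, we_cons]
      rw [← mul_assoc, ((comm_h π l.toGen).pow_left k).eq, mul_assoc, mul_assoc, mul_assoc]
    | succ j ih =>
      simp only [A0, map_add, map_smul, Psi_X1, Psi_X0, ih, Psi_bv]
      rw [nf_X1, nf_H, ← mul_assoc (X π l.toGen), rE1]
      simp only [add_mul, smul_mul_assoc, mul_assoc]
  | succ i ih =>
    simp only [A1, map_add, map_smul, Psi_X0, ih, Psi_bv]
    rw [nf_X0, nf_H, ← mul_assoc (X π l.toGen), rE0]
    simp only [add_mul, smul_mul_assoc, mul_assoc]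

theorem Psi_L (π : Par K) (l : E) (n : N K) : Psi π (opL π l n) = X π l.toGen * Psi π n := by
  have : (Psi π) ∘ₗ (opL π l) = (LinearMap.mulLeft K (X π l.toGen)) ∘ₗ (Psi π) := by
    apply ext_bv
    intro i j k w q
    simp [opL_bv, Psi_A1]
  exact LinearMap.congr_fun this n

theorem Ypow (π : Par K) (a : Y) (c : Fin 2) (i : ℕ) :
    X π a.toGen * X π (.x c) ^ i = (π.c c)⁻¹ ^ i • (X π (.x c) ^ i * X π a.toGen) := by
  induction i with
  | zero => simp
  | succ i ih =>
    rw [pow_succ, ← mul_assoc, ih, smul_mul_assoc, mul_assoc, rY, mul_smul_comm, smul_smul, pow_succ,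
      mul_assoc]

theorem Ywe (π : Par K) (a : Y) (w : List E) :
    X π a.toGen * we π w = (w.map (chi π a)).prod • (we π w * X π a.toGen) := by
  induction w with
  | nil => simp [we_nil]
  | cons l w ih =>
    rw [we_cons, ← mul_assoc, rYE, smul_mul_assoc, mul_assoc, ih, mul_smul_comm, smul_smul,
      List.map_cons, List.prod_cons, mul_assoc]

theorem Ynf (π : Par K) (a : Y) (i j k : ℕ) (w : List E) (q : Wb) :
    X π a.toGen * nf π (i, j, k, w, q) = (sc π a i j w * wk π a q) • nf π (i, j, k, w, wt a q) := by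
  have e : X π a.toGen * nf π (i, j, k, w, q) =
      X π a.toGen * X π (.x 0) ^ i * X π (.x 1) ^ j * X π .h ^ k * we π w * wq π q := by
    simp only [nf, mul_assoc]
  rw [e, Ypow, smul_mul_assoc, mul_assoc (X π (.x 0) ^ i), Ypow, mul_smul_comm, smul_smul]
  rw [smul_mul_assoc, mul_assoc (X π (.x 0) ^ i), mul_assoc (X π (.x 1) ^ j),
    ← ((comm_h π a.toGen).pow_left k).eq]
  rw [smul_mul_assoc, mul_assoc (X π (.x 0) ^ i), mul_assoc (X π (.x 1) ^ j), mul_assoc (X π .h ^ k),
    Ywe]
  simp only [mul_smul_comm, smul_smul, smul_mul_assoc, mul_assoc]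
  rw [rW]
  simp only [mul_smul_comm, smul_smul, nf, mul_assoc, sc]

theorem Psi_Y (π : Par K) (a : Y) (n : N K) : Psi π (opY π a n) = X π a.toGen * Psi π n := by
  have : (Psi π) ∘ₗ (opY π a) = (LinearMap.mulLeft K (X π a.toGen)) ∘ₗ (Psi π) := by
    apply ext_bv
    intro i j k w q
    simp [Ynf]
  exact LinearMap.congr_fun this n

theorem Psi_op (π : Par K) (a : Gen) (n : N K) : Psi π (op π a n) = X π a * Psi π n := by
  cases a with
  | x i => rcases fin2 i with rfl | rfl
           · exact Psi_X0 π n
           · exact Psi_X1 π n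
  | h => exact Psi_H π n
  | d j => exact Psi_L π (.d j) n
  | f => exact Psi_L π .f n
  | z j => exact Psi_L π (.z j) n
  | zc => exact Psi_L π .zc n
  | u s => exact Psi_L π (.u s) n
  | e j => exact Psi_L π (.e j) n
  | gj j => exact Psi_L π (.gj j) n
  | gc => exact Psi_L π .gc n
  | v s => exact Psi_L π (.v s) n
  | y s => exact Psi_Y π (.y s) n
  | yb s => exact Psi_Y π (.yb s) n

/-- every element of `R''` comes from the free algebra -/
theorem mk_surj (π : Par K) (r : R π) : ∃ a : F K, mk π a = r :=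
  RingQuot.mkAlgHom_surjective K (Rel π) r

/-- induction principle -/
theorem R_ind (π : Par K) {P : R π → Prop} (h1 : ∀ c : K, P (algebraMap K (R π) c))
    (h2 : ∀ a : Gen, P (X π a)) (h3 : ∀ a b, P a → P b → P (a * b)) (h4 : ∀ a b, P a → P b → P (a + b))
    (r : R π) : P r := by
  obtain ⟨a, rfl⟩ := mk_surj π r
  induction a using FreeAlgebra.induction with
  | grade0 c => rw [AlgHom.commutes]; exact h1 c
  | grade1 a => exact h2 a
  | mul a b ha hb => rw [map_mul]; exact h3 _ _ ha hb
  | add a b ha hb => rw [map_add]; exact h4 _ _ ha hb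

/-- `Ψ` intertwines the representation with left multiplication -/
theorem Psi_rep (π : Par K) (r : R π) (n : N K) : Psi π (rep π r n) = r * Psi π n := by
  revert n
  refine R_ind π (P := fun r => ∀ n, Psi π (rep π r n) = r * Psi π n) ?_ ?_ ?_ ?_ r
  · intro c n
    rw [AlgHom.commutes, Module.algebraMap_end_apply, map_smul, Algebra.smul_def]
  · intro a n
    rw [rep_X, Psi_op]
  · intro a b ha hb n
    rw [map_mul, Module.End.mul_apply, ha, hb, mul_assoc]
  · intro a b ha hb n
    rw [map_add, LinearMap.add_apply, map_add, ha, hb, add_mul]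

variable (K) in
/-- the unit vector -/
def one' : N K := bv K 0 0 0 [] .one

theorem Psi_one (π : Par K) : Psi π (one' K) = 1 := by
  simp [one', nf, we_nil, wq_one]

/-- coordinates -/
def ev (π : Par K) : R π →ₗ[K] N K where
  toFun r := rep π r (one' K)
  map_add' a b := by simp
  map_smul' c a := by simp

theorem Psi_ev (π : Par K) (r : R π) : Psi π (ev π r) = r := by
  show Psi π (rep π r (one' K)) = r
  rw [Psi_rep, Psi_one, mul_one]

theorem rep_mul_one (π : Par K) (r s : R π) : rep π (r * s) (one' K) = rep π r (ev π s) := by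
  rw [map_mul, Module.End.mul_apply]; rfl

theorem ev_mul (π : Par K) (r s : R π) : ev π (r * s) = rep π r (ev π s) := rep_mul_one π r s

theorem ev_wq (π : Par K) (q : Wb) : ev π (wq π q) = bv K 0 0 0 [] q := by
  show rep π (wq π q) (one' K) = _
  cases q with
  | one => rw [wq_one, map_one]; rfl
  | y s => rw [wq_y, rep_X]
           show opY π (.y s) (one' K) = _
           simp [one', sc, wk, wt]
  | yb s => rw [wq_yb, rep_X]
            show opY π (.yb s) (one' K) = _
            simp [one', sc, wk, wt]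
  | pi =>
    rw [wq_pi, map_mul, Module.End.mul_apply, rep_X, rep_X]
    show opY π (.y 0) (opY π (.y 1) (one' K)) = _
    simp [one', sc, wk, wt]

theorem ev_we (π : Par K) (w : List E) (q : Wb) : ev π (we π w * wq π q) = bv K 0 0 0 w q := by
  induction w with
  | nil => rw [we_nil, one_mul, ev_wq]
  | cons l w ih => rw [we_cons, mul_assoc, ev_mul, ih, rep_E, opL_bv00]

theorem ev_nf (π : Par K) (i j k : ℕ) (w : List E) (q : Wb) :
    ev π (nf π (i, j, k, w, q)) = bv K i j k w q := by
  induction i with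
  | succ i ih => rw [nf_X0, ev_mul, ih, rep_x0, opX0_bv]
  | zero =>
    induction j with
    | succ j ih => rw [nf_X1, ev_mul, ih, rep_x1, opX1_bv]
    | zero =>
      induction k with
      | succ k ih => rw [nf_H, ev_mul, ih, rep_h, opH_bv]
      | zero => simpa [nf] using ev_we π w q

theorem ev_Psi (π : Par K) (n : N K) : ev π (Psi π n) = n := by
  have : (ev π) ∘ₗ (Psi π) = LinearMap.id := by
    apply ext_bv
    intro i j k w q
    simp [ev_nf]
  exact LinearMap.congr_fun this n

/-- **PBW**: coordinates of `R''` -/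
def coord (π : Par K) : R π ≃ₗ[K] N K :=
  { ev π with
    invFun := Psi π
    left_inv := Psi_ev π
    right_inv := ev_Psi π }

/-- **PBW basis** of `R''` -/
def basis (π : Par K) : Module.Basis Ix K (R π) := Module.Basis.ofRepr (coord π)

@[simp] theorem basis_apply (π : Par K) (ν : Ix) : basis π ν = nf π ν := by
  obtain ⟨i, j, k, w, q⟩ := ν
  have : basis π (i, j, k, w, q) = Psi π (Finsupp.single (i, j, k, w, q) 1) := rfl
  rw [this]
  exact Psi_bv π i j k w q

end Crest.Agent.R186.PBW128
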