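import Mathlib
import Crest.Agent.R186.PBW_128

/-!
Row 186, leaf R1 (helper128), second part: gradings, pieces `pc`, `pcB`, finiteness, right
multiplication by letters.
-/

set_option autoImplicit false

noncomputable section

namespace Crest.Agent.R186.PBW128

open Crest.Agent.R186.DefsQ830

variable {K : Type} [Field K]

/-! ### degrees of normal elements -/

def dPx (ν : Ix) : ℤ := (ν.1 : ℤ) + ν.2.1 + (ν.2.2.2.1.map (fun l => l.toGen.dP)).sum
def dAx (ν : Ix) : ℕ := ν.2.2.1 + (ν.2.2.2.1.map (fun l => l.toGen.dA)).sum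
def dCx (ν : Ix) : ℕ := (ν.2.2.2.1.map (fun l => l.toGen.dC)).sum + wC ν.2.2.2.2.word

/-- the word of a normal element -/
def nw (ν : Ix) : List Gen :=
  List.replicate ν.1 (.x 0) ++ List.replicate ν.2.1 (.x 1) ++ List.replicate ν.2.2.1 .h ++
    ν.2.2.2.1.map E.toGen ++ ν.2.2.2.2.word

theorem wd_append (π : Par K) (w w' : List Gen) : wd π (w ++ w') = wd π w * wd π w' := by
  simp [wd]

theorem wd_replicate (π : Par K) (n : ℕ) (a : Gen) : wd π (List.replicate n a) = X π a ^ n := by
  simp [wd]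

theorem wd_nw (π : Par K) (ν : Ix) : wd π (nw ν) = nf π ν := by
  simp only [nw, wd_append, wd_replicate, nf, we, wq]

theorem wP_append (w w' : List Gen) : wP (w ++ w') = wP w + wP w' := by simp [wP]
theorem wA_append (w w' : List Gen) : wA (w ++ w') = wA w + wA w' := by simp [wA]
theorem wC_append (w w' : List Gen) : wC (w ++ w') = wC w + wC w' := by simp [wC]

theorem wP_word (q : Wb) : wP q.word = 0 := by cases q <;> rfl
theorem wA_word (q : Wb) : wA q.word = 0 := by cases q <;> rfl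

theorem wP_nw (ν : Ix) : wP (nw ν) = dPx ν := by
  simp only [nw, wP_append, wP_word, dPx]
  simp [wP, Gen.dP, List.sum_replicate, Function.comp_def]

theorem wA_nw (ν : Ix) : wA (nw ν) = dAx ν := by
  simp only [nw, wA_append, wA_word, dAx]
  simp [wA, Gen.dA, List.sum_replicate, Function.comp_def]

theorem wC_nw (ν : Ix) : wC (nw ν) = dCx ν := by
  simp only [nw, wC_append, dCx]
  simp [wC, Gen.dC, List.sum_replicate, Function.comp_def]

/-- homogeneous part of `N` -/
def NS (K : Type) [Field K] (P : ℤ) (A C : ℕ) : Submodule K (N K) :=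
  Finsupp.supported K K {ν | dPx ν = P ∧ dAx ν = A ∧ dCx ν = C}

/-- bihomogeneous part of `N` -/
def NSB (K : Type) [Field K] (P : ℤ) (A : ℕ) : Submodule K (N K) :=
  Finsupp.supported K K {ν | dPx ν = P ∧ dAx ν = A}

theorem bv_mem_NS {i j k : ℕ} {w : List E} {q : Wb} {P : ℤ} {A C : ℕ}
    (h1 : dPx (i, j, k, w, q) = P) (h2 : dAx (i, j, k, w, q) = A) (h3 : dCx (i, j, k, w, q) = C) :
    bv K i j k w q ∈ NS K P A C :=
  Finsupp.single_mem_supported K _ ⟨h1, h2, h3⟩

/-- to check that an operator maps `NS` to `NS'` it suffices to check basis vectors -/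
theorem map_NS {φ : N K →ₗ[K] N K} {P P' : ℤ} {A C A' C' : ℕ}
    (h : ∀ i j k w q, dPx (i, j, k, w, q) = P → dAx (i, j, k, w, q) = A → dCx (i, j, k, w, q) = C →
      φ (bv K i j k w q) ∈ NS K P' A' C') {n : N K} (hn : n ∈ NS K P A C) : φ n ∈ NS K P' A' C' := by
  have h2 : NS K P A C ≤ (NS K P' A' C').comap φ := by
    rw [NS, Finsupp.supported_eq_span_single, Submodule.span_le]
    rintro _ ⟨⟨i, j, k, w, q⟩, ⟨h1, h2, h3⟩, rfl⟩
    exact h i j k w q h1 h2 h3
  exact h2 hn

theorem X0_NS {P : ℤ} {A C : ℕ} {n : N K} (hn : n ∈ NS K P A C) : opX0 K n ∈ NS K (P + 1) A C := by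
  refine map_NS ?_ hn
  intro i j k w q h1 h2 h3
  rw [opX0_bv]
  refine bv_mem_NS ?_ ?_ ?_
  · rw [← h1]; simp only [dPx]; push_cast; ring
  · rw [← h2]; rfl
  · rw [← h3]; rfl

theorem X1_NS {P : ℤ} {A C : ℕ} {n : N K} (hn : n ∈ NS K P A C) : opX1 K n ∈ NS K (P + 1) A C := by
  refine map_NS ?_ hn
  intro i j k w q h1 h2 h3
  rw [opX1_bv]
  refine bv_mem_NS ?_ ?_ ?_
  · rw [← h1]; simp only [dPx]; push_cast; ring
  · rw [← h2]; rfl
  · rw [← h3]; rfl

theorem H_NS {P : ℤ} {A C : ℕ} {n : N K} (hn : n ∈ NS K P A C) : opH K n ∈ NS K P (A + 1) C := by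
  refine map_NS ?_ hn
  intro i j k w q h1 h2 h3
  rw [opH_bv]
  refine bv_mem_NS ?_ ?_ ?_
  · rw [← h1]; rfl
  · rw [← h2]; simp only [dAx]; ring
  · rw [← h3]; rfl

/-- degrees of a letter and its mate agree; `h`-terms and `x_0`-terms are homogeneous -/
theorem deg_mt (l : E) : (mt l).toGen.dP = l.toGen.dP ∧ (mt l).toGen.dA = l.toGen.dA ∧
    (mt l).toGen.dC = l.toGen.dC := by
  cases l <;> exact ⟨rfl, rfl, rfl⟩

theorem deg_th (π : Par K) (l : E) : th π l ≠ 0 → l.toGen.dP = -1 ∧ l.toGen.dA = 1 ∧ l.toGen.dC = 0 := by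
  cases l <;> simp [th, E.toGen, Gen.dP, Gen.dA, Gen.dC]

theorem deg_et (π : Par K) (l : E) : et π l ≠ 0 → l.toGen.dP = -1 ∧ l.toGen.dA = 1 ∧ l.toGen.dC = 0 := by
  cases l <;> simp [et, E.toGen, Gen.dP, Gen.dA, Gen.dC]

theorem A0_NS (π : Par K) (k : ℕ) (w : List E) (q : Wb) (j : ℕ) (l : E) :
    A0 π k w q j l ∈ NS K (dPx (0, j, k, w, q) + l.toGen.dP) (dAx (0, j, k, w, q) + l.toGen.dA)
      (dCx (0, j, k, w, q) + l.toGen.dC) := by
  induction j generalizing l with
  | zero =>
    refine bv_mem_NS ?_ ?_ ?_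
    · simp only [dPx, List.map_cons, List.sum_cons]; push_cast; ring
    · simp only [dAx, List.map_cons, List.sum_cons]; ring
    · simp only [dCx, List.map_cons, List.sum_cons]; ring
  | succ j ih =>
    refine Submodule.add_mem _ (Submodule.add_mem _ (Submodule.smul_mem _ _ ?_)
      (Submodule.smul_mem _ _ ?_)) ?_
    · have := X1_NS (ih l)
      have e : dPx (0, j + 1, k, w, q) + l.toGen.dP = dPx (0, j, k, w, q) + l.toGen.dP + 1 := by
        simp only [dPx]; push_cast; ring
      rw [e]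
      exact this
    · have := X0_NS (ih (mt l))
      obtain ⟨e1, e2, e3⟩ := deg_mt l
      rw [e1, e2, e3] at this
      have e : dPx (0, j + 1, k, w, q) + l.toGen.dP = dPx (0, j, k, w, q) + l.toGen.dP + 1 := by
        simp only [dPx]; push_cast; ring
      rw [e]
      exact this
    · by_cases h : et π l = 0
      · rw [h, zero_smul]; exact Submodule.zero_mem _
      · obtain ⟨e1, e2, e3⟩ := deg_et π l h
        refine Submodule.smul_mem _ _ (bv_mem_NS ?_ ?_ ?_)
        · rw [e1]; simp only [dPx]; push_cast; ring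
        · rw [e2]; simp only [dAx]; ring
        · rw [e3]; simp only [dCx]; ring

theorem A1_NS (π : Par K) (k : ℕ) (w : List E) (q : Wb) (j i : ℕ) (l : E) :
    A1 π k w q j i l ∈ NS K (dPx (i, j, k, w, q) + l.toGen.dP) (dAx (i, j, k, w, q) + l.toGen.dA)
      (dCx (i, j, k, w, q) + l.toGen.dC) := by
  induction i generalizing l with
  | zero => exact A0_NS π k w q j l
  | succ i ih =>
    refine Submodule.add_mem _ (Submodule.smul_mem _ _ ?_) ?_
    · have := X0_NS (ih l)
      have e : dPx (i + 1, j, k, w, q) + l.toGen.dP = dPx (i, j, k, w, q) + l.toGen.dP + 1 := by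
        simp only [dPx]; push_cast; ring
      rw [e]
      exact this
    · by_cases h : th π l = 0
      · rw [h, zero_smul]; exact Submodule.zero_mem _
      · obtain ⟨e1, e2, e3⟩ := deg_th π l h
        refine Submodule.smul_mem _ _ (bv_mem_NS ?_ ?_ ?_)
        · rw [e1]; simp only [dPx]; push_cast; ring
        · rw [e2]; simp only [dAx]; ring
        · rw [e3]; simp only [dCx]; ring

theorem L_NS (π : Par K) (l : E) {P : ℤ} {A C : ℕ} {n : N K} (hn : n ∈ NS K P A C) :
    opL π l n ∈ NS K (P + l.toGen.dP) (A + l.toGen.dA) (C + l.toGen.dC) := by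
  refine map_NS ?_ hn
  intro i j k w q h1 h2 h3
  rw [opL_bv, ← h1, ← h2, ← h3]
  exact A1_NS π k w q j i l

theorem wk_deg (π : Par K) (a : Y) (q : Wb) : wk π a q ≠ 0 → wC (wt a q).word = wC q.word + a.toGen.dC := by
  cases a with
  | y s =>
    cases q with
    | one => intro _; simp [wt, Wb.word, wC, Y.toGen]
    | y t =>
      rcases fin2 s with rfl | rfl <;> rcases fin2 t with rfl | rfl <;>
        simp [wk, wt, Wb.word, wC, Y.toGen, Gen.dC]
    | yb t => simp [wk]
    | pi => simp [wk]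
  | yb s =>
    cases q with
    | one => intro _; simp [wt, Wb.word, wC, Y.toGen]
    | y t => simp [wk]
    | yb t => simp [wk]
    | pi => simp [wk]

theorem Y_NS (π : Par K) (a : Y) {P : ℤ} {A C : ℕ} {n : N K} (hn : n ∈ NS K P A C) :
    opY π a n ∈ NS K P A (C + a.toGen.dC) := by
  refine map_NS ?_ hn
  intro i j k w q h1 h2 h3
  rw [opY_bv]
  by_cases h : wk π a q = 0
  · rw [h, mul_zero, zero_smul]; exact Submodule.zero_mem _
  · refine Submodule.smul_mem _ _ (bv_mem_NS ?_ ?_ ?_)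
    · rw [← h1]; rfl
    · rw [← h2]; rfl
    · rw [← h3]; simp only [dCx, wk_deg π a q h]; ring

theorem op_NS (π : Par K) (a : Gen) {P : ℤ} {A C : ℕ} {n : N K} (hn : n ∈ NS K P A C) :
    op π a n ∈ NS K (P + a.dP) (A + a.dA) (C + a.dC) := by
  cases a with
  | x i => rcases fin2 i with rfl | rfl
           · exact X0_NS hn
           · exact X1_NS hn
  | h => have := H_NS hn
         rw [← add_zero P, ← add_zero C] at this
         exact this
  | d j => exact L_NS π (.d j) hn
  | f => exact L_NS π .f hn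
  | z j => exact L_NS π (.z j) hn
  | zc => exact L_NS π .zc hn
  | u s => exact L_NS π (.u s) hn
  | e j => exact L_NS π (.e j) hn
  | gj j => exact L_NS π (.gj j) hn
  | gc => exact L_NS π .gc hn
  | v s => exact L_NS π (.v s) hn
  | y s => have := Y_NS π (.y s) hn
           rw [← add_zero P] at this
           exact this
  | yb s => have := Y_NS π (.yb s) hn
            rw [← add_zero P] at this
            exact this

theorem rep_wd_NS (π : Par K) (w : List Gen) {P : ℤ} {A C : ℕ} {n : N K} (hn : n ∈ NS K P A C) :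
    rep π (wd π w) n ∈ NS K (P + wP w) (A + wA w) (C + wC w) := by
  induction w with
  | nil => simpa [wd, wP, wA, wC] using hn
  | cons a w ih =>
    have e : wd π (a :: w) = X π a * wd π w := by simp [wd]
    rw [e, map_mul, Module.End.mul_apply, rep_X]
    have := op_NS π a ih
    have e1 : P + wP (a :: w) = P + wP w + a.dP := by
      simp only [wP, List.map_cons, List.sum_cons]; ring
    have e2 : A + wA (a :: w) = A + wA w + a.dA := by
      simp only [wA, List.map_cons, List.sum_cons]; ring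
    have e3 : C + wC (a :: w) = C + wC w + a.dC := by
      simp only [wC, List.map_cons, List.sum_cons]; ring
    rw [e1, e2, e3]
    exact this

theorem ev_wd_NS (π : Par K) (w : List Gen) : ev π (wd π w) ∈ NS K (wP w) (wA w) (wC w) := by
  have h : one' K ∈ NS K 0 0 0 := bv_mem_NS rfl rfl rfl
  have := rep_wd_NS π w h
  rw [zero_add, zero_add, zero_add] at this
  exact this

/-- **pieces in coordinates** -/
theorem mem_pc_iff (π : Par K) {P : ℤ} {A C : ℕ} {r : R π} :
    r ∈ pc π P A C ↔ ev π r ∈ NS K P A C := by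
  constructor
  · intro hr
    have : pc π P A C ≤ (NS K P A C).comap (ev π) := by
      rw [pc, Submodule.span_le]
      rintro _ ⟨w, rfl, rfl, rfl, rfl⟩
      exact ev_wd_NS π w
    exact this hr
  · intro hr
    rw [← Psi_ev π r]
    have : NS K P A C ≤ (pc π P A C).comap (Psi π) := by
      rw [NS, Finsupp.supported_eq_span_single, Submodule.span_le]
      rintro _ ⟨⟨i, j, k, w, q⟩, ⟨h1, h2, h3⟩, rfl⟩
      refine Submodule.subset_span ⟨nw (i, j, k, w, q), ?_, ?_, ?_, ?_⟩
      · rw [wP_nw]; exact h1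
      · rw [wA_nw]; exact h2
      · rw [wC_nw]; exact h3
      · rw [wd_nw]; exact Psi_bv π i j k w q
    exact this hr

theorem NS_le_NSB (P : ℤ) (A C : ℕ) : NS K P A C ≤ NSB K P A := by
  apply Finsupp.supported_mono
  rintro ν ⟨h1, h2, _⟩
  exact ⟨h1, h2⟩

theorem mem_pcB_iff (π : Par K) {P : ℤ} {A : ℕ} {r : R π} :
    r ∈ pcB π P A ↔ ev π r ∈ NSB K P A := by
  constructor
  · intro hr
    have : pcB π P A ≤ (NSB K P A).comap (ev π) := by
      rw [pcB, Submodule.span_le]
      rintro _ ⟨w, rfl, rfl, rfl⟩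
      exact NS_le_NSB _ _ _ (ev_wd_NS π w)
    exact this hr
  · intro hr
    rw [← Psi_ev π r]
    have : NSB K P A ≤ (pcB π P A).comap (Psi π) := by
      rw [NSB, Finsupp.supported_eq_span_single, Submodule.span_le]
      rintro _ ⟨⟨i, j, k, w, q⟩, ⟨h1, h2⟩, rfl⟩
      refine Submodule.subset_span ⟨nw (i, j, k, w, q), ?_, ?_, ?_⟩
      · rw [wP_nw]; exact h1
      · rw [wA_nw]; exact h2
      · rw [wd_nw]; exact Psi_bv π i j k w q
    exact this hr

theorem mem_NS_iff {P : ℤ} {A C : ℕ} {n : N K} :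
    n ∈ NS K P A C ↔ ∀ ν, n ν ≠ 0 → dPx ν = P ∧ dAx ν = A ∧ dCx ν = C := by
  rw [NS, Finsupp.mem_supported]
  constructor
  · intro h ν hν
    exact h (Finsupp.mem_support_iff.mpr hν)
  · intro h ν hν
    exact h ν (Finsupp.mem_support_iff.mp hν)

theorem mem_NSB_iff {P : ℤ} {A : ℕ} {n : N K} :
    n ∈ NSB K P A ↔ ∀ ν, n ν ≠ 0 → dPx ν = P ∧ dAx ν = A := by
  rw [NSB, Finsupp.mem_supported]
  constructor
  · intro h ν hν
    exact h (Finsupp.mem_support_iff.mpr hν)
  · intro h ν hν
    exact h ν (Finsupp.mem_support_iff.mp hν)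

theorem nf_mem_pc (π : Par K) (ν : Ix) : nf π ν ∈ pc π (dPx ν) (dAx ν) (dCx ν) := by
  refine Submodule.subset_span ⟨nw ν, wP_nw ν, wA_nw ν, wC_nw ν, (wd_nw π ν).symm⟩

theorem nf_mem_pcB (π : Par K) (ν : Ix) : nf π ν ∈ pcB π (dPx ν) (dAx ν) :=
  Submodule.subset_span ⟨nw ν, wP_nw ν, wA_nw ν, (wd_nw π ν).symm⟩

theorem pc_le_pcB (π : Par K) (P : ℤ) (A C : ℕ) : pc π P A C ≤ pcB π P A := by
  intro r hr
  rw [mem_pcB_iff]
  exact NS_le_NSB _ _ _ ((mem_pc_iff π).mp hr)

/-! ### multiplication of pieces -/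

theorem one_mem_pc (π : Par K) : (1 : R π) ∈ pc π 0 0 0 :=
  Submodule.subset_span ⟨[], rfl, rfl, rfl, by simp [wd]⟩

theorem X_mem_pc (π : Par K) (a : Gen) : X π a ∈ pc π a.dP a.dA a.dC :=
  Submodule.subset_span ⟨[a], by simp [wP], by simp [wA], by simp [wC], by simp [wd]⟩

theorem mul_mem_pc (π : Par K) {P P' : ℤ} {A C A' C' : ℕ} {r s : R π} (hr : r ∈ pc π P A C)
    (hs : s ∈ pc π P' A' C') : r * s ∈ pc π (P + P') (A + A') (C + C') := by
  have h := Submodule.mul_mem_mul hr hs
  rw [pc, pc, Submodule.span_mul_span] at h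
  refine Submodule.span_mono ?_ h
  rintro _ ⟨_, ⟨w, rfl, rfl, rfl, rfl⟩, _, ⟨w', rfl, rfl, rfl, rfl⟩, rfl⟩
  exact ⟨w ++ w', wP_append w w', wA_append w w', wC_append w w', (wd_append π w w').symm⟩

theorem mul_mem_pcB (π : Par K) {P P' : ℤ} {A A' : ℕ} {r s : R π} (hr : r ∈ pcB π P A)
    (hs : s ∈ pcB π P' A') : r * s ∈ pcB π (P + P') (A + A') := by
  have h := Submodule.mul_mem_mul hr hs
  rw [pcB, pcB, Submodule.span_mul_span] at h
  refine Submodule.span_mono ?_ h
  rintro _ ⟨_, ⟨w, rfl, rfl, rfl⟩, _, ⟨w', rfl, rfl, rfl⟩, rfl⟩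
  exact ⟨w ++ w', wP_append w w', wA_append w w', (wd_append π w w').symm⟩

theorem one_mem_pcB (π : Par K) : (1 : R π) ∈ pcB π 0 0 := pc_le_pcB π 0 0 0 (one_mem_pc π)

theorem X_mem_pcB (π : Par K) (a : Gen) : X π a ∈ pcB π a.dP a.dA := pc_le_pcB π _ _ _ (X_mem_pc π a)

/-! ### finiteness -/

theorem dA_pos (l : E) : 1 ≤ l.toGen.dA := by
  cases l <;> simp only [E.toGen, Gen.dA] <;> omega

theorem dP_ge (l : E) : -1 ≤ l.toGen.dP := by
  cases l <;> simp [E.toGen, Gen.dP]

theorem length_le (w : List E) : w.length ≤ (w.map (fun l => l.toGen.dA)).sum := by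
  induction w with
  | nil => simp
  | cons l w ih =>
    have := dA_pos l
    simp only [List.length_cons, List.map_cons, List.sum_cons]
    omega

theorem sumP_ge (w : List E) : -(w.length : ℤ) ≤ (w.map (fun l => l.toGen.dP)).sum := by
  induction w with
  | nil => simp
  | cons l w ih =>
    have := dP_ge l
    simp only [List.length_cons, List.map_cons, List.sum_cons]
    push_cast
    omega

theorem finite_deg (P : ℤ) (A : ℕ) : {ν : Ix | dPx ν = P ∧ dAx ν = A}.Finite := by
  have hw : {w : List E | w.length ≤ A}.Finite := List.finite_length_le E A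
  have hB : ((Set.Iic (P.toNat + A)) ×ˢ ((Set.Iic (P.toNat + A)) ×ˢ ((Set.Iic A) ×ˢ
      ({w : List E | w.length ≤ A} ×ˢ (Set.univ : Set Wb))))).Finite := by
    refine Set.Finite.prod (Set.finite_Iic _) (Set.Finite.prod (Set.finite_Iic _)
      (Set.Finite.prod (Set.finite_Iic _) (Set.Finite.prod hw Set.finite_univ)))
  refine hB.subset ?_
  rintro ⟨i, j, k, w, q⟩ ⟨h1, h2⟩
  simp only [dPx, dAx] at h1 h2
  have e1 := length_le w
  have e2 := sumP_ge w
  simp only [Set.mem_prod, Set.mem_Iic, Set.mem_ofPred_eq, Set.mem_univ, and_true]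
  refine ⟨?_, ?_, ?_, ?_⟩ <;> omega

instance finiteDimensional_NSB (P : ℤ) (A : ℕ) : FiniteDimensional K (NSB K P A) := by
  have : Finite {ν : Ix | dPx ν = P ∧ dAx ν = A} := (finite_deg P A).to_subtype
  exact Module.Finite.equiv
    (Finsupp.supportedEquivFinsupp (M := K) (R := K) {ν : Ix | dPx ν = P ∧ dAx ν = A}).symm

instance finiteDimensional_pcB (π : Par K) (P : ℤ) (A : ℕ) : FiniteDimensional K (pcB π P A) := by
  have e : pcB π P A = (NSB K P A).map (coord π).symm.toLinearMap := by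
    ext r
    rw [mem_pcB_iff, Submodule.mem_map]
    constructor
    · intro h; exact ⟨ev π r, h, Psi_ev π r⟩
    · rintro ⟨n, hn, rfl⟩
      have : ev π ((coord π).symm n) = n := ev_Psi π n
      show ev π ((coord π).symm n) ∈ _
      rw [this]; exact hn
  rw [e]
  infer_instance

instance finiteDimensional_pc (π : Par K) (P : ℤ) (A C : ℕ) : FiniteDimensional K (pc π P A C) :=
  Submodule.finiteDimensional_of_le (pc_le_pcB π P A C)

/-! ### bases of the pieces -/

theorem mem_pcB_span (π : Par K) (P : ℤ) (A : ℕ) :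
    pcB π P A = Submodule.span K (nf π '' {ν | dPx ν = P ∧ dAx ν = A}) := by
  apply le_antisymm
  · intro r hr
    rw [mem_pcB_iff, NSB, Finsupp.supported_eq_span_single] at hr
    have : (Submodule.span K ((fun i : Ix => Finsupp.single i (1 : K)) '' {ν | dPx ν = P ∧ dAx ν = A})) ≤
        (Submodule.span K (nf π '' {ν | dPx ν = P ∧ dAx ν = A})).comap (Psi π) := by
      rw [Submodule.span_le]
      rintro _ ⟨⟨i, j, k, w, q⟩, h, rfl⟩
      exact Submodule.subset_span ⟨(i, j, k, w, q), h, (Psi_bv π i j k w q).symm⟩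
    have h2 := this hr
    rw [Submodule.mem_comap, Psi_ev] at h2
    exact h2
  · rw [Submodule.span_le]
    rintro _ ⟨ν, ⟨h1, h2⟩, rfl⟩
    have := nf_mem_pcB π ν
    rw [h1, h2] at this
    exact this

theorem mem_pc_span (π : Par K) (P : ℤ) (A C : ℕ) :
    pc π P A C = Submodule.span K (nf π '' {ν | dPx ν = P ∧ dAx ν = A ∧ dCx ν = C}) := by
  apply le_antisymm
  · intro r hr
    rw [mem_pc_iff, NS, Finsupp.supported_eq_span_single] at hr
    have : (Submodule.span K ((fun i : Ix => Finsupp.single i (1 : K)) ''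
        {ν | dPx ν = P ∧ dAx ν = A ∧ dCx ν = C})) ≤
        (Submodule.span K (nf π '' {ν | dPx ν = P ∧ dAx ν = A ∧ dCx ν = C})).comap (Psi π) := by
      rw [Submodule.span_le]
      rintro _ ⟨⟨i, j, k, w, q⟩, h, rfl⟩
      exact Submodule.subset_span ⟨(i, j, k, w, q), h, (Psi_bv π i j k w q).symm⟩
    have h2 := this hr
    rw [Submodule.mem_comap, Psi_ev] at h2
    exact h2
  · rw [Submodule.span_le]
    rintro _ ⟨ν, ⟨h1, h2, h3⟩, rfl⟩
    have := nf_mem_pc π ν
    rw [h1, h2, h3] at this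
    exact this

theorem nf_linearIndependent (π : Par K) : LinearIndependent K (nf π) := by
  have := (basis π).linearIndependent
  have e : (basis π : Ix → R π) = nf π := funext (basis_apply π)
  rw [e] at this
  exact this

/-- basis of a bihomogeneous piece -/
def basisB (π : Par K) (P : ℤ) (A : ℕ) : Module.Basis {ν : Ix // dPx ν = P ∧ dAx ν = A} K (pcB π P A) :=
  Module.Basis.mk (v := fun ν => (⟨nf π ν.1, by
      have := nf_mem_pcB π ν.1; rw [ν.2.1, ν.2.2] at this; exact this⟩ : pcB π P A))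
    (by
      have h := (nf_linearIndependent π).comp (Subtype.val : {ν : Ix // dPx ν = P ∧ dAx ν = A} → Ix)
        Subtype.val_injective
      exact LinearIndependent.of_comp (pcB π P A).subtype h)
    (by
      rintro ⟨r, hr⟩ -
      have h2 := hr
      rw [mem_pcB_span] at h2
      have h3 : Submodule.span K (nf π '' {ν | dPx ν = P ∧ dAx ν = A}) =
          (Submodule.span K (Set.range (fun ν : {ν : Ix // dPx ν = P ∧ dAx ν = A} =>
            (⟨nf π ν.1, by
              have := nf_mem_pcB π ν.1; rw [ν.2.1, ν.2.2] at this; exact this⟩ : pcB π P A)))).map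
              (pcB π P A).subtype := by
        rw [Submodule.map_span, ← Set.range_comp]
        congr 1
        ext s
        constructor
        · rintro ⟨ν, h, rfl⟩; exact ⟨⟨ν, h⟩, rfl⟩
        · rintro ⟨ν, rfl⟩; exact ⟨ν.1, ν.2, rfl⟩
      rw [h3] at h2
      obtain ⟨s, hs, hs2⟩ := h2
      have : s = ⟨r, hr⟩ := Subtype.ext hs2
      rw [← this]
      exact hs)

@[simp] theorem basisB_apply (π : Par K) (P : ℤ) (A : ℕ) (ν : {ν : Ix // dPx ν = P ∧ dAx ν = A}) :
    ((basisB π P A ν : pcB π P A) : R π) = nf π ν.1 := by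
  simp [basisB]

end Crest.Agent.R186.PBW128
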