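import Mathlib
import Crest.Agent.R186.PBWgr_128

/-!
Row 186, leaf R1 (helper128), third part: right multiplication by letters in coordinates.
-/

set_option autoImplicit false

noncomputable section

namespace Crest.Agent.R186.PBW128

open Crest.Agent.R186.DefsQ830

variable {K : Type} [Field K]

/-- character of a basis element of `W` against a letter -/
def chiq (π : Par K) : Wb → E → K
  | .one, _ => 1
  | .y s, l => chi π (.y s) l
  | .yb s, l => chi π (.yb s) l
  | .pi, l => chi π (.y 0) l * chi π (.y 1) l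

theorem sg_ne {a : K} (ha : a ≠ 0) (s : Fin 2) : sg a s ≠ 0 := by
  rcases fin2 s with rfl | rfl <;> simp [sg, ha]

theorem chi_ne (π : Par K) (a : Y) (l : E) : chi π a l ≠ 0 := by
  have hg := π.g0
  have hc : ∀ j, π.c j ≠ 0 := by intro j; rcases fin2 j with rfl | rfl <;> simp [Par.c, hg]
  have hz : ∀ j, π.cz j ≠ 0 := by intro j; rcases fin2 j with rfl | rfl <;> simp [Par.cz, hg]
  have hh : Par.ch π a ≠ 0 := by
    cases a with
    | y s => exact π.p0
    | yb s =>
      rcases fin2 s with rfl | rfl
      · simpa [Par.ch, Par.chiyb] using π.q10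
      · simpa [Par.ch, Par.chiyb] using π.q20
  cases l with
  | d j => exact hc j
  | f => exact one_ne_zero
  | z j => exact hz j
  | zc => exact one_ne_zero
  | u t => exact sg_ne hh t
  | e j => exact hc j
  | gj j => exact hz j
  | gc => exact one_ne_zero
  | v t => exact sg_ne hh t

theorem chiq_ne (π : Par K) (q : Wb) (l : E) : chiq π q l ≠ 0 := by
  cases q with
  | one => exact one_ne_zero
  | y s => exact chi_ne π _ l
  | yb s => exact chi_ne π _ l
  | pi => exact mul_ne_zero (chi_ne π _ l) (chi_ne π _ l)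

theorem wq_mul_X (π : Par K) (q : Wb) (l : E) :
    wq π q * X π l.toGen = chiq π q l • (X π l.toGen * wq π q) := by
  cases q with
  | one => simp [wq_one, chiq]
  | y s => rw [wq_y]; exact rYE π (.y s) l
  | yb s => rw [wq_yb]; exact rYE π (.yb s) l
  | pi =>
    rw [wq_pi, mul_assoc]
    have h1 : X π (.y 1) * X π l.toGen = chi π (.y 1) l • (X π l.toGen * X π (.y 1)) := rYE π (.y 1) l
    have h0 : X π (.y 0) * X π l.toGen = chi π (.y 0) l • (X π l.toGen * X π (.y 0)) := rYE π (.y 0) l
    rw [h1, mul_smul_comm, ← mul_assoc, h0, smul_mul_assoc, smul_smul, mul_assoc]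
    simp only [chiq]
    rw [mul_comm (chi π (.y 1) l)]

theorem comm_h_wd (π : Par K) (w : List Gen) : Commute (X π .h) (wd π w) := by
  induction w with
  | nil => simp [wd]
  | cons a w ih =>
    have e : wd π (a :: w) = X π a * wd π w := by simp [wd]
    rw [e]
    exact (comm_h π a).mul_right ih

theorem nf_mul_h (π : Par K) (i j k : ℕ) (w : List E) (q : Wb) :
    nf π (i, j, k, w, q) * X π .h = nf π (i, j, k + 1, w, q) := by
  rw [nf_H, ← wd_nw, (comm_h_wd π _).eq]

theorem nf_mul_X (π : Par K) (i j k : ℕ) (w : List E) (q : Wb) (l : E) :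
    nf π (i, j, k, w, q) * X π l.toGen = chiq π q l • nf π (i, j, k, w ++ [l], q) := by
  have e1 : we π (w ++ [l]) = we π w * X π l.toGen := by rw [we_append, we_cons, we_nil, mul_one]
  simp only [nf]
  rw [e1, mul_assoc, wq_mul_X, mul_smul_comm, mul_assoc, mul_assoc, mul_assoc, mul_assoc, mul_assoc,
    mul_assoc, mul_assoc]

/-- right multiplication of a `W`-letter on the basis of `W` -/
def wtr : Wb → Y → Wb
  | .one, .y s => .y s
  | .one, .yb s => .yb s
  | _, _ => .pi

def wkr (π : Par K) : Wb → Y → K
  | .one, .y _ => 1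
  | .one, .yb _ => 1
  | .y 0, .y 1 => 1
  | .y 1, .y 0 => π.p
  | _, _ => 0

theorem wq_mul_Y (π : Par K) (q : Wb) (a : Y) : wq π q * X π a.toGen = wkr π q a • wq π (wtr q a) := by
  cases q with
  | one => cases a <;> simp [wkr, wtr, wq_one, wq_y, wq_yb, Y.toGen]
  | y s =>
    cases a with
    | y t =>
      rcases fin2 s with rfl | rfl <;> rcases fin2 t with rfl | rfl <;>
        simp [wkr, wtr, wq_y, wq_pi, Y.toGen, ryy, ry10]
    | yb t => simp [wkr, wq_y, Y.toGen, ryyb]
  | yb s =>
    cases a with
    | y t => simp [wkr, wq_yb, Y.toGen, ryby]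
    | yb t => simp [wkr, wq_yb, Y.toGen, rybyb]
  | pi =>
    cases a with
    | y t =>
      rw [show wkr π .pi (.y t) = 0 from rfl, zero_smul, wq_pi]
      show X π (.y 0) * X π (.y 1) * X π (.y t) = 0
      rcases fin2 t with rfl | rfl
      · rw [mul_assoc, ry10, mul_smul_comm, ← mul_assoc, ryy, zero_mul, smul_zero]
      · rw [mul_assoc, ryy, mul_zero]
    | yb t =>
      rw [show wkr π .pi (.yb t) = 0 from rfl, zero_smul, wq_pi]
      show X π (.y 0) * X π (.y 1) * X π (.yb t) = 0
      rw [mul_assoc, ryyb, mul_zero]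

theorem nf_mul_Y (π : Par K) (i j k : ℕ) (w : List E) (q : Wb) (a : Y) :
    nf π (i, j, k, w, q) * X π a.toGen = wkr π q a • nf π (i, j, k, w, wtr q a) := by
  simp only [nf]
  rw [mul_assoc, wq_mul_Y, mul_smul_comm]

/-! ### right multiplication by a letter in coordinates -/

/-- right multiplication by the letter `l` -/
def opR (π : Par K) (l : E) : N K →ₗ[K] N K :=
  Finsupp.linearCombination K (fun ν : Ix =>
    chiq π ν.2.2.2.2 l • bv K ν.1 ν.2.1 ν.2.2.1 (ν.2.2.2.1 ++ [l]) ν.2.2.2.2)

@[simp] theorem opR_bv (π : Par K) (l : E) (i j k : ℕ) (w : List E) (q : Wb) :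
    opR π l (bv K i j k w q) = chiq π q l • bv K i j k (w ++ [l]) q := by
  simp [opR, bv]

theorem Psi_R (π : Par K) (l : E) (n : N K) : Psi π (opR π l n) = Psi π n * X π l.toGen := by
  have : (Psi π) ∘ₗ (opR π l) = (LinearMap.mulRight K (X π l.toGen)) ∘ₗ (Psi π) := by
    apply ext_bv
    intro i j k w q
    simp [nf_mul_X]
  exact LinearMap.congr_fun this n

theorem ev_mul_X (π : Par K) (l : E) (r : R π) : ev π (r * X π l.toGen) = opR π l (ev π r) := by
  have h := Psi_R π l (ev π r)
  rw [Psi_ev] at h
  rw [← h, ev_Psi]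

theorem bv_apply (i j k : ℕ) (w : List E) (q : Wb) (ν : Ix) :
    bv K i j k w q ν = if (i, j, k, w, q) = ν then 1 else 0 := by
  simp [bv, Finsupp.single_apply]

/-- coefficient of a right multiple at a word ending in `l'` -/
theorem opR_apply_append (π : Par K) (l l' : E) (n : N K) (i j k : ℕ) (w : List E) (q : Wb) :
    opR π l n (i, j, k, w ++ [l'], q) = if l = l' then chiq π q l * n (i, j, k, w, q) else 0 := by
  have : (Finsupp.lapply (i, j, k, w ++ [l'], q) : N K →ₗ[K] K) ∘ₗ (opR π l) =
      if l = l' then chiq π q l • (Finsupp.lapply (i, j, k, w, q) : N K →ₗ[K] K) else 0 := by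
    apply ext_bv
    intro i' j' k' w' q'
    rw [LinearMap.comp_apply, opR_bv, map_smul, Finsupp.lapply_apply, bv_apply]
    by_cases hl : l = l'
    · subst hl
      rw [if_pos rfl, LinearMap.smul_apply, Finsupp.lapply_apply, bv_apply]
      by_cases h : ((i', j', k', w', q') : Ix) = (i, j, k, w, q)
      · obtain ⟨rfl, rfl, rfl, rfl, rfl⟩ : i' = i ∧ j' = j ∧ k' = k ∧ w' = w ∧ q' = q := by
          simpa [Prod.ext_iff] using h
        simp
      · have h2 : ¬ ((i', j', k', w' ++ [l], q') : Ix) = (i, j, k, w ++ [l], q) := by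
          intro h3
          apply h
          have : i' = i ∧ j' = j ∧ k' = k ∧ w' ++ [l] = w ++ [l] ∧ q' = q := by
            simpa [Prod.ext_iff] using h3
          obtain ⟨rfl, rfl, rfl, h4, rfl⟩ := this
          rw [List.append_cancel_right h4]
        rw [if_neg h, if_neg h2]; simp
    · rw [if_neg hl, LinearMap.zero_apply]
      have h2 : ¬ ((i', j', k', w' ++ [l], q') : Ix) = (i, j, k, w ++ [l'], q) := by
        intro h3
        have : w' ++ [l] = w ++ [l'] := by
          have := congrArg (fun ν : Ix => ν.2.2.2.1) h3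
          exact this
        exact hl (by
          have := congrArg List.getLast? this
          simpa using this)
      rw [if_neg h2, smul_zero]
  have h := LinearMap.congr_fun this n
  by_cases hl : l = l'
  · rw [if_pos hl] at h ⊢
    simpa using h
  · rw [if_neg hl] at h ⊢
    simpa using h

theorem opR_apply_nil (π : Par K) (l : E) (n : N K) (i j k : ℕ) (q : Wb) :
    opR π l n (i, j, k, [], q) = 0 := by
  have : (Finsupp.lapply (i, j, k, [], q) : N K →ₗ[K] K) ∘ₗ (opR π l) = 0 := by
    apply ext_bv
    intro i' j' k' w' q'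
    rw [LinearMap.comp_apply, opR_bv, map_smul, Finsupp.lapply_apply, bv_apply]
    have h2 : ¬ ((i', j', k', w' ++ [l], q') : Ix) = (i, j, k, [], q) := by
      intro h3
      have : w' ++ [l] = [] := congrArg (fun ν : Ix => ν.2.2.2.1) h3
      simp at this
    rw [if_neg h2, smul_zero, LinearMap.zero_apply]
  exact LinearMap.congr_fun this n

/-- the letters generate a free left ideal: `⊕_l R'' → R''`, `(r_l) ↦ Σ r_l l` is injective -/
theorem sum_mul_X_inj (π : Par K) (r : E → R π) (h : ∑ l, r l * X π l.toGen = 0) : ∀ l, r l = 0 := by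
  intro l
  have h2 : ∑ l, opR π l (ev π (r l)) = 0 := by
    rw [← map_zero (ev π), ← h, map_sum]
    exact Finset.sum_congr rfl fun l _ => (ev_mul_X π l (r l)).symm
  have h3 : ev π (r l) = 0 := by
    ext ⟨i, j, k, w, q⟩
    have h4 := DFunLike.congr_fun h2 (i, j, k, w ++ [l], q)
    rw [Finsupp.finsetSum_apply] at h4
    simp only [opR_apply_append, Finset.sum_ite_eq', Finset.mem_univ, if_true, Finsupp.coe_zero,
      Pi.zero_apply, mul_eq_zero] at h4
    rcases h4 with h4 | h4
    · exact absurd h4 (chiq_ne π q l)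
    · exact h4
  rw [← Psi_ev π (r l), h3, map_zero]

/-- the part of `N` without free letters -/
def N0 (K : Type) [Field K] : Submodule K (N K) := Finsupp.supported K K {ν : Ix | ν.2.2.2.1 = []}

/-- `l`-component: inverse of right multiplication by `l` -/
def divR (π : Par K) (l : E) : N K →ₗ[K] N K :=
  Finsupp.linearCombination K (fun ν : Ix =>
    if ν.2.2.2.1.getLast? = some l then
      (chiq π ν.2.2.2.2 l)⁻¹ • bv K ν.1 ν.2.1 ν.2.2.1 ν.2.2.2.1.dropLast ν.2.2.2.2
    else 0)

/-- component without letters -/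
def divN (K : Type) [Field K] : N K →ₗ[K] N K :=
  Finsupp.linearCombination K (fun ν : Ix =>
    if ν.2.2.2.1 = [] then bv K ν.1 ν.2.1 ν.2.2.1 ν.2.2.2.1 ν.2.2.2.2 else 0)

/-- decomposition `R'' = O[h] W ⊕ ⊕_l R'' l` in coordinates -/
theorem decomp (π : Par K) (n : N K) : n = divN K n + ∑ l, opR π l (divR π l n) := by
  have : (LinearMap.id : N K →ₗ[K] N K) = divN K + ∑ l, (opR π l) ∘ₗ (divR π l) := by
    apply ext_bv
    intro i j k w q
    rw [LinearMap.id_apply, LinearMap.add_apply, LinearMap.sum_apply]
    simp only [LinearMap.comp_apply]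
    rcases List.eq_nil_or_concat w with rfl | ⟨w', l, rfl⟩
    · simp [divN, divR, bv]
    · rw [List.concat_eq_append]
      rw [show divN K (bv K i j k (w' ++ [l]) q) = 0 by simp [divN, bv], zero_add]
      rw [Finset.sum_eq_single l]
      · have : divR π l (bv K i j k (w' ++ [l]) q) = (chiq π q l)⁻¹ • bv K i j k w' q := by
          simp [divR, bv]
        rw [this, map_smul, opR_bv, smul_smul, inv_mul_cancel₀ (chiq_ne π q l), one_smul]
      · intro l' _ hl
        have : divR π l' (bv K i j k (w' ++ [l]) q) = 0 := by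
          simp [divR, bv, Ne.symm hl]
        rw [this, map_zero]
      · intro h; exact absurd (Finset.mem_univ l) h
  have h := LinearMap.congr_fun this n
  rw [LinearMap.id_apply, LinearMap.add_apply, LinearMap.sum_apply] at h
  exact h

theorem divN_mem (n : N K) : divN K n ∈ N0 K := by
  have : (⊤ : Submodule K (N K)) ≤ (N0 K).comap (divN K) := by
    rw [← Finsupp.supported_univ, Finsupp.supported_eq_span_single, Submodule.span_le]
    rintro _ ⟨⟨i, j, k, w, q⟩, -, rfl⟩
    by_cases h : w = []
    · subst h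
      simp only [SetLike.mem_coe, Submodule.mem_comap]
      have : divN K (Finsupp.single (i, j, k, [], q) 1) = bv K i j k [] q := by simp [divN]
      rw [this]
      exact Finsupp.single_mem_supported K _ rfl
    · simp only [SetLike.mem_coe, Submodule.mem_comap]
      have : divN K (Finsupp.single (i, j, k, w, q) 1) = 0 := by simp [divN, h]
      rw [this]
      exact Submodule.zero_mem _
  exact this (Submodule.mem_top)

end Crest.Agent.R186.PBW128
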