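import Crest.Agent.R186.Vmod_220
import Crest.Agent.R186.PBWr_128

/-!
# Row 186, leaf C1 (helper221): the sixteen cells

`Cell = Option E` (`none` = the cell `1`, `some l` = the cell of the letter `l`).
`D0 π` = the Hom complex of the 16-cell resolution with values in the modules `V_m`:
`D0 φ l = l φ(1) + Σ r_{l,l'} φ(l')` where `d l = Σ r_{l,l'} l'` (last letter split off).
`exact_pos`: exact on `V_m`, `m ≥ 0`; `exact_neg`: the cohomology on `V_{-1}` is carried by the six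
cells `1, u, u', v, v', g_c`.
-/

set_option autoImplicit false

namespace Crest.Agent.R186.Cells221

open Crest.Agent.R186.VOp220 Crest.Agent.R186.DefsQ830 Crest.Agent.R186.Vmod220
open Crest.Agent.R186.PBW128 (E)

variable {K : Type} [Field K] (π : Par K)

/-- the sixteen cells -/
abbrev Cell : Type := Option E

/-- cohomological degree of (the dual of) a cell -/
def cdeg : Cell → ℕ
  | none => 0
  | some (.d _) => 1
  | some .f => 2
  | some (.z _) => 2
  | some .zc => 3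
  | some (.u s) => 2 + s.val
  | some (.e _) => 3
  | some (.gj _) => 4
  | some .gc => 5
  | some (.v s) => 3 + s.val

/-- P-degree of a cell -/
def cP : Cell → ℤ
  | some (.d _) => -1
  | some (.z _) => -1
  | some (.e _) => -1
  | some (.gj _) => -1
  | _ => 0

/-- multiplication by `x_i` -/
noncomputable def XX (K : Type) [Field K] (i : Fin 2) : Pol K →ₗ[K] Pol K := if i = 0 then X0 else X1
/-- the operator of `d_j` -/
noncomputable def EE (g : K) (j : Fin 2) : Pol K →ₗ[K] Pol K := if j = 0 then E0 g else E1 g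
/-- the operator of `t` -/
noncomputable def TT (g : K) : Pol K →ₗ[K] Pol K :=
  LinearMap.id + (g - 1) • (E0 g ∘ₗ X0 + E1 g ∘ₗ X1)

/-- evaluation at a cell -/
noncomputable def pj (K : Type) [Field K] (c : Cell) : (Cell → Pol K) →ₗ[K] Pol K := LinearMap.proj c

/-- the components of the differential -/
noncomputable def D0c : Cell → ((Cell → Pol K) →ₗ[K] Pol K)
  | none => 0
  | some (.d j) => EE π.g j ∘ₗ pj K none
  | some .f => 0
  | some (.z j) => XX K j ∘ₗ (E1 π.g ∘ₗ pj K (some (.d 0)) + π.g • (E0 π.g ∘ₗ pj K (some (.d 1))))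
  | some .zc => X0 ∘ₗ pj K (some (.z 1)) + X1 ∘ₗ pj K (some (.z 0)) + pj K (some .f)
  | some (.u _) => 0
  | some (.e j) => π.c j • (EE π.g j ∘ₗ pj K (some .f))
  | some (.gj j) => (π.c j)⁻¹ • (XX K j ∘ₗ
      (π.g • (E1 π.g ∘ₗ pj K (some (.e 0))) + π.g ^ 3 • (E0 π.g ∘ₗ pj K (some (.e 1)))))
  | some .gc => (π.c 0)⁻¹ • (X0 ∘ₗ pj K (some (.gj 1))) + (π.c 1)⁻¹ • (X1 ∘ₗ pj K (some (.gj 0)))
  | some (.v s) => (TT π.g + (π.g ^ 2)⁻¹ • LinearMap.id) ∘ₗ pj K (some (.u s))

/-- the differential of the Hom complex -/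
noncomputable def D0 : (Cell → Pol K) →ₗ[K] (Cell → Pol K) := LinearMap.pi (D0c π)

section formulas

variable (φ : Cell → Pol K)

@[simp] lemma D0_none : D0 π φ none = 0 := rfl
@[simp] lemma D0_d0 : D0 π φ (some (.d 0)) = E0 π.g (φ none) := rfl
@[simp] lemma D0_d1 : D0 π φ (some (.d 1)) = E1 π.g (φ none) := rfl
@[simp] lemma D0_f : D0 π φ (some .f) = 0 := rfl
@[simp] lemma D0_z0 : D0 π φ (some (.z 0)) =
    X0 (E1 π.g (φ (some (.d 0))) + π.g • E0 π.g (φ (some (.d 1)))) := rfl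
@[simp] lemma D0_z1 : D0 π φ (some (.z 1)) =
    X1 (E1 π.g (φ (some (.d 0))) + π.g • E0 π.g (φ (some (.d 1)))) := rfl
@[simp] lemma D0_zc : D0 π φ (some .zc) =
    X0 (φ (some (.z 1))) + X1 (φ (some (.z 0))) + φ (some .f) := rfl
@[simp] lemma D0_u (s : Fin 2) : D0 π φ (some (.u s)) = 0 := rfl
@[simp] lemma D0_e0 : D0 π φ (some (.e 0)) = π.c 0 • E0 π.g (φ (some .f)) := rfl
@[simp] lemma D0_e1 : D0 π φ (some (.e 1)) = π.c 1 • E1 π.g (φ (some .f)) := rfl
@[simp] lemma D0_gj0 : D0 π φ (some (.gj 0)) = (π.c 0)⁻¹ •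
    X0 (π.g • E1 π.g (φ (some (.e 0))) + π.g ^ 3 • E0 π.g (φ (some (.e 1)))) := rfl
@[simp] lemma D0_gj1 : D0 π φ (some (.gj 1)) = (π.c 1)⁻¹ •
    X1 (π.g • E1 π.g (φ (some (.e 0))) + π.g ^ 3 • E0 π.g (φ (some (.e 1)))) := rfl
@[simp] lemma D0_gc : D0 π φ (some .gc) =
    (π.c 0)⁻¹ • X0 (φ (some (.gj 1))) + (π.c 1)⁻¹ • X1 (φ (some (.gj 0))) := rfl
@[simp] lemma D0_v (s : Fin 2) : D0 π φ (some (.v s)) =
    TT π.g (φ (some (.u s))) + (π.g ^ 2)⁻¹ • φ (some (.u s)) := rfl

end formulas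

/-- the cochains with values in `V_m` (generator of the resolution at `i = 1`) -/
def CV (K : Type) [Field K] (m : ℤ) : Submodule K (Cell → Pol K) where
  carrier := {φ | ∀ c, φ c ∈ hom K (m + 1 + cP c)}
  add_mem' ha hb c := Submodule.add_mem _ (ha c) (hb c)
  zero_mem' _ := Submodule.zero_mem _
  smul_mem' r _ ha c := Submodule.smul_mem _ r (ha c)

/-- cochains supported in cell degree `n` -/
def Sup (K : Type) [Field K] (n : ℕ) : Submodule K (Cell → Pol K) where
  carrier := {φ | ∀ c, cdeg c ≠ n → φ c = 0}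
  add_mem' ha hb c hc := by rw [Pi.add_apply, ha c hc, hb c hc, add_zero]
  zero_mem' _ _ := rfl
  smul_mem' r _ ha c hc := by rw [Pi.smul_apply, ha c hc, smul_zero]

lemma f2 (j : Fin 2) : j = 0 ∨ j = 1 := by fin_cases j <;> simp

include π in
lemma add_self' (v : Pol K) : v + v = 0 := by
  rw [← two_smul K, π.two, zero_smul]

include π in
lemma eq_of_add {a b : Pol K} (h : a + b = 0) : a = b := by
  have h2 := add_self' π b
  calc a = a + b + b := by rw [add_assoc, h2, add_zero]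
    _ = b := by rw [h, zero_add]

lemma c0 : π.c 0 = π.g ^ 2 := by simp [Par.c]
lemma c1 : π.c 1 = π.g := by simp [Par.c]

lemma TT_hom {m : ℕ} {v : Pol K} (hv : v ∈ hom K (m : ℤ)) :
    TT π.g v = (π.g⁻¹) ^ (m + 2) • v := by
  have := t_hom π.g0 hv
  simpa [TT] using this

/-- `D0` preserves the values in `V_m` -/
lemma D0_mem {m : ℤ} {φ : Cell → Pol K} (h : φ ∈ CV K m) : D0 π φ ∈ CV K m := by
  have hX0 : ∀ {n : ℤ} {v : Pol K}, v ∈ hom K (n - 1) → X0 v ∈ hom K n := fun hv => by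
    have := X0_hom hv; rwa [sub_add_cancel] at this
  have hX1 : ∀ {n : ℤ} {v : Pol K}, v ∈ hom K (n - 1) → X1 v ∈ hom K n := fun hv => by
    have := X1_hom hv; rwa [sub_add_cancel] at this
  have e1 : ∀ c : Cell, cP c = -1 → φ c ∈ hom K m := fun c hc => by
    have := h c; rw [hc] at this; simpa using this
  have e0 : ∀ c : Cell, cP c = 0 → φ c ∈ hom K (m + 1) := fun c hc => by
    have := h c; rw [hc] at this; simpa using this
  have g1 : ∀ {v : Pol K}, v ∈ hom K (m + 1) → v ∈ hom K (m + 1 + 0) := fun hv => by simpa using hv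
  have g2 : ∀ {v : Pol K}, v ∈ hom K m → v ∈ hom K (m + 1 + -1) := fun hv => by simpa using hv
  have hE0 : ∀ {v : Pol K}, v ∈ hom K (m + 1) → E0 π.g v ∈ hom K m := fun hv => by
    have := E0_hom (g := π.g) hv; simpa using this
  have hE1 : ∀ {v : Pol K}, v ∈ hom K (m + 1) → E1 π.g v ∈ hom K m := fun hv => by
    have := E1_hom (g := π.g) hv; simpa using this
  intro c
  rcases c with _ | c
  · exact Submodule.zero_mem _
  cases c with
  | d j =>
    fin_cases j
    · exact g2 (hE0 (e0 none rfl))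
    · exact g2 (hE1 (e0 none rfl))
  | f => exact Submodule.zero_mem _
  | z j =>
    have hc : E1 π.g (φ (some (.d 0))) + π.g • E0 π.g (φ (some (.d 1))) ∈ hom K (m - 1) :=
      Submodule.add_mem _ (E1_hom (e1 _ rfl)) (Submodule.smul_mem _ _ (E0_hom (e1 _ rfl)))
    fin_cases j
    · exact g2 (hX0 hc)
    · exact g2 (hX1 hc)
  | zc =>
    exact g1 (Submodule.add_mem _ (Submodule.add_mem _ (X0_hom (e1 _ rfl)) (X1_hom (e1 _ rfl)))
      (e0 _ rfl))
  | u s => exact Submodule.zero_mem _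
  | e j =>
    fin_cases j
    · exact g2 (Submodule.smul_mem _ _ (hE0 (e0 _ rfl)))
    · exact g2 (Submodule.smul_mem _ _ (hE1 (e0 _ rfl)))
  | gj j =>
    have hc : π.g • E1 π.g (φ (some (.e 0))) + π.g ^ 3 • E0 π.g (φ (some (.e 1))) ∈ hom K (m - 1) :=
      Submodule.add_mem _ (Submodule.smul_mem _ _ (E1_hom (e1 _ rfl)))
        (Submodule.smul_mem _ _ (E0_hom (e1 _ rfl)))
    fin_cases j
    · exact g2 (Submodule.smul_mem _ _ (hX0 hc))
    · exact g2 (Submodule.smul_mem _ _ (hX1 hc))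
  | gc =>
    exact g1 (Submodule.add_mem _ (Submodule.smul_mem _ _ (X0_hom (e1 _ rfl)))
      (Submodule.smul_mem _ _ (X1_hom (e1 _ rfl))))
  | v s =>
    have hu : φ (some (.u s)) ∈ hom K (m + 1) := e0 _ rfl
    have hT : TT π.g (φ (some (.u s))) ∈ hom K (m + 1) := by
      refine Submodule.add_mem _ hu (Submodule.smul_mem _ _ (Submodule.add_mem _ ?_ ?_))
      · have := E0_hom (g := π.g) (X0_hom hu); rwa [add_sub_cancel_right] at this
      · have := E1_hom (g := π.g) (X1_hom hu); rwa [add_sub_cancel_right] at this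
    exact g1 (Submodule.add_mem _ hT (Submodule.smul_mem _ _ hu))

/-- `D0 ∘ D0 = 0` -/
theorem D0_D0 (φ : Cell → Pol K) : D0 π (D0 π φ) = 0 := by
  have hc : ∀ v : Pol K, E1 π.g (E0 π.g v) + π.g • E0 π.g (E1 π.g v) = 0 := fun v => by
    rw [E_curl_grad π.g0, add_self' π]
  have h2 : π.g • E1 π.g (π.c 0 • E0 π.g (φ (some .f)))
      + π.g ^ 3 • E0 π.g (π.c 1 • E1 π.g (φ (some .f))) = 0 := by
    rw [c0, c1, map_smul, map_smul, smul_smul, smul_smul, E_curl_grad π.g0, smul_smul,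
      show π.g * π.g ^ 2 * π.g = π.g ^ 3 * π.g by ring, add_self' π]
  funext c
  rcases c with _ | c
  · rfl
  cases c with
  | d j => rcases f2 j with rfl | rfl <;> simp
  | f => rfl
  | z j => rcases f2 j with rfl | rfl <;> simp only [D0_z0, D0_z1, D0_d0, D0_d1, hc, map_zero, Pi.zero_apply]
  | zc =>
    simp only [D0_zc, D0_z1, D0_z0, D0_f, add_zero, Pi.zero_apply]
    rw [X_comm, add_self' π]
  | u s => rfl
  | e j => rcases f2 j with rfl | rfl <;> simp
  | gj j =>
    rcases f2 j with rfl | rfl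
    · rw [D0_gj0, D0_e0, D0_e1, h2, map_zero, smul_zero, Pi.zero_apply]
    · rw [D0_gj1, D0_e0, D0_e1, h2, map_zero, smul_zero, Pi.zero_apply]
  | gc =>
    simp only [D0_gc, D0_gj1, D0_gj0, map_smul, Pi.zero_apply]
    rw [X_comm, smul_smul, smul_smul, mul_comm (π.c 1)⁻¹, add_self' π]
  | v s => simp

/-! ### degrees -/

/-- projection to cell degree `n` -/
noncomputable def pr (K : Type) [Field K] (n : ℕ) : (Cell → Pol K) →ₗ[K] (Cell → Pol K) :=
  LinearMap.pi fun c => if cdeg c = n then pj K c else 0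

lemma pr_apply (n : ℕ) (φ : Cell → Pol K) (c : Cell) : pr K n φ c = if cdeg c = n then φ c else 0 := by
  show (if cdeg c = n then pj K c else 0 : (Cell → Pol K) →ₗ[K] Pol K) φ = _
  split_ifs <;> rfl

lemma pr_mem (n : ℕ) {m : ℤ} {φ : Cell → Pol K} (h : φ ∈ CV K m) : pr K n φ ∈ CV K m := by
  intro c
  rw [pr_apply]
  split_ifs
  · exact h c
  · exact Submodule.zero_mem _

lemma pr_sup (n : ℕ) (φ : Cell → Pol K) : pr K n φ ∈ Sup K n := by
  intro c hc
  rw [pr_apply, if_neg hc]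

lemma pr_of_sup {n : ℕ} {φ : Cell → Pol K} (h : φ ∈ Sup K n) : pr K n φ = φ := by
  funext c
  rw [pr_apply]
  split_ifs with hc
  · rfl
  · rw [h c hc]

lemma pr_of_sup_ne {n n' : ℕ} (hn : n ≠ n') {φ : Cell → Pol K} (h : φ ∈ Sup K n) : pr K n' φ = 0 := by
  funext c
  rw [pr_apply]
  split_ifs with hc
  · rw [h c (by rw [hc]; exact hn.symm)]; rfl
  · rfl

lemma pr_pos {n : ℕ} (φ : Cell → Pol K) {c : Cell} (h : cdeg c = n) : pr K n φ c = φ c := by
  rw [pr_apply, if_pos h]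

lemma pr_neg {n : ℕ} (φ : Cell → Pol K) {c : Cell} (h : ¬ cdeg c = n) : pr K n φ c = 0 := by
  rw [pr_apply, if_neg h]

/-- `D0` raises the cell degree by one -/
lemma D0_pr (n : ℕ) (φ : Cell → Pol K) : D0 π (pr K n φ) = pr K (n + 1) (D0 π φ) := by
  funext c
  rcases c with _ | c
  · rw [pr_apply]; simp
  have P : ∀ {a c : Cell}, cdeg a + 1 = cdeg c → cdeg c = n + 1 → cdeg a = n := fun h h' => by omega
  have Q : ∀ {a c : Cell}, cdeg a + 1 = cdeg c → ¬ cdeg c = n + 1 → ¬ cdeg a = n := fun h h' => by omega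
  by_cases h : cdeg (some c) = n + 1
  · rw [pr_pos _ h]
    cases c with
    | d j => rcases f2 j with rfl | rfl <;> simp only [D0_d0, D0_d1, pr_pos φ (P (a := none) rfl h)]
    | f => simp
    | z j =>
      rcases f2 j with rfl | rfl <;> simp only [D0_z0, D0_z1, pr_pos φ (P (a := some (.d 0)) rfl h),
        pr_pos φ (P (a := some (.d 1)) rfl h)]
    | zc => simp only [D0_zc, pr_pos φ (P (a := some (.z 0)) rfl h), pr_pos φ (P (a := some (.z 1)) rfl h),
        pr_pos φ (P (a := some .f) rfl h)]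
    | u s => simp
    | e j => rcases f2 j with rfl | rfl <;> simp only [D0_e0, D0_e1, pr_pos φ (P (a := some .f) rfl h)]
    | gj j =>
      rcases f2 j with rfl | rfl <;> simp only [D0_gj0, D0_gj1, pr_pos φ (P (a := some (.e 0)) rfl h),
        pr_pos φ (P (a := some (.e 1)) rfl h)]
    | gc => simp only [D0_gc, pr_pos φ (P (a := some (.gj 0)) rfl h), pr_pos φ (P (a := some (.gj 1)) rfl h)]
    | v s =>
      have h1 : cdeg (some (.u s)) + 1 = cdeg (some (.v s)) := by simp [cdeg]; omega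
      simp only [D0_v, pr_pos φ (P h1 h)]
  · rw [pr_neg _ h]
    cases c with
    | d j => rcases f2 j with rfl | rfl <;> simp only [D0_d0, D0_d1, pr_neg φ (Q (a := none) rfl h), map_zero]
    | f => simp
    | z j =>
      rcases f2 j with rfl | rfl <;> simp only [D0_z0, D0_z1, pr_neg φ (Q (a := some (.d 0)) rfl h),
        pr_neg φ (Q (a := some (.d 1)) rfl h), map_zero, smul_zero, add_zero]
    | zc => simp only [D0_zc, pr_neg φ (Q (a := some (.z 0)) rfl h), pr_neg φ (Q (a := some (.z 1)) rfl h),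
        pr_neg φ (Q (a := some .f) rfl h), map_zero, add_zero]
    | u s => simp
    | e j =>
      rcases f2 j with rfl | rfl <;> simp only [D0_e0, D0_e1, pr_neg φ (Q (a := some .f) rfl h), map_zero,
        smul_zero]
    | gj j =>
      rcases f2 j with rfl | rfl <;> simp only [D0_gj0, D0_gj1, pr_neg φ (Q (a := some (.e 0)) rfl h),
        pr_neg φ (Q (a := some (.e 1)) rfl h), map_zero, smul_zero, add_zero]
    | gc => simp only [D0_gc, pr_neg φ (Q (a := some (.gj 0)) rfl h),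
        pr_neg φ (Q (a := some (.gj 1)) rfl h), map_zero, smul_zero, add_zero]
    | v s =>
      have h1 : cdeg (some (.u s)) + 1 = cdeg (some (.v s)) := by simp [cdeg]; omega
      simp only [D0_v, pr_neg φ (Q h1 h), map_zero, smul_zero, add_zero]

lemma D0_sup {n : ℕ} {φ : Cell → Pol K} (h : φ ∈ Sup K n) : D0 π φ ∈ Sup K (n + 1) := by
  rw [← pr_of_sup h, D0_pr]
  exact pr_sup _ _

/-! ### exactness -/

section exact

variable {π}

lemma gne : π.g ≠ 0 := π.g0

/-- the scalar of `v ↦ u` on `V_m` -/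
lemma tau_ne (m : ℕ) : (π.g⁻¹) ^ (m + 1 + 2) + (π.g ^ 2)⁻¹ ≠ 0 := by
  intro h
  have hg := π.g0
  have h1 : (π.g⁻¹) ^ (m + 1 + 2) + (π.g ^ 2)⁻¹ = (π.g ^ 2)⁻¹ * ((π.g⁻¹) ^ (m + 1) - 1)
      + 2 * (π.g ^ 2)⁻¹ := by
    rw [pow_add]; simp only [inv_pow]; ring
  rw [h1, π.two, zero_mul, add_zero] at h
  have h2 : (π.g⁻¹) ^ (m + 1) - 1 = 0 :=
    (mul_eq_zero.1 h).resolve_left (inv_ne_zero (pow_ne_zero _ hg))
  apply π.gn (m + 1) (Nat.succ_pos m)
  have h3 : (π.g⁻¹) ^ (m + 1) = 1 := by linear_combination h2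
  rw [inv_pow] at h3
  exact inv_eq_one.mp h3

lemma TTv (m : ℕ) {v : Pol K} (hv : v ∈ hom K ((m : ℤ) + 1)) :
    TT π.g v + (π.g ^ 2)⁻¹ • v = ((π.g⁻¹) ^ (m + 1 + 2) + (π.g ^ 2)⁻¹) • v := by
  have hv' : v ∈ hom K (((m + 1 : ℕ)) : ℤ) := by push_cast; exact hv
  rw [TT_hom π hv', add_smul]

/-- **the Hom complex of the sixteen cells with values in `V_m` is exact for `m ≥ 0`** -/
theorem exact_pos0 (m : ℕ) {φ : Cell → Pol K} (hφ : φ ∈ CV K m) (h : D0 π φ = 0) :
    ∃ ψ ∈ CV K (m : ℤ), D0 π ψ = φ := by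
  have hg := π.g0
  have hgn := π.gn
  have e1 : ∀ c : Cell, cP c = -1 → φ c ∈ hom K (m : ℤ) := fun c hc => by
    have := hφ c; rw [hc] at this; simpa using this
  have e0 : ∀ c : Cell, cP c = 0 → φ c ∈ hom K ((m : ℤ) + 1) := fun c hc => by
    have := hφ c; rw [hc] at this; simpa using this
  have H : ∀ c, D0 π φ c = 0 := fun c => by rw [h]; rfl
  have cast1 : ∀ {v : Pol K}, v ∈ hom K ((m : ℤ) + 1) → v ∈ hom K (((m + 1 : ℕ)) : ℤ) :=
    fun hv => by push_cast; exact hv
  have ginj : ∀ {v : Pol K}, v ∈ hom K ((m : ℤ) + 1) → E0 π.g v = 0 → E1 π.g v = 0 → v = 0 :=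
    fun hv a b => E_grad_inj hg hgn (Nat.succ_pos m) (cast1 hv) a b
  -- cell 1
  have k1 : φ none = 0 := ginj (e0 _ rfl) (by simpa using H (some (.d 0))) (by simpa using H (some (.d 1)))
  -- d
  have kd : E1 π.g (φ (some (.d 0))) = π.g • E0 π.g (φ (some (.d 1))) := by
    apply eq_of_add π
    apply X0_inj
    rw [map_zero]
    simpa using H (some (.z 0))
  obtain ⟨a, ha, ha0, ha1⟩ := E_curl_exact hg hgn (e1 _ rfl) (e1 _ rfl) kd
  -- f
  have kf : φ (some .f) = 0 := by
    apply ginj (e0 _ rfl)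
    · have := H (some (.e 0))
      rw [D0_e0, smul_eq_zero, c0] at this
      exact this.resolve_left (pow_ne_zero _ hg)
    · have := H (some (.e 1))
      rw [D0_e1, smul_eq_zero, c1] at this
      exact this.resolve_left hg
  -- z
  have kz : X0 (φ (some (.z 1))) = X1 (φ (some (.z 0))) := by
    apply eq_of_add π
    have := H (some .zc)
    rwa [D0_zc, kf, add_zero] at this
  obtain ⟨s, hs, hs0, hs1⟩ := koszul_mid (e1 (some (.z 0)) rfl) kz
  obtain ⟨w, hw, hws⟩ := E0_surj hg hgn (m := (m : ℤ)) hs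
  -- e
  have ke : E1 π.g ((π.c 0)⁻¹ • φ (some (.e 0))) = π.g • E0 π.g ((π.c 1)⁻¹ • φ (some (.e 1))) := by
    have h3 : π.g • E1 π.g (φ (some (.e 0))) = π.g ^ 3 • E0 π.g (φ (some (.e 1))) := by
      apply eq_of_add π
      apply X0_inj
      rw [map_zero]
      have := H (some (.gj 0))
      rw [D0_gj0, smul_eq_zero, c0] at this
      exact this.resolve_left (inv_ne_zero (pow_ne_zero _ hg))
    rw [map_smul, map_smul, c0, c1, smul_smul, mul_inv_cancel₀ hg, one_smul]
    calc (π.g ^ 2)⁻¹ • E1 π.g (φ (some (.e 0)))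
        = ((π.g ^ 3)⁻¹) • (π.g • E1 π.g (φ (some (.e 0)))) := by
          rw [smul_smul]; congr 1; field_simp
      _ = E0 π.g (φ (some (.e 1))) := by
          rw [h3, smul_smul, inv_mul_cancel₀ (pow_ne_zero _ hg), one_smul]
  obtain ⟨b, hb, hb0, hb1⟩ := E_curl_exact hg hgn (Submodule.smul_mem _ _ (e1 (some (.e 0)) rfl))
    (Submodule.smul_mem _ _ (e1 (some (.e 1)) rfl)) ke
  -- z_c
  obtain ⟨z0, hz0, z1, hz1, hz⟩ := koszul_surj (K := K) (m := (m : ℤ)) (by positivity)
    (Submodule.add_mem _ (e0 (some .zc) rfl) hb)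
  -- g_j
  have kg : X0 ((π.c 0)⁻¹ • φ (some (.gj 1))) = X1 ((π.c 1)⁻¹ • φ (some (.gj 0))) := by
    apply eq_of_add π
    rw [map_smul, map_smul]
    exact H (some .gc)
  obtain ⟨q, hq, hq0, hq1⟩ := koszul_mid (Submodule.smul_mem _ (π.c 1)⁻¹ (e1 (some (.gj 0)) rfl)) kg
  obtain ⟨y, hy, hyq⟩ := E0_surj hg hgn (m := (m : ℤ)) hq
  -- g_c
  obtain ⟨p0, hp0, p1, hp1, hp⟩ := koszul_surj (K := K) (m := (m : ℤ)) (by positivity) (e0 (some .gc) rfl)
  have c0n : π.c 0 ≠ 0 := by rw [c0]; exact pow_ne_zero _ hg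
  have c1n : π.c 1 ≠ 0 := by rw [c1]; exact hg
  -- u
  have ku : ∀ s', φ (some (.u s')) = 0 := fun s' => by
    have := H (some (.v s'))
    rw [D0_v, TTv m (e0 _ rfl), smul_eq_zero] at this
    exact this.resolve_left (tau_ne m)
  let τ : K := (π.g⁻¹) ^ (m + 1 + 2) + (π.g ^ 2)⁻¹
  have hτ : τ ≠ 0 := tau_ne m
  let ψ : Cell → Pol K := fun c => match c with
    | none => a
    | some (.d j) => if j = 0 then 0 else π.g⁻¹ • w
    | some .f => b
    | some (.z j) => if j = 0 then z0 else z1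
    | some .zc => 0
    | some (.u s') => τ⁻¹ • φ (some (.v s'))
    | some (.e j) => if j = 0 then 0 else y
    | some (.gj j) => if j = 0 then π.c 1 • p0 else π.c 0 • p1
    | some .gc => 0
    | some (.v _) => 0
  have hψ : ψ ∈ CV K (m : ℤ) := by
    have g1 : ∀ {v : Pol K}, v ∈ hom K ((m : ℤ) + 1) → v ∈ hom K ((m : ℤ) + 1 + 0) :=
      fun hv => by simpa using hv
    have g2 : ∀ {v : Pol K}, v ∈ hom K (m : ℤ) → v ∈ hom K ((m : ℤ) + 1 + -1) :=
      fun hv => by simpa using hv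
    intro c
    rcases c with _ | c
    · exact g1 ha
    cases c with
    | d j =>
      rcases f2 j with rfl | rfl
      · exact Submodule.zero_mem _
      · exact g2 (Submodule.smul_mem _ _ hw)
    | f => exact g1 hb
    | z j =>
      rcases f2 j with rfl | rfl
      · exact g2 hz0
      · exact g2 hz1
    | zc => exact Submodule.zero_mem _
    | u s' => exact g1 (Submodule.smul_mem _ _ (e0 _ rfl))
    | e j =>
      rcases f2 j with rfl | rfl
      · exact Submodule.zero_mem _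
      · exact g2 hy
    | gj j =>
      rcases f2 j with rfl | rfl
      · exact g2 (Submodule.smul_mem _ _ hp0)
      · exact g2 (Submodule.smul_mem _ _ hp1)
    | gc => exact Submodule.zero_mem _
    | v s' => exact Submodule.zero_mem _
  refine ⟨ψ, hψ, ?_⟩
  funext c
  rcases c with _ | c
  · rw [k1]; rfl
  cases c with
  | d j =>
    rcases f2 j with rfl | rfl
    · exact ha0
    · exact ha1
  | f => rw [kf]; rfl
  | z j =>
    have hC : E1 π.g (ψ (some (.d 0))) + π.g • E0 π.g (ψ (some (.d 1))) = s := by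
      show E1 π.g 0 + π.g • E0 π.g (π.g⁻¹ • w) = s
      rw [map_zero, zero_add, map_smul, smul_smul, mul_inv_cancel₀ hg, one_smul, hws]
    rcases f2 j with rfl | rfl
    · rw [D0_z0, hC, hs0]
    · rw [D0_z1, hC, hs1]
  | zc =>
    show X0 z1 + X1 z0 + b = _
    rw [hz, add_assoc, add_self' π, add_zero]
  | u s' => rw [ku]; rfl
  | e j =>
    rcases f2 j with rfl | rfl
    · show π.c 0 • E0 π.g b = _
      rw [hb0, smul_smul, mul_inv_cancel₀ c0n, one_smul]
    · show π.c 1 • E1 π.g b = _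
      rw [hb1, smul_smul, mul_inv_cancel₀ c1n, one_smul]
  | gj j =>
    have hC : π.g • E1 π.g (ψ (some (.e 0))) + π.g ^ 3 • E0 π.g (ψ (some (.e 1))) = π.g ^ 3 • q := by
      show π.g • E1 π.g 0 + π.g ^ 3 • E0 π.g y = _
      rw [map_zero, smul_zero, zero_add, hyq]
    have hq0' : φ (some (.gj 0)) = π.c 1 • X0 q := by
      rw [← hq0, smul_smul, mul_inv_cancel₀ c1n, one_smul]
    have hq1' : φ (some (.gj 1)) = π.c 0 • X1 q := by
      rw [← hq1, smul_smul, mul_inv_cancel₀ c0n, one_smul]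
    rcases f2 j with rfl | rfl
    · rw [D0_gj0, hC, hq0', map_smul, smul_smul, c0, c1]
      congr 1
      field_simp
    · rw [D0_gj1, hC, hq1', map_smul, smul_smul, c0, c1]
      congr 1
      field_simp
  | gc =>
    show (π.c 0)⁻¹ • X0 (π.c 0 • p1) + (π.c 1)⁻¹ • X1 (π.c 1 • p0) = _
    rw [map_smul, map_smul, smul_smul, smul_smul, inv_mul_cancel₀ c0n, inv_mul_cancel₀ c1n, one_smul,
      one_smul, hp]
  | v s' =>
    rw [D0_v]
    have hu : ψ (some (.u s')) ∈ hom K ((m : ℤ) + 1) := Submodule.smul_mem _ _ (e0 _ rfl)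
    rw [TTv m hu]
    show τ • (τ⁻¹ • φ (some (.v s'))) = _
    rw [smul_smul, mul_inv_cancel₀ hτ, one_smul]

/-- graded version -/
theorem exact_pos (m n : ℕ) {φ : Cell → Pol K} (hφ : φ ∈ CV K m) (hn : φ ∈ Sup K (n + 1))
    (h : D0 π φ = 0) : ∃ ψ ∈ CV K (m : ℤ), ψ ∈ Sup K n ∧ D0 π ψ = φ := by
  obtain ⟨ψ, hψ, e⟩ := exact_pos0 m hφ h
  refine ⟨pr K n ψ, pr_mem n hψ, pr_sup n ψ, ?_⟩
  rw [D0_pr, e, pr_of_sup hn]

/-- degree zero: no cocycles for `m ≥ 0` -/
theorem exact_zero (m : ℕ) {φ : Cell → Pol K} (hφ : φ ∈ CV K m) (hn : φ ∈ Sup K 0)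
    (h : D0 π φ = 0) : φ = 0 := by
  obtain ⟨ψ, hψ, e⟩ := exact_pos0 m hφ h
  funext c
  by_cases hc : cdeg c = 0
  · rcases c with _ | c
    · rw [← e]; rfl
    · cases c <;> simp [cdeg] at hc
  · exact hn c hc

/-! ### `m = -1` -/

/-- the six surviving cells -/
def six : Cell → Bool
  | none => true
  | some (.u _) => true
  | some (.v _) => true
  | some .gc => true
  | _ => false

lemma hom_m1 {v : Pol K} (hv : v ∈ hom K (-1 : ℤ)) : v = 0 := by
  rw [hom_neg (by norm_num)] at hv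
  simpa using hv

/-- on `V_{-1}` the differential is `f ↦ z_c` only -/
theorem D0_neg {φ : Cell → Pol K} (hφ : φ ∈ CV K (-1)) (c : Cell) :
    D0 π φ c = if c = some .zc then φ (some .f) else 0 := by
  have e1 : ∀ c : Cell, cP c = -1 → φ c = 0 := fun c hc => hom_m1 (by
    have := hφ c; rw [hc] at this; simpa using this)
  have e0 : ∀ c : Cell, cP c = 0 → φ c ∈ hom K (0 : ℤ) := fun c hc => by
    have := hφ c; rw [hc] at this; simpa using this
  have E0z : ∀ {v : Pol K}, v ∈ hom K (0 : ℤ) → E0 π.g v = 0 := fun hv => hom_m1 (by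
    have := E0_hom (g := π.g) hv; simpa using this)
  have E1z : ∀ {v : Pol K}, v ∈ hom K (0 : ℤ) → E1 π.g v = 0 := fun hv => hom_m1 (by
    have := E1_hom (g := π.g) hv; simpa using this)
  rcases c with _ | c
  · simp
  cases c with
  | d j =>
    rcases f2 j with rfl | rfl
    · rw [D0_d0, E0z (e0 _ rfl)]; simp
    · rw [D0_d1, E1z (e0 _ rfl)]; simp
  | f => simp
  | z j =>
    rcases f2 j with rfl | rfl
    · rw [D0_z0, e1 (some (.d 0)) rfl, e1 (some (.d 1)) rfl]; simp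
    · rw [D0_z1, e1 (some (.d 0)) rfl, e1 (some (.d 1)) rfl]; simp
  | zc => rw [D0_zc, e1 (some (.z 0)) rfl, e1 (some (.z 1)) rfl]; simp
  | u s => simp
  | e j =>
    rcases f2 j with rfl | rfl
    · rw [D0_e0, E0z (e0 _ rfl)]; simp
    · rw [D0_e1, E1z (e0 _ rfl)]; simp
  | gj j =>
    rcases f2 j with rfl | rfl
    · rw [D0_gj0, e1 (some (.e 0)) rfl, e1 (some (.e 1)) rfl]; simp
    · rw [D0_gj1, e1 (some (.e 0)) rfl, e1 (some (.e 1)) rfl]; simp
  | gc => rw [D0_gc, e1 (some (.gj 0)) rfl, e1 (some (.gj 1)) rfl]; simp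
  | v s =>
    have hu : φ (some (.u s)) ∈ hom K (((0 : ℕ)) : ℤ) := by simpa using e0 (some (.u s)) rfl
    rw [D0_v, TT_hom π hu, if_neg (by simp)]
    rw [show (0 : ℕ) + 2 = 2 from rfl, inv_pow, add_self' π]

/-- on `V_{-1}` every cocycle is a coboundary plus a cochain carried by the six cells -/
theorem exact_neg {φ : Cell → Pol K} (hφ : φ ∈ CV K (-1)) (h : D0 π φ = 0) :
    ∃ ψ ∈ CV K (-1), ∀ c, six c = false → φ c = D0 π ψ c := by
  have e1 : ∀ c : Cell, cP c = -1 → φ c = 0 := fun c hc => hom_m1 (by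
    have := hφ c; rw [hc] at this; simpa using this)
  have kf : φ (some .f) = 0 := by
    have := congrFun h (some .zc)
    rw [D0_neg hφ] at this
    simpa using this
  let ψ : Cell → Pol K := fun c => if c = some .f then φ (some .zc) else 0
  have hψ : ψ ∈ CV K (-1) := by
    intro c
    show (if c = some E.f then φ (some .zc) else 0) ∈ _
    split_ifs with hc
    · subst hc
      have := hφ (some .zc)
      simpa [cP] using this
    · exact Submodule.zero_mem _
  refine ⟨ψ, hψ, fun c hc => ?_⟩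
  rw [D0_neg hψ]
  rcases c with _ | c
  · simp [six] at hc
  cases c with
  | d j => rw [e1 _ rfl]; simp
  | f => rw [kf]; simp
  | z j => rw [e1 _ rfl]; simp
  | zc => simp [ψ]
  | u s => simp [six] at hc
  | e j => rw [e1 _ rfl]; simp
  | gj j => rw [e1 _ rfl]; simp
  | gc => simp [six] at hc
  | v s => simp [six] at hc

end exact

end Crest.Agent.R186.Cells221
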