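import Crest.Agent.R186.Der_580
import Crest.Agent.R186.Cells_221

/-!
# Row 186, leaf C1 (a) (helper221): the table of the differential on the letters, last letter split off

`D l = Σ_l' cf l l' * l' + yp l` (`D_E`), `D (cf l l'') + Σ_l' cf l l' * cf l' l'' = yc l l''` (`cf_cf`),
degrees of `cf`, `yp` (`cf_mem`, `yp_mem`), and `D0` of `Cells_221` is the operator obtained by
letting the table act on the modules `V_m` (`D0_eq`).
-/

set_option autoImplicit false

namespace Crest.Agent.R186.Cells221

open Crest.Agent.R186.VOp220 Crest.Agent.R186.DefsQ830 Crest.Agent.R186.Vmod220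
open Crest.Agent.R186.Der580
open Crest.Agent.R186.PBW128 (E)

variable {K : Type} [Field K] (π : Par K)

/-- sum over the fifteen letters -/
theorem sumE {M : Type*} [AddCommMonoid M] (F : E → M) : ∑ l, F l =
    F (.d 0) + F (.d 1) + F .f + F (.z 0) + F (.z 1) + F .zc + F (.u 0) + F (.u 1) + F (.e 0)
      + F (.e 1) + F (.gj 0) + F (.gj 1) + F .gc + F (.v 0) + F (.v 1) := by
  have h : (Finset.univ : Finset E) = {.d 0, .d 1, .f, .z 0, .z 1, .zc, .u 0, .u 1, .e 0, .e 1,
      .gj 0, .gj 1, .gc, .v 0, .v 1} := by decide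
  rw [h]
  rw [Finset.sum_insert (by decide), Finset.sum_insert (by decide), Finset.sum_insert (by decide),
    Finset.sum_insert (by decide), Finset.sum_insert (by decide), Finset.sum_insert (by decide),
    Finset.sum_insert (by decide), Finset.sum_insert (by decide), Finset.sum_insert (by decide),
    Finset.sum_insert (by decide), Finset.sum_insert (by decide), Finset.sum_insert (by decide),
    Finset.sum_insert (by decide), Finset.sum_insert (by decide), Finset.sum_singleton]
  simp only [add_assoc]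

/-- the element `t` of `R''` -/
def tR : R π := X π .h + (π.g - 1) • (X π (.d 0) * X π (.x 0) + X π (.d 1) * X π (.x 1))

/-- `h^(s+1)` in `R''` -/
def hR (s : Fin 2) : R π := if s = 0 then X π .h else X π .h * X π .h

/-- the coefficient of the last letter `l'` in `D l` -/
def cf : E → E → R π
  | .z j, .d i => if i = 0 then X π (.x j) * X π (.d 1) else π.g • (X π (.x j) * X π (.d 0))
  | .zc, .z i => if i = 0 then X π (.x 1) else X π (.x 0)
  | .zc, .f => X π .h
  | .e j, .d i => if i = j then X π .f else 0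
  | .e j, .f => π.c j • X π (.d j)
  | .gj j, .z i => if i = j then X π .f else 0
  | .gj j, .f => π.cz j • X π (.z j)
  | .gj j, .d i => if i = 0 then (π.c j)⁻¹ • (X π (.x j) * X π (.e 1))
      else ((π.c j)⁻¹ * π.g) • (X π (.x j) * X π (.e 0))
  | .gj j, .e i => if i = 0 then ((π.c j)⁻¹ * π.g) • (X π (.x j) * X π (.d 1))
      else ((π.c j)⁻¹ * π.g ^ 3) • (X π (.x j) * X π (.d 0))
  | .gc, .zc => X π .f
  | .gc, .f => X π .zc
  | .gc, .gj i => if i = 0 then (π.c 1)⁻¹ • X π (.x 1) else (π.c 0)⁻¹ • X π (.x 0)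
  | .gc, .u i => if i = 0 then X π (.u 1) else π.p • X π (.u 0)
  | .v s, .u i => if i = s then tR π + (π.g ^ 2)⁻¹ • X π .h else 0
  | .v s, .d i => if i = 0 then ((π.g - 1) * (π.g ^ 2)⁻¹) • (X π (.u s) * X π (.x 0))
      else ((π.g - 1) * π.g⁻¹) • (X π (.u s) * X π (.x 1))
  | _, _ => 0

/-- the part of `D l` ending with a `W`-letter -/
def yp : E → R π
  | .u s => hR π s * X π (.y s)
  | .v s => hR π s * tR π * X π (.yb s)
  | _ => 0

/-- the curvature of `cf` -/
def yc : E → E → R π
  | .gc, .u i => if i = 0 then hR π 1 * X π (.y 1) else π.p • (hR π 0 * X π (.y 0))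
  | .v s, .d i => if i = 0 then ((π.g - 1) * (π.g ^ 2)⁻¹) • (hR π s * X π (.y s) * X π (.x 0))
      else ((π.g - 1) * π.g⁻¹) • (hR π s * X π (.y s) * X π (.x 1))
  | _, _ => 0

set_option maxHeartbeats 4000000 in
/-- `D l = Σ_l' cf l l' * l' + yp l` -/
theorem D_E (l : E) : D π (X π l.toGen) = ∑ l', cf π l l' * X π l'.toGen + yp π l := by
  have : CharP K 2 := CharTwo.of_one_ne_zero_of_two_eq_zero one_ne_zero π.two
  have g0 := π.g0
  have p0 := π.p0
  rw [D_X, sumE]
  cases l with
  | d j => simp [E.toGen, dGen, cf, yp]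
  | f => simp [E.toGen, dGen, cf, yp]
  | z j =>
    simp only [E.toGen, dGen, cf, yp, rF, map_mul, map_add, map_smul, mk_L, if_true, zero_mul,
      add_zero, one_ne_zero, if_false]
    simp only [mul_add, mul_smul_comm, smul_mul_assoc, mul_assoc]
  | zc =>
    simp only [E.toGen, dGen, cf, yp, map_mul, map_add, mk_L, if_true, zero_mul,
      add_zero, zero_add, one_ne_zero, if_false]
    abel
  | u s =>
    revert s
    fin2 <;> simp [E.toGen, dGen, cf, yp, hs, hR, mk_L]
  | e j =>
    revert j
    fin2 <;> simp [E.toGen, dGen, cf, yp, mk_L]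
  | gj j =>
    revert j
    fin2 <;> simp [E.toGen, dGen, cf, yp, mk_L, rhoF, mul_add, smul_smul, mul_assoc] <;> abel
  | gc =>
    simp only [E.toGen, dGen, cf, yp, map_mul, map_add, map_smul, mk_L, if_true, zero_mul,
      add_zero, zero_add, one_ne_zero, if_false, smul_mul_assoc]
    abel
  | v s =>
    revert s
    fin2 <;> (simp [E.toGen, dGen, cf, yp, mk_L, tF, tR, hs, hR]; idR)

/-- `D t = 0` -/
theorem D_tR : D π (tR π) = 0 := by
  simp only [tR, map_add, map_smul, D_mul, D_X, dGen, map_zero, zero_mul, mul_zero, add_zero,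
    smul_zero]

theorem D_hR (s : Fin 2) : D π (hR π s) = 0 := by
  rcases f2 s with rfl | rfl <;>
    simp [hR, D_mul, D_X, dGen]

/-- `D (yp l) = 0` -/
theorem D_yp (l : E) : D π (yp π l) = 0 := by
  cases l with
  | u s => simp [yp, D_mul, D_hR, D_X, dGen]
  | v s => simp [yp, D_mul, D_hR, D_tR, D_X, dGen]
  | _ => simp [yp]

/-- expansion of `Σ_l' cf l l' * cf l' l''` -/
macro "cfx" : tactic => `(tactic| (
  rw [sumE]
  simp only [cf, yc, if_true, if_false, one_ne_zero, zero_ne_one, zero_mul, mul_zero, add_zero,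
    zero_add, map_zero, map_smul, map_add, D_mul, D_X, D_tR, dGen, mk_L, map_mul, smul_zero, hs_zero,
    hs_one, tR, hR]))

set_option maxHeartbeats 8000000 in
/-- `D (cf l l'') + Σ_l' cf l l' * cf l' l'' = yc l l''` -/
theorem cf_cf (l l'' : E) : D π (cf π l l'') + ∑ l', cf π l l' * cf π l' l'' = yc π l l'' := by
  have : CharP K 2 := CharTwo.of_one_ne_zero_of_two_eq_zero one_ne_zero π.two
  have g0 := π.g0
  have p0 := π.p0
  cases l with
  | d j => cases l'' <;> simp [cf, yc]
  | f => cases l'' <;> simp [cf, yc]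
  | u j => cases l'' <;> simp [cf, yc]
  | z j =>
    revert j
    cases l'' with
    | f => fin2 <;> cfx
    | zc => fin2 <;> cfx
    | gc => fin2 <;> cfx
    | d i => revert i; fin2 <;> cfx
    | z i => revert i; fin2 <;> cfx
    | u i => revert i; fin2 <;> cfx
    | e i => revert i; fin2 <;> cfx
    | gj i => revert i; fin2 <;> cfx
    | v i => revert i; fin2 <;> cfx
  | zc =>
    cases l'' with
    | f => cfx
    | zc => cfx
    | gc => cfx
    | d i =>
      revert i
      fin2 <;> cfx <;> simp only [mul_smul_comm, ← mul_assoc, r_xx, ← smul_add, add_self, smul_zero]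
    | z i => revert i; fin2 <;> cfx
    | u i => revert i; fin2 <;> cfx
    | e i => revert i; fin2 <;> cfx
    | gj i => revert i; fin2 <;> cfx
    | v i => revert i; fin2 <;> cfx
  | e j =>
    revert j
    cases l'' with
    | f => fin2 <;> cfx
    | zc => fin2 <;> cfx
    | gc => fin2 <;> cfx
    | d i => revert i; fin2 <;> cfx
    | z i => revert i; fin2 <;> cfx
    | u i => revert i; fin2 <;> cfx
    | e i => revert i; fin2 <;> cfx
    | gj i => revert i; fin2 <;> cfx
    | v i => revert i; fin2 <;> cfx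
  | gj j =>
    revert j
    cases l'' with
    | f =>
      have h11 : (1 + 1 : K) = 0 := by rw [one_add_one_eq_two]; exact π.two
      fin2 <;> (cfx; simp only [rF, map_add, map_mul, map_smul, mk_L]; nfR) <;>
        (match_scalars <;> (field_simp; simp [h11]))
    | zc => fin2 <;> cfx
    | gc => fin2 <;> cfx
    | d i => revert i; fin2 <;> cfx <;> idR
    | z i => revert i; fin2 <;> cfx <;> idR
    | u i => revert i; fin2 <;> cfx
    | e i => revert i; fin2 <;> cfx
    | gj i => revert i; fin2 <;> cfx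
    | v i => revert i; fin2 <;> cfx
  | gc =>
    cases l'' with
    | f => cfx; idR
    | zc => cfx
    | gc => cfx
    | d i => revert i; fin2 <;> cfx <;> idR
    | z i => revert i; fin2 <;> cfx <;> idR
    | u i => revert i; fin2 <;> cfx <;> idR
    | e i => revert i; fin2 <;> cfx <;> idR
    | gj i => revert i; fin2 <;> cfx
    | v i => revert i; fin2 <;> cfx
  | v j =>
    revert j
    cases l'' with
    | f => fin2 <;> cfx
    | zc => fin2 <;> cfx
    | gc => fin2 <;> cfx
    | d i => revert i; fin2 <;> cfx <;> idR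
    | z i => revert i; fin2 <;> cfx
    | u i => revert i; fin2 <;> cfx
    | e i => revert i; fin2 <;> cfx
    | gj i => revert i; fin2 <;> cfx
    | v i => revert i; fin2 <;> cfx

/-! ### degrees -/

theorem X2_mem (a b : Gen) : X π a * X π b ∈ pc π (a.dP + b.dP) (a.dA + b.dA) (a.dC + b.dC) :=
  pc_mul π (X_mem_pc π a) (X_mem_pc π b)

theorem tR_mem : tR π ∈ pc π 0 1 0 := by
  refine Submodule.add_mem _ (X_mem_pc π .h) (Submodule.smul_mem _ _ (Submodule.add_mem _ ?_ ?_))
  · exact X2_mem π (.d 0) (.x 0)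
  · exact X2_mem π (.d 1) (.x 1)

theorem hR_mem (s : Fin 2) : hR π s ∈ pc π 0 (1 + s.val) 0 := by
  rcases f2 s with rfl | rfl
  · exact X_mem_pc π .h
  · exact X2_mem π .h .h

/-- the entries of the table are homogeneous -/
theorem cf_mem (l l' : E) : cf π l l' = 0 ∨ ∃ A C : ℕ, l.toGen.dA = A + l'.toGen.dA ∧
    l.toGen.dC = C + l'.toGen.dC + 1 ∧ cf π l l' ∈ pc π (l.toGen.dP - l'.toGen.dP) A C := by
  cases l with
  | d j => left; cases l' <;> rfl
  | f => left; cases l' <;> rfl
  | u j => left; cases l' <;> rfl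
  | z j =>
    cases l' with
    | d i =>
      right
      refine ⟨1, 0, rfl, rfl, ?_⟩
      simp only [cf]
      split_ifs
      · exact X2_mem π (.x j) (.d 1)
      · exact Submodule.smul_mem _ _ (X2_mem π (.x j) (.d 0))
    | _ => left; rfl
  | zc =>
    cases l' with
    | z i =>
      right
      refine ⟨0, 0, rfl, rfl, ?_⟩
      simp only [cf]
      split_ifs
      · exact X_mem_pc π (.x 1)
      · exact X_mem_pc π (.x 0)
    | f => right; exact ⟨1, 0, rfl, rfl, X_mem_pc π .h⟩
    | _ => left; rfl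
  | e j =>
    cases l' with
    | d i =>
      right
      refine ⟨1, 1, rfl, rfl, ?_⟩
      simp only [cf]
      split_ifs
      · exact X_mem_pc π .f
      · exact Submodule.zero_mem _
    | f => right; exact ⟨1, 0, rfl, rfl, Submodule.smul_mem _ _ (X_mem_pc π (.d j))⟩
    | _ => left; rfl
  | gj j =>
    cases l' with
    | z i =>
      right
      refine ⟨1, 1, rfl, rfl, ?_⟩
      simp only [cf]
      split_ifs
      · exact X_mem_pc π .f
      · exact Submodule.zero_mem _
    | f => right; exact ⟨2, 1, rfl, rfl, Submodule.smul_mem _ _ (X_mem_pc π (.z j))⟩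
    | d i =>
      right
      refine ⟨2, 2, rfl, rfl, ?_⟩
      simp only [cf]
      split_ifs
      · exact Submodule.smul_mem _ _ (X2_mem π (.x j) (.e 1))
      · exact Submodule.smul_mem _ _ (X2_mem π (.x j) (.e 0))
    | e i =>
      right
      refine ⟨1, 0, rfl, rfl, ?_⟩
      simp only [cf]
      split_ifs
      · exact Submodule.smul_mem _ _ (X2_mem π (.x j) (.d 1))
      · exact Submodule.smul_mem _ _ (X2_mem π (.x j) (.d 0))
    | _ => left; rfl
  | gc =>
    cases l' with
    | zc => right; exact ⟨1, 1, rfl, rfl, X_mem_pc π .f⟩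
    | f => right; exact ⟨2, 2, rfl, rfl, X_mem_pc π .zc⟩
    | gj i =>
      right
      refine ⟨0, 0, rfl, rfl, ?_⟩
      simp only [cf]
      split_ifs
      · exact Submodule.smul_mem _ _ (X_mem_pc π (.x 1))
      · exact Submodule.smul_mem _ _ (X_mem_pc π (.x 0))
    | u i =>
      right
      rcases f2 i with rfl | rfl
      · exact ⟨2, 2, rfl, rfl, X_mem_pc π (.u 1)⟩
      · exact ⟨1, 1, rfl, rfl, Submodule.smul_mem _ _ (X_mem_pc π (.u 0))⟩
    | _ => left; rfl
  | v s =>
    cases l' with
    | u i =>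
      by_cases h : i = s
      · subst h
        right
        refine ⟨1, 0, ?_, ?_, ?_⟩
        · show 2 + i.val = 1 + (1 + i.val); omega
        · show 2 + i.val = 0 + (1 + i.val) + 1; omega
        · simp only [cf, if_true]
          exact Submodule.add_mem _ (tR_mem π) (Submodule.smul_mem _ _ (X_mem_pc π .h))
      · left; simp only [cf, if_neg h]
    | d i =>
      right
      refine ⟨1 + s.val, 1 + s.val, ?_, ?_, ?_⟩
      · show 2 + s.val = 1 + s.val + 1; omega
      · show 2 + s.val = 1 + s.val + 0 + 1; omega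
      · simp only [cf]
        split_ifs
        · exact Submodule.smul_mem _ _ (X2_mem π (.u s) (.x 0))
        · exact Submodule.smul_mem _ _ (X2_mem π (.u s) (.x 1))
    | _ => left; rfl

/-- the `W`-part is homogeneous of the degree of the letter, one cohomological degree up -/
theorem yp_mem (l : E) : yp π l ∈ pcm π l.toGen.dP l.toGen.dA l.toGen.dC := by
  cases l with
  | u s =>
    rcases f2 s with rfl | rfl
    · have h := pc_mul π (hR_mem π 0) (X_mem_pc π (.y 0))
      exact h
    · have h := pc_mul π (hR_mem π 1) (X_mem_pc π (.y 1))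
      exact h
  | v s =>
    rcases f2 s with rfl | rfl
    · have h := pc_mul π (pc_mul π (hR_mem π 0) (tR_mem π)) (X_mem_pc π (.yb 0))
      exact h
    · have h := pc_mul π (pc_mul π (hR_mem π 1) (tR_mem π)) (X_mem_pc π (.yb 1))
      exact h
  | _ => simp only [yp]; exact Submodule.zero_mem _

/-! ### the action on `V_m` -/

theorem rep_tR : rep π (tR π) = TT π.g := by
  simp only [tR, map_add, map_smul, map_mul, rep_x0, rep_x1, rep_h, rep_d0, rep_d1]
  rfl

theorem rep_d (j : Fin 2) : rep π (X π (.d j)) = EE π.g j := by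
  rcases f2 j with rfl | rfl
  · exact rep_d0 π
  · exact rep_d1 π

theorem rep_x (j : Fin 2) : rep π (X π (.x j)) = XX K j := by
  rcases f2 j with rfl | rfl
  · exact rep_x0 π
  · exact rep_x1 π

/-- `D0` is the table acting on `V_m` -/
theorem D0_eq (φ : Cell → Pol K) (l : E) : D0 π φ (some l) =
    rep π (X π l.toGen) (φ none) + ∑ l', rep π (cf π l l') (φ (some l')) := by
  have z := fun (a : Gen) (h : isZ a = true) => rep_isZ π h
  rw [sumE]
  cases l with
  | d j => simp [-rep_X, cf, E.toGen, rep_d, D0, D0c, pj]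
  | f => simp [-rep_X, cf, E.toGen, z .f rfl]
  | u s => simp [-rep_X, cf, E.toGen, z (.u s) rfl]
  | z j => simp [-rep_X, cf, E.toGen, z (.z j) rfl, rep_x, rep_d0, rep_d1, D0, D0c, pj]
  | zc => simp [-rep_X, cf, E.toGen, z .zc rfl, rep_x0, rep_x1, rep_h]; abel
  | e j =>
    revert j
    fin2 <;> simp [-rep_X, cf, E.toGen, z (.e _) rfl, z .f rfl, rep_d0, rep_d1]
  | gj j =>
    revert j
    fin2 <;> simp [-rep_X, cf, E.toGen, z (.gj _) rfl, z .f rfl, z (.z _) rfl, z (.e _) rfl, rep_d0,
      rep_d1, rep_x0, rep_x1, smul_smul]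
  | gc =>
    simp [-rep_X, cf, E.toGen, z .gc rfl, z .f rfl, z .zc rfl, z (.u _) rfl, rep_x0, rep_x1]; abel
  | v s =>
    revert s
    fin2 <;> simp [-rep_X, cf, E.toGen, z (.v _) rfl, z (.u _) rfl, rep_tR, rep_h]

end Crest.Agent.R186.Cells221
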