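import Crest.Agent.R186.VOp_220
import Crest.Agent.R186.DefsQ_830

/-!
# Row 186, leaf R4 (helper220): the modules `V_n` over `R''` (model `DefsQ_830`)

`rep : R π →ₐ[K] Module.End K (Pol K)`: `x_i` multiplication, `h ↦ 1`, `d_j` the `q`-derivations in the
printed (LEFT) convention, all other letters act by `0`.  `V_n (i, b) = hom K (n + i)`.
-/

set_option autoImplicit false

namespace Crest.Agent.R186.Vmod220

open Crest.Agent.R186.VOp220 Crest.Agent.R186.DefsQ830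

variable {K : Type} [Field K] (π : Par K)

/-- the operator of `d_0`: `x^a y^b ↦ -(g⁻¹ + .. + g⁻ᵃ) x^(a-1) y^b` -/
noncomputable def E0 (g : K) : Pol K →ₗ[K] Pol K := (-g⁻¹) • D0 g⁻¹
/-- the operator of `d_1` -/
noncomputable def E1 (g : K) : Pol K →ₗ[K] Pol K := (-(g⁻¹) ^ 2) • D1 g⁻¹

section ops
variable {g : K}

lemma E0_mon (a b : ℕ) : E0 g (mon K a b) = (-(g⁻¹ * qn g⁻¹ a)) • mon K (a - 1) b := by
  simp [E0, smul_smul]

lemma E1_mon (a b : ℕ) :
    E1 g (mon K a b) = (-((g⁻¹) ^ 2 * ((g⁻¹) ^ a * qn g⁻¹ b))) • mon K a (b - 1) := by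
  simp [E1, smul_smul]

lemma r00 (hg : g ≠ 0) : (X0 : Pol K →ₗ[K] Pol K) * E0 g = 1 + g • (E0 g * X0) := by
  have := rel_d0x0 (K := K) g⁻¹
  have h : E0 g * X0 = (-g⁻¹) • (1 : Pol K →ₗ[K] Pol K) + g⁻¹ • (X0 * E0 g) := by
    rw [E0, smul_mul_assoc, this, mul_smul_comm, smul_add, smul_smul, smul_smul]
    congr 2; ring
  rw [h, smul_add, smul_smul, smul_smul, mul_inv_cancel₀ hg, one_smul,
    show g * -g⁻¹ = (-1 : K) by rw [mul_neg, mul_inv_cancel₀ hg]]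
  refine LinearMap.ext fun v => ?_
  simp only [LinearMap.add_apply, LinearMap.smul_apply, Module.End.one_apply, neg_one_smul]
  abel

lemma r01 (hg : g ≠ 0) : (X0 : Pol K →ₗ[K] Pol K) * E1 g = g • (E1 g * X0) := by
  rw [E1, smul_mul_assoc, rel_d1x0, mul_smul_comm, smul_smul, smul_smul]
  congr 1
  field_simp

lemma r10 : (X1 : Pol K →ₗ[K] Pol K) * E0 g = E0 g * X1 := by
  rw [E0, smul_mul_assoc, rel_d0x1, mul_smul_comm]

lemma r11 (hg : g ≠ 0) :
    (X1 : Pol K →ₗ[K] Pol K) * E1 g = 1 + g • (E1 g * X1) + (g - 1) • (E0 g * X0) := by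
  have h0 : E0 g * X0 = (-g⁻¹) • (1 : Pol K →ₗ[K] Pol K) + (-(g⁻¹ * g⁻¹)) • (X0 * D0 g⁻¹) := by
    rw [E0, smul_mul_assoc, rel_d0x0 (K := K) g⁻¹, smul_add, smul_smul]
    congr 2; ring
  have h1 : E1 g * X1 = (-(g⁻¹) ^ 2) • (1 : Pol K →ₗ[K] Pol K)
      + (-(g⁻¹) ^ 2 * g⁻¹) • (X1 * D1 g⁻¹) + (-(g⁻¹) ^ 2 * (g⁻¹ - 1)) • (X0 * D0 g⁻¹) := by
    rw [E1, smul_mul_assoc, rel_d1x1 (K := K) g⁻¹, smul_add, smul_add, smul_smul, smul_smul]
  rw [h0, h1, E1, mul_smul_comm]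
  simp only [smul_add, smul_smul]
  rw [show (1 : Pol K →ₗ[K] Pol K) + ((g * -g⁻¹ ^ 2) • (1 : Pol K →ₗ[K] Pol K)
      + (g * (-g⁻¹ ^ 2 * g⁻¹)) • (X1 * D1 g⁻¹) + (g * (-g⁻¹ ^ 2 * (g⁻¹ - 1))) • (X0 * D0 g⁻¹))
      + (((g - 1) * -g⁻¹) • (1 : Pol K →ₗ[K] Pol K) + ((g - 1) * -(g⁻¹ * g⁻¹)) • (X0 * D0 g⁻¹))
      = (1 + g * -g⁻¹ ^ 2 + (g - 1) * -g⁻¹) • (1 : Pol K →ₗ[K] Pol K)
      + (g * (-g⁻¹ ^ 2 * g⁻¹)) • (X1 * D1 g⁻¹)
      + (g * (-g⁻¹ ^ 2 * (g⁻¹ - 1)) + (g - 1) * -(g⁻¹ * g⁻¹)) • (X0 * D0 g⁻¹) by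
    rw [add_smul, add_smul, add_smul, one_smul]; abel]
  rw [show (1 + g * -g⁻¹ ^ 2 + (g - 1) * -g⁻¹) = (0 : K) by field_simp; ring,
    show (g * (-g⁻¹ ^ 2 * (g⁻¹ - 1)) + (g - 1) * -(g⁻¹ * g⁻¹)) = (0 : K) by field_simp; ring,
    zero_smul, zero_smul, zero_add, add_zero]
  congr 1
  field_simp

lemma rdd (hg : g ≠ 0) : E1 g * E0 g = g • (E0 g * E1 g) := by
  rw [E0, E1, smul_mul_assoc, mul_smul_comm, smul_mul_assoc, mul_smul_comm, rel_dd]
  simp only [smul_smul]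
  congr 1
  field_simp

/-- `t` acts on the degree `m` part by `g^(-(m+2))` -/
lemma t_hom (hg : g ≠ 0) {m : ℕ} {v : Pol K} (hv : v ∈ hom K (m : ℤ)) :
    v + (g - 1) • (E0 g (X0 v) + E1 g (X1 v)) = (g⁻¹) ^ (m + 2) • v := by
  refine eq_on (f := 1 + (g - 1) • (E0 g * X0 + E1 g * X1)) (h := (g⁻¹) ^ (m + 2) • LinearMap.id)
    (fun a b hab => ?_) hv
  have hab' : a + b = m := by exact_mod_cast hab
  simp only [Module.End.mul_apply, LinearMap.add_apply, LinearMap.smul_apply, X1_mon, X0_mon, E1_mon, E0_mon,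
    Module.End.one_apply, LinearMap.id_apply, Nat.add_sub_cancel]
  rw [smul_add, smul_smul, smul_smul]
  have hi : g * g⁻¹ = 1 := mul_inv_cancel₀ hg
  have k0 : (g - 1) * -(g⁻¹ * qn g⁻¹ (a + 1)) = (g⁻¹) ^ (a + 1) - 1 := by
    rw [← sub_mul_qn]; linear_combination (-qn g⁻¹ (a + 1)) * hi
  have k1 : (g - 1) * -((g⁻¹) ^ 2 * ((g⁻¹) ^ a * qn g⁻¹ (b + 1)))
      = (g⁻¹) ^ (a + 1) * ((g⁻¹) ^ (b + 1) - 1) := by
    rw [← sub_mul_qn, pow_succ]; linear_combination (-(g⁻¹ * g⁻¹ ^ a * qn g⁻¹ (b + 1))) * hi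
  rw [k0, k1, show mon K a b + (((g⁻¹) ^ (a + 1) - 1) • mon K a b
      + ((g⁻¹) ^ (a + 1) * ((g⁻¹) ^ (b + 1) - 1)) • mon K a b)
      = (1 + (((g⁻¹) ^ (a + 1) - 1) + ((g⁻¹) ^ (a + 1) * ((g⁻¹) ^ (b + 1) - 1)))) • mon K a b by
    rw [add_smul, one_smul, add_smul]]
  congr 1
  rw [← hab']; ring

lemma E0_hom {m : ℤ} {v : Pol K} (hv : v ∈ hom K m) : E0 g v ∈ hom K (m - 1) :=
  Submodule.smul_mem _ _ (D0_hom _ hv)

lemma E1_hom {m : ℤ} {v : Pol K} (hv : v ∈ hom K m) : E1 g v ∈ hom K (m - 1) :=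
  Submodule.smul_mem _ _ (D1_hom _ hv)

lemma qn_inv_ne (hg : g ≠ 0) (hgn : ∀ n : ℕ, 0 < n → g ^ n ≠ 1) (n : ℕ) (hn : 0 < n) : qn g⁻¹ n ≠ 0 := by
  apply qn_ne_zero
  intro h
  apply hgn n hn
  rw [inv_pow] at h
  exact inv_eq_one.mp h

/-- (D) gradient injective in degree `≥ 1` -/
lemma E_grad_inj (hg : g ≠ 0) (hgn : ∀ n : ℕ, 0 < n → g ^ n ≠ 1) {m : ℕ} (hm : 0 < m) {v : Pol K}
    (hv : v ∈ hom K (m : ℤ)) (h0 : E0 g v = 0) (h1 : E1 g v = 0) : v = 0 := by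
  have i0 : (-g⁻¹ : K) ≠ 0 := neg_ne_zero.mpr (inv_ne_zero hg)
  have i1 : (-(g⁻¹) ^ 2 : K) ≠ 0 := neg_ne_zero.mpr (pow_ne_zero _ (inv_ne_zero hg))
  exact grad_inj g⁻¹ (qn_inv_ne hg hgn m hm) hv
    ((smul_eq_zero.mp h0).resolve_left i0) ((smul_eq_zero.mp h1).resolve_left i1)

/-- (C D = 0) -/
lemma E_curl_grad (hg : g ≠ 0) (v : Pol K) : E1 g (E0 g v) = g • E0 g (E1 g v) := by
  simpa using congrArg (fun F : Pol K →ₗ[K] Pol K => F v) (rdd hg)

/-- kernel of curl = image of gradient -/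
lemma E_curl_exact (hg : g ≠ 0) (hgn : ∀ n : ℕ, 0 < n → g ^ n ≠ 1) {m : ℕ} {w0 w1 : Pol K}
    (h0 : w0 ∈ hom K (m : ℤ)) (h1 : w1 ∈ hom K (m : ℤ)) (h : E1 g w0 = g • E0 g w1) :
    ∃ v ∈ hom K ((m : ℤ) + 1), E0 g v = w0 ∧ E1 g v = w1 := by
  -- rescale: D0 (w1 / c1) = g⁻¹ • D1 (w0 / c0)
  have i0 : (-g⁻¹ : K) ≠ 0 := neg_ne_zero.mpr (inv_ne_zero hg)
  have i1 : (-(g⁻¹) ^ 2 : K) ≠ 0 := neg_ne_zero.mpr (pow_ne_zero _ (inv_ne_zero hg))
  have key : D0 g⁻¹ ((-(g⁻¹) ^ 2 : K)⁻¹ • w1) = g⁻¹ • D1 g⁻¹ ((-g⁻¹ : K)⁻¹ • w0) := by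
    have h' : (-(g⁻¹) ^ 2 : K) • D1 g⁻¹ w0 = g • ((-g⁻¹ : K) • D0 g⁻¹ w1) := h
    rw [map_smul, map_smul]
    have h2 : D1 g⁻¹ w0 = (-(g⁻¹) ^ 2 : K)⁻¹ • (g • ((-g⁻¹ : K) • D0 g⁻¹ w1)) := by
      rw [← h', smul_smul, inv_mul_cancel₀ i1, one_smul]
    rw [h2]
    simp only [smul_smul]
    congr 1
    field_simp
  obtain ⟨v, hv, e0, e1⟩ := curl_exact g⁻¹ (qn_inv_ne hg hgn (m + 1) (Nat.succ_pos m))
    (Submodule.smul_mem _ (-g⁻¹ : K)⁻¹ h0) (Submodule.smul_mem _ (-(g⁻¹) ^ 2 : K)⁻¹ h1) key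
  refine ⟨v, hv, ?_, ?_⟩
  · show (-g⁻¹ : K) • D0 g⁻¹ v = w0
    rw [e0, smul_smul, mul_inv_cancel₀ i0, one_smul]
  · show (-(g⁻¹) ^ 2 : K) • D1 g⁻¹ v = w1
    rw [e1, smul_smul, mul_inv_cancel₀ i1, one_smul]

/-- curl is onto: already with `w1 = 0` -/
lemma E0_surj (hg : g ≠ 0) (hgn : ∀ n : ℕ, 0 < n → g ^ n ≠ 1) {m : ℤ} {s : Pol K}
    (hs : s ∈ hom K (m - 1)) : ∃ w ∈ hom K m, E0 g w = s := by
  have i0 : (-g⁻¹ : K) ≠ 0 := neg_ne_zero.mpr (inv_ne_zero hg)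
  obtain ⟨w, hw, e⟩ := D0_surj g⁻¹ (qn_inv_ne hg hgn) (m := m) (Submodule.smul_mem _ (-g⁻¹ : K)⁻¹ hs)
  refine ⟨w, hw, ?_⟩
  show (-g⁻¹ : K) • D0 g⁻¹ w = s
  rw [e, smul_smul, mul_inv_cancel₀ i0, one_smul]

end ops

/-! ## the representation -/

/-- operators of the letters -/
noncomputable def opG (g : K) : Gen → Module.End K (Pol K)
  | .x i => if i = 0 then X0 else X1
  | .h => 1
  | .d j => if j = 0 then E0 g else E1 g
  | _ => 0

/-- lift to the free algebra -/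
noncomputable def repF (g : K) : F K →ₐ[K] Module.End K (Pol K) := FreeAlgebra.lift K (opG g)

@[simp] lemma repF_L (g : K) (a : Gen) : repF g (L K a) = opG g a := by
  simp [repF, L]

lemma repF_rel {a b : F K} (h : Rel π a b) : repF π.g a = repF π.g b := by
  induction h with
  | xx => simp only [map_mul, repF_L, opG]; exact rel_x
  | hc a => simp only [map_mul, repF_L]; simp [opG]
  | x0d0 => simp only [map_mul, map_add, map_smul, repF_L]; simpa [opG] using r00 π.g0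
  | x0d1 => simp only [map_mul, map_add, map_smul, repF_L]; simpa [opG] using r01 π.g0
  | x1d0 => simp only [map_mul, map_add, map_smul, repF_L]; simpa [opG] using r10
  | x1d1 => simp only [map_mul, map_add, map_smul, repF_L]; simpa [opG] using r11 π.g0
  | _ => simp only [map_mul, map_add, map_smul, repF_L, map_zero]; simp [opG]

/-- the representation of `R''` on `K[x, y]` (all `V_n` are this module with shifted grading) -/
noncomputable def rep : R π →ₐ[K] Module.End K (Pol K) :=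
  RingQuot.liftAlgHom K ⟨repF π.g, fun _ _ h => repF_rel π h⟩

@[simp] lemma rep_mk (a : F K) : rep π (mk π a) = repF π.g a := by
  simp [rep, mk]

@[simp] lemma rep_X (a : Gen) : rep π (X π a) = opG π.g a := by
  rw [X, rep_mk, repF_L]

lemma rep_x0 : rep π (X π (.x 0)) = X0 := by simp [opG]
lemma rep_x1 : rep π (X π (.x 1)) = X1 := by simp [opG]
lemma rep_h : rep π (X π .h) = 1 := by simp [opG]
lemma rep_d0 : rep π (X π (.d 0)) = E0 π.g := by simp [opG]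
lemma rep_d1 : rep π (X π (.d 1)) = E1 π.g := by simp [opG]

/-- the letters which act by zero -/
def isZ : Gen → Bool
  | .x _ => false
  | .h => false
  | .d _ => false
  | _ => true

lemma opG_isZ (g : K) {a : Gen} (ha : isZ a = true) : opG g a = 0 := by
  cases a <;> first | rfl | simp [isZ] at ha

lemma rep_isZ {a : Gen} (ha : isZ a = true) : rep π (X π a) = 0 := by
  rw [rep_X, opG_isZ _ ha]

lemma rep_rF : repF π.g (rF π) = 0 := by
  have h := rdd (K := K) π.g0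
  have h2 : (2 : K) = 0 := π.two
  simp only [rF, map_add, map_mul, map_smul, repF_L]
  simp only [opG, if_true, if_neg (show ¬ ((1 : Fin 2) = 0) by decide)]
  rw [h, ← two_smul K, h2, zero_smul]

/-- the differential of a letter acts by zero -/
lemma repF_dGen (a : Gen) : repF π.g (dGen π a) = 0 := by
  cases a with
  | z j => simp only [dGen, map_mul, rep_rF, mul_zero]
  | zc => simp only [dGen, map_mul, map_add, map_smul, repF_L]; simp [opG]
  | e j => simp only [dGen, map_mul, map_add, map_smul, repF_L]; simp [opG]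
  | gj j => simp only [dGen, rhoF, map_mul, map_add, map_smul, repF_L]; simp [opG]
  | gc => simp only [dGen, map_mul, map_add, map_smul, repF_L]; simp [opG]
  | u s => simp only [dGen, map_mul, repF_L]; simp [opG]
  | v s => simp only [dGen, map_mul, map_add, map_smul, repF_L]; simp [opG]
  | _ => simp [dGen]

/-- `V` is a dg module with zero differential: `D r` acts by zero for every `r` -/
lemma rep_D {D : R π →ₗ[K] R π} (hD : IsDiff π D) (r : R π) : rep π (D r) = 0 := by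
  have hone : D 1 = 0 := by
    have := hD.leib 1 1
    rw [one_mul, mul_one, one_mul] at this
    simpa using this
  obtain ⟨a, rfl⟩ := RingQuot.mkAlgHom_surjective K (Rel π) r
  induction a using FreeAlgebra.induction with
  | grade0 c =>
    rw [AlgHom.commutes, Algebra.algebraMap_eq_smul_one, map_smul, hone, smul_zero, map_zero]
  | grade1 a =>
    have := hD.gen a
    rw [X, mk, L] at this
    rw [this]
    have e := rep_mk π (dGen π a)
    rw [mk] at e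
    rw [e, repF_dGen]
  | mul a b ha hb =>
    rw [map_mul, hD.leib, map_add, map_mul, map_mul, ha, hb, zero_mul, mul_zero, add_zero]
  | add a b ha hb =>
    rw [map_add, map_add, map_add, ha, hb, add_zero]

/-! ## degrees -/

lemma opG_hom (g : K) (a : Gen) {m : ℤ} {v : Pol K} (hv : v ∈ hom K m) :
    opG g a v ∈ hom K (m + a.dP) := by
  cases a with
  | x i =>
    show (if i = 0 then X0 else X1 : Module.End K (Pol K)) v ∈ hom K (m + 1)
    split_ifs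
    · exact X0_hom hv
    · exact X1_hom hv
  | h => show v ∈ hom K (m + 0); rwa [add_zero]
  | d j =>
    show (if j = 0 then E0 g else E1 g : Module.End K (Pol K)) v ∈ hom K (m + -1)
    split_ifs
    · exact E0_hom hv
    · exact E1_hom hv
  | _ => exact Submodule.zero_mem _

lemma rep_wd (w : List Gen) {m : ℤ} {v : Pol K} (hv : v ∈ hom K m) :
    rep π (wd π w) v ∈ hom K (m + wP w) := by
  induction w with
  | nil => simpa [wd, wP] using hv
  | cons a w ih =>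
    have e1 : wd π (a :: w) = X π a * wd π w := by simp [wd]
    have e2 : wP (a :: w) = a.dP + wP w := by simp [wP]
    rw [e1, map_mul, Module.End.mul_apply, rep_X, e2, show m + (a.dP + wP w) = (m + wP w) + a.dP by ring]
    exact opG_hom _ a ih

/-- `R''_(P,A)` maps degree `m` to degree `m + P` -/
lemma rep_pcB {P : ℤ} {A : ℕ} {r : R π} (hr : r ∈ pcB π P A) {m : ℤ} {v : Pol K} (hv : v ∈ hom K m) :
    rep π r v ∈ hom K (m + P) := by
  have : pcB π P A ≤ (hom K (m + P)).comap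
      ((LinearMap.applyₗ (R := K) (M₂ := Pol K) v).comp (rep π).toLinearMap) := by
    rw [pcB, Submodule.span_le]
    rintro r ⟨w, hP, _, rfl⟩
    rw [← hP]
    exact rep_wd π w hv
  exact this hr

/-- `V_n (i, b) = K[x, y]_(n+i)` -/
abbrev VV (K : Type) [Field K] (n : ℤ) (o : Ob) : Submodule K (Pol K) := hom K (n + (o.1.val : ℤ))

lemma rep_ent {n : ℤ} {o o' : Ob} {r : R π} (hr : r ∈ ent π o' o) {v : Pol K} (hv : v ∈ VV K n o) :
    rep π r v ∈ VV K n o' := by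
  unfold ent at hr
  split_ifs at hr with h
  · have := rep_pcB π hr hv
    have e : n + (o.1.val : ℤ) + difP o o' = n + (o'.1.val : ℤ) := by unfold difP; ring
    rwa [e] at this
  · have : r = 0 := by simpa using hr
    rw [this, map_zero]
    exact Submodule.zero_mem _

/-- action of an entry as a linear map `V_n(o) → V_n(o')` -/
noncomputable def act (n : ℤ) (o' o : Ob) : ent π o' o →ₗ[K] VV K n o →ₗ[K] VV K n o' where
  toFun r := ((rep π r.1).restrict (fun v hv => rep_ent π r.2 hv))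
  map_add' r s := by ext v; simp
  map_smul' c r := by ext v; simp

@[simp] lemma act_coe (n : ℤ) (o' o : Ob) (r : ent π o' o) (v : VV K n o) :
    (act π n o' o r v : Pol K) = rep π r.1 v.1 := rfl

/-- `t` acts on `V_m(i,b)` by `g^(-(m+i+2))` -/
lemma rep_t {m : ℕ} {v : Pol K} (hv : v ∈ hom K (m : ℤ)) :
    rep π (mk π (tF π)) v = (π.g⁻¹) ^ (m + 2) • v := by
  have := t_hom π.g0 hv
  rw [rep_mk, tF]
  simp only [map_add, map_mul, map_smul, repF_L]
  simpa [opG] using this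

end Crest.Agent.R186.Vmod220
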