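import Crest.Agent.R186.WinB_810
import Crest.Agent.R186.PBWgr_128
import Crest.Agent.R186.Der_580
import Crest.Agent.R186.Vmod_220

/-!
Row 186 (helper810): the window data `WD` of `R''` itself and the window modules `V_n`.

* `pcZ π P A C` : integer-indexed pieces (`⊥` for negative `A` or `C`), with `pcZ_mul`, `pcZ_D`.
* `WR π : WD K`, `Ob = Fin 2 × Fin 4`, amplitude bound `N = 8`.
* `VR π n : WMod (WR π)` : the module `V_n` in the window.
-/

set_option autoImplicit false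
set_option linter.style.haveILetI false

namespace Crest.Agent.R186.Win810

open Crest.Agent.R186.DefsQ830 Crest.Agent.R186.PBW128 Crest.Agent.R186.Der580
open Crest.Agent.R186.VOp220 Crest.Agent.R186.Vmod220

variable {K : Type} [Field K] (π : Par K)

/-- integer-indexed pieces -/
noncomputable def pcZ (P A C : ℤ) : Submodule K (R π) :=
  if 0 ≤ A ∧ 0 ≤ C then pc π P A.toNat C.toNat else ⊥

theorem pcZ_of {P A C : ℤ} (h : 0 ≤ A ∧ 0 ≤ C) : pcZ π P A C = pc π P A.toNat C.toNat := if_pos h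

theorem pcZ_neg {P A C : ℤ} (h : A < 0 ∨ C < 0) : pcZ π P A C = ⊥ :=
  if_neg (by omega)

theorem pcZ_nat (P : ℤ) (A C : ℕ) : pcZ π P A C = pc π P A C := by
  rw [pcZ_of π ⟨by omega, by omega⟩, Int.toNat_natCast, Int.toNat_natCast]

theorem pcZ_cases {P A C : ℤ} {a : R π} (ha : a ∈ pcZ π P A C) :
    a = 0 ∨ ∃ A' C' : ℕ, A = A' ∧ C = C' ∧ a ∈ pc π P A' C' := by
  by_cases h : 0 ≤ A ∧ 0 ≤ C
  · right
    rw [pcZ_of π h] at ha
    exact ⟨A.toNat, C.toNat, by omega, by omega, ha⟩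
  · left
    rw [pcZ_neg π (by omega)] at ha
    exact (Submodule.mem_bot K).1 ha

theorem pcZ_one : (1 : R π) ∈ pcZ π 0 0 0 := by
  rw [show (0 : ℤ) = ((0 : ℕ) : ℤ) from rfl, pcZ_nat]
  exact PBW128.one_mem_pc π

theorem pcZ_mul {P A C P' A' C' : ℤ} {a b : R π} (ha : a ∈ pcZ π P A C) (hb : b ∈ pcZ π P' A' C') :
    a * b ∈ pcZ π (P + P') (A + A') (C + C') := by
  rcases pcZ_cases π ha with rfl | ⟨A1, C1, rfl, rfl, ha⟩
  · rw [zero_mul]
    exact Submodule.zero_mem _
  rcases pcZ_cases π hb with rfl | ⟨A2, C2, rfl, rfl, hb⟩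
  · rw [mul_zero]
    exact Submodule.zero_mem _
  rw [← Nat.cast_add, ← Nat.cast_add, pcZ_nat]
  exact PBW128.mul_mem_pc π ha hb

theorem pcZ_D {P A C : ℤ} {a : R π} (ha : a ∈ pcZ π P A C) :
    Der580.D π a ∈ pcZ π P A (C - 1) := by
  rcases pcZ_cases π ha with rfl | ⟨A1, C1, rfl, rfl, ha⟩
  · rw [map_zero]
    exact Submodule.zero_mem _
  cases C1 with
  | zero =>
    rw [D_pc0 π ha]
    exact Submodule.zero_mem _
  | succ n =>
    rw [show ((n + 1 : ℕ) : ℤ) - 1 = (n : ℤ) by push_cast; ring, pcZ_nat]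
    exact D_pc π ha

instance (P A C : ℤ) : Module.Finite K (pcZ π P A C) := by
  by_cases h : 0 ≤ A ∧ 0 ≤ C
  · rw [pcZ_of π h]
    infer_instance
  · rw [pcZ_neg π (by omega)]
    infer_instance

theorem dC_letters (w : List E) :
    (w.map (fun l => l.toGen.dC)).sum ≤ 2 * (w.map (fun l => l.toGen.dA)).sum := by
  induction w with
  | nil => simp
  | cons l w ih =>
    have h : l.toGen.dC ≤ 2 * l.toGen.dA := by
      cases l <;> simp only [E.toGen, Gen.dC, Gen.dA] <;> omega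
    simp only [List.map_cons, List.sum_cons]
    omega

theorem wC_word_le (q : Wb) : wC q.word ≤ 2 := by
  cases q with
  | one => simp [Wb.word, wC]
  | y s => fin_cases s <;> simp [Wb.word, wC, Gen.dC]
  | yb s => fin_cases s <;> simp [Wb.word, wC, Gen.dC]
  | pi => simp [Wb.word, wC, Gen.dC]

theorem dCx_le (ν : Ix) : dCx ν ≤ 2 * dAx ν + 2 := by
  have h1 := dC_letters ν.2.2.2.1
  have h2 := wC_word_le ν.2.2.2.2
  unfold dCx dAx
  omega

theorem pc_big (P : ℤ) {A C : ℕ} (h : 2 * A + 2 < C) : pc π P A C = ⊥ := by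
  rw [PBW128.mem_pc_span]
  have h0 : {ν : Ix | dPx ν = P ∧ dAx ν = A ∧ dCx ν = C} = ∅ := by
    ext ν
    simp only [Set.mem_setOf_eq, Set.mem_empty_iff_false, iff_false]
    rintro ⟨_, h2, h3⟩
    have := dCx_le ν
    omega
  rw [h0, Set.image_empty, Submodule.span_empty]

/-- window data of `R''` -/
noncomputable def WR : WD K where
  S := R π
  two := Der580.add_self π
  pc := pcZ π
  one_mem := pcZ_one π
  mul_mem := pcZ_mul π
  D := Der580.D π
  D_mul := Der580.D_mul π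
  D_D := Der580.D_D π
  D_mem := pcZ_D π
  Ob := DefsQ830.Ob
  P o := (o.1.val : ℤ)
  A o := (o.2.val : ℤ)
  N := 8
  neg i j C hC := pcZ_neg π (Or.inr hC)
  big i j C hC := by
    have hi := i.2.2
    have hj := j.2.2
    by_cases h : 0 ≤ (i.2.val : ℤ) - (j.2.val : ℤ)
    · rw [pcZ_of π ⟨h, by push_cast at hC; omega⟩]
      apply pc_big
      push_cast at hC
      omega
    · exact pcZ_neg π (Or.inl (by omega))
  fin i j C := inferInstance

/-! ### the modules `V_n` -/

theorem opG_pos (g : K) {a : Gen} (h : 0 < a.dC) : opG g a = 0 := by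
  cases a <;> simp_all [Gen.dC, opG]

theorem rep_wd_pos (w : List Gen) (h : 0 < wC w) : Vmod220.rep π (wd π w) = 0 := by
  induction w with
  | nil => simp [wC] at h
  | cons a w ih =>
    have e1 : wd π (a :: w) = X π a * wd π w := by simp [wd]
    rw [e1, map_mul]
    by_cases h0 : 0 < a.dC
    · rw [Vmod220.rep_X, opG_pos _ h0, zero_mul]
    · have h2 : wC (a :: w) = a.dC + wC w := by simp [wC]
      rw [ih (by omega), mul_zero]

theorem rep_pc_pos {P : ℤ} {A C : ℕ} (hC : 0 < C) {a : R π} (ha : a ∈ pc π P A C) :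
    Vmod220.rep π a = 0 := by
  have h : pc π P A C ≤ LinearMap.ker (Vmod220.rep π).toLinearMap := by
    rw [pc, Submodule.span_le]
    rintro r ⟨w, _, _, hw, rfl⟩
    exact rep_wd_pos π w (by omega)
  exact h ha

theorem rep_pcZ_mem {P A C : ℤ} {a : R π} (ha : a ∈ pcZ π P A C) {m m' : ℤ} (hm : m' = m + P)
    {v : Pol K} (hv : v ∈ hom K m) : Vmod220.rep π a v ∈ hom K m' := by
  subst hm
  rcases pcZ_cases π ha with rfl | ⟨A1, C1, _, _, ha⟩
  · rw [map_zero]
    exact Submodule.zero_mem _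
  · exact rep_pcB π (PBW128.pc_le_pcB π _ _ _ ha) hv

theorem rep_pcZ_pos {P A C : ℤ} (hC : 0 < C) {a : R π} (ha : a ∈ pcZ π P A C) (v : Pol K) :
    Vmod220.rep π a v = 0 := by
  rcases pcZ_cases π ha with rfl | ⟨A1, C1, _, hC', ha⟩
  · rw [map_zero]
    rfl
  · rw [rep_pc_pos π (by omega) ha]
    rfl

theorem rep_D_zero (a : R π) (v : Pol K) : Vmod220.rep π (Der580.D π a) v = 0 := by
  rw [rep_D π (Der580.isDiff π)]
  rfl

/-- the window module `V_n` -/
noncomputable def VR (n : ℤ) : WMod (WR π) where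
  V := Pol K
  rho := Vmod220.rep π
  W := fun o : DefsQ830.Ob => hom K (n + (o.1.val : ℤ))
  act {i j C a v} ha hv := by
    refine rep_pcZ_mem π ha ?_ hv
    change n + (((i : DefsQ830.Ob).1.val : ℕ) : ℤ) = n + (((j : DefsQ830.Ob).1.val : ℕ) : ℤ) +
      ((((i : DefsQ830.Ob).1.val : ℕ) : ℤ) - (((j : DefsQ830.Ob).1.val : ℕ) : ℤ))
    ring
  act0 {i j C a v} ha hC _ := rep_pcZ_pos π hC ha v
  actD {i j a v} _ _ := rep_D_zero π a v
  fin _ := hom_fd _

end Crest.Agent.R186.Win810
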