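import Crest.Agent.R186.Der_580
import Crest.Agent.R186.C2b_44

/-!
Row 186 (A) (helper822): the anti-isomorphism `R''(g, p, q1, q2)ᵒᵖ = R''(1/g, 1/p, 1/q1, 1/q2)`.

It is compatible with `D`, the tri-degrees and the ideal `J` of the `W`-letters.
-/

set_option autoImplicit false

noncomputable section

namespace Crest.Agent.R186.Anti822

open Crest.Agent.R186.DefsQ830 Crest.Agent.R186.DefsQ830.Gen MulOpposite
open Crest.Agent.R186.Der580 (D D_mul D_X D_D D_pc D_pc0 pc_mul R_ind add_self)

variable {K : Type} [Field K]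

/-- the inverse parameters -/
def inv (π : Par K) : Par K where
  g := π.g⁻¹
  p := π.p⁻¹
  q1 := π.q1⁻¹
  q2 := π.q2⁻¹
  g0 := inv_ne_zero π.g0
  p0 := inv_ne_zero π.p0
  q10 := inv_ne_zero π.q10
  q20 := inv_ne_zero π.q20
  two := π.two
  gn n hn h := π.gn n hn (by rw [inv_pow, inv_eq_one] at h; exact h)
  ind i j k h := π.ind i j k (by
    have h1 : (π.p ^ i * π.q1 ^ j * π.q2 ^ k)⁻¹ = 1 := by
      rw [← h, inv_zpow, inv_zpow, inv_zpow, mul_inv, mul_inv]
    exact inv_eq_one.1 h1)

/-- `π'` has the inverse parameters of `π` -/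
structure PInv (π π' : Par K) : Prop where
  g : π'.g = π.g⁻¹
  p : π'.p = π.p⁻¹
  q1 : π'.q1 = π.q1⁻¹
  q2 : π'.q2 = π.q2⁻¹

theorem pinv_inv (π : Par K) : PInv π (inv π) := ⟨rfl, rfl, rfl, rfl⟩

theorem PInv.symm {π π' : Par K} (h : PInv π π') : PInv π' π :=
  ⟨by rw [h.g, inv_inv], by rw [h.p, inv_inv], by rw [h.q1, inv_inv], by rw [h.q2, inv_inv]⟩

/-- the scalars of the anti-isomorphism -/
def s (π : Par K) : Gen → K
  | x _ => 1
  | h => π.g ^ 2
  | d j => if j = 0 then π.g else 1
  | f => π.g ^ 3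
  | z j => if j = 0 then π.g ^ 4 else π.g ^ 3
  | zc => π.g ^ 5
  | u t => if t = 0 then π.g ^ 2 else π.g ^ 6 * π.p⁻¹
  | e j => if j = 0 then π.g ^ 6 else π.g ^ 4
  | gj _ => π.g ^ 8
  | gc => π.g ^ 8
  | v t => if t = 0 then π.g ^ 2 else π.g ^ 6 * π.p⁻¹
  | y t => if t = 0 then 1 else π.g ^ 2 * π.p⁻¹
  | yb t => if t = 0 then 1 else π.g ^ 2 * π.p⁻¹

variable {π π' : Par K}

/-- the map on the free algebra -/
def aF (π π' : Par K) : F K →ₐ[K] (R π')ᵐᵒᵖ := FreeAlgebra.lift K fun a => op (s π a • X π' a)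

theorem aF_L (a : Gen) : aF π π' (L K a) = op (s π a • X π' a) := by simp [aF, L]

theorem gg (h : PInv π π') : π.g * π'.g = 1 := by rw [h.g]; exact mul_inv_cancel₀ π.g0

theorem c_ne (i : Fin 2) : π.c i ≠ 0 := by
  unfold Par.c
  split_ifs
  · exact pow_ne_zero 2 π.g0
  · exact π.g0

theorem cz_ne (i : Fin 2) : π.cz i ≠ 0 := by
  unfold Par.cz
  split_ifs
  · exact π.g0
  · exact pow_ne_zero 2 π.g0

theorem PInv.c (h : PInv π π') (i : Fin 2) : π'.c i = (π.c i)⁻¹ := by
  unfold Par.c
  split_ifs
  · rw [h.g, inv_pow]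
  · exact h.g

theorem PInv.cz (h : PInv π π') (i : Fin 2) : π'.cz i = (π.cz i)⁻¹ := by
  unfold Par.cz
  split_ifs
  · exact h.g
  · rw [h.g, inv_pow]

theorem PInv.chiy (h : PInv π π') (a t : Fin 2) :
    sg (π'.chiy a) t = (sg (π.chiy a) t)⁻¹ := by
  unfold sg Par.chiy
  split_ifs
  · exact h.p
  · rw [h.p]

theorem PInv.chiyb (h : PInv π π') (a t : Fin 2) :
    sg (π'.chiyb a) t = (sg (π.chiyb a) t)⁻¹ := by
  unfold sg Par.chiyb
  split_ifs
  · exact h.q1
  · exact h.q2
  · rw [h.q1]
  · rw [h.q2]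

theorem sgy_ne (a t : Fin 2) : sg (π.chiy a) t ≠ 0 := by
  unfold sg Par.chiy
  split_ifs
  · exact π.p0
  · exact inv_ne_zero π.p0

theorem sgyb_ne (a t : Fin 2) : sg (π.chiyb a) t ≠ 0 := by
  unfold sg Par.chiyb
  split_ifs
  · exact π.q10
  · exact π.q20
  · exact inv_ne_zero π.q10
  · exact inv_ne_zero π.q20

/-- `q`-commuting letters -/
theorem qc (a b : Gen) (r : K) (hr : r ≠ 0)
    (e : X π' a * X π' b = r⁻¹ • (X π' b * X π' a)) :
    unop (aF π π' (L K a * L K b)) = unop (aF π π' (r • (L K b * L K a))) := by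
  simp only [map_mul, map_smul, aF_L, unop_mul, unop_smul, unop_op, smul_mul_assoc,
    mul_smul_comm, smul_smul, e]
  congr 1
  field_simp

/-- commuting letters -/
theorem qc1 (a b : Gen) (e : X π' a * X π' b = X π' b * X π' a) :
    unop (aF π π' (L K a * L K b)) = unop (aF π π' (L K b * L K a)) := by
  have := qc (π := π) (π' := π') a b 1 one_ne_zero (by rw [inv_one, one_smul]; exact e)
  rwa [one_smul] at this

/-- letters with product zero -/
theorem qc0 (a b : Gen) (e : X π' b * X π' a = 0) :
    unop (aF π π' (L K a * L K b)) = unop (aF π π' 0) := by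
  simp only [map_mul, map_zero, aF_L, unop_mul, unop_op, unop_zero, smul_mul_assoc,
    mul_smul_comm, e, smul_zero]

open Der580 in
theorem aF_rel (hp : PInv π π') {a b : F K} (hr : Rel π a b) : aF π π' a = aF π π' b := by
  have g0 := π.g0
  have h2 := π.two
  apply unop_injective
  cases hr with
  | xx => exact qc1 _ _ (r_xx (π := π')).symm
  | hc a =>
    refine qc1 _ _ ?_
    have e := mk_rel π' (Rel.hc a)
    simpa only [map_mul, mk_L] using e
  | x0d0 =>
    have e := r_x0d0 (π := π')
    rw [hp.g] at e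
    simp only [map_mul, map_add, map_smul, aF_L, unop_mul, unop_add, unop_smul, unop_op, s,
      if_true, one_smul, smul_mul_assoc, mul_smul_comm, smul_smul, e, smul_add]
    match_scalars
    · field_simp
    · linear_combination -π.g ^ 2 * h2
  | x0d1 => exact qc _ _ _ g0 (by rw [← hp.g]; exact r_x0d1 (π := π'))
  | x1d0 => exact qc1 _ _ (r_x1d0 (π := π'))
  | x1d1 =>
    have e := r_x1d1 (π := π')
    have e0 := r_x0d0 (π := π')
    rw [hp.g] at e e0
    simp only [map_mul, map_add, map_smul, aF_L, unop_mul, unop_add, unop_smul, unop_op, s,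
      if_true, if_false, one_ne_zero, one_smul, smul_mul_assoc, mul_smul_comm, smul_smul, e, e0,
      smul_add]
    match_scalars
    · field_simp
    · linear_combination -π.g ^ 2 * h2
    · field_simp
      ring
  | xf i => exact qc _ _ _ (c_ne i) (by rw [← hp.c]; exact r_xf (π := π') i)
  | xz i j => exact qc _ _ _ (c_ne i) (by rw [← hp.c]; exact r_xz (π := π') i j)
  | xzc i => exact qc _ _ _ (c_ne i) (by rw [← hp.c]; exact r_xzc (π := π') i)
  | xu i t => exact qc _ _ _ (c_ne i) (by rw [← hp.c]; exact r_xu (π := π') i t)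
  | x0e j => exact qc _ _ _ (pow_ne_zero 3 g0) (by rw [← inv_pow, ← hp.g]; exact r_x0e (π := π') j)
  | x1e0 => exact qc _ _ _ g0 (by rw [← hp.g]; exact r_x1e0 (π := π'))
  | x1e1 =>
    have e := r_x1e1 (π := π')
    have e0 := r_x0e (π := π') 0
    rw [hp.g] at e e0
    simp only [map_mul, map_add, map_smul, aF_L, unop_mul, unop_add, unop_smul, unop_op, s,
      if_true, if_false, one_ne_zero, one_smul, smul_mul_assoc, mul_smul_comm, smul_smul, e, e0,
      smul_add]
    match_scalars
    · field_simp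
    · field_simp
      ring
  | xgj i j =>
    exact qc _ _ _ (pow_ne_zero 2 (c_ne i)) (by rw [← inv_pow, ← hp.c]; exact r_xgj (π := π') i j)
  | xgc i =>
    exact qc _ _ _ (pow_ne_zero 2 (c_ne i)) (by rw [← inv_pow, ← hp.c]; exact r_xgc (π := π') i)
  | xv i t =>
    exact qc _ _ _ (mul_ne_zero g0 (c_ne i)) (by
      rw [mul_inv, ← hp.g, ← hp.c]; exact r_xv (π := π') i t)
  | xy i t => exact qc _ _ _ (c_ne i) (by rw [← hp.c]; exact r_xy (π := π') i t)
  | xyb i t => exact qc _ _ _ (c_ne i) (by rw [← hp.c]; exact r_xyb (π := π') i t)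
  | yd j t => exact qc _ _ _ (c_ne j) (by rw [← hp.c]; exact r_yd (π := π') j t)
  | ybd j t => exact qc _ _ _ (c_ne j) (by rw [← hp.c]; exact r_ybd (π := π') j t)
  | ye j t => exact qc _ _ _ (c_ne j) (by rw [← hp.c]; exact r_ye (π := π') j t)
  | ybe j t => exact qc _ _ _ (c_ne j) (by rw [← hp.c]; exact r_ybe (π := π') j t)
  | yz j t => exact qc _ _ _ (cz_ne j) (by rw [← hp.cz]; exact r_yz (π := π') j t)
  | ybz j t => exact qc _ _ _ (cz_ne j) (by rw [← hp.cz]; exact r_ybz (π := π') j t)
  | ygj j t => exact qc _ _ _ (cz_ne j) (by rw [← hp.cz]; exact r_ygj (π := π') j t)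
  | ybgj j t => exact qc _ _ _ (cz_ne j) (by rw [← hp.cz]; exact r_ybgj (π := π') j t)
  | yf t => exact qc1 _ _ (r_yf (π := π') t)
  | ybf t => exact qc1 _ _ (r_ybf (π := π') t)
  | yzc t => exact qc1 _ _ (r_yzc (π := π') t)
  | ybzc t => exact qc1 _ _ (r_ybzc (π := π') t)
  | ygc t => exact qc1 _ _ (r_ygc (π := π') t)
  | ybgc t => exact qc1 _ _ (r_ybgc (π := π') t)
  | yu a t => exact qc _ _ _ (sgy_ne a t) (by rw [← hp.chiy]; exact r_yu (π := π') a t)
  | ybu a t => exact qc _ _ _ (sgyb_ne a t) (by rw [← hp.chiyb]; exact r_ybu (π := π') a t)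
  | yv a t => exact qc _ _ _ (sgy_ne a t) (by rw [← hp.chiy]; exact r_yv (π := π') a t)
  | ybv a t => exact qc _ _ _ (sgyb_ne a t) (by rw [← hp.chiyb]; exact r_ybv (π := π') a t)
  | yy t => exact qc0 _ _ (r_yy (π := π') t)
  | y10 => exact qc _ _ _ π.p0 (by rw [← hp.p]; exact r_y10 (π := π'))
  | yyb a t => exact qc0 _ _ (r_yby (π := π') t a)
  | yby a t => exact qc0 _ _ (r_yyb (π := π') t a)
  | ybyb a t => exact qc0 _ _ (r_ybyb (π := π') t a)

/-- the anti-isomorphism as a homomorphism to the opposite algebra -/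
def aH (hp : PInv π π') : R π →ₐ[K] (R π')ᵐᵒᵖ :=
  RingQuot.liftAlgHom K ⟨aF π π', fun _ _ h => aF_rel hp h⟩

theorem aH_mk (hp : PInv π π') (a : F K) : aH hp (mk π a) = aF π π' a := by
  rw [aH, mk, RingQuot.liftAlgHom_mkAlgHom_apply]

/-- the anti-isomorphism -/
def anti (hp : PInv π π') : R π →ₗ[K] R π' where
  toFun r := unop (aH hp r)
  map_add' a b := by rw [map_add, unop_add]
  map_smul' r a := by rw [map_smul, unop_smul]; rfl

theorem anti_apply (hp : PInv π π') (r : R π) : anti hp r = unop (aH hp r) := rfl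

theorem anti_mul (hp : PInv π π') (a b : R π) : anti hp (a * b) = anti hp b * anti hp a := by
  rw [anti_apply, map_mul, unop_mul]; rfl

theorem anti_one (hp : PInv π π') : anti hp 1 = 1 := by
  rw [anti_apply, map_one, unop_one]

theorem anti_mk (hp : PInv π π') (a : F K) : anti hp (mk π a) = unop (aF π π' a) := by
  rw [anti_apply, aH_mk]

theorem anti_X (hp : PInv π π') (a : Gen) : anti hp (X π a) = s π a • X π' a := by
  rw [X, anti_mk, aF_L, unop_op]

/-- `t` goes to `t` -/
theorem anti_t (hp : PInv π π') : anti hp (mk π (tF π)) = mk π' (tF π') := by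
  have g0 := π.g0
  have h2 := π.two
  have e := Der580.r_x1d1 (π := π')
  have e0 := Der580.r_x0d0 (π := π')
  rw [hp.g] at e e0
  simp only [tF, map_add, map_smul, map_mul, mk_L, anti_mul, anti_X, s, if_true, if_false,
    one_ne_zero, one_smul, smul_mul_assoc, mul_smul_comm, smul_smul, e, e0, smul_add, hp.g]
  match_scalars
  · field_simp
    linear_combination (π.g ^ 2 - 1) * h2
  · field_simp
    linear_combination (π.g - 1) * h2
  · field_simp
    linear_combination (π.g - 1) * h2

/-- the differential on letters -/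
theorem anti_dGen (hp : PInv π π') (a : Gen) :
    anti hp (mk π (dGen π a)) = s π a • mk π' (dGen π' a) := by
  have : CharP K 2 := CharTwo.of_one_ne_zero_of_two_eq_zero one_ne_zero π.two
  have g0 := π.g0
  have p0 := π.p0
  have h2 := π.two
  have ht := anti_t hp
  cases a with
  | x i => simp [dGen]
  | h => simp [dGen]
  | d j => simp [dGen]
  | f => simp [dGen]
  | y t => simp [dGen]
  | yb t => simp [dGen]
  | z j =>
    revert j
    open Der580 in
    fin2 <;> (simp only [dGen, rF, map_add, map_mul, map_smul, mk_L, anti_mul, anti_X, s, if_true,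
      if_false, one_ne_zero, one_smul, mul_add, add_mul, smul_mul_assoc, mul_smul_comm, smul_smul,
      smul_add]; nfR; simp only [hp.g]; match_scalars <;> c2)
  | zc =>
    have e0 := Der580.r_xz (π := π') 0 1
    have e1 := Der580.r_xz (π := π') 1 0
    have e2 := Der580.r_h_f (π := π')
    rw [hp.c] at e0 e1
    simp only [dGen, map_add, map_mul, mk_L, anti_mul, anti_X, s, if_true, if_false,
      one_ne_zero, one_smul, smul_mul_assoc, mul_smul_comm, smul_smul, e0, e1, e2, smul_add,
      Der580.c_zero, Der580.c_one]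
    match_scalars <;> field_simp
  | u t =>
    revert t
    open Der580 in
    fin2 <;> (simp only [dGen, hs_zero, hs_one, map_mul, mk_L, anti_mul, anti_X, s, if_true,
      if_false, one_ne_zero, one_smul, smul_mul_assoc, mul_smul_comm, smul_smul,
      smul_add]; nfR; try (match_scalars <;> c2))
  | e j =>
    fin_cases j
    · simp only [dGen, map_add, map_mul, map_smul, mk_L, anti_mul, anti_X, s, if_true, if_false,
        one_ne_zero, one_smul, smul_mul_assoc, mul_smul_comm, smul_smul, smul_add,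
        Der580.c_zero, Der580.c_one, Fin.zero_eta, hp.g]
      match_scalars <;> field_simp
    · simp only [dGen, map_add, map_mul, map_smul, mk_L, anti_mul, anti_X, s, if_true, if_false,
        one_ne_zero, one_smul, smul_mul_assoc, mul_smul_comm, smul_smul, smul_add,
        Der580.c_zero, Der580.c_one, Fin.mk_one, hp.g]
      match_scalars <;> field_simp
  | gj j =>
    revert j
    open Der580 in
    fin2 <;> (simp only [dGen, rhoF, map_add, map_mul, map_smul, mk_L, anti_mul, anti_X, s, if_true,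
      if_false, one_ne_zero, one_smul, mul_add, add_mul, smul_mul_assoc, mul_smul_comm, smul_smul,
      smul_add]; nfR; simp only [hp.g]; match_scalars <;> c2)
  | gc =>
    have e0 := Der580.r_xgj (π := π') 0 1
    have e1 := Der580.r_xgj (π := π') 1 0
    rw [hp.c] at e0 e1
    simp only [dGen, map_add, map_mul, map_smul, mk_L, anti_mul, anti_X, s, if_true, if_false,
      one_ne_zero, one_smul, smul_mul_assoc, mul_smul_comm, smul_smul, e0, e1, smul_add,
      Der580.c_zero, Der580.c_one, hp.g, hp.p]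
    match_scalars <;> field_simp
  | v t =>
    have e1 : X π' (yb t) * mk π' (tF π') = mk π' (tF π') * X π' (yb t) := by
      revert t
      open Der580 in
      fin2 <;> (simp only [tF, map_add, map_mul, map_smul, mk_L, mul_add, add_mul, smul_mul_assoc,
        mul_smul_comm, smul_add]; nfR; try (simp only [hp.g]; match_scalars <;> c2))
    have e2 := Der580.h_comm π'
    have e3 : X π' (yb t) * (mk π' (tF π') * X π' h) = X π' h * (mk π' (tF π') * X π' (yb t)) := by
      rw [← mul_assoc, e1, e2]
    have e4 : X π' (yb t) * (mk π' (tF π') * (X π' h * X π' h)) =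
        X π' h * (X π' h * (mk π' (tF π') * X π' (yb t))) := by
      rw [e2 (mk π' (tF π') * X π' (yb t)), e2 (mk π' (tF π') * X π' (yb t) * X π' h),
        ← mul_assoc, ← mul_assoc, e1]
    fin_cases t
    · simp only [Fin.zero_eta] at e3 e4 ⊢
      simp only [dGen, Der580.hs_zero, map_add, map_mul, mk_L, anti_mul, anti_X, ht, s, if_true,
        one_smul, smul_mul_assoc, mul_smul_comm, smul_add, mul_assoc, e3]
      abel
    · simp only [Fin.mk_one] at e3 e4 ⊢
      simp only [dGen, Der580.hs_one, map_add, map_mul, mk_L, anti_mul, anti_X, ht, s, if_false,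
        one_ne_zero, smul_smul, smul_mul_assoc, mul_smul_comm, smul_add, mul_assoc, e4]
      rw [show π.g ^ 2 * (π.g ^ 2 * (π.g ^ 2 * π.p⁻¹)) = π.g ^ 6 * π.p⁻¹ by ring]
      abel

/-- **compatibility with the differential** -/
theorem anti_D (hp : PInv π π') (r : R π) : anti hp (D π r) = D π' (anti hp r) := by
  refine R_ind π (P := fun r => anti hp (D π r) = D π' (anti hp r)) (fun c => ?_) (fun a => ?_)
    (fun a b h1 h2 => ?_) (fun a b h1 h2 => ?_) r
  · show anti hp (D π (algebraMap K _ c)) = D π' (anti hp (algebraMap K _ c))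
    have e : ∀ (ρ : Par K), D ρ (algebraMap K (R ρ) c) = 0 := fun ρ => by
      rw [Algebra.algebraMap_eq_smul_one, map_smul]
      have h := D_mul ρ 1 1
      rw [mul_one, one_mul, mul_one] at h
      rw [h, add_self, smul_zero]
    rw [e, map_zero]
    rw [show anti hp (algebraMap K (R π) c) = algebraMap K (R π') c by
      rw [Algebra.algebraMap_eq_smul_one, Algebra.algebraMap_eq_smul_one, map_smul, anti_one], e]
  · show anti hp (D π (X π a)) = D π' (anti hp (X π a))
    rw [D_X, anti_dGen, anti_X, map_smul, D_X]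
  · show anti hp (D π (a * b)) = D π' (anti hp (a * b))
    rw [D_mul, map_add, anti_mul, anti_mul, anti_mul, D_mul, h1, h2, add_comm]
  · show anti hp (D π (a + b)) = D π' (anti hp (a + b))
    rw [map_add, map_add, map_add, map_add, h1, h2]

theorem s_ne (a : Gen) : s π a ≠ 0 := by
  have g0 := π.g0
  have p0 := π.p0
  cases a <;> simp only [s] <;> (try split_ifs) <;>
    simp [g0, p0]

theorem s_mul (hp : PInv π π') (a : Gen) : s π a * s π' a = 1 := by
  have g0 := π.g0
  have p0 := π.p0
  cases a <;> simp only [s] <;> (try split_ifs) <;>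
    simp only [hp.g, hp.p, mul_one] <;> field_simp

/-- the two anti-isomorphisms are inverse to each other -/
theorem anti_anti (hp : PInv π π') (r : R π) : anti hp.symm (anti hp r) = r := by
  refine R_ind π (P := fun r => anti hp.symm (anti hp r) = r) (fun c => ?_) (fun a => ?_)
    (fun a b h1 h2 => ?_) (fun a b h1 h2 => ?_) r
  · show anti hp.symm (anti hp (algebraMap K _ c)) = algebraMap K _ c
    rw [Algebra.algebraMap_eq_smul_one, map_smul, map_smul, anti_one, anti_one]
  · show anti hp.symm (anti hp (X π a)) = X π a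
    rw [anti_X, map_smul, anti_X, smul_smul, s_mul hp, one_smul]
  · show anti hp.symm (anti hp (a * b)) = a * b
    rw [anti_mul, anti_mul, h1, h2]
  · show anti hp.symm (anti hp (a + b)) = a + b
    rw [map_add, map_add, h1, h2]

theorem anti_inj (hp : PInv π π') {r : R π} (h : anti hp r = 0) : r = 0 := by
  rw [← anti_anti hp r, h, map_zero]

/-- words go to scalar multiples of reversed words -/
theorem anti_wd (hp : PInv π π') (w : List Gen) :
    ∃ c : K, anti hp (wd π w) = c • wd π' w.reverse := by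
  induction w with
  | nil => exact ⟨1, by simp [wd, anti_one]⟩
  | cons a w ih =>
    obtain ⟨c, hc⟩ := ih
    refine ⟨c * s π a, ?_⟩
    have e1 : wd π (a :: w) = X π a * wd π w := by simp [wd]
    have e2 : wd π' (a :: w).reverse = wd π' w.reverse * X π' a := by
      simp [wd, List.reverse_cons, List.map_append]
    rw [e1, e2, anti_mul, hc, anti_X, smul_mul_smul_comm]

/-- the tri-degrees are kept -/
theorem anti_pc (hp : PInv π π') {P : ℤ} {A C : ℕ} {r : R π} (hr : r ∈ pc π P A C) :
    anti hp r ∈ pc π' P A C := by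
  have h : pc π P A C ≤ (pc π' P A C).comap (anti hp) := by
    rw [pc, Submodule.span_le]
    rintro _ ⟨w, hP, hA, hC, rfl⟩
    obtain ⟨c, hc⟩ := anti_wd hp w
    show anti hp (wd π w) ∈ pc π' P A C
    rw [hc]
    refine Submodule.smul_mem _ _ (Submodule.subset_span ⟨w.reverse, ?_, ?_, ?_, rfl⟩)
    · rw [← hP, wP, wP, List.map_reverse, List.sum_reverse]
    · rw [← hA, wA, wA, List.map_reverse, List.sum_reverse]
    · rw [← hC, wC, wC, List.map_reverse, List.sum_reverse]
  exact h hr

theorem anti_pcZ (hp : PInv π π') {P A C : ℤ} {r : R π} (hr : r ∈ Win810.pcZ π P A C) :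
    anti hp r ∈ Win810.pcZ π' P A C := by
  rcases Win810.pcZ_cases π hr with rfl | ⟨A1, C1, rfl, rfl, ha⟩
  · rw [map_zero]; exact Submodule.zero_mem _
  · rw [Win810.pcZ_nat]
    exact anti_pc hp ha

open C2b44 in
/-- compatibility with killing the `W`-letters -/
theorem anti_kill (hp : PInv π π') (r : R π) : anti hp (kill π r) = kill π' (anti hp r) := by
  refine R_ind π (P := fun r => anti hp (kill π r) = kill π' (anti hp r)) (fun c => ?_)
    (fun a => ?_) (fun a b h1 h2 => ?_) (fun a b h1 h2 => ?_) r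
  · show anti hp (kill π (algebraMap K _ c)) = kill π' (anti hp (algebraMap K _ c))
    rw [AlgHom.commutes]
    rw [show anti hp (algebraMap K (R π) c) = algebraMap K (R π') c by
      rw [Algebra.algebraMap_eq_smul_one, Algebra.algebraMap_eq_smul_one, map_smul, anti_one],
      AlgHom.commutes]
  · show anti hp (kill π (X π a)) = kill π' (anti hp (X π a))
    rw [anti_X, map_smul, kill_X, kill_X]
    by_cases h : a.isW = true
    · rw [kg_W π h, kg_W π' h, map_zero, smul_zero]
    · have h' : a.isW = false := by simpa using h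
      rw [kg_of π h', kg_of π' h', anti_X]
  · show anti hp (kill π (a * b)) = kill π' (anti hp (a * b))
    rw [map_mul, anti_mul, anti_mul, map_mul, h1, h2]
  · show anti hp (kill π (a + b)) = kill π' (anti hp (a + b))
    rw [map_add, map_add, map_add, map_add, h1, h2]

end Crest.Agent.R186.Anti822
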