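import Crest.Agent.R186.Der_580

/-!
Row 186, half (A) (helper860): the anti-isomorphism `R π' → R π`, `π' = (g⁻¹, p⁻¹, q1⁻¹, q2⁻¹)`,
compatible with the differential and all degrees.
-/

set_option autoImplicit false

open MulOpposite

namespace Crest.Agent.R186.Anti860

open DefsQ830 Der580 Gen

variable {K : Type} [Field K]

/-- `π'` has the inverse parameters of `π` -/
structure Inv (π π' : Par K) : Prop where
  g : π'.g = π.g⁻¹
  p : π'.p = π.p⁻¹
  q1 : π'.q1 = π.q1⁻¹
  q2 : π'.q2 = π.q2⁻¹

theorem Inv.symm {π π' : Par K} (h : Inv π π') : Inv π' π where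
  g := by rw [h.g, inv_inv]
  p := by rw [h.p, inv_inv]
  q1 := by rw [h.q1, inv_inv]
  q2 := by rw [h.q2, inv_inv]

/-- the inverse parameters -/
def inv (π : Par K) : Par K where
  g := π.g⁻¹
  p := π.p⁻¹
  q1 := π.q1⁻¹
  q2 := π.q2⁻¹
  g0 := inv_ne_zero π.g0
  p0 := inv_ne_zero π.p0
  q10 := inv_ne_zero π.q10
  q20 := inv_ne_zero π.q20
  two := π.two
  gn n hn h := π.gn n hn (by rwa [inv_pow, inv_eq_one] at h)
  ind i j k h := π.ind i j k (by
    rw [inv_zpow, inv_zpow, inv_zpow, ← mul_inv, ← mul_inv, inv_eq_one] at h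
    exact h)

theorem inv_Inv (π : Par K) : Inv π (inv π) := ⟨rfl, rfl, rfl, rfl⟩

/-- the scalar of `u s`, `y s`, `yb s` -/
def lu (π : Par K) (s : Fin 2) : K := if s = 0 then 1 else π.p * (π.g ^ 2)⁻¹

/-- scalars of the letters -/
def lam (π : Par K) : Gen → K
  | x _ => 1
  | h => 1
  | d j => if j = 0 then π.g else π.g ^ 2
  | f => π.g⁻¹
  | z j => if j = 0 then 1 else π.g
  | zc => π.g⁻¹
  | u s => lu π s
  | e j => if j = 0 then (π.g ^ 2)⁻¹ else 1
  | gj _ => (π.g ^ 2)⁻¹
  | gc => (π.g ^ 2)⁻¹
  | v s => π.g ^ 2 * lu π s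
  | y s => lu π s
  | yb s => lu π s

theorem lu0 (π : Par K) : lu π 0 = 1 := by simp [lu]
theorem lu1 (π : Par K) : lu π 1 = π.p * (π.g ^ 2)⁻¹ := by simp [lu]

theorem lu_ne (π : Par K) (s : Fin 2) : lu π s ≠ 0 := by
  have := π.g0
  have := π.p0
  unfold lu
  split <;> simp_all

theorem lam_ne (π : Par K) (a : Gen) : lam π a ≠ 0 := by
  have := π.g0
  cases a <;> simp only [lam] <;> (try split) <;> simp_all [lu_ne]

theorem lu_mul {π π' : Par K} (H : Inv π π') (s : Fin 2) : lu π s * lu π' s = 1 := by
  have := π.g0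
  have := π.p0
  unfold lu
  split
  · simp
  · rw [H.g, H.p]
    field_simp

theorem lam_mul {π π' : Par K} (H : Inv π π') (a : Gen) : lam π a * lam π' a = 1 := by
  have h0 := π.g0
  have h1 := π.p0
  have h2 := lu_mul H
  cases a with
  | x i => simp [lam]
  | h => simp [lam]
  | d j => simp only [lam, H.g]; split <;> field_simp
  | f => simp only [lam, H.g]; field_simp
  | z j => simp only [lam, H.g]; split <;> field_simp
  | zc => simp only [lam, H.g]; field_simp
  | u s => simp only [lam, h2]
  | e j => simp only [lam, H.g]; split <;> field_simp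
  | gj j => simp only [lam, H.g]; field_simp
  | gc => simp only [lam, H.g]; field_simp
  | v s =>
    simp only [lam, H.g]
    rw [mul_mul_mul_comm, h2 s]
    field_simp
  | y s => simp only [lam, h2]
  | yb s => simp only [lam, h2]

section
variable (π : Par K)

/-- letters `a ↦ op (lam a • a)` -/
def θ : F K →ₐ[K] (R π)ᵐᵒᵖ := FreeAlgebra.lift K fun a => op (lam π a • X π a)

theorem θ_L (a : Gen) : θ π (L K a) = op (lam π a • X π a) := by
  rw [L, θ, FreeAlgebra.lift_ι_apply]

/-- the linear version -/
def ϑ : F K →ₗ[K] R π where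
  toFun a := unop (θ π a)
  map_add' a b := by rw [map_add, unop_add]
  map_smul' c a := by rw [map_smul, unop_smul, RingHom.id_apply]

theorem ϑ_mul (a b : F K) : ϑ π (a * b) = ϑ π b * ϑ π a := by
  show unop (θ π (a * b)) = unop (θ π b) * unop (θ π a)
  rw [map_mul, unop_mul]

theorem ϑ_L (a : Gen) : ϑ π (L K a) = lam π a • X π a := by
  show unop (θ π (L K a)) = _
  rw [θ_L, unop_op]

theorem ϑ_one : ϑ π 1 = 1 := by
  show unop (θ π 1) = 1
  rw [map_one, unop_one]

end

variable {π π' : Par K}

macro "unT" H:term:max : tactic => `(tactic| simp only [ϑ_mul, ϑ_L, map_add, map_smul, map_zero, lam, Par.c, Par.cz,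
  Par.chiy, Par.chiyb, ($H).g, ($H).p, ($H).q1, ($H).q2, lu0, lu1, sg_zero, sg_one, if_true, if_false, one_smul,
  Fin.isValue, one_ne_zero, ↓reduceIte])

set_option maxHeartbeats 4000000 in
theorem ϑ_rel (H : Inv π π') {a b : F K} (hab : Rel π' a b) : ϑ π a = ϑ π b := by
  have : CharP K 2 := CharTwo.of_one_ne_zero_of_two_eq_zero one_ne_zero π.two
  have g0 := π.g0
  have p0 := π.p0
  have q10 := π.q10
  have q20 := π.q20
  cases hab with
  | xx => unT H; nfR
  | hc a =>
    simp only [ϑ_mul, ϑ_L, lam, one_smul]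
    rw [mul_smul_comm, smul_mul_assoc, h_comm]
  | x0d0 => unT H; all_goals (try idR)
  | x0d1 => unT H; all_goals (try idR)
  | x1d0 => unT H; all_goals (try idR)
  | x1d1 => unT H; all_goals (try idR)
  | xf i =>
    revert i
    fin2 <;> (unT H; all_goals (try idR))
  | xz i j =>
    revert i j
    fin2 <;> (unT H; all_goals (try idR))
  | xzc i =>
    revert i
    fin2 <;> (unT H; all_goals (try idR))
  | xu i s =>
    revert i s
    fin2 <;> (unT H; all_goals (try idR))
  | x0e j =>
    revert j
    fin2 <;> (unT H; all_goals (try idR))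
  | x1e0 => unT H; all_goals (try idR)
  | x1e1 => unT H; all_goals (try idR)
  | xgj i j =>
    revert i j
    fin2 <;> (unT H; all_goals (try idR))
  | xgc i =>
    revert i
    fin2 <;> (unT H; all_goals (try idR))
  | xv i s =>
    revert i s
    fin2 <;> (unT H; all_goals (try idR))
  | xy i s =>
    revert i s
    fin2 <;> (unT H; all_goals (try idR))
  | xyb i s =>
    revert i s
    fin2 <;> (unT H; all_goals (try idR))
  | yd j s =>
    revert j s
    fin2 <;> (unT H; all_goals (try idR))
  | ybd j s =>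
    revert j s
    fin2 <;> (unT H; all_goals (try idR))
  | ye j s =>
    revert j s
    fin2 <;> (unT H; all_goals (try idR))
  | ybe j s =>
    revert j s
    fin2 <;> (unT H; all_goals (try idR))
  | yz j s =>
    revert j s
    fin2 <;> (unT H; all_goals (try idR))
  | ybz j s =>
    revert j s
    fin2 <;> (unT H; all_goals (try idR))
  | ygj j s =>
    revert j s
    fin2 <;> (unT H; all_goals (try idR))
  | ybgj j s =>
    revert j s
    fin2 <;> (unT H; all_goals (try idR))
  | yf s =>
    revert s
    fin2 <;> (unT H; all_goals (try idR))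
  | ybf s =>
    revert s
    fin2 <;> (unT H; all_goals (try idR))
  | yzc s =>
    revert s
    fin2 <;> (unT H; all_goals (try idR))
  | ybzc s =>
    revert s
    fin2 <;> (unT H; all_goals (try idR))
  | ygc s =>
    revert s
    fin2 <;> (unT H; all_goals (try idR))
  | ybgc s =>
    revert s
    fin2 <;> (unT H; all_goals (try idR))
  | yu s t =>
    revert s t
    fin2 <;> (unT H; all_goals (try idR))
  | ybu s t =>
    revert s t
    fin2 <;> (unT H; all_goals (try idR))
  | yv s t =>
    revert s t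
    fin2 <;> (unT H; all_goals (try idR))
  | ybv s t =>
    revert s t
    fin2 <;> (unT H; all_goals (try idR))
  | yy s =>
    revert s
    fin2 <;> (unT H; all_goals (try idR))
  | y10 => unT H; all_goals (try idR)
  | yyb s t =>
    revert s t
    fin2 <;> (unT H; all_goals (try idR))
  | yby s t =>
    revert s t
    fin2 <;> (unT H; all_goals (try idR))
  | ybyb s t =>
    revert s t
    fin2 <;> (unT H; all_goals (try idR))

end Crest.Agent.R186.Anti860
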