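import Crest.Agent.R186.Defs281_128
import Crest.Agent.R186.W281_870
import Crest.Agent.R186.Adj_870

/-!
Row 186, S0281 base (helper870): the anti-isomorphism `A g s ≃ (A g⁻¹ (1 - s))ᵐᵒᵖ` by residue
transposition, part 1: operators.
-/

set_option autoImplicit false

open Matrix

namespace Crest.Agent.R186.B281.Anti870

open Adj870

variable {K : Type} [Field K]

/-! ### normal ordering and products -/

theorem D_mul_X {g : K} (hg : Gen g) (i : Fin 2) :
    (D g i : Op K) * X i = g⁻¹ • (X i * D g i) + (-g⁻¹) • (1 : Op K) := by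
  rw [X_D_self hg, smul_add, smul_smul, inv_mul_cancel₀ hg.ne, one_smul, add_comm (g⁻¹ • 1),
    add_assoc, ← add_smul, add_neg_cancel, zero_smul, add_zero]

theorem D_mul_X_pow {g : K} (hg : Gen g) (i : Fin 2) (n : ℕ) : ∃ α β : K,
    (D g i : Op K) * X i ^ (n + 1) = α • (X i ^ (n + 1) * D g i) + β • X i ^ n := by
  induction n with
  | zero =>
    refine ⟨g⁻¹, -g⁻¹, ?_⟩
    rw [zero_add, pow_one, D_mul_X hg, pow_zero]
  | succ n ih =>
    obtain ⟨α, β, h⟩ := ih
    refine ⟨α * g⁻¹, α * (-g⁻¹) + β, ?_⟩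
    rw [pow_succ _ (n + 1), ← mul_assoc, h, add_mul, smul_mul_assoc, smul_mul_assoc, mul_assoc,
      D_mul_X hg, mul_add, mul_smul_comm, mul_smul_comm, mul_one, ← pow_succ, smul_add, smul_smul,
      smul_smul, add_smul, ← mul_assoc, add_assoc]

theorem X_mul_mon (g : K) (i : Fin 2) (a b : ℕ × ℕ) :
    (X i : Op K) * mon g a b = mon g (if i = 0 then (a.1 + 1, a.2) else (a.1, a.2 + 1)) b := by
  fin_cases i
  · simp only [mon, Fin.zero_eta, if_true, pow_succ']
    simp only [mul_assoc]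
  · have h : (X 1 : Op K) * X 0 ^ a.1 = X 0 ^ a.1 * X 1 :=
      (Commute.pow_right (show Commute (X 1 : Op K) (X 0) from X_comm 1 0) a.1).eq
    show (X 1 : Op K) * mon g a b = mon g (a.1, a.2 + 1) b
    simp only [mon]
    rw [pow_succ' (X 1)]
    simp only [← mul_assoc]
    rw [h]

theorem X_mul_mem {g : K} (i : Fin 2) {k P : ℤ} {T : Op K} (hT : T ∈ Fil g k P) :
    X i * T ∈ Fil g k (P + 1) := by
  induction hT using Submodule.span_induction with
  | mem x hx =>
    obtain ⟨a, b, h1, h2, rfl⟩ := hx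
    rw [X_mul_mon]
    refine mon_mem g _ _ h1 ?_
    fin_cases i <;> simp <;> omega
  | zero => rw [mul_zero]; exact zero_mem _
  | add x y _ _ hx hy => rw [mul_add]; exact add_mem hx hy
  | smul a x _ hx => rw [mul_smul_comm]; exact Submodule.smul_mem _ a hx

theorem D_mul_mon {g : K} (hg : Gen g) (i : Fin 2) (a b : ℕ × ℕ) {k P : ℤ}
    (h1 : (b.1 : ℤ) + b.2 ≤ k) (h2 : (a.1 : ℤ) + a.2 - (b.1 + b.2) = P) :
    D g i * mon g a b ∈ Fil g (k + 1) (P - 1) := by
  fin_cases i
  · show D g 0 * mon g a b ∈ Fil g (k + 1) (P - 1)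
    have hc : (D g 0 : Op K) * X 1 ^ a.2 = X 1 ^ a.2 * D g 0 :=
      (Commute.pow_right (show Commute (D g 0 : Op K) (X 1) from
        (X_D g (i := 1) (j := 0) (by decide)).symm) a.2).eq
    have key : ∀ Q : Op K, X 0 ^ a.1 * X 1 ^ a.2 * D g 0 ^ b.1 * D g 1 ^ b.2 = Q → True :=
      fun _ _ => trivial
    rcases a with ⟨a1, a2⟩
    rcases a1 with _ | a1
    · have : D g 0 * mon g (0, a2) b = mon g (0, a2) (b.1 + 1, b.2) := by
        simp only [mon, pow_zero, one_mul, pow_succ']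
        simp only [← mul_assoc]
        rw [hc]
      rw [this]
      exact mon_mem g _ _ (by push_cast; omega) (by push_cast at h2 ⊢; omega)
    · obtain ⟨α, β, h⟩ := D_mul_X_pow hg 0 a1
      have : D g 0 * mon g (a1 + 1, a2) b =
          α • mon g (a1 + 1, a2) (b.1 + 1, b.2) + β • mon g (a1, a2) b := by
        simp only [mon]
        rw [← mul_assoc, ← mul_assoc, ← mul_assoc, h, add_mul, add_mul, add_mul]
        simp only [smul_mul_assoc]
        congr 2
        rw [pow_succ' (D g 0) b.1]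
        simp only [mul_assoc]
        rw [← mul_assoc (D g 0) (X 1 ^ a2), hc]
        simp only [mul_assoc]
      rw [this]
      refine add_mem (Submodule.smul_mem _ _ ?_) (Submodule.smul_mem _ _ ?_)
      · exact mon_mem g _ _ (by push_cast; omega) (by push_cast at h2 ⊢; omega)
      · exact mon_mem g _ _ (by push_cast; omega) (by push_cast at h2 ⊢; omega)
  · show D g 1 * mon g a b ∈ Fil g (k + 1) (P - 1)
    have hc : (D g 1 : Op K) * X 0 ^ a.1 = X 0 ^ a.1 * D g 1 :=
      (Commute.pow_right (show Commute (D g 1 : Op K) (X 0) from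
        (X_D g (i := 0) (j := 1) (by decide)).symm) a.1).eq
    have hd : (D g 1 : Op K) * D g 0 ^ b.1 = D g 0 ^ b.1 * D g 1 :=
      (Commute.pow_right (show Commute (D g 1 : Op K) (D g 0) from D_comm g 1 0) b.1).eq
    rcases a with ⟨a1, a2⟩
    rcases a2 with _ | a2
    · have : D g 1 * mon g (a1, 0) b = mon g (a1, 0) (b.1, b.2 + 1) := by
        simp only [mon, pow_zero, mul_one, pow_succ']
        rw [← mul_assoc, ← mul_assoc, hc]
        simp only [mul_assoc]
        rw [← mul_assoc (D g 1), hd]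
        simp only [mul_assoc]
      rw [this]
      exact mon_mem g _ _ (by push_cast; omega) (by push_cast at h2 ⊢; omega)
    · obtain ⟨α, β, h⟩ := D_mul_X_pow hg 1 a2
      have : D g 1 * mon g (a1, a2 + 1) b =
          α • mon g (a1, a2 + 1) (b.1, b.2 + 1) + β • mon g (a1, a2) b := by
        simp only [mon]
        rw [← mul_assoc, ← mul_assoc, ← mul_assoc, hc, mul_assoc (X 0 ^ a1), h, mul_add, add_mul,
          add_mul]
        simp only [smul_mul_assoc, mul_smul_comm]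
        congr 2
        rw [pow_succ' (D g 1) b.2]
        simp only [mul_assoc]
        rw [← mul_assoc (D g 1) (D g 0 ^ b.1), hd]
        simp only [mul_assoc]
      rw [this]
      refine add_mem (Submodule.smul_mem _ _ ?_) (Submodule.smul_mem _ _ ?_)
      · exact mon_mem g _ _ (by push_cast; omega) (by push_cast at h2 ⊢; omega)
      · exact mon_mem g _ _ (by push_cast; omega) (by push_cast at h2 ⊢; omega)

theorem D_mul_mem {g : K} (hg : Gen g) (i : Fin 2) {k P : ℤ} {T : Op K} (hT : T ∈ Fil g k P) :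
    D g i * T ∈ Fil g (k + 1) (P - 1) := by
  induction hT using Submodule.span_induction with
  | mem x hx =>
    obtain ⟨a, b, h1, h2, rfl⟩ := hx
    exact D_mul_mon hg i a b h1 h2
  | zero => rw [mul_zero]; exact zero_mem _
  | add x y _ _ hx hy => rw [mul_add]; exact add_mem hx hy
  | smul a x _ hx => rw [mul_smul_comm]; exact Submodule.smul_mem _ a hx

theorem X_pow_mul_mem {g : K} (i : Fin 2) (n : ℕ) {k P : ℤ} {T : Op K} (hT : T ∈ Fil g k P) :
    X i ^ n * T ∈ Fil g k (P + n) := by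
  induction n with
  | zero => simpa using hT
  | succ n ih =>
    rw [pow_succ', mul_assoc]
    have := X_mul_mem i ih
    rwa [show P + (n : ℤ) + 1 = P + ((n + 1 : ℕ) : ℤ) by push_cast; ring] at this

theorem D_pow_mul_mem {g : K} (hg : Gen g) (i : Fin 2) (n : ℕ) {k P : ℤ} {T : Op K}
    (hT : T ∈ Fil g k P) : D g i ^ n * T ∈ Fil g (k + n) (P - n) := by
  induction n with
  | zero => simpa using hT
  | succ n ih =>
    rw [pow_succ', mul_assoc]
    have := D_mul_mem hg i ih
    rwa [show P - (n : ℤ) - 1 = P - ((n + 1 : ℕ) : ℤ) by push_cast; ring,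
      show k + (n : ℤ) + 1 = k + ((n + 1 : ℕ) : ℤ) by push_cast; ring] at this

/-- **products** -/
theorem Fil_mul' {g : K} (hg : Gen g) {k l P Q : ℤ} {T S : Op K} (hT : T ∈ Fil g k P)
    (hS : S ∈ Fil g l Q) : T * S ∈ Fil g (k + l) (P + Q) := by
  induction hT using Submodule.span_induction with
  | mem x hx =>
    obtain ⟨a, b, h1, h2, rfl⟩ := hx
    unfold mon
    simp only [mul_assoc]
    have h3 := X_pow_mul_mem 0 a.1 (X_pow_mul_mem 1 a.2 (D_pow_mul_mem hg 0 b.1
      (D_pow_mul_mem hg 1 b.2 hS)))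
    rw [show Q - (b.2 : ℤ) - b.1 + a.2 + a.1 = P + Q by rw [← h2]; ring] at h3
    exact Fil_mono g (by omega) h3
  | zero => rw [zero_mul]; exact zero_mem _
  | add x y _ _ hx hy => rw [add_mul]; exact add_mem hx hy
  | smul a x _ hx => rw [smul_mul_assoc]; exact Submodule.smul_mem _ a hx

/-! ### adjoints -/

theorem adj_X (i : Fin 2) : Adj (X i : Op K) (X i) := by
  apply adj_of
  intro m n
  rw [X_single, X_single, Finsupp.single_apply, Finsupp.single_apply]
  congr 1
  rw [eq_iff_iff]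
  constructor
  · intro h
    rw [Prod.ext_iff] at h ⊢
    fin_cases i <;> simp [ev, sg] at h ⊢ <;> omega
  · intro h
    rw [Prod.ext_iff] at h ⊢
    fin_cases i <;> simp [ev, sg] at h ⊢ <;> omega

theorem cq_inv {g : K} (hg : Gen g) (m : ℤ) : -g⁻¹ * cq g⁻¹ (-m) = cq g m := by
  unfold cq
  have h1 := hg.sub
  have h2 := hg.inv.sub
  have h3 := hg.ne
  rw [neg_neg, _root_.inv_zpow', ← mul_div_assoc, div_eq_div_iff h2 h1]
  have h4 : g * g⁻¹ = 1 := mul_inv_cancel₀ h3
  linear_combination (-(g ^ (-m) - 1)) * h4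

theorem adj_D {g : K} (hg : Gen g) (i : Fin 2) :
    Adj (D g i : Op K) ((-g⁻¹) • D g⁻¹ i) := by
  apply adj_of
  intro m n
  rw [D_single, LinearMap.smul_apply, D_single,
    Finsupp.smul_apply, Finsupp.single_apply, Finsupp.single_apply]
  have h : m - ev i = sg n ↔ n - ev i = sg m := by
    rw [Prod.ext_iff, Prod.ext_iff]
    fin_cases i <;> simp [ev, sg] <;> omega
  by_cases h1 : m - ev i = sg n
  · rw [if_pos h1, if_pos (h.1 h1)]
    have h2 : co i n = -co i m := by
      rw [Prod.ext_iff] at h1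
      fin_cases i <;> simp [ev, sg, co] at h1 ⊢ <;> omega
    rw [h2, mul_one, mul_one, smul_eq_mul, cq_inv hg]
  · rw [if_neg h1, if_neg (fun h2 => h1 (h.2 h2)), smul_zero]

theorem adj_Fil {g : K} (hg : Gen g) {k P : ℤ} {T : Op K} (hT : T ∈ Fil g k P) :
    ∃ T' ∈ Fil g⁻¹ k P, Adj T T' := by
  induction hT using Submodule.span_induction with
  | mem x hx =>
    obtain ⟨a, b, h1, h2, rfl⟩ := hx
    have e1 : ∀ (n : ℕ) (i : Fin 2) (k P : ℤ) (S : Op K), S ∈ Fil g⁻¹ k P →
        ((-g⁻¹) • D g⁻¹ i) ^ n * S ∈ Fil g⁻¹ (k + n) (P - n) := by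
      intro n i k P S hS
      rw [smul_pow, smul_mul_assoc]
      exact Submodule.smul_mem _ _ (D_pow_mul_mem hg.inv i n hS)
    refine ⟨((-g⁻¹) • D g⁻¹ 1) ^ b.2 * (((-g⁻¹) • D g⁻¹ 0) ^ b.1 * (X 1 ^ a.2 * (X 0 ^ a.1 * 1))),
      ?_, ?_⟩
    · have h3 := e1 b.2 1 _ _ _ (e1 b.1 0 _ _ _ (X_pow_mul_mem 1 a.2 (X_pow_mul_mem 0 a.1
        (one_mem_Fil g⁻¹ le_rfl))))
      rw [show (0 : ℤ) + a.1 + a.2 - b.1 - b.2 = P by rw [← h2]; ring] at h3
      exact Fil_mono _ (by omega) h3
    · unfold mon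
      rw [mul_one]
      exact ((((adj_X 0).pow a.1).mul ((adj_X 1).pow a.2)).mul ((adj_D hg 0).pow b.1)).mul
        ((adj_D hg 1).pow b.2)
  | zero => exact ⟨0, zero_mem _, Adj.zero⟩
  | add x y _ _ hx hy =>
    obtain ⟨x', hx1, hx2⟩ := hx
    obtain ⟨y', hy1, hy2⟩ := hy
    exact ⟨x' + y', add_mem hx1 hy1, hx2.add hy2⟩
  | smul c x _ hx =>
    obtain ⟨x', hx1, hx2⟩ := hx
    exact ⟨c • x', Submodule.smul_mem _ c hx1, hx2.smul c⟩

open Classical in
/-- residue transposition -/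
noncomputable def tr (T : Op K) : Op K := if h : ∃ T', Adj T T' then h.choose else 0

theorem tr_eq {T T' : Op K} (h : Adj T T') : tr T = T' := by
  have h1 : ∃ T', Adj T T' := ⟨T', h⟩
  unfold tr
  rw [dif_pos h1]
  exact h1.choose_spec.uniq h

theorem tr_mem {g : K} (hg : Gen g) {k P : ℤ} {T : Op K} (hT : T ∈ Fil g k P) :
    tr T ∈ Fil g⁻¹ k P := by
  obtain ⟨T', h1, h2⟩ := adj_Fil hg hT
  rw [tr_eq h2]
  exact h1

/-- adjointable -/
def Ad (T : Op K) : Prop := Adj T (tr T)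

theorem ad_of {T T' : Op K} (h : Adj T T') : Ad T := by
  unfold Ad
  rw [tr_eq h]
  exact h

theorem ad_Fil {g : K} (hg : Gen g) {k P : ℤ} {T : Op K} (hT : T ∈ Fil g k P) : Ad T := by
  obtain ⟨T', h1, h2⟩ := adj_Fil hg hT
  exact ad_of h2

theorem Ad.tr {T : Op K} (h : Ad T) : Ad (tr T) := ad_of (Adj.symm h)

theorem tr_tr {T : Op K} (h : Ad T) : tr (tr T) = T := tr_eq (Adj.symm h)

theorem ad_zero : Ad (0 : Op K) := ad_of Adj.zero
theorem ad_one : Ad (1 : Op K) := ad_of Adj.one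
theorem ad_X (i : Fin 2) : Ad (X i : Op K) := ad_of (adj_X i)
theorem tr_zero : tr (0 : Op K) = 0 := tr_eq Adj.zero
theorem tr_one : tr (1 : Op K) = 1 := tr_eq Adj.one
theorem tr_X (i : Fin 2) : tr (X i : Op K) = X i := tr_eq (adj_X i)

theorem Ad.add {T S : Op K} (h : Ad T) (h' : Ad S) : Ad (T + S) := ad_of (Adj.add h h')
theorem Ad.sub {T S : Op K} (h : Ad T) (h' : Ad S) : Ad (T - S) := ad_of (Adj.sub h h')
theorem Ad.mul {T S : Op K} (h : Ad T) (h' : Ad S) : Ad (T * S) := ad_of (Adj.mul h h')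
theorem Ad.neg {T : Op K} (h : Ad T) : Ad (-T) := ad_of (Adj.neg h)
theorem Ad.smul {T : Op K} (c : K) (h : Ad T) : Ad (c • T) := ad_of (Adj.smul c h)

theorem Ad.sum {ι : Type} (s : Finset ι) {T : ι → Op K} (h : ∀ i, Ad (T i)) :
    Ad (∑ i ∈ s, T i) := by
  classical
  induction s using Finset.induction_on with
  | empty => rw [Finset.sum_empty]; exact ad_zero
  | insert a s ha ih => rw [Finset.sum_insert ha]; exact (h a).add ih

theorem tr_add {T S : Op K} (h : Ad T) (h' : Ad S) : Anti870.tr (T + S) = Anti870.tr T + Anti870.tr S :=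
  tr_eq (Adj.add h h')
theorem tr_sub {T S : Op K} (h : Ad T) (h' : Ad S) : Anti870.tr (T - S) = Anti870.tr T - Anti870.tr S :=
  tr_eq (Adj.sub h h')
theorem tr_mul {T S : Op K} (h : Ad T) (h' : Ad S) : Anti870.tr (T * S) = Anti870.tr S * Anti870.tr T :=
  tr_eq (Adj.mul h h')
theorem tr_neg {T : Op K} (h : Ad T) : Anti870.tr (-T) = -Anti870.tr T := tr_eq (Adj.neg h)
theorem tr_smul {T : Op K} (c : K) (h : Ad T) : Anti870.tr (c • T) = c • Anti870.tr T :=
  tr_eq (Adj.smul c h)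

theorem tr_sum {ι : Type} (s : Finset ι) {T : ι → Op K} (h : ∀ i, Ad (T i)) :
    Anti870.tr (∑ i ∈ s, T i) = ∑ i ∈ s, Anti870.tr (T i) := by
  classical
  induction s using Finset.induction_on with
  | empty => rw [Finset.sum_empty, Finset.sum_empty]; exact tr_zero
  | insert a s ha ih => rw [Finset.sum_insert ha, Finset.sum_insert ha,
      tr_add (h a) (Ad.sum s h), ih]

end Crest.Agent.R186.B281.Anti870
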