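import Mathlib

/-!
# Row 186, S0281, base (helper633): PBW toolbox of the `q`-Weyl algebra with INDEPENDENT relations

`QW g R` : four elements `x0 x1 d0 d1` of a `K`-algebra `R` with
`x_i d_i = 1 + g d_i x_i`, everything else commutes.

* `W.M q` (`q = (a0,a1,b0,b1)`) `= x0^a0 x1^a1 d0^b0 d1^b1`, `W.N q = d0^b0 d1^b1 x0^a0 x1^a1`;
* `W.F k P` = span of the `M q` with `b0 + b1 ≤ k`, `a0 + a1 - b0 - b1 = P` = span of the `N q`;
* `W.F_mul`, symbols, Koszul facts.
-/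

set_option autoImplicit false

namespace Crest.Agent.R186.PBWD633

open Finset

/-! ## one pair -/

section one

variable {K R : Type*} [Field K] [Ring R] [Algebra K R]

/-- `1 + p + ... + p^(m-1)` -/
def gs (p : K) (m : ℕ) : K := ∑ i ∈ range m, p ^ i

@[simp] lemma gs_zero (p : K) : gs p 0 = 0 := by simp [gs]

lemma gs_succ (p : K) (m : ℕ) : gs p (m + 1) = gs p m + p ^ m := by
  simp [gs, Finset.sum_range_succ]

variable {u v : R} {p r : K}

lemma mul_pow_one (h : u * v = p • (v * u) + r • 1) (m : ℕ) :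
    u * v ^ (m + 1) = p ^ (m + 1) • (v ^ (m + 1) * u) + (r * gs p (m + 1)) • v ^ m := by
  induction m with
  | zero => simp [gs, h]
  | succ m ih =>
    rw [pow_succ v (m + 1), ← mul_assoc, ih, add_mul, smul_mul_assoc, smul_mul_assoc, mul_assoc, h,
      mul_add, mul_smul_comm, mul_smul_comm, mul_one, ← mul_assoc, ← pow_succ v m, smul_add,
      smul_smul, smul_smul, ← pow_succ, add_assoc, ← add_smul, gs_succ p (m + 1)]
    congr 2
    ring

/-- lower terms -/
def lo (K : Type*) {R : Type*} [Field K] [Ring R] [Algebra K R] (u v : R) (s a b : ℕ) :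
    Submodule K R :=
  Submodule.span K {w | ∃ j, s ≤ j ∧ j ≤ a ∧ j ≤ b ∧ w = v ^ (b - j) * u ^ (a - j)}

lemma reord (h : u * v = p • (v * u) + r • 1) (a b : ℕ) :
    u ^ a * v ^ b - p ^ (a * b) • (v ^ b * u ^ a) ∈ lo K u v 1 a b := by
  induction a with
  | zero => simp
  | succ a ih =>
    -- `u * v^c * w`
    have key : ∀ c : ℕ, ∀ w : R, u * (v ^ c * w) = p ^ c • (v ^ c * (u * w)) +
        (r * gs p c) • (v ^ (c - 1) * w) := by
      intro c w
      rcases c with _ | c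
      · simp
      · rw [← mul_assoc, mul_pow_one h, add_mul, smul_mul_assoc, smul_mul_assoc, mul_assoc,
          Nat.add_sub_cancel]
    have h1 : u * (u ^ a * v ^ b - p ^ (a * b) • (v ^ b * u ^ a)) ∈ lo K u v 1 (a + 1) b := by
      refine Submodule.span_induction (p := fun x _ => u * x ∈ lo K u v 1 (a + 1) b) ?_ ?_ ?_ ?_ ih
      · rintro _ ⟨j, h1, ha, hb, rfl⟩
        rw [key]
        refine Submodule.add_mem _ (Submodule.smul_mem _ _ ?_) ?_
        · refine Submodule.subset_span ⟨j, h1, by omega, hb, ?_⟩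
          rw [← pow_succ', show a + 1 - j = a - j + 1 by omega]
        · rcases Nat.lt_or_ge j b with hlt | hge
          · refine Submodule.smul_mem _ _ (Submodule.subset_span ⟨j + 1, by omega, by omega,
              by omega, ?_⟩)
            rw [show b - (j + 1) = b - j - 1 by omega, show a + 1 - (j + 1) = a - j by omega]
          · rw [show b - j = 0 by omega]; simp
      · simp
      · intro x y _ _ hx hy
        rw [mul_add]; exact Submodule.add_mem _ hx hy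
      · intro c x _ hx
        rw [mul_smul_comm]; exact Submodule.smul_mem _ _ hx
    have h2 : u ^ (a + 1) * v ^ b - p ^ ((a + 1) * b) • (v ^ b * u ^ (a + 1)) =
        u * (u ^ a * v ^ b - p ^ (a * b) • (v ^ b * u ^ a)) +
          (p ^ (a * b) * (r * gs p b)) • (v ^ (b - 1) * u ^ a) := by
      rw [mul_sub, mul_smul_comm, key, pow_succ' u a, smul_add, smul_smul, smul_smul, mul_assoc,
        ← pow_add, show a * b + b = (a + 1) * b by ring]
      abel
    rw [h2]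
    refine Submodule.add_mem _ h1 ?_
    rcases b with _ | b
    · simp
    · refine Submodule.smul_mem _ _ (Submodule.subset_span ⟨1, le_rfl, by omega, by omega, ?_⟩)
      simp

lemma top_mem (a b : ℕ) : v ^ b * u ^ a ∈ lo K u v 0 a b :=
  Submodule.subset_span ⟨0, le_rfl, Nat.zero_le _, Nat.zero_le _, by simp⟩

end one

/-! ## two pairs -/

/-- `q`-Weyl data with independent relations -/
structure QW {K : Type*} [Field K] (g : K) (R : Type*) [Ring R] [Algebra K R] where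
  x0 : R
  x1 : R
  d0 : R
  d1 : R
  hx : x0 * x1 = x1 * x0
  hd : d0 * d1 = d1 * d0
  h01 : x0 * d1 = d1 * x0
  h10 : x1 * d0 = d0 * x1
  h00 : x0 * d0 = 1 + g • (d0 * x0)
  h11 : x1 * d1 = 1 + g • (d1 * x1)

/-- indices `(a0, a1, b0, b1)` -/
abbrev Ix : Type := ℕ × ℕ × ℕ × ℕ

/-- order -/
def od (q : Ix) : ℤ := q.2.2.1 + q.2.2.2

/-- degree -/
def dg (q : Ix) : ℤ := (q.1 + q.2.1 : ℤ) - (q.2.2.1 + q.2.2.2)

/-- indices of order `≤ k` and degree `P` -/
def S (k P : ℤ) : Set Ix := {q | od q ≤ k ∧ dg q = P}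

lemma S_mono {k l : ℤ} (h : k ≤ l) (P : ℤ) : S k P ⊆ S l P := fun _ hq => ⟨hq.1.trans h, hq.2⟩

lemma S_neg {k : ℤ} (h : k < 0) (P : ℤ) : S k P = ∅ := by
  ext q
  simp only [S, od, Set.mem_ofPred_eq, Set.mem_empty_iff_false, iff_false, not_and]
  intro h1
  exfalso
  omega

namespace QW

variable {K : Type*} [Field K] {g : K} {R : Type*} [Ring R] [Algebra K R] (W : QW g R)

/-- `x^α d^β` -/
def M (q : Ix) : R := W.x0 ^ q.1 * W.x1 ^ q.2.1 * (W.d0 ^ q.2.2.1 * W.d1 ^ q.2.2.2)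

/-- `d^β x^α` -/
def N (q : Ix) : R := W.d0 ^ q.2.2.1 * W.d1 ^ q.2.2.2 * (W.x0 ^ q.1 * W.x1 ^ q.2.1)

/-- operators of degree `P`, order `≤ k` -/
def F (k P : ℤ) : Submodule K R := Submodule.span K (W.M '' S k P)

/-- the same with `x` on the right -/
def FN (k P : ℤ) : Submodule K R := Submodule.span K (W.N '' S k P)

lemma F_mono {k l : ℤ} (h : k ≤ l) (P : ℤ) : W.F k P ≤ W.F l P :=
  Submodule.span_mono (Set.image_mono (S_mono h P))

lemma FN_mono {k l : ℤ} (h : k ≤ l) (P : ℤ) : W.FN k P ≤ W.FN l P :=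
  Submodule.span_mono (Set.image_mono (S_mono h P))

lemma F_neg {k : ℤ} (h : k < 0) (P : ℤ) : W.F k P = ⊥ := by simp [F, S_neg h]

lemma FN_neg {k : ℤ} (h : k < 0) (P : ℤ) : W.FN k P = ⊥ := by simp [FN, S_neg h]

lemma M_mem (q : Ix) {k P : ℤ} (h : q ∈ S k P) : W.M q ∈ W.F k P :=
  Submodule.subset_span ⟨q, h, rfl⟩

lemma N_mem (q : Ix) {k P : ℤ} (h : q ∈ S k P) : W.N q ∈ W.FN k P :=
  Submodule.subset_span ⟨q, h, rfl⟩

lemma M_eq (a0 a1 b0 b1 : ℕ) : W.M (a0, a1, b0, b1) =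
    (W.x0 ^ a0 * W.d0 ^ b0) * (W.x1 ^ a1 * W.d1 ^ b1) := by
  have h : Commute (W.x1 ^ a1) (W.d0 ^ b0) := Commute.pow_pow W.h10 a1 b0
  simp only [M]
  rw [mul_assoc, mul_assoc, ← mul_assoc (W.x1 ^ a1), h.eq, mul_assoc]

lemma N_eq (a0 a1 b0 b1 : ℕ) : W.N (a0, a1, b0, b1) =
    (W.d0 ^ b0 * W.x0 ^ a0) * (W.d1 ^ b1 * W.x1 ^ a1) := by
  have h : Commute (W.d1 ^ b1) (W.x0 ^ a0) := Commute.pow_pow W.h01.symm b1 a0
  simp only [N]
  rw [mul_assoc, mul_assoc, ← mul_assoc (W.d1 ^ b1), h.eq, mul_assoc]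

lemma loN {s t a0 a1 b0 b1 : ℕ} {A B : R} (hA : A ∈ lo K W.x0 W.d0 s a0 b0)
    (hB : B ∈ lo K W.x1 W.d1 t a1 b1) :
    A * B ∈ W.FN (b0 + b1 - s - t) (a0 + a1 - (b0 + b1)) := by
  have h := Submodule.mul_mem_mul hA hB
  rw [lo, lo, Submodule.span_mul_span] at h
  refine (Submodule.span_le.2 ?_) h
  rintro _ ⟨_, ⟨i, hi1, hi2, hi3, rfl⟩, _, ⟨j, hj1, hj2, hj3, rfl⟩, rfl⟩
  have := W.N_eq (a0 - i) (a1 - j) (b0 - i) (b1 - j)
  show _ * _ ∈ _
  rw [← this]
  refine W.N_mem _ ?_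
  simp only [S, od, dg, Set.mem_ofPred_eq]
  push_cast [Nat.cast_sub hi2, Nat.cast_sub hi3, Nat.cast_sub hj2, Nat.cast_sub hj3]
  constructor <;> omega

lemma loM {s t a0 a1 b0 b1 : ℕ} {A B : R} (hA : A ∈ lo K W.d0 W.x0 s b0 a0)
    (hB : B ∈ lo K W.d1 W.x1 t b1 a1) :
    A * B ∈ W.F (b0 + b1 - s - t) (a0 + a1 - (b0 + b1)) := by
  have h := Submodule.mul_mem_mul hA hB
  rw [lo, lo, Submodule.span_mul_span] at h
  refine (Submodule.span_le.2 ?_) h
  rintro _ ⟨_, ⟨i, hi1, hi2, hi3, rfl⟩, _, ⟨j, hj1, hj2, hj3, rfl⟩, rfl⟩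
  have := W.M_eq (a0 - i) (a1 - j) (b0 - i) (b1 - j)
  show _ * _ ∈ _
  rw [← this]
  refine W.M_mem _ ?_
  simp only [S, od, dg, Set.mem_ofPred_eq]
  push_cast [Nat.cast_sub hi2, Nat.cast_sub hi3, Nat.cast_sub hj2, Nat.cast_sub hj3]
  constructor <;> omega

lemma rel0 : W.x0 * W.d0 = g • (W.d0 * W.x0) + (1 : K) • 1 := by rw [W.h00, one_smul, add_comm]
lemma rel1 : W.x1 * W.d1 = g • (W.d1 * W.x1) + (1 : K) • 1 := by rw [W.h11, one_smul, add_comm]

lemma rel0' (hg : g ≠ 0) : W.d0 * W.x0 = g⁻¹ • (W.x0 * W.d0) + (-g⁻¹) • 1 := by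
  rw [W.h00, smul_add, smul_smul, inv_mul_cancel₀ hg, one_smul, neg_smul]; abel
lemma rel1' (hg : g ≠ 0) : W.d1 * W.x1 = g⁻¹ • (W.x1 * W.d1) + (-g⁻¹) • 1 := by
  rw [W.h11, smul_add, smul_smul, inv_mul_cancel₀ hg, one_smul, neg_smul]; abel

/-- the pairing `α·β` -/
def pr (q : Ix) : ℕ := q.1 * q.2.2.1 + q.2.1 * q.2.2.2

lemma M_sub_N (q : Ix) : W.M q - g ^ pr q • W.N q ∈ W.FN (od q - 1) (dg q) := by
  obtain ⟨a0, a1, b0, b1⟩ := q
  have hA := reord W.rel0 a0 b0
  have hB := reord W.rel1 a1 b1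
  set A := W.x0 ^ a0 * W.d0 ^ b0 with hAd
  set A' := W.d0 ^ b0 * W.x0 ^ a0 with hA'
  set B := W.x1 ^ a1 * W.d1 ^ b1 with hBd
  set B' := W.d1 ^ b1 * W.x1 ^ a1 with hB'
  have e : W.M (a0, a1, b0, b1) - g ^ pr (a0, a1, b0, b1) • W.N (a0, a1, b0, b1) =
      g ^ (a0 * b0) • (A' * (B - g ^ (a1 * b1) • B')) +
      g ^ (a1 * b1) • ((A - g ^ (a0 * b0) • A') * B') +
      (A - g ^ (a0 * b0) • A') * (B - g ^ (a1 * b1) • B') := by
    rw [M_eq, N_eq, ← hAd, ← hA', ← hBd, ← hB', pr]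
    simp only [mul_sub, sub_mul, smul_sub, smul_mul_assoc, mul_smul_comm, smul_smul, pow_add,
      mul_comm (g ^ (a1 * b1))]
    abel
  rw [e]
  have hA0 : A' ∈ lo K W.x0 W.d0 0 a0 b0 := top_mem _ _
  have hB0 : B' ∈ lo K W.x1 W.d1 0 a1 b1 := top_mem _ _
  have h1 := W.loN hA0 hB
  have h2 := W.loN hA hB0
  have h3 := W.loN hA hB
  simp only [od, dg]
  refine Submodule.add_mem _ (Submodule.add_mem _ (Submodule.smul_mem _ _ ?_)
    (Submodule.smul_mem _ _ ?_)) ?_
  · exact W.FN_mono (by push_cast; omega) _ h1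
  · exact W.FN_mono (by push_cast; omega) _ h2
  · exact W.FN_mono (by push_cast; omega) _ h3

lemma N_sub_M (hg : g ≠ 0) (q : Ix) : W.N q - g⁻¹ ^ pr q • W.M q ∈ W.F (od q - 1) (dg q) := by
  obtain ⟨a0, a1, b0, b1⟩ := q
  have hA := reord (W.rel0' hg) b0 a0
  have hB := reord (W.rel1' hg) b1 a1
  set A := W.d0 ^ b0 * W.x0 ^ a0 with hAd
  set A' := W.x0 ^ a0 * W.d0 ^ b0 with hA'
  set B := W.d1 ^ b1 * W.x1 ^ a1 with hBd
  set B' := W.x1 ^ a1 * W.d1 ^ b1 with hB'
  have e : W.N (a0, a1, b0, b1) - g⁻¹ ^ pr (a0, a1, b0, b1) • W.M (a0, a1, b0, b1) =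
      g⁻¹ ^ (b0 * a0) • (A' * (B - g⁻¹ ^ (b1 * a1) • B')) +
      g⁻¹ ^ (b1 * a1) • ((A - g⁻¹ ^ (b0 * a0) • A') * B') +
      (A - g⁻¹ ^ (b0 * a0) • A') * (B - g⁻¹ ^ (b1 * a1) • B') := by
    rw [M_eq, N_eq, ← hAd, ← hA', ← hBd, ← hB', pr]
    simp only [mul_sub, sub_mul, smul_sub, smul_mul_assoc, mul_smul_comm, smul_smul, pow_add,
      mul_comm (g⁻¹ ^ (b1 * a1)), mul_comm b0 a0, mul_comm b1 a1]
    abel
  rw [e]
  have hA0 : A' ∈ lo K W.d0 W.x0 0 b0 a0 := top_mem _ _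
  have hB0 : B' ∈ lo K W.d1 W.x1 0 b1 a1 := top_mem _ _
  have h1 := W.loM hA0 hB
  have h2 := W.loM hA hB0
  have h3 := W.loM hA hB
  simp only [od, dg]
  refine Submodule.add_mem _ (Submodule.add_mem _ (Submodule.smul_mem _ _ ?_)
    (Submodule.smul_mem _ _ ?_)) ?_
  · exact W.F_mono (by push_cast; omega) _ h1
  · exact W.F_mono (by push_cast; omega) _ h2
  · exact W.F_mono (by push_cast; omega) _ h3


theorem F_eq_FN (hg : g ≠ 0) (k P : ℤ) : W.F k P = W.FN k P := by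
  apply le_antisymm
  · refine Submodule.span_le.2 ?_
    rintro _ ⟨q, ⟨h1, h2⟩, rfl⟩
    have h := Submodule.add_mem _ (W.FN_mono (by omega : od q - 1 ≤ k) _ (W.M_sub_N q))
      (Submodule.smul_mem _ (g ^ pr q) (W.N_mem q (k := k) ⟨h1, rfl⟩))
    rw [sub_add_cancel, h2] at h
    exact h
  · refine Submodule.span_le.2 ?_
    rintro _ ⟨q, ⟨h1, h2⟩, rfl⟩
    have h := Submodule.add_mem _ (W.F_mono (by omega : od q - 1 ≤ k) _ (W.N_sub_M hg q))
      (Submodule.smul_mem _ (g⁻¹ ^ pr q) (W.M_mem q (k := k) ⟨h1, rfl⟩))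
    rw [sub_add_cancel, h2] at h
    exact h

/-! ### the four shifts -/

/-- shifts -/
def sa0 (q : Ix) : Ix := (q.1 + 1, q.2.1, q.2.2.1, q.2.2.2)
def sa1 (q : Ix) : Ix := (q.1, q.2.1 + 1, q.2.2.1, q.2.2.2)
def sb0 (q : Ix) : Ix := (q.1, q.2.1, q.2.2.1 + 1, q.2.2.2)
def sb1 (q : Ix) : Ix := (q.1, q.2.1, q.2.2.1, q.2.2.2 + 1)

lemma x0_M (q : Ix) : W.x0 * W.M q = W.M (sa0 q) := by
  simp only [M, sa0, pow_succ', mul_assoc]

lemma x1_M (q : Ix) : W.x1 * W.M q = W.M (sa1 q) := by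
  have h : W.x1 * W.x0 ^ q.1 = W.x0 ^ q.1 * W.x1 := (Commute.pow_right W.hx.symm _).eq
  simp only [M, sa1, pow_succ', mul_assoc]
  rw [← mul_assoc, h, mul_assoc]

lemma M_d1 (q : Ix) : W.M q * W.d1 = W.M (sb1 q) := by
  simp only [M, sb1, pow_succ, mul_assoc]

lemma M_d0 (q : Ix) : W.M q * W.d0 = W.M (sb0 q) := by
  have h : W.d1 ^ q.2.2.2 * W.d0 = W.d0 * W.d1 ^ q.2.2.2 := (Commute.pow_left W.hd.symm _).eq
  simp only [M, sb0, pow_succ, mul_assoc]
  rw [h]

lemma d0_N (q : Ix) : W.d0 * W.N q = W.N (sb0 q) := by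
  simp only [N, sb0, pow_succ', mul_assoc]

lemma d1_N (q : Ix) : W.d1 * W.N q = W.N (sb1 q) := by
  have h : W.d1 * W.d0 ^ q.2.2.1 = W.d0 ^ q.2.2.1 * W.d1 := (Commute.pow_right W.hd.symm _).eq
  simp only [N, sb1, pow_succ', mul_assoc]
  rw [← mul_assoc, h, mul_assoc]

lemma N_x1 (q : Ix) : W.N q * W.x1 = W.N (sa1 q) := by
  simp only [N, sa1, pow_succ, mul_assoc]

lemma N_x0 (q : Ix) : W.N q * W.x0 = W.N (sa0 q) := by
  have h : W.x1 ^ q.2.1 * W.x0 = W.x0 * W.x1 ^ q.2.1 := (Commute.pow_left W.hx.symm _).eq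
  simp only [N, sa0, pow_succ, mul_assoc]
  rw [h]

/-- multiplication of monomials, `x` on the left, `d` on the right -/
lemma xMd (a0 a1 b0 b1 : ℕ) (q : Ix) :
    W.x0 ^ a0 * W.x1 ^ a1 * W.M q * (W.d0 ^ b0 * W.d1 ^ b1) =
      W.M (a0 + q.1, a1 + q.2.1, q.2.2.1 + b0, q.2.2.2 + b1) := by
  have h1 : W.x1 ^ a1 * W.x0 ^ q.1 = W.x0 ^ q.1 * W.x1 ^ a1 :=
    (Commute.pow_pow W.hx.symm _ _).eq
  have h2 : W.d1 ^ q.2.2.2 * W.d0 ^ b0 = W.d0 ^ b0 * W.d1 ^ q.2.2.2 :=
    (Commute.pow_pow W.hd.symm _ _).eq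
  simp only [M, pow_add, mul_assoc]
  rw [← mul_assoc (W.x1 ^ a1), h1, ← mul_assoc (W.d1 ^ q.2.2.2), h2]
  simp only [mul_assoc]

lemma xFd (a0 a1 b0 b1 : ℕ) {k P : ℤ} {m : R} (hm : m ∈ W.F k P) :
    W.x0 ^ a0 * W.x1 ^ a1 * m * (W.d0 ^ b0 * W.d1 ^ b1) ∈
      W.F (k + (b0 + b1)) (P + (a0 + a1) - (b0 + b1)) := by
  refine Submodule.span_induction (p := fun x _ => W.x0 ^ a0 * W.x1 ^ a1 * x *
    (W.d0 ^ b0 * W.d1 ^ b1) ∈ W.F (k + (b0 + b1)) (P + (a0 + a1) - (b0 + b1))) ?_ ?_ ?_ ?_ hm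
  · rintro _ ⟨q, ⟨h1, h2⟩, rfl⟩
    rw [xMd]
    refine W.M_mem _ ⟨?_, ?_⟩
    · simp only [od] at h1 ⊢; push_cast; omega
    · simp only [dg] at h2 ⊢; push_cast; omega
  · simp
  · intro x y _ _ hx hy
    rw [mul_add, add_mul]; exact Submodule.add_mem _ hx hy
  · intro c x _ hx
    rw [mul_smul_comm, smul_mul_assoc]; exact Submodule.smul_mem _ _ hx

/-- the exponent in the leading term of `M q * M q'` -/
def ex (q q' : Ix) : ℕ := q'.1 * q.2.2.1 + q'.2.1 * q.2.2.2

lemma M_mul_M (hg : g ≠ 0) (q q' : Ix) :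
    W.M q * W.M q' - g⁻¹ ^ ex q q' • W.M (q + q') ∈ W.F (od q + od q' - 1) (dg q + dg q') := by
  have h := W.xFd q.1 q.2.1 q'.2.2.1 q'.2.2.2 (W.N_sub_M hg (q'.1, q'.2.1, q.2.2.1, q.2.2.2))
  rw [mul_sub, sub_mul, mul_smul_comm, smul_mul_assoc, xMd] at h
  have e1 : W.M q * W.M q' = W.x0 ^ q.1 * W.x1 ^ q.2.1 * W.N (q'.1, q'.2.1, q.2.2.1, q.2.2.2) *
      (W.d0 ^ q'.2.2.1 * W.d1 ^ q'.2.2.2) := by
    simp only [M, N, mul_assoc]
  rw [e1]
  have e2 : q + q' = (q.1 + q'.1, q.2.1 + q'.2.1, q.2.2.1 + q'.2.2.1, q.2.2.2 + q'.2.2.2) := rfl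
  rw [e2]
  have e3 : pr (q'.1, q'.2.1, q.2.2.1, q.2.2.2) = ex q q' := rfl
  rw [e3] at h
  convert h using 2 <;> simp only [od, dg] <;> ring

lemma od_add (q q' : Ix) : od (q + q') = od q + od q' := by
  simp only [od, Prod.fst_add, Prod.snd_add]; push_cast; ring

lemma dg_add (q q' : Ix) : dg (q + q') = dg q + dg q' := by
  simp only [dg, Prod.fst_add, Prod.snd_add]; push_cast; ring

lemma M_mul_M_mem (hg : g ≠ 0) (q q' : Ix) :
    W.M q * W.M q' ∈ W.F (od q + od q') (dg q + dg q') := by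
  have h := Submodule.add_mem _ (W.F_mono (by omega : od q + od q' - 1 ≤ od q + od q') _
    (W.M_mul_M hg q q')) (Submodule.smul_mem _ (g⁻¹ ^ ex q q')
      (W.M_mem (q + q') (k := od q + od q') (P := dg q + dg q') ⟨(od_add q q').le, dg_add q q'⟩))
  rwa [sub_add_cancel] at h

theorem F_mul (hg : g ≠ 0) {k l P Q : ℤ} {a b : R} (ha : a ∈ W.F k P) (hb : b ∈ W.F l Q) :
    a * b ∈ W.F (k + l) (P + Q) := by
  have h := Submodule.mul_mem_mul ha hb
  rw [F, F, Submodule.span_mul_span] at h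
  refine (Submodule.span_le.2 ?_) h
  rintro _ ⟨_, ⟨q, ⟨h1, h2⟩, rfl⟩, _, ⟨q', ⟨h3, h4⟩, rfl⟩, rfl⟩
  have := W.M_mul_M_mem hg q q'
  rw [h2, h4] at this
  exact W.F_mono (by omega) _ this

lemma one_mem : (1 : R) ∈ W.F 0 0 := by
  have := W.M_mem (0, 0, 0, 0) (k := 0) (P := 0) ⟨by simp [od], by simp [dg]⟩
  simpa [M] using this

lemma x0_mem : W.x0 ∈ W.F 0 1 := by
  have := W.M_mem (1, 0, 0, 0) (k := 0) (P := 1) ⟨by simp [od], by simp [dg]⟩
  simpa [M] using this

lemma x1_mem : W.x1 ∈ W.F 0 1 := by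
  have := W.M_mem (0, 1, 0, 0) (k := 0) (P := 1) ⟨by simp [od], by simp [dg]⟩
  simpa [M] using this

lemma d0_mem : W.d0 ∈ W.F 1 (-1) := by
  have := W.M_mem (0, 0, 1, 0) (k := 1) (P := -1) ⟨by simp [od], by simp [dg]⟩
  simpa [M] using this

lemma d1_mem : W.d1 ∈ W.F 1 (-1) := by
  have := W.M_mem (0, 0, 0, 1) (k := 1) (P := -1) ⟨by simp [od], by simp [dg]⟩
  simpa [M] using this

lemma S_finite (k P : ℤ) : (S k P).Finite := by
  refine Set.Finite.subset (Set.Finite.prod (Set.finite_Iic (P + k).toNat)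
    (Set.Finite.prod (Set.finite_Iic (P + k).toNat) (Set.Finite.prod (Set.finite_Iic k.toNat)
      (Set.finite_Iic k.toNat)))) ?_
  rintro ⟨a0, a1, b0, b1⟩ ⟨h1, h2⟩
  simp only [od, dg] at h1 h2
  simp only [Set.mem_prod, Set.mem_Iic]
  omega

theorem F_finite (k P : ℤ) : Module.Finite K (W.F k P) :=
  Module.Finite.span_of_finite K ((S_finite k P).image _)

end QW

/-! ## coordinates: families permuted by shifts -/

section coord

variable {K : Type*} [Field K] {ι V : Type*} [AddCommGroup V] [Module K V]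

lemma lc_mem {f : ι → V} (hf : LinearIndependent K f) {A : Set ι} {u : ι →₀ K} :
    Finsupp.linearCombination K f u ∈ Submodule.span K (f '' A) ↔
      u ∈ Finsupp.supported K K A := by
  constructor
  · intro h
    obtain ⟨v, hv, he⟩ := (Finsupp.mem_span_image_iff_linearCombination K).1 h
    have : v = u := hf he
    rwa [← this]
  · intro h
    exact (Finsupp.mem_span_image_iff_linearCombination K).2 ⟨u, h, rfl⟩

lemma exists_lc {f : ι → V} {m : V} (h : m ∈ Submodule.span K (Set.range f)) :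
    ∃ u : ι →₀ K, Finsupp.linearCombination K f u = m :=
  (Finsupp.mem_span_range_iff_exists_finsupp).1 h

lemma lc_shift {f : ι → V} {φ : V →ₗ[K] V} {s : ι → ι} (h : ∀ i, φ (f i) = f (s i))
    (u : ι →₀ K) : φ (Finsupp.linearCombination K f u) =
      Finsupp.linearCombination K f (u.mapDomain s) := by
  rw [Finsupp.linearCombination_mapDomain, Finsupp.apply_linearCombination]
  congr 2
  funext i
  exact h i

/-- strictness (and injectivity) of a shift -/
theorem shift_strict {f : ι → V} (hf : LinearIndependent K f) {φ : V →ₗ[K] V} {s : ι → ι}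
    (hs : Function.Injective s) (h : ∀ i, φ (f i) = f (s i)) {A : Set ι} {m : V}
    (hm : m ∈ Submodule.span K (Set.range f)) (hA : φ m ∈ Submodule.span K (f '' A)) :
    m ∈ Submodule.span K (f '' (s ⁻¹' A)) := by
  obtain ⟨u, rfl⟩ := exists_lc hm
  rw [lc_shift h, lc_mem hf] at hA
  rw [lc_mem hf]
  intro i hi
  refine hA ?_
  have : (u.mapDomain s) (s i) = u i := Finsupp.mapDomain_apply hs u i
  simp only [Finset.mem_coe, Finsupp.mem_support_iff] at hi ⊢
  rwa [this]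

theorem shift_inj {f : ι → V} (hf : LinearIndependent K f) {φ : V →ₗ[K] V} {s : ι → ι}
    (hs : Function.Injective s) (h : ∀ i, φ (f i) = f (s i)) {m : V}
    (hm : m ∈ Submodule.span K (Set.range f)) (h0 : φ m = 0) : m = 0 := by
  have := shift_strict hf hs h (A := ∅) hm (by rw [h0]; exact Submodule.zero_mem _)
  simpa using this

/-- Koszul exactness in the middle -/
theorem shift_koszul {f : ι → V} (hf : LinearIndependent K f) {φ ψ : V →ₗ[K] V} {s t : ι → ι}
    (hs : Function.Injective s) (ht : Function.Injective t) (hst : ∀ i, s (t i) = t (s i))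
    (hp : ∀ p q, s p = t q → ∃ r, p = t r)
    (h : ∀ i, φ (f i) = f (s i)) (h' : ∀ i, ψ (f i) = f (t i)) {m m' : V}
    (hm : m ∈ Submodule.span K (Set.range f)) (hm' : m' ∈ Submodule.span K (Set.range f))
    (h0 : φ m + ψ m' = 0) :
    ∃ n ∈ Submodule.span K (Set.range f), m = ψ n ∧ m' = - φ n := by
  obtain ⟨u, rfl⟩ := exists_lc hm
  obtain ⟨v, rfl⟩ := exists_lc hm'
  rw [lc_shift h, lc_shift h', ← map_add] at h0
  have h1 : u.mapDomain s + v.mapDomain t = 0 := hf (by rw [h0, map_zero])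
  have hu : (u.support : Set ι) ⊆ Set.range t := by
    intro p hp0
    by_contra hc
    have h2 := DFunLike.congr_fun h1 (s p)
    rw [Finsupp.add_apply, Finsupp.mapDomain_apply hs, Finsupp.mapDomain_of_notMem_range, add_zero]
      at h2
    · simp only [Finset.mem_coe, Finsupp.mem_support_iff] at hp0
      exact hp0 h2
    · rintro ⟨q, hq⟩
      obtain ⟨r, rfl⟩ := hp p q hq.symm
      exact hc ⟨r, rfl⟩
  set n : ι →₀ K := u.comapDomain t ht.injOn with hn
  have h2 : n.mapDomain t = u := Finsupp.mapDomain_comapDomain t ht u hu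
  have h3 : n.mapDomain s + v = 0 := by
    apply Finsupp.mapDomain_injective ht
    rw [Finsupp.mapDomain_add, ← Finsupp.mapDomain_comp, Finsupp.mapDomain_zero]
    have : t ∘ s = s ∘ t := by funext i; exact (hst i).symm
    rw [this, Finsupp.mapDomain_comp, h2, h1]
  refine ⟨Finsupp.linearCombination K f n, ?_, ?_, ?_⟩
  · exact (Finsupp.mem_span_range_iff_exists_finsupp).2 ⟨n, rfl⟩
  · rw [lc_shift h', h2]
  · rw [lc_shift h, ← map_neg, eq_neg_of_add_eq_zero_right h3]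

/-- surjectivity -/
theorem shift_surj {f : ι → V} {φ ψ : V →ₗ[K] V} {s t : ι → ι}
    (h : ∀ i, φ (f i) = f (s i)) (h' : ∀ i, ψ (f i) = f (t i)) {A B C E : Set ι}
    (hA : ∀ i ∈ A, (∃ j ∈ B, s j = i) ∨ (∃ j ∈ C, t j = i) ∨ i ∈ E) {m : V}
    (hm : m ∈ Submodule.span K (f '' A)) :
    ∃ m0 ∈ Submodule.span K (f '' B), ∃ m1 ∈ Submodule.span K (f '' C),
      ∃ e ∈ Submodule.span K (f '' E), m = φ m0 + ψ m1 + e := by
  refine Submodule.span_induction (p := fun m _ => ∃ m0 ∈ Submodule.span K (f '' B),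
    ∃ m1 ∈ Submodule.span K (f '' C), ∃ e ∈ Submodule.span K (f '' E), m = φ m0 + ψ m1 + e)
    ?_ ?_ ?_ ?_ hm
  · rintro _ ⟨i, hi, rfl⟩
    rcases hA i hi with ⟨j, hj, rfl⟩ | ⟨j, hj, rfl⟩ | hE
    · exact ⟨f j, Submodule.subset_span ⟨j, hj, rfl⟩, 0, Submodule.zero_mem _, 0,
        Submodule.zero_mem _, by simp [h]⟩
    · exact ⟨0, Submodule.zero_mem _, f j, Submodule.subset_span ⟨j, hj, rfl⟩, 0,
        Submodule.zero_mem _, by simp [h']⟩
    · exact ⟨0, Submodule.zero_mem _, 0, Submodule.zero_mem _, f i,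
        Submodule.subset_span ⟨i, hE, rfl⟩, by simp⟩
  · exact ⟨0, Submodule.zero_mem _, 0, Submodule.zero_mem _, 0, Submodule.zero_mem _, by simp⟩
  · rintro x y _ _ ⟨a, ha, b, hb, c, hc, rfl⟩ ⟨a', ha', b', hb', c', hc', rfl⟩
    refine ⟨a + a', Submodule.add_mem _ ha ha', b + b', Submodule.add_mem _ hb hb', c + c',
      Submodule.add_mem _ hc hc', ?_⟩
    rw [map_add, map_add]; abel
  · rintro r x _ ⟨a, ha, b, hb, c, hc, rfl⟩
    exact ⟨r • a, Submodule.smul_mem _ _ ha, r • b, Submodule.smul_mem _ _ hb, r • c,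
      Submodule.smul_mem _ _ hc, by simp [smul_add]⟩

/-- coordinates -/
lemma exists_coord {f : ι → V} (hf : LinearIndependent K f) :
    ∃ π : V →ₗ[K] (ι →₀ K), ∀ u, π (Finsupp.linearCombination K f u) = u := by
  obtain ⟨π, hπ⟩ := LinearMap.exists_leftInverse_of_injective (Finsupp.linearCombination K f)
    (LinearMap.ker_eq_bot.2 hf)
  exact ⟨π, fun u => LinearMap.congr_fun hπ u⟩

lemma coord_zero {f : ι → V} {π : V →ₗ[K] (ι →₀ K)}
    (hπ : ∀ u, π (Finsupp.linearCombination K f u) = u) {A : Set ι} {m : V}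
    (hm : m ∈ Submodule.span K (f '' A)) {i : ι} (hi : i ∉ A) : π m i = 0 := by
  obtain ⟨v, hv, rfl⟩ := (Finsupp.mem_span_image_iff_linearCombination K).1 hm
  rw [hπ]
  by_contra hc
  exact hi (hv (by simpa using hc))

/-- a unitriangular change of family -/
theorem li_tri {M N : ι → V} (hM : LinearIndependent K M) (o : ι → ℤ) (c : ι → K)
    (hc : ∀ q, c q ≠ 0)
    (h : ∀ q, N q - c q • M q ∈ Submodule.span K (M '' {r | o r < o q})) :
    LinearIndependent K N := by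
  classical
  obtain ⟨π, hπ⟩ := exists_coord hM
  rw [linearIndependent_iff]
  intro u hu
  by_contra hne
  obtain ⟨q0, hq0, hmax⟩ := Finset.exists_max_image u.support o
    (Finsupp.support_nonempty_iff.2 hne)
  have hMq : ∀ q, π (M q) = Finsupp.single q 1 := fun q => by
    have := hπ (Finsupp.single q 1)
    simpa using this
  have hN : ∀ q ∈ u.support, π (N q) q0 = c q * (Finsupp.single q (1 : K)) q0 := by
    intro q hq
    have h1 : q0 ∉ {r | o r < o q} := by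
      simp only [Set.mem_ofPred_eq, not_lt]; exact hmax q hq
    have h2 := coord_zero hπ (h q) h1
    rw [map_sub, map_smul, hMq, Finsupp.sub_apply, Finsupp.smul_apply, smul_eq_mul, sub_eq_zero]
      at h2
    exact h2
  have h3 : π (Finsupp.linearCombination K N u) q0 = u q0 * c q0 := by
    rw [Finsupp.linearCombination_apply, Finsupp.sum, map_sum, Finsupp.finsetSum_apply,
      Finset.sum_eq_single q0]
    · rw [map_smul, Finsupp.smul_apply, hN q0 hq0]; simp
    · intro q hq hne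
      rw [map_smul, Finsupp.smul_apply, hN q hq]
      rw [Finsupp.single_apply, if_neg hne]; simp
    · intro h; exact absurd hq0 h
  rw [hu, map_zero, Finsupp.zero_apply] at h3
  rcases mul_eq_zero.1 h3.symm with h4 | h4
  · exact (Finsupp.mem_support_iff.1 hq0) h4
  · exact hc _ h4

end coord

/-! ## the toolbox for linearly independent `W.M` -/

namespace QW

variable {K : Type*} [Field K] {g : K} {R : Type*} [Ring R] [Algebra K R] (W : QW g R)

/-- all operators -/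
def T : Submodule K R := Submodule.span K (Set.range W.M)

/-- PBW -/
def PBW : Prop := LinearIndependent K W.M

variable {W}

lemma F_le_T (k P : ℤ) : W.F k P ≤ W.T := Submodule.span_mono (Set.image_subset_range _ _)

lemma T_eq (hg : g ≠ 0) : W.T = Submodule.span K (Set.range W.N) := by
  apply le_antisymm
  · refine Submodule.span_le.2 ?_
    rintro _ ⟨q, rfl⟩
    have h := W.M_mem q (k := od q) (P := dg q) ⟨le_rfl, rfl⟩
    rw [W.F_eq_FN hg] at h
    exact Submodule.span_mono (Set.image_subset_range _ _) h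
  · refine Submodule.span_le.2 ?_
    rintro _ ⟨q, rfl⟩
    have h := W.N_mem q (k := od q) (P := dg q) ⟨le_rfl, rfl⟩
    rw [← W.F_eq_FN hg] at h
    exact F_le_T _ _ h

/-- PBW for the other order -/
theorem PBW.N (h : W.PBW) (hg : g ≠ 0) : LinearIndependent K W.N := by
  refine li_tri h od (fun q => g⁻¹ ^ pr q) (fun q => pow_ne_zero _ (inv_ne_zero hg)) fun q => ?_
  refine Submodule.span_mono (Set.image_mono ?_) (W.N_sub_M hg q)
  intro r hr
  have := hr.1
  simp only [Set.mem_ofPred_eq]; omega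

/-- orders are additive (so there are no zero divisors) -/
theorem PBW.mul_not_mem (h : W.PBW) (hg : g ≠ 0) {k l P Q : ℤ} {a b : R} (ha : a ∈ W.F k P)
    (hb : b ∈ W.F l Q) (ha' : a ∉ W.F (k - 1) P) (hb' : b ∉ W.F (l - 1) Q) :
    a * b ∉ W.F (k + l - 1) (P + Q) := by
  classical
  obtain ⟨π, hπ⟩ := exists_coord h
  have hMq : ∀ q, π (W.M q) = Finsupp.single q 1 := fun q => by
    have := hπ (Finsupp.single q 1)
    simpa using this
  obtain ⟨u, hu, rfl⟩ := (Finsupp.mem_span_image_iff_linearCombination K).1 ha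
  obtain ⟨v, hv, rfl⟩ := (Finsupp.mem_span_image_iff_linearCombination K).1 hb
  have key : ∀ (w : Ix →₀ K) (n T : ℤ), w ∈ Finsupp.supported K K (S n T) →
      Finsupp.linearCombination K W.M w ∉ W.F (n - 1) T →
      (w.support.filter fun q => od q = n).Nonempty := by
    intro w n T hw hn
    by_contra hc
    rw [Finset.not_nonempty_iff_eq_empty, Finset.filter_eq_empty_iff] at hc
    apply hn
    rw [F, lc_mem h]
    intro q hq
    have h1 := hw hq
    have h2 := hc (by simpa using hq)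
    exact ⟨by have := h1.1; omega, h1.2⟩
  have hA := key u k P hu ha'
  have hB := key v l Q hv hb'
  obtain ⟨q0, hq0, r0, hr0, huniq⟩ := UniqueSums.uniqueAdd_of_nonempty hA hB
  rw [Finset.mem_filter] at hq0 hr0
  intro hc
  have h0 : π (Finsupp.linearCombination K W.M u * Finsupp.linearCombination K W.M v)
      (q0 + r0) = 0 := by
    refine coord_zero hπ hc ?_
    intro h1
    have h2 := h1.1
    rw [od_add] at h2
    omega
  have hterm : ∀ q ∈ u.support, ∀ r ∈ v.support, π (W.M q * W.M r) (q0 + r0) =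
      g⁻¹ ^ ex q r * (Finsupp.single (q + r) (1 : K)) (q0 + r0) := by
    intro q hq r hr
    have h1 : q0 + r0 ∉ S (od q + od r - 1) (dg q + dg r) := by
      intro h2
      have h3 := h2.1
      rw [od_add] at h3
      have h4 := (hu (by simpa using hq)).1
      have h5 := (hv (by simpa using hr)).1
      omega
    have h2 := coord_zero hπ (W.M_mul_M hg q r) h1
    rw [map_sub, map_smul, hMq, Finsupp.sub_apply, Finsupp.smul_apply, smul_eq_mul, sub_eq_zero]
      at h2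
    exact h2
  have hsum : Finsupp.linearCombination K W.M u * Finsupp.linearCombination K W.M v =
      ∑ q ∈ u.support, ∑ r ∈ v.support, (u q * v r) • (W.M q * W.M r) := by
    rw [Finsupp.linearCombination_apply, Finsupp.linearCombination_apply, Finsupp.sum,
      Finsupp.sum, Finset.sum_mul]
    refine Finset.sum_congr rfl fun q _ => ?_
    rw [Finset.mul_sum]
    refine Finset.sum_congr rfl fun r _ => ?_
    rw [smul_mul_smul_comm]
  have hz : ∀ q ∈ u.support, ∀ r ∈ v.support, (q, r) ≠ (q0, r0) →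
      (Finsupp.single (q + r) (1 : K)) (q0 + r0) = 0 := by
    intro q hq r hr hne
    rw [Finsupp.single_apply, if_neg]
    intro heq
    have h4 := (hu (by simpa using hq)).1
    have h5 := (hv (by simpa using hr)).1
    have h6 : od q + od r = k + l := by rw [← od_add, heq, od_add, hq0.2, hr0.2]
    have h7 := huniq (a := q) (b := r) (by rw [Finset.mem_filter]; exact ⟨hq, by omega⟩)
      (by rw [Finset.mem_filter]; exact ⟨hr, by omega⟩) heq
    exact hne (by rw [h7.1, h7.2])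
  rw [hsum, map_sum, Finsupp.finsetSum_apply, Finset.sum_eq_single q0, map_sum,
    Finsupp.finsetSum_apply, Finset.sum_eq_single r0, map_smul, Finsupp.smul_apply,
    hterm q0 hq0.1 r0 hr0.1, Finsupp.single_eq_same, smul_eq_mul, mul_one] at h0
  · rcases mul_eq_zero.1 h0 with h1 | h1
    · rcases mul_eq_zero.1 h1 with h2 | h2
      · exact (Finsupp.mem_support_iff.1 hq0.1) h2
      · exact (Finsupp.mem_support_iff.1 hr0.1) h2
    · exact (pow_ne_zero _ (inv_ne_zero hg)) h1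
  · intro r hr hne
    rw [map_smul, Finsupp.smul_apply, hterm q0 hq0.1 r hr, hz q0 hq0.1 r hr (by simpa using hne)]
    simp
  · intro h1; exact absurd hr0.1 h1
  · intro q hq hne
    rw [map_sum, Finsupp.finsetSum_apply]
    refine Finset.sum_eq_zero fun r hr => ?_
    rw [map_smul, Finsupp.smul_apply, hterm q hq r hr, hz q hq r hr (fun h => hne (by
      simpa using congrArg Prod.fst h))]
    simp
  · intro h1; exact absurd hq0.1 h1

end QW

end Crest.Agent.R186.PBWD633
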