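import Crest.Agent.R186.B281W_128
import Crest.Agent.R186.LatK_693

/-!
Row 186, S0281 (helper693): `kgen : Gen g → KGen g`, the only PBW input of `B281W_128`.
-/

set_option autoImplicit false

namespace Crest.Agent.R186.B281

variable {K : Type} [Field K]

theorem kgen {g : K} (hg : Gen g) : KGen g := fun j k P a b ha hb h =>
  LK693.LK_gen hg (j := (j : ℤ)) (Int.natCast_nonneg j) ha hb h

end Crest.Agent.R186.B281
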