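import Crest.Agent.R186.ExtRes_700
import Crest.Agent.R186.NullChain_538

/-!
Row 186, S0281, base, leaf B281.F2 (helper580), abstract half: idempotents, projective modules
`R e_v`, `Hom_R (R e_v, Y) = e_v Y`, devissage.
-/

set_option autoImplicit false
set_option linter.unusedSectionVars false
set_option linter.style.haveILetI false

universe u

namespace Crest.Agent.R186.Dev580

open ExtRes700

variable {R : Type u} [Ring R]

/-- `R e` for an idempotent `e` -/
def Pm (e : R) : Submodule R R where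
  carrier := {x | x * e = x}
  zero_mem' := zero_mul _
  add_mem' := by
    intro x y hx hy
    change (x + y) * e = x + y
    rw [add_mul, hx, hy]
  smul_mem' := by
    intro a x hx
    change (a * x) * e = a * x
    rw [mul_assoc, hx]

theorem mem_Pm {e : R} {x : R} : x ∈ Pm e ↔ x * e = x := Iff.rfl

section one

variable {e : R} (he : e * e = e)

/-- `R → R e` -/
def prm : R →ₗ[R] Pm e where
  toFun x := ⟨x * e, by rw [mem_Pm, mul_assoc, he]⟩
  map_add' x y := Subtype.ext (add_mul x y _)
  map_smul' a x := Subtype.ext (mul_assoc a x _)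

theorem prm_coe (x : R) : (prm he x : R) = x * e := rfl

theorem prm_sub : prm he ∘ₗ (Pm e).subtype = LinearMap.id :=
  LinearMap.ext fun x => Subtype.ext x.2

include he in
theorem projective_Pm : Module.Projective R (Pm e) :=
  Module.Projective.of_split (Pm e).subtype (prm he) (prm_sub he)

include he in
theorem finite_Pm : Module.Finite R (Pm e) :=
  Module.Finite.of_surjective (prm he) fun x => ⟨x, Subtype.ext x.2⟩

/-- the generator -/
def gen : Pm e := ⟨e, he⟩

theorem smul_gen (x : Pm e) : (x : R) • gen he = x := Subtype.ext x.2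

theorem gen_smul : e • gen he = gen he := Subtype.ext he

/-- maps out of `R e` are determined by the generator -/
theorem hom_ext {Y : Type u} [AddCommGroup Y] [Module R Y] {φ ψ : Pm e →ₗ[R] Y}
    (h : φ (gen he) = ψ (gen he)) : φ = ψ := by
  refine LinearMap.ext fun x => ?_
  rw [← smul_gen he x, map_smul, map_smul, h]

/-- the map `R e → Y` with value `y` -/
def homOf {Y : Type u} [AddCommGroup Y] [Module R Y] (e : R) (y : Y) : Pm e →ₗ[R] Y :=
  (LinearMap.toSpanSingleton R Y y) ∘ₗ (Pm e).subtype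

theorem homOf_apply {Y : Type u} [AddCommGroup Y] [Module R Y] (e : R) (y : Y) (x : Pm e) :
    homOf e y x = (x : R) • y := rfl

theorem homOf_gen {Y : Type u} [AddCommGroup Y] [Module R Y] (y : Y) :
    homOf e y (gen he) = e • y := rfl

theorem e_smul_hom {Y : Type u} [AddCommGroup Y] [Module R Y] (φ : Pm e →ₗ[R] Y) :
    e • φ (gen he) = φ (gen he) := by
  rw [← map_smul, gen_smul]

/-- every map is `x ↦ x • y` with `e y = y` -/
theorem exists_homOf {Y : Type u} [AddCommGroup Y] [Module R Y] (φ : Pm e →ₗ[R] Y) :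
    φ = homOf e (φ (gen he)) :=
  LinearMap.ext fun x => by rw [homOf_apply, ← map_smul, smul_gen he x]

/-- maps out of a finite family -/
theorem hom_pi_ext {ι : Type} [Finite ι] {Y : Type u} [AddCommGroup Y] [Module R Y]
    [DecidableEq ι] {φ ψ : (ι → Pm e) →ₗ[R] Y}
    (h : ∀ k, φ (Pi.single k (gen he)) = ψ (Pi.single k (gen he))) : φ = ψ :=
  LinearMap.pi_ext' fun k => hom_ext he (h k)

/-- the map `(R e)^ι → Y` with values `y k` -/
def homPi {ι : Type} [Fintype ι] {Y : Type u} [AddCommGroup Y] [Module R Y] (e : R)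
    (y : ι → Y) : (ι → Pm e) →ₗ[R] Y :=
  ∑ k, (homOf e (y k)) ∘ₗ (LinearMap.proj k)

theorem homPi_apply {ι : Type} [Fintype ι] {Y : Type u} [AddCommGroup Y] [Module R Y]
    (e : R) (y : ι → Y) (x : ι → Pm e) : homPi e y x = ∑ k, (x k : R) • y k := by
  rw [homPi, LinearMap.sum_apply]
  rfl

theorem homPi_single {ι : Type} [Fintype ι] [DecidableEq ι] {Y : Type u} [AddCommGroup Y]
    [Module R Y] (y : ι → Y) (k : ι) : homPi e y (Pi.single k (gen he)) = e • y k := by
  rw [homPi_apply, Finset.sum_eq_single k]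
  · rw [Pi.single_eq_same]
    rfl
  · intro b _ hb
    rw [Pi.single_eq_of_ne hb]
    exact zero_smul R (y b)
  · intro h
    exact absurd (Finset.mem_univ k) h

end one

/-- right multiplication by `m`, `e m = m = m f` -/
def rmul {e f : R} (m : R) (hm : m * f = m) : Pm e →ₗ[R] Pm f where
  toFun x := ⟨x * m, by rw [mem_Pm, mul_assoc, hm]⟩
  map_add' x y := Subtype.ext (add_mul (x : R) y _)
  map_smul' a x := Subtype.ext (mul_assoc a (x : R) _)

theorem rmul_coe {e f : R} (m : R) (hm : m * f = m) (x : Pm e) :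
    (rmul (e := e) m hm x : R) = x * m := rfl

theorem rmul_gen {e f : R} (he : e * e = e) (m : R) (hm : m * f = m) (hm' : e * m = m) :
    (rmul (e := e) m hm (gen he) : R) = m := hm'

/-- `R` is a retract of the product of the `R e_v` -/
theorem decomp (e : Fin 5 → R) (he : ∀ v, e v * e v = e v) (hs : ∑ v, e v = 1)
    {Y : Type u} [AddCommGroup Y] [Module R Y] (j : ℕ)
    (h : ∀ v, E0 R Y (Pm (e v)) j) : E0 R Y R j := by
  have h1 : E0 R Y (Pm (e 0) × Pm (e 1) × Pm (e 2) × Pm (e 3) × Pm (e 4)) j :=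
    prod_right j (h 0) (prod_right j (h 1) (prod_right j (h 2) (prod_right j (h 3) (h 4))))
  refine retract_right
    ((prm (he 0)).prod ((prm (he 1)).prod ((prm (he 2)).prod ((prm (he 3)).prod (prm (he 4))))))
    ((Pm (e 0)).subtype.coprod ((Pm (e 1)).subtype.coprod ((Pm (e 2)).subtype.coprod
      ((Pm (e 3)).subtype.coprod (Pm (e 4)).subtype)))) ?_ j h1
  refine LinearMap.ext fun x => ?_
  change x * e 0 + (x * e 1 + (x * e 2 + (x * e 3 + x * e 4))) = x
  rw [← mul_add, ← mul_add, ← mul_add, ← mul_add]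
  rw [Fin.sum_univ_five] at hs
  rw [← add_assoc, ← add_assoc, ← add_assoc, hs, mul_one]

/-! ### devissage -/

section dev

variable {P Q P' : Type u} [AddCommGroup P] [Module R P] [AddCommGroup Q] [Module R Q]
  [AddCommGroup P'] [Module R P']
  {X : Type u} [AddCommGroup X] [Module R X]

/-- step up: `0 → P → P' → Q → 0` -/
theorem up {f : P →ₗ[R] P'} {q : P' →ₗ[R] Q} (hf : Function.Injective f)
    (hq : Function.Surjective q) (hex : Function.Exact f q) (hP : ∀ j, E0 R X P j)
    (hQ : ∀ j, E0 R X Q j) (j : ℕ) : E0 R X P' j :=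
  cmid f q hf hq hex j (hP j) (hQ j)

/-- step down: `0 → P → P' → Q → 0` -/
theorem down {f : P →ₗ[R] P'} {q : P' →ₗ[R] Q} (hf : Function.Injective f)
    (hq : Function.Surjective q) (hex : Function.Exact f q) (hP : ∀ j, E0 R X P' j)
    (hQ : ∀ j, E0 R X Q j) (j : ℕ) : E0 R X P j := by
  rcases j with _ | j
  · exact cleft0 f hf (hP 0)
  · exact cleft f q hf hq hex j (hQ j) (hP (j + 1))

theorem up' {f : P →ₗ[R] P'} (hf : Function.Injective f) (hP : ∀ j, E0 R X P j)
    (hQ : ∀ j, E0 R X (P' ⧸ LinearMap.range f) j) (j : ℕ) : E0 R X P' j :=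
  up hf (Submodule.mkQ_surjective _) (LinearMap.exact_map_mkQ_range f) hP hQ j

theorem down' {f : P →ₗ[R] P'} (hf : Function.Injective f) (hP : ∀ j, E0 R X P' j)
    (hQ : ∀ j, E0 R X (P' ⧸ LinearMap.range f) j) (j : ℕ) : E0 R X P j :=
  down hf (Submodule.mkQ_surjective _) (LinearMap.exact_map_mkQ_range f) hP hQ j

end dev

end Crest.Agent.R186.Dev580
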