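import Crest.Agent.R186.FDind_757

/-!
Row 186, S0281, leaf B281.D1 (helper757): normal ordering both ways, products, finite dimension.
-/

set_option autoImplicit false
set_option linter.unnecessarySeqFocus false

open Finset

namespace Crest.Agent.R186.B281

namespace FD757

variable {K : Type} [Field K]

theorem cq_add {g : K} (hg : Gen g) (x y : ℤ) :
    cq g (x + y) = g ^ (-y) * cq g x + cq g y := by
  unfold cq
  rw [neg_add, zpow_add₀ hg.1]
  field_simp [hg.sub]
  ring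

/-- the exponent vectors `ε_0`, `ε_1` -/
def eN (i : Fin 2) : ℕ × ℕ := if i = 0 then (1, 0) else (0, 1)

/-- coordinates of exponents -/
def cN (i : Fin 2) (a : ℕ × ℕ) : ℕ := if i = 0 then a.1 else a.2

/-! ### left and right multiplication of `x^a d^b` -/

theorem X_mul_mon (g : K) (i : Fin 2) (a b : ℕ × ℕ) : X i * mon g a b = mon g (a + eN i) b := by
  apply op_ext
  intro m
  rw [Module.End.mul_apply, mon_single, mon_single, X_single]
  congr 1
  fin_cases i <;> ext <;> simp [ev, eN] <;> ring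

theorem mon_mul_D (g : K) (i : Fin 2) (a b : ℕ × ℕ) : mon g a b * D g i = mon g a (b + eN i) := by
  apply op_ext
  intro m
  rw [Module.End.mul_apply, mon_single, D_single, mon_single]
  fin_cases i
  · congr 1
    · ext <;> simp [ev, eN] <;> ring
    · simp only [Fin.zero_eta, Fin.isValue, co, ev, eN, if_true, Prod.fst_sub, Prod.snd_sub,
        Prod.fst_add, Prod.snd_add, sub_zero, add_zero, fac_succ', mul_one]
      ring
  · congr 1
    · ext <;> simp [ev, eN] <;> ring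
    · simp only [Fin.mk_one, Fin.isValue, co, ev, eN, one_ne_zero, if_false, Prod.fst_sub,
        Prod.snd_sub, Prod.fst_add, Prod.snd_add, sub_zero, add_zero, fac_succ', mul_one]
      ring

theorem D_mul_mon {g : K} (hg : Gen g) (i : Fin 2) (a b : ℕ × ℕ) :
    D g i * mon g a b = g ^ (-(cN i a : ℤ)) • mon g a (b + eN i) +
      cq g (cN i a) • mon g (a - eN i) b := by
  apply op_ext
  intro m
  rw [Module.End.mul_apply, LinearMap.add_apply, LinearMap.smul_apply, LinearMap.smul_apply,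
    mon_single, mon_single, mon_single, D_single, Finsupp.smul_single, Finsupp.smul_single]
  obtain ⟨a0, a1⟩ := a
  obtain ⟨b0, b1⟩ := b
  fin_cases i
  · rcases Nat.eq_zero_or_pos a0 with h0 | h0
    · subst h0
      simp only [Fin.zero_eta, Fin.isValue, co, ev, eN, cN, if_true, Nat.cast_zero, neg_zero,
        zpow_zero, cq_zero, zero_smul, Finsupp.single_zero, add_zero, one_smul, Prod.mk_add_mk,
        fac_succ, mul_one, Prod.mk_sub_mk]
      congr 1
      · ext <;> simp <;> ring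
      · ring
    · obtain ⟨a0, rfl⟩ : ∃ t, a0 = t + 1 := ⟨a0 - 1, by omega⟩
      simp only [Fin.zero_eta, Fin.isValue, co, ev, eN, cN, if_true, Prod.mk_add_mk,
        fac_succ, mul_one, Prod.mk_sub_mk, add_zero, Nat.add_sub_cancel, tsub_zero, smul_eq_mul]
      rw [show ((m.1 + ((a0 + 1 : ℕ) : ℤ) - ((b0 + 1 : ℕ) : ℤ), m.2 + (a1 : ℤ) - (b1 : ℤ)) : ℤ × ℤ) =
        (m.1 + (a0 : ℤ) - (b0 : ℤ), m.2 + (a1 : ℤ) - (b1 : ℤ)) by ext <;> push_cast <;> ring,
        ← Finsupp.single_add]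
      congr 1
      · ext <;> push_cast <;> ring
      · rw [show m.1 + ((a0 + 1 : ℕ) : ℤ) - (b0 : ℤ) = (m.1 - b0) + ((a0 + 1 : ℕ) : ℤ) by ring,
          cq_add hg]
        ring
  · rcases Nat.eq_zero_or_pos a1 with h0 | h0
    · subst h0
      simp only [Fin.mk_one, Fin.isValue, co, ev, eN, cN, one_ne_zero, if_false, Nat.cast_zero,
        neg_zero, zpow_zero, cq_zero, zero_smul, Finsupp.single_zero, add_zero, one_smul,
        Prod.mk_add_mk, fac_succ, mul_one, Prod.mk_sub_mk]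
      congr 1
      · ext <;> simp <;> ring
      · ring
    · obtain ⟨a1, rfl⟩ : ∃ t, a1 = t + 1 := ⟨a1 - 1, by omega⟩
      simp only [Fin.mk_one, Fin.isValue, co, ev, eN, cN, one_ne_zero, if_false, Prod.mk_add_mk,
        fac_succ, mul_one, Prod.mk_sub_mk, add_zero, Nat.add_sub_cancel, tsub_zero, smul_eq_mul]
      rw [show ((m.1 + (a0 : ℤ) - (b0 : ℤ), m.2 + ((a1 + 1 : ℕ) : ℤ) - ((b1 + 1 : ℕ) : ℤ)) : ℤ × ℤ) =
        (m.1 + (a0 : ℤ) - (b0 : ℤ), m.2 + (a1 : ℤ) - (b1 : ℤ)) by ext <;> push_cast <;> ring,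
        ← Finsupp.single_add]
      congr 1
      · ext <;> push_cast <;> ring
      · rw [show m.2 + ((a1 + 1 : ℕ) : ℤ) - (b1 : ℤ) = (m.2 - b1) + ((a1 + 1 : ℕ) : ℤ) by ring,
          cq_add hg]
        ring

/-- the one variable identity behind `d^b x = g^(-b) x d^b + c(b) d^(b-1)` -/
theorem fac_shift {g : K} (hg : Gen g) (b : ℕ) (m : ℤ) :
    fac g (b + 1) (m + 1) = g ^ (-((b + 1 : ℕ) : ℤ)) * fac g (b + 1) m +
      cq g ((b + 1 : ℕ) : ℤ) * fac g b m := by
  rw [fac_succ', add_sub_cancel_right, fac_succ]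
  have h := cq_add hg (m - b) ((b + 1 : ℕ) : ℤ)
  rw [show m - (b : ℤ) + ((b + 1 : ℕ) : ℤ) = m + 1 by push_cast; ring] at h
  rw [h]
  ring

theorem mon_mul_X {g : K} (hg : Gen g) (i : Fin 2) (a b : ℕ × ℕ) :
    mon g a b * X i = g ^ (-(cN i b : ℤ)) • mon g (a + eN i) b +
      cq g (cN i b) • mon g a (b - eN i) := by
  apply op_ext
  intro m
  rw [Module.End.mul_apply, LinearMap.add_apply, LinearMap.smul_apply, LinearMap.smul_apply,
    X_single, mon_single, mon_single, mon_single, Finsupp.smul_single, Finsupp.smul_single]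
  obtain ⟨a0, a1⟩ := a
  obtain ⟨b0, b1⟩ := b
  fin_cases i
  · rcases Nat.eq_zero_or_pos b0 with h0 | h0
    · subst h0
      simp only [Fin.zero_eta, Fin.isValue, ev, eN, cN, if_true, Nat.cast_zero, neg_zero,
        zpow_zero, cq_zero, zero_smul, Finsupp.single_zero, add_zero, one_smul, Prod.mk_add_mk,
        fac_zero, mul_one, Prod.mk_sub_mk, Prod.fst_add, Prod.snd_add]
      congr 1
      ext <;> simp <;> ring
    · obtain ⟨b0, rfl⟩ : ∃ t, b0 = t + 1 := ⟨b0 - 1, by omega⟩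
      simp only [Fin.zero_eta, Fin.isValue, ev, eN, cN, if_true, Prod.mk_add_mk,
        mul_one, Prod.mk_sub_mk, add_zero, Nat.add_sub_cancel, tsub_zero, smul_eq_mul,
        Prod.fst_add, Prod.snd_add]
      rw [show ((m.1 + ((a0 + 1 : ℕ) : ℤ) - ((b0 + 1 : ℕ) : ℤ), m.2 + (a1 : ℤ) - (b1 : ℤ)) : ℤ × ℤ) =
        (m.1 + (a0 : ℤ) - (b0 : ℤ), m.2 + (a1 : ℤ) - (b1 : ℤ)) by ext <;> push_cast <;> ring,
        ← Finsupp.single_add]
      congr 1
      · ext <;> push_cast <;> ring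
      · rw [fac_shift hg]
        ring
  · rcases Nat.eq_zero_or_pos b1 with h0 | h0
    · subst h0
      simp only [Fin.mk_one, Fin.isValue, ev, eN, cN, one_ne_zero, if_false, Nat.cast_zero, neg_zero,
        zpow_zero, cq_zero, zero_smul, Finsupp.single_zero, add_zero, one_smul, Prod.mk_add_mk,
        fac_zero, mul_one, Prod.mk_sub_mk, Prod.fst_add, Prod.snd_add]
      congr 1
      ext <;> simp <;> ring
    · obtain ⟨b1, rfl⟩ : ∃ t, b1 = t + 1 := ⟨b1 - 1, by omega⟩
      simp only [Fin.mk_one, Fin.isValue, ev, eN, cN, one_ne_zero, if_false, Prod.mk_add_mk,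
        mul_one, Prod.mk_sub_mk, add_zero, Nat.add_sub_cancel, tsub_zero, smul_eq_mul,
        Prod.fst_add, Prod.snd_add]
      rw [show ((m.1 + (a0 : ℤ) - (b0 : ℤ), m.2 + ((a1 + 1 : ℕ) : ℤ) - ((b1 + 1 : ℕ) : ℤ)) : ℤ × ℤ) =
        (m.1 + (a0 : ℤ) - (b0 : ℤ), m.2 + (a1 : ℤ) - (b1 : ℤ)) by ext <;> push_cast <;> ring,
        ← Finsupp.single_add]
      congr 1
      · ext <;> push_cast <;> ring
      · rw [fac_shift hg]
        ring

/-! ### the pieces under multiplication by the generators -/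

theorem X_mul_mem {g : K} {k P : ℤ} {T : Op K} (i : Fin 2) (hT : T ∈ Fil g k P) :
    X i * T ∈ Fil g k (P + 1) := by
  induction hT using Submodule.span_induction with
  | mem x hx =>
    obtain ⟨a, b, h1, h2, rfl⟩ := hx
    rw [X_mul_mon]
    refine mon_mem g _ _ h1 ?_
    fin_cases i <;> simp [eN] <;> omega
  | zero => rw [mul_zero]; exact zero_mem _
  | add x y _ _ hx hy => rw [mul_add]; exact add_mem hx hy
  | smul a x _ hx => rw [mul_smul_comm]; exact Submodule.smul_mem _ _ hx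

theorem mul_D_mem {g : K} {k P : ℤ} {T : Op K} (i : Fin 2) (hT : T ∈ Fil g k P) :
    T * D g i ∈ Fil g (k + 1) (P - 1) := by
  induction hT using Submodule.span_induction with
  | mem x hx =>
    obtain ⟨a, b, h1, h2, rfl⟩ := hx
    rw [mon_mul_D]
    refine mon_mem g _ _ ?_ ?_
    · fin_cases i <;> simp [eN] <;> omega
    · fin_cases i <;> simp [eN] <;> omega
  | zero => rw [zero_mul]; exact zero_mem _
  | add x y _ _ hx hy => rw [add_mul]; exact add_mem hx hy
  | smul a x _ hx => rw [smul_mul_assoc]; exact Submodule.smul_mem _ _ hx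

theorem D_mul_mem {g : K} (hg : Gen g) {k P : ℤ} {T : Op K} (i : Fin 2) (hT : T ∈ Fil g k P) :
    D g i * T ∈ Fil g (k + 1) (P - 1) := by
  induction hT using Submodule.span_induction with
  | mem x hx =>
    obtain ⟨a, b, h1, h2, rfl⟩ := hx
    rw [D_mul_mon hg]
    refine add_mem (Submodule.smul_mem _ _ (mon_mem g _ _ ?_ ?_)) ?_
    · fin_cases i <;> simp [eN] <;> omega
    · fin_cases i <;> simp [eN] <;> omega
    · by_cases h0 : cN i a = 0
      · rw [h0, Nat.cast_zero, cq_zero, zero_smul]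
        exact zero_mem _
      · refine Submodule.smul_mem _ _ (mon_mem g _ _ (by omega) ?_)
        fin_cases i <;> simp [eN, cN] at h0 ⊢ <;> omega
  | zero => rw [mul_zero]; exact zero_mem _
  | add x y _ _ hx hy => rw [mul_add]; exact add_mem hx hy
  | smul a x _ hx => rw [mul_smul_comm]; exact Submodule.smul_mem _ _ hx

theorem mul_X_mem {g : K} (hg : Gen g) {k P : ℤ} {T : Op K} (i : Fin 2) (hT : T ∈ Fil g k P) :
    T * X i ∈ Fil g k (P + 1) := by
  induction hT using Submodule.span_induction with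
  | mem x hx =>
    obtain ⟨a, b, h1, h2, rfl⟩ := hx
    rw [mon_mul_X hg]
    refine add_mem (Submodule.smul_mem _ _ (mon_mem g _ _ h1 ?_)) ?_
    · fin_cases i <;> simp [eN] <;> omega
    · by_cases h0 : cN i b = 0
      · rw [h0, Nat.cast_zero, cq_zero, zero_smul]
        exact zero_mem _
      · refine Submodule.smul_mem _ _ (mon_mem g _ _ ?_ ?_)
        · fin_cases i <;> simp [eN, cN] at h0 ⊢ <;> omega
        · fin_cases i <;> simp [eN, cN] at h0 ⊢ <;> omega
  | zero => rw [zero_mul]; exact zero_mem _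
  | add x y _ _ hx hy => rw [add_mul]; exact add_mem hx hy
  | smul a x _ hx => rw [smul_mul_assoc]; exact Submodule.smul_mem _ _ hx

theorem Xpow_mul_mem {g : K} {k P : ℤ} {T : Op K} (i : Fin 2) (n : ℕ) (hT : T ∈ Fil g k P) :
    X i ^ n * T ∈ Fil g k (P + n) := by
  induction n with
  | zero => simpa using hT
  | succ n ih =>
    rw [pow_succ', mul_assoc]
    have := X_mul_mem i ih
    rwa [show P + (n : ℤ) + 1 = P + ((n + 1 : ℕ) : ℤ) by push_cast; ring] at this

theorem Dpow_mul_mem {g : K} (hg : Gen g) {k P : ℤ} {T : Op K} (i : Fin 2) (n : ℕ)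
    (hT : T ∈ Fil g k P) : D g i ^ n * T ∈ Fil g (k + n) (P - n) := by
  induction n with
  | zero => simpa using hT
  | succ n ih =>
    rw [pow_succ', mul_assoc]
    have := D_mul_mem hg i ih
    rwa [show k + (n : ℤ) + 1 = k + ((n + 1 : ℕ) : ℤ) by push_cast; ring,
      show P - (n : ℤ) - 1 = P - ((n + 1 : ℕ) : ℤ) by push_cast; ring] at this

/-- the filtration is multiplicative -/
theorem Fil_mul {g : K} (hg : Gen g) {k l P Q : ℤ} {S T : Op K} (hS : S ∈ Fil g k P)
    (hT : T ∈ Fil g l Q) : S * T ∈ Fil g (k + l) (P + Q) := by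
  induction hS using Submodule.span_induction with
  | mem x hx =>
    obtain ⟨a, b, h1, h2, rfl⟩ := hx
    have h := Xpow_mul_mem 0 a.1 (Xpow_mul_mem 1 a.2 (Dpow_mul_mem hg 0 b.1
      (Dpow_mul_mem hg 1 b.2 hT)))
    rw [mon]
    simp only [mul_assoc]
    rw [show Q - (b.2 : ℤ) - b.1 + a.2 + a.1 = P + Q by omega] at h
    exact Fil_mono g (by omega) h
  | zero => rw [zero_mul]; exact zero_mem _
  | add x y _ _ hx hy => rw [add_mul]; exact add_mem hx hy
  | smul a x _ hx => rw [smul_mul_assoc]; exact Submodule.smul_mem _ _ hx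

/-- the index set of a piece -/
def idx (k P : ℤ) : Set ((ℕ × ℕ) × (ℕ × ℕ)) :=
  {p | (p.2.1 : ℤ) + p.2.2 ≤ k ∧ (p.1.1 : ℤ) + p.1.2 - (p.2.1 + p.2.2) = P}

theorem idx_finite (k P : ℤ) : (idx k P).Finite := by
  refine Set.Finite.subset (((Finset.range (P + k).toNat.succ ×ˢ Finset.range (P + k).toNat.succ) ×ˢ
    (Finset.range k.toNat.succ ×ˢ Finset.range k.toNat.succ)).finite_toSet) ?_
  rintro ⟨⟨a0, a1⟩, ⟨b0, b1⟩⟩ ⟨h1, h2⟩
  simp only [Finset.coe_product, Set.mem_prod, Finset.mem_coe, Finset.mem_range] at *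
  omega

theorem Fil_eq_span (g : K) (k P : ℤ) :
    Fil g k P = Submodule.span K ((fun p : (ℕ × ℕ) × (ℕ × ℕ) => mon g p.1 p.2) '' idx k P) := by
  unfold Fil
  congr 1
  ext T
  constructor
  · rintro ⟨a, b, h1, h2, rfl⟩
    exact ⟨(a, b), ⟨h1, h2⟩, rfl⟩
  · rintro ⟨⟨a, b⟩, ⟨h1, h2⟩, rfl⟩
    exact ⟨a, b, h1, h2, rfl⟩

instance Fil_finite (g : K) (k P : ℤ) : Module.Finite K (Fil g k P) := by
  rw [Fil_eq_span]
  exact Module.Finite.span_of_finite K ((idx_finite k P).image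
    (fun p : (ℕ × ℕ) × (ℕ × ℕ) => mon g p.1 p.2))

/-! ### the reversed order -/

theorem D_mul_rmon (g : K) (i : Fin 2) (a b : ℕ × ℕ) :
    D g i * rmon g a b = rmon g a (b + eN i) := by
  apply op_ext
  intro m
  rw [Module.End.mul_apply, rmon_single, rmon_single, D_single]
  fin_cases i
  · congr 1
    · ext <;> simp [ev, eN] <;> ring
    · simp only [Fin.zero_eta, Fin.isValue, co, eN, if_true, Prod.fst_add, Prod.snd_add, add_zero,
        fac_succ, mul_one]
      ring
  · congr 1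
    · ext <;> simp [ev, eN] <;> ring
    · simp only [Fin.mk_one, Fin.isValue, co, eN, one_ne_zero, if_false, Prod.fst_add,
        Prod.snd_add, add_zero, fac_succ, mul_one]
      ring

theorem rmon_mul_X (g : K) (i : Fin 2) (a b : ℕ × ℕ) :
    rmon g a b * X i = rmon g (a + eN i) b := by
  apply op_ext
  intro m
  rw [Module.End.mul_apply, rmon_single, X_single, rmon_single]
  fin_cases i
  · simp only [Fin.zero_eta, Fin.isValue, ev, eN, if_true, Prod.fst_add, Prod.snd_add, add_zero]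
    push_cast
    congr 1
    · ext <;> simp <;> ring
    · rw [show m.1 + 1 + (a.1 : ℤ) = m.1 + (a.1 + 1) by ring]
  · simp only [Fin.mk_one, Fin.isValue, ev, eN, one_ne_zero, if_false, Prod.fst_add,
      Prod.snd_add, add_zero]
    push_cast
    congr 1
    · ext <;> simp <;> ring
    · rw [show m.2 + 1 + (a.2 : ℤ) = m.2 + (a.2 + 1) by ring]

theorem fac_shift' {g : K} (hg : Gen g) (b : ℕ) (m : ℤ) :
    fac g (b + 1) m = g ^ ((b + 1 : ℕ) : ℤ) * fac g (b + 1) (m + 1) -
      g ^ ((b + 1 : ℕ) : ℤ) * cq g ((b + 1 : ℕ) : ℤ) * fac g b m := by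
  rw [fac_shift hg, mul_add, ← mul_assoc, ← zpow_add₀ hg.1, add_neg_cancel, zpow_zero]
  ring

theorem X_mul_rmon {g : K} (hg : Gen g) (i : Fin 2) (a b : ℕ × ℕ) :
    X i * rmon g a b = g ^ (cN i b : ℤ) • rmon g (a + eN i) b +
      (-(g ^ (cN i b : ℤ) * cq g (cN i b))) • rmon g a (b - eN i) := by
  apply op_ext
  intro m
  rw [Module.End.mul_apply, LinearMap.add_apply, LinearMap.smul_apply, LinearMap.smul_apply,
    rmon_single, rmon_single, rmon_single, X_single, Finsupp.smul_single, Finsupp.smul_single]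
  obtain ⟨a0, a1⟩ := a
  obtain ⟨b0, b1⟩ := b
  fin_cases i
  · rcases Nat.eq_zero_or_pos b0 with h0 | h0
    · subst h0
      simp only [Fin.zero_eta, Fin.isValue, ev, eN, cN, if_true, Nat.cast_zero,
        zpow_zero, cq_zero, mul_zero, neg_zero, zero_smul, Finsupp.single_zero, add_zero, one_smul,
        Prod.mk_add_mk, fac_zero, mul_one, Prod.mk_sub_mk]
      congr 1
      ext <;> simp <;> ring
    · obtain ⟨b0, rfl⟩ : ∃ t, b0 = t + 1 := ⟨b0 - 1, by omega⟩
      simp only [Fin.zero_eta, Fin.isValue, ev, eN, cN, if_true, Prod.mk_add_mk,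
        mul_one, Prod.mk_sub_mk, add_zero, Nat.add_sub_cancel, tsub_zero, smul_eq_mul]
      rw [show ((m.1 + ((a0 + 1 : ℕ) : ℤ) - ((b0 + 1 : ℕ) : ℤ), m.2 + (a1 : ℤ) - (b1 : ℤ)) : ℤ × ℤ) =
        (m.1 + (a0 : ℤ) - (b0 : ℤ), m.2 + (a1 : ℤ) - (b1 : ℤ)) by ext <;> push_cast <;> ring,
        ← Finsupp.single_add]
      congr 1
      · ext <;> push_cast <;> ring
      · rw [fac_shift' hg b0 (m.1 + a0), show m.1 + ((a0 + 1 : ℕ) : ℤ) = m.1 + a0 + 1 by
          push_cast; ring]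
        ring
  · rcases Nat.eq_zero_or_pos b1 with h0 | h0
    · subst h0
      simp only [Fin.mk_one, Fin.isValue, ev, eN, cN, one_ne_zero, if_false, Nat.cast_zero,
        zpow_zero, cq_zero, mul_zero, neg_zero, zero_smul, Finsupp.single_zero, add_zero, one_smul,
        Prod.mk_add_mk, fac_zero, mul_one, Prod.mk_sub_mk]
      congr 1
      ext <;> simp <;> ring
    · obtain ⟨b1, rfl⟩ : ∃ t, b1 = t + 1 := ⟨b1 - 1, by omega⟩
      simp only [Fin.mk_one, Fin.isValue, ev, eN, cN, one_ne_zero, if_false, Prod.mk_add_mk,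
        mul_one, Prod.mk_sub_mk, add_zero, Nat.add_sub_cancel, tsub_zero, smul_eq_mul]
      rw [show ((m.1 + (a0 : ℤ) - (b0 : ℤ), m.2 + ((a1 + 1 : ℕ) : ℤ) - ((b1 + 1 : ℕ) : ℤ)) : ℤ × ℤ) =
        (m.1 + (a0 : ℤ) - (b0 : ℤ), m.2 + (a1 : ℤ) - (b1 : ℤ)) by ext <;> push_cast <;> ring,
        ← Finsupp.single_add]
      congr 1
      · ext <;> push_cast <;> ring
      · rw [fac_shift' hg b1 (m.2 + a1), show m.2 + ((a1 + 1 : ℕ) : ℤ) = m.2 + a1 + 1 by
          push_cast; ring]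
        ring

/-- the pieces, in the reversed order -/
noncomputable def RFil (g : K) (k P : ℤ) : Submodule K (Op K) :=
  Submodule.span K ((fun p : (ℕ × ℕ) × (ℕ × ℕ) => rmon g p.1 p.2) '' idx k P)

theorem rmon_mem_RFil (g : K) (a b : ℕ × ℕ) {k P : ℤ} (h1 : (b.1 : ℤ) + b.2 ≤ k)
    (h2 : (a.1 : ℤ) + a.2 - (b.1 + b.2) = P) : rmon g a b ∈ RFil g k P :=
  Submodule.subset_span ⟨(a, b), ⟨h1, h2⟩, rfl⟩

theorem RFil_X_mul {g : K} (hg : Gen g) {k P : ℤ} {T : Op K} (i : Fin 2) (hT : T ∈ RFil g k P) :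
    X i * T ∈ RFil g k (P + 1) := by
  induction hT using Submodule.span_induction with
  | mem x hx =>
    obtain ⟨⟨a, b⟩, ⟨h1, h2⟩, rfl⟩ := hx
    simp only at h1 h2 ⊢
    rw [X_mul_rmon hg]
    refine add_mem (Submodule.smul_mem _ _ (rmon_mem_RFil g _ _ h1 ?_)) ?_
    · fin_cases i <;> simp [eN] <;> omega
    · by_cases h0 : cN i b = 0
      · rw [h0, Nat.cast_zero, cq_zero, mul_zero, neg_zero, zero_smul]
        exact zero_mem _
      · refine Submodule.smul_mem _ _ (rmon_mem_RFil g _ _ ?_ ?_)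
        · fin_cases i <;> simp [eN, cN] at h0 ⊢ <;> omega
        · fin_cases i <;> simp [eN, cN] at h0 ⊢ <;> omega
  | zero => rw [mul_zero]; exact zero_mem _
  | add x y _ _ hx hy => rw [mul_add]; exact add_mem hx hy
  | smul a x _ hx => rw [mul_smul_comm]; exact Submodule.smul_mem _ _ hx

theorem RFil_Xpow_mul {g : K} (hg : Gen g) {k P : ℤ} {T : Op K} (i : Fin 2) (n : ℕ)
    (hT : T ∈ RFil g k P) : X i ^ n * T ∈ RFil g k (P + n) := by
  induction n with
  | zero => simpa using hT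
  | succ n ih =>
    rw [pow_succ', mul_assoc]
    have := RFil_X_mul hg i ih
    rwa [show P + (n : ℤ) + 1 = P + ((n + 1 : ℕ) : ℤ) by push_cast; ring] at this

/-- **the two orders give the same pieces** -/
theorem Fil_eq_RFil {g : K} (hg : Gen g) (k P : ℤ) : Fil g k P = RFil g k P := by
  apply le_antisymm
  · refine Submodule.span_le.2 ?_
    rintro T ⟨a, b, h1, h2, rfl⟩
    have h := RFil_Xpow_mul hg 0 a.1 (RFil_Xpow_mul hg 1 a.2
      (rmon_mem_RFil g (0, 0) b (k := k) (P := -(b.1 + b.2)) h1 (by simp)))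
    rw [show -((b.1 : ℤ) + b.2) + a.2 + a.1 = P by omega] at h
    have e : mon g a b = X 0 ^ a.1 * (X 1 ^ a.2 * rmon g (0, 0) b) := by
      simp [mon, rmon, mul_assoc]
    rw [e]
    exact h
  · refine Submodule.span_le.2 ?_
    rintro T ⟨⟨a, b⟩, ⟨h1, h2⟩, rfl⟩
    simp only at h1 h2 ⊢
    have h := Dpow_mul_mem hg 0 b.1 (Dpow_mul_mem hg 1 b.2
      (mon_mem g a (0, 0) (k := 0) (P := a.1 + a.2) (by simp) (by simp)))
    rw [show (a.1 : ℤ) + a.2 - b.2 - b.1 = P by omega] at h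
    have e : rmon g a b = D g 0 ^ b.1 * (D g 1 ^ b.2 * mon g a (0, 0)) := by
      simp [mon, rmon, mul_assoc]
    rw [e]
    exact Fil_mono g (by omega) h

theorem Fil_eq_span_rmon {g : K} (hg : Gen g) (k P : ℤ) :
    Fil g k P = Submodule.span K ((fun p : (ℕ × ℕ) × (ℕ × ℕ) => rmon g p.1 p.2) '' idx k P) :=
  Fil_eq_RFil hg k P

end FD757

end Crest.Agent.R186.B281
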