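import Crest.Agent.R186.FinA_162
import Crest.Agent.R186.FDord_757
import Crest.Agent.R186.RingA_580
import Crest.Agent.R186.InstP_713
import Crest.Agent.R186.Dev_580

/-!
Row 186, S0281, base, leaf B281.F2 (helper580): THE PROJECTIVES.

* `Pv g s v = A eps_v = {x | x * eps_v = x}`, `v : Fin 5` (`0 = O(0)`, `1 = O(-1)`, `2 = O(-2)`,
  `3 = K₁(-s)`, `4 = K₂`), with all instances;
* `mem_Pv`, `mem_Pv'` : entrywise description;
* `mulR v m : Pv g s v →ₗ Pv g s w` : right multiplication by `m : Pv g s w`;
* `ofM`, `ofF`, `ofS` : elements of `A g s` from matrices.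
-/

set_option autoImplicit false
set_option linter.unusedSectionVars false

open Matrix

namespace Crest.Agent.R186.B281

variable {K : Type} [Field K]

/-- the projective `A eps_v` -/
noncomputable abbrev Pv (g : K) (s : ℤ) (v : Fin 5) : Submodule (A g s) (A g s) := Dev580.Pm (eps g s v)

section inst

variable (g : K) (s : ℤ) (v : Fin 5)

noncomputable instance iPv_grp : AddCommGroup (Pv g s v) := iPg _
noncomputable instance iPv_mod : Module (A g s) (Pv g s v) := iPm _
noncomputable instance iPv_modK : Module K (Pv g s v) := iPk _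
noncomputable instance iPv_tow : IsScalarTower K (A g s) (Pv g s v) := iPt _
instance iPv_finK : Module.Finite K (Pv g s v) :=
  Module.Finite.of_injective ((Pv g s v).subtype.restrictScalars K) Subtype.val_injective
instance iPv_fin : Module.Finite (A g s) (Pv g s v) := Dev580.finite_Pm (eps_idem g s v)
instance iPv_proj : Module.Projective (A g s) (Pv g s v) :=
  Dev580.projective_Pm (eps_idem g s v)

end inst

variable {g : K} {s : ℤ}

theorem Pv_mul {v : Fin 5} (x : Pv g s v) : (x : A g s) * eps g s v = x := x.2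

theorem Pv_smul {v : Fin 5} (a : A g s) (x : Pv g s v) :
    ((a • x : Pv g s v) : A g s) = a * x := rfl

theorem mul_idp_apply (M : Mat K) (v : Fin 5) (i j : Fin 7) :
    (M * idp K v) i j = if blk j = v then M i j else 0 := by
  have := congrFun (vecMul_idp v (M i)) j
  exact this

theorem fst_mul_eps (x : A g s) (v : Fin 5) (i j : Fin 7) :
    (x * eps g s v).1.fst i j = if blk j = v then x.1.fst i j else 0 := by
  have h : (x * eps g s v).1.fst = x.1.fst * idp K v := rfl
  rw [h, mul_idp_apply]

theorem snd_mul_eps (x : A g s) (v : Fin 5) (i j : Fin 7) :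
    (x * eps g s v).1.snd i j = if blk j = v then x.1.snd i j else 0 := by
  have h : (x * eps g s v).1.snd = x.1.snd * idp K v := by
    change (x.1 * TrivSqZeroExt.inl (idp K v)).snd = _
    rw [TrivSqZeroExt.snd_mul, TrivSqZeroExt.snd_inl, TrivSqZeroExt.fst_inl, smul_zero, zero_add,
      MulOpposite.smul_eq_mul_unop, MulOpposite.unop_op]
  rw [h, mul_idp_apply]

theorem A_ext {x y : A g s} (h : ∀ i j, x.1.fst i j = y.1.fst i j)
    (h' : ∀ i j, x.1.snd i j = y.1.snd i j) : x = y :=
  Subtype.ext (TrivSqZeroExt.ext (funext fun i => funext fun j => h i j)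
    (funext fun i => funext fun j => h' i j))

/-- membership in `Pv` by entries -/
theorem mem_Pv {v : Fin 5} {x : A g s} : x ∈ Pv g s v ↔
    ∀ i j, blk j ≠ v → x.1.fst i j = 0 ∧ x.1.snd i j = 0 := by
  rw [Dev580.mem_Pm]
  constructor
  · intro h i j hj
    rw [← h, fst_mul_eps, snd_mul_eps, if_neg hj, if_neg hj]
    exact ⟨rfl, rfl⟩
  · intro h
    refine A_ext (fun i j => ?_) (fun i j => ?_)
    · rw [fst_mul_eps]
      split_ifs with hj
      · rfl
      · exact (h i j hj).1.symm
    · rw [snd_mul_eps]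
      split_ifs with hj
      · rfl
      · exact (h i j hj).2.symm

/-- right multiplication by `m ∈ A eps_w` -/
noncomputable def mulR (v : Fin 5) {w : Fin 5} (m : Pv g s w) : Pv g s v →ₗ[A g s] Pv g s w :=
  Dev580.rmul (m : A g s) m.2

theorem mulR_coe (v : Fin 5) {w : Fin 5} (m : Pv g s w) (x : Pv g s v) :
    (mulR v m x : A g s) = x * m := rfl

/-- the generator -/
noncomputable def Pgen (g : K) (s : ℤ) (v : Fin 5) : Pv g s v := Dev580.gen (eps_idem g s v)

/-- element from a pair of matrices -/
def ofM (M N : Mat K) (hM : Pres g s 0 M) (hN : Pres g s 1 N) : A g s := ⟨(M, N), hM, hN⟩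

theorem ofM_fst (M N : Mat K) (hM : Pres g s 0 M) (hN : Pres g s 1 N) :
    (ofM M N hM hN).1.fst = M := rfl

theorem ofM_snd (M N : Mat K) (hM : Pres g s 0 M) (hN : Pres g s 1 N) :
    (ofM M N hM hN).1.snd = N := rfl

theorem fst_mulA (x y : A g s) : (x * y).1.fst = x.1.fst * y.1.fst := rfl

theorem snd_mulA (x y : A g s) :
    (x * y).1.snd = x.1.fst * y.1.snd + x.1.snd * y.1.fst := by
  change (x.1 * y.1).snd = _
  rw [TrivSqZeroExt.snd_mul, smul_eq_mul, MulOpposite.smul_eq_mul_unop, MulOpposite.unop_op]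

end Crest.Agent.R186.B281
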