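import Crest.Agent.R186.B281W2_128
import Crest.Agent.R186.KGen_693
import Crest.Agent.R186.PDef_580

/-!
Row 186, S0281 (helper128): the families of the five vertices and `W (TV v) ≃ A e_v`.
-/

set_option autoImplicit false
set_option linter.unusedSectionVars false
set_option linter.unusedVariables false

open Matrix

noncomputable section

namespace Crest.Agent.R186.B281

variable {K : Type} [Field K] {g : K}

/-! ### the families of the vertices -/

/-- the family of `O(-c)` -/
def TO (hg : Gen g) (c : ℤ) : Fam g where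
  N := Op K
  L k P := Fil g (k - c) P
  mono h := Fil_mono g (by omega)
  smul {j e k P T n} hT hn := by
    have := FD757.Fil_mul hg hT hn
    rw [show j + (k - c) = k + j - c by omega, show e + P = P + e by omega] at this
    exact this

/-- the family of the bundle of pairs -/
def TK (hg : Gen g) (c d : ℤ) : Fam g where
  N := Fin 2 → Op K
  L k P :=
    { carrier := {v | v 0 ∈ Fil g (k - c) P ∧ v 1 ∈ Fil g (k - c) P ∧
        v 0 * X 0 + v 1 * X 1 ∈ Fil g (k - d) (P + 1)}
      zero_mem' := ⟨zero_mem _, zero_mem _, by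
        show (0 : Op K) * X 0 + 0 * X 1 ∈ _
        rw [zero_mul, zero_mul, add_zero]
        exact zero_mem _⟩
      add_mem' := fun {v w} hv hw => ⟨add_mem hv.1 hw.1, add_mem hv.2.1 hw.2.1, by
        have := add_mem hv.2.2 hw.2.2
        show (v 0 + w 0) * X 0 + (v 1 + w 1) * X 1 ∈ _
        convert this using 1
        rw [add_mul, add_mul]
        abel⟩
      smul_mem' := fun t v hv => ⟨Submodule.smul_mem _ t hv.1, Submodule.smul_mem _ t hv.2.1, by
        have := Submodule.smul_mem _ t hv.2.2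
        show (t • v 0) * X 0 + (t • v 1) * X 1 ∈ _
        convert this using 1
        rw [smul_mul_assoc, smul_mul_assoc, smul_add]⟩ }
  mono h := fun v hv => ⟨Fil_mono g (by omega) hv.1, Fil_mono g (by omega) hv.2.1,
    Fil_mono g (by omega) hv.2.2⟩
  smul {j e k P T n} hT hn := by
    refine ⟨?_, ?_, ?_⟩
    · have := FD757.Fil_mul hg hT hn.1
      rw [show j + (k - c) = k + j - c by omega, show e + P = P + e by omega] at this
      exact this
    · have := FD757.Fil_mul hg hT hn.2.1
      rw [show j + (k - c) = k + j - c by omega, show e + P = P + e by omega] at this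
      exact this
    · have := FD757.Fil_mul hg hT hn.2.2
      rw [show j + (k - d) = k + j - d by omega, show e + (P + 1) = P + e + 1 by omega] at this
      show (T * n 0) * X 0 + (T * n 1) * X 1 ∈ _
      rw [mul_assoc, mul_assoc, ← mul_add]
      exact this

theorem mem_TO (hg : Gen g) (c k P : ℤ) (T : Op K) : T ∈ (TO hg c).L k P ↔ T ∈ Fil g (k - c) P :=
  Iff.rfl

theorem mem_TK (hg : Gen g) (c d k P : ℤ) (v : Fin 2 → Op K) : v ∈ (TK hg c d).L k P ↔
    v 0 ∈ Fil g (k - c) P ∧ v 1 ∈ Fil g (k - c) P ∧ v 0 * X 0 + v 1 * X 1 ∈ Fil g (k - d) (P + 1) :=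
  Iff.rfl

/-! ### `W` of a block -/

/-- a family which is a block of positions of the rows -/
structure Emb (F : Fam g) (s : ℤ) (B : Fin 7 → Bool) where
  ι : F.N →ₗ[Op K] (Fin 7 → Op K)
  π : (Fin 7 → Op K) →ₗ[Op K] F.N
  πι : ∀ n, π (ι n) = n
  ιπ : ∀ r j, ι (π r) j = if B j then r j else 0
  mem : ∀ k P n, n ∈ F.L k P ↔ ι n ∈ Lat g s k P

theorem A_mul_fst {s : ℤ} (x y : A g s) (i j : Fin 7) :
    (x * y).1.fst i j = ∑ l, x.1.fst i l * y.1.fst l j := by
  show (x.1 * y.1).fst i j = _
  rw [TrivSqZeroExt.fst_mul, Matrix.mul_apply]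

theorem A_mul_snd {s : ℤ} (x y : A g s) (i j : Fin 7) :
    (x * y).1.snd i j = ∑ l, x.1.fst i l * y.1.snd l j + ∑ l, x.1.snd i l * y.1.fst l j := by
  show (x.1 * y.1).snd i j = _
  rw [TrivSqZeroExt.snd_mul, smul_eq_mul, MulOpposite.smul_eq_mul_unop, MulOpposite.unop_op,
    Matrix.add_apply, Matrix.mul_apply, Matrix.mul_apply]

/-- the elements of `A g s` supported in the columns of a block -/
def ColP (g : K) (s : ℤ) (B : Fin 7 → Bool) : Submodule (A g s) (A g s) where
  carrier := {x | ∀ i j, B j = false → x.1.fst i j = 0 ∧ x.1.snd i j = 0}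
  zero_mem' := fun i j _ => ⟨rfl, rfl⟩
  add_mem' := fun {x y} hx hy i j h => by
    refine ⟨?_, ?_⟩
    · show x.1.fst i j + y.1.fst i j = 0
      rw [(hx i j h).1, (hy i j h).1, add_zero]
    · show x.1.snd i j + y.1.snd i j = 0
      rw [(hx i j h).2, (hy i j h).2, add_zero]
  smul_mem' := fun a x hx i j h => by
    have h1 : ∀ i, x.1.fst i j = 0 := fun i => (hx i j h).1
    have h2 : ∀ i, x.1.snd i j = 0 := fun i => (hx i j h).2
    refine ⟨?_, ?_⟩
    · rw [smul_eq_mul, A_mul_fst]
      exact Finset.sum_eq_zero fun l _ => by rw [h1 l, mul_zero]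
    · rw [smul_eq_mul, A_mul_snd, Finset.sum_eq_zero fun l _ => by rw [h2 l, mul_zero],
        Finset.sum_eq_zero fun l _ => by rw [h1 l, mul_zero], add_zero]

/-- the matrix with the given rows -/
def Emb.mat {F : Fam g} {s : ℤ} {B : Fin 7 → Bool} (e : Emb F s B) (m : Fin 7 → F.N) : Mat K :=
  fun i j => e.ι (m i) j

theorem Emb.vecMul {F : Fam g} {s : ℤ} {B : Fin 7 → Bool} (e : Emb F s B) (r : Fin 7 → Op K)
    (m : Fin 7 → F.N) : r ᵥ* e.mat m = e.ι (pair r m) := by
  funext j
  simp only [Matrix.vecMul, dotProduct, Emb.mat, pair, map_sum, map_smul, Finset.sum_apply,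
    Pi.smul_apply, smul_eq_mul]

/-- the element of `A g s` -/
def Emb.toA {F : Fam g} {s : ℤ} {B : Fin 7 → Bool} (e : Emb F s B) (p : F.W s) : A g s :=
  ⟨((e.mat p.1.1, e.mat p.1.2) : Mat K × Mat K), by
      refine ⟨fun k P r hr => ?_, fun k P r hr => ?_⟩
      · show r ᵥ* e.mat p.1.1 ∈ _
        rw [e.vecMul, add_zero]
        exact (e.mem _ _ _).1 (p.2 k P r hr).1
      · show r ᵥ* e.mat p.1.2 ∈ _
        rw [e.vecMul]
        exact (e.mem _ _ _).1 (p.2 k P r hr).2⟩

theorem Emb.toA_fst {F : Fam g} {s : ℤ} {B : Fin 7 → Bool} (e : Emb F s B) (p : F.W s)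
    (i j : Fin 7) : (e.toA p).1.fst i j = e.ι (p.1.1 i) j := rfl

theorem Emb.toA_snd {F : Fam g} {s : ℤ} {B : Fin 7 → Bool} (e : Emb F s B) (p : F.W s)
    (i j : Fin 7) : (e.toA p).1.snd i j = e.ι (p.1.2 i) j := rfl

theorem Emb.ι_off {F : Fam g} {s : ℤ} {B : Fin 7 → Bool} (e : Emb F s B) (n : F.N) {j : Fin 7}
    (h : B j = false) : e.ι n j = 0 := by
  rw [← e.πι n, e.ιπ, if_neg (by rw [h]; decide)]

theorem Emb.ιπ_on {F : Fam g} {s : ℤ} {B : Fin 7 → Bool} (e : Emb F s B) (r : Fin 7 → Op K)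
    (h : ∀ j, B j = false → r j = 0) : e.ι (e.π r) = r := by
  funext j
  rw [e.ιπ]
  cases hb : B j
  · rw [h j hb]; simp
  · simp

theorem Emb.toA_mem {F : Fam g} {s : ℤ} {B : Fin 7 → Bool} (e : Emb F s B) (p : F.W s) :
    e.toA p ∈ ColP g s B := fun i j h => ⟨e.ι_off _ h, e.ι_off _ h⟩

/-- `toA` as a linear map -/
def Emb.lin {F : Fam g} {s : ℤ} {B : Fin 7 → Bool} (e : Emb F s B) :
    F.W s →ₗ[A g s] ColP g s B where
  toFun p := ⟨e.toA p, e.toA_mem p⟩
  map_add' p q := by
    apply Subtype.ext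
    refine A_ext (fun i j => ?_) (fun i j => ?_)
    · show e.ι (p.1.1 i + q.1.1 i) j = e.ι (p.1.1 i) j + e.ι (q.1.1 i) j
      rw [map_add]
      rfl
    · show e.ι (p.1.2 i + q.1.2 i) j = e.ι (p.1.2 i) j + e.ι (q.1.2 i) j
      rw [map_add]
      rfl
  map_smul' a p := by
    apply Subtype.ext
    refine A_ext (fun i j => ?_) (fun i j => ?_)
    · show e.ι (∑ l, a.1.fst i l • p.1.1 l) j = (a * e.toA p).1.fst i j
      rw [A_mul_fst, map_sum, Finset.sum_apply]
      refine Finset.sum_congr rfl fun l _ => ?_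
      rw [map_smul]
      rfl
    · show e.ι ((∑ l, a.1.fst i l • p.1.2 l) + ∑ l, a.1.snd i l • p.1.1 l) j =
        (a * e.toA p).1.snd i j
      rw [A_mul_snd, map_add, Pi.add_apply, map_sum, map_sum, Finset.sum_apply, Finset.sum_apply]
      congr 1
      · refine Finset.sum_congr rfl fun l _ => ?_
        rw [map_smul]
        rfl
      · refine Finset.sum_congr rfl fun l _ => ?_
        rw [map_smul]
        rfl

/-- the inverse -/
def Emb.ofA {F : Fam g} {s : ℤ} {B : Fin 7 → Bool} (e : Emb F s B) (x : A g s)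
    (hx : x ∈ ColP g s B) : F.W s :=
  ⟨((fun i => e.π (x.1.fst i), fun i => e.π (x.1.snd i)) : Col F.N), by
      intro k P r hr
      have h1 := x.2.1 k P r hr
      have h2 := x.2.2 k P r hr
      rw [add_zero] at h1
      have e1 : e.mat (fun i => e.π (x.1.fst i)) = x.1.fst := by
        funext i
        exact e.ιπ_on _ (fun j hj => (hx i j hj).1)
      have e2 : e.mat (fun i => e.π (x.1.snd i)) = x.1.snd := by
        funext i
        exact e.ιπ_on _ (fun j hj => (hx i j hj).2)
      refine ⟨?_, ?_⟩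
      · rw [e.mem, ← e.vecMul, e1]
        exact h1
      · rw [e.mem, ← e.vecMul, e2]
        exact h2⟩

/-- **(W2)** `W F ≃ A e_B` -/
def Emb.equiv {F : Fam g} {s : ℤ} {B : Fin 7 → Bool} (e : Emb F s B) :
    F.W s ≃ₗ[A g s] ColP g s B :=
  { e.lin with
    invFun := fun x => e.ofA x.1 x.2
    left_inv := fun p => Subtype.ext (Col.ext' (fun i => e.πι _) (fun i => e.πι _))
    right_inv := fun x => Subtype.ext (A_ext
      (fun i j => congrFun (e.ιπ_on (x.1.1.fst i) (fun j hj => (x.2 i j hj).1)) j)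
      (fun i j => congrFun (e.ιπ_on (x.1.1.snd i) (fun j hj => (x.2 i j hj).2)) j)) }

theorem Emb.equiv_fst {F : Fam g} {s : ℤ} {B : Fin 7 → Bool} (e : Emb F s B) (p : F.W s)
    (i j : Fin 7) : (e.equiv p).1.1.fst i j = e.ι (p.1.1 i) j := rfl

theorem Emb.equiv_snd {F : Fam g} {s : ℤ} {B : Fin 7 → Bool} (e : Emb F s B) (p : F.W s)
    (i j : Fin 7) : (e.equiv p).1.1.snd i j = e.ι (p.1.2 i) j := rfl

theorem Emb.symm_fst {F : Fam g} {s : ℤ} {B : Fin 7 → Bool} (e : Emb F s B) (x : ColP g s B)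
    (i : Fin 7) : (e.equiv.symm x).1.1 i = e.π (x.1.1.fst i) := rfl

theorem Emb.symm_snd {F : Fam g} {s : ℤ} {B : Fin 7 → Bool} (e : Emb F s B) (x : ColP g s B)
    (i : Fin 7) : (e.equiv.symm x).1.2 i = e.π (x.1.1.snd i) := rfl

/-! ### the five blocks -/

/-- `O(-c)`, `c = 0, 1, 2` -/
def embO (hg : Gen g) (s : ℤ) (c : ℕ) (hc : c < 3) :
    Emb (TO hg c) s (fun j => decide (j = (⟨c, by omega⟩ : Fin 7))) where
  ι := LinearMap.single (Op K) (fun _ : Fin 7 => Op K) (⟨c, by omega⟩ : Fin 7)
  π := LinearMap.proj (⟨c, by omega⟩ : Fin 7)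
  πι := fun (n : Op K) => by
    show (Pi.single (⟨c, by omega⟩ : Fin 7) n : Fin 7 → Op K) _ = n
    rw [Pi.single_eq_same]
  ιπ r j := by
    show (Pi.single (⟨c, by omega⟩ : Fin 7) (r _) : Fin 7 → Op K) j = _
    by_cases h : j = (⟨c, by omega⟩ : Fin 7)
    · subst h
      rw [Pi.single_eq_same]
      simp
    · rw [Pi.single_eq_of_ne h, if_neg (by simpa using h)]
  mem k P n := by
    constructor
    · intro h
      exact single_mem s k P n c hc h
    · intro h
      obtain ⟨h0, h1, h2, -⟩ := h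
      interval_cases c
      · show n ∈ Fil g (k - (0 : ℕ)) P
        rw [Nat.cast_zero, sub_zero]
        exact h0
      · show n ∈ Fil g (k - (1 : ℕ)) P
        exact h1
      · show n ∈ Fil g (k - (2 : ℕ)) P
        exact h2

/-- `K₁(-s)` -/
def embK1 (hg : Gen g) (s : ℤ) :
    Emb (TK hg s (s + 1)) s (fun j => decide (j = 3) || decide (j = 4)) where
  ι :=
    { toFun := fun v => ![0, 0, 0, v 0, v 1, 0, 0]
      map_add' := fun v w => by
        funext j
        fin_cases j
        exacts [(add_zero _).symm, (add_zero _).symm, (add_zero _).symm, rfl, rfl,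
          (add_zero _).symm, (add_zero _).symm]
      map_smul' := fun a v => by
        funext j
        fin_cases j
        exacts [(mul_zero a).symm, (mul_zero a).symm, (mul_zero a).symm, rfl, rfl,
          (mul_zero a).symm, (mul_zero a).symm] }
  π :=
    { toFun := fun r => ![r 3, r 4]
      map_add' := fun v w => by
        funext j
        fin_cases j <;> rfl
      map_smul' := fun a v => by
        funext j
        fin_cases j <;> rfl }
  πι n := by
    funext j
    fin_cases j <;> rfl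
  ιπ r j := by
    fin_cases j <;> rfl
  mem k P n := by
    constructor
    · rintro ⟨h1, h2, h3⟩
      refine row_mem1 s k P _ _ h1 h2 ?_
      rw [show k - s - 1 = k - (s + 1) by omega]
      exact h3
    · rintro ⟨-, -, -, ⟨h1, h2, h3⟩, -⟩
      refine ⟨h1, h2, ?_⟩
      rw [show k - (s + 1) = k - s - 1 by omega]
      exact h3

/-- `K₂` -/
def embK2 (hg : Gen g) (s : ℤ) :
    Emb (TK hg 0 2) s (fun j => decide (j = 5) || decide (j = 6)) where
  ι :=
    { toFun := fun v => ![0, 0, 0, 0, 0, v 0, v 1]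
      map_add' := fun v w => by
        funext j
        fin_cases j
        exacts [(add_zero _).symm, (add_zero _).symm, (add_zero _).symm, (add_zero _).symm,
          (add_zero _).symm, rfl, rfl]
      map_smul' := fun a v => by
        funext j
        fin_cases j
        exacts [(mul_zero a).symm, (mul_zero a).symm, (mul_zero a).symm, (mul_zero a).symm,
          (mul_zero a).symm, rfl, rfl] }
  π :=
    { toFun := fun r => ![r 5, r 6]
      map_add' := fun v w => by
        funext j
        fin_cases j <;> rfl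
      map_smul' := fun a v => by
        funext j
        fin_cases j <;> rfl }
  πι n := by
    funext j
    fin_cases j <;> rfl
  ιπ r j := by
    fin_cases j <;> rfl
  mem k P n := by
    constructor
    · rintro ⟨h1, h2, h3⟩
      rw [sub_zero] at h1 h2
      exact row_mem2 s k P _ _ h1 h2 h3
    · rintro ⟨-, -, -, -, h1, h2, h3⟩
      refine ⟨?_, ?_, h3⟩
      · rw [sub_zero]; exact h1
      · rw [sub_zero]; exact h2

/-- the five families, in the order `O(0), O(-1), O(-2), K₁(-s), K₂` -/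
def TV (hg : Gen g) (s : ℤ) (v : Fin 5) : Fam g :=
  match v with
  | 0 => TO hg (0 : ℕ)
  | 1 => TO hg (1 : ℕ)
  | 2 => TO hg (2 : ℕ)
  | 3 => TK hg s (s + 1)
  | 4 => TK hg 0 2

theorem Bcongr {F : Fam g} {s : ℤ} {B B' : Fin 7 → Bool} (h : ∀ j, B j = B' j) : B = B' :=
  funext h

/-- the same block, another description -/
def Emb.cast {F : Fam g} {s : ℤ} {B B' : Fin 7 → Bool} (e : Emb F s B) (h : ∀ j, B j = B' j) :
    Emb F s B' where
  ι := e.ι
  π := e.π
  πι := e.πι
  ιπ r j := by rw [e.ιπ, h]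
  mem := e.mem

/-- the block of the vertex `v` -/
def emb (hg : Gen g) (s : ℤ) (v : Fin 5) : Emb (TV hg s v) s (fun j => decide (blk j = v)) :=
  match v with
  | 0 => (embO hg s 0 (by norm_num)).cast (by decide)
  | 1 => (embO hg s 1 (by norm_num)).cast (by decide)
  | 2 => (embO hg s 2 (by norm_num)).cast (by decide)
  | 3 => (embK1 hg s).cast (by decide)
  | 4 => (embK2 hg s).cast (by decide)

/-- membership in the column block through the idempotent -/
theorem mem_ColP (g : K) (s : ℤ) (v : Fin 5) (x : A g s) :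
    x ∈ ColP g s (fun j => decide (blk j = v)) ↔ x * eps g s v = x := by
  have e1 : ∀ i j, (x * eps g s v).1.fst i j = if blk j = v then x.1.fst i j else 0 := by
    intro i j
    rw [A_mul_fst]
    simp only [eps_fst, idp, Matrix.diagonal_apply, mul_ite, mul_zero]
    rw [Finset.sum_ite_eq' Finset.univ j]
    simp
  have e2 : ∀ i j, (x * eps g s v).1.snd i j = if blk j = v then x.1.snd i j else 0 := by
    intro i j
    rw [A_mul_snd]
    simp only [eps_fst, eps_snd, idp, Matrix.diagonal_apply, mul_ite, mul_zero, Matrix.zero_apply,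
      Finset.sum_const_zero, zero_add]
    rw [Finset.sum_ite_eq' Finset.univ j]
    simp
  constructor
  · intro h
    refine A_ext (fun i j => ?_) (fun i j => ?_)
    · rw [e1]
      split_ifs with hj
      · rfl
      · exact ((h i j (by simpa using hj)).1).symm
    · rw [e2]
      split_ifs with hj
      · rfl
      · exact ((h i j (by simpa using hj)).2).symm
  · intro h i j hj
    have hj' : ¬ blk j = v := by simpa using hj
    refine ⟨?_, ?_⟩
    · have := e1 i j
      rw [h, if_neg hj'] at this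
      exact this
    · have := e2 i j
      rw [h, if_neg hj'] at this
      exact this

/-- **(W2)** `W (TV v) ≃ₗ P`, for every submodule `P = {x | x * e_v = x}` -/
def WT (hg : Gen g) (s : ℤ) (v : Fin 5) (P : Submodule (A g s) (A g s))
    (hP : ∀ x, x ∈ P ↔ x * eps g s v = x) : (TV hg s v).W s ≃ₗ[A g s] P :=
  (emb hg s v).equiv.trans (LinearEquiv.ofEq _ _ (by
    ext x
    rw [mem_ColP, hP]))

theorem WT_fst (hg : Gen g) (s : ℤ) (v : Fin 5) (P : Submodule (A g s) (A g s))
    (hP : ∀ x, x ∈ P ↔ x * eps g s v = x) (p : (TV hg s v).W s) (i j : Fin 7) :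
    (WT hg s v P hP p).1.1.fst i j = (emb hg s v).ι (p.1.1 i) j := rfl

theorem WT_snd (hg : Gen g) (s : ℤ) (v : Fin 5) (P : Submodule (A g s) (A g s))
    (hP : ∀ x, x ∈ P ↔ x * eps g s v = x) (p : (TV hg s v).W s) (i j : Fin 7) :
    (WT hg s v P hP p).1.1.snd i j = (emb hg s v).ι (p.1.2 i) j := rfl

/-- **(W2)** `W (TV v) ≃ₗ Pv` -/
def WPv (hg : Gen g) (s : ℤ) (v : Fin 5) : (TV hg s v).W s ≃ₗ[A g s] Pv g s v :=
  WT hg s v _ (fun _ => Iff.rfl)

theorem WPv_fst (hg : Gen g) (s : ℤ) (v : Fin 5) (p : (TV hg s v).W s) (i j : Fin 7) :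
    (WPv hg s v p).1.1.fst i j = (emb hg s v).ι (p.1.1 i) j := rfl

theorem WPv_snd (hg : Gen g) (s : ℤ) (v : Fin 5) (p : (TV hg s v).W s) (i j : Fin 7) :
    (WPv hg s v p).1.1.snd i j = (emb hg s v).ι (p.1.2 i) j := rfl

theorem WPv_symm_fst (hg : Gen g) (s : ℤ) (v : Fin 5) (x : Pv g s v) (i : Fin 7) :
    ((WPv hg s v).symm x).1.1 i = (emb hg s v).π (x.1.1.fst i) := rfl

theorem WPv_symm_snd (hg : Gen g) (s : ℤ) (v : Fin 5) (x : Pv g s v) (i : Fin 7) :
    ((WPv hg s v).symm x).1.2 i = (emb hg s v).π (x.1.1.snd i) := rfl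

/-- the retraction `A → A e_v` -/
def retr (g : K) (s : ℤ) (v : Fin 5) : A g s →ₗ[A g s] ColP g s (fun j => decide (blk j = v)) where
  toFun x := ⟨x * eps g s v, (mem_ColP g s v _).2 (by rw [mul_assoc, eps_idem])⟩
  map_add' x y := Subtype.ext (add_mul x y _)
  map_smul' a x := Subtype.ext (mul_assoc a x _)

instance projColP (g : K) (s : ℤ) (v : Fin 5) :
    Module.Projective (A g s) (ColP g s (fun j => decide (blk j = v))) :=
  Module.Projective.of_split (Submodule.subtype _) (retr g s v)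
    (LinearMap.ext fun x => Subtype.ext ((mem_ColP g s v _).1 x.2))

instance finColP (g : K) (s : ℤ) (v : Fin 5) :
    Module.Finite (A g s) (ColP g s (fun j => decide (blk j = v))) :=
  Module.Finite.of_surjective (retr g s v) (fun x => ⟨x.1, Subtype.ext ((mem_ColP g s v _).1 x.2)⟩)

instance projWT (hg : Gen g) (s : ℤ) (v : Fin 5) : Module.Projective (A g s) ((TV hg s v).W s) :=
  Module.Projective.of_equiv (emb hg s v).equiv.symm

instance finWT (hg : Gen g) (s : ℤ) (v : Fin 5) : Module.Finite (A g s) ((TV hg s v).W s) :=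
  Module.Finite.equiv (emb hg s v).equiv.symm

end Crest.Agent.R186.B281
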