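import Crest.Agent.R186.B281P_128
import Crest.Agent.R186.VFam_671
import Crest.Agent.R186.NullChain_538

/-!
Row 186, S0281 (helper128): from a resolution of families to `NullChain538.MRes`, for both `s`.
-/

set_option autoImplicit false
set_option linter.unusedSectionVars false
set_option linter.unusedVariables false

open Matrix

noncomputable section

namespace Crest.Agent.R186.B281

variable {K : Type} [Field K] {g : K}

/-- a resolution `0 → F3 → F2 → F1 → F0 → V → 0` of families, at the levels of the five vertices -/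
structure FRes (s : ℤ) (V F0 F1 F2 F3 : Fam g) where
  ε : F0.Hom V
  φ1 : F1.Hom F0
  φ2 : F2.Hom F1
  φ3 : F3.Hom F2
  z0 : ∀ x, ε.f (φ1.f x) = 0
  z1 : ∀ x, φ1.f (φ2.f x) = 0
  z2 : ∀ x, φ2.f (φ3.f x) = 0
  sur : ∀ k P, Lev s k P → SurAt ε k P
  x0 : ∀ k P, Lev s k P → ExAt φ1 ε k P
  x1 : ∀ k P, Lev s k P → ExAt φ2 φ1 k P
  x2 : ∀ k P, Lev s k P → ExAt φ3 φ2 k P
  x3 : ∀ k P, Lev s k P → InjAt φ3 k P
  S1 : ∀ e : ℤ, (e = 0 ∨ e = 1) → F1.Sur (s + 1) s e ∧ F1.Sur 2 0 e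
  S2 : ∀ e : ℤ, (e = 0 ∨ e = 1) → F2.Sur (s + 1) s e ∧ F2.Sur 2 0 e
  S3 : ∀ e : ℤ, (e = 0 ∨ e = 1) → F3.Sur (s + 1) s e ∧ F3.Sur 2 0 e

namespace FRes

variable {s : ℤ} {V F0 F1 F2 F3 : Fam g} (R : FRes s V F0 F1 F2 F3)

theorem surj (hg : Gen g) : Function.Surjective (R.ε.W s) :=
  W_surj (kgen hg) R.φ1 R.ε R.z0 (fun e he => (R.S1 e he).1) (fun e he => (R.S1 e he).2)
    R.sur R.x0

theorem ex0 (hg : Gen g) : Function.Exact (R.φ1.W s) (R.ε.W s) :=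
  W_exact (kgen hg) R.φ2 R.φ1 R.ε R.z1 R.z0 (fun e he => (R.S2 e he).1)
    (fun e he => (R.S2 e he).2) R.x0 R.x1

theorem ex1 (hg : Gen g) : Function.Exact (R.φ2.W s) (R.φ1.W s) :=
  W_exact (kgen hg) R.φ3 R.φ2 R.φ1 R.z2 R.z1 (fun e he => (R.S3 e he).1)
    (fun e he => (R.S3 e he).2) R.x1 R.x2

theorem ex2 (hg : Gen g) : Function.Exact (R.φ3.W s) (R.φ2.W s) :=
  W_exact0 (kgen hg) R.φ3 R.φ2 R.z2 R.x2 R.x3

theorem inj (hg : Gen g) : Function.Injective (R.φ3.W s) :=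
  W_inj (kgen hg) R.φ3 R.x3

/-- the resolution over `A g s` with the literal terms `W F_i` -/
def mres (hg : Gen g) (p0 : Module.Projective (A g s) (F0.W s))
    (p1 : Module.Projective (A g s) (F1.W s)) (p2 : Module.Projective (A g s) (F2.W s))
    (p3 : Module.Projective (A g s) (F3.W s)) : NullChain538.MRes (A g s) (V.W s) where
  K0 := F0.W s
  K1 := F1.W s
  K2 := F2.W s
  K3 := F3.W s
  e := R.ε.W s
  d1 := R.φ1.W s
  d2 := R.φ2.W s
  d3 := R.φ3.W s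
  surj := R.surj hg
  ex0 := R.ex0 hg
  ex1 := R.ex1 hg
  ex2 := R.ex2 hg
  inj := R.inj hg
  p0 := p0
  p1 := p1
  p2 := p2
  p3 := p3

end FRes

/-- transport of exactness along linear equivalences -/
theorem exact_transport {R : Type} [Ring R] {X Y Z X' Y' Z' : Type}
    [AddCommGroup X] [Module R X] [AddCommGroup Y] [Module R Y] [AddCommGroup Z] [Module R Z]
    [AddCommGroup X'] [Module R X'] [AddCommGroup Y'] [Module R Y'] [AddCommGroup Z'] [Module R Z']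
    {f : X →ₗ[R] Y} {h : Y →ₗ[R] Z} (f' : X' →ₗ[R] Y') (h' : Y' →ₗ[R] Z')
    (eX : X ≃ₗ[R] X') (eY : Y ≃ₗ[R] Y') (eZ : Z ≃ₗ[R] Z')
    (cf : ∀ x, f' (eX x) = eY (f x)) (ch : ∀ y, h' (eY y) = eZ (h y))
    (hx : Function.Exact f h) : Function.Exact f' h' := by
  intro y
  obtain ⟨y, rfl⟩ := eY.surjective y
  rw [ch, eZ.map_eq_zero_iff, hx y]
  constructor
  · rintro ⟨x, rfl⟩
    exact ⟨eX x, cf x⟩
  · rintro ⟨x, hx'⟩
    obtain ⟨x, rfl⟩ := eX.surjective x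
    rw [cf] at hx'
    exact ⟨x, eY.injective hx'⟩

theorem surj_transport {R : Type} [Ring R] {Y Z Y' Z' : Type}
    [AddCommGroup Y] [Module R Y] [AddCommGroup Z] [Module R Z]
    [AddCommGroup Y'] [Module R Y'] [AddCommGroup Z'] [Module R Z']
    {h : Y →ₗ[R] Z} (h' : Y' →ₗ[R] Z') (eY : Y ≃ₗ[R] Y') (eZ : Z ≃ₗ[R] Z')
    (ch : ∀ y, h' (eY y) = eZ (h y)) (hs : Function.Surjective h) : Function.Surjective h' := by
  intro z
  obtain ⟨z, rfl⟩ := eZ.surjective z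
  obtain ⟨y, rfl⟩ := hs z
  exact ⟨eY y, ch y⟩

theorem inj_transport {R : Type} [Ring R] {Y Z Y' Z' : Type}
    [AddCommGroup Y] [Module R Y] [AddCommGroup Z] [Module R Z]
    [AddCommGroup Y'] [Module R Y'] [AddCommGroup Z'] [Module R Z']
    {h : Y →ₗ[R] Z} (h' : Y' →ₗ[R] Z') (eY : Y ≃ₗ[R] Y') (eZ : Z ≃ₗ[R] Z')
    (ch : ∀ y, h' (eY y) = eZ (h y)) (hi : Function.Injective h) : Function.Injective h' := by
  intro x y hxy
  obtain ⟨x, rfl⟩ := eY.surjective x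
  obtain ⟨y, rfl⟩ := eY.surjective y
  rw [ch, ch] at hxy
  rw [hi (eZ.injective hxy)]

/-- **the resolution with given terms and given maps** -/
def FRes.mresOf {s : ℤ} {V F0 F1 F2 F3 : Fam g} (R : FRes s V F0 F1 F2 F3) (hg : Gen g)
    {E' P0 P1 P2 P3 : Type} [AddCommGroup E'] [Module (A g s) E']
    [AddCommGroup P0] [Module (A g s) P0] [AddCommGroup P1] [Module (A g s) P1]
    [AddCommGroup P2] [Module (A g s) P2] [AddCommGroup P3] [Module (A g s) P3]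
    [Module.Projective (A g s) P0] [Module.Projective (A g s) P1]
    [Module.Projective (A g s) P2] [Module.Projective (A g s) P3]
    (eE : V.W s ≃ₗ[A g s] E') (e0 : F0.W s ≃ₗ[A g s] P0) (e1 : F1.W s ≃ₗ[A g s] P1)
    (e2 : F2.W s ≃ₗ[A g s] P2) (e3 : F3.W s ≃ₗ[A g s] P3)
    (ε : P0 →ₗ[A g s] E') (d1 : P1 →ₗ[A g s] P0) (d2 : P2 →ₗ[A g s] P1) (d3 : P3 →ₗ[A g s] P2)
    (cε : ∀ x, ε (e0 x) = eE (R.ε.W s x)) (c1 : ∀ x, d1 (e1 x) = e0 (R.φ1.W s x))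
    (c2 : ∀ x, d2 (e2 x) = e1 (R.φ2.W s x)) (c3 : ∀ x, d3 (e3 x) = e2 (R.φ3.W s x)) :
    NullChain538.MRes (A g s) E' where
  K0 := P0
  K1 := P1
  K2 := P2
  K3 := P3
  e := ε
  d1 := d1
  d2 := d2
  d3 := d3
  surj := surj_transport ε e0 eE cε (R.surj hg)
  ex0 := exact_transport d1 ε e1 e0 eE c1 cε (R.ex0 hg)
  ex1 := exact_transport d2 d1 e2 e1 e0 c2 c1 (R.ex1 hg)
  ex2 := exact_transport d3 d2 e3 e2 e1 c3 c2 (R.ex2 hg)
  inj := inj_transport d3 e3 e2 c3 (R.inj hg)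
  p0 := inferInstance
  p1 := inferInstance
  p2 := inferInstance
  p3 := inferInstance

end Crest.Agent.R186.B281
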