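import Crest.Agent.R186.B281W_128
import Crest.Agent.R186.Inst_823
import Crest.Agent.R186.FDord_757

/-!
Row 186, S0281 (helper128): vertexwise exactness, the families of the five vertices, and their
images under the functor `W` (the column modules `{x | x * e_v = x}` of `A g s`).
-/

set_option autoImplicit false
set_option linter.unusedSectionVars false

open Matrix

noncomputable section

namespace Crest.Agent.R186.B281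

variable {K : Type} [Field K] {g : K}

/-! ### exactness vertex by vertex -/

/-- exactness of `F → G → H` at the five vertices, in `P`-degree `e` -/
structure VEx {F G H : Fam g} (φ : F.Hom G) (ψ : G.Hom H) (s e : ℤ) : Prop where
  o0 : ExAt φ ψ 0 e
  o1 : ExAt φ ψ 1 e
  o2 : ExAt φ ψ 2 e
  k1 : ∀ z0 ∈ G.L (s + 1) e, ∀ z1 ∈ G.L (s + 1) e,
    (X 1 : Op K) • z0 - (X 0 : Op K) • z1 ∈ G.L s (e + 1) → ψ.f z0 = 0 → ψ.f z1 = 0 →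
    ∃ y0 ∈ F.L (s + 1) e, ∃ y1 ∈ F.L (s + 1) e,
      (X 1 : Op K) • y0 - (X 0 : Op K) • y1 ∈ F.L s (e + 1) ∧ φ.f y0 = z0 ∧ φ.f y1 = z1
  k2 : ∀ z0 ∈ G.L 2 e, ∀ z1 ∈ G.L 2 e,
    (X 1 : Op K) • z0 - (X 0 : Op K) • z1 ∈ G.L 0 (e + 1) → ψ.f z0 = 0 → ψ.f z1 = 0 →
    ∃ y0 ∈ F.L 2 e, ∃ y1 ∈ F.L 2 e,
      (X 1 : Op K) • y0 - (X 0 : Op K) • y1 ∈ F.L 0 (e + 1) ∧ φ.f y0 = z0 ∧ φ.f y1 = z1

/-- surjectivity of `F → G` at the five vertices, in `P`-degree `e` -/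
structure VSur {F G : Fam g} (φ : F.Hom G) (s e : ℤ) : Prop where
  o0 : SurAt φ 0 e
  o1 : SurAt φ 1 e
  o2 : SurAt φ 2 e
  k1 : ∀ z0 ∈ G.L (s + 1) e, ∀ z1 ∈ G.L (s + 1) e,
    (X 1 : Op K) • z0 - (X 0 : Op K) • z1 ∈ G.L s (e + 1) →
    ∃ y0 ∈ F.L (s + 1) e, ∃ y1 ∈ F.L (s + 1) e,
      (X 1 : Op K) • y0 - (X 0 : Op K) • y1 ∈ F.L s (e + 1) ∧ φ.f y0 = z0 ∧ φ.f y1 = z1
  k2 : ∀ z0 ∈ G.L 2 e, ∀ z1 ∈ G.L 2 e,
    (X 1 : Op K) • z0 - (X 0 : Op K) • z1 ∈ G.L 0 (e + 1) →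
    ∃ y0 ∈ F.L 2 e, ∃ y1 ∈ F.L 2 e,
      (X 1 : Op K) • y0 - (X 0 : Op K) • y1 ∈ F.L 0 (e + 1) ∧ φ.f y0 = z0 ∧ φ.f y1 = z1

/-- injectivity at the five vertices, in `P`-degree `e` -/
structure VInj {F G : Fam g} (φ : F.Hom G) (s e : ℤ) : Prop where
  o0 : InjAt φ 0 e
  o1 : InjAt φ 1 e
  o2 : InjAt φ 2 e
  k1 : InjAt φ (s + 1) e

theorem VEx.ent {F G H : Fam g} {φ : F.Hom G} {ψ : G.Hom H} {s e : ℤ} (h : VEx φ ψ s e)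
    {m : Fin 7 → G.N} (hm : G.Ent s e m) (hz : ∀ i, ψ.f (m i) = 0) :
    ∃ n : Fin 7 → F.N, F.Ent s e n ∧ ∀ i, φ.f (n i) = m i := by
  obtain ⟨n0, h0', e0⟩ := h.o0 _ hm.e0 (hz 0)
  obtain ⟨n1, h1', e1⟩ := h.o1 _ hm.e1 (hz 1)
  obtain ⟨n2, h2', e2⟩ := h.o2 _ hm.e2 (hz 2)
  obtain ⟨n3, h3, n4, h4, h34, e3, e4⟩ := h.k1 _ hm.e3 _ hm.e4 hm.e34 (hz 3) (hz 4)
  obtain ⟨n5, h5, n6, h6, h56, e5, e6⟩ := h.k2 _ hm.e5 _ hm.e6 hm.e56 (hz 5) (hz 6)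
  refine ⟨![n0, n1, n2, n3, n4, n5, n6], ⟨h0', h1', h2', h3, h4, h34, h5, h6, h56⟩, fun i => ?_⟩
  fin_cases i
  exacts [e0, e1, e2, e3, e4, e5, e6]

theorem VSur.ent {F G : Fam g} {φ : F.Hom G} {s e : ℤ} (h : VSur φ s e)
    {m : Fin 7 → G.N} (hm : G.Ent s e m) :
    ∃ n : Fin 7 → F.N, F.Ent s e n ∧ ∀ i, φ.f (n i) = m i := by
  obtain ⟨n0, h0', e0⟩ := h.o0 _ hm.e0
  obtain ⟨n1, h1', e1⟩ := h.o1 _ hm.e1
  obtain ⟨n2, h2', e2⟩ := h.o2 _ hm.e2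
  obtain ⟨n3, h3, n4, h4, h34, e3, e4⟩ := h.k1 _ hm.e3 _ hm.e4 hm.e34
  obtain ⟨n5, h5, n6, h6, h56, e5, e6⟩ := h.k2 _ hm.e5 _ hm.e6 hm.e56
  refine ⟨![n0, n1, n2, n3, n4, n5, n6], ⟨h0', h1', h2', h3, h4, h34, h5, h6, h56⟩, fun i => ?_⟩
  fin_cases i
  exacts [e0, e1, e2, e3, e4, e5, e6]

/-- **(W4a)** vertexwise exactness gives exactness of `W` -/
theorem W_exact_of_VEx (hK : KGen g) {F G H : Fam g} (φ : F.Hom G) (ψ : G.Hom H) {s : ℤ}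
    (h1 : ∀ n, ψ.f (φ.f n) = 0) (hx0 : VEx φ ψ s 0) (hx1 : VEx φ ψ s 1) :
    Function.Exact (φ.W s) (ψ.W s) := by
  rintro ⟨p, hp⟩
  constructor
  · intro hz
    obtain ⟨p1, p2⟩ := (Fam.mem_W_iff hK G s p).1 hp
    have z1 : ∀ i, ψ.f (p.1 i) = 0 := fun i => congrArg (fun q : H.W s => q.1.1 i) hz
    have z2 : ∀ i, ψ.f (p.2 i) = 0 := fun i => congrArg (fun q : H.W s => q.1.2 i) hz
    obtain ⟨n, hn, en⟩ := hx0.ent p1 z1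
    obtain ⟨n', hn', en'⟩ := hx1.ent p2 z2
    refine ⟨⟨((n, n') : Col F.N), (Fam.mem_W_iff hK F s _).2 ⟨hn, hn'⟩⟩, ?_⟩
    apply Subtype.ext
    exact Col.ext' en en'
  · rintro ⟨q, hq⟩
    rw [← hq]
    apply Subtype.ext
    exact Col.ext' (fun i => h1 _) (fun i => h1 _)

/-- **(W4a)** vertexwise surjectivity -/
theorem W_surj_of_VSur (hK : KGen g) {F G : Fam g} (φ : F.Hom G) {s : ℤ}
    (hx0 : VSur φ s 0) (hx1 : VSur φ s 1) : Function.Surjective (φ.W s) := by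
  rintro ⟨p, hp⟩
  obtain ⟨p1, p2⟩ := (Fam.mem_W_iff hK G s p).1 hp
  obtain ⟨n, hn, en⟩ := hx0.ent p1
  obtain ⟨n', hn', en'⟩ := hx1.ent p2
  refine ⟨⟨((n, n') : Col F.N), (Fam.mem_W_iff hK F s _).2 ⟨hn, hn'⟩⟩, ?_⟩
  apply Subtype.ext
  exact Col.ext' en en'

/-- **(W4a)** vertexwise injectivity -/
theorem W_inj_of_VInj (hK : KGen g) {F G : Fam g} (φ : F.Hom G) {s : ℤ}
    (hx0 : VInj φ s 0) (hx1 : VInj φ s 1) : Function.Injective (φ.W s) := by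
  have hcol : ∀ {e : ℤ}, VInj φ s e → ∀ {m : Fin 7 → F.N}, F.Ent s e m →
      (∀ i, φ.f (m i) = 0) → ∀ i, m i = 0 := by
    intro e he m hm hz i
    fin_cases i
    · exact he.o0 _ hm.e0 (hz 0)
    · exact he.o1 _ hm.e1 (hz 1)
    · exact he.o2 _ hm.e2 (hz 2)
    · exact he.k1 _ hm.e3 (hz 3)
    · exact he.k1 _ hm.e4 (hz 4)
    · exact he.o2 _ hm.e5 (hz 5)
    · exact he.o2 _ hm.e6 (hz 6)
  rintro ⟨p, hp⟩ ⟨q, hq⟩ hz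
  obtain ⟨p1, p2⟩ := (Fam.mem_W_iff hK F s p).1 hp
  obtain ⟨q1, q2⟩ := (Fam.mem_W_iff hK F s q).1 hq
  have z1 : ∀ i, φ.f (p.1 i) = φ.f (q.1 i) := fun i => congrArg (fun q : G.W s => q.1.1 i) hz
  have z2 : ∀ i, φ.f (p.2 i) = φ.f (q.2 i) := fun i => congrArg (fun q : G.W s => q.1.2 i) hz
  apply Subtype.ext
  refine Col.ext' (fun i => sub_eq_zero.1 ?_) (fun i => sub_eq_zero.1 ?_)
  · exact hcol hx0 (p1.sub q1) (fun i => by rw [map_sub, z1 i, sub_self]) i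
  · exact hcol hx1 (p2.sub q2) (fun i => by rw [map_sub, z2 i, sub_self]) i

/-- injectivity of `φ` on the whole family -/
theorem W_inj_of_inj {F G : Fam g} (φ : F.Hom G) {s : ℤ} (h : Function.Injective φ.f) :
    Function.Injective (φ.W s) := by
  rintro ⟨p, hp⟩ ⟨q, hq⟩ hz
  apply Subtype.ext
  exact Col.ext' (fun i => h (congrArg (fun q : G.W s => q.1.1 i) hz))
    (fun i => h (congrArg (fun q : G.W s => q.1.2 i) hz))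

/-! ### functoriality -/

/-- the identity -/
def Fam.Hom.id (F : Fam g) : F.Hom F where
  f := LinearMap.id
  map h := h

/-- composition -/
def Fam.Hom.comp {F G H : Fam g} (ψ : G.Hom H) (φ : F.Hom G) : F.Hom H where
  f := ψ.f ∘ₗ φ.f
  map h := ψ.map (φ.map h)

theorem Fam.Hom.W_comp {F G H : Fam g} (ψ : G.Hom H) (φ : F.Hom G) (s : ℤ) (p : F.W s) :
    (ψ.comp φ).W s p = ψ.W s (φ.W s p) := rfl

theorem Fam.Hom.W_comp_zero {F G H : Fam g} (ψ : G.Hom H) (φ : F.Hom G) (s : ℤ)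
    (h : ∀ n, ψ.f (φ.f n) = 0) (p : F.W s) : ψ.W s (φ.W s p) = 0 := by
  apply Subtype.ext
  exact Col.ext' (fun i => h _) (fun i => h _)

/-- an isomorphism of families -/
def Fam.Hom.equiv {F G : Fam g} (φ : F.Hom G) (ψ : G.Hom F) (s : ℤ)
    (h1 : ∀ n, ψ.f (φ.f n) = n) (h2 : ∀ n, φ.f (ψ.f n) = n) : F.W s ≃ₗ[A g s] G.W s where
  toFun := φ.W s
  map_add' := map_add (φ.W s)
  map_smul' := (φ.W s).map_smul
  invFun := ψ.W s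
  left_inv p := Subtype.ext (Col.ext' (fun i => h1 _) (fun i => h1 _))
  right_inv p := Subtype.ext (Col.ext' (fun i => h2 _) (fun i => h2 _))

end Crest.Agent.R186.B281
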