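import Crest.Agent.R186.Defs281_128

/-!
Row 186, S0281 (helper128): the functor `W` from filtered bigraded left modules ("families") to
`A g s`-modules, and its exactness.
-/

set_option autoImplicit false
set_option linter.unusedSectionVars false

open Matrix

noncomputable section

namespace Crest.Agent.R186.B281

variable {K : Type} [Field K]

/-! ### columns over a left module -/

/-- pairs of columns with entries in a left `Op`-module -/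
def Col (N : Type) : Type := (Fin 7 → N) × (Fin 7 → N)

section col

variable {N : Type} [AddCommGroup N] [Module K N] [Module (Op K) N] [IsScalarTower K (Op K) N]

instance : AddCommGroup (Col N) := inferInstanceAs (AddCommGroup ((Fin 7 → N) × (Fin 7 → N)))

instance : Module K (Col N) := inferInstanceAs (Module K ((Fin 7 → N) × (Fin 7 → N)))

theorem Col.ext' {p q : Col N} (h1 : ∀ i, p.1 i = q.1 i) (h2 : ∀ i, p.2 i = q.2 i) : p = q :=
  Prod.ext (funext h1) (funext h2)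

/-- the action of matrices on columns -/
def cact (M : Mat K) (v : Fin 7 → N) : Fin 7 → N := fun i => ∑ j, M i j • v j

theorem cact_add (M : Mat K) (v w : Fin 7 → N) : cact M (v + w) = cact M v + cact M w := by
  funext i
  simp only [cact, Pi.add_apply, smul_add, Finset.sum_add_distrib]

theorem add_cact (M M' : Mat K) (v : Fin 7 → N) : cact (M + M') v = cact M v + cact M' v := by
  funext i
  simp only [cact, Pi.add_apply, Matrix.add_apply, add_smul, Finset.sum_add_distrib]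

theorem mul_cact (M M' : Mat K) (v : Fin 7 → N) : cact (M * M') v = cact M (cact M' v) := by
  funext i
  simp only [cact, Matrix.mul_apply, Finset.sum_smul, Finset.smul_sum, mul_smul]
  rw [Finset.sum_comm]

theorem one_cact (v : Fin 7 → N) : cact (1 : Mat K) v = v := by
  funext i
  simp only [cact, Matrix.one_apply]
  rw [Finset.sum_eq_single i]
  · rw [if_pos rfl, one_smul]
  · intro j _ hj
    rw [if_neg (Ne.symm hj), zero_smul]
  · intro h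
    exact absurd (Finset.mem_univ i) h

theorem zero_cact (v : Fin 7 → N) : cact (0 : Mat K) v = 0 := by
  funext i
  simp [cact]

theorem cact_zero (M : Mat K) : cact M (0 : Fin 7 → N) = 0 := by
  funext i
  simp [cact]

theorem smul_cact (c : K) (M : Mat K) (v : Fin 7 → N) : cact (c • M) v = c • cact M v := by
  funext i
  simp only [cact, Pi.smul_apply, Matrix.smul_apply, smul_assoc, Finset.smul_sum]

instance : Module (DualNumber (Mat K)) (Col N) where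
  smul x p := (cact x.fst p.1, cact x.fst p.2 + cact x.snd p.1)
  one_smul p := by
    show (cact (TrivSqZeroExt.fst 1) p.1, cact (TrivSqZeroExt.fst 1) p.2 +
      cact (TrivSqZeroExt.snd 1) p.1) = p
    rw [TrivSqZeroExt.fst_one, TrivSqZeroExt.snd_one, one_cact, one_cact, zero_cact, add_zero]
    rfl
  mul_smul x y p := by
    show (cact (TrivSqZeroExt.fst (x * y)) p.1, cact (TrivSqZeroExt.fst (x * y)) p.2 +
      cact (TrivSqZeroExt.snd (x * y)) p.1) = (cact x.fst (cact y.fst p.1),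
        cact x.fst (cact y.fst p.2 + cact y.snd p.1) + cact x.snd (cact y.fst p.1))
    rw [TrivSqZeroExt.fst_mul, TrivSqZeroExt.snd_mul, mul_cact, mul_cact, add_cact, cact_add,
      smul_eq_mul, MulOpposite.smul_eq_mul_unop, MulOpposite.unop_op, mul_cact, mul_cact]
    congr 1
    abel
  smul_zero x := by
    show (cact x.fst 0, cact x.fst 0 + cact x.snd 0) = ((0, 0) : (Fin 7 → N) × (Fin 7 → N))
    rw [cact_zero, cact_zero, add_zero]
  smul_add x p q := by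
    show (cact x.fst (p.1 + q.1), cact x.fst (p.2 + q.2) + cact x.snd (p.1 + q.1)) =
      (cact x.fst p.1 + cact x.fst q.1,
        (cact x.fst p.2 + cact x.snd p.1) + (cact x.fst q.2 + cact x.snd q.1))
    rw [cact_add, cact_add, cact_add]
    congr 1
    abel
  add_smul x y p := by
    show (cact (x + y).fst p.1, cact (x + y).fst p.2 + cact (x + y).snd p.1) =
      (cact x.fst p.1 + cact y.fst p.1,
        (cact x.fst p.2 + cact x.snd p.1) + (cact y.fst p.2 + cact y.snd p.1))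
    rw [TrivSqZeroExt.fst_add, TrivSqZeroExt.snd_add, add_cact, add_cact, add_cact]
    congr 1
    abel
  zero_smul p := by
    show (cact (TrivSqZeroExt.fst 0) p.1, cact (TrivSqZeroExt.fst 0) p.2 +
      cact (TrivSqZeroExt.snd 0) p.1) = ((0, 0) : (Fin 7 → N) × (Fin 7 → N))
    rw [TrivSqZeroExt.fst_zero, TrivSqZeroExt.snd_zero, zero_cact, zero_cact, add_zero]

theorem col_smul_fst (x : DualNumber (Mat K)) (p : Col N) : (x • p).1 = cact x.fst p.1 := rfl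

theorem col_smul_snd (x : DualNumber (Mat K)) (p : Col N) :
    (x • p).2 = cact x.fst p.2 + cact x.snd p.1 := rfl

instance : IsScalarTower K (DualNumber (Mat K)) (Col N) where
  smul_assoc c x p := by
    show (cact (c • x).fst p.1, cact (c • x).fst p.2 + cact (c • x).snd p.1) =
      (c • cact x.fst p.1, c • (cact x.fst p.2 + cact x.snd p.1))
    rw [TrivSqZeroExt.fst_smul, TrivSqZeroExt.snd_smul, smul_cact, smul_cact, smul_cact, smul_add]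

/-- the pairing of a row with a column -/
def pair (r : Fin 7 → Op K) (m : Fin 7 → N) : N := ∑ i, r i • m i

theorem pair_add (r : Fin 7 → Op K) (m m' : Fin 7 → N) :
    pair r (m + m') = pair r m + pair r m' := by
  simp only [pair, Pi.add_apply, smul_add, Finset.sum_add_distrib]

theorem pair_zero (r : Fin 7 → Op K) : pair r (0 : Fin 7 → N) = 0 := by simp [pair]

theorem pair_cact (r : Fin 7 → Op K) (M : Mat K) (m : Fin 7 → N) :
    pair r (cact M m) = pair (r ᵥ* M) m := by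
  simp only [pair, cact, Matrix.vecMul, dotProduct, Finset.sum_smul, Finset.smul_sum, mul_smul]
  rw [Finset.sum_comm]

theorem pair_seven (r : Fin 7 → Op K) (m : Fin 7 → N) :
    pair r m = r 0 • m 0 + r 1 • m 1 + r 2 • m 2 + (r 3 • m 3 + r 4 • m 4) +
      (r 5 • m 5 + r 6 • m 6) := by
  simp only [pair, Fin.sum_univ_succ, Fin.sum_univ_zero, Fin.succ_zero_eq_one, add_zero]
  have e2 : (Fin.succ (1 : Fin 6)) = (2 : Fin 7) := rfl
  have e3 : (Fin.succ (Fin.succ (1 : Fin 5))) = (3 : Fin 7) := rfl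
  have e4 : (Fin.succ (Fin.succ (Fin.succ (1 : Fin 4)))) = (4 : Fin 7) := rfl
  have e5 : (Fin.succ (Fin.succ (Fin.succ (Fin.succ (1 : Fin 3))))) = (5 : Fin 7) := rfl
  have e6 : (Fin.succ (Fin.succ (Fin.succ (Fin.succ (Fin.succ (1 : Fin 2)))))) = (6 : Fin 7) := rfl
  rw [e2, e3, e4, e5, e6]
  abel

end col

/-! ### families -/

/-- a filtered bigraded left `Op`-module -/
structure Fam (g : K) where
  N : Type
  [grp : AddCommGroup N]
  [modK : Module K N]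
  [mod : Module (Op K) N]
  [tow : IsScalarTower K (Op K) N]
  L : ℤ → ℤ → Submodule K N
  mono : ∀ {k l P : ℤ}, k ≤ l → L k P ≤ L l P
  smul : ∀ {j e k P : ℤ} {T : Op K} {n : N}, T ∈ Fil g j e → n ∈ L k P → T • n ∈ L (k + j) (P + e)

attribute [instance] Fam.grp Fam.modK Fam.mod Fam.tow

variable {g : K}

theorem Fam.X0 (F : Fam g) {k P : ℤ} {n : F.N} (h : n ∈ F.L k P) (i : Fin 2) :
    (X i : Op K) • n ∈ F.L k (P + 1) := by
  have := F.smul (X_mem_Fil g i (le_refl 0)) h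
  rwa [add_zero] at this

/-- the `A`-module of a family -/
def Fam.W (F : Fam g) (s : ℤ) : Submodule (A g s) (Col F.N) where
  carrier := {p | ∀ k P : ℤ, ∀ r ∈ Lat g s k P, pair r p.1 ∈ F.L k P ∧ pair r p.2 ∈ F.L k (P + 1)}
  zero_mem' := fun k P r _ => by
    show pair r 0 ∈ _ ∧ pair r 0 ∈ _
    rw [pair_zero]
    exact ⟨zero_mem _, zero_mem _⟩
  add_mem' := fun {p q} hp hq k P r hr => by
    show pair r (p.1 + q.1) ∈ _ ∧ pair r (p.2 + q.2) ∈ _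
    rw [pair_add, pair_add]
    exact ⟨add_mem (hp k P r hr).1 (hq k P r hr).1, add_mem (hp k P r hr).2 (hq k P r hr).2⟩
  smul_mem' := by
    rintro ⟨x, hx⟩ p hp k P r hr
    show pair r (cact x.fst p.1) ∈ _ ∧ pair r (cact x.fst p.2 + cact x.snd p.1) ∈ _
    have h1 := hx.1 k P r hr
    rw [add_zero] at h1
    rw [pair_add, pair_cact, pair_cact, pair_cact]
    exact ⟨(hp k P _ h1).1, add_mem (hp k P _ h1).2 (hp k (P + 1) _ (hx.2 k P r hr)).1⟩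

/-- morphisms of families -/
structure Fam.Hom (F G : Fam g) where
  f : F.N →ₗ[Op K] G.N
  map : ∀ {k P : ℤ} {n : F.N}, n ∈ F.L k P → f n ∈ G.L k P

theorem pair_map {N N' : Type} [AddCommGroup N] [Module (Op K) N] [AddCommGroup N']
    [Module (Op K) N'] (f : N →ₗ[Op K] N') (r : Fin 7 → Op K) (m : Fin 7 → N) :
    pair r (fun i => f (m i)) = f (pair r m) := by
  simp only [pair, map_sum, map_smul]

/-- functoriality -/
def Fam.Hom.W {F G : Fam g} (φ : F.Hom G) (s : ℤ) : F.W s →ₗ[A g s] G.W s where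
  toFun p := ⟨((fun i => φ.f (p.1.1 i), fun i => φ.f (p.1.2 i)) : Col G.N), by
    intro k P r hr
    have h := p.2 k P r hr
    exact ⟨by rw [pair_map]; exact φ.map h.1, by rw [pair_map]; exact φ.map h.2⟩⟩
  map_add' p q := by
    apply Subtype.ext
    refine Col.ext' (fun i => ?_) (fun i => ?_)
    · exact map_add φ.f _ _
    · exact map_add φ.f _ _
  map_smul' x p := by
    apply Subtype.ext
    refine Col.ext' (fun i => ?_) (fun i => ?_)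
    · show φ.f (cact x.1.fst p.1.1 i) = cact x.1.fst (fun i => φ.f (p.1.1 i)) i
      simp only [cact, map_sum, map_smul]
    · show φ.f (cact x.1.fst p.1.2 i + cact x.1.snd p.1.1 i) =
        cact x.1.fst (fun i => φ.f (p.1.2 i)) i + cact x.1.snd (fun i => φ.f (p.1.1 i)) i
      simp only [cact, map_sum, map_smul, map_add]

theorem Fam.Hom.W_fst {F G : Fam g} (φ : F.Hom G) (s : ℤ) (p : F.W s) (i : Fin 7) :
    (φ.W s p).1.1 i = φ.f (p.1.1 i) := rfl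

theorem Fam.Hom.W_snd {F G : Fam g} (φ : F.Hom G) (s : ℤ) (p : F.W s) (i : Fin 7) :
    (φ.W s p).1.2 i = φ.f (p.1.2 i) := rfl

/-! ### the entrywise form -/

/-- the generation statement for the rows of the `K`-vertices (a PBW fact) -/
def KGen (g : K) : Prop := ∀ (j : ℕ) (k P : ℤ) (a b : Op K), a ∈ Fil g k P → b ∈ Fil g k P →
  a * X 0 + b * X 1 ∈ Fil g (k - j) (P + 1) →
    ∃ a' ∈ Fil g (k - j) P, ∃ b' ∈ Fil g (k - j) P, ∃ e ∈ Fil g k (P - 1),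
      a = a' + e * X 1 ∧ b = b' - e * X 0

/-- the entrywise condition for one half of a column, in `P`-degree `e` -/
structure Fam.Ent (F : Fam g) (s e : ℤ) (m : Fin 7 → F.N) : Prop where
  e0 : m 0 ∈ F.L 0 e
  e1 : m 1 ∈ F.L 1 e
  e2 : m 2 ∈ F.L 2 e
  e3 : m 3 ∈ F.L (s + 1) e
  e4 : m 4 ∈ F.L (s + 1) e
  e34 : (X 1 : Op K) • m 3 - (X 0 : Op K) • m 4 ∈ F.L s (e + 1)
  e5 : m 5 ∈ F.L 2 e
  e6 : m 6 ∈ F.L 2 e
  e56 : (X 1 : Op K) • m 5 - (X 0 : Op K) • m 6 ∈ F.L 0 (e + 1)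

theorem Fam.Ent.sub {F : Fam g} {s e : ℤ} {m m' : Fin 7 → F.N} (h : F.Ent s e m)
    (h' : F.Ent s e m') : F.Ent s e (fun i => m i - m' i) := by
  refine ⟨sub_mem h.e0 h'.e0, sub_mem h.e1 h'.e1, sub_mem h.e2 h'.e2, sub_mem h.e3 h'.e3,
    sub_mem h.e4 h'.e4, ?_, sub_mem h.e5 h'.e5, sub_mem h.e6 h'.e6, ?_⟩
  · have := sub_mem h.e34 h'.e34
    rw [smul_sub, smul_sub]
    convert this using 1
    abel
  · have := sub_mem h.e56 h'.e56
    rw [smul_sub, smul_sub]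
    convert this using 1
    abel

theorem Fil_neg (g : K) {k : ℤ} (hk : k < 0) (P : ℤ) : Fil g k P = ⊥ := by
  rw [Fil, Submodule.span_eq_bot]
  rintro T ⟨a, b, h1, _, _⟩
  exfalso
  have : (0 : ℤ) ≤ (b.1 : ℤ) + b.2 := by positivity
  omega

/-- rows supported at one position -/
theorem single_mem (s k P : ℤ) (T : Op K) (c : ℕ) (hc : c < 3) (hT : T ∈ Fil g (k - c) P) :
    (Pi.single (⟨c, by omega⟩ : Fin 7) T : Fin 7 → Op K) ∈ Lat g s k P := by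
  have hv : ∀ j : Fin 7, (Pi.single (⟨c, by omega⟩ : Fin 7) T : Fin 7 → Op K) j =
      if j = ⟨c, by omega⟩ then T else 0 := fun j => by rw [Pi.single_apply]
  interval_cases c <;>
    refine ⟨?_, ?_, ?_, ⟨?_, ?_, ?_⟩, ?_, ?_, ?_⟩ <;> simp only [hv] <;>
    simp at hT ⊢ <;> assumption

theorem row_mem1 (s k P : ℤ) (a b : Op K) (ha : a ∈ Fil g (k - s) P) (hb : b ∈ Fil g (k - s) P)
    (hab : a * X 0 + b * X 1 ∈ Fil g (k - s - 1) (P + 1)) :
    (![0, 0, 0, a, b, 0, 0] : Fin 7 → Op K) ∈ Lat g s k P := by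
  refine ⟨zero_mem _, zero_mem _, zero_mem _, ⟨ha, hb, hab⟩, zero_mem _, zero_mem _, ?_⟩
  show (0 : Op K) * X 0 + 0 * X 1 ∈ _
  rw [zero_mul, zero_mul, add_zero]
  exact zero_mem _

theorem row_mem2 (s k P : ℤ) (a b : Op K) (ha : a ∈ Fil g k P) (hb : b ∈ Fil g k P)
    (hab : a * X 0 + b * X 1 ∈ Fil g (k - 2) (P + 1)) :
    (![0, 0, 0, 0, 0, a, b] : Fin 7 → Op K) ∈ Lat g s k P := by
  refine ⟨zero_mem _, zero_mem _, zero_mem _, ⟨zero_mem _, zero_mem _, ?_⟩, ha, hb, hab⟩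
  show (0 : Op K) * X 0 + 0 * X 1 ∈ _
  rw [zero_mul, zero_mul, add_zero]
  exact zero_mem _

theorem Fam.ent_of_W (F : Fam g) {s : ℤ} {e : ℤ} {m : Fin 7 → F.N}
    (h : ∀ k P : ℤ, ∀ r ∈ Lat g s k P, pair r m ∈ F.L k (P + e)) : F.Ent s e m := by
  have h1 : ∀ k : ℤ, 0 ≤ k → (1 : Op K) ∈ Fil g k 0 := fun k hk => one_mem_Fil g hk
  have hX : ∀ (i : Fin 2) (k : ℤ), 0 ≤ k → (X i : Op K) ∈ Fil g k 1 :=
    fun i k hk => X_mem_Fil g i hk
  have ho : ∀ (c : ℕ) (hc : c < 3), m ⟨c, by omega⟩ ∈ F.L c e := by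
    intro c hc
    have := h c 0 _ (single_mem s c 0 1 c hc (h1 _ (by omega)))
    rw [zero_add, pair, Finset.sum_eq_single (⟨c, by omega⟩ : Fin 7)] at this
    · rwa [Pi.single_eq_same, one_smul] at this
    · intro j _ hj
      rw [Pi.single_eq_of_ne hj, zero_smul]
    · intro h; exact absurd (Finset.mem_univ _) h
  have hr1 : ∀ (k P : ℤ) (a b : Op K), a ∈ Fil g (k - s) P → b ∈ Fil g (k - s) P →
      a * X 0 + b * X 1 ∈ Fil g (k - s - 1) (P + 1) → a • m 3 + b • m 4 ∈ F.L k (P + e) := by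
    intro k P a b ha hb hab
    have := h k P _ (row_mem1 s k P a b ha hb hab)
    rw [pair_seven] at this
    simpa using this
  have hr2 : ∀ (k P : ℤ) (a b : Op K), a ∈ Fil g k P → b ∈ Fil g k P →
      a * X 0 + b * X 1 ∈ Fil g (k - 2) (P + 1) → a • m 5 + b • m 6 ∈ F.L k (P + e) := by
    intro k P a b ha hb hab
    have := h k P _ (row_mem2 s k P a b ha hb hab)
    rw [pair_seven] at this
    simpa using this
  have hc : (X 1 : Op K) * X 0 + ((-1 : K) • (X 0 : Op K)) * X 1 = 0 := by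
    rw [smul_mul_assoc, X_comm 0 1]
    refine LinearMap.ext fun f => ?_
    simp
  have hn : ∀ y : F.N, ((-1 : K) • (X 0 : Op K)) • y = -((X 0 : Op K) • y) := by
    intro y
    rw [smul_assoc, neg_smul, one_smul]
  refine ⟨ho 0 (by norm_num), ho 1 (by norm_num), ho 2 (by norm_num), ?_, ?_, ?_, ?_, ?_, ?_⟩
  · have := hr1 (s + 1) 0 1 0 (h1 _ (by omega)) (zero_mem _)
      (by rw [one_mul, zero_mul, add_zero]; exact hX 0 _ (by omega))
    simpa using this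
  · have := hr1 (s + 1) 0 0 1 (zero_mem _) (h1 _ (by omega))
      (by rw [one_mul, zero_mul, zero_add (X 1 : Op K)]; exact hX 1 _ (by omega))
    simpa using this
  · have := hr1 s 1 (X 1) ((-1 : K) • (X 0 : Op K)) (hX 1 (s - s) (by omega))
      (Submodule.smul_mem _ _ (hX 0 (s - s) (by omega)))
      (by rw [hc]; exact zero_mem _)
    rwa [hn, ← sub_eq_add_neg, add_comm 1 e] at this
  · have := hr2 2 0 1 0 (h1 _ (by omega)) (zero_mem _)
      (by rw [one_mul, zero_mul, add_zero]; exact hX 0 _ (by omega))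
    simpa using this
  · have := hr2 2 0 0 1 (zero_mem _) (h1 _ (by omega))
      (by rw [one_mul, zero_mul, zero_add (X 1 : Op K)]; exact hX 1 _ (by omega))
    simpa using this
  · have := hr2 0 1 (X 1) ((-1 : K) • (X 0 : Op K)) (hX 1 0 (by omega))
      (Submodule.smul_mem _ _ (hX 0 0 (by omega)))
      (by rw [hc]; exact zero_mem _)
    rwa [hn, ← sub_eq_add_neg, add_comm 1 e] at this

theorem Fam.W_of_ent (hK : KGen g) (F : Fam g) {s : ℤ} {e : ℤ} {m : Fin 7 → F.N}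
    (h : F.Ent s e m) : ∀ k P : ℤ, ∀ r ∈ Lat g s k P, pair r m ∈ F.L k (P + e) := by
  rintro k P r ⟨r0, r1, r2, ⟨r3, r4, r34⟩, r5, r6, r56⟩
  have hs : ∀ {j c k' P' : ℤ} {T : Op K} {n : F.N}, T ∈ Fil g j P' → n ∈ F.L c e →
      c + j = k' → T • n ∈ F.L k' (P' + e) := by
    intro j c k' P' T n hT hn hk
    have := F.smul hT hn
    rwa [hk, add_comm e P'] at this
  rw [pair_seven]
  refine add_mem (add_mem (add_mem (add_mem ?_ ?_) ?_) ?_) ?_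
  · exact hs r0 h.e0 (by ring)
  · exact hs r1 h.e1 (by ring)
  · exact hs r2 h.e2 (by ring)
  · obtain ⟨a', ha', b', hb', q, hq, ea, eb⟩ := hK 1 (k - s) P (r 3) (r 4) r3 r4 (by
      simpa using r34)
    have eb' : r 4 • m 4 = b' • m 4 - q • (X 0 : Op K) • m 4 := by
      have h1 : b' = r 4 + q * X 0 := by rw [eb]; abel
      have h2 : b' • m 4 = r 4 • m 4 + (q * X 0) • m 4 := by
        rw [h1]; exact add_smul _ _ _
      rw [h2, mul_smul, add_sub_cancel_right]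
    rw [eb', ea, add_smul, mul_smul]
    have h3 : a' • m 3 ∈ F.L k (P + e) := hs ha' h.e3 (by push_cast; ring)
    have h4 : b' • m 4 ∈ F.L k (P + e) := hs hb' h.e4 (by push_cast; ring)
    have h5 : q • ((X 1 : Op K) • m 3 - (X 0 : Op K) • m 4) ∈ F.L k (P + e) := by
      have := F.smul hq h.e34
      rwa [show s + (k - s) = k by ring, show e + 1 + (P - 1) = P + e by ring] at this
    rw [smul_sub] at h5
    have := add_mem (add_mem h3 h4) h5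
    rwa [show a' • m 3 + b' • m 4 + (q • (X 1 : Op K) • m 3 - q • (X 0 : Op K) • m 4) =
      a' • m 3 + q • (X 1 : Op K) • m 3 + (b' • m 4 - q • (X 0 : Op K) • m 4) by abel] at this
  · obtain ⟨a', ha', b', hb', q, hq, ea, eb⟩ := hK 2 k P (r 5) (r 6) r5 r6 (by
      simpa using r56)
    have eb' : r 6 • m 6 = b' • m 6 - q • (X 0 : Op K) • m 6 := by
      have h1 : b' = r 6 + q * X 0 := by rw [eb]; abel
      have h2 : b' • m 6 = r 6 • m 6 + (q * X 0) • m 6 := by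
        rw [h1]; exact add_smul _ _ _
      rw [h2, mul_smul, add_sub_cancel_right]
    rw [eb', ea, add_smul, mul_smul]
    have h3 : a' • m 5 ∈ F.L k (P + e) := hs ha' h.e5 (by push_cast; ring)
    have h4 : b' • m 6 ∈ F.L k (P + e) := hs hb' h.e6 (by push_cast; ring)
    have h5 : q • ((X 1 : Op K) • m 5 - (X 0 : Op K) • m 6) ∈ F.L k (P + e) := by
      have := F.smul hq h.e56
      rwa [show (0 : ℤ) + k = k by ring, show e + 1 + (P - 1) = P + e by ring] at this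
    rw [smul_sub] at h5
    have := add_mem (add_mem h3 h4) h5
    rwa [show a' • m 5 + b' • m 6 + (q • (X 1 : Op K) • m 5 - q • (X 0 : Op K) • m 6) =
      a' • m 5 + q • (X 1 : Op K) • m 5 + (b' • m 6 - q • (X 0 : Op K) • m 6) by abel] at this

/-- **(W1)** the entrywise form of `W F` -/
theorem Fam.mem_W_iff (hK : KGen g) (F : Fam g) (s : ℤ) (p : Col F.N) :
    p ∈ F.W s ↔ F.Ent s 0 p.1 ∧ F.Ent s 1 p.2 := by
  constructor
  · intro h
    refine ⟨F.ent_of_W fun k P r hr => ?_, F.ent_of_W fun k P r hr => (h k P r hr).2⟩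
    rw [add_zero]
    exact (h k P r hr).1
  · rintro ⟨h1, h2⟩ k P r hr
    refine ⟨?_, F.W_of_ent hK h2 k P r hr⟩
    have := F.W_of_ent hK h1 k P r hr
    rwa [add_zero] at this

/-! ### exactness transfer -/

/-- surjectivity of `(x₁, -x₀, 1)` onto `L j (e+1)`, the property (S) of a term -/
def Fam.Sur (F : Fam g) (j i e : ℤ) : Prop := ∀ n ∈ F.L j (e + 1),
  ∃ a ∈ F.L j e, ∃ b ∈ F.L j e, ∃ c ∈ F.L i (e + 1),
    n = (X 1 : Op K) • a - (X 0 : Op K) • b + c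

/-- exactness of `F → G → H` at one level -/
def ExAt {F G H : Fam g} (φ : F.Hom G) (ψ : G.Hom H) (k P : ℤ) : Prop :=
  ∀ n ∈ G.L k P, ψ.f n = 0 → ∃ m ∈ F.L k P, φ.f m = n

/-- injectivity at one level -/
def InjAt {F G : Fam g} (φ : F.Hom G) (k P : ℤ) : Prop := ∀ n ∈ F.L k P, φ.f n = 0 → n = 0

/-- surjectivity at one level -/
def SurAt {F G : Fam g} (φ : F.Hom G) (k P : ℤ) : Prop := ∀ n ∈ G.L k P, ∃ m ∈ F.L k P, φ.f m = n

/-- the `K`-vertex, middle exactness: `E → F → G → H` -/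
theorem k_exact {E F G H : Fam g} (χ : E.Hom F) (φ : F.Hom G) (ψ : G.Hom H) {j i e : ℤ}
    (hij : i ≤ j) (h0 : ∀ n, φ.f (χ.f n) = 0) (hS : E.Sur j i e)
    (x1 : ExAt φ ψ j e) (x2 : ExAt φ ψ i (e + 1)) (x3 : ExAt χ φ j (e + 1))
    {m m' : G.N} (hm : m ∈ G.L j e) (hm' : m' ∈ G.L j e)
    (hx : (X 1 : Op K) • m - (X 0 : Op K) • m' ∈ G.L i (e + 1))
    (z : ψ.f m = 0) (z' : ψ.f m' = 0) :
    ∃ n ∈ F.L j e, ∃ n' ∈ F.L j e, (X 1 : Op K) • n - (X 0 : Op K) • n' ∈ F.L i (e + 1) ∧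
      φ.f n = m ∧ φ.f n' = m' := by
  obtain ⟨n, hn, rfl⟩ := x1 m hm z
  obtain ⟨n', hn', rfl⟩ := x1 m' hm' z'
  obtain ⟨p, hp, ep⟩ := x2 _ hx (by rw [map_sub, map_smul, map_smul, z, z', smul_zero, smul_zero,
    sub_zero])
  obtain ⟨q, hq, eq⟩ := x3 ((X 1 : Op K) • n - (X 0 : Op K) • n' - p)
    (sub_mem (sub_mem (F.X0 hn 1) (F.X0 hn' 0)) (F.mono hij hp))
    (by rw [map_sub, map_sub, map_smul, map_smul, ep, sub_self])
  obtain ⟨a, ha, b, hb, c, hc, rfl⟩ := hS q hq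
  refine ⟨n - χ.f a, sub_mem hn (χ.map ha), n' - χ.f b, sub_mem hn' (χ.map hb), ?_, ?_, ?_⟩
  · have : (X 1 : Op K) • (n - χ.f a) - (X 0 : Op K) • (n' - χ.f b) = p + χ.f c := by
      rw [map_add, map_sub, map_smul, map_smul] at eq
      rw [smul_sub, smul_sub]
      have e2 : χ.f c = (X 1 : Op K) • n - (X 0 : Op K) • n' - p -
          ((X 1 : Op K) • χ.f a - (X 0 : Op K) • χ.f b) := by
        rw [← eq]; abel
      rw [e2]
      abel
    rw [this]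
    exact add_mem hp (χ.map hc)
  · rw [map_sub, h0, sub_zero]
  · rw [map_sub, h0, sub_zero]

/-- the `K`-vertex, surjectivity: `E → F → G → 0` -/
theorem k_surj {E F G : Fam g} (χ : E.Hom F) (φ : F.Hom G) {j i e : ℤ}
    (hij : i ≤ j) (h0 : ∀ n, φ.f (χ.f n) = 0) (hS : E.Sur j i e)
    (x1 : SurAt φ j e) (x2 : SurAt φ i (e + 1)) (x3 : ExAt χ φ j (e + 1))
    {m m' : G.N} (hm : m ∈ G.L j e) (hm' : m' ∈ G.L j e)
    (hx : (X 1 : Op K) • m - (X 0 : Op K) • m' ∈ G.L i (e + 1)) :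
    ∃ n ∈ F.L j e, ∃ n' ∈ F.L j e, (X 1 : Op K) • n - (X 0 : Op K) • n' ∈ F.L i (e + 1) ∧
      φ.f n = m ∧ φ.f n' = m' := by
  obtain ⟨n, hn, rfl⟩ := x1 m hm
  obtain ⟨n', hn', rfl⟩ := x1 m' hm'
  obtain ⟨p, hp, ep⟩ := x2 _ hx
  obtain ⟨q, hq, eq⟩ := x3 ((X 1 : Op K) • n - (X 0 : Op K) • n' - p)
    (sub_mem (sub_mem (F.X0 hn 1) (F.X0 hn' 0)) (F.mono hij hp))
    (by rw [map_sub, map_sub, map_smul, map_smul, ep, sub_self])
  obtain ⟨a, ha, b, hb, c, hc, rfl⟩ := hS q hq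
  refine ⟨n - χ.f a, sub_mem hn (χ.map ha), n' - χ.f b, sub_mem hn' (χ.map hb), ?_, ?_, ?_⟩
  · have : (X 1 : Op K) • (n - χ.f a) - (X 0 : Op K) • (n' - χ.f b) = p + χ.f c := by
      rw [map_add, map_sub, map_smul, map_smul] at eq
      rw [smul_sub, smul_sub]
      have e2 : χ.f c = (X 1 : Op K) • n - (X 0 : Op K) • n' - p -
          ((X 1 : Op K) • χ.f a - (X 0 : Op K) • χ.f b) := by
        rw [← eq]; abel
      rw [e2]
      abel
    rw [this]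
    exact add_mem hp (χ.map hc)
  · rw [map_sub, h0, sub_zero]
  · rw [map_sub, h0, sub_zero]

/-- the `K`-vertex, middle exactness at the left end: `0 → F → G → H` -/
theorem k_exact0 {F G H : Fam g} (φ : F.Hom G) (ψ : G.Hom H) {j i e : ℤ} (hij : i ≤ j)
    (x1 : ExAt φ ψ j e) (x2 : ExAt φ ψ i (e + 1)) (x3 : InjAt φ j (e + 1))
    {m m' : G.N} (hm : m ∈ G.L j e) (hm' : m' ∈ G.L j e)
    (hx : (X 1 : Op K) • m - (X 0 : Op K) • m' ∈ G.L i (e + 1))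
    (z : ψ.f m = 0) (z' : ψ.f m' = 0) :
    ∃ n ∈ F.L j e, ∃ n' ∈ F.L j e, (X 1 : Op K) • n - (X 0 : Op K) • n' ∈ F.L i (e + 1) ∧
      φ.f n = m ∧ φ.f n' = m' := by
  obtain ⟨n, hn, rfl⟩ := x1 m hm z
  obtain ⟨n', hn', rfl⟩ := x1 m' hm' z'
  obtain ⟨p, hp, ep⟩ := x2 _ hx (by rw [map_sub, map_smul, map_smul, z, z', smul_zero, smul_zero,
    sub_zero])
  have e1 := x3 ((X 1 : Op K) • n - (X 0 : Op K) • n' - p)
    (sub_mem (sub_mem (F.X0 hn 1) (F.X0 hn' 0)) (F.mono hij hp))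
    (by rw [map_sub, map_sub, map_smul, map_smul, ep, sub_self])
  refine ⟨n, hn, n', hn', ?_, rfl, rfl⟩
  rw [sub_eq_zero.1 e1]
  exact hp

/-- the levels that occur: `(k, P)` for the line bundles, `(j, e), (j, e+1), (i, e+1)` for the
`K`-vertices, `e = 0, 1` -/
def Lev (s k P : ℤ) : Prop :=
  ((k = 0 ∨ k = 1 ∨ k = 2 ∨ k = s + 1) ∧ (P = 0 ∨ P = 1 ∨ P = 2)) ∨ (k = s ∧ (P = 1 ∨ P = 2))

theorem ent_exact {E F G H : Fam g} (χ : E.Hom F) (φ : F.Hom G) (ψ : G.Hom H) {s e : ℤ}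
    (he : e = 0 ∨ e = 1) (h0 : ∀ n, φ.f (χ.f n) = 0)
    (hS1 : E.Sur (s + 1) s e) (hS2 : E.Sur 2 0 e)
    (hx : ∀ k P, Lev s k P → ExAt φ ψ k P) (hy : ∀ k P, Lev s k P → ExAt χ φ k P)
    {m : Fin 7 → G.N} (hm : G.Ent s e m) (hz : ∀ i, ψ.f (m i) = 0) :
    ∃ n : Fin 7 → F.N, F.Ent s e n ∧ ∀ i, φ.f (n i) = m i := by
  have he0 : e = 0 ∨ e = 1 ∨ e = 2 := by tauto
  have he1 : e + 1 = 1 ∨ e + 1 = 2 := by omega
  have he2 : e + 1 = 0 ∨ e + 1 = 1 ∨ e + 1 = 2 := by omega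
  obtain ⟨n0, h0', e0⟩ := hx 0 e (Or.inl ⟨Or.inl rfl, he0⟩) _ hm.e0 (hz 0)
  obtain ⟨n1, h1', e1⟩ := hx 1 e (Or.inl ⟨Or.inr (Or.inl rfl), he0⟩) _ hm.e1 (hz 1)
  obtain ⟨n2, h2', e2⟩ := hx 2 e (Or.inl ⟨Or.inr (Or.inr (Or.inl rfl)), he0⟩) _ hm.e2 (hz 2)
  obtain ⟨n3, h3, n4, h4, h34, e3, e4⟩ := k_exact χ φ ψ (j := s + 1) (i := s) (e := e) (by omega)
    h0 hS1 (hx _ _ (Or.inl ⟨Or.inr (Or.inr (Or.inr rfl)), he0⟩)) (hx _ _ (Or.inr ⟨rfl, he1⟩))
    (hy _ _ (Or.inl ⟨Or.inr (Or.inr (Or.inr rfl)), he2⟩)) hm.e3 hm.e4 hm.e34 (hz 3) (hz 4)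
  obtain ⟨n5, h5, n6, h6, h56, e5, e6⟩ := k_exact χ φ ψ (j := 2) (i := 0) (e := e) (by omega)
    h0 hS2 (hx _ _ (Or.inl ⟨Or.inr (Or.inr (Or.inl rfl)), he0⟩))
    (hx _ _ (Or.inl ⟨Or.inl rfl, he2⟩))
    (hy _ _ (Or.inl ⟨Or.inr (Or.inr (Or.inl rfl)), he2⟩)) hm.e5 hm.e6 hm.e56 (hz 5) (hz 6)
  refine ⟨![n0, n1, n2, n3, n4, n5, n6], ⟨h0', h1', h2', h3, h4, h34, h5, h6, h56⟩, fun i => ?_⟩
  fin_cases i
  exacts [e0, e1, e2, e3, e4, e5, e6]

theorem ent_exact0 {F G H : Fam g} (φ : F.Hom G) (ψ : G.Hom H) {s e : ℤ}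
    (he : e = 0 ∨ e = 1)
    (hx : ∀ k P, Lev s k P → ExAt φ ψ k P) (hy : ∀ k P, Lev s k P → InjAt φ k P)
    {m : Fin 7 → G.N} (hm : G.Ent s e m) (hz : ∀ i, ψ.f (m i) = 0) :
    ∃ n : Fin 7 → F.N, F.Ent s e n ∧ ∀ i, φ.f (n i) = m i := by
  have he0 : e = 0 ∨ e = 1 ∨ e = 2 := by tauto
  have he1 : e + 1 = 1 ∨ e + 1 = 2 := by omega
  have he2 : e + 1 = 0 ∨ e + 1 = 1 ∨ e + 1 = 2 := by omega
  obtain ⟨n0, h0', e0⟩ := hx 0 e (Or.inl ⟨Or.inl rfl, he0⟩) _ hm.e0 (hz 0)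
  obtain ⟨n1, h1', e1⟩ := hx 1 e (Or.inl ⟨Or.inr (Or.inl rfl), he0⟩) _ hm.e1 (hz 1)
  obtain ⟨n2, h2', e2⟩ := hx 2 e (Or.inl ⟨Or.inr (Or.inr (Or.inl rfl)), he0⟩) _ hm.e2 (hz 2)
  obtain ⟨n3, h3, n4, h4, h34, e3, e4⟩ := k_exact0 φ ψ (j := s + 1) (i := s) (e := e) (by omega)
    (hx _ _ (Or.inl ⟨Or.inr (Or.inr (Or.inr rfl)), he0⟩)) (hx _ _ (Or.inr ⟨rfl, he1⟩))
    (hy _ _ (Or.inl ⟨Or.inr (Or.inr (Or.inr rfl)), he2⟩)) hm.e3 hm.e4 hm.e34 (hz 3) (hz 4)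
  obtain ⟨n5, h5, n6, h6, h56, e5, e6⟩ := k_exact0 φ ψ (j := 2) (i := 0) (e := e) (by omega)
    (hx _ _ (Or.inl ⟨Or.inr (Or.inr (Or.inl rfl)), he0⟩))
    (hx _ _ (Or.inl ⟨Or.inl rfl, he2⟩))
    (hy _ _ (Or.inl ⟨Or.inr (Or.inr (Or.inl rfl)), he2⟩)) hm.e5 hm.e6 hm.e56 (hz 5) (hz 6)
  refine ⟨![n0, n1, n2, n3, n4, n5, n6], ⟨h0', h1', h2', h3, h4, h34, h5, h6, h56⟩, fun i => ?_⟩
  fin_cases i
  exacts [e0, e1, e2, e3, e4, e5, e6]

theorem ent_surj {E F G : Fam g} (χ : E.Hom F) (φ : F.Hom G) {s e : ℤ}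
    (he : e = 0 ∨ e = 1) (h0 : ∀ n, φ.f (χ.f n) = 0)
    (hS1 : E.Sur (s + 1) s e) (hS2 : E.Sur 2 0 e)
    (hx : ∀ k P, Lev s k P → SurAt φ k P) (hy : ∀ k P, Lev s k P → ExAt χ φ k P)
    {m : Fin 7 → G.N} (hm : G.Ent s e m) :
    ∃ n : Fin 7 → F.N, F.Ent s e n ∧ ∀ i, φ.f (n i) = m i := by
  have he0 : e = 0 ∨ e = 1 ∨ e = 2 := by tauto
  have he1 : e + 1 = 1 ∨ e + 1 = 2 := by omega
  have he2 : e + 1 = 0 ∨ e + 1 = 1 ∨ e + 1 = 2 := by omega
  obtain ⟨n0, h0', e0⟩ := hx 0 e (Or.inl ⟨Or.inl rfl, he0⟩) _ hm.e0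
  obtain ⟨n1, h1', e1⟩ := hx 1 e (Or.inl ⟨Or.inr (Or.inl rfl), he0⟩) _ hm.e1
  obtain ⟨n2, h2', e2⟩ := hx 2 e (Or.inl ⟨Or.inr (Or.inr (Or.inl rfl)), he0⟩) _ hm.e2
  obtain ⟨n3, h3, n4, h4, h34, e3, e4⟩ := k_surj χ φ (j := s + 1) (i := s) (e := e) (by omega)
    h0 hS1 (hx _ _ (Or.inl ⟨Or.inr (Or.inr (Or.inr rfl)), he0⟩)) (hx _ _ (Or.inr ⟨rfl, he1⟩))
    (hy _ _ (Or.inl ⟨Or.inr (Or.inr (Or.inr rfl)), he2⟩)) hm.e3 hm.e4 hm.e34
  obtain ⟨n5, h5, n6, h6, h56, e5, e6⟩ := k_surj χ φ (j := 2) (i := 0) (e := e) (by omega)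
    h0 hS2 (hx _ _ (Or.inl ⟨Or.inr (Or.inr (Or.inl rfl)), he0⟩))
    (hx _ _ (Or.inl ⟨Or.inl rfl, he2⟩))
    (hy _ _ (Or.inl ⟨Or.inr (Or.inr (Or.inl rfl)), he2⟩)) hm.e5 hm.e6 hm.e56
  refine ⟨![n0, n1, n2, n3, n4, n5, n6], ⟨h0', h1', h2', h3, h4, h34, h5, h6, h56⟩, fun i => ?_⟩
  fin_cases i
  exacts [e0, e1, e2, e3, e4, e5, e6]

/-- **(W4)** middle exactness -/
theorem W_exact (hK : KGen g) {E F G H : Fam g} (χ : E.Hom F) (φ : F.Hom G) (ψ : G.Hom H) {s : ℤ}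
    (h0 : ∀ n, φ.f (χ.f n) = 0) (h1 : ∀ n, ψ.f (φ.f n) = 0)
    (hS1 : ∀ e : ℤ, (e = 0 ∨ e = 1) → E.Sur (s + 1) s e)
    (hS2 : ∀ e : ℤ, (e = 0 ∨ e = 1) → E.Sur 2 0 e)
    (hx : ∀ k P, Lev s k P → ExAt φ ψ k P) (hy : ∀ k P, Lev s k P → ExAt χ φ k P) :
    Function.Exact (φ.W s) (ψ.W s) := by
  rintro ⟨p, hp⟩
  constructor
  · intro hz
    obtain ⟨p1, p2⟩ := (Fam.mem_W_iff hK G s p).1 hp
    have z1 : ∀ i, ψ.f (p.1 i) = 0 := fun i => congrArg (fun q : H.W s => q.1.1 i) hz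
    have z2 : ∀ i, ψ.f (p.2 i) = 0 := fun i => congrArg (fun q : H.W s => q.1.2 i) hz
    obtain ⟨n, hn, en⟩ := ent_exact χ φ ψ (Or.inl rfl) h0 (hS1 0 (Or.inl rfl)) (hS2 0 (Or.inl rfl))
      hx hy p1 z1
    obtain ⟨n', hn', en'⟩ := ent_exact χ φ ψ (Or.inr rfl) h0 (hS1 1 (Or.inr rfl))
      (hS2 1 (Or.inr rfl)) hx hy p2 z2
    refine ⟨⟨((n, n') : Col F.N), (Fam.mem_W_iff hK F s _).2 ⟨hn, hn'⟩⟩, ?_⟩
    apply Subtype.ext
    exact Col.ext' en en'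
  · rintro ⟨q, hq⟩
    rw [← hq]
    apply Subtype.ext
    exact Col.ext' (fun i => h1 _) (fun i => h1 _)

/-- **(W4)** exactness at the left end, middle term -/
theorem W_exact0 (hK : KGen g) {F G H : Fam g} (φ : F.Hom G) (ψ : G.Hom H) {s : ℤ}
    (h1 : ∀ n, ψ.f (φ.f n) = 0)
    (hx : ∀ k P, Lev s k P → ExAt φ ψ k P) (hy : ∀ k P, Lev s k P → InjAt φ k P) :
    Function.Exact (φ.W s) (ψ.W s) := by
  rintro ⟨p, hp⟩
  constructor
  · intro hz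
    obtain ⟨p1, p2⟩ := (Fam.mem_W_iff hK G s p).1 hp
    have z1 : ∀ i, ψ.f (p.1 i) = 0 := fun i => congrArg (fun q : H.W s => q.1.1 i) hz
    have z2 : ∀ i, ψ.f (p.2 i) = 0 := fun i => congrArg (fun q : H.W s => q.1.2 i) hz
    obtain ⟨n, hn, en⟩ := ent_exact0 φ ψ (Or.inl rfl) hx hy p1 z1
    obtain ⟨n', hn', en'⟩ := ent_exact0 φ ψ (Or.inr rfl) hx hy p2 z2
    refine ⟨⟨((n, n') : Col F.N), (Fam.mem_W_iff hK F s _).2 ⟨hn, hn'⟩⟩, ?_⟩
    apply Subtype.ext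
    exact Col.ext' en en'
  · rintro ⟨q, hq⟩
    rw [← hq]
    apply Subtype.ext
    exact Col.ext' (fun i => h1 _) (fun i => h1 _)

/-- **(W4)** injectivity -/
theorem W_inj (hK : KGen g) {F G : Fam g} (φ : F.Hom G) {s : ℤ}
    (hy : ∀ k P, Lev s k P → InjAt φ k P) : Function.Injective (φ.W s) := by
  have hcol : ∀ {e : ℤ}, (e = 0 ∨ e = 1) → ∀ {m : Fin 7 → F.N}, F.Ent s e m →
      (∀ i, φ.f (m i) = 0) → ∀ i, m i = 0 := by
    intro e he m hm hz i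
    have he0 : e = 0 ∨ e = 1 ∨ e = 2 := by tauto
    fin_cases i
    · exact hy 0 e (Or.inl ⟨Or.inl rfl, he0⟩) _ hm.e0 (hz 0)
    · exact hy 1 e (Or.inl ⟨Or.inr (Or.inl rfl), he0⟩) _ hm.e1 (hz 1)
    · exact hy 2 e (Or.inl ⟨Or.inr (Or.inr (Or.inl rfl)), he0⟩) _ hm.e2 (hz 2)
    · exact hy _ e (Or.inl ⟨Or.inr (Or.inr (Or.inr rfl)), he0⟩) _ hm.e3 (hz 3)
    · exact hy _ e (Or.inl ⟨Or.inr (Or.inr (Or.inr rfl)), he0⟩) _ hm.e4 (hz 4)
    · exact hy 2 e (Or.inl ⟨Or.inr (Or.inr (Or.inl rfl)), he0⟩) _ hm.e5 (hz 5)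
    · exact hy 2 e (Or.inl ⟨Or.inr (Or.inr (Or.inl rfl)), he0⟩) _ hm.e6 (hz 6)
  rintro ⟨p, hp⟩ ⟨q, hq⟩ hz
  obtain ⟨p1, p2⟩ := (Fam.mem_W_iff hK F s p).1 hp
  obtain ⟨q1, q2⟩ := (Fam.mem_W_iff hK F s q).1 hq
  have z1 : ∀ i, φ.f (p.1 i) = φ.f (q.1 i) := fun i => congrArg (fun q : G.W s => q.1.1 i) hz
  have z2 : ∀ i, φ.f (p.2 i) = φ.f (q.2 i) := fun i => congrArg (fun q : G.W s => q.1.2 i) hz
  apply Subtype.ext
  refine Col.ext' (fun i => sub_eq_zero.1 ?_) (fun i => sub_eq_zero.1 ?_)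
  · exact hcol (Or.inl rfl) (p1.sub q1) (fun i => by rw [map_sub, z1 i, sub_self]) i
  · exact hcol (Or.inr rfl) (p2.sub q2) (fun i => by rw [map_sub, z2 i, sub_self]) i

/-- **(W4)** surjectivity -/
theorem W_surj (hK : KGen g) {E F G : Fam g} (χ : E.Hom F) (φ : F.Hom G) {s : ℤ}
    (h0 : ∀ n, φ.f (χ.f n) = 0)
    (hS1 : ∀ e : ℤ, (e = 0 ∨ e = 1) → E.Sur (s + 1) s e)
    (hS2 : ∀ e : ℤ, (e = 0 ∨ e = 1) → E.Sur 2 0 e)
    (hx : ∀ k P, Lev s k P → SurAt φ k P) (hy : ∀ k P, Lev s k P → ExAt χ φ k P) :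
    Function.Surjective (φ.W s) := by
  rintro ⟨p, hp⟩
  obtain ⟨p1, p2⟩ := (Fam.mem_W_iff hK G s p).1 hp
  obtain ⟨n, hn, en⟩ := ent_surj χ φ (Or.inl rfl) h0 (hS1 0 (Or.inl rfl)) (hS2 0 (Or.inl rfl))
    hx hy p1
  obtain ⟨n', hn', en'⟩ := ent_surj χ φ (Or.inr rfl) h0 (hS1 1 (Or.inr rfl)) (hS2 1 (Or.inr rfl))
    hx hy p2
  refine ⟨⟨((n, n') : Col F.N), (Fam.mem_W_iff hK F s _).2 ⟨hn, hn'⟩⟩, ?_⟩
  apply Subtype.ext
  exact Col.ext' en en'

end Crest.Agent.R186.B281
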