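import Mathlib
import Crest.Prelude.Def_SymmetricAlgebra

/-!
Row 186, end-game closings, part 2 (helper700): symmetric algebras.
`h η : X →ₗ[A] A` with `lam ∘ h η = η` for every functional `η` on an `A`-module `X`;
a symmetric algebra is self-injective; `G` is injective over `End_A G` when `A` is a direct
summand of `G`.
-/

set_option autoImplicit false
set_option linter.style.haveILetI false

universe v u

open Crest.AlgebraR

namespace Crest.Agent.R186.Frob700

variable {K : Type v} {A : Type u} [Field K] [Ring A] [Algebra K A]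

/-- data of a symmetric form -/
structure Sym (K : Type v) (A : Type u) [Field K] [Ring A] [Algebra K A] where
  φ : A ≃ₗ[K] Module.Dual K A
  bi : ∀ a x b y : A, φ (a * x * b) y = φ x (b * y * a)

theorem nonempty_sym (h : IsSymmetricAlgebra K A) : Nonempty (Sym K A) := by
  obtain ⟨φ, hφ⟩ := h
  exact ⟨⟨φ, hφ⟩⟩

namespace Sym

variable (s : Sym K A)

/-- the form -/
noncomputable def lam : Module.Dual K A := s.φ 1

theorem φ_apply (a y : A) : s.φ a y = s.lam (y * a) := by
  have := s.bi a 1 1 y
  simpa [lam] using this

theorem φ_apply' (a y : A) : s.φ a y = s.lam (a * y) := by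
  have := s.bi 1 1 a y
  simpa [lam] using this

section

variable {X : Type*} [AddCommGroup X] [Module A X] [Module K X] [IsScalarTower K A X]

/-- the functional `b ↦ η (b • x)` -/
noncomputable def pr (η : Module.Dual K X) (x : X) : Module.Dual K A where
  toFun b := η (b • x)
  map_add' b c := by simp [add_smul]
  map_smul' r b := by simp [smul_assoc]

/-- `h η : X → A` with `lam (b * h η x) = η (b • x)`. -/
noncomputable def h (η : Module.Dual K X) : X →ₗ[A] A where
  toFun x := s.φ.symm (pr η x)
  map_add' x y := by
    rw [← map_add]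
    congr 1
    ext b
    simp [pr, smul_add]
  map_smul' c x := by
    apply s.φ.injective
    rw [LinearEquiv.apply_symm_apply]
    ext b
    simp only [RingHom.id_apply, smul_eq_mul]
    have h1 := s.bi c (s.φ.symm (pr η x)) 1 b
    rw [mul_one, one_mul] at h1
    rw [h1, LinearEquiv.apply_symm_apply]
    simp [pr, mul_smul]

theorem lam_mul_h (η : Module.Dual K X) (b : A) (x : X) : s.lam (b * s.h η x) = η (b • x) := by
  rw [← s.φ_apply]
  show s.φ (s.φ.symm (pr η x)) b = _
  rw [LinearEquiv.apply_symm_apply]
  rfl

theorem lam_h (η : Module.Dual K X) (x : X) : s.lam (s.h η x) = η x := by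
  have := s.lam_mul_h η 1 x
  simpa using this

theorem eq_of_lam {a b : A} (hab : ∀ c, s.lam (c * a) = s.lam (c * b)) : a = b := by
  apply s.φ.injective
  ext c
  rw [s.φ_apply, s.φ_apply, hab]

/-- uniqueness -/
theorem eq_h (η : Module.Dual K X) (f : X →ₗ[A] A) (hf : ∀ x, s.lam (f x) = η x) :
    f = s.h η := by
  ext x
  apply s.eq_of_lam
  intro c
  rw [s.lam_mul_h]
  have := hf (c • x)
  simpa using this

theorem h_add (η θ : Module.Dual K X) : s.h (η + θ) = s.h η + s.h θ := by
  symm
  apply s.eq_h
  intro x
  simp [s.lam_h]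

theorem h_smul_comp (r : K) (η : Module.Dual K X) (x : X) : s.h (r • η) x = r • s.h η x := by
  apply s.eq_of_lam
  intro c
  rw [s.lam_mul_h, mul_smul_comm, LinearMap.map_smul s.lam, s.lam_mul_h]
  simp

theorem h_comp {Y : Type*} [AddCommGroup Y] [Module A Y] [Module K Y] [IsScalarTower K A Y]
    (η : Module.Dual K X) (f : Y →ₗ[A] X) (fK : Y →ₗ[K] X) (hf : ∀ y, fK y = f y) (y : Y) :
    s.h (η ∘ₗ fK) y = s.h η (f y) := by
  apply s.eq_of_lam
  intro c
  rw [s.lam_mul_h, s.lam_mul_h]
  simp [hf]

end

end Sym

/-- extension of functionals over a field along an injective linear map -/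
theorem exists_ext {X Y : Type*} [AddCommGroup X] [AddCommGroup Y] [Module K X] [Module K Y]
    (f : X →ₗ[K] Y) (hf : Function.Injective f) (ψ : Module.Dual K X) :
    ∃ ψ' : Module.Dual K Y, ∀ x, ψ' (f x) = ψ x := by
  obtain ⟨g, hg⟩ := f.exists_leftInverse_of_injective (LinearMap.ker_eq_bot.2 hf)
  refine ⟨ψ ∘ₗ g, fun x => ?_⟩
  have : g (f x) = x := by
    have := LinearMap.congr_fun hg x
    simpa using this
  simp [this]

/-- a symmetric algebra is self-injective -/
theorem injective_self (s : Sym K A) : Module.Injective A A := by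
  refine ⟨fun X Y _ _ _ _ f hf g => ?_⟩
  letI : Module K X := Module.compHom X (algebraMap K A)
  letI : Module K Y := Module.compHom Y (algebraMap K A)
  haveI : IsScalarTower K A X := ⟨fun r a x => by
    show (r • a) • x = algebraMap K A r • (a • x)
    rw [Algebra.smul_def, mul_smul]⟩
  haveI : IsScalarTower K A Y := ⟨fun r a x => by
    show (r • a) • x = algebraMap K A r • (a • x)
    rw [Algebra.smul_def, mul_smul]⟩
  let fK : X →ₗ[K] Y :=
    { toFun := f
      map_add' := f.map_add
      map_smul' := fun r x => f.map_smul (algebraMap K A r) x }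
  let ψ₀ : Module.Dual K X :=
    { toFun := fun x => s.lam (g x)
      map_add' := fun x y => by simp
      map_smul' := fun r x => by
        have h1 : g (r • x) = r • g x := by
          have := g.map_smul (algebraMap K A r) x
          rw [Algebra.smul_def]
          exact this
        rw [h1]; simp }
  obtain ⟨ψ, hψ⟩ := exists_ext fK hf ψ₀
  refine ⟨s.h ψ, fun x => ?_⟩
  apply s.eq_of_lam
  intro c
  rw [s.lam_mul_h, ← smul_eq_mul, ← map_smul g, ← map_smul f]
  exact hψ (c • x)

end Crest.Agent.R186.Frob700
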