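import Mathlib
import Crest.Agent.R186.Frob_700

/-!
Row 186, end-game closings, part 4 (helper700): the endomorphism ring `Γ = End_A G` of a
generator `G` over a symmetric algebra `A`; `G` and `Hom_A (A^n, G)` are projective and injective
left `Γ`-modules.
-/

set_option autoImplicit false
set_option linter.style.haveILetI false

universe v u

open Crest.AlgebraR

namespace Crest.Agent.R186.EndG700

open Frob700

variable {A : Type u} [Ring A] {G : Type u} [AddCommGroup G] [Module A G]

/-- `A` is a direct summand of `G` -/
structure Gen (A : Type u) [Ring A] (G : Type u) [AddCommGroup G] [Module A G] where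
  i : A →ₗ[A] G
  p : G →ₗ[A] A
  pi : ∀ a, p (i a) = a

section pre

variable {X Y : Type u} [AddCommGroup X] [Module A X] [AddCommGroup Y] [Module A Y]

/-- precomposition, as a `Γ`-linear map -/
def pre (t : X →ₗ[A] Y) : (Y →ₗ[A] G) →ₗ[Module.End A G] (X →ₗ[A] G) where
  toFun f := f ∘ₗ t
  map_add' _ _ := rfl
  map_smul' _ _ := rfl

@[simp] theorem pre_apply (t : X →ₗ[A] Y) (f : Y →ₗ[A] G) (x : X) :
    pre (G := G) t f x = f (t x) := rfl

end pre

/-- `Γ` as a left module over itself is `Hom_A (G, G)` -/
def selfEquiv : Module.End A G ≃ₗ[Module.End A G] (G →ₗ[A] G) where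
  toFun f := f
  invFun f := f
  map_add' _ _ := rfl
  map_smul' _ _ := rfl
  left_inv _ := rfl
  right_inv _ := rfl

namespace Gen

variable (s : Gen A G)

/-- `G → Γ`, `g ↦ (x ↦ p x • g)` -/
def toEnd : G →ₗ[Module.End A G] Module.End A G where
  toFun g :=
    { toFun := fun x => s.p x • g
      map_add' := fun x y => by simp [add_smul]
      map_smul' := fun a x => by simp [mul_smul] }
  map_add' g h := by ext x; simp
  map_smul' c g := by
    ext x
    simp only [RingHom.id_apply, LinearMap.coe_mk, AddHom.coe_mk, smul_eq_mul,
      Module.End.mul_apply]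
    exact (c.map_smul (s.p x) g).symm

/-- `Γ → G`, `γ ↦ γ (i 1)` -/
def fromEnd : Module.End A G →ₗ[Module.End A G] G where
  toFun c := c (s.i 1)
  map_add' _ _ := rfl
  map_smul' _ _ := rfl

theorem from_to (g : G) : s.fromEnd (s.toEnd g) = g := by
  show s.p (s.i 1) • g = g
  rw [s.pi, one_smul]

include s in
theorem projective : Module.Projective (Module.End A G) G := by
  refine Module.Projective.of_split s.toEnd s.fromEnd ?_
  ext g
  exact s.from_to g

include s in
theorem finite : Module.Finite (Module.End A G) G :=
  Module.Finite.of_surjective s.fromEnd fun g => ⟨s.toEnd g, s.from_to g⟩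

end Gen

section inj

variable {K : Type v} [Field K] [Algebra K A] [Module K G] [IsScalarTower K A G]

/-- `G` is an injective left `End_A G`-module -/
theorem injective [FiniteDimensional K G] (σ : Sym K A) (s : Gen A G) :
    Module.Injective (Module.End A G) G := by
  haveI : SMulCommClass A K G := ⟨fun a r g => by
    rw [← algebraMap_smul A r g, ← algebraMap_smul A r (a • g), ← mul_smul, ← mul_smul,
      Algebra.commutes]⟩
  haveI : SMulCommClass K A G := SMulCommClass.symm A K G
  refine ⟨fun X Y _ _ _ _ f hf g => ?_⟩
  letI : Module K X := Module.compHom X (algebraMap K (Module.End A G))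
  letI : Module K Y := Module.compHom Y (algebraMap K (Module.End A G))
  have hX : ∀ (r : K) (x : X), r • x = algebraMap K (Module.End A G) r • x := fun _ _ => rfl
  have hY : ∀ (r : K) (x : Y), r • x = algebraMap K (Module.End A G) r • x := fun _ _ => rfl
  let fK : X →ₗ[K] Y :=
    { toFun := f
      map_add' := f.map_add
      map_smul' := fun r x => by
        rw [hX, RingHom.id_apply, hY]
        exact f.map_smul _ x }
  let ψ₀ : Module.Dual K X :=
    { toFun := fun x => σ.lam (s.p (g x))
      map_add' := fun x y => by simp
      map_smul' := fun r x => by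
        have h1 : g (r • x) = r • g x := by
          rw [hX, g.map_smul]
          rfl
        have h2 : s.p (r • g x) = r • s.p (g x) := by
          rw [← algebraMap_smul A r (g x), s.p.map_smul, ← algebraMap_smul A r (s.p (g x))]
        rw [h1, h2]; simp }
  obtain ⟨ψ, hψ⟩ := exists_ext fK hf ψ₀
  -- the endomorphism attached to a functional of `G`
  let e : Module.Dual K G → Module.End A G := fun η => s.i ∘ₗ σ.h η
  have e_add : ∀ η θ, e (η + θ) = e η + e θ := by
    intro η θ
    ext x
    simp [e, σ.h_add]
  have e_smul : ∀ (r : K) η, e (r • η) = algebraMap K (Module.End A G) r * e η := by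
    intro r η
    ext x
    have : s.i (r • σ.h η x) = r • s.i (σ.h η x) := by
      rw [← algebraMap_smul A r (σ.h η x), s.i.map_smul, algebraMap_smul]
    simp only [e, LinearMap.comp_apply, σ.h_smul_comp, Module.End.mul_apply, this]
    rfl
  -- the double dual element
  let F₀ : Y → Module.Dual K (Module.Dual K G) := fun y =>
    { toFun := fun η => ψ (e η • y)
      map_add' := fun η θ => by rw [e_add, add_smul, map_add]
      map_smul' := fun r η => by
        rw [e_smul, mul_smul, ← hY, map_smul, RingHom.id_apply] }
  let ev := Module.evalEquiv K G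
  have hev : ∀ (y : Y) (η : Module.Dual K G), η (ev.symm (F₀ y)) = ψ (e η • y) := by
    intro y η
    have h1 : ev (ev.symm (F₀ y)) η = F₀ y η := by rw [LinearEquiv.apply_symm_apply]
    exact h1
  let F : Y →ₗ[Module.End A G] G :=
    { toFun := fun y => ev.symm (F₀ y)
      map_add' := fun y z => by
        rw [← map_add]
        congr 1
        ext η
        show ψ (e η • (y + z)) = ψ (e η • y) + ψ (e η • z)
        rw [smul_add, map_add]
      map_smul' := fun c y => by
        rw [RingHom.id_apply]
        apply Module.eval_apply_injective K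
        ext η
        show η (ev.symm (F₀ (c • y))) = η (c • ev.symm (F₀ y))
        rw [hev]
        let cK : G →ₗ[K] G := c.restrictScalars K
        have h1 : η (c • ev.symm (F₀ y)) = (η ∘ₗ cK) (ev.symm (F₀ y)) := rfl
        rw [h1, hev, ← mul_smul]
        congr 2
        ext x
        show s.i (σ.h η (c x)) = s.i (σ.h (η ∘ₗ cK) x)
        rw [σ.h_comp η c cK (fun _ => rfl)] }
  refine ⟨F, fun x => ?_⟩
  apply Module.eval_apply_injective K
  ext η
  show η (ev.symm (F₀ (f x))) = η (g x)
  rw [hev]
  have h1 : e η • f x = fK (e η • x) := (f.map_smul (e η) x).symm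
  rw [h1, hψ]
  show σ.lam (s.p (g (e η • x))) = η (g x)
  rw [g.map_smul]
  show σ.lam (s.p (s.i (σ.h η (g x)))) = η (g x)
  rw [s.pi, σ.lam_h]

end inj

end Crest.Agent.R186.EndG700
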