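import Mathlib

/-!
Row 186, end-game closings, part 1 (helper700): abstract homological algebra.

A family of short exact sequences `0 → Z j → I j → Z (j+1) → 0` in an abelian category with
all `I j` projective and injective, `Z 0` projective but not injective.
-/

set_option autoImplicit false

universe w v u

open CategoryTheory CategoryTheory.Abelian

namespace Crest.Agent.R186.Homol700

variable {C : Type u} [Category.{v} C] [Abelian C]

/-- A chain of short exact sequences `0 → Z j → I j → Z (j+1) → 0`. -/
structure Chain (Z I : ℕ → C) where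
  f : ∀ j, Z j ⟶ I j
  g : ∀ j, I j ⟶ Z (j + 1)
  zero : ∀ j, f j ≫ g j = 0
  se : ∀ j, (ShortComplex.mk (f j) (g j) (zero j)).ShortExact

variable {Z I : ℕ → C} (c : Chain Z I)

include c

theorem proj_of_succ (j : ℕ) (hj : Projective (Z (j + 1))) :
    Nonempty (Retract (Z j) (I j)) := by
  have := (c.se j)
  have hX3 : Projective (ShortComplex.mk (c.f j) (c.g j) (c.zero j)).X₃ := hj
  let s := (c.se j).splittingOfProjective
  exact ⟨⟨c.f j, s.r, s.f_r⟩⟩

theorem inj_of_inj (j : ℕ) (hj : Injective (Z j)) :
    Nonempty (Retract (Z (j + 1)) (I j)) := by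
  have hX1 : Injective (ShortComplex.mk (c.f j) (c.g j) (c.zero j)).X₁ := hj
  let s := (c.se j).splittingOfInjective
  exact ⟨⟨s.s, c.g j, s.s_g⟩⟩

theorem inj_of_inj' (j : ℕ) (hj : Injective (Z j)) :
    Nonempty (Retract (Z j) (I j)) := by
  have hX1 : Injective (ShortComplex.mk (c.f j) (c.g j) (c.zero j)).X₁ := hj
  let s := (c.se j).splittingOfInjective
  exact ⟨⟨c.f j, s.r, s.f_r⟩⟩

omit [Abelian C] c in
theorem inj_retract {X Y : C} (r : Retract X Y) (h : Injective Y) : Injective X :=
  Retract.injective r

omit [Abelian C] c in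
theorem proj_retract {X Y : C} (r : Retract X Y) (h : Projective Y) : Projective X :=
  Retract.projective r

/-- If some `Z n` is projective with `n ≥ 1` (or `n` arbitrary and `Z 0` ...), then `Z 0` is
injective. -/
theorem inj_zero_of_proj (hIp : ∀ j, Projective (I j)) (hIi : ∀ j, Injective (I j)) (n : ℕ)
    (h : Projective (Z (n + 1))) : Injective (Z 0) := by
  induction n with
  | zero =>
    obtain ⟨r⟩ := proj_of_succ c 0 h
    exact inj_retract r (hIi 0)
  | succ n ih =>
    obtain ⟨r⟩ := proj_of_succ c (n + 1) h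
    exact ih (proj_retract r (hIp _))

theorem not_injDim (hIp : ∀ j, Projective (I j)) (hIi : ∀ j, Injective (I j))
    (h0 : ¬ Injective (Z 0)) (n : ℕ) : ¬ HasInjectiveDimensionLT (Z 0) n := by
  intro h
  -- shift: `Z j` has injective dimension `< n + 1 - j`
  have hs : ∀ m j : ℕ, HasInjectiveDimensionLT (Z 0) (m + 1 + j) →
      HasInjectiveDimensionLT (Z j) (m + 1) := by
    intro m j
    induction j generalizing m with
    | zero => intro h; exact h
    | succ j ih =>
      intro h
      have h1 : HasInjectiveDimensionLT (Z 0) ((m + 1) + 1 + j) := by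
        have : (m + 1) + 1 + j = m + 1 + (j + 1) := by omega
        rw [this]; exact h
      have h2 := ih (m + 1) h1
      have hX2 : HasInjectiveDimensionLT
          (ShortComplex.mk (c.f j) (c.g j) (c.zero j)).X₂ (m + 1) := by
        have : Injective (I j) := hIi j
        have h3 : HasInjectiveDimensionLT (I j) 1 := inferInstance
        exact hasInjectiveDimensionLT_of_ge (I j) 1 (m + 1) (by omega)
      exact (c.se j).hasInjectiveDimensionLT_X₃ (m + 1) hX2 h2
  have h' : HasInjectiveDimensionLT (Z 0) (0 + 1 + n) := by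
    exact hasInjectiveDimensionLT_of_ge (Z 0) n (0 + 1 + n) (by omega)
  have hn : HasInjectiveDimensionLT (Z n) 1 := hs 0 n h'
  have hinj : Injective (Z n) := injective_iff_hasInjectiveDimensionLT_one.2 hn
  obtain ⟨r⟩ := inj_of_inj c n hinj
  exact h0 (inj_zero_of_proj c hIp hIi n (proj_retract r (hIp n)))

theorem projDim_le (hIp : ∀ j, Projective (I j)) (hZ : Projective (Z 0)) (n : ℕ) :
    HasProjectiveDimensionLT (Z n) (n + 1) := by
  induction n with
  | zero => infer_instance
  | succ n ih =>
    have hX2 : HasProjectiveDimensionLT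
        (ShortComplex.mk (c.f n) (c.g n) (c.zero n)).X₂ (n + 1 + 1) := by
      have : Projective (I n) := hIp n
      have h3 : HasProjectiveDimensionLT (I n) 1 := inferInstance
      exact hasProjectiveDimensionLT_of_ge (I n) 1 (n + 1 + 1) (by omega)
    exact (c.se n).hasProjectiveDimensionLT_X₃ (n + 1) ih hX2

theorem not_projDim (hIp : ∀ j, Projective (I j)) (hIi : ∀ j, Injective (I j))
    (h0 : ¬ Injective (Z 0)) (n : ℕ) : ¬ HasProjectiveDimensionLT (Z (n + 1)) (n + 1) := by
  induction n with
  | zero =>
    intro h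
    have : HasProjectiveDimensionLT (Z 1) 1 := h
    have hp : Projective (Z 1) := projective_iff_hasProjectiveDimensionLT_one.2 this
    exact h0 (inj_zero_of_proj c hIp hIi 0 hp)
  | succ n ih =>
    intro h
    apply ih
    have hX2 : HasProjectiveDimensionLT
        (ShortComplex.mk (c.f (n + 1)) (c.g (n + 1)) (c.zero (n + 1))).X₂ (n + 1) := by
      have : Projective (I (n + 1)) := hIp (n + 1)
      have h3 : HasProjectiveDimensionLT (I (n + 1)) 1 := inferInstance
      exact hasProjectiveDimensionLT_of_ge (I (n + 1)) 1 (n + 1) (by omega)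
    exact (c.se (n + 1)).hasProjectiveDimensionLT_X₁ (n + 1) hX2 h

theorem projDim_eq (hIp : ∀ j, Projective (I j)) (hIi : ∀ j, Injective (I j))
    (hZ : Projective (Z 0)) (h0 : ¬ Injective (Z 0)) (n : ℕ) (hn : 1 ≤ n) :
    projectiveDimension (Z n) = (n : WithBot ℕ∞) := by
  apply le_antisymm
  · rw [projectiveDimension_le_iff]
    exact projDim_le c hIp hZ n
  · rw [projectiveDimension_ge_iff]
    obtain ⟨m, rfl⟩ := Nat.exists_eq_add_of_le' hn
    exact not_projDim c hIp hIi h0 m

theorem ext_zero [HasExt.{w} C] (hIi : ∀ j, Injective (I j)) (S : C)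
    (hS : ∀ (j : ℕ) (φ : S ⟶ I j), φ = 0) (i : ℕ) :
    ∀ j, Subsingleton (Ext.{w} S (Z j) i) := by
  induction i with
  | zero =>
    intro j
    refine ⟨fun a b => ?_⟩
    apply Ext.homEquiv₀.injective
    have hm : Mono (c.f j) := (c.se j).mono_f
    rw [← cancel_mono (c.f j)]
    exact (hS j _).trans (hS j _).symm
  | succ i ih =>
    intro j
    have hz : ∀ x : Ext.{w} S (Z j) (i + 1), x = 0 := by
      intro x
      have hI : Injective (ShortComplex.mk (c.f j) (c.g j) (c.zero j)).X₂ := hIi j
      obtain ⟨y, hy⟩ := Ext.covariant_sequence_exact₁ S (c.se j) x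
        (Ext.eq_zero_of_injective _) rfl
      have : y = 0 := (ih (j + 1)).elim _ _
      rw [← hy, this, Ext.zero_comp]
    exact ⟨fun a b => by rw [hz a, hz b]⟩

end Crest.Agent.R186.Homol700
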