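import Mathlib

/-!
Row 186, end-game closings, part 3 (helper700): syzygies of finite modules over a noetherian
ring and lifting from `Ext` vanishing.
-/

set_option autoImplicit false
set_option linter.style.haveILetI false

universe v u

open CategoryTheory CategoryTheory.Abelian

namespace Crest.Agent.R186.Syz700

/-- a bundled finite module -/
structure FM (A : Type u) [Ring A] where
  X : Type u
  [grp : AddCommGroup X]
  [mod : Module A X]
  [fin : Module.Finite A X]

attribute [instance] FM.grp FM.mod FM.fin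

variable {A : Type u} [Ring A]

theorem exists_cov (X : Type u) [AddCommGroup X] [Module A X] [Module.Finite A X] :
    ∃ (n : ℕ) (f : (Fin n → A) →ₗ[A] X), Function.Surjective f :=
  Module.Finite.exists_fin' A X

/-- the number of generators -/
noncomputable def FM.n (M : FM A) : ℕ := (exists_cov (A := A) M.X).choose

/-- the free cover -/
noncomputable def FM.cov (M : FM A) : (Fin M.n → A) →ₗ[A] M.X :=
  (exists_cov (A := A) M.X).choose_spec.choose

theorem FM.cov_surj (M : FM A) : Function.Surjective M.cov :=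
  (exists_cov (A := A) M.X).choose_spec.choose_spec

/-- the syzygy -/
noncomputable def FM.syz [IsNoetherianRing A] (M : FM A) : FM A :=
  ⟨LinearMap.ker M.cov⟩

/-- the inclusion of the syzygy -/
noncomputable def FM.inc [IsNoetherianRing A] (M : FM A) : M.syz.X →ₗ[A] (Fin M.n → A) :=
  (LinearMap.ker M.cov).subtype

theorem FM.inc_inj [IsNoetherianRing A] (M : FM A) : Function.Injective M.inc :=
  (LinearMap.ker M.cov).injective_subtype

theorem FM.cov_inc [IsNoetherianRing A] (M : FM A) : M.cov ∘ₗ M.inc = 0 := by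
  ext x
  exact x.2

theorem FM.exists_inc [IsNoetherianRing A] (M : FM A) (y : Fin M.n → A) (hy : M.cov y = 0) :
    ∃ x, M.inc x = y := ⟨⟨y, hy⟩, rfl⟩

/-- iterated syzygies -/
noncomputable def Om [IsNoetherianRing A] (M : FM A) : ℕ → FM A
  | 0 => M
  | j + 1 => (Om M j).syz

section Ext

variable [IsNoetherianRing A]

/-- the short complex `0 → Ω M → A^n → M → 0` -/
noncomputable abbrev FM.sc (M : FM A) : ShortComplex (ModuleCat.{u} A) :=
  M.cov.shortComplexKer

omit [IsNoetherianRing A] in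
theorem FM.sc_se (M : FM A) : M.sc.ShortExact :=
  LinearMap.shortExact_shortComplexKer M.cov_surj

instance (M : FM A) : Projective M.sc.X₂ :=
  (IsProjective.iff_projective (ModuleCat.of A (Fin M.n → A))).1 inferInstance

theorem ext_syz (M : FM A) (Y : ModuleCat.{u} A)
    (h : ∀ i : ℕ, 0 < i → Subsingleton (Ext (ModuleCat.of A M.X) Y i)) (i : ℕ) (hi : 0 < i) :
    Subsingleton (Ext (ModuleCat.of A M.syz.X) Y i) := by
  have hz : ∀ x : Ext M.sc.X₁ Y i, x = 0 := by
    intro x
    have h0 : M.sc_se.extClass.comp x (add_comm 1 i) = 0 := by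
      have : Subsingleton (Ext M.sc.X₃ Y (i + 1)) := h (i + 1) (by omega)
      exact this.elim _ _
    obtain ⟨y, hy⟩ := Ext.contravariant_sequence_exact₁ M.sc_se Y x (add_comm 1 i) h0
    obtain ⟨j, rfl⟩ := Nat.exists_eq_add_of_le' hi
    have hy0 : y = 0 := Ext.eq_zero_of_projective y
    rw [← hy, hy0, Ext.comp_zero]
  exact ⟨fun a b => by rw [hz a, hz b]⟩

theorem lift_of_ext (M : FM A) (Y : Type u) [AddCommGroup Y] [Module A Y]
    (h : Subsingleton (Ext (ModuleCat.of A M.X) (ModuleCat.of A Y) 1))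
    (g : M.syz.X →ₗ[A] Y) : ∃ f : (Fin M.n → A) →ₗ[A] Y, f ∘ₗ M.inc = g := by
  let x : Ext M.sc.X₁ (ModuleCat.of A Y) 0 := Ext.mk₀ (ModuleCat.ofHom g)
  have h0 : M.sc_se.extClass.comp x (add_zero 1) = 0 := by
    have : Subsingleton (Ext M.sc.X₃ (ModuleCat.of A Y) 1) := h
    exact this.elim _ _
  obtain ⟨y, hy⟩ := Ext.contravariant_sequence_exact₁ M.sc_se (ModuleCat.of A Y) x (add_zero 1) h0
  obtain ⟨φ, rfl⟩ := Ext.homEquiv₀.symm.surjective y
  rw [Ext.homEquiv₀_symm_apply, Ext.mk₀_comp_mk₀] at hy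
  have h1 := Ext.homEquiv₀.symm.injective (a₁ := M.sc.f ≫ φ) (a₂ := ModuleCat.ofHom g)
    (by simpa [Ext.homEquiv₀_symm_apply] using hy)
  refine ⟨φ.hom, ?_⟩
  have h2 := congrArg ModuleCat.Hom.hom h1
  exact h2

/-- all syzygies have vanishing `Ext` against `Y` -/
theorem ext_Om (M : FM A) (Y : ModuleCat.{u} A)
    (h : ∀ i : ℕ, 0 < i → Subsingleton (Ext (ModuleCat.of A M.X) Y i)) (j : ℕ) :
    ∀ i : ℕ, 0 < i → Subsingleton (Ext (ModuleCat.of A (Om M j).X) Y i) := by
  induction j with
  | zero => exact h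
  | succ j ih => exact ext_syz _ Y ih

theorem lift_Om (M : FM A) (Y : Type u) [AddCommGroup Y] [Module A Y]
    (h : ∀ i : ℕ, 0 < i → Subsingleton (Ext (ModuleCat.of A M.X) (ModuleCat.of A Y) i)) (j : ℕ)
    (g : (Om M (j + 1)).X →ₗ[A] Y) :
    ∃ f : (Fin (Om M j).n → A) →ₗ[A] Y, f ∘ₗ (Om M j).inc = g :=
  lift_of_ext (Om M j) Y (ext_Om M _ h j 1 one_pos) g

end Ext

end Crest.Agent.R186.Syz700
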