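import Mathlib
import Crest.Agent.R186.Homol_700
import Crest.Agent.R186.Syz_700
import Crest.Agent.R186.EndG_700

/-!
Row 186, end-game closings, part 5 (helper700): the coresolution
`0 → Γ → Hom(P_0,G) → Hom(P_1,G) → ⋯` of `Γ = End_A G`.
-/

set_option autoImplicit false
set_option linter.style.haveILetI false

universe v u

open CategoryTheory CategoryTheory.Abelian

namespace Crest.Agent.R186.Cores700

open Frob700 EndG700 Syz700 Homol700

variable {A : Type u} [Ring A] [IsNoetherianRing A] {G : Type u} [AddCommGroup G] [Module A G]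

section seq

omit [IsNoetherianRing A] in
theorem pre_cov_inj (M : FM A) : Function.Injective (pre (G := G) M.cov) := by
  intro f g h
  ext x
  obtain ⟨y, rfl⟩ := M.cov_surj x
  exact LinearMap.congr_fun h y

theorem pre_exact (M : FM A) : Function.Exact (pre (G := G) M.cov) (pre (G := G) M.inc) := by
  intro f
  constructor
  · intro hf
    have hker : LinearMap.ker M.cov ≤ LinearMap.ker f := by
      intro y hy
      obtain ⟨x, rfl⟩ := M.exists_inc y hy
      exact LinearMap.congr_fun hf x
    refine ⟨(LinearMap.ker M.cov).liftQ f hker ∘ₗ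
      (M.cov.quotKerEquivOfSurjective M.cov_surj).symm.toLinearMap, ?_⟩
    refine LinearMap.ext fun y => ?_
    rw [pre_apply, LinearMap.comp_apply]
    have : (M.cov.quotKerEquivOfSurjective M.cov_surj).symm.toLinearMap (M.cov y)
        = Submodule.Quotient.mk y := by
      apply (M.cov.quotKerEquivOfSurjective M.cov_surj).injective
      simp
    rw [this]
    simp
  · rintro ⟨g, rfl⟩
    ext x
    have h1 : M.cov (M.inc x) = 0 := LinearMap.congr_fun M.cov_inc x
    show g (M.cov (M.inc x)) = 0
    rw [h1, map_zero]

/-- the basis equivalence `G^n ≃ Hom_A (A^n, G)`, `Γ`-linear -/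
noncomputable def homEquiv (n : ℕ) :
    (Fin n → G) ≃ₗ[Module.End A G] ((Fin n → A) →ₗ[A] G) :=
  (Pi.basisFun A (Fin n)).constr (Module.End A G)

omit [IsNoetherianRing A] in
theorem hom_projective (s : Gen A G) (n : ℕ) :
    Module.Projective (Module.End A G) ((Fin n → A) →ₗ[A] G) := by
  haveI := s.projective
  haveI : Module.Projective (Module.End A G) (Π₀ _ : Fin n, G) := inferInstance
  haveI : Module.Projective (Module.End A G) (Fin n → G) :=
    Module.Projective.of_equiv' (DFinsupp.linearEquivFunOnFintype (R := Module.End A G)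
      (M := fun _ : Fin n => G))
  exact Module.Projective.of_equiv' (homEquiv n)

omit [IsNoetherianRing A] in
theorem hom_finite (s : Gen A G) (n : ℕ) :
    Module.Finite (Module.End A G) ((Fin n → A) →ₗ[A] G) := by
  haveI := s.finite
  exact Module.Finite.equiv (homEquiv n)

theorem injective_of_equiv {R : Type u} [Ring R] {M N : Type u} [AddCommGroup M] [Module R M]
    [AddCommGroup N] [Module R N] (e : M ≃ₗ[R] N) (h : Module.Injective R M) :
    Module.Injective R N := by
  refine ⟨fun X Y _ _ _ _ f hf g => ?_⟩
  obtain ⟨t, ht⟩ := h.out f hf (e.symm.toLinearMap ∘ₗ g)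
  refine ⟨e.toLinearMap ∘ₗ t, fun x => ?_⟩
  show e (t (f x)) = g x
  rw [ht]
  simp

omit [IsNoetherianRing A] in
theorem hom_injective (h : Module.Injective (Module.End A G) G) (n : ℕ) :
    Module.Injective (Module.End A G) ((Fin n → A) →ₗ[A] G) := by
  exact injective_of_equiv (homEquiv n) inferInstance

end seq

section chain

variable (A G)

/-- the start of the resolution -/
noncomputable abbrev FMG [Module.Finite A G] : FM A := ⟨G⟩

variable [Module.Finite A G]

/-- the cosyzygies `Hom_A (Ω^j G, G)` -/
noncomputable abbrev ZZ (j : ℕ) : ModuleCat.{u} (Module.End A G) :=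
  ModuleCat.of (Module.End A G) ((Om (FMG A G) j).X →ₗ[A] G)

/-- the terms `Hom_A (P_j, G)` -/
noncomputable abbrev II (j : ℕ) : ModuleCat.{u} (Module.End A G) :=
  ModuleCat.of (Module.End A G) ((Fin (Om (FMG A G) j).n → A) →ₗ[A] G)

/-- the chain of short exact sequences -/
noncomputable def chain
    (hG : ∀ i : ℕ, 0 < i → Subsingleton (Ext (ModuleCat.of A G) (ModuleCat.of A G) i)) :
    Chain (ZZ A G) (II A G) where
  f j := ModuleCat.ofHom (pre (G := G) (Om (FMG A G) j).cov)
  g j := ModuleCat.ofHom (pre (G := G) (Om (FMG A G) j).inc)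
  zero j := by
    ext1
    exact LinearMap.ext fun x => (pre_exact (G := G) (Om (FMG A G) j)).apply_apply_eq_zero x
  se j := by
    refine ModuleCat.shortComplex_shortExact _ ?_ ?_ ?_
    · exact pre_exact (G := G) (Om (FMG A G) j)
    · exact pre_cov_inj (G := G) (Om (FMG A G) j)
    · exact fun g => lift_Om (FMG A G) G hG j g

end chain

end Crest.Agent.R186.Cores700
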