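import Mathlib
import Crest.Agent.R186.Cores_700

/-!
Row 186, end-game closings, part 6 (helper700): `Γ = End_A G` is not self-injective, and there is
a simple `Γ`-module `S` with `Hom_Γ (S, G) = 0`, when `G` is not projective.
-/

set_option autoImplicit false
set_option linter.style.haveILetI false

universe v u

open CategoryTheory CategoryTheory.Abelian

namespace Crest.Agent.R186.NotInj700

open Frob700 EndG700 Syz700 Homol700 Cores700

variable {A : Type u} [Ring A] {G : Type u} [AddCommGroup G] [Module A G]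

/-- the map `G → A^n` attached to a `Γ`-linear map `Hom (A^n, G) → Hom (G, G)` -/
def sec (s : Gen A G) {n : ℕ}
    (r : ((Fin n → A) →ₗ[A] G) →ₗ[Module.End A G] (G →ₗ[A] G)) : G →ₗ[A] (Fin n → A) :=
  LinearMap.pi fun m => s.p ∘ₗ r (s.i ∘ₗ LinearMap.proj m)

theorem eq_sum (s : Gen A G) {n : ℕ} (h : (Fin n → A) →ₗ[A] G) :
    h = ∑ m, (show Module.End A G from h ∘ₗ LinearMap.single A (fun _ => A) m ∘ₗ s.p) •
      (s.i ∘ₗ LinearMap.proj m : (Fin n → A) →ₗ[A] G) := by
  refine LinearMap.ext fun v => ?_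
  rw [LinearMap.sum_apply]
  have h1 : ∀ m : Fin n, ((show Module.End A G from
      h ∘ₗ LinearMap.single A (fun _ => A) m ∘ₗ s.p) •
      (s.i ∘ₗ LinearMap.proj m : (Fin n → A) →ₗ[A] G)) v = h (Pi.single m (v m)) := by
    intro m
    show h (LinearMap.single A (fun _ => A) m (s.p (s.i (v m)))) = _
    rw [s.pi]
    rfl
  simp only [h1]
  rw [← map_sum]
  congr 1
  exact (Finset.univ_sum_single v).symm

theorem r_eq (s : Gen A G) {n : ℕ}
    (r : ((Fin n → A) →ₗ[A] G) →ₗ[Module.End A G] (G →ₗ[A] G)) (h : (Fin n → A) →ₗ[A] G) :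
    r h = h ∘ₗ sec s r := by
  conv_lhs => rw [eq_sum s h]
  rw [map_sum]
  refine LinearMap.ext fun x => ?_
  rw [LinearMap.sum_apply]
  have h1 : ∀ m : Fin n, (r ((show Module.End A G from
      h ∘ₗ LinearMap.single A (fun _ => A) m ∘ₗ s.p) •
      (s.i ∘ₗ LinearMap.proj m : (Fin n → A) →ₗ[A] G))) x = h (Pi.single m (sec s r x m)) := by
    intro m
    rw [r.map_smul]
    rfl
  simp only [h1]
  rw [← map_sum]
  show _ = h (sec s r x)
  congr 1
  exact Finset.univ_sum_single (sec s r x)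

theorem projective_of_retr [IsNoetherianRing A] [Module.Finite A G] (s : Gen A G)
    (r : ((Fin (FMG A G).n → A) →ₗ[A] G) →ₗ[Module.End A G] (G →ₗ[A] G))
    (hr : ∀ γ : G →ₗ[A] G, r (pre (G := G) (FMG A G).cov γ) = γ) : Module.Projective A G := by
  have h1 := r_eq s r (FMG A G).cov
  have h2 := hr LinearMap.id
  have h3 : pre (G := G) (FMG A G).cov LinearMap.id = (FMG A G).cov := rfl
  rw [h3, h1] at h2
  exact Module.Projective.of_split (sec s r) (FMG A G).cov h2

theorem not_injective [IsNoetherianRing A] [Module.Finite A G] (s : Gen A G)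
    (hG : ¬ Module.Projective A G)
    (hE : ∀ i : ℕ, 0 < i → Subsingleton (Ext (ModuleCat.of A G) (ModuleCat.of A G) i)) :
    ¬ Injective (ZZ A G 0) := by
  intro h
  obtain ⟨r, hr⟩ : ∃ r : II A G 0 ⟶ ZZ A G 0, (chain A G hE).f 0 ≫ r = 𝟙 _ := by
    have hX1 : Injective (ShortComplex.mk ((chain A G hE).f 0) ((chain A G hE).g 0)
      ((chain A G hE).zero 0)).X₁ := h
    let t := ((chain A G hE).se 0).splittingOfInjective
    exact ⟨t.r, t.f_r⟩
  apply hG
  refine projective_of_retr s r.hom fun γ => ?_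
  have := congrArg (fun t => t.hom γ) hr
  exact this

section simple

/-- endomorphisms which factor through a free module of finite rank -/
def FactorsFree (γ : Module.End A G) : Prop :=
  ∃ (n : ℕ) (a : G →ₗ[A] (Fin n → A)) (b : (Fin n → A) →ₗ[A] G), γ = b ∘ₗ a

/-- the left ideal of endomorphisms which factor through a free module -/
def J (A : Type u) [Ring A] (G : Type u) [AddCommGroup G] [Module A G] :
    Submodule (Module.End A G) (Module.End A G) where
  carrier := {γ | FactorsFree γ}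
  add_mem' := by
    rintro _ _ ⟨n, a, b, rfl⟩ ⟨m, a', b', rfl⟩
    let e : (Fin n ⊕ Fin m → A) ≃ₗ[A] (Fin (n + m) → A) :=
      LinearEquiv.funCongrLeft A A finSumFinEquiv.symm
    let e' := LinearEquiv.sumArrowLequivProdArrow (Fin n) (Fin m) A A
    refine ⟨n + m, e.toLinearMap ∘ₗ e'.symm.toLinearMap ∘ₗ a.prod a',
      (b.coprod b') ∘ₗ e'.toLinearMap ∘ₗ e.symm.toLinearMap, ?_⟩
    refine LinearMap.ext fun x => ?_
    simp [LinearMap.comp_apply]
  zero_mem' := ⟨0, 0, 0, by ext; simp⟩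
  smul_mem' := by
    rintro c _ ⟨n, a, b, rfl⟩
    exact ⟨n, a, c ∘ₗ b, rfl⟩

theorem J_mul_right {γ : Module.End A G} (h : γ ∈ J A G) (δ : Module.End A G) :
    γ * δ ∈ J A G := by
  obtain ⟨n, a, b, rfl⟩ := h
  exact ⟨n, a ∘ₗ δ, b, rfl⟩

theorem J_ne_top (hG : ¬ Module.Projective A G) : J A G ≠ ⊤ := by
  intro h
  have h1 : (1 : Module.End A G) ∈ J A G := by rw [h]; trivial
  obtain ⟨n, a, b, hab⟩ := h1
  exact hG (Module.Projective.of_split a b hab.symm)

/-- elements `i ∘ t`, `t : G → A`, are in `J` -/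
theorem mem_J (s : Gen A G) (t : G →ₗ[A] A) : (s.i ∘ₗ t : G →ₗ[A] G) ∈ J A G := by
  refine ⟨1, LinearMap.pi fun _ => t, s.i ∘ₗ LinearMap.proj 0, ?_⟩
  ext x
  simp

theorem exists_simple (hG : ¬ Module.Projective A G) :
    ∃ (S : Type u) (_ : AddCommGroup S) (_ : Module (Module.End A G) S),
      IsSimpleModule (Module.End A G) S ∧ ∀ γ ∈ J A G, ∀ x : S, γ • x = 0 := by
  obtain ⟨m, hm, hJ⟩ := Ideal.exists_le_maximal (J A G) (J_ne_top hG)
  refine ⟨Module.End A G ⧸ m, inferInstance, inferInstance, ?_, ?_⟩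
  · exact isSimpleModule_iff_isCoatom.2 hm.out
  · intro γ hγ x
    obtain ⟨δ, rfl⟩ := Submodule.Quotient.mk_surjective _ x
    rw [← Submodule.Quotient.mk_smul, Submodule.Quotient.mk_eq_zero]
    exact hJ (J_mul_right hγ δ)

variable {K : Type v} [Field K] [Algebra K A] [Module K G] [IsScalarTower K A G]

theorem hom_zero (σ : Sym K A) (s : Gen A G) (S : Type u) [AddCommGroup S]
    [Module (Module.End A G) S] (hS : ∀ γ ∈ J A G, ∀ x : S, γ • x = 0)
    (f : S →ₗ[Module.End A G] G) : f = 0 := by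
  ext x
  by_contra hne
  rw [LinearMap.zero_apply] at hne
  obtain ⟨η, hη⟩ := Module.Projective.exists_dual_ne_zero K hne
  have h1 : (s.i ∘ₗ σ.h η : G →ₗ[A] G) ∈ J A G := mem_J s _
  have h2 : f ((show Module.End A G from s.i ∘ₗ σ.h η) • x) = s.i (σ.h η (f x)) := by
    rw [f.map_smul]
    rfl
  rw [hS _ h1 x, map_zero] at h2
  have h3 : σ.h η (f x) = 0 := by
    rw [← s.pi (σ.h η (f x)), ← h2, map_zero]
  apply hη
  rw [← σ.lam_h, h3, map_zero]

end simple

end Crest.Agent.R186.NotInj700
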