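import Mathlib
import Crest.Prelude.Def_Tilting
import Crest.Agent.R186.NotInj_700

/-!
Row 186, end-game closings, part 7 (helper700): the literal conclusions of S0282, S0283, S0284,
S0285 over a field `K` from a generator `G` (with `A` a direct summand of `G`) over a symmetric
`K`-algebra `A`, `G` finite, not projective and `Ext^i_A (G, G) = 0` for `i > 0`.
-/

set_option autoImplicit false
set_option linter.style.haveILetI false

universe v u

open CategoryTheory CategoryTheory.Abelian Crest.AlgebraR

namespace Crest.Agent.R186.Fin700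

open Frob700 EndG700 Syz700 Homol700 Cores700 NotInj700

section general

variable {R : Type u} [Ring R]

theorem inj_obj {M : Type u} [AddCommGroup M] [Module R M] (h : Module.Injective R M) :
    Injective (ModuleCat.of R M) :=
  Module.injective_object_of_injective_module R M

theorem proj_obj {M : Type u} [AddCommGroup M] [Module R M] (h : Module.Projective R M) :
    Projective (ModuleCat.of R M) :=
  (IsProjective.iff_projective (ModuleCat.of R M)).1 h

/-- `Hom (-, W)` with `W` injective is exact -/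
theorem exact_pre {X Y Z W : Type u} [AddCommGroup X] [Module R X] [AddCommGroup Y] [Module R Y]
    [AddCommGroup Z] [Module R Z] [AddCommGroup W] [Module R W] (hW : Module.Injective R W)
    (a : X →ₗ[R] Y) (b : Y →ₗ[R] Z) (h : Function.Exact a b) :
    Function.Exact (fun f : Z →ₗ[R] W => f ∘ₗ b) (fun g : Y →ₗ[R] W => g ∘ₗ a) := by
  intro g
  constructor
  · intro hg
    have hker : LinearMap.ker b ≤ LinearMap.ker g := by
      intro y hy
      obtain ⟨x, rfl⟩ := (h y).1 hy
      exact LinearMap.congr_fun hg x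
    let g' : (Y ⧸ LinearMap.ker b) →ₗ[R] W := (LinearMap.ker b).liftQ g hker
    let b' : (Y ⧸ LinearMap.ker b) →ₗ[R] Z := (LinearMap.ker b).liftQ b le_rfl
    have hb' : Function.Injective b' := by
      rw [← LinearMap.ker_eq_bot]
      exact Submodule.ker_liftQ_eq_bot _ _ _ le_rfl
    obtain ⟨f, hf⟩ := hW.out b' hb' g'
    refine ⟨f, LinearMap.ext fun y => ?_⟩
    have := hf (Submodule.Quotient.mk y)
    exact this
  · rintro ⟨f, rfl⟩
    refine LinearMap.ext fun x => ?_
    show f (b (a x)) = 0
    rw [(h (a x)).2 ⟨x, rfl⟩, map_zero]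

theorem retr_inj {X M : Type u} [AddCommGroup X] [Module R X] [AddCommGroup M] [Module R M]
    (i : X →ₗ[R] M) (p : M →ₗ[R] X) (h : ∀ x, p (i x) = x) (hM : Module.Injective R M) :
    Module.Injective R X := by
  refine ⟨fun Y Z _ _ _ _ f hf g => ?_⟩
  obtain ⟨t, ht⟩ := hM.out f hf (i ∘ₗ g)
  refine ⟨p ∘ₗ t, fun y => ?_⟩
  show p (t (f y)) = g y
  rw [ht]
  exact h _

theorem inj_of_inAdd {W X : Type u} [AddCommGroup W] [Module R W] [AddCommGroup X] [Module R X]
    (hW : Module.Injective R W) (h : InAdd R W X) : Module.Injective R X := by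
  obtain ⟨n, Y, _, _, ⟨e⟩⟩ := h
  haveI : Module.Injective R (Fin n → W) := inferInstance
  exact retr_inj (e.toLinearMap ∘ₗ LinearMap.inl R X Y) (LinearMap.fst R X Y ∘ₗ e.symm.toLinearMap)
    (fun x => by simp) this

theorem proj_of_inAdd {W X : Type u} [AddCommGroup W] [Module R W] [AddCommGroup X] [Module R X]
    (hW : Module.Projective R W) (h : InAdd R W X) : Module.Projective R X := by
  obtain ⟨n, Y, _, _, ⟨e⟩⟩ := h
  haveI : Module.Projective R (Π₀ _ : Fin n, W) := inferInstance
  haveI : Module.Projective R (Fin n → W) :=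
    Module.Projective.of_equiv' (DFinsupp.linearEquivFunOnFintype (R := R)
      (M := fun _ : Fin n => W))
  exact Module.Projective.of_split (e.toLinearMap ∘ₗ LinearMap.inl R X Y)
    (LinearMap.fst R X Y ∘ₗ e.symm.toLinearMap) (by ext x; simp)

/-- a finite coresolution of `R` by modules which are projective and injective makes `R`
self-injective -/
theorem inj_of_finite_cores (C : ℕ → Type u) [∀ j, AddCommGroup (C j)] [∀ j, Module R (C j)]
    (ε : R →ₗ[R] C 0) (d : ∀ j : ℕ, C j →ₗ[R] C (j + 1)) (r : ℕ)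
    (hε : Function.Injective ε) (h0 : Function.Exact ε (d 0))
    (hd : ∀ j, Function.Exact (d j) (d (j + 1)))
    (hp : ∀ j, Module.Projective R (C j)) (hi : ∀ j, Module.Injective R (C j))
    (hr : ∀ j, r < j → Subsingleton (C j)) : Module.Injective R R := by
  let Z : ℕ → ModuleCat.{u} R := fun j => ModuleCat.of R (LinearMap.ker (d j))
  let I : ℕ → ModuleCat.{u} R := fun j => ModuleCat.of R (C j)
  let gg : ∀ j, C j →ₗ[R] LinearMap.ker (d (j + 1)) := fun j =>
    (d j).codRestrict _ (fun x => (hd j (d j x)).2 ⟨x, rfl⟩)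
  have hz : ∀ j, gg j ∘ₗ (LinearMap.ker (d j)).subtype = 0 := by
    intro j
    ext x
    exact x.2
  let c : Chain Z I :=
    { f := fun j => ModuleCat.ofHom (LinearMap.ker (d j)).subtype
      g := fun j => ModuleCat.ofHom (gg j)
      zero := fun j => by
        ext1
        exact hz j
      se := fun j => by
        refine ModuleCat.shortComplex_shortExact _ ?_ ?_ ?_
        · intro y
          constructor
          · intro hy
            have h1 : (gg j) y = 0 := hy
            have h2 : d j y = 0 := congrArg Subtype.val h1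
            exact ⟨⟨y, h2⟩, rfl⟩
          · rintro ⟨x, rfl⟩
            exact LinearMap.congr_fun (hz j) x
        · exact (LinearMap.ker (d j)).injective_subtype
        · rintro ⟨y, hy⟩
          obtain ⟨x, hx⟩ := (hd j y).1 hy
          exact ⟨x, Subtype.ext hx⟩ }
  have hZ : Projective (Z (r + 1)) := by
    haveI : Subsingleton (C (r + 1)) := hr (r + 1) (by omega)
    haveI : Subsingleton (LinearMap.ker (d (r + 1))) := inferInstance
    haveI : Module.Projective R (LinearMap.ker (d (r + 1))) := inferInstance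
    exact proj_obj this
  have h1 : Injective (Z 0) := inj_zero_of_proj c (fun j => proj_obj (hp j))
    (fun j => inj_obj (hi j)) r hZ
  have h2 : Module.Injective R (LinearMap.ker (d 0)) :=
    Module.injective_module_of_injective_object R _
  let e : R →ₗ[R] LinearMap.ker (d 0) := ε.codRestrict _ (fun x => (h0 (ε x)).2 ⟨x, rfl⟩)
  have he : Function.Bijective e := by
    constructor
    · intro x y hxy
      exact hε (congrArg Subtype.val hxy)
    · rintro ⟨y, hy⟩
      obtain ⟨x, hx⟩ := (h0 y).1 hy
      exact ⟨x, Subtype.ext hx⟩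
  exact injective_of_equiv (LinearEquiv.ofBijective e he).symm h2

end general

section zero

variable {A : Type u} [Ring A] {G : Type u} [AddCommGroup G] [Module A G]

theorem pre_cov_zero (M : FM A) (f : M.X →ₗ[A] G) (h : pre (G := G) M.cov f = 0) : f = 0 := by
  apply pre_cov_inj (G := G) M
  rw [h, map_zero]

theorem pre_eq_zero {X Y : Type u} [AddCommGroup X] [Module A X] [AddCommGroup Y] [Module A Y]
    (t : X →ₗ[A] Y) (f : Y →ₗ[A] G) (h : f = 0) : pre (G := G) t f = 0 := by
  rw [h, map_zero]

end zero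

section main

variable {A : Type u} [Ring A] [IsNoetherianRing A] {G : Type u} [AddCommGroup G] [Module A G]
  [Module.Finite A G]

variable (A G) in
/-- the standing hypotheses: everything is expressed over `Γ = End_A G` -/
structure Hyp where
  s : Gen A G
  np : ¬ Module.Projective A G
  ext : ∀ i : ℕ, 0 < i → Subsingleton (Ext (ModuleCat.of A G) (ModuleCat.of A G) i)
  inj : Module.Injective (Module.End A G) G
  hz : ∀ (S : Type u) [AddCommGroup S] [Module (Module.End A G) S],
    (∀ γ ∈ J A G, ∀ x : S, γ • x = 0) → ∀ f : S →ₗ[Module.End A G] G, f = 0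

namespace Hyp

variable (H : Hyp A G)

include H

theorem Ip (j : ℕ) : Projective (II A G j) := proj_obj (hom_projective H.s _)

theorem Ii (j : ℕ) : Injective (II A G j) := inj_obj (hom_injective H.inj _)

omit [IsNoetherianRing A] [Module.Finite A G] H in
theorem Zp : Projective (ModuleCat.of (Module.End A G) (G →ₗ[A] G)) :=
  proj_obj (Module.Projective.of_equiv' (selfEquiv (A := A) (G := G)))

theorem Zi : ¬ Injective (ZZ A G 0) := not_injective H.s H.np H.ext

omit H in
/-- `Γ ≅ Z 0` -/
noncomputable def isoZ : ModuleCat.of (Module.End A G) (Module.End A G) ≅ ZZ A G 0 :=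
  (selfEquiv (A := A) (G := G)).toModuleIso

theorem dim (n : ℕ) (hn : 1 ≤ n) :
    ∃ C : ModuleCat.{u} (Module.End A G), Module.Finite (Module.End A G) C ∧
      projectiveDimension C = (n : WithBot ℕ∞) := by
  refine ⟨ZZ A G n, ?_, ?_⟩
  · obtain ⟨m, rfl⟩ := Nat.exists_eq_add_of_le' hn
    haveI := hom_finite H.s (Om (FMG A G) m).n
    exact Module.Finite.of_surjective (pre (G := G) (Om (FMG A G) m).inc)
      (fun g => lift_Om (FMG A G) G H.ext m g)
  · exact projDim_eq (chain A G H.ext) H.Ip H.Ii Zp H.Zi n hn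

theorem injdim (n : ℕ) :
    ¬ HasInjectiveDimensionLT (ModuleCat.of (Module.End A G) (Module.End A G)) n := by
  intro h
  have h1 : HasInjectiveDimensionLT (ZZ A G 0) n := hasInjectiveDimensionLT_of_iso (isoZ (A := A) (G := G)) n
  exact not_injDim (chain A G H.ext) H.Ip H.Ii H.Zi n h1

/-- terms -/
abbrev CC (A G : Type u) [Ring A] [IsNoetherianRing A] [AddCommGroup G] [Module A G]
    [Module.Finite A G] (j : ℕ) : Type u := (Fin (Om (FMG A G) j).n → A) →ₗ[A] G

/-- augmentation -/
noncomputable def eps (A G : Type u) [Ring A] [IsNoetherianRing A] [AddCommGroup G] [Module A G]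
    [Module.Finite A G] : Module.End A G →ₗ[Module.End A G] CC A G 0 :=
  pre (G := G) (Om (FMG A G) 0).cov ∘ₗ (selfEquiv (A := A) (G := G)).toLinearMap

/-- differentials -/
noncomputable def dd (A G : Type u) [Ring A] [IsNoetherianRing A] [AddCommGroup G] [Module A G]
    [Module.Finite A G] (j : ℕ) : CC A G j →ₗ[Module.End A G] CC A G (j + 1) :=
  pre (G := G) (Om (FMG A G) (j + 1)).cov ∘ₗ pre (G := G) (Om (FMG A G) j).inc

omit H in
theorem eps_inj : Function.Injective (eps A G) := by
  intro x y hxy
  have h1 := pre_cov_inj (G := G) (Om (FMG A G) 0) hxy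
  exact h1

omit H in
theorem eps_exact : Function.Exact (eps A G) (dd A G 0) := by
  intro f
  constructor
  · intro hf
    have h1 : pre (G := G) (Om (FMG A G) 0).inc f = 0 :=
      pre_cov_zero (G := G) (Om (FMG A G) 1) _ hf
    obtain ⟨g, hg⟩ := (pre_exact (G := G) (Om (FMG A G) 0) f).1 h1
    exact ⟨g, hg⟩
  · rintro ⟨g, rfl⟩
    exact pre_eq_zero (G := G) (Om (FMG A G) 1).cov _
      ((pre_exact (G := G) (Om (FMG A G) 0)).apply_apply_eq_zero g)

theorem dd_exact (j : ℕ) : Function.Exact (dd A G j) (dd A G (j + 1)) := by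
  intro f
  constructor
  · intro hf
    have h1 : pre (G := G) (Om (FMG A G) (j + 1)).inc f = 0 :=
      pre_cov_zero (G := G) (Om (FMG A G) (j + 2)) _ hf
    obtain ⟨g, hg⟩ := (pre_exact (G := G) (Om (FMG A G) (j + 1)) f).1 h1
    obtain ⟨t, ht⟩ := lift_Om (FMG A G) G H.ext j g
    refine ⟨t, ?_⟩
    have h2 : pre (G := G) (Om (FMG A G) j).inc t = g := ht
    exact (congrArg (pre (G := G) (Om (FMG A G) (j + 1)).cov) h2).trans hg
  · rintro ⟨t, rfl⟩
    exact pre_eq_zero (G := G) (Om (FMG A G) (j + 2)).cov _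
      ((pre_exact (G := G) (Om (FMG A G) (j + 1))).apply_apply_eq_zero
        (pre (G := G) (Om (FMG A G) j).inc t))

theorem domdim : ∃ (I : ℕ → ModuleCat.{u} (Module.End A G))
    (ε : Module.End A G →ₗ[Module.End A G] I 0)
    (d : ∀ j : ℕ, I j →ₗ[Module.End A G] I (j + 1)),
    Function.Injective ε ∧ Function.Exact ε (d 0) ∧
      (∀ j, Function.Exact (d j) (d (j + 1))) ∧
      ∀ j, Module.Projective (Module.End A G) (I j) ∧ Module.Injective (Module.End A G) (I j) :=
  ⟨fun j => II A G j, eps A G, dd A G, eps_inj, eps_exact, H.dd_exact,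
    fun j => ⟨hom_projective H.s _, hom_injective H.inj _⟩⟩

theorem not_self_inj : ¬ Module.Injective (Module.End A G) (Module.End A G) := by
  intro h
  have h1 : Module.Injective (Module.End A G) (G →ₗ[A] G) :=
    injective_of_equiv (selfEquiv (A := A) (G := G)) h
  exact H.Zi (inj_obj h1)

theorem self_orth : IsSelfOrthogonal (Module.End A G) G := by
  intro i hi
  haveI : Projective (ModuleCat.of (Module.End A G) G) := proj_obj H.s.projective
  obtain ⟨j, rfl⟩ := Nat.exists_eq_add_of_le' hi
  exact ⟨fun a b => by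
    rw [Ext.eq_zero_of_projective a, Ext.eq_zero_of_projective b]⟩

theorem wakamatsu : IsWakamatsuTilting (Module.End A G) G := by
  refine ⟨H.self_orth, CC A G, inferInstance, inferInstance, eps A G, dd A G,
    ⟨fun j => ⟨(Om (FMG A G) j).n, PUnit, inferInstance, inferInstance, ⟨?_⟩⟩, eps_inj, eps_exact,
      H.dd_exact⟩, ?_, ?_, ?_⟩
  · exact (LinearEquiv.prodUnique).trans (homEquiv (A := A) (G := G) (Om (FMG A G) j).n).symm
  · intro f
    obtain ⟨t, ht⟩ := H.inj.out (eps A G) eps_inj f
    exact ⟨t, LinearMap.ext ht⟩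
  · exact exact_pre H.inj (eps A G) (dd A G 0) eps_exact
  · intro j
    exact exact_pre H.inj (dd A G j) (dd A G (j + 1)) (H.dd_exact j)

theorem not_tilting : ¬ IsTilting (Module.End A G) G := by
  rintro ⟨-, -, C, _, _, ε, d, r, ⟨hadd, hε, h0, hd⟩, hr⟩
  exact H.not_self_inj (inj_of_finite_cores C ε d r hε h0 hd
    (fun j => proj_of_inAdd H.s.projective (hadd j)) (fun j => inj_of_inAdd H.inj (hadd j)) hr)

theorem simple_ext : ∃ S : ModuleCat.{u} (Module.End A G), IsSimpleModule (Module.End A G) S ∧
    ∀ i : ℕ, Subsingleton (Ext S (ModuleCat.of (Module.End A G) (Module.End A G)) i) := by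
  obtain ⟨S, _, _, hs, hJ⟩ := exists_simple (A := A) (G := G) H.np
  refine ⟨ModuleCat.of (Module.End A G) S, hs, fun i => ?_⟩
  have h1 : Subsingleton (Ext (ModuleCat.of (Module.End A G) S) (ZZ A G 0) i) := by
    refine ext_zero (chain A G H.ext) H.Ii _ (fun j φ => ?_) i 0
    have h2 : ∀ f : S →ₗ[Module.End A G] CC A G j, f = 0 := by
      intro f
      have h3 : ∀ m : Fin (Om (FMG A G) j).n, LinearMap.proj m ∘ₗ
          (homEquiv (A := A) (G := G) (Om (FMG A G) j).n).symm.toLinearMap ∘ₗ f = 0 :=
        fun m => H.hz S hJ _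
      refine LinearMap.ext fun x => ?_
      apply (homEquiv (A := A) (G := G) (Om (FMG A G) j).n).symm.injective
      rw [LinearMap.zero_apply, map_zero]
      funext m
      exact LinearMap.congr_fun (h3 m) x
    exact ModuleCat.hom_ext (h2 φ.hom)
  refine ⟨fun a b => ?_⟩
  have h4 : ∀ x : Ext (ModuleCat.of (Module.End A G) S)
      (ModuleCat.of (Module.End A G) (Module.End A G)) i, x = 0 := by
    intro x
    have h5 : x.comp (Ext.mk₀ (isoZ (A := A) (G := G)).hom) (add_zero i) = 0 := h1.elim _ _
    have h6 : (x.comp (Ext.mk₀ (isoZ (A := A) (G := G)).hom) (add_zero i)).comp (Ext.mk₀ (isoZ (A := A) (G := G)).inv)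
        (add_zero i) = x := by
      rw [Ext.comp_assoc_of_second_deg_zero, Ext.mk₀_comp_mk₀, Iso.hom_inv_id, Ext.comp_mk₀_id]
    rw [← h6, h5, Ext.zero_comp]
  rw [h4 a, h4 b]

end Hyp

end main

end Crest.Agent.R186.Fin700
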