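import Mathlib
import Crest.Prelude.Def_Tilting
import Crest.Prelude.Def_SymmetricAlgebra
import Crest.Agent.R186.Fin_700

/-!
Row 186, end-game closings, part 8 (helper700): from a symmetric `K`-algebra `A` and a finite
non-projective `M` with `Ext^i_A (M, M) = 0` for `i > 0` to the literal conclusions of
S0282, S0283, S0284, S0285 over `K`.
-/

set_option autoImplicit false
set_option linter.style.haveILetI false

universe v u

open CategoryTheory CategoryTheory.Abelian Crest.AlgebraR

namespace Crest.Agent.R186.Close700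

open Frob700 EndG700 Syz700 Homol700 Cores700 NotInj700 Fin700

/-- the input -/
structure AR (K : Type v) [Field K] where
  A : Type u
  [ring : Ring A]
  [alg : Algebra K A]
  fd : FiniteDimensional K A
  sym : IsSymmetricAlgebra K A
  M : Type u
  [grp : AddCommGroup M]
  [mod : Module A M]
  fin : Module.Finite A M
  np : ¬ Module.Projective A M
  ext : ∀ i : ℕ, 0 < i → Subsingleton (Ext (ModuleCat.of A M) (ModuleCat.of A M) i)

attribute [instance] AR.ring AR.alg AR.grp AR.mod

section prod

variable {A : Type u} [Ring A] {M : Type u} [AddCommGroup M] [Module A M]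

/-- `0 → A → A × M → M → 0` -/
noncomputable abbrev psc (A M : Type u) [Ring A] [AddCommGroup M] [Module A M] :
    ShortComplex (ModuleCat.{u} A) :=
  ModuleCat.shortComplexOfCompEqZero (LinearMap.inl A A M) (LinearMap.snd A A M)
    (LinearMap.snd_comp_inl A A M)

theorem psc_se : (psc A M).ShortExact := by
  refine ModuleCat.shortComplex_shortExact _ ?_ ?_ ?_
  · intro x
    constructor
    · intro hx
      refine ⟨x.1, ?_⟩
      have h2 : x.2 = 0 := hx
      exact Prod.ext rfl h2.symm
    · rintro ⟨y, rfl⟩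
      rfl
  · exact LinearMap.inl_injective
  · exact LinearMap.snd_surjective

theorem ext_prod (hA : Module.Injective A A)
    (h : ∀ i : ℕ, 0 < i → Subsingleton (Ext (ModuleCat.of A M) (ModuleCat.of A M) i)) (i : ℕ)
    (hi : 0 < i) :
    Subsingleton (Ext (ModuleCat.of A (A × M)) (ModuleCat.of A (A × M)) i) := by
  obtain ⟨j, rfl⟩ := Nat.exists_eq_add_of_le' hi
  haveI : Injective (ModuleCat.of A A) := inj_obj hA
  haveI : Projective (ModuleCat.of A A) := proj_obj inferInstance
  -- Ext (A × M, M) = 0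
  have h1 : ∀ x : Ext (psc A M).X₂ (ModuleCat.of A M) (j + 1), x = 0 := by
    intro x
    have h0 : (Ext.mk₀ (psc A M).f).comp x (zero_add (j + 1)) = 0 :=
      Ext.eq_zero_of_projective (P := ModuleCat.of A A) _
    obtain ⟨y, hy⟩ := Ext.contravariant_sequence_exact₂ psc_se (ModuleCat.of A M) x h0
    have : y = 0 := (h (j + 1) hi).elim _ _
    rw [← hy, this, Ext.comp_zero]
  have h2 : ∀ x : Ext (ModuleCat.of A (A × M)) (psc A M).X₂ (j + 1), x = 0 := by
    intro x
    have h0 : x.comp (Ext.mk₀ (psc A M).g) (add_zero (j + 1)) = 0 := h1 _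
    obtain ⟨y, hy⟩ := Ext.covariant_sequence_exact₂ (ModuleCat.of A (A × M)) psc_se x h0
    have : y = 0 := Ext.eq_zero_of_injective (I := ModuleCat.of A A) _
    rw [← hy, this, Ext.zero_comp]
  exact ⟨fun a b => by rw [h2 a, h2 b]⟩

theorem np_prod (h : ¬ Module.Projective A M) : ¬ Module.Projective A (A × M) := by
  intro hp
  exact h (Module.Projective.of_split (LinearMap.inr A A M) (LinearMap.snd A A M)
    (LinearMap.snd_comp_inr A A M))

/-- `A` is a summand of `A × M` -/
def genProd : Gen A (A × M) where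
  i := LinearMap.inl A A M
  p := LinearMap.fst A A M
  pi _ := rfl

end prod

section K

variable {K : Type v} [Field K] {A : Type u} [Ring A] [Algebra K A] {G : Type u}
  [AddCommGroup G] [Module A G] [Module K G] [IsScalarTower K A G]

include K in
theorem comm_AK : SMulCommClass A K G := ⟨fun a r g => by
  rw [← algebraMap_smul A r g, ← algebraMap_smul A r (a • g), ← mul_smul, ← mul_smul,
    Algebra.commutes]⟩

theorem fd_end [FiniteDimensional K G] [SMulCommClass A K G] :
    FiniteDimensional K (Module.End A G) := by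
  let φ : Module.End A G →ₗ[K] Module.End K G :=
    { toFun := fun f => f.restrictScalars K
      map_add' := fun _ _ => rfl
      map_smul' := fun _ _ => rfl }
  exact FiniteDimensional.of_injective φ (fun f g h => by
    ext x
    exact LinearMap.congr_fun h x)

theorem mkHyp [IsNoetherianRing A] [Module.Finite A G] [FiniteDimensional K G] (σ : Sym K A)
    (s : Gen A G) (np : ¬ Module.Projective A G)
    (ext : ∀ i : ℕ, 0 < i → Subsingleton (Ext (ModuleCat.of A G) (ModuleCat.of A G) i)) :
    Nonempty (Hyp A G) :=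
  ⟨{ s := s
     np := np
     ext := ext
     inj := injective σ s
     hz := fun S _ _ hS f => hom_zero σ s S hS f }⟩

end K

section main

variable {K : Type v} [Field K] (D : AR.{v, u} K)

/-- the collected output -/
structure Out (K : Type v) [Field K] where
  Γ : Type u
  [ring : Ring Γ]
  [alg : Algebra K Γ]
  fd : FiniteDimensional K Γ
  W : Type u
  [grp : AddCommGroup W]
  [mod : Module Γ W]
  fin : Module.Finite Γ W
  proj : Module.Projective Γ W
  inj : Module.Injective Γ W
  wak : IsWakamatsuTilting Γ W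
  nt : ¬ IsTilting Γ W
  simple : ∃ S : ModuleCat.{u} Γ, IsSimpleModule Γ S ∧
    ∀ i : ℕ, Subsingleton (Ext S (ModuleCat.of Γ Γ) i)
  dim : ∀ n : ℕ, 1 ≤ n → ∃ C : ModuleCat.{u} Γ, Module.Finite Γ C ∧
    projectiveDimension C = (n : WithBot ℕ∞)
  dom : ∃ (I : ℕ → ModuleCat.{u} Γ) (ε : Γ →ₗ[Γ] I 0) (d : ∀ j : ℕ, I j →ₗ[Γ] I (j + 1)),
    Function.Injective ε ∧ Function.Exact ε (d 0) ∧ (∀ j, Function.Exact (d j) (d (j + 1))) ∧
    ∀ j, Module.Projective Γ (I j) ∧ Module.Injective Γ (I j)
  ninj : ∀ n : ℕ, ¬ HasInjectiveDimensionLT (ModuleCat.of Γ Γ) n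

attribute [instance] Out.ring Out.alg Out.grp Out.mod

include D in
theorem out : Nonempty (Out.{v, u} K) := by
  obtain ⟨σ⟩ := nonempty_sym D.sym
  haveI := D.fd
  haveI := D.fin
  haveI : IsNoetherianRing D.A := isNoetherian_of_tower K (inferInstance : IsNoetherian K D.A)
  letI : Module K D.M := Module.compHom D.M (algebraMap K D.A)
  haveI : IsScalarTower K D.A D.M := ⟨fun r a x => by
    show (r • a) • x = algebraMap K D.A r • (a • x)
    rw [Algebra.smul_def, mul_smul]⟩
  haveI : FiniteDimensional K D.M := Module.Finite.trans D.A D.M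
  haveI : SMulCommClass D.A K (D.A × D.M) := comm_AK (K := K) (A := D.A) (G := D.A × D.M)
  obtain ⟨H⟩ := mkHyp (G := D.A × D.M) σ genProd (np_prod D.np)
    (ext_prod (injective_self σ) D.ext)
  exact ⟨{ Γ := Module.End D.A (D.A × D.M)
           fd := fd_end
           W := D.A × D.M
           fin := H.s.finite
           proj := H.s.projective
           inj := H.inj
           wak := H.wakamatsu
           nt := H.not_tilting
           simple := H.simple_ext
           dim := H.dim
           dom := H.domdim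
           ninj := H.injdim }⟩

include D

/-- conclusion of S0282 -/
theorem c0282 : ∃ (Γ : Type u) (_ : Ring Γ) (_ : Algebra K Γ), FiniteDimensional K Γ ∧
      ∃ S : ModuleCat.{u} Γ, IsSimpleModule Γ S ∧
        ∀ i : ℕ, Subsingleton (Abelian.Ext S (ModuleCat.of Γ Γ) i) := by
  obtain ⟨O⟩ := out D
  exact ⟨O.Γ, O.ring, O.alg, O.fd, O.simple⟩

/-- conclusion of S0283 -/
theorem c0283 : ∃ (Γ : Type u) (_ : Ring Γ) (_ : Algebra K Γ), FiniteDimensional K Γ ∧
      ∀ n : ℕ, 1 ≤ n → ∃ C : ModuleCat.{u} Γ, Module.Finite Γ C ∧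
        projectiveDimension C = (n : WithBot ℕ∞) := by
  obtain ⟨O⟩ := out D
  exact ⟨O.Γ, O.ring, O.alg, O.fd, O.dim⟩

/-- conclusion of S0284 -/
theorem c0284 : ∃ (Γ : Type u) (_ : Ring Γ) (_ : Algebra K Γ), FiniteDimensional K Γ ∧
      (∃ (I : ℕ → ModuleCat.{u} Γ) (ε : Γ →ₗ[Γ] I 0) (d : ∀ j : ℕ, I j →ₗ[Γ] I (j + 1)),
        Function.Injective ε ∧ Function.Exact ε (d 0) ∧ (∀ j, Function.Exact (d j) (d (j + 1))) ∧
        ∀ j, Module.Projective Γ (I j) ∧ Module.Injective Γ (I j)) ∧
      ∀ n : ℕ, ¬ HasInjectiveDimensionLT (ModuleCat.of Γ Γ) n := by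
  obtain ⟨O⟩ := out D
  exact ⟨O.Γ, O.ring, O.alg, O.fd, O.dom, O.ninj⟩

/-- conclusion of S0285 -/
theorem c0285 : ∃ (Γ : Type u) (_ : Ring Γ) (_ : Algebra K Γ), FiniteDimensional K Γ ∧
      ∃ (W : Type u) (_ : AddCommGroup W) (_ : Module Γ W), Module.Finite Γ W ∧
        Module.Projective Γ W ∧ Module.Injective Γ W ∧
        IsWakamatsuTilting Γ W ∧ ¬ IsTilting Γ W := by
  obtain ⟨O⟩ := out D
  exact ⟨O.Γ, O.ring, O.alg, O.fd, O.W, O.grp, O.mod, O.fin, O.proj, O.inj, O.wak, O.nt⟩

end main

end Crest.Agent.R186.Close700
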