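import Mathlib

/-!
Row 186 (helper234): base change of modules `M ↦ E ⊗[k] M` from `Λ` to `E ⊗[k] Λ`.
-/

set_option autoImplicit false
set_option linter.unusedSectionVars false

universe u

open scoped TensorProduct

namespace Crest.Agent.R186.BC234

variable (k : Type) [Field k] (E : Type u) [Field E] [Algebra k E]
variable (Λ : Type) [Ring Λ] [Algebra k Λ]

/-- base change of a module -/
def BC (M : Type) [AddCommGroup M] [Module k M] : Type u := E ⊗[k] M

section inst

variable (M : Type) [AddCommGroup M] [Module k M]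

instance : AddCommGroup (BC k E M) := inferInstanceAs (AddCommGroup (E ⊗[k] M))
instance : Module k (BC k E M) := inferInstanceAs (Module k (E ⊗[k] M))
instance : Module E (BC k E M) := inferInstanceAs (Module E (E ⊗[k] M))

end inst

section act

variable (M : Type) [AddCommGroup M] [Module k M] [Module Λ M] [IsScalarTower k Λ M]

/-- action of `Λ` on `E ⊗ M` -/
noncomputable def actR : Λ →ₐ[k] Module.End k (E ⊗[k] M) where
  toFun r := LinearMap.lTensor E (Algebra.lsmul k k M r)
  map_one' := by
    rw [map_one]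
    exact LinearMap.lTensor_id E M
  map_mul' a b := by
    rw [map_mul]
    exact LinearMap.lTensor_comp _ _ _
  map_zero' := by
    rw [map_zero]
    exact LinearMap.lTensor_zero _
  map_add' a b := by
    rw [map_add]
    exact LinearMap.lTensor_add _ _ _
  commutes' r := by
    refine TensorProduct.ext' fun e m => ?_
    simp [Module.algebraMap_end_apply]

/-- the action of `E ⊗ Λ` on `E ⊗ M` -/
noncomputable def act : E ⊗[k] Λ →ₐ[k] Module.End k (E ⊗[k] M) :=
  Algebra.TensorProduct.lift (Algebra.lsmul k k (E ⊗[k] M)) (actR k E Λ M) (by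
    intro x y
    refine TensorProduct.ext' fun e m => ?_
    simp [actR, Module.End.mul_apply, TensorProduct.smul_tmul'])

theorem act_tmul (a : E) (r : Λ) (b : E) (m : M) :
    act k E Λ M (a ⊗ₜ[k] r) (b ⊗ₜ[k] m) = (a * b) ⊗ₜ[k] (r • m) := by
  simp [act, actR, TensorProduct.smul_tmul']

noncomputable instance : Module (E ⊗[k] Λ) (BC k E M) :=
  Module.compHom (E ⊗[k] M) (act k E Λ M).toRingHom

/-- pure tensors -/
def tm {M : Type} [AddCommGroup M] [Module k M] (e : E) (m : M) : BC k E M := e ⊗ₜ[k] m

variable {k E M}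

theorem smul_def' (x : E ⊗[k] Λ) (y : BC k E M) : x • y = (act k E Λ M x) y := rfl

theorem smul_tm (a : E) (r : Λ) (b : E) (m : M) :
    (a ⊗ₜ[k] r) • (tm k E b m) = tm k E (a * b) (r • m) := act_tmul k E Λ M a r b m

theorem BC_ind {P : BC k E M → Prop} (h0 : P 0) (h1 : ∀ e m, P (tm k E e m))
    (h2 : ∀ x y, P x → P y → P (x + y)) (x : BC k E M) : P x :=
  TensorProduct.induction_on (motive := P) x h0 h1 h2

theorem BC_addhom_ext {N : Type*} [AddCommMonoid N] (f g : BC k E M →+ N)
    (h : ∀ e m, f (tm k E e m) = g (tm k E e m)) : f = g := by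
  ext x
  induction x using BC_ind (k := k) (E := E) (M := M) with
  | h0 => simp
  | h1 e m => exact h e m
  | h2 x y hx hy => rw [map_add, map_add, hx, hy]

end act

section hom

variable {k Λ}
variable {M N : Type} [AddCommGroup M] [Module k M] [Module Λ M] [IsScalarTower k Λ M]
  [AddCommGroup N] [Module k N] [Module Λ N] [IsScalarTower k Λ N]

/-- base change of a linear map, `k`-linear -/
noncomputable def mapk (f : M →ₗ[Λ] N) : BC k E M →ₗ[k] BC k E N :=
  LinearMap.lTensor E (f.restrictScalars k)

theorem mapk_tm (f : M →ₗ[Λ] N) (e : E) (m : M) : mapk E f (tm k E e m) = tm k E e (f m) := rfl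

/-- base change of a linear map -/
noncomputable def map (f : M →ₗ[Λ] N) : BC k E M →ₗ[E ⊗[k] Λ] BC k E N where
  toFun := mapk E f
  map_add' := map_add _
  map_smul' x y := by
    simp only [RingHom.id_apply]
    induction x using TensorProduct.induction_on with
    | zero => simp
    | add a b ha hb => rw [add_smul, map_add, ha, hb, add_smul]
    | tmul a r =>
      induction y using BC_ind (k := k) (E := E) (M := M) with
      | h0 => simp
      | h1 e m => rw [smul_tm, mapk_tm, mapk_tm, smul_tm, map_smul]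
      | h2 x y hx hy => rw [smul_add, map_add, hx, hy, map_add, smul_add]

theorem map_tm (f : M →ₗ[Λ] N) (e : E) (m : M) : map E f (tm k E e m) = tm k E e (f m) := rfl

theorem map_comp {P : Type} [AddCommGroup P] [Module k P] [Module Λ P] [IsScalarTower k Λ P]
    (g : N →ₗ[Λ] P) (f : M →ₗ[Λ] N) : map E (k := k) (g ∘ₗ f) = map E g ∘ₗ map E f := by
  ext x
  induction x using BC_ind (k := k) (E := E) (M := M) with
  | h0 => simp
  | h1 e m => rfl
  | h2 x y hx hy => rw [map_add, map_add, hx, hy]

theorem map_id : map E (k := k) (LinearMap.id : M →ₗ[Λ] M) = LinearMap.id := by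
  ext x
  induction x using BC_ind (k := k) (E := E) (M := M) with
  | h0 => simp
  | h1 e m => rfl
  | h2 x y hx hy => rw [map_add, hx, hy]; rfl

theorem map_zero' : map E (k := k) (0 : M →ₗ[Λ] N) = 0 := by
  ext x
  induction x using BC_ind (k := k) (E := E) (M := M) with
  | h0 => simp
  | h1 e m =>
    rw [map_tm]
    exact TensorProduct.tmul_zero _ _
  | h2 x y hx hy => rw [map_add, map_add, hx, hy]

theorem map_inj {f : M →ₗ[Λ] N} (h : Function.Injective f) :
    Function.Injective (map E (k := k) f) :=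
  Module.Flat.lTensor_preserves_injective_linearMap (M := E) (f.restrictScalars k) h

theorem map_surj {f : M →ₗ[Λ] N} (h : Function.Surjective f) :
    Function.Surjective (map E (k := k) f) :=
  LinearMap.lTensor_surjective E (g := f.restrictScalars k) h

theorem map_exact {P : Type} [AddCommGroup P] [Module k P] [Module Λ P] [IsScalarTower k Λ P]
    {f : M →ₗ[Λ] N} {g : N →ₗ[Λ] P} (h : Function.Exact f g) :
    Function.Exact (map E (k := k) f) (map E (k := k) g) :=
  Module.Flat.lTensor_exact (M := E) (f := f.restrictScalars k) (g := g.restrictScalars k) h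

/-- base change of an equivalence -/
noncomputable def equiv (e : M ≃ₗ[Λ] N) : BC k E M ≃ₗ[E ⊗[k] Λ] BC k E N :=
  LinearEquiv.ofLinearMap (map E e.toLinearMap) (map E e.symm.toLinearMap)
    (by rw [← map_comp]; simp [map_id]) (by rw [← map_comp]; simp [map_id])

end hom

section self

variable {k Λ}

/-- `BC Λ` as a type is `E ⊗ Λ` -/
def toReg : BC k E Λ →+ (E ⊗[k] Λ) := AddMonoidHom.id _

def ofReg : (E ⊗[k] Λ) →+ BC k E Λ := AddMonoidHom.id _

theorem toReg_tm (e : E) (r : Λ) : toReg (k := k) E (tm k E e r) = e ⊗ₜ[k] r := rfl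

theorem toReg_smul (x : E ⊗[k] Λ) (y : BC k E Λ) : toReg E (x • y) = x * toReg E y := by
  induction x using TensorProduct.induction_on with
  | zero => rw [zero_smul, map_zero, zero_mul]
  | add a b ha hb => rw [add_smul, map_add, ha, hb, add_mul]
  | tmul a r =>
    induction y using BC_ind (k := k) (E := E) (M := Λ) with
    | h0 => rw [smul_zero, map_zero, mul_zero]
    | h1 e m =>
      rw [smul_tm, toReg_tm, toReg_tm, Algebra.TensorProduct.tmul_mul_tmul, smul_eq_mul]
    | h2 x y hx hy => rw [smul_add, map_add, hx, hy, map_add, mul_add]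

/-- `BC Λ` is the regular module -/
noncomputable def self : BC k E Λ ≃ₗ[E ⊗[k] Λ] (E ⊗[k] Λ) where
  toFun x := toReg E x
  invFun x := ofReg E x
  left_inv _ := rfl
  right_inv _ := rfl
  map_add' x y := map_add _ x y
  map_smul' x y := toReg_smul E x y

end self

section coord

variable {k E} {ι : Type*} [DecidableEq ι] (b : Module.Basis ι k E)
variable {N : Type} [AddCommGroup N] [Module k N] [Module Λ N] [IsScalarTower k Λ N]

/-- coordinates of `E ⊗ N` -/
noncomputable def cf : BC k E N ≃ₗ[k] (ι →₀ N) := TensorProduct.equivFinsuppOfBasisLeft b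

theorem cf_tm (e : E) (n : N) (i : ι) : cf b (tm k E e n) i = b.repr e i • n :=
  TensorProduct.equivFinsuppOfBasisLeft_apply_tmul_apply b e n i

theorem cf_sum (y : BC k E N) : ((cf b y).sum fun i n => tm k E (b i) n) = y := by
  have h := TensorProduct.equivFinsuppOfBasisLeft_symm_apply b (N := N) (cf b y)
  exact h.symm.trans ((cf b).symm_apply_apply y)

theorem cf_smul (r : Λ) (y : BC k E N) (i : ι) :
    cf b (((1 : E) ⊗ₜ[k] r) • y) i = r • cf b y i := by
  induction y using BC_ind (k := k) (E := E) (M := N) with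
  | h0 => simp
  | h1 e m =>
    rw [smul_tm, cf_tm, cf_tm, one_mul]
    rw [← algebraMap_smul Λ (b.repr e i) (r • m), ← algebraMap_smul Λ (b.repr e i) m,
      ← mul_smul, ← mul_smul, Algebra.commutes]
  | h2 x y hx hy => rw [smul_add, map_add, map_add, Finsupp.add_apply, hx, hy,
      Finsupp.add_apply, smul_add]

variable {Λ}
variable {M : Type} [AddCommGroup M] [Module k M] [Module Λ M] [IsScalarTower k Λ M]

/-- coordinate of a linear map -/
noncomputable def co (φ : BC k E M →ₗ[E ⊗[k] Λ] BC k E N) (i : ι) : M →ₗ[Λ] N where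
  toFun m := cf b (φ (tm k E 1 m)) i
  map_add' x y := by
    have : tm k E (1 : E) (x + y) = tm k E 1 x + tm k E 1 y := TensorProduct.tmul_add _ _ _
    rw [this, map_add, map_add, Finsupp.add_apply]
  map_smul' r x := by
    have : tm k E (1 : E) (r • x) = ((1 : E) ⊗ₜ[k] r) • tm k E 1 x := by
      rw [smul_tm, one_mul]
    rw [this, map_smul, cf_smul, RingHom.id_apply]

theorem co_apply (φ : BC k E M →ₗ[E ⊗[k] Λ] BC k E N) (i : ι) (m : M) :
    co b φ i m = cf b (φ (tm k E 1 m)) i := rfl

/-- multiplication by a scalar -/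
noncomputable def esm (e : E) : BC k E N →ₗ[E ⊗[k] Λ] BC k E N where
  toFun y := (e ⊗ₜ[k] (1 : Λ)) • y
  map_add' x y := smul_add _ _ _
  map_smul' x y := by
    rw [RingHom.id_apply, smul_smul, smul_smul]
    congr 1
    induction x using TensorProduct.induction_on with
    | zero => rw [mul_zero, zero_mul]
    | add a b ha hb => rw [mul_add, ha, hb, add_mul]
    | tmul a r =>
      rw [Algebra.TensorProduct.tmul_mul_tmul, Algebra.TensorProduct.tmul_mul_tmul, one_mul,
        mul_one, mul_comm]

theorem esm_tm (e f : E) (n : N) : esm (k := k) (Λ := Λ) e (tm k E f n) = tm k E (e * f) n := by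
  show (e ⊗ₜ[k] (1 : Λ)) • (tm k E f n) = _
  rw [smul_tm, one_smul]

theorem hom_ext {X : Type*} [AddCommGroup X] [Module (E ⊗[k] Λ) X]
    (f g : BC k E M →ₗ[E ⊗[k] Λ] X) (h : ∀ m, f (tm k E 1 m) = g (tm k E 1 m)) : f = g := by
  ext x
  induction x using BC_ind (k := k) (E := E) (M := M) with
  | h0 => simp
  | h1 e m =>
    have : tm k E e m = (e ⊗ₜ[k] (1 : Λ)) • tm k E 1 m := by rw [smul_tm, one_smul, mul_one]
    rw [this, map_smul, map_smul, h]
  | h2 x y hx hy => rw [map_add, map_add, hx, hy]

/-- the key lifting lemma -/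
theorem lift {A B C : Type} [AddCommGroup A] [Module k A] [Module Λ A] [IsScalarTower k Λ A]
    [AddCommGroup B] [Module k B] [Module Λ B] [IsScalarTower k Λ B]
    [AddCommGroup C] [Module k C] [Module Λ C] [IsScalarTower k Λ C]
    [Module.Finite Λ B] (u : A →ₗ[Λ] B) (v : B →ₗ[Λ] C)
    (H : ∀ g : B →ₗ[Λ] N, g ∘ₗ u = 0 → ∃ f : C →ₗ[Λ] N, f ∘ₗ v = g)
    (g : BC k E B →ₗ[E ⊗[k] Λ] BC k E N) (hg : g ∘ₗ map E u = 0) :
    ∃ f : BC k E C →ₗ[E ⊗[k] Λ] BC k E N, f ∘ₗ map E v = g := by
  classical
  let b := Module.Basis.ofVectorSpace k E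
  have hc : ∀ i, co b g i ∘ₗ u = 0 := by
    intro i
    ext a
    have h1 := LinearMap.congr_fun hg (tm k E 1 a)
    have h2 : g (tm k E 1 (u a)) = 0 := h1
    show cf b (g (tm k E 1 (u a))) i = 0
    rw [h2, map_zero, Finsupp.zero_apply]
  choose F hF using fun i => H (co b g i) (hc i)
  obtain ⟨S, hS⟩ := Module.Finite.fg_top (R := Λ) (M := B)
  let T : Finset _ := S.biUnion fun s => (cf b (g (tm k E 1 s))).support
  have hT : ∀ i, i ∉ T → co b g i = 0 := by
    intro i hi
    apply LinearMap.ext_on hS
    intro s hs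
    have hs' : s ∈ S := hs
    have : i ∉ (cf b (g (tm k E 1 s))).support := by
      intro h
      exact hi (Finset.mem_biUnion.2 ⟨s, hs', h⟩)
    rw [Finsupp.notMem_support_iff] at this
    exact this
  refine ⟨∑ i ∈ T, esm (b i) ∘ₗ map E (F i), hom_ext _ _ fun m => ?_⟩
  rw [LinearMap.comp_apply, LinearMap.sum_apply, map_tm]
  have h3 : ∀ i, (esm (b i) ∘ₗ map E (F i)) (tm k E 1 (v m)) =
      tm k E (b i) (cf b (g (tm k E 1 m)) i) := by
    intro i
    rw [LinearMap.comp_apply, map_tm, esm_tm, mul_one]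
    congr 1
    exact LinearMap.congr_fun (hF i) m
  rw [Finset.sum_congr rfl fun i _ => h3 i]
  conv_rhs => rw [← cf_sum b (g (tm k E 1 m))]
  rw [Finsupp.sum]
  symm
  apply Finset.sum_subset
  · intro i hi
    by_contra h
    have h4 := LinearMap.congr_fun (hT i h) m
    rw [Finsupp.mem_support_iff] at hi
    exact hi h4
  · intro i _ hi
    rw [Finsupp.notMem_support_iff] at hi
    rw [hi]
    exact TensorProduct.tmul_zero _ _

end coord

end Crest.Agent.R186.BC234
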