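import Mathlib

/-!
Row 186 (helper234): the Jacobson radical under a split surjection and under base change.
-/

set_option autoImplicit false
set_option linter.style.haveILetI false

universe u

open scoped TensorProduct

namespace Crest.Agent.R186.Rad234

section ker

variable {F : Type*} [Field F] {R : Type*} [Ring R] [Algebra F R] {n : ℕ}

theorem jac_eq_ker (Q : R →ₐ[F] (Fin n → F)) (hs : Function.Surjective Q)
    (hn : ∀ x, Q x = 0 → IsNilpotent x) : Ring.jacobson R = RingHom.ker Q := by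
  apply le_antisymm
  · haveI : RingHomSurjective Q.toRingHom := ⟨hs⟩
    have h := Ring.le_comap_jacobson Q.toRingHom
    rw [IsSemisimpleRing.jacobson_eq_bot (Fin n → F)] at h
    exact h
  · intro x hx
    rw [← Ideal.jacobson_bot, Ideal.mem_jacobson_iff]
    intro y
    have hyx : Q (y * x) = 0 := by
      rw [map_mul, show Q x = 0 from hx, mul_zero]
    have hu : IsUnit (1 + y * x) := IsNilpotent.isUnit_one_add (hn _ hyx)
    obtain ⟨z, hz⟩ := hu.exists_left_inv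
    refine ⟨z, ?_⟩
    rw [Ideal.mem_bot]
    have : z * y * x + z - 1 = z * (1 + y * x) - 1 := by noncomm_ring
    rw [this, hz, sub_self]

theorem quot_equiv (Q : R →ₐ[F] (Fin n → F)) (hs : Function.Surjective Q)
    (hn : ∀ x, Q x = 0 → IsNilpotent x) :
    Nonempty ((R ⧸ Ring.jacobson R) ≃ₐ[F] (Fin n → F)) :=
  ⟨(Ideal.quotientEquivAlgOfEq F (jac_eq_ker Q hs hn)).trans
    (Ideal.quotientKerAlgEquivOfSurjective hs)⟩

/-- conversely -/
theorem exists_surj [IsArtinianRing R] (e : Nonempty ((R ⧸ Ring.jacobson R) ≃ₐ[F] (Fin n → F))) :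
    ∃ Q : R →ₐ[F] (Fin n → F), Function.Surjective Q ∧ RingHom.ker Q = Ring.jacobson R := by
  obtain ⟨e⟩ := e
  refine ⟨e.toAlgHom.comp (Ideal.Quotient.mkₐ F (Ring.jacobson R)),
    e.surjective.comp Ideal.Quotient.mk_surjective, ?_⟩
  ext x
  rw [RingHom.mem_ker]
  constructor
  · intro h
    have h1 : e (Ideal.Quotient.mkₐ F (Ring.jacobson R) x) = 0 := h
    rw [map_eq_zero_iff _ e.injective] at h1
    exact Ideal.Quotient.eq_zero_iff_mem.1 h1
  · intro h
    have h1 : Ideal.Quotient.mkₐ F (Ring.jacobson R) x = 0 := Ideal.Quotient.eq_zero_iff_mem.2 h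
    show e (Ideal.Quotient.mkₐ F (Ring.jacobson R) x) = 0
    rw [h1, map_zero]

theorem jac_nilp [IsArtinianRing R] : ∃ m, (Ring.jacobson R) ^ m = ⊥ := by
  have h := IsArtinianRing.isNilpotent_jacobson_bot (R := R)
  rw [Ideal.jacobson_bot] at h
  exact h

theorem pow_mem_of_mem (I : Ideal R) (x : R) (hx : x ∈ I) (m : ℕ) : x ^ (m + 1) ∈ I ^ (m + 1) := by
  induction m with
  | zero =>
    rw [zero_add, pow_one]
    show x ∈ I ^ 1
    rw [Submodule.pow_one]
    exact hx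
  | succ m ih =>
    rw [pow_succ x (m + 1), Submodule.pow_succ I (n := m + 1)]
    exact Ideal.mul_mem_mul ih hx

end ker

section bc

variable (k : Type) [Field k] (E : Type u) [Field E] [Algebra k E]
variable (Λ : Type) [Ring Λ] [Algebra k Λ]

/-- `E ⊗ I` inside `E ⊗ Λ` -/
def S (I : Ideal Λ) : Submodule E (E ⊗[k] Λ) :=
  Submodule.span E {x | ∃ r ∈ I, x = (1 : E) ⊗ₜ[k] r}

variable {Λ}

theorem S_mul (I I' : Ideal Λ) (x y : E ⊗[k] Λ) (hx : x ∈ S k E Λ I) (hy : y ∈ S k E Λ I') :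
    x * y ∈ S k E Λ (I * I') := by
  refine Submodule.span_induction₂ (p := fun x y _ _ => x * y ∈ S k E Λ (I * I'))
    ?_ ?_ ?_ ?_ ?_ ?_ ?_ hx hy
  · rintro x y ⟨r, hr, rfl⟩ ⟨s, hs, rfl⟩
    rw [Algebra.TensorProduct.tmul_mul_tmul, one_mul]
    exact Submodule.subset_span ⟨r * s, Ideal.mul_mem_mul hr hs, rfl⟩
  · intro y hy
    rw [zero_mul]
    exact zero_mem _
  · intro x hx
    rw [mul_zero]
    exact zero_mem _
  · intro x y z _ _ _ h1 h2
    rw [add_mul]
    exact add_mem h1 h2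
  · intro x y z _ _ _ h1 h2
    rw [mul_add]
    exact add_mem h1 h2
  · intro r x y _ _ h
    rw [smul_mul_assoc]
    exact Submodule.smul_mem _ r h
  · intro r x y _ _ h
    rw [mul_smul_comm]
    exact Submodule.smul_mem _ r h

theorem S_bot (x : E ⊗[k] Λ) (hx : x ∈ S k E Λ ⊥) : x = 0 := by
  have : S k E Λ ⊥ ≤ ⊥ := by
    refine Submodule.span_le.2 ?_
    rintro x ⟨r, hr, rfl⟩
    rw [Ideal.mem_bot] at hr
    rw [hr, TensorProduct.tmul_zero]
    exact Submodule.zero_mem _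
  exact this hx

theorem S_pow (I : Ideal Λ) (x : E ⊗[k] Λ) (hx : x ∈ S k E Λ I) (m : ℕ) :
    x ^ (m + 1) ∈ S k E Λ (I ^ (m + 1)) := by
  induction m with
  | zero =>
    rw [zero_add, pow_one]
    show x ∈ S k E Λ (I ^ 1)
    rw [Submodule.pow_one]
    exact hx
  | succ m ih =>
    rw [pow_succ x (m + 1), Submodule.pow_succ I (n := m + 1)]
    exact S_mul k E _ _ _ _ ih hx

theorem S_nilp (I : Ideal Λ) (m : ℕ) (hm : I ^ m = ⊥) (x : E ⊗[k] Λ) (hx : x ∈ S k E Λ I) :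
    IsNilpotent x := by
  refine ⟨m + 1, ?_⟩
  have h := S_pow k E I x hx m
  rw [Submodule.pow_succ, hm, Submodule.bot_mul] at h
  exact S_bot k E _ h

variable {n : ℕ}

/-- the base changed surjection -/
noncomputable def Qb (Q : Λ →ₐ[k] (Fin n → k)) : E ⊗[k] Λ →ₐ[E] (Fin n → E) :=
  (Algebra.TensorProduct.piScalarRight k E E (Fin n)).toAlgHom.comp
    (Algebra.TensorProduct.map (AlgHom.id E E) Q)

theorem Qb_tmul (Q : Λ →ₐ[k] (Fin n → k)) (e : E) (r : Λ) :
    Qb k E Q (e ⊗ₜ[k] r) = fun i => Q r i • e := by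
  have h : Qb k E Q (e ⊗ₜ[k] r) = Algebra.TensorProduct.piScalarRight k E E (Fin n)
      (e ⊗ₜ[k] (Q r)) := rfl
  rw [h, Algebra.TensorProduct.piScalarRight_tmul]

theorem Qb_surj (Q : Λ →ₐ[k] (Fin n → k)) (hs : Function.Surjective Q) :
    Function.Surjective (Qb k E Q) := by
  have h : Function.Surjective (LinearMap.lTensor E Q.toLinearMap) :=
    LinearMap.lTensor_surjective E hs
  exact (Algebra.TensorProduct.piScalarRight k E E (Fin n)).surjective.comp h

theorem Qb_ker (Q : Λ →ₐ[k] (Fin n → k)) (x : E ⊗[k] Λ) (hx : Qb k E Q x = 0) :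
    x ∈ S k E Λ (RingHom.ker Q) := by
  have h0 : (LinearMap.lTensor E Q.toLinearMap) x = 0 := by
    have h1 : Algebra.TensorProduct.piScalarRight k E E (Fin n)
      ((LinearMap.lTensor E Q.toLinearMap) x) = 0 := hx
    rwa [map_eq_zero_iff _ (Algebra.TensorProduct.piScalarRight k E E (Fin n)).injective] at h1
  have hex : Function.Exact (LinearMap.ker Q.toLinearMap).subtype Q.toLinearMap :=
    LinearMap.exact_subtype_ker_map _
  obtain ⟨y, rfl⟩ := (Module.Flat.lTensor_exact (M := E) hex x).1 h0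
  induction y using TensorProduct.induction_on with
  | zero => simp
  | tmul e r =>
    rw [LinearMap.lTensor_tmul]
    have : e ⊗ₜ[k] (LinearMap.ker Q.toLinearMap).subtype r = e • ((1 : E) ⊗ₜ[k] (r : Λ)) := by
      rw [TensorProduct.smul_tmul', smul_eq_mul, mul_one]
      rfl
    rw [this]
    exact Submodule.smul_mem _ _ (Submodule.subset_span ⟨r, r.2, rfl⟩)
  | add a b ha hb =>
    rw [map_add]
    have h2 : ∀ y, (LinearMap.lTensor E Q.toLinearMap) ((LinearMap.lTensor E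
        (LinearMap.ker Q.toLinearMap).subtype) y) = 0 := fun y =>
      (Module.Flat.lTensor_exact (M := E) hex _).2 ⟨y, rfl⟩
    have h3 : ∀ y, Qb k E Q ((LinearMap.lTensor E (LinearMap.ker Q.toLinearMap).subtype) y) = 0 := by
      intro y
      show Algebra.TensorProduct.piScalarRight k E E (Fin n)
        ((LinearMap.lTensor E Q.toLinearMap) _) = 0
      rw [h2, map_zero]
    exact add_mem (ha (h3 a) (h2 a)) (hb (h3 b) (h2 b))

theorem Qb_nilp [FiniteDimensional k Λ] (Q : Λ →ₐ[k] (Fin n → k))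
    (hQ : RingHom.ker Q = Ring.jacobson Λ) (x : E ⊗[k] Λ) (hx : Qb k E Q x = 0) :
    IsNilpotent x := by
  haveI : IsArtinianRing Λ := IsArtinianRing.of_finite k Λ
  obtain ⟨m, hm⟩ := jac_nilp (R := Λ)
  have h := Qb_ker k E Q x hx
  rw [hQ] at h
  exact S_nilp k E _ m hm x h

/-- base change of the quotient -/
theorem quot_bc [FiniteDimensional k Λ]
    (e : Nonempty ((Λ ⧸ Ring.jacobson Λ) ≃ₐ[k] (Fin n → k))) :
    Nonempty (((E ⊗[k] Λ) ⧸ Ring.jacobson (E ⊗[k] Λ)) ≃ₐ[E] (Fin n → E)) := by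
  haveI : IsArtinianRing Λ := IsArtinianRing.of_finite k Λ
  obtain ⟨Q, hs, hQ⟩ := exists_surj e
  exact quot_equiv (Qb k E Q) (Qb_surj k E Q hs) (Qb_nilp k E Q hQ)

theorem mem_jac_bc [FiniteDimensional k Λ]
    (e : Nonempty ((Λ ⧸ Ring.jacobson Λ) ≃ₐ[k] (Fin n → k))) (r : Λ) (hr : r ∈ Ring.jacobson Λ) :
    ((1 : E) ⊗ₜ[k] r) ∈ Ring.jacobson (E ⊗[k] Λ) := by
  haveI : IsArtinianRing Λ := IsArtinianRing.of_finite k Λ
  obtain ⟨Q, hs, hQ⟩ := exists_surj e
  rw [jac_eq_ker (Qb k E Q) (Qb_surj k E Q hs) (Qb_nilp k E Q hQ), RingHom.mem_ker, Qb_tmul]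
  rw [← hQ, RingHom.mem_ker] at hr
  rw [hr]
  funext i
  simp

theorem pow_bc [FiniteDimensional k Λ]
    (e : Nonempty ((Λ ⧸ Ring.jacobson Λ) ≃ₐ[k] (Fin n → k))) (m : ℕ) (r : Λ)
    (hr : r ∈ Ring.jacobson Λ ^ (m + 1)) :
    ((1 : E) ⊗ₜ[k] r) ∈ Ring.jacobson (E ⊗[k] Λ) ^ (m + 1) := by
  induction m generalizing r with
  | zero =>
    have h1 : r ∈ Ring.jacobson Λ ^ 1 := hr
    rw [Submodule.pow_one] at h1
    show _ ∈ Ring.jacobson (E ⊗[k] Λ) ^ 1
    rw [Submodule.pow_one]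
    exact mem_jac_bc k E e r h1
  | succ m ih =>
    rw [Submodule.pow_succ] at hr ⊢
    refine Submodule.mul_induction_on hr ?_ ?_
    · intro a ha b hb
      have : (1 : E) ⊗ₜ[k] (a * b) = ((1 : E) ⊗ₜ[k] a) * ((1 : E) ⊗ₜ[k] b) := by
        rw [Algebra.TensorProduct.tmul_mul_tmul, one_mul]
      rw [this]
      exact Ideal.mul_mem_mul (ih a ha) (mem_jac_bc k E e b hb)
    · intro a b ha hb
      rw [TensorProduct.tmul_add]
      exact add_mem ha hb

theorem one_tmul_inj (r : Λ) (h : (1 : E) ⊗ₜ[k] r = 0) : r = 0 := by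
  obtain ⟨ρ, hρ⟩ := (LinearMap.toSpanSingleton k E (1 : E)).exists_leftInverse_of_injective
    (LinearMap.ker_eq_bot.2 (smul_left_injective k one_ne_zero))
  have h1 : ρ 1 = 1 := by
    have := LinearMap.congr_fun hρ 1
    simpa using this
  have h2 := congrArg (fun x => TensorProduct.lid k Λ (LinearMap.rTensor Λ ρ x)) h
  simpa [h1] using h2

theorem jac4_bc [FiniteDimensional k Λ]
    (e : Nonempty ((Λ ⧸ Ring.jacobson Λ) ≃ₐ[k] (Fin n → k))) (h4 : Ring.jacobson Λ ^ 4 ≠ ⊥) :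
    Ring.jacobson (E ⊗[k] Λ) ^ 4 ≠ ⊥ := by
  obtain ⟨r, hr, hr0⟩ := Submodule.exists_mem_ne_zero_of_ne_bot h4
  intro h
  have h1 := pow_bc k E e 3 r hr
  rw [h, Ideal.mem_bot] at h1
  exact hr0 (one_tmul_inj k E r h1)

end bc

end Crest.Agent.R186.Rad234
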