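import Mathlib

/-!
Row 186 (helper234): `Ext`-vanishing from an explicit sequence of syzygies.
-/

set_option autoImplicit false

universe u

open CategoryTheory CategoryTheory.Abelian

namespace Crest.Agent.R186.Shift234

variable {R : Type u} [Ring R]

/-- a sequence of syzygies `0 → X (j+1) → P j → X j → 0` such that all maps `X (j+1) → N`
extend to `P j` -/
structure SyzSeq (N : Type u) [AddCommGroup N] [Module R N] where
  X : ℕ → Type u
  P : ℕ → Type u
  [gX : ∀ j, AddCommGroup (X j)]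
  [mX : ∀ j, Module R (X j)]
  [gP : ∀ j, AddCommGroup (P j)]
  [mP : ∀ j, Module R (P j)]
  pj : ∀ j, Module.Projective R (P j)
  f : ∀ j, X (j + 1) →ₗ[R] P j
  g : ∀ j, P j →ₗ[R] X j
  fi : ∀ j, Function.Injective (f j)
  gs : ∀ j, Function.Surjective (g j)
  ex : ∀ j, Function.Exact (f j) (g j)
  lift : ∀ j (φ : X (j + 1) →ₗ[R] N), ∃ ψ : P j →ₗ[R] N, ψ ∘ₗ f j = φ

attribute [instance] SyzSeq.gX SyzSeq.mX SyzSeq.gP SyzSeq.mP

variable {N : Type u} [AddCommGroup N] [Module R N]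

/-- shift -/
def SyzSeq.shift (s : SyzSeq (R := R) N) : SyzSeq (R := R) N where
  X j := s.X (j + 1)
  P j := s.P (j + 1)
  pj j := s.pj (j + 1)
  f j := s.f (j + 1)
  g j := s.g (j + 1)
  fi j := s.fi (j + 1)
  gs j := s.gs (j + 1)
  ex j := s.ex (j + 1)
  lift j := s.lift (j + 1)

/-- the short exact sequence -/
noncomputable abbrev SyzSeq.sc (s : SyzSeq (R := R) N) : ShortComplex (ModuleCat.{u} R) :=
  ModuleCat.shortComplexOfCompEqZero (s.f 0) (s.g 0) (s.ex 0).linearMap_comp_eq_zero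

theorem SyzSeq.sc_se (s : SyzSeq (R := R) N) : s.sc.ShortExact :=
  ModuleCat.shortComplex_shortExact _ (s.ex 0) (s.fi 0) (s.gs 0)

theorem SyzSeq.projP (s : SyzSeq (R := R) N) : Projective s.sc.X₂ := by
  haveI := s.pj 0
  exact (IsProjective.iff_projective (ModuleCat.of R (s.P 0))).1 inferInstance

theorem SyzSeq.ext_zero (i : ℕ) : ∀ (s : SyzSeq (R := R) N),
    Subsingleton (Ext (ModuleCat.of R (s.X 0)) (ModuleCat.of R N) (i + 1)) := by
  induction i with
  | zero =>
    intro s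
    have hz : ∀ x : Ext s.sc.X₃ (ModuleCat.of R N) (0 + 1), x = 0 := by
      intro x
      haveI := s.projP
      have h0 : (Ext.mk₀ s.sc.g).comp x (zero_add _) = 0 := Ext.eq_zero_of_projective _
      obtain ⟨y, hy⟩ := Ext.contravariant_sequence_exact₃ s.sc_se (ModuleCat.of R N) x h0
        (add_comm 1 0)
      obtain ⟨φ, rfl⟩ := Ext.homEquiv₀.symm.surjective y
      obtain ⟨ψ, hψ⟩ := s.lift 0 φ.hom
      have h1 : φ = s.sc.f ≫ (ModuleCat.ofHom ψ) := by
        ext1
        exact hψ.symm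
      rw [← hy, Ext.homEquiv₀_symm_apply, h1, ← Ext.mk₀_comp_mk₀]
      have h2 := s.sc_se.extClass_comp
      rw [← Ext.comp_assoc (s.sc_se.extClass) (Ext.mk₀ s.sc.f) (Ext.mk₀ (ModuleCat.ofHom ψ))
        (add_zero 1) (zero_add 0) (by omega)]
      rw [s.sc_se.extClass_comp, Ext.zero_comp]
    exact ⟨fun a b => by rw [hz a, hz b]⟩
  | succ i ih =>
    intro s
    have hz : ∀ x : Ext s.sc.X₃ (ModuleCat.of R N) (i + 1 + 1), x = 0 := by
      intro x
      haveI := s.projP
      have h0 : (Ext.mk₀ s.sc.g).comp x (zero_add _) = 0 := Ext.eq_zero_of_projective _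
      obtain ⟨y, hy⟩ := Ext.contravariant_sequence_exact₃ s.sc_se (ModuleCat.of R N) x h0
        (add_comm 1 (i + 1))
      have : y = 0 := (ih s.shift).elim _ _
      rw [← hy, this, Ext.comp_zero]
    exact ⟨fun a b => by rw [hz a, hz b]⟩

theorem SyzSeq.ext_pos (s : SyzSeq (R := R) N) (i : ℕ) (hi : 0 < i) :
    Subsingleton (Ext (ModuleCat.of R (s.X 0)) (ModuleCat.of R N) i) := by
  obtain ⟨j, rfl⟩ := Nat.exists_eq_add_of_le' hi
  exact SyzSeq.ext_zero j s

end Crest.Agent.R186.Shift234
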