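import Mathlib
import Crest.Prelude.Def_GorProjVanishing
import Crest.Agent.R186.BC_234
import Crest.Agent.R186.Rad_234
import Crest.Agent.R186.Shift_234
import Crest.Agent.R186.Syz_700

/-!
Row 186 (helper234): `GorProjVanishingData` is stable under extension of the base field, in the
literal form of S0281.
-/

set_option autoImplicit false
set_option linter.unusedSectionVars false
set_option linter.style.haveILetI false

universe u

open scoped TensorProduct
open CategoryTheory CategoryTheory.Abelian Crest.AlgebraR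

namespace Crest.Agent.R186.Frame234

open BC234 Rad234 Shift234 Syz700

variable {k : Type} [Field k] (E : Type u) [Field E] [Algebra k E]
variable {Λ : Type} [Ring Λ] [Algebra k Λ]

section proj

/-- `E ⊗ Λ^n` is a retract of `(E ⊗ Λ)^n` -/
noncomputable def ri (n : ℕ) :
    BC k E (Fin n → Λ) →ₗ[E ⊗[k] Λ] (Fin n → E ⊗[k] Λ) :=
  LinearMap.pi fun i => (self (k := k) (Λ := Λ) E).toLinearMap ∘ₗ
    BC234.map E (LinearMap.proj i : (Fin n → Λ) →ₗ[Λ] Λ)

noncomputable def rp (n : ℕ) :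
    (Fin n → E ⊗[k] Λ) →ₗ[E ⊗[k] Λ] BC k E (Fin n → Λ) :=
  ∑ i, BC234.map E (LinearMap.single Λ (fun _ : Fin n => Λ) i) ∘ₗ
    (self (k := k) (Λ := Λ) E).symm.toLinearMap ∘ₗ
    (LinearMap.proj i : (Fin n → E ⊗[k] Λ) →ₗ[E ⊗[k] Λ] (E ⊗[k] Λ))

theorem tm_sum {M : Type} [AddCommGroup M] [Module k M] {ι : Type*} (s : Finset ι) (f : ι → M)
    (e : E) : tm k E e (∑ i ∈ s, f i) = ∑ i ∈ s, tm k E e (f i) :=
  TensorProduct.tmul_sum _ _ _

theorem rp_ri (n : ℕ) : rp (k := k) (Λ := Λ) E n ∘ₗ ri E n = LinearMap.id := by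
  apply hom_ext
  intro m
  have h1 : ∀ i, (BC234.map E (LinearMap.single Λ (fun _ : Fin n => Λ) i) ∘ₗ
    (self (k := k) (Λ := Λ) E).symm.toLinearMap ∘ₗ
    (LinearMap.proj i : (Fin n → E ⊗[k] Λ) →ₗ[E ⊗[k] Λ] (E ⊗[k] Λ)))
      (ri E n (tm k E 1 m)) = tm k E 1 (Pi.single i (m i)) := by
    intro i
    rfl
  rw [LinearMap.comp_apply, rp, LinearMap.sum_apply, Finset.sum_congr rfl fun i _ => h1 i,
    ← tm_sum, Finset.univ_sum_single]
  rfl

theorem proj_free (n : ℕ) : Module.Projective (E ⊗[k] Λ) (BC k E (Fin n → Λ)) :=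
  Module.Projective.of_split (ri E n) (rp E n) (rp_ri E n)

theorem finite_free (n : ℕ) : Module.Finite (E ⊗[k] Λ) (BC k E (Fin n → Λ)) :=
  Module.Finite.of_surjective (rp (k := k) (Λ := Λ) E n) fun x =>
    ⟨ri E n x, LinearMap.congr_fun (rp_ri (k := k) (Λ := Λ) E n) x⟩

variable (P : Type) [AddCommGroup P] [Module k P] [Module Λ P] [IsScalarTower k Λ P]

theorem finite_bc [Module.Finite Λ P] : Module.Finite (E ⊗[k] Λ) (BC k E P) := by
  obtain ⟨n, f, hf⟩ := Module.Finite.exists_fin' Λ P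
  haveI := finite_free (k := k) (Λ := Λ) E n
  exact Module.Finite.of_surjective (BC234.map E f) (map_surj (k := k) E hf)

theorem proj_bc [Module.Finite Λ P] [Module.Projective Λ P] :
    Module.Projective (E ⊗[k] Λ) (BC k E P) := by
  obtain ⟨n, f, hf⟩ := Module.Finite.exists_fin' Λ P
  obtain ⟨h, hh⟩ := Module.projective_lifting_property f LinearMap.id hf
  haveI := proj_free (k := k) (Λ := Λ) E n
  refine Module.Projective.of_split (BC234.map E h) (BC234.map E f) ?_
  rw [← map_comp, hh, map_id]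

end proj

section descent

theorem exists_rho : ∃ ρ : E →ₗ[k] k, ρ 1 = 1 := by
  obtain ⟨ρ, hρ⟩ := (LinearMap.toSpanSingleton k E (1 : E)).exists_leftInverse_of_injective
    (LinearMap.ker_eq_bot.2 (smul_left_injective k one_ne_zero))
  have := LinearMap.congr_fun hρ 1
  exact ⟨ρ, by simpa using this⟩

variable {E} (ρ : E →ₗ[k] k)

variable {N : Type} [AddCommGroup N] [Module k N] [Module Λ N] [IsScalarTower k Λ N]

/-- retraction `E ⊗ N → N` -/
noncomputable def rho : BC k E N →ₗ[k] N :=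
  (TensorProduct.lid k N).toLinearMap ∘ₗ LinearMap.rTensor N ρ

theorem rho_tm (e : E) (n : N) : rho ρ (tm k E e n) = ρ e • n := by
  show TensorProduct.lid k N (LinearMap.rTensor N ρ (e ⊗ₜ[k] n)) = _
  simp

theorem rho_smul (r : Λ) (y : BC k E N) : rho ρ (((1 : E) ⊗ₜ[k] r) • y) = r • rho ρ y := by
  induction y using BC_ind (k := k) (E := E) (M := N) with
  | h0 => simp
  | h1 e m =>
    rw [smul_tm, rho_tm, rho_tm, one_mul]
    rw [← algebraMap_smul Λ (ρ e) (r • m), ← algebraMap_smul Λ (ρ e) m,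
      ← mul_smul, ← mul_smul, Algebra.commutes]
  | h2 x y hx hy => rw [smul_add, map_add, map_add, hx, hy, smul_add]

theorem rho_map {M : Type} [AddCommGroup M] [Module k M] [Module Λ M] [IsScalarTower k Λ M]
    (f : M →ₗ[Λ] N) (y : BC k E M) : rho ρ (BC234.map E f y) = f (rho ρ y) := by
  induction y using BC_ind (k := k) (E := E) (M := M) with
  | h0 => simp
  | h1 e m =>
    rw [map_tm, rho_tm, rho_tm, ← algebraMap_smul Λ (ρ e) (f m), ← algebraMap_smul Λ (ρ e) m,
      map_smul]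
  | h2 x y hx hy => rw [map_add, map_add, hx, hy, map_add, map_add]

variable (E)

/-- projectivity descends -/
theorem proj_descent (Z : Type) [AddCommGroup Z] [Module k Z] [Module Λ Z] [IsScalarTower k Λ Z]
    [Module.Finite Λ Z] (h : Module.Projective (E ⊗[k] Λ) (BC k E Z)) :
    Module.Projective Λ Z := by
  obtain ⟨n, f, hf⟩ := Module.Finite.exists_fin' Λ Z
  obtain ⟨s, hs⟩ := Module.projective_lifting_property (BC234.map E (k := k) f) LinearMap.id
    (map_surj (k := k) E hf)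
  obtain ⟨ρ, hρ⟩ := exists_rho (k := k) E
  let σ : Z →ₗ[Λ] (Fin n → Λ) :=
    { toFun := fun z => rho ρ (s (tm k E 1 z))
      map_add' := fun x y => by
        have : tm k E (1 : E) (x + y) = tm k E 1 x + tm k E 1 y := TensorProduct.tmul_add _ _ _
        rw [this, map_add, map_add]
      map_smul' := fun r x => by
        have : tm k E (1 : E) (r • x) = ((1 : E) ⊗ₜ[k] r) • tm k E 1 x := by
          rw [smul_tm, one_mul]
        rw [this, map_smul, rho_smul, RingHom.id_apply] }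
  refine Module.Projective.of_split σ f (LinearMap.ext fun z => ?_)
  show f (rho ρ (s (tm k E 1 z))) = z
  rw [← rho_map]
  have h1 := LinearMap.congr_fun hs (tm k E 1 z)
  have h2 : BC234.map E f (s (tm k E 1 z)) = tm k E 1 z := h1
  rw [h2, rho_tm, hρ, one_smul]

end descent

section ext

/-- bundled finite modules with a compatible `k`-structure -/
structure FK (k Λ : Type) [Field k] [Ring Λ] [Algebra k Λ] where
  X : Type
  [grp : AddCommGroup X]
  [modk : Module k X]
  [mod : Module Λ X]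
  [tow : IsScalarTower k Λ X]
  [fin : Module.Finite Λ X]

attribute [instance] FK.grp FK.modk FK.mod FK.tow FK.fin

/-- forget -/
def FK.toFM (M : FK k Λ) : FM Λ := ⟨M.X⟩

variable [IsNoetherianRing Λ]

/-- syzygy -/
noncomputable def FK.syz (M : FK k Λ) : FK k Λ :=
  { X := LinearMap.ker M.toFM.cov }

/-- inclusion of the syzygy -/
noncomputable def FK.inc (M : FK k Λ) : M.syz.X →ₗ[Λ] (Fin M.toFM.n → Λ) := M.toFM.inc

/-- the cover -/
noncomputable def FK.cov (M : FK k Λ) : (Fin M.toFM.n → Λ) →ₗ[Λ] M.X := M.toFM.cov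

/-- iterated syzygies -/
noncomputable def OmK (M : FK k Λ) : ℕ → FK k Λ
  | 0 => M
  | j + 1 => (OmK M j).syz

theorem ext_OmK (M : FK k Λ) (Y : ModuleCat.{0} Λ)
    (h : ∀ i : ℕ, 0 < i → Subsingleton (Ext (ModuleCat.of Λ M.X) Y i)) (j : ℕ) :
    ∀ i : ℕ, 0 < i → Subsingleton (Ext (ModuleCat.of Λ (OmK M j).X) Y i) := by
  induction j with
  | zero => exact h
  | succ j ih => exact ext_syz (OmK M j).toFM Y ih

theorem lift_FK (M : FK k Λ) (N : Type) [AddCommGroup N] [Module k N] [Module Λ N]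
    [IsScalarTower k Λ N]
    (h : Subsingleton (Ext (ModuleCat.of Λ M.X) (ModuleCat.of Λ N) 1))
    (φ : BC k E M.syz.X →ₗ[E ⊗[k] Λ] BC k E N) :
    ∃ ψ : BC k E (Fin M.toFM.n → Λ) →ₗ[E ⊗[k] Λ] BC k E N, ψ ∘ₗ BC234.map E M.inc = φ := by
  refine BC234.lift (0 : M.syz.X →ₗ[Λ] M.syz.X) M.inc (fun g _ => ?_) φ ?_
  · exact lift_of_ext M.toFM N h g
  · rw [map_zero', LinearMap.comp_zero]

/-- the base changed syzygy sequence -/
noncomputable def seq (M : FK k Λ) (N : Type) [AddCommGroup N] [Module k N] [Module Λ N]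
    [IsScalarTower k Λ N]
    (h : ∀ i : ℕ, 0 < i → Subsingleton (Ext (ModuleCat.of Λ M.X) (ModuleCat.of Λ N) i)) :
    SyzSeq (R := E ⊗[k] Λ) (BC k E N) where
  X j := BC k E (OmK M j).X
  P j := BC k E (Fin (OmK M j).toFM.n → Λ)
  pj j := proj_free E _
  f j := BC234.map E (OmK M j).inc
  g j := BC234.map E (OmK M j).cov
  fi j := map_inj (k := k) E (OmK M j).toFM.inc_inj
  gs j := map_surj (k := k) E (OmK M j).toFM.cov_surj
  ex j := map_exact (k := k) E (f := (OmK M j).inc) (g := (OmK M j).cov)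
    (by
      intro y
      constructor
      · intro hy
        exact (OmK M j).toFM.exists_inc y hy
      · rintro ⟨x, rfl⟩
        exact LinearMap.congr_fun (OmK M j).toFM.cov_inc x)
  lift j φ := lift_FK E (OmK M j) N (ext_OmK M _ h j 1 one_pos) φ

theorem ext_bc (M : FK k Λ) (N : Type) [AddCommGroup N] [Module k N] [Module Λ N]
    [IsScalarTower k Λ N]
    (h : ∀ i : ℕ, 0 < i → Subsingleton (Ext (ModuleCat.of Λ M.X) (ModuleCat.of Λ N) i))
    (i : ℕ) (hi : 0 < i) :
    Subsingleton (Ext (ModuleCat.of (E ⊗[k] Λ) (BC k E M.X))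
      (ModuleCat.of (E ⊗[k] Λ) (BC k E N)) i) :=
  (seq E M N h).ext_pos i hi

end ext

end Crest.Agent.R186.Frame234
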