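import Mathlib
import Crest.Prelude.Def_SymmetricAlgebra
import Crest.Agent.R186.Close_700
import Crest.Agent.R186.Frame1_234

/-!
Row 186 (helper700): base change of the datum `AR` (a symmetric algebra with a finite
non-projective self-orthogonal module) from `k` to an arbitrary extension field `E`.
-/

set_option autoImplicit false
set_option linter.unusedSectionVars false
set_option linter.style.haveILetI false

universe u

open scoped TensorProduct
open CategoryTheory CategoryTheory.Abelian Crest.AlgebraR

namespace Crest.Agent.R186.BCAR700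

open BC234 Frame234 Frob700 Close700

variable (k : Type) [Field k] (E : Type u) [Field E] [Algebra k E]
variable {A : Type} [Ring A] [Algebra k A]

/-- the extended form -/
noncomputable def lamE (s : Sym k A) : E ⊗[k] A →ₗ[k] E :=
  (TensorProduct.rid k E).toLinearMap ∘ₗ LinearMap.lTensor E s.lam

theorem lamE_tmul (s : Sym k A) (e : E) (a : A) : lamE k E s (e ⊗ₜ[k] a) = s.lam a • e := by
  show TensorProduct.rid k E (LinearMap.lTensor E s.lam (e ⊗ₜ[k] a)) = _
  rw [LinearMap.lTensor_tmul, TensorProduct.rid_tmul]

theorem lam_comm (s : Sym k A) (a b : A) : s.lam (a * b) = s.lam (b * a) := by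
  rw [← s.φ_apply', s.φ_apply]

theorem lamE_comm (s : Sym k A) (x y : E ⊗[k] A) : lamE k E s (x * y) = lamE k E s (y * x) := by
  induction x using TensorProduct.induction_on with
  | zero => simp
  | add a b ha hb => rw [add_mul, mul_add, map_add, map_add, ha, hb]
  | tmul e a =>
    induction y using TensorProduct.induction_on with
    | zero => simp
    | add c d hc hd => rw [add_mul, mul_add, map_add, map_add, hc, hd]
    | tmul f b =>
      rw [Algebra.TensorProduct.tmul_mul_tmul, Algebra.TensorProduct.tmul_mul_tmul, lamE_tmul,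
        lamE_tmul, lam_comm, mul_comm e f]

theorem lamE_smul (s : Sym k A) (c : E) (x : E ⊗[k] A) :
    lamE k E s (c • x) = c * lamE k E s x := by
  induction x using TensorProduct.induction_on with
  | zero => simp
  | add a b ha hb => rw [smul_add, map_add, map_add, ha, hb, mul_add]
  | tmul e a =>
    rw [TensorProduct.smul_tmul', lamE_tmul, lamE_tmul, smul_eq_mul, mul_smul_comm]

theorem lam_nondeg (s : Sym k A) (a : A) (h : ∀ b, s.lam (a * b) = 0) : a = 0 := by
  have h1 : s.φ a = 0 := by
    ext b
    rw [s.φ_apply', h b]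
    rfl
  exact (map_eq_zero_iff _ s.φ.injective).1 h1

theorem lamE_nondeg (s : Sym k A) (x : E ⊗[k] A) (h : ∀ y, lamE k E s (x * y) = 0) : x = 0 := by
  classical
  let b := Module.Basis.ofVectorSpace k E
  let cfb : E ⊗[k] A ≃ₗ[k] (_ →₀ A) := TensorProduct.equivFinsuppOfBasisLeft b
  have hc : ∀ (x : E ⊗[k] A) (a : A) i, b.repr (lamE k E s (x * ((1 : E) ⊗ₜ[k] a))) i =
      s.lam (cfb x i * a) := by
    intro x a i
    induction x using TensorProduct.induction_on with
    | zero => simp
    | add c d hc hd =>
      rw [add_mul, map_add, map_add, Finsupp.add_apply, hc, hd, map_add, Finsupp.add_apply,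
        add_mul, map_add]
    | tmul e c =>
      rw [Algebra.TensorProduct.tmul_mul_tmul, mul_one, lamE_tmul, map_smul, Finsupp.smul_apply]
      have h2 : cfb (e ⊗ₜ[k] c) i = b.repr e i • c :=
        TensorProduct.equivFinsuppOfBasisLeft_apply_tmul_apply b e c i
      rw [h2, smul_mul_assoc, map_smul, smul_eq_mul, smul_eq_mul, mul_comm]
  have h0 : cfb x = 0 := by
    ext i
    refine lam_nondeg k s _ fun a => ?_
    rw [← hc, h, map_zero]
    rfl
  exact (map_eq_zero_iff _ cfb.injective).1 h0

/-- the bijection -/
noncomputable def φE (s : Sym k A) : E ⊗[k] A →ₗ[E] Module.Dual E (E ⊗[k] A) where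
  toFun x :=
    { toFun := fun y => lamE k E s (x * y)
      map_add' := fun y z => by rw [mul_add, map_add]
      map_smul' := fun c y => by
        rw [mul_smul_comm, lamE_smul, RingHom.id_apply, smul_eq_mul] }
  map_add' x y := by
    ext z
    show lamE k E s ((x + y) * _) = lamE k E s (x * _) + lamE k E s (y * _)
    rw [add_mul, map_add]
  map_smul' c x := by
    ext z
    show lamE k E s ((c • x) * _) = c • lamE k E s (x * _)
    rw [smul_mul_assoc, lamE_smul, smul_eq_mul]

theorem φE_apply (s : Sym k A) (x y : E ⊗[k] A) : φE k E s x y = lamE k E s (x * y) := rfl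

theorem sym_bc [FiniteDimensional k A] (s : Sym k A) : IsSymmetricAlgebra E (E ⊗[k] A) := by
  have hi : Function.Injective (φE k E s) := by
    rw [← LinearMap.ker_eq_bot, LinearMap.ker_eq_bot']
    intro x hx
    refine lamE_nondeg k E s x fun y => ?_
    rw [← φE_apply, hx]
    rfl
  have hfr : Module.finrank E (E ⊗[k] A) = Module.finrank E (Module.Dual E (E ⊗[k] A)) :=
    Subspace.dual_finrank_eq.symm
  refine ⟨LinearEquiv.ofInjectiveOfFinrankEq (φE k E s) hi hfr, ?_⟩
  intro a x b y
  show φE k E s (a * x * b) y = φE k E s x (b * y * a)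
  rw [φE_apply, φE_apply, mul_assoc, mul_assoc, lamE_comm, mul_assoc]

/-- base change of an `AR` datum -/
theorem ar_bc (h : Nonempty (AR.{0, 0} k)) : Nonempty (AR.{u, u} E) := by
  obtain ⟨D⟩ := h
  obtain ⟨s⟩ := nonempty_sym D.sym
  haveI := D.fd
  haveI := D.fin
  haveI : IsNoetherianRing D.A := isNoetherian_of_tower k (inferInstance : IsNoetherian k D.A)
  letI : Module k D.M := Module.compHom D.M (algebraMap k D.A)
  haveI : IsScalarTower k D.A D.M := ⟨fun r a x => by
    show (r • a) • x = algebraMap k D.A r • (a • x)
    rw [Algebra.smul_def, mul_smul]⟩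
  exact ⟨{ A := E ⊗[k] D.A
           fd := inferInstance
           sym := sym_bc k E s
           M := BC k E D.M
           fin := finite_bc E D.M
           np := fun h => D.np (proj_descent E D.M h)
           ext := fun i hi => ext_bc E (⟨D.M⟩ : FK k D.A) D.M D.ext i hi }⟩

end Crest.Agent.R186.BCAR700
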