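import Mathlib

/-!
Row 186 (A), leaf BAR (helper560): existence of the resolution half of `Cells` / `GCells`.
Stage `n + 1` attaches one cell for every vector of a basis of the space of all cycles of
degree `n`; so exactness holds with scalar coefficients.
-/

set_option autoImplicit false
set_option linter.unusedSectionVars false

namespace Crest.Agent.R186.Bar560

/-- the input: a graded differential `K`-category (entries in one algebra) and a module -/
structure Dat (K : Type) [Field K] where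
  S : Type
  [ring : Ring S]
  [alg : Algebra K S]
  D : S →ₗ[K] S
  D_one : D 1 = 0
  Ob : Type
  [fo : Fintype Ob]
  [ne : Nonempty Ob]
  q : Ob → Ob → ℤ → Submodule K S
  q_one : ∀ i, (1 : S) ∈ q i i 0
  q_D : ∀ {i j : Ob} {C : ℤ} {a : S}, a ∈ q i j C → D a ∈ q i j (C - 1)
  q_neg : ∀ (i j : Ob) (C : ℤ), C < 0 → q i j C = ⊥
  q_fin : ∀ (i j : Ob) (C : ℤ), Module.Finite K (q i j C)
  V : Type
  [gV : AddCommGroup V]
  [mV : Module K V]
  rho : S →ₗ[K] V →ₗ[K] V
  rho_one : ∀ u, rho 1 u = u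
  W : Ob → Submodule K V
  W_fin : ∀ i, Module.Finite K (W i)

attribute [instance] Dat.ring Dat.alg Dat.fo Dat.ne Dat.gV Dat.mV

variable {K : Type} [Field K] (d : Dat K)

/-- one level of cells -/
structure Lev where
  r : ℕ
  o : ℕ → d.Ob
  c : ℕ → ℕ → ℕ → d.S
  v : ℕ → d.V

variable {d}

/-- the space of cycles of degree `n` at row `i` -/
def Z (h : ℕ → Lev d) (n : ℕ) (i : d.Ob) : Submodule K (ℕ → ℕ → d.S) where
  carrier := {x | (∀ m k, m ≤ n → k < (h m).r → x m k ∈ d.q i ((h m).o k) ((n : ℤ) - m)) ∧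
    (∀ m k, ¬ (m ≤ n ∧ k < (h m).r) → x m k = 0) ∧
    (∀ m' k', d.D (x m' k') +
      ∑ m ∈ Finset.range (n + 1), ∑ k ∈ Finset.range (h m).r, x m k * (h m).c k m' k' = 0) ∧
    (n = 0 → ∑ k ∈ Finset.range (h 0).r, d.rho (x 0 k) ((h 0).v k) = 0)}
  zero_mem' := by
    refine ⟨fun m k _ _ => Submodule.zero_mem _, fun _ _ _ => rfl, fun m' k' => ?_, fun _ => ?_⟩
    · simp
    · simp
  add_mem' := by
    rintro x y ⟨x1, x2, x3, x4⟩ ⟨y1, y2, y3, y4⟩
    refine ⟨fun m k h1 h2 => Submodule.add_mem _ (x1 m k h1 h2) (y1 m k h1 h2), fun m k h1 => ?_,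
      fun m' k' => ?_, fun hn => ?_⟩
    · rw [Pi.add_apply, Pi.add_apply, x2 m k h1, y2 m k h1, add_zero]
    · have e := congrArg₂ (· + ·) (x3 m' k') (y3 m' k')
      simp only [add_zero] at e
      rw [← e]
      simp only [Pi.add_apply, map_add, add_mul, Finset.sum_add_distrib]
      abel
    · have e := congrArg₂ (· + ·) (x4 hn) (y4 hn)
      simp only [add_zero] at e
      rw [← e]
      simp only [Pi.add_apply, map_add, LinearMap.add_apply, Finset.sum_add_distrib]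
  smul_mem' := by
    rintro a x ⟨x1, x2, x3, x4⟩
    refine ⟨fun m k h1 h2 => Submodule.smul_mem _ _ (x1 m k h1 h2), fun m k h1 => ?_,
      fun m' k' => ?_, fun hn => ?_⟩
    · rw [Pi.smul_apply, Pi.smul_apply, x2 m k h1, smul_zero]
    · have e := congrArg (a • ·) (x3 m' k')
      simp only [smul_zero] at e
      rw [← e]
      simp only [Pi.smul_apply, map_smul, smul_mul_assoc, Finset.smul_sum, smul_add]
    · have e := congrArg (a • ·) (x4 hn)
      simp only [smul_zero] at e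
      rw [← e]
      simp only [Pi.smul_apply, map_smul, LinearMap.smul_apply, Finset.smul_sum]

theorem Z_congr {h h' : ℕ → Lev d} {n : ℕ} (e : ∀ m ≤ n, h m = h' m) (i : d.Ob) :
    Z h n i = Z h' n i := by
  have key : ∀ {h h' : ℕ → Lev d}, (∀ m ≤ n, h m = h' m) → Z h n i ≤ Z h' n i := by
    rintro h h' e x ⟨x1, x2, x3, x4⟩
    refine ⟨fun m k h1 h2 => ?_, fun m k h1 => ?_, fun m' k' => ?_, fun hn => ?_⟩
    · rw [← e m h1] at h2 ⊢
      exact x1 m k h1 h2
    · apply x2 m k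
      rintro ⟨h2, h3⟩
      exact h1 ⟨h2, by rwa [← e m h2]⟩
    · rw [← x3 m' k']
      congr 1
      refine Finset.sum_congr rfl fun m hm => ?_
      rw [e m (by have := Finset.mem_range.1 hm; omega)]
    · rw [← x4 hn, e 0 (Nat.zero_le _)]
  exact le_antisymm (key e) (key fun m hm => (e m hm).symm)

instance Z_fin (h : ℕ → Lev d) (n : ℕ) (i : d.Ob) : Module.Finite K (Z h n i) := by
  haveI : ∀ (m : Fin (n + 1)) (k : Fin (h m).r),
      Module.Finite K (d.q i ((h m).o k) ((n : ℤ) - (m : ℕ))) := fun m k => d.q_fin _ _ _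
  let f : Z h n i →ₗ[K] ((m : Fin (n + 1)) → (k : Fin (h m).r) →
      d.q i ((h m).o k) ((n : ℤ) - (m : ℕ))) :=
    { toFun := fun x m k => ⟨x.1 m k, x.2.1 m k (by have := m.2; omega) k.2⟩
      map_add' := fun x y => rfl
      map_smul' := fun a x => rfl }
  refine Module.Finite.of_injective f ?_
  intro x y hxy
  apply Subtype.ext
  funext m k
  by_cases hm : m ≤ n ∧ k < (h m).r
  · have e := congrFun (congrFun hxy ⟨m, by omega⟩) ⟨k, hm.2⟩
    exact congrArg Subtype.val e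
  · rw [x.2.2.1 m k hm, y.2.2.1 m k hm]

theorem gens {M : Type} [AddCommGroup M] [Module K M] {Ob : Type} [Fintype Ob] [Nonempty Ob]
    (Y : Ob → Submodule K M) (hf : ∀ i, (Y i).FG) :
    ∃ (r : ℕ) (o : ℕ → Ob) (b : ℕ → M), (∀ k < r, b k ∈ Y (o k)) ∧
      ∀ i, ∀ x ∈ Y i, ∃ a : ℕ → K, (∀ k < r, o k ≠ i → a k = 0) ∧
        x = ∑ k ∈ Finset.range r, a k • b k := by
  classical
  choose s hs using hf
  let P : Finset (Σ _ : Ob, M) := Finset.univ.sigma s
  let e : P ≃ Fin P.card := P.equivFin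
  refine ⟨P.card, fun k => if hk : k < P.card then (e.symm ⟨k, hk⟩).1.1 else Classical.arbitrary _,
    fun k => if hk : k < P.card then (e.symm ⟨k, hk⟩).1.2 else 0, fun k hk => ?_, fun i x hx => ?_⟩
  · simp only [dif_pos hk]
    have h1 := (e.symm ⟨k, hk⟩).2
    rw [Finset.mem_sigma] at h1
    rw [← hs]
    exact Submodule.subset_span h1.2
  · rw [← hs i] at hx
    obtain ⟨f, _, hf⟩ := Submodule.mem_span_finset.1 hx
    refine ⟨fun k => if hk : k < P.card then
      (if (e.symm ⟨k, hk⟩).1.1 = i then f (e.symm ⟨k, hk⟩).1.2 else 0) else 0,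
      fun k hk ho => ?_, ?_⟩
    · simp only [dif_pos hk] at ho ⊢
      exact if_neg ho
    · rw [Finset.sum_range]
      simp only [Fin.is_lt, dif_pos, Fin.eta]
      rw [Equiv.sum_comp e.symm (fun p : P => (if p.1.1 = i then f p.1.2 else 0) • p.1.2)]
      rw [Finset.sum_coe_sort P (fun p => (if p.1 = i then f p.2 else 0) • p.2)]
      rw [Finset.sum_sigma, Finset.sum_eq_single i]
      · rw [← hf]
        refine Finset.sum_congr rfl fun y _ => ?_
        simp
      · intro j _ hj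
        refine Finset.sum_eq_zero fun y _ => ?_
        simp [hj]
      · intro h
        exact absurd (Finset.mem_univ _) h

theorem Z_fg (h : ℕ → Lev d) (n : ℕ) (i : d.Ob) : (Z h n i).FG :=
  Module.Finite.iff_fg.1 (Z_fin h n i)

theorem W_fg (i : d.Ob) : (d.W i).FG := Module.Finite.iff_fg.1 (d.W_fin i)

/-- the next level -/
noncomputable def next (h : ℕ → Lev d) (n : ℕ) : Lev d where
  r := (gens (Z h n) (Z_fg h n)).choose
  o := (gens (Z h n) (Z_fg h n)).choose_spec.choose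
  c := (gens (Z h n) (Z_fg h n)).choose_spec.choose_spec.choose
  v := 0

theorem next_spec (h : ℕ → Lev d) (n : ℕ) :
    (∀ k < (next h n).r, (next h n).c k ∈ Z h n ((next h n).o k)) ∧
      ∀ i, ∀ x ∈ Z h n i, ∃ a : ℕ → K, (∀ k < (next h n).r, (next h n).o k ≠ i → a k = 0) ∧
        x = ∑ k ∈ Finset.range (next h n).r, a k • (next h n).c k :=
  (gens (Z h n) (Z_fg h n)).choose_spec.choose_spec.choose_spec

/-- level zero -/
noncomputable def lev0 (d : Dat K) : Lev d where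
  r := (gens d.W W_fg).choose
  o := (gens d.W W_fg).choose_spec.choose
  c := 0
  v := (gens d.W W_fg).choose_spec.choose_spec.choose

theorem lev0_spec : (∀ k < (lev0 d).r, (lev0 d).v k ∈ d.W ((lev0 d).o k)) ∧
      ∀ i, ∀ x ∈ d.W i, ∃ a : ℕ → K, (∀ k < (lev0 d).r, (lev0 d).o k ≠ i → a k = 0) ∧
        x = ∑ k ∈ Finset.range (lev0 d).r, a k • (lev0 d).v k :=
  (gens d.W W_fg).choose_spec.choose_spec.choose_spec

/-- the histories -/
noncomputable def hist (d : Dat K) : ℕ → ℕ → Lev d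
  | 0 => fun _ => lev0 d
  | n + 1 => fun m => if m ≤ n then hist d n m else next (hist d n) n

/-- the levels -/
noncomputable def L (d : Dat K) (m : ℕ) : Lev d := hist d m m

theorem hist_eq {n m : ℕ} (h : m ≤ n) : hist d n m = L d m := by
  induction n with
  | zero =>
    obtain rfl : m = 0 := by omega
    rfl
  | succ n ih =>
    rcases Nat.lt_or_ge n m with h1 | h1
    · obtain rfl : m = n + 1 := by omega
      rfl
    · rw [← ih h1]
      exact if_pos h1

theorem L_zero : L d 0 = lev0 d := rfl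

theorem L_succ (n : ℕ) : L d (n + 1) = next (hist d n) n := by
  show (if n + 1 ≤ n then _ else _) = _
  rw [if_neg (by omega)]

theorem Z_hist (n : ℕ) (i : d.Ob) : Z (hist d n) n i = Z (L d) n i :=
  Z_congr (fun _ hm => hist_eq hm) i

theorem L_mem (n k : ℕ) (hk : k < (L d (n + 1)).r) :
    (L d (n + 1)).c k ∈ Z (L d) n ((L d (n + 1)).o k) := by
  rw [← Z_hist]
  rw [L_succ] at hk ⊢
  exact (next_spec _ _).1 k hk

theorem L_gen (n : ℕ) (i : d.Ob) (x : ℕ → ℕ → d.S) (hx : x ∈ Z (L d) n i) :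
    ∃ a : ℕ → K, (∀ k < (L d (n + 1)).r, (L d (n + 1)).o k ≠ i → a k = 0) ∧
        x = ∑ k ∈ Finset.range (L d (n + 1)).r, a k • (L d (n + 1)).c k := by
  rw [← Z_hist] at hx
  rw [L_succ]
  exact (next_spec _ _).2 i x hx

theorem L_v (n : ℕ) : (L d (n + 1)).v = 0 := by
  rw [L_succ]
  rfl

theorem c_zero {n k m' k' : ℕ} (hk : k < (L d n).r) (h : ¬ (m' < n ∧ k' < (L d m').r)) :
    (L d n).c k m' k' = 0 := by
  cases n with
  | zero => rfl
  | succ n =>
    exact (L_mem n k hk).2.1 m' k' fun h' => h ⟨by omega, h'.2⟩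

/-- the resolution -/
structure Res (d : Dat K) where
  ι : Type
  s : ι → ℕ
  F : ℕ → Finset ι
  mem_F : ∀ m σ, σ ∈ F m ↔ s σ ≤ m
  o : ι → d.Ob
  c : ι → ι → d.S
  c_mem : ∀ σ τ, c σ τ ∈ d.q (o σ) (o τ) ((s σ : ℤ) - s τ - 1)
  c_lt : ∀ σ τ, s σ ≤ s τ → c σ τ = 0
  mc : ∀ σ τ, d.D (c σ τ) + ∑ ρ ∈ F (s σ), c σ ρ * c ρ τ = 0
  v : ι → d.V
  v_mem : ∀ σ, v σ ∈ d.W (o σ)
  v_zero : ∀ σ, s σ ≠ 0 → v σ = 0
  v_aug : ∀ σ, s σ = 1 → ∑ τ ∈ F 0, d.rho (c σ τ) (v τ) = 0
  exR : ∀ (m : ℕ) (i : d.Ob) (x : ι → d.S), (∀ σ, x σ ∈ d.q i (o σ) ((m : ℤ) + 1 - s σ)) →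
    (∀ τ, d.D (x τ) + ∑ σ ∈ F (m + 1), x σ * c σ τ = 0) →
    ∃ y : ι → d.S, (∀ σ, y σ ∈ d.q i (o σ) ((m : ℤ) + 2 - s σ)) ∧
      ∀ τ, x τ = d.D (y τ) + ∑ σ ∈ F (m + 2), y σ * c σ τ
  exR0 : ∀ (i : d.Ob) (x : ι → d.S), (∀ σ, x σ ∈ d.q i (o σ) (-(s σ : ℤ))) →
    ∑ σ ∈ F 0, d.rho (x σ) (v σ) = 0 →
    ∃ y : ι → d.S, (∀ σ, y σ ∈ d.q i (o σ) ((1 : ℤ) - s σ)) ∧
      ∀ τ, x τ = d.D (y τ) + ∑ σ ∈ F 1, y σ * c σ τ
  gen : ∀ (i : d.Ob) (u : d.V), u ∈ d.W i →
    ∃ x : ι → d.S, (∀ σ, x σ ∈ d.q i (o σ) (-(s σ : ℤ))) ∧ ∑ σ ∈ F 0, d.rho (x σ) (v σ) = u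

/-! ### the canonical resolution -/

/-- the cells -/
abbrev I (d : Dat K) : Type := Σ n : ℕ, Fin (L d n).r

/-- cells of degree at most `m` -/
noncomputable def FF (d : Dat K) (m : ℕ) : Finset (I d) := (Finset.range (m + 1)).sigma fun _ => Finset.univ

theorem mem_FF (m : ℕ) (σ : I d) : σ ∈ FF d m ↔ σ.1 ≤ m := by
  unfold FF
  rw [Finset.mem_sigma, Finset.mem_range]
  constructor
  · intro h
    have := h.1
    omega
  · intro h
    exact ⟨by omega, Finset.mem_univ _⟩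

theorem sum_FF {M : Type} [AddCommMonoid M] (m : ℕ) (f : I d → M) (g : ℕ → ℕ → M)
    (h : ∀ σ : I d, σ.1 ≤ m → f σ = g σ.1 σ.2) :
    ∑ σ ∈ FF d m, f σ = ∑ n ∈ Finset.range (m + 1), ∑ k ∈ Finset.range (L d n).r, g n k := by
  unfold FF
  rw [Finset.sum_sigma]
  refine Finset.sum_congr rfl fun n hn => ?_
  rw [Finset.sum_range]
  refine Finset.sum_congr rfl fun k _ => ?_
  exact h ⟨n, k⟩ (by have := Finset.mem_range.1 hn; show n ≤ m; omega)

/-- the attaching coefficients -/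
noncomputable def cc (σ τ : I d) : d.S := (L d σ.1).c σ.2 τ.1 τ.2

/-- extension by zero -/
noncomputable def ex (x : I d → d.S) (m k : ℕ) : d.S :=
  if hk : k < (L d m).r then x ⟨m, ⟨k, hk⟩⟩ else 0

theorem ex_pos (x : I d → d.S) (σ : I d) : ex x σ.1 σ.2 = x σ := dif_pos σ.2.2

theorem ex_neg (x : I d → d.S) {m k : ℕ} (h : ¬ k < (L d m).r) : ex x m k = 0 := dif_neg h

theorem fill (n : ℕ) (i : d.Ob) (x : ℕ → ℕ → d.S) (hx : x ∈ Z (L d) n i) :
    ∃ y : I d → d.S, (∀ σ, y σ ∈ d.q i ((L d σ.1).o σ.2) ((n : ℤ) + 1 - (σ.1 : ℕ))) ∧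
      ∀ τ : I d, x τ.1 τ.2 = d.D (y τ) + ∑ σ ∈ FF d (n + 1), y σ * cc σ τ := by
  classical
  obtain ⟨a, ha, hs⟩ := L_gen n i x hx
  refine ⟨fun σ => if σ.1 = n + 1 then a σ.2 • (1 : d.S) else 0, ?_, fun τ => ?_⟩
  · rintro ⟨m, k⟩
    by_cases hm : m = n + 1
    · subst hm
      simp only [if_true]
      by_cases ho : (L d (n + 1)).o k = i
      · rw [ho, show (n : ℤ) + 1 - ((n + 1 : ℕ) : ℤ) = 0 by push_cast; ring]
        exact Submodule.smul_mem _ _ (d.q_one i)
      · rw [ha k k.2 ho, zero_smul]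
        exact Submodule.zero_mem _
    · simp only [if_neg hm]
      exact Submodule.zero_mem _
  · have hD : d.D (if τ.1 = n + 1 then a τ.2 • (1 : d.S) else 0) = 0 := by
      split_ifs
      · rw [map_smul, d.D_one, smul_zero]
      · exact map_zero _
    have e1 := sum_FF (n + 1) (fun σ : I d => (if σ.1 = n + 1 then a σ.2 • (1 : d.S) else 0) *
      cc σ τ) (fun m k => (if m = n + 1 then a k • (1 : d.S) else 0) *
      (L d m).c k τ.1 τ.2) (fun _ _ => rfl)
    refine Eq.trans ?_ (congrArg₂ (· + ·) hD.symm e1.symm)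
    show x τ.1 τ.2 = 0 + _
    rw [zero_add, Finset.sum_range_succ]
    have h0 : ∑ m ∈ Finset.range (n + 1), ∑ k ∈ Finset.range (L d m).r,
        (if m = n + 1 then a k • (1 : d.S) else 0) * (L d m).c k τ.1 τ.2 = 0 := by
      refine Finset.sum_eq_zero fun m hm => Finset.sum_eq_zero fun k _ => ?_
      have := Finset.mem_range.1 hm
      rw [if_neg (by omega), zero_mul]
    rw [h0, zero_add, congrFun (congrFun hs τ.1) τ.2]
    simp only [Finset.sum_apply, Pi.smul_apply, if_true, smul_mul_assoc, one_mul]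

theorem q_neg' {i j : d.Ob} {C : ℤ} {a : d.S} (h : a ∈ d.q i j C) (hC : C < 0) : a = 0 := by
  rw [d.q_neg i j C hC] at h
  exact (Submodule.mem_bot K).1 h

/-- **the resolution exists** -/
noncomputable def res (d : Dat K) : Res d where
  ι := I d
  s σ := σ.1
  F := FF d
  mem_F := mem_FF
  o σ := (L d σ.1).o σ.2
  c := cc
  c_mem := by
    rintro ⟨n, k⟩ ⟨m, l⟩
    show (L d n).c k m l ∈ _
    by_cases h : m < n
    · cases n with
      | zero => omega
      | succ n =>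
        have := (L_mem n k k.2).1 m l (by omega) l.2
        rwa [show (n : ℤ) - m = ((n + 1 : ℕ) : ℤ) - (m : ℕ) - 1 by push_cast; ring] at this
    · rw [c_zero k.2 (fun h' => h h'.1)]
      exact Submodule.zero_mem _
  c_lt := by
    rintro ⟨n, k⟩ ⟨m, l⟩ h
    exact c_zero k.2 (fun h' => absurd h'.1 (not_lt.2 h))
  mc := by
    rintro ⟨n, k⟩ τ
    have e1 := sum_FF n (fun ρ : I d => cc (⟨n, k⟩ : I d) ρ * cc ρ τ)
      (fun m l => (L d n).c k m l * (L d m).c l τ.1 τ.2) (fun _ _ => rfl)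
    refine (congrArg (d.D (cc (⟨n, k⟩ : I d) τ) + ·) e1).trans ?_
    show d.D ((L d n).c k τ.1 τ.2) + _ = 0
    cases n with
    | zero =>
      show d.D 0 + _ = 0
      rw [map_zero, zero_add]
      refine Finset.sum_eq_zero fun m _ => Finset.sum_eq_zero fun l _ => ?_
      show 0 * _ = _
      rw [zero_mul]
    | succ n =>
      rw [Finset.sum_range_succ]
      have h0 : ∑ l ∈ Finset.range (L d (n + 1)).r, (L d (n + 1)).c k (n + 1) l *
          (L d (n + 1)).c l τ.1 τ.2 = 0 := by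
        refine Finset.sum_eq_zero fun l _ => ?_
        rw [c_zero k.2 (fun h' => absurd h'.1 (lt_irrefl _)), zero_mul]
      rw [h0, add_zero]
      exact (L_mem n k k.2).2.2.1 τ.1 τ.2
  v σ := (L d σ.1).v σ.2
  v_mem := by
    rintro ⟨n, k⟩
    cases n with
    | zero => exact lev0_spec.1 k k.2
    | succ n =>
      show (L d (n + 1)).v k ∈ _
      rw [L_v]
      exact Submodule.zero_mem _
  v_zero := by
    rintro ⟨n, k⟩ h
    cases n with
    | zero => exact absurd rfl h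
    | succ n =>
      show (L d (n + 1)).v k = 0
      rw [L_v]
      rfl
  v_aug := by
    rintro ⟨n, k⟩ h
    obtain rfl : n = 1 := h
    have e1 := sum_FF 0 (fun τ : I d => d.rho (cc (⟨1, k⟩ : I d) τ) ((L d τ.1).v τ.2))
      (fun m l => d.rho ((L d 1).c k m l) ((L d m).v l)) (fun _ _ => rfl)
    refine e1.trans ?_
    rw [Finset.sum_range_one]
    exact (L_mem 0 k k.2).2.2.2 rfl
  exR := by
    intro m i x hx hc
    have hZ : ex x ∈ Z (L d) (m + 1) i := by
      refine ⟨fun m' k h1 h2 => ?_, fun m' k h1 => ?_, fun m' k' => ?_, fun h => by omega⟩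
      · have := hx ⟨m', ⟨k, h2⟩⟩
        rw [show ex x m' k = x ⟨m', ⟨k, h2⟩⟩ from dif_pos h2]
        rwa [show ((m + 1 : ℕ) : ℤ) - m' = (m : ℤ) + 1 - m' by push_cast; ring]
      · by_cases h2 : k < (L d m').r
        · rw [show ex x m' k = x ⟨m', ⟨k, h2⟩⟩ from dif_pos h2]
          refine q_neg' (hx ⟨m', ⟨k, h2⟩⟩) ?_
          have : ¬ m' ≤ m + 1 := fun h3 => h1 ⟨h3, h2⟩
          show (m : ℤ) + 1 - m' < 0
          omega
        · exact ex_neg x h2
      · by_cases h2 : k' < (L d m').r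
        · have := hc ⟨m', ⟨k', h2⟩⟩
          rw [sum_FF (m + 1) _ (fun n k => ex x n k * (L d n).c k m' k')
            (fun σ _ => by rw [ex_pos]; rfl)] at this
          rw [show ex x m' k' = x ⟨m', ⟨k', h2⟩⟩ from dif_pos h2]
          exact this
        · rw [ex_neg x h2, map_zero, zero_add]
          refine Finset.sum_eq_zero fun n _ => Finset.sum_eq_zero fun k hk => ?_
          rw [c_zero (Finset.mem_range.1 hk) (fun h' => h2 h'.2), mul_zero]
    obtain ⟨y, hy, hy'⟩ := fill (m + 1) i _ hZ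
    refine ⟨y, fun σ => ?_, fun τ => ?_⟩
    · have := hy σ
      rwa [show ((m + 1 : ℕ) : ℤ) + 1 - (σ.1 : ℕ) = (m : ℤ) + 2 - (σ.1 : ℕ) by push_cast; ring]
        at this
    · rw [← hy' τ, ex_pos]
  exR0 := by
    intro i x hx hc
    have hZ : ex x ∈ Z (L d) 0 i := by
      refine ⟨fun m' k h1 h2 => ?_, fun m' k h1 => ?_, fun m' k' => ?_, fun _ => ?_⟩
      · have := hx ⟨m', ⟨k, h2⟩⟩
        rw [show ex x m' k = x ⟨m', ⟨k, h2⟩⟩ from dif_pos h2]
        rwa [show ((0 : ℕ) : ℤ) - m' = -((m' : ℕ) : ℤ) by push_cast; ring]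
      · by_cases h2 : k < (L d m').r
        · rw [show ex x m' k = x ⟨m', ⟨k, h2⟩⟩ from dif_pos h2]
          refine q_neg' (hx ⟨m', ⟨k, h2⟩⟩) ?_
          have : ¬ m' ≤ 0 := fun h3 => h1 ⟨h3, h2⟩
          show -((m' : ℕ) : ℤ) < 0
          omega
        · exact ex_neg x h2
      · have h3 : d.D (ex x m' k') = 0 := by
          by_cases h2 : k' < (L d m').r
          · rw [show ex x m' k' = x ⟨m', ⟨k', h2⟩⟩ from dif_pos h2]
            refine q_neg' (d.q_D (hx ⟨m', ⟨k', h2⟩⟩)) ?_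
            show -((m' : ℕ) : ℤ) - 1 < 0
            omega
          · rw [ex_neg x h2, map_zero]
        rw [h3, zero_add, Finset.sum_range_one]
        refine Finset.sum_eq_zero fun k _ => ?_
        show _ * 0 = _
        rw [mul_zero]
      · rw [sum_FF 0 _ (fun m l => d.rho (ex x m l) ((L d m).v l))
            (fun σ _ => by rw [ex_pos]), Finset.sum_range_one] at hc
        exact hc
    obtain ⟨y, hy, hy'⟩ := fill 0 i _ hZ
    refine ⟨y, fun σ => ?_, fun τ => ?_⟩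
    · have := hy σ
      rwa [show ((0 : ℕ) : ℤ) + 1 - (σ.1 : ℕ) = (1 : ℤ) - (σ.1 : ℕ) by push_cast; ring]
        at this
    · rw [← hy' τ, ex_pos]
  gen := by
    classical
    intro i u hu
    obtain ⟨a, ha, hs⟩ := (lev0_spec (d := d)).2 i u hu
    refine ⟨fun σ => if σ.1 = 0 then a σ.2 • (1 : d.S) else 0, ?_, ?_⟩
    · rintro ⟨m, k⟩
      by_cases hm : m = 0
      · subst hm
        simp only [if_true]
        by_cases ho : (L d 0).o k = i
        · rw [ho, show -((0 : ℕ) : ℤ) = 0 by simp]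
          exact Submodule.smul_mem _ _ (d.q_one i)
        · rw [ha k k.2 ho, zero_smul]
          exact Submodule.zero_mem _
      · simp only [if_neg hm]
        exact Submodule.zero_mem _
    · rw [sum_FF 0 _ (fun m l => d.rho (if m = 0 then a l • (1 : d.S) else 0) ((L d m).v l))
            (fun σ _ => rfl), Finset.sum_range_one, hs]
      refine Finset.sum_congr rfl fun k _ => ?_
      rw [if_pos rfl, map_smul, LinearMap.smul_apply, d.rho_one]
      rfl

end Crest.Agent.R186.Bar560
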