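import Crest.Agent.R186.HatC_827

/-!
Row 186, half (A), leaf BAR (helper390): the bar resolution of a module `V` in degree `0` over a
strict dg algebra `A : DGA K` (no directness of the pieces `G k` is needed).

* `RCells A` : `Hat827.Cells` without `exV`, `exC`;
* `RCells.toCells` : `RCells + exV + exC → Cells`;
* `bar` : for every `A : DGA K` and every finite dimensional `V` with `D (G 1) V = 0`.

cells = words `(l, i)`, `l : List J`, `J` = union of bases of the pieces, `i` = basis of `V`,
`d [j | w] = a_j [w] + h (d (a_j [w])) (+ [a_j v])`, `h (a [w]) = [a | w]`.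
-/

set_option autoImplicit false
set_option linter.style.haveILetI false
set_option linter.unusedSectionVars false

namespace Crest.Agent.R186.Hat827

variable {K : Type} [Field K]

open DGA

/-- a `C`-module `V` in degree `0` with a semi-free resolution (no exactness of `Hom`) -/
structure RCells (A : DGA K) where
  V : Type
  [grp : AddCommGroup V]
  [modK : Module K V]
  [modC : Module A.C V]
  [tower : IsScalarTower K A.C V]
  [finV : Module.Finite K V]
  [nt : Nontrivial V]
  dpos : ∀ x ∈ A.G 1, ∀ w : V, A.D x • w = 0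
  ι : Type
  s : ι → ℕ
  F : ℕ → Finset ι
  mem_F : ∀ m σ, σ ∈ F m ↔ s σ ≤ m
  e : ι → A.C
  e_mem : ∀ σ, e σ ∈ A.G 0
  e_idem : ∀ σ, e σ * e σ = e σ
  c : ι → ι → A.C
  c_mem : ∀ σ τ, c σ τ ∈ A.G ((s σ : ℤ) - s τ - 1)
  c_left : ∀ σ τ, e σ * c σ τ = c σ τ
  c_right : ∀ σ τ, c σ τ * e τ = c σ τ
  mc : ∀ σ τ, A.D (c σ τ) + ∑ ρ ∈ F (s σ), c σ ρ * c ρ τ = 0
  v : ι → V
  v_e : ∀ σ, e σ • v σ = v σ
  v_zero : ∀ σ, s σ ≠ 0 → v σ = 0
  v_aug : ∀ σ, s σ = 1 → ∑ τ ∈ F 0, c σ τ • v τ = 0
  exR : ∀ (m : ℕ) (x : ι → A.C), (∀ σ, x σ ∈ A.G ((m : ℤ) + 1 - s σ)) →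
    (∀ σ, x σ * e σ = x σ) → (∀ τ, A.D (x τ) + ∑ σ ∈ F (m + 1), x σ * c σ τ = 0) →
    ∃ y : ι → A.C, (∀ σ, y σ ∈ A.G ((m : ℤ) + 2 - s σ)) ∧ (∀ σ, y σ * e σ = y σ) ∧
      ∀ τ, x τ = A.D (y τ) + ∑ σ ∈ F (m + 2), y σ * c σ τ
  exR0 : ∀ x : ι → A.C, (∀ σ, x σ ∈ A.G (-(s σ : ℤ))) → (∀ σ, x σ * e σ = x σ) →
    ∑ σ ∈ F 0, x σ • v σ = 0 →
    ∃ y : ι → A.C, (∀ σ, y σ ∈ A.G ((1 : ℤ) - s σ)) ∧ (∀ σ, y σ * e σ = y σ) ∧
      ∀ τ, x τ = A.D (y τ) + ∑ σ ∈ F 1, y σ * c σ τ
  gen : ∀ w : V, ∃ x : ι → A.C, (∀ σ, x σ ∈ A.G (-(s σ : ℤ))) ∧ ∑ σ ∈ F 0, x σ • v σ = w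

attribute [instance] RCells.grp RCells.modK RCells.modC RCells.tower RCells.finV RCells.nt

/-- `Cells` from the resolution part and the two exactness statements -/
def RCells.toCells {A : DGA K} (R : RCells A)
    (exV : ∀ (m : ℕ) (φ : R.ι → R.V), (∀ σ, R.s σ ≠ m + 1 → φ σ = 0) →
      (∀ σ, R.e σ • φ σ = φ σ) →
      (∀ σ, R.s σ = m + 2 → ∑ τ ∈ R.F (m + 1), R.c σ τ • φ τ = 0) →
      ∃ ψ : R.ι → R.V, (∀ σ, R.s σ ≠ m → ψ σ = 0) ∧
        ∀ σ, R.s σ = m + 1 → φ σ = ∑ τ ∈ R.F m, R.c σ τ • ψ τ)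
    (exC : ∀ (p : ℤ) (φ : R.ι → A.C), (∀ σ, φ σ ∈ A.G ((R.s σ : ℤ) - p)) →
      (∀ σ, R.e σ * φ σ = φ σ) →
      (∀ σ, A.D (φ σ) + ∑ τ ∈ R.F (R.s σ), R.c σ τ * φ τ = 0) →
      ∃ ψ : R.ι → A.C, (∀ σ, ψ σ ∈ A.G ((R.s σ : ℤ) - p + 1)) ∧ (∀ σ, R.e σ * ψ σ = ψ σ) ∧
        ∀ σ, φ σ = A.D (ψ σ) + ∑ τ ∈ R.F (R.s σ), R.c σ τ * ψ τ) : Cells A :=
  { R with exV := exV, exC := exC }

namespace Bar390

open Finsupp

variable (A : DGA K)

/-- letters: bases of the pieces -/
abbrev J : Type := Σ k : Fin (A.N + 1), Fin (Module.finrank K (A.G (k : ℕ)))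

variable {A}

/-- degree of a letter -/
def dg (j : J A) : ℕ := (j.1 : ℕ)

/-- basis of a piece -/
noncomputable def bs (k : Fin (A.N + 1)) :
    Module.Basis (Fin (Module.finrank K (A.G (k : ℕ)))) K (A.G (k : ℕ)) := Module.finBasis K _

/-- value of a letter -/
noncomputable def val (j : J A) : A.C := (bs j.1 j.2 : A.C)

theorem val_mem (j : J A) : val j ∈ A.G (dg j) := (bs j.1 j.2).2

theorem exists_pr (k : ℤ) : ∃ g : A.C →ₗ[K] A.G k, g ∘ₗ (A.G k).subtype = LinearMap.id :=
  (A.G k).subtype.exists_leftInverse_of_injective (Submodule.ker_subtype _)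

/-- a linear projection on a piece -/
noncomputable def pr (k : ℤ) : A.C →ₗ[K] A.G k := (exists_pr k).choose

theorem pr_eq {k : ℤ} {a : A.C} (h : a ∈ A.G k) : pr k a = ⟨a, h⟩ := by
  exact LinearMap.congr_fun (exists_pr k).choose_spec ⟨a, h⟩

/-- coordinates in degree `k` -/
noncomputable def co (k : ℤ) (j : J A) : A.C →ₗ[K] K :=
  if (dg j : ℤ) = k then ((bs j.1).coord j.2).comp (pr (((j.1 : ℕ) : ℤ))) else 0

theorem co_of {k : ℤ} {j : J A} (h : (dg j : ℤ) = k) (a : A.C) :
    co k j a = (bs j.1).coord j.2 (pr (((j.1 : ℕ) : ℤ)) a) := by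
  unfold co; rw [if_pos h]; rfl

theorem co_ne {k : ℤ} {j : J A} (h : (dg j : ℤ) ≠ k) (a : A.C) : co k j a = 0 := by
  unfold co; rw [if_neg h]; rfl

theorem co_sum {k : ℤ} {a : A.C} (ha : a ∈ A.G k) : ∑ j : J A, co k j a • val j = a := by
  by_cases h0 : k < 0
  · rw [neg ha h0]
    simp
  by_cases h1 : (A.N : ℤ) < k
  · have : a = 0 := by rw [A.G_big k h1] at ha; exact (Submodule.mem_bot K).1 ha
    rw [this]
    simp
  obtain ⟨k0, rfl⟩ := Int.eq_ofNat_of_zero_le (not_lt.1 h0)
  have hk : k0 < A.N + 1 := by omega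
  rw [Fintype.sum_sigma]
  rw [Finset.sum_eq_single (⟨k0, hk⟩ : Fin (A.N + 1))]
  · have e : ∀ i, co (k0 : ℤ) (⟨⟨k0, hk⟩, i⟩ : J A) a • val (⟨⟨k0, hk⟩, i⟩ : J A)
        = (((bs ⟨k0, hk⟩).repr ⟨a, ha⟩ i • bs (⟨k0, hk⟩ : Fin (A.N + 1)) i : A.G (k0 : ℤ)) : A.C) := by
      intro i
      rw [co_of (by rfl)]
      rw [pr_eq (show a ∈ A.G (((⟨⟨k0, hk⟩, i⟩ : J A).1 : ℕ) : ℤ) from ha)]
      rfl
    rw [Finset.sum_congr rfl fun i _ => e i]
    have := congrArg (Submodule.subtype _) ((bs ⟨k0, hk⟩).sum_repr ⟨a, ha⟩)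
    rw [map_sum] at this
    exact this
  · intro b _ hb
    refine Finset.sum_eq_zero fun i _ => ?_
    rw [co_ne, zero_smul]
    intro h
    apply hb
    apply Fin.ext
    have : ((b : ℕ) : ℤ) = (k0 : ℤ) := h
    simpa using this
  · intro h
    exact absurd (Finset.mem_univ _) h

/-- size of a word -/
def sz : List (J A) → ℕ
  | [] => 0
  | j :: l => dg j + 1 + sz l

theorem length_le_sz (l : List (J A)) : l.length ≤ sz l := by
  induction l with
  | nil => simp [sz]
  | cons j l ih => simp only [List.length_cons, sz]; omega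

variable (V : Type) [AddCommGroup V] [Module K V] [Module A.C V] [IsScalarTower K A.C V]
  [Module.Finite K V]

/-- words -/
abbrev Wd (A : DGA K) (V : Type) [AddCommGroup V] [Module K V] : Type :=
  List (J A) × Fin (Module.finrank K V)

/-- the free module on the words -/
abbrev P (A : DGA K) (V : Type) [AddCommGroup V] [Module K V] : Type := Wd A V →₀ A.C

/-- basis of `V` -/
noncomputable def vb : Module.Basis (Fin (Module.finrank K V)) K V := Module.finBasis K V

variable {V}

open Classical in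
/-- the homotopy on elements of total degree `m` -/
noncomputable def hP (m : ℤ) : P A V →ₗ[K] P A V :=
  Finsupp.lsum K fun w => ∑ j : J A, (co (m - sz w.1) j).smulRight (single ((j :: w.1, w.2) : Wd A V) (1 : A.C))

theorem hP_single (m : ℤ) (w : Wd A V) (a : A.C) :
    hP m (single w a) = ∑ j : J A, co (m - sz w.1) j a • single ((j :: w.1, w.2) : Wd A V) (1 : A.C) := by
  unfold hP
  rw [Finsupp.lsum_single, LinearMap.sum_apply]
  rfl

/-- the section of the augmentation -/
noncomputable def hm : V →ₗ[K] P A V :=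
  ∑ i, ((vb (K := K) V).coord i).smulRight (single (([], i) : Wd A V) (1 : A.C))

theorem hm_apply (u : V) :
    (hm u : P A V) = ∑ i, (vb (K := K) V).coord i u • single (([], i) : Wd A V) (1 : A.C) := by
  unfold hm
  rw [LinearMap.sum_apply]
  rfl

/-- values of the cells -/
noncomputable def vv (w : Wd A V) : V :=
  match w.1 with
  | [] => vb (K := K) V w.2
  | _ :: _ => 0

/-- the augmentation -/
noncomputable def ep : P A V →ₗ[K] V :=
  Finsupp.lsum K fun w => (LinearMap.toSpanSingleton A.C V (vv w)).restrictScalars K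

theorem ep_single (w : Wd A V) (a : A.C) : ep (single w a) = a • vv w := by
  unfold ep
  rw [Finsupp.lsum_single]
  rfl

theorem ep_smul (a : A.C) (x : P A V) : ep (a • x) = a • ep x := by
  induction x using Finsupp.induction_linear with
  | zero => simp
  | add x y hx hy => rw [smul_add, map_add, hx, hy, map_add, smul_add]
  | single w b => rw [Finsupp.smul_single, ep_single, ep_single, smul_eq_mul, mul_smul]

theorem ep_hm (u : V) : ep (hm u : P A V) = u := by
  rw [hm_apply, map_sum]
  have : ∀ i, ep ((vb (K := K) V).coord i u • single (([], i) : Wd A V) (1 : A.C))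
      = (vb (K := K) V).repr u i • vb (K := K) V i := by
    intro i
    rw [map_smul, ep_single, one_smul]
    rfl
  rw [Finset.sum_congr rfl fun i _ => this i]
  exact (vb (K := K) V).sum_repr u

open Classical in
/-- differential of the cells -/
noncomputable def dw : List (J A) → Fin (Module.finrank K V) → P A V
  | [], _ => 0
  | j :: l, i => single ((l, i) : Wd A V) (val j)
      + hP ((dg j : ℤ) + sz l - 1) (single ((l, i) : Wd A V) (A.D (val j)) + val j • dw l i)
      + (if l = [] ∧ dg j = 0 then hm (val j • vb (K := K) V i) else 0)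

/-- the differential -/
noncomputable def dP : P A V →ₗ[K] P A V :=
  Finsupp.mapRange.linearMap A.D +
    Finsupp.lsum K fun w => (LinearMap.toSpanSingleton A.C (P A V) (dw w.1 w.2)).restrictScalars K

theorem dP_single (w : Wd A V) (a : A.C) :
    dP (single w a) = single w (A.D a) + a • dw w.1 w.2 := by
  unfold dP
  rw [LinearMap.add_apply, Finsupp.lsum_single]
  congr 1
  simp

theorem dP_smul (a : A.C) (x : P A V) : dP (a • x) = A.D a • x + a • dP x := by
  induction x using Finsupp.induction_linear with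
  | zero => simp
  | add x y hx hy => rw [smul_add, map_add, hx, hy, map_add, smul_add, smul_add]; abel
  | single w b =>
    rw [Finsupp.smul_single, dP_single, dP_single, smul_eq_mul, A.D_mul, single_add, smul_add,
      Finsupp.smul_single, Finsupp.smul_single, smul_eq_mul, smul_eq_mul, mul_smul]
    abel

/-! ### homogeneous elements -/

/-- elements of total degree `m` -/
def PH (m : ℤ) : Submodule K (P A V) where
  carrier := {x | ∀ w : Wd A V, x w ∈ A.G (m - sz w.1)}
  add_mem' hx hy w := Submodule.add_mem _ (hx w) (hy w)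
  zero_mem' _ := Submodule.zero_mem _
  smul_mem' r _ hx w := Submodule.smul_mem _ r (hx w)

theorem mem_PH {m : ℤ} {x : P A V} : x ∈ PH m ↔ ∀ w : Wd A V, x w ∈ A.G (m - sz w.1) := Iff.rfl

theorem single_mem {m : ℤ} {w : Wd A V} {a : A.C} (h : a ∈ A.G (m - sz w.1)) :
    (single w a : P A V) ∈ PH (V := V) m := by
  classical
  intro w'
  rw [Finsupp.single_apply]
  split
  · next e => subst e; exact h
  · exact Submodule.zero_mem _

theorem map_mem {E : Type} [AddCommGroup E] [Module K E] {m : ℤ} (f : P A V →ₗ[K] E)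
    (N : Submodule K E) (h : ∀ (w : Wd A V) (a : A.C), a ∈ A.G (m - sz w.1) → f (single w a) ∈ N)
    {x : P A V} (hx : x ∈ PH m) : f x ∈ N := by
  rw [← Finsupp.sum_single x, Finsupp.sum, map_sum]
  exact Submodule.sum_mem _ fun w _ => h w _ (hx w)

theorem map_ext {E : Type} [AddCommGroup E] [Module K E] {m : ℤ} (f g : P A V →ₗ[K] E)
    (h : ∀ (w : Wd A V) (a : A.C), a ∈ A.G (m - sz w.1) → f (single w a) = g (single w a))
    {x : P A V} (hx : x ∈ PH m) : f x = g x := by
  have := map_mem (f - g) ⊥ (fun w a ha => by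
    rw [Submodule.mem_bot, LinearMap.sub_apply, h w a ha, sub_self]) hx
  rw [Submodule.mem_bot, LinearMap.sub_apply] at this
  exact sub_eq_zero.1 this

theorem smul_mem' {k m : ℤ} {a : A.C} (ha : a ∈ A.G k) {x : P A V} (hx : x ∈ PH m) :
    a • x ∈ PH (V := V) (k + m) := by
  intro w
  rw [Finsupp.smul_apply, smul_eq_mul]
  have := A.mul_mem ha (hx w)
  rwa [show k + (m - (sz w.1 : ℤ)) = k + m - sz w.1 by ring] at this

theorem hP_mem {m : ℤ} {x : P A V} (hx : x ∈ PH m) : hP m x ∈ PH (V := V) (m + 1) := by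
  refine map_mem (hP m) _ (fun w a _ => ?_) hx
  rw [hP_single]
  refine Submodule.sum_mem _ fun j _ => ?_
  by_cases hj : (dg j : ℤ) = m - sz w.1
  · refine Submodule.smul_mem _ _ (single_mem ?_)
    have : m + 1 - ((sz (j :: w.1) : ℕ) : ℤ) = 0 := by
      simp only [sz]; push_cast; omega
    rw [this]
    exact A.one_mem
  · rw [co_ne hj, zero_smul]
    exact Submodule.zero_mem _

theorem hm_mem (u : V) : (hm u : P A V) ∈ PH (V := V) 0 := by
  rw [hm_apply]
  refine Submodule.sum_mem _ fun i _ => Submodule.smul_mem _ _ (single_mem ?_)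
  simpa [sz] using A.one_mem

theorem dw_mem (l : List (J A)) (i) : (dw l i : P A V) ∈ PH (V := V) ((sz l : ℤ) - 1) := by
  induction l with
  | nil => exact Submodule.zero_mem _
  | cons j l ih =>
    have e : ((sz (j :: l) : ℕ) : ℤ) - 1 = (dg j : ℤ) + sz l := by simp only [sz]; push_cast; ring
    rw [e]
    unfold dw
    refine Submodule.add_mem _ (Submodule.add_mem _ (single_mem ?_) ?_) ?_
    · have := val_mem j
      rwa [show (dg j : ℤ) + sz l - sz l = dg j by ring]
    · have h1 : (single ((l, i) : Wd A V) (A.D (val j)) + val j • dw l i : P A V) ∈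
          PH (V := V) ((dg j : ℤ) + sz l - 1) := by
        refine Submodule.add_mem _ (single_mem ?_) ?_
        · have := A.D_mem (val_mem j)
          rwa [show (dg j : ℤ) + sz l - 1 - sz l = dg j - 1 by ring]
        · have := smul_mem' (val_mem j) ih
          rwa [show (dg j : ℤ) + ((sz l : ℤ) - 1) = (dg j : ℤ) + sz l - 1 by ring] at this
      have := hP_mem h1
      rwa [show (dg j : ℤ) + sz l - 1 + 1 = (dg j : ℤ) + sz l by ring] at this
    · split
      · next h =>
        obtain ⟨rfl, h2⟩ := h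
        rw [h2]
        simpa [sz] using hm_mem (A := A) (val j • vb (K := K) V i)
      · exact Submodule.zero_mem _

theorem dP_mem {m : ℤ} {x : P A V} (hx : x ∈ PH m) : dP x ∈ PH (V := V) (m - 1) := by
  refine map_mem dP _ (fun w a ha => ?_) hx
  rw [dP_single]
  refine Submodule.add_mem _ (single_mem ?_) ?_
  · have := A.D_mem ha
    rwa [show m - (sz w.1 : ℤ) - 1 = m - 1 - sz w.1 by ring] at this
  · have := smul_mem' ha (dw_mem (V := V) w.1 w.2)
    rwa [show m - (sz w.1 : ℤ) + ((sz w.1 : ℤ) - 1) = m - 1 by ring] at this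

/-! ### the homotopy -/

theorem dP_hm (u : V) : dP (hm u : P A V) = 0 := by
  rw [hm_apply, map_sum]
  refine Finset.sum_eq_zero fun i _ => ?_
  rw [map_smul, dP_single, A.D_one, single_zero, zero_add]
  simp [dw]

theorem vv_nil (i) : (vv (([], i) : Wd A V) : V) = vb (K := K) V i := rfl

theorem vv_cons (j : J A) (l : List (J A)) (i) : (vv ((j :: l, i) : Wd A V) : V) = 0 := rfl

theorem lin_co {E : Type} [AddCommGroup E] [Module K E] (f : A.C →ₗ[K] E) {k : ℤ} {a : A.C}
    (ha : a ∈ A.G k) : ∑ j : J A, co k j a • f (val j) = f a := by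
  conv_rhs => rw [← co_sum ha, map_sum]
  exact Finset.sum_congr rfl fun j _ => (map_smul f _ _).symm

theorem homotopy_single {m : ℤ} (w : Wd A V) (a : A.C) (ha : a ∈ A.G (m - sz w.1)) :
    dP (hP m (single w a)) = single w a + hP (m - 1) (dP (single w a))
      + (if m = 0 then hm (ep (single w a)) else 0) := by
  obtain ⟨l, i⟩ := w
  have e1 : ∀ j : J A, dP (co (m - sz l) j a • single ((j :: l, i) : Wd A V) (1 : A.C)) =
      co (m - sz l) j a • single ((l, i) : Wd A V) (val j)
      + co (m - sz l) j a • hP (m - 1) (single ((l, i) : Wd A V) (A.D (val j)) + val j • dw l i)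
      + (if m = 0 then co (m - sz l) j a • hm (val j • vv ((l, i) : Wd A V)) else 0) := by
    intro j
    rw [map_smul, dP_single, A.D_one, single_zero, zero_add, one_smul]
    by_cases hj : (dg j : ℤ) = m - sz l
    · change co (m - sz l) j a • dw (j :: l) i = _
      rw [show (dw (j :: l) i : P A V) = single ((l, i) : Wd A V) (val j)
        + hP ((dg j : ℤ) + sz l - 1) (single ((l, i) : Wd A V) (A.D (val j)) + val j • dw l i)
        + (if l = [] ∧ dg j = 0 then hm (val j • vb (K := K) V i) else 0) from rfl,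
        show (dg j : ℤ) + sz l - 1 = m - 1 by omega, smul_add, smul_add]
      congr 1
      cases l with
      | nil =>
        simp only [sz, Nat.cast_zero, sub_zero] at hj
        by_cases hm0 : m = 0
        · rw [if_pos hm0, if_pos ⟨rfl, by omega⟩]
          rfl
        · rw [if_neg hm0, if_neg (by rintro ⟨-, h⟩; omega), smul_zero]
      | cons j' l' =>
        rw [if_neg (by rintro ⟨h, -⟩; exact absurd h (List.cons_ne_nil _ _)), smul_zero, vv_cons,
          smul_zero, map_zero, smul_zero, ite_self]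
    · rw [co_ne hj, zero_smul, zero_smul, zero_smul, zero_smul, add_zero, ite_self, add_zero]
  rw [hP_single, map_sum, Finset.sum_congr rfl fun j _ => e1 j, Finset.sum_add_distrib,
    Finset.sum_add_distrib]
  congr 1
  · congr 1
    · exact lin_co (Finsupp.lsingle ((l, i) : Wd A V) : A.C →ₗ[K] P A V) ha
    · have := lin_co ((hP (m - 1)) ∘ₗ (dP ∘ₗ (Finsupp.lsingle ((l, i) : Wd A V) : A.C →ₗ[K] P A V))) ha
      simp only [LinearMap.comp_apply, Finsupp.lsingle_apply, dP_single] at this ⊢
      exact this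
  · by_cases hm0 : m = 0
    · rw [if_pos hm0, Finset.sum_congr rfl fun j _ => if_pos hm0]
      have := lin_co ((hm (A := A) (V := V)) ∘ₗ (ep ∘ₗ (Finsupp.lsingle ((l, i) : Wd A V) : A.C →ₗ[K] P A V))) ha
      simp only [LinearMap.comp_apply, Finsupp.lsingle_apply, ep_single] at this ⊢
      exact this
    · rw [if_neg hm0, Finset.sum_congr rfl fun j _ => if_neg hm0, Finset.sum_const_zero]

theorem homotopy {m : ℤ} {x : P A V} (hx : x ∈ PH m) :
    dP (hP m x) = x + hP (m - 1) (dP x) + (if m = 0 then hm (ep x) else 0) := by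
  have := map_ext (m := m) ((dP (A := A) (V := V)) ∘ₗ hP m)
    (LinearMap.id + (hP (m - 1)) ∘ₗ dP + (if m = 0 then hm ∘ₗ ep else 0)) (fun w a ha => by
      have := homotopy_single w a ha
      simp only [LinearMap.comp_apply, LinearMap.add_apply, LinearMap.id_apply]
      rw [this]
      congr 1
      split <;> rfl) hx
  simp only [LinearMap.comp_apply, LinearMap.add_apply, LinearMap.id_apply] at this
  rw [this]
  congr 1
  split <;> rfl

theorem P_two (x : P A V) : x + x = 0 := by
  ext w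
  exact A.two _

theorem length_one {l : List (J A)} (h : sz l = 1) : ∃ j, l = [j] ∧ dg j = 0 := by
  match l, h with
  | [], h => simp [sz] at h
  | [j], h => exact ⟨j, rfl, by simpa [sz] using h⟩
  | j :: j' :: l, h => simp only [sz] at h; omega

theorem ep_dw_one {l : List (J A)} (i) (h : sz l = 1) : ep (dw l i : P A V) = 0 := by
  obtain ⟨j, rfl, hj⟩ := length_one h
  have h0 : A.D (val j) = 0 := DGA.D_neg (val_mem j) (by omega)
  have e : (dw [j] i : P A V) = single (([], i) : Wd A V) (val j) + hm (val j • vb (K := K) V i) := by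
    rw [show (dw [j] i : P A V) = single (([], i) : Wd A V) (val j)
        + hP ((dg j : ℤ) + sz ([] : List (J A)) - 1) (single (([], i) : Wd A V) (A.D (val j)) + val j • 0)
        + (if ([] : List (J A)) = [] ∧ dg j = 0 then hm (val j • vb (K := K) V i) else 0) from rfl,
      h0, single_zero, smul_zero, add_zero, map_zero, add_zero, if_pos ⟨rfl, hj⟩]
  have h2 : ∀ u : V, u + u = 0 := by
    intro u
    have := A.two 1
    have h3 : ((1 : A.C) + 1) • u = 0 := by rw [this, zero_smul]
    rwa [add_smul, one_smul] at h3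
  rw [e, map_add, ep_single, ep_hm, vv_nil, h2]

theorem dP_dw (dpos : ∀ x ∈ A.G 1, ∀ w : V, A.D x • w = 0) (l : List (J A)) (i) :
    dP (dw l i : P A V) = 0 := by
  induction l with
  | nil => exact map_zero _
  | cons j l ih =>
    set y : P A V := single ((l, i) : Wd A V) (A.D (val j)) + val j • dw l i with hy
    have hyx : dP (single ((l, i) : Wd A V) (val j)) = y := by rw [dP_single]
    have hx : (single ((l, i) : Wd A V) (val j) : P A V) ∈ PH (V := V) ((dg j : ℤ) + sz l) := by
      refine single_mem ?_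
      have := val_mem j
      rwa [show (dg j : ℤ) + sz l - sz l = dg j by ring]
    have hym : y ∈ PH (V := V) ((dg j : ℤ) + sz l - 1) := by rw [← hyx]; exact dP_mem hx
    have hdy : dP y = 0 := by
      rw [hy, map_add, dP_single, dP_smul, ih, smul_zero, add_zero, A.D_D, single_zero, zero_add,
        P_two]
    have hep : (if (dg j : ℤ) + sz l - 1 = 0 then hm (ep y) else 0 : P A V) = 0 := by
      split
      · next h =>
        have : ep y = 0 := by
          rw [hy, map_add, ep_single, ep_smul]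
          rcases Nat.eq_zero_or_pos (sz l) with h0 | h0
          · have hl : l = [] := by
              cases l with
              | nil => rfl
              | cons a b => simp only [sz] at h0; omega
            subst hl
            have hj : (dg j : ℤ) = 1 := by omega
            have h1 := val_mem j
            rw [hj] at h1
            rw [dpos _ h1, zero_add]
            change val j • ep (0 : P A V) = 0
            rw [map_zero, smul_zero]
          · have h1 : sz l = 1 := by omega
            have hj : (dg j : ℤ) = 0 := by omega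
            have h2 : A.D (val j) = 0 := DGA.D_neg (val_mem j) (by omega)
            rw [h2, zero_smul, ep_dw_one i h1, smul_zero, add_zero]
        rw [this, map_zero]
      · rfl
    have hb : dP (if l = [] ∧ dg j = 0 then hm (val j • vb (K := K) V i) else 0 : P A V) = 0 := by
      split
      · exact dP_hm _
      · exact map_zero _
    rw [show (dw (j :: l) i : P A V) = single ((l, i) : Wd A V) (val j)
        + hP ((dg j : ℤ) + sz l - 1) y
        + (if l = [] ∧ dg j = 0 then hm (val j • vb (K := K) V i) else 0) from rfl,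
      map_add, map_add, hb, add_zero, hyx, homotopy hym, hdy, map_zero, add_zero, hep, add_zero,
      P_two]

/-! ### sums over the cells -/

theorem finite_sz (m : ℕ) : {w : Wd A V | sz w.1 ≤ m}.Finite := by
  have h1 : {l : List (J A) | l.length ≤ m}.Finite := List.finite_length_le _ m
  refine (h1.prod (Set.finite_univ (α := Fin (Module.finrank K V)))).subset ?_
  intro w hw
  exact ⟨le_trans (length_le_sz _) hw, trivial⟩

/-- cells of degree at most `m` -/
noncomputable def FF (m : ℕ) : Finset (Wd A V) := (finite_sz m).toFinset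

theorem mem_FF (m : ℕ) (w : Wd A V) : w ∈ FF m ↔ sz w.1 ≤ m := by
  unfold FF
  rw [Set.Finite.mem_toFinset]
  rfl

theorem supp_PH {m : ℕ} {x : P A V} (hx : x ∈ PH (m : ℤ)) : x.support ⊆ FF m := by
  intro w hw
  rw [mem_FF]
  by_contra h
  exact (Finsupp.mem_support_iff.1 hw) (neg (hx w) (by omega))

theorem dP_apply {S : Finset (Wd A V)} {x : P A V} (hS : x.support ⊆ S) (τ : Wd A V) :
    (dP x) τ = A.D (x τ) + ∑ σ ∈ S, x σ * dw σ.1 σ.2 τ := by
  unfold dP
  rw [LinearMap.add_apply, Finsupp.add_apply]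
  congr 1
  rw [Finsupp.lsum_apply, Finsupp.sum_of_support_subset x hS _ (fun w _ => by simp),
    Finsupp.finset_sum_apply]
  rfl

theorem ep_apply {S : Finset (Wd A V)} {x : P A V} (hS : x.support ⊆ S) :
    ep x = ∑ σ ∈ S, x σ • vv σ := by
  unfold ep
  rw [Finsupp.lsum_apply, Finsupp.sum_of_support_subset x hS _ (fun w _ => by simp)]
  rfl

/-- a homogeneous family as an element of `P` -/
theorem exists_P {m : ℕ} (x : Wd A V → A.C) (hx : ∀ σ, x σ ∈ A.G ((m : ℤ) - sz σ.1)) :
    ∃ X : P A V, X ∈ PH (m : ℤ) ∧ ∀ σ, X σ = x σ := by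
  classical
  refine ⟨Finsupp.onFinset (FF m) x ?_, ?_, fun σ => rfl⟩
  · intro σ h
    rw [mem_FF]
    by_contra h'
    exact h (neg (hx σ) (by omega))
  · exact hx

/-- **the bar resolution** -/
noncomputable def bar (A : DGA K) (V : Type) [AddCommGroup V] [Module K V] [Module A.C V]
    [IsScalarTower K A.C V] [Module.Finite K V] [Nontrivial V]
    (dpos : ∀ x ∈ A.G 1, ∀ w : V, A.D x • w = 0) : RCells A where
  V := V
  dpos := dpos
  ι := Wd A V
  s σ := sz σ.1
  F := FF
  mem_F := mem_FF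
  e _ := 1
  e_mem _ := A.one_mem
  e_idem _ := mul_one _
  c σ τ := dw σ.1 σ.2 τ
  c_mem σ τ := by
    have := dw_mem (V := V) σ.1 σ.2 τ
    rwa [show (sz σ.1 : ℤ) - 1 - sz τ.1 = sz σ.1 - sz τ.1 - 1 by ring] at this
  c_left _ _ := one_mul _
  c_right _ _ := mul_one _
  mc σ τ := by
    have h1 : (dw σ.1 σ.2 : P A V).support ⊆ FF (sz σ.1) := by
      intro w hw
      rw [mem_FF]
      by_contra h
      exact (Finsupp.mem_support_iff.1 hw) (neg (dw_mem (V := V) σ.1 σ.2 w) (by omega))
    rw [← dP_apply h1, dP_dw dpos]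
    rfl
  v := vv
  v_e _ := one_smul _ _
  v_zero σ h := by
    obtain ⟨l, i⟩ := σ
    cases l with
    | nil => exact absurd rfl h
    | cons j l => rfl
  v_aug σ h := by
    have h1 : (dw σ.1 σ.2 : P A V).support ⊆ FF 0 := by
      intro w hw
      rw [mem_FF]
      by_contra h'
      exact (Finsupp.mem_support_iff.1 hw) (neg (dw_mem (V := V) σ.1 σ.2 w) (by omega))
    rw [← ep_apply h1]
    exact ep_dw_one _ h
  exR m x hx _ hc := by
    obtain ⟨X, hX, hXx⟩ := exists_P (m := m + 1) x (fun σ => by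
      have := hx σ
      rwa [show ((m + 1 : ℕ) : ℤ) - sz σ.1 = (m : ℤ) + 1 - sz σ.1 by push_cast; ring])
    have hd : dP X = 0 := by
      ext τ
      rw [dP_apply (supp_PH hX), hXx]
      simp only [hXx]
      exact hc τ
    have hh := homotopy hX
    rw [hd, map_zero, add_zero, if_neg (by omega), add_zero] at hh
    have hy := hP_mem hX
    have hy' : hP ((m + 1 : ℕ) : ℤ) X ∈ PH (V := V) ((m + 2 : ℕ) : ℤ) := by
      rwa [show ((m + 2 : ℕ) : ℤ) = ((m + 1 : ℕ) : ℤ) + 1 by push_cast; ring]
    refine ⟨fun σ => hP ((m + 1 : ℕ) : ℤ) X σ, fun σ => ?_, fun _ => mul_one _, fun τ => ?_⟩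
    · have := hy' σ
      rwa [show ((m + 2 : ℕ) : ℤ) - (sz σ.1 : ℤ) = (m : ℤ) + 2 - sz σ.1 by push_cast; ring] at this
    · rw [← dP_apply (supp_PH hy'), hh, hXx]
  exR0 x hx _ hc := by
    obtain ⟨X, hX, hXx⟩ := exists_P (m := 0) x (fun σ => by
      have := hx σ
      rwa [show ((0 : ℕ) : ℤ) - sz σ.1 = -(sz σ.1 : ℤ) by push_cast; ring])
    have hd : dP X = 0 := by
      have h1 := dP_mem hX
      ext τ
      exact neg (h1 τ) (by push_cast; omega)
    have he : ep X = 0 := by
      rw [ep_apply (supp_PH hX)]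
      simp only [hXx]
      exact hc
    have hh := homotopy hX
    rw [hd, map_zero, add_zero, he, map_zero, ite_self, add_zero] at hh
    have hy := hP_mem hX
    have hy' : hP ((0 : ℕ) : ℤ) X ∈ PH (V := V) ((1 : ℕ) : ℤ) := by
      rwa [show ((1 : ℕ) : ℤ) = ((0 : ℕ) : ℤ) + 1 by norm_num]
    refine ⟨fun σ => hP ((0 : ℕ) : ℤ) X σ, fun σ => hy' σ, fun _ => mul_one _, fun τ => ?_⟩
    rw [← dP_apply (supp_PH hy'), hh, hXx]
  gen w := by
    have h0 := hm_mem (A := A) w
    refine ⟨fun σ => (hm w : P A V) σ, fun σ => ?_, ?_⟩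
    · have := h0 σ
      rwa [zero_sub] at this
    · rw [← ep_apply (supp_PH (m := 0) h0), ep_hm]

end Bar390

end Crest.Agent.R186.Hat827
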