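import Crest.Agent.R186.Cells1_221

/-!
Row 186 (A), leaf C2b (helper362): the sixteen cells resolve `V_{-1}` over `R''/(R'' W_+)`.

`J π = R'' W_+` (two-sided, `D`-stable), `pz π P A C` = pieces with integer degrees,
`cc` = the table of the sixteen cells, `dX` = the differential, `exR_mod`, `exR0_mod`, `gen_mod`.
-/

set_option autoImplicit false

noncomputable section

namespace Crest.Agent.R186.C2b362

open Crest.Agent.R186.DefsQ830 Crest.Agent.R186.Cells221
open Crest.Agent.R186.PBW128 (E Y Wb N Ix bv ev Psi nf opR divR divN chiq wtr wkr nf_mul_Y Psi_ev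
  ev_Psi Psi_bv dPx dAx dCx ext_bv mem_pc_iff chiq_ne)
open Crest.Agent.R186.Der580 (D D_mul D_X D_D D_pc D_pc0 pc_mul R_ind add_self)

variable {K : Type} [Field K] (π : Par K)

/-! ### pieces with integer degrees -/

/-- coordinates of degree `(P, A, C)` -/
def NZ (K : Type) [Field K] (P A C : ℤ) : Submodule K (N K) :=
  Finsupp.supported K K {ν : Ix | dPx ν = P ∧ (dAx ν : ℤ) = A ∧ (dCx ν : ℤ) = C}

/-- pieces with integer degrees (zero for `A < 0` or `C < 0`) -/
def pz (P A C : ℤ) : Submodule K (R π) := (NZ K P A C).comap (ev π)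

variable {π}

theorem mem_NZ {P A C : ℤ} {n : N K} :
    n ∈ NZ K P A C ↔ ∀ ν, n ν ≠ 0 → dPx ν = P ∧ (dAx ν : ℤ) = A ∧ (dCx ν : ℤ) = C := by
  rw [NZ, Finsupp.mem_supported]
  constructor
  · intro h ν hν
    exact h (Finsupp.mem_support_iff.mpr hν)
  · intro h ν hν
    exact h ν (Finsupp.mem_support_iff.mp hν)

theorem mem_pz {P A C : ℤ} {r : R π} :
    r ∈ pz π P A C ↔ ∀ ν, ev π r ν ≠ 0 → dPx ν = P ∧ (dAx ν : ℤ) = A ∧ (dCx ν : ℤ) = C :=
  mem_NZ

theorem mem_pz_nat {P : ℤ} {A C : ℕ} {r : R π} : r ∈ pz π P A C ↔ r ∈ pc π P A C := by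
  rw [mem_pz, mem_pc_iff, PBW128.mem_NS_iff]
  constructor
  · intro h ν hν
    obtain ⟨h1, h2, h3⟩ := h ν hν
    exact ⟨h1, by exact_mod_cast h2, by exact_mod_cast h3⟩
  · intro h ν hν
    obtain ⟨h1, h2, h3⟩ := h ν hν
    exact ⟨h1, by exact_mod_cast h2, by exact_mod_cast h3⟩

theorem pz_neg {P A C : ℤ} (h : A < 0 ∨ C < 0) {r : R π} (hr : r ∈ pz π P A C) : r = 0 := by
  have : ev π r = 0 := by
    ext ν
    by_contra hν
    obtain ⟨-, h2, h3⟩ := mem_pz.mp hr ν hν
    omega
  rw [← Psi_ev π r, this, map_zero]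

/-- `pz` in terms of the pieces of `DefsQ_830` -/
theorem pz_eq (P A C : ℤ) : pz π P A C = if 0 ≤ A ∧ 0 ≤ C then pc π P A.toNat C.toNat else ⊥ := by
  split_ifs with h
  · obtain ⟨a, rfl⟩ := Int.eq_ofNat_of_zero_le h.1
    obtain ⟨c, rfl⟩ := Int.eq_ofNat_of_zero_le h.2
    ext r
    exact mem_pz_nat
  · rw [eq_bot_iff]
    intro r hr
    exact pz_neg (by omega) hr

theorem D_pz {P A C : ℤ} {r : R π} (hr : r ∈ pz π P A C) : D π r ∈ pz π P A (C - 1) := by
  by_cases hA : A < 0
  · rw [pz_neg (Or.inl hA) hr, map_zero]; exact Submodule.zero_mem _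
  by_cases hC : C < 0
  · rw [pz_neg (Or.inr hC) hr, map_zero]; exact Submodule.zero_mem _
  obtain ⟨a, rfl⟩ := Int.eq_ofNat_of_zero_le (not_lt.mp hA)
  obtain ⟨c, rfl⟩ := Int.eq_ofNat_of_zero_le (not_lt.mp hC)
  rw [mem_pz_nat] at hr
  cases c with
  | zero => rw [D_pc0 π hr]; exact Submodule.zero_mem _
  | succ c =>
    have := D_pc π hr
    rw [show ((c + 1 : ℕ) : ℤ) - 1 = (c : ℤ) by push_cast; ring]
    exact mem_pz_nat.mpr this

theorem mul_pz {P A C P' A' C' : ℤ} {r s : R π} (hr : r ∈ pz π P A C) (hs : s ∈ pz π P' A' C') :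
    r * s ∈ pz π (P + P') (A + A') (C + C') := by
  by_cases h1 : A < 0 ∨ C < 0
  · rw [pz_neg h1 hr, zero_mul]; exact Submodule.zero_mem _
  by_cases h2 : A' < 0 ∨ C' < 0
  · rw [pz_neg h2 hs, mul_zero]; exact Submodule.zero_mem _
  push Not at h1 h2
  obtain ⟨a, rfl⟩ := Int.eq_ofNat_of_zero_le h1.1
  obtain ⟨c, rfl⟩ := Int.eq_ofNat_of_zero_le h1.2
  obtain ⟨a', rfl⟩ := Int.eq_ofNat_of_zero_le h2.1
  obtain ⟨c', rfl⟩ := Int.eq_ofNat_of_zero_le h2.2
  rw [mem_pz_nat] at hr hs
  have := pc_mul π hr hs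
  rw [show ((a : ℤ) + a') = ((a + a' : ℕ) : ℤ) by push_cast; ring,
    show ((c : ℤ) + c') = ((c + c' : ℕ) : ℤ) by push_cast; ring]
  exact mem_pz_nat.mpr this

theorem pz_cast {P A C P' A' C' : ℤ} {r : R π} (hr : r ∈ pz π P A C) (h1 : P = P') (h2 : A = A')
    (h3 : C = C') : r ∈ pz π P' A' C' := by
  subst h1 h2 h3; exact hr

/-! ### the ideal `J = R'' W_+` -/

/-- coordinates with nontrivial `W`-part -/
def NJ (K : Type) [Field K] : Submodule K (N K) :=
  Finsupp.supported K K {ν : Ix | ν.2.2.2.2 ≠ Wb.one}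

variable (π) in
/-- the ideal generated by the `W`-letters -/
def J : Submodule K (R π) := (NJ K).comap (ev π)

theorem mem_J {r : R π} : r ∈ J π ↔ ∀ ν : Ix, ν.2.2.2.2 = Wb.one → ev π r ν = 0 := by
  show ev π r ∈ NJ K ↔ _
  rw [NJ, Finsupp.mem_supported]
  constructor
  · intro h ν hν
    by_contra h2
    exact h (Finsupp.mem_support_iff.mpr h2) hν
  · intro h ν hν h2
    exact (Finsupp.mem_support_iff.mp hν) (h ν h2)

theorem mul_Y_mem_J (r : R π) (a : Y) : r * X π a.toGen ∈ J π := by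
  rw [← Psi_ev π r]
  induction ev π r using Finsupp.induction_linear with
  | zero => rw [map_zero, zero_mul]; exact Submodule.zero_mem _
  | add n m hn hm => rw [map_add, add_mul]; exact Submodule.add_mem _ hn hm
  | single ν c =>
    obtain ⟨i, j, k, w, q⟩ := ν
    have e : (Finsupp.single (i, j, k, w, q) c : N K) = c • bv K i j k w q := by simp [bv]
    rw [e, map_smul, Psi_bv, smul_mul_assoc, nf_mul_Y]
    refine Submodule.smul_mem _ _ (Submodule.smul_mem _ _ ?_)
    have hq : wtr q a ≠ Wb.one := by cases q <;> cases a <;> simp [wtr]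
    show ev π (nf π (i, j, k, w, wtr q a)) ∈ NJ K
    rw [← Psi_bv, ev_Psi]
    exact Finsupp.single_mem_supported K _ hq

theorem mem_J_iff {r : R π} : r ∈ J π ↔ ∃ a b : Fin 2 → R π,
    r = ∑ s, a s * X π (.y s) + ∑ s, b s * X π (.yb s) := by
  constructor
  · intro hr
    have key : NJ K ≤ Submodule.map (LinearMap.id) (Submodule.comap (Psi π) (
        { carrier := {r | ∃ a b : Fin 2 → R π, r = ∑ s, a s * X π (.y s) + ∑ s, b s * X π (.yb s)}
          zero_mem' := ⟨0, 0, by simp⟩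
          add_mem' := by
            rintro _ _ ⟨a, b, rfl⟩ ⟨a', b', rfl⟩
            refine ⟨a + a', b + b', ?_⟩
            simp only [Pi.add_apply, add_mul, Finset.sum_add_distrib]
            abel
          smul_mem' := by
            rintro c _ ⟨a, b, rfl⟩
            refine ⟨c • a, c • b, ?_⟩
            simp only [Pi.smul_apply, smul_mul_assoc, smul_add, Finset.smul_sum] } :
          Submodule K (R π))) := by
      rw [NJ, Finsupp.supported_eq_span_single, Submodule.span_le]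
      rintro _ ⟨⟨i, j, k, w, q⟩, hq, rfl⟩
      rw [Submodule.map_id]
      show ∃ a b : Fin 2 → R π, Psi π (bv K i j k w q) = _
      rw [Psi_bv]
      cases q with
      | one => exact absurd rfl hq
      | y s =>
        refine ⟨fun s' => if s' = s then nf π (i, j, k, w, .one) else 0, 0, ?_⟩
        simp [nf, PBW128.wq_y, PBW128.wq_one]
      | yb s =>
        refine ⟨0, fun s' => if s' = s then nf π (i, j, k, w, .one) else 0, ?_⟩
        simp [nf, PBW128.wq_yb, PBW128.wq_one]
      | pi =>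
        refine ⟨fun s' => if s' = 1 then nf π (i, j, k, w, .y 0) else 0, 0, ?_⟩
        simp [nf, PBW128.wq_y, PBW128.wq_pi, mul_assoc]
    have h := key hr
    rw [Submodule.map_id] at h
    have h2 : ∃ a b : Fin 2 → R π, Psi π (ev π r) = ∑ s, a s * X π (.y s) + ∑ s, b s * X π (.yb s) := h
    rwa [Psi_ev] at h2
  · rintro ⟨a, b, rfl⟩
    exact Submodule.add_mem _ (Submodule.sum_mem _ fun s _ => mul_Y_mem_J (a s) (.y s))
      (Submodule.sum_mem _ fun s _ => mul_Y_mem_J (b s) (.yb s))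

theorem left_J (r : R π) {s : R π} (hs : s ∈ J π) : r * s ∈ J π := by
  rw [mem_J_iff] at hs ⊢
  obtain ⟨a, b, rfl⟩ := hs
  refine ⟨fun s => r * a s, fun s => r * b s, ?_⟩
  simp only [mul_add, Finset.mul_sum, mul_assoc]

theorem Y_mul_gen (r : R π) (a : Y) (g : Gen) : r * X π a.toGen * X π g ∈ J π := by
  have hE : ∀ l : E, r * X π a.toGen * X π l.toGen ∈ J π := by
    intro l
    rw [mul_assoc, PBW128.rYE, mul_smul_comm, ← mul_assoc]
    exact Submodule.smul_mem _ _ (mul_Y_mem_J _ a)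
  cases g with
  | x i =>
    rw [mul_assoc, PBW128.rY, mul_smul_comm, ← mul_assoc]
    exact Submodule.smul_mem _ _ (mul_Y_mem_J _ a)
  | h =>
    rw [mul_assoc, ← PBW128.rh, ← mul_assoc]
    exact mul_Y_mem_J _ a
  | d j => exact hE (.d j)
  | f => exact hE .f
  | z j => exact hE (.z j)
  | zc => exact hE .zc
  | u s => exact hE (.u s)
  | e j => exact hE (.e j)
  | gj j => exact hE (.gj j)
  | gc => exact hE .gc
  | v s => exact hE (.v s)
  | y s => exact mul_Y_mem_J _ (.y s)
  | yb s => exact mul_Y_mem_J _ (.yb s)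

theorem right_J_gen {s : R π} (hs : s ∈ J π) (g : Gen) : s * X π g ∈ J π := by
  rw [mem_J_iff] at hs
  obtain ⟨a, b, rfl⟩ := hs
  rw [add_mul, Finset.sum_mul, Finset.sum_mul]
  exact Submodule.add_mem _ (Submodule.sum_mem _ fun s _ => Y_mul_gen (a s) (.y s) g)
    (Submodule.sum_mem _ fun s _ => Y_mul_gen (b s) (.yb s) g)

theorem right_J {s : R π} (hs : s ∈ J π) (r : R π) : s * r ∈ J π := by
  have : ∀ s ∈ J π, s * r ∈ J π := by
    apply R_ind π (P := fun r => ∀ s ∈ J π, s * r ∈ J π)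
    · intro c s hs
      rw [← Algebra.commutes, ← Algebra.smul_def]
      exact Submodule.smul_mem _ _ hs
    · intro g s hs
      exact right_J_gen hs g
    · intro a b ha hb s hs
      rw [← mul_assoc]
      exact hb _ (ha _ hs)
    · intro a b ha hb s hs
      rw [mul_add]
      exact Submodule.add_mem _ (ha _ hs) (hb _ hs)
  exact this s hs

theorem D_Y (a : Y) : D π (X π a.toGen) = 0 := by
  rw [D_X]
  cases a <;> simp [Y.toGen, dGen]

theorem D_J {s : R π} (hs : s ∈ J π) : D π s ∈ J π := by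
  rw [mem_J_iff] at hs
  obtain ⟨a, b, rfl⟩ := hs
  rw [map_add, map_sum, map_sum]
  refine Submodule.add_mem _ (Submodule.sum_mem _ fun s _ => ?_) (Submodule.sum_mem _ fun s _ => ?_)
  · rw [D_mul, show D π (X π (.y s)) = 0 from D_Y (.y s), mul_zero, add_zero]
    exact mul_Y_mem_J _ (.y s)
  · rw [D_mul, show D π (X π (.yb s)) = 0 from D_Y (.yb s), mul_zero, add_zero]
    exact mul_Y_mem_J _ (.yb s)

/-! ### the table of the sixteen cells -/

variable (π) in
/-- the table: `d e_l = X l · e_none + Σ cf l l' e_l'` -/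
def cc : Cell → Cell → R π
  | none, _ => 0
  | some l, none => X π l.toGen
  | some l, some l' => cf π l l'

theorem hR_y_mem (s : Fin 2) (a : Y) : hR π s * X π a.toGen ∈ J π := mul_Y_mem_J _ a

theorem yp_mem_J (l : E) : yp π l ∈ J π := by
  cases l with
  | u s => exact mul_Y_mem_J _ (.y s)
  | v s => exact mul_Y_mem_J _ (.yb s)
  | _ => exact Submodule.zero_mem _

theorem yc_mem_J (l l' : E) : yc π l l' ∈ J π := by
  cases l with
  | gc =>
    cases l' with
    | u i =>
      simp only [yc]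
      split_ifs
      · exact mul_Y_mem_J _ (.y 1)
      · exact Submodule.smul_mem _ _ (mul_Y_mem_J _ (.y 0))
    | _ => exact Submodule.zero_mem _
  | v s =>
    cases l' with
    | d i =>
      simp only [yc]
      split_ifs
      · exact Submodule.smul_mem _ _ (right_J (mul_Y_mem_J _ (.y s)) _)
      · exact Submodule.smul_mem _ _ (right_J (mul_Y_mem_J _ (.y s)) _)
    | _ => exact Submodule.zero_mem _
  | _ => exact Submodule.zero_mem _

/-- Maurer-Cartan modulo `J` -/
theorem cc_mc (σ τ : Cell) : D π (cc π σ τ) + ∑ ρ, cc π σ ρ * cc π ρ τ ∈ J π := by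
  cases σ with
  | none => simp only [cc, map_zero, zero_mul, Finset.sum_const_zero, add_zero]; exact Submodule.zero_mem _
  | some l =>
    rw [Fintype.sum_option]
    cases τ with
    | none =>
      simp only [cc, mul_zero, zero_add]
      rw [D_E, add_right_comm, add_self, zero_add]
      exact yp_mem_J l
    | some l' =>
      simp only [cc, mul_zero, zero_add]
      rw [cf_cf]
      exact yc_mem_J l l'

variable (π) in
/-- the differential of the free module on the sixteen cells -/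
def dX : (Cell → R π) →ₗ[K] (Cell → R π) :=
  LinearMap.pi fun τ => (D π) ∘ₗ (LinearMap.proj τ) +
    ∑ σ, (LinearMap.mulRight K (cc π σ τ)) ∘ₗ (LinearMap.proj σ)

theorem dX_apply (x : Cell → R π) (τ : Cell) : dX π x τ = D π (x τ) + ∑ σ, x σ * cc π σ τ := by
  simp [dX]

theorem dX_none (x : Cell → R π) : dX π x none = D π (x none) + ∑ l : E, x (some l) * X π l.toGen := by
  rw [dX_apply, Fintype.sum_option]
  simp [cc]

theorem dX_dX (x : Cell → R π) (τ : Cell) : dX π (dX π x) τ ∈ J π := by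
  have e : dX π (dX π x) τ = ∑ ρ, x ρ * (D π (cc π ρ τ) + ∑ σ, cc π ρ σ * cc π σ τ) := by
    rw [dX_apply, dX_apply, map_add, D_D, zero_add, map_sum]
    simp only [D_mul, dX_apply, add_mul, Finset.sum_add_distrib, mul_add, Finset.sum_mul,
      Finset.mul_sum]
    have h1 : ∑ σ, ∑ ρ, x ρ * cc π ρ σ * cc π σ τ = ∑ ρ, ∑ σ, x ρ * (cc π ρ σ * cc π σ τ) := by
      rw [Finset.sum_comm]
      simp only [mul_assoc]
    rw [h1]
    have h2 := add_self π (∑ σ, D π (x σ) * cc π σ τ)
    rw [add_comm (∑ σ, D π (x σ) * cc π σ τ) (∑ σ, x σ * D π (cc π σ τ)), add_assoc,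
      ← add_assoc (∑ σ, D π (x σ) * cc π σ τ), h2, zero_add]
  rw [e]
  exact Submodule.sum_mem _ fun ρ _ => left_J _ (cc_mc ρ τ)

/-! ### the last letter -/

theorem divN_apply (n : N K) (ν : Ix) : divN K n ν = if ν.2.2.2.1 = [] then n ν else 0 := by
  induction n using Finsupp.induction_linear with
  | zero => simp
  | add n m hn hm =>
    rw [map_add, Finsupp.add_apply, hn, hm, Finsupp.add_apply]
    split_ifs <;> simp
  | single μ c =>
    obtain ⟨i, j, k, w, q⟩ := μ
    by_cases hw : w = []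
    · subst hw
      have : divN K (Finsupp.single (i, j, k, [], q) c) = Finsupp.single (i, j, k, [], q) c := by
        simp [divN, bv]
      rw [this]
      split_ifs with h
      · rfl
      · rw [Finsupp.single_apply, if_neg]
        rintro rfl
        exact h rfl
    · have : divN K (Finsupp.single (i, j, k, w, q) c) = 0 := by
        simp [divN, hw]
      rw [this]
      split_ifs with h
      · rw [Finsupp.single_apply, if_neg]
        · rfl
        · rintro rfl
          exact hw h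
      · rfl

theorem divR_NZ (l : E) {P A C : ℤ} {n : N K} (hn : n ∈ NZ K P A C) :
    divR π l n ∈ NZ K (P - l.toGen.dP) (A - l.toGen.dA) (C - l.toGen.dC) := by
  have : NZ K P A C ≤ (NZ K (P - l.toGen.dP) (A - l.toGen.dA) (C - l.toGen.dC)).comap (divR π l) := by
    rw [NZ, Finsupp.supported_eq_span_single, Submodule.span_le]
    rintro _ ⟨⟨i, j, k, w, q⟩, ⟨h1, h2, h3⟩, rfl⟩
    show divR π l (Finsupp.single (i, j, k, w, q) 1) ∈ NZ K (P - l.toGen.dP) (A - l.toGen.dA) (C - l.toGen.dC)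
    by_cases hl : w.getLast? = some l
    · obtain ⟨w', rfl⟩ : ∃ w', w = w' ++ [l] := by
        rw [List.getLast?_eq_some_iff] at hl
        exact hl
      have e : divR π l (Finsupp.single (i, j, k, w' ++ [l], q) 1) =
          (chiq π q l)⁻¹ • bv K i j k w' q := by
        simp [divR]
      rw [e]
      refine Submodule.smul_mem _ _ (Finsupp.single_mem_supported K _ ⟨?_, ?_, ?_⟩)
      · rw [← h1]; simp [dPx]; ring
      · rw [← h2]; simp [dAx]; ring
      · rw [← h3]; simp [dCx]; ring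
    · have e : divR π l (Finsupp.single (i, j, k, w, q) 1) = 0 := by
        simp [divR, hl]
      rw [e]
      exact Submodule.zero_mem _
  exact this hn

variable (π) in
/-- the coefficient of the last letter `l` -/
def sl (l : E) (r : R π) : R π := Psi π (divR π l (ev π r))

variable (π) in
/-- the part without letters -/
def s0 (r : R π) : R π := Psi π (divN K (ev π r))

theorem split (r : R π) : r = s0 π r + ∑ l, sl π l r * X π l.toGen := by
  conv_lhs => rw [← Psi_ev π r, PBW128.decomp π (ev π r), map_add, map_sum]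
  simp only [PBW128.Psi_R]
  rfl

theorem sl_mem (l : E) {P A C : ℤ} {r : R π} (hr : r ∈ pz π P A C) :
    sl π l r ∈ pz π (P - l.toGen.dP) (A - l.toGen.dA) (C - l.toGen.dC) := by
  show ev π (Psi π (divR π l (ev π r))) ∈ NZ K (P - l.toGen.dP) (A - l.toGen.dA) (C - l.toGen.dC)
  rw [ev_Psi]
  exact divR_NZ l hr

theorem ev_s0 (r : R π) (ν : Ix) : ev π (s0 π r) ν = if ν.2.2.2.1 = [] then ev π r ν else 0 := by
  rw [s0, ev_Psi, divN_apply]

theorem s0_mem {P A C : ℤ} {r : R π} (hr : r ∈ pz π P A C) : s0 π r ∈ pz π P A C := by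
  rw [mem_pz] at hr ⊢
  intro ν hν
  rw [ev_s0] at hν
  split_ifs at hν with h
  · exact hr ν hν
  · exact absurd rfl hν

theorem s0_mem_J {P A C : ℤ} (hC : 0 < C) {r : R π} (hr : r ∈ pz π P A C) : s0 π r ∈ J π := by
  rw [mem_J]
  intro ν hν
  rw [ev_s0]
  split_ifs with h
  · by_contra h2
    obtain ⟨-, -, h3⟩ := mem_pz.mp hr ν h2
    have : dCx ν = 0 := by
      simp [dCx, h, hν, Wb.word, wC]
    omega
  · rfl

/-- uniqueness of the last-letter coefficients modulo `J` -/
theorem sum_mul_X_J (r : E → R π) (h : ∑ l, r l * X π l.toGen ∈ J π) (l : E) : r l ∈ J π := by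
  rw [mem_J] at h ⊢
  rintro ⟨i, j, k, w, q⟩ hq
  have hq' : q = Wb.one := hq
  subst hq'
  have h4 := h (i, j, k, w ++ [l], Wb.one) rfl
  rw [map_sum, Finsupp.finsetSum_apply] at h4
  simp only [PBW128.ev_mul_X, PBW128.opR_apply_append, Finset.sum_ite_eq', Finset.mem_univ, if_true,
    mul_eq_zero] at h4
  rcases h4 with h4 | h4
  · exact absurd h4 (chiq_ne π _ l)
  · exact h4

/-! ### exactness -/

/-- Adams degree of a cell -/
def cA : Cell → ℤ
  | none => 0
  | some l => l.toGen.dA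

theorem cdeg_some (l : E) : (cdeg (some l) : ℤ) = l.toGen.dC + 1 := by
  cases l <;> simp [cdeg, E.toGen, Gen.dC] <;> ring

theorem cP_some (l : E) : cP (some l) = l.toGen.dP := by
  cases l <;> rfl

/-- the common part of `exR_mod` and `exR0_mod` -/
theorem exR_core {P A C : ℤ} (x : Cell → R π)
    (hx : ∀ σ, x σ ∈ pz π (P - cP σ) (A - cA σ) (C - cdeg σ))
    (h : ∀ τ, D π (x τ) + ∑ σ, x σ * cc π σ τ ∈ J π) (h0 : s0 π (x none) ∈ J π) :
    ∃ y : Cell → R π, y none = 0 ∧ (∀ σ, y σ ∈ pz π (P - cP σ) (A - cA σ) (C + 1 - cdeg σ)) ∧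
      ∀ τ, x τ - (D π (y τ) + ∑ σ, y σ * cc π σ τ) ∈ J π := by
  set y : Cell → R π := fun σ => match σ with
    | none => 0
    | some l => sl π l (x none) with hy
  have hy0 : y none = 0 := rfl
  have hyl : ∀ l, y (some l) = sl π l (x none) := fun _ => rfl
  refine ⟨y, hy0, ?_, ?_⟩
  · intro σ
    cases σ with
    | none => rw [hy0]; exact Submodule.zero_mem _
    | some l =>
      have h1 := sl_mem l (hx none)
      refine pz_cast h1 ?_ ?_ ?_
      · rw [cP_some]; simp [cP]
      · simp [cA]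
      · rw [cdeg_some]; simp only [cdeg]; push_cast; ring
  · have hxx : ∀ τ, dX π x τ ∈ J π := fun τ => by rw [dX_apply]; exact h τ
    set x' : Cell → R π := x - dX π y with hx'
    have hc : ∀ τ, dX π x' τ ∈ J π := by
      intro τ
      rw [hx', map_sub]
      exact Submodule.sub_mem _ (hxx τ) (dX_dX y τ)
    have h1 : x' none = s0 π (x none) := by
      rw [hx', Pi.sub_apply, dX_none, hy0, map_zero, zero_add]
      simp only [hyl]
      conv_lhs => rw [split (x none)]
      have e := split (x none)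
      rw [← e]
      nth_rewrite 1 [e]
      abel
    have h2 : x' none ∈ J π := by rw [h1]; exact h0
    have h3 : ∑ l : E, x' (some l) * X π l.toGen ∈ J π := by
      have := hc none
      rw [dX_none] at this
      have h4 := Submodule.sub_mem _ this (D_J h2)
      rwa [add_sub_cancel_left] at h4
    have h5 : ∀ τ, x' τ ∈ J π := by
      intro τ
      cases τ with
      | none => exact h2
      | some l => exact sum_mul_X_J (fun l => x' (some l)) h3 l
    intro τ
    have := h5 τ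
    rw [hx', Pi.sub_apply, dX_apply] at this
    exact this

/-- **exactness in positive degrees** -/
theorem exR_mod {P A C : ℤ} (hC : 0 < C) (x : Cell → R π)
    (hx : ∀ σ, x σ ∈ pz π (P - cP σ) (A - cA σ) (C - cdeg σ))
    (h : ∀ τ, D π (x τ) + ∑ σ, x σ * cc π σ τ ∈ J π) :
    ∃ y : Cell → R π, y none = 0 ∧ (∀ σ, y σ ∈ pz π (P - cP σ) (A - cA σ) (C + 1 - cdeg σ)) ∧
      ∀ τ, x τ - (D π (y τ) + ∑ σ, y σ * cc π σ τ) ∈ J π :=
  exR_core x hx h (s0_mem_J (by simpa [cdeg] using hC) (hx none))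

/-! ### the augmentation `R'' → V`, `r ↦ r · 1` -/

open Crest.Agent.R186.VOp220 (Pol mon X0 X1 hom)

variable (π) in
/-- `r ↦ r · 1` in `Pol K` -/
def aug : R π →ₗ[K] Pol K :=
  (LinearMap.applyₗ (R := K) (M₂ := Pol K) (mon K 0 0)).comp (Vmod220.rep π).toLinearMap

theorem aug_apply (r : R π) : aug π r = Vmod220.rep π r (mon K 0 0) := rfl

theorem rep_Y0 (a : Y) : Vmod220.rep π (X π a.toGen) = 0 := by
  cases a with
  | y s => exact Vmod220.rep_isZ π rfl
  | yb s => exact Vmod220.rep_isZ π rfl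

theorem rep_E1 (l : E) : Vmod220.rep π (X π l.toGen) (mon K 0 0) = 0 := by
  cases l with
  | d j =>
    rcases f2 j with rfl | rfl
    · show Vmod220.rep π (X π (.d 0)) (mon K 0 0) = 0
      rw [Vmod220.rep_d0, Vmod220.E0_mon]
      simp
    · show Vmod220.rep π (X π (.d 1)) (mon K 0 0) = 0
      rw [Vmod220.rep_d1, Vmod220.E1_mon]
      simp
  | f => rw [show Vmod220.rep π (X π (E.f).toGen) = 0 from Vmod220.rep_isZ π rfl]; rfl
  | z j => rw [show Vmod220.rep π (X π (E.z j).toGen) = 0 from Vmod220.rep_isZ π rfl]; rfl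
  | zc => rw [show Vmod220.rep π (X π (E.zc).toGen) = 0 from Vmod220.rep_isZ π rfl]; rfl
  | u j => rw [show Vmod220.rep π (X π (E.u j).toGen) = 0 from Vmod220.rep_isZ π rfl]; rfl
  | e j => rw [show Vmod220.rep π (X π (E.e j).toGen) = 0 from Vmod220.rep_isZ π rfl]; rfl
  | gj j => rw [show Vmod220.rep π (X π (E.gj j).toGen) = 0 from Vmod220.rep_isZ π rfl]; rfl
  | gc => rw [show Vmod220.rep π (X π (E.gc).toGen) = 0 from Vmod220.rep_isZ π rfl]; rfl
  | v j => rw [show Vmod220.rep π (X π (E.v j).toGen) = 0 from Vmod220.rep_isZ π rfl]; rfl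

theorem aug_mul_X (r : R π) (l : E) : aug π (r * X π l.toGen) = 0 := by
  rw [aug_apply, map_mul, Module.End.mul_apply, rep_E1, map_zero]

theorem aug_mul_Y (r : R π) (a : Y) : aug π (r * X π a.toGen) = 0 := by
  rw [aug_apply, map_mul, Module.End.mul_apply, rep_Y0, LinearMap.zero_apply, map_zero]

theorem aug_J {r : R π} (hr : r ∈ J π) : aug π r = 0 := by
  rw [mem_J_iff] at hr
  obtain ⟨a, b, rfl⟩ := hr
  rw [map_add, map_sum, map_sum]
  have h1 : ∀ s, aug π (a s * X π (.y s)) = 0 := fun s => aug_mul_Y (a s) (.y s)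
  have h2 : ∀ s, aug π (b s * X π (.yb s)) = 0 := fun s => aug_mul_Y (b s) (.yb s)
  simp only [h1, h2, Finset.sum_const_zero, add_zero]

theorem X0_pow (i a b : ℕ) : ((X0 : Module.End K (Pol K)) ^ i) (mon K a b) = mon K (a + i) b := by
  induction i with
  | zero => simp
  | succ i ih =>
    rw [pow_succ', Module.End.mul_apply, ih]
    show X0 (mon K (a + i) b) = _
    rw [VOp220.X0_mon]
    rfl

theorem X1_pow (i a b : ℕ) : ((X1 : Module.End K (Pol K)) ^ i) (mon K a b) = mon K a (b + i) := by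
  induction i with
  | zero => simp
  | succ i ih =>
    rw [pow_succ', Module.End.mul_apply, ih]
    show X1 (mon K a (b + i)) = _
    rw [VOp220.X1_mon]
    rfl

theorem aug_nf (i j k : ℕ) (w : List E) (q : Wb) :
    aug π (nf π (i, j, k, w, q)) = if w = [] ∧ q = Wb.one then mon K i j else 0 := by
  cases q with
  | one =>
    rcases List.eq_nil_or_concat w with rfl | ⟨w', l, rfl⟩
    · rw [if_pos ⟨rfl, rfl⟩, aug_apply]
      simp only [nf, PBW128.we_nil, PBW128.wq_one, mul_one, map_mul, map_pow, Vmod220.rep_x0,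
        Vmod220.rep_x1, Vmod220.rep_h, one_pow, Module.End.mul_apply]
      rw [X1_pow, X0_pow]
      simp
    · rw [if_neg (by simp)]
      simp only [nf, PBW128.wq_one, mul_one, List.concat_eq_append, PBW128.we_append,
        PBW128.we_cons, PBW128.we_nil]
      rw [← mul_assoc]
      exact aug_mul_X _ l
  | y s =>
    rw [if_neg (by simp)]
    simp only [nf, PBW128.wq_y]
    exact aug_mul_Y _ (.y s)
  | yb s =>
    rw [if_neg (by simp)]
    simp only [nf, PBW128.wq_yb]
    exact aug_mul_Y _ (.yb s)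
  | pi =>
    rw [if_neg (by simp)]
    simp only [nf, PBW128.wq_pi]
    rw [← mul_assoc]
    exact aug_mul_Y _ (.y 1)

/-- the value of `r · 1` in coordinates -/
theorem aug_val {P C : ℤ} {A : ℕ} {r : R π} (hr : r ∈ pz π P A C) (i j : ℕ) :
    aug π r (i, j) = ev π r (i, j, A, [], Wb.one) := by
  have key : NZ K P A C ≤ LinearMap.ker
      ((Finsupp.lapply (i, j) : Pol K →ₗ[K] K) ∘ₗ (aug π) ∘ₗ (Psi π) -
        (Finsupp.lapply (i, j, A, [], Wb.one) : N K →ₗ[K] K)) := by
    rw [NZ, Finsupp.supported_eq_span_single, Submodule.span_le]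
    rintro _ ⟨⟨i', j', k', w', q'⟩, ⟨h1, h2, h3⟩, rfl⟩
    show aug π (Psi π (bv K i' j' k' w' q')) (i, j) - bv K i' j' k' w' q' (i, j, A, [], Wb.one) = 0
    rw [Psi_bv, aug_nf, PBW128.bv_apply]
    by_cases hw : w' = [] ∧ q' = Wb.one
    · obtain ⟨rfl, rfl⟩ := hw
      have hk : k' = A := by
        have : (k' : ℤ) = A := by simpa [dAx] using h2
        exact_mod_cast this
      subst hk
      rw [if_pos ⟨rfl, rfl⟩, mon, Finsupp.single_apply]
      by_cases h : i' = i ∧ j' = j
      · obtain ⟨rfl, rfl⟩ := h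
        simp
      · rw [if_neg (by simpa [Prod.ext_iff] using h), if_neg (by simpa [Prod.ext_iff] using h), sub_zero]
    · rw [if_neg hw, if_neg]
      · simp
      · intro h5
        exact hw ⟨congrArg (fun ν : Ix => ν.2.2.2.1) h5, congrArg (fun ν : Ix => ν.2.2.2.2) h5⟩
  have h := key hr
  rw [LinearMap.mem_ker, LinearMap.sub_apply, sub_eq_zero, LinearMap.comp_apply,
    LinearMap.comp_apply, Psi_ev] at h
  exact h

theorem s0_mem_J0 {P A : ℤ} {r : R π} (hr : r ∈ pz π P A 0) (h0 : aug π r = 0) : s0 π r ∈ J π := by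
  by_cases hA : A < 0
  · rw [pz_neg (Or.inl hA) hr]
    rw [s0, map_zero, map_zero, map_zero]
    exact Submodule.zero_mem _
  obtain ⟨a, rfl⟩ := Int.eq_ofNat_of_zero_le (not_lt.mp hA)
  rw [mem_J]
  rintro ⟨i, j, k, w, q⟩ hq
  have hq' : q = Wb.one := hq
  subst hq'
  rw [ev_s0]
  split_ifs with h
  · have hw : w = [] := h
    subst hw
    by_contra h2
    obtain ⟨-, h3, -⟩ := mem_pz.mp hr _ h2
    have hk : k = a := by
      have : (k : ℤ) = a := by simpa [dAx] using h3
      exact_mod_cast this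
    subst hk
    apply h2
    rw [← aug_val hr i j, h0]
    rfl
  · rfl

/-- **exactness in degree zero** -/
theorem exR0_mod {P A : ℤ} (x : Cell → R π)
    (hx : ∀ σ, x σ ∈ pz π (P - cP σ) (A - cA σ) (0 - cdeg σ))
    (h : ∀ τ, D π (x τ) + ∑ σ, x σ * cc π σ τ ∈ J π)
    (h0 : Vmod220.rep π (x none) (mon K 0 0) = 0) :
    ∃ y : Cell → R π, y none = 0 ∧ (∀ σ, y σ ∈ pz π (P - cP σ) (A - cA σ) (0 + 1 - cdeg σ)) ∧
      ∀ τ, x τ - (D π (y τ) + ∑ σ, y σ * cc π σ τ) ∈ J π := by
  refine exR_core x hx h (s0_mem_J0 (P := P) (A := A) ?_ h0)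
  have := hx none
  simpa [cdeg, cP, cA] using this

/-- **generation**: every homogeneous element of `Pol K` is `r · 1` -/
theorem gen_mod {P : ℤ} (A : ℕ) {u : Pol K} (hu : u ∈ hom K P) :
    ∃ r ∈ pz π P A 0, Vmod220.rep π r (mon K 0 0) = u := by
  have : hom K P ≤ Submodule.map (aug π) (pz π P A 0) := by
    rw [VOp220.hom_eq_span, Submodule.span_le]
    rintro _ ⟨a, b, hab, rfl⟩
    refine ⟨nf π (a, b, A, [], Wb.one), ?_, ?_⟩
    · show ev π (nf π (a, b, A, [], Wb.one)) ∈ NZ K P A 0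
      rw [← Psi_bv, ev_Psi]
      refine Finsupp.single_mem_supported K _ ⟨?_, ?_, ?_⟩
      · rw [← hab]; simp [dPx]
      · simp [dAx]
      · simp [dCx, Wb.word, wC]
    · rw [aug_nf, if_pos ⟨rfl, rfl⟩]
  obtain ⟨r, hr, h⟩ := this hu
  exact ⟨r, hr, h⟩

end Crest.Agent.R186.C2b362
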