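import Crest.Agent.R186.KOS_296
import Crest.Agent.R186.C2b_362
import Crest.Agent.R186.C2b_44

/-!
Row 186, half (A), leaf KOS (helper296), second part: right Koszul columns of `x` in the integer pieces
`pz` / `pcZ`, on `R''` (`xr_inj`, `xr_kerZ`, `xr_surZ`) and modulo `J = R'' W_+`, that is on
`R' = R''/J` (`jr_inj`, `jr_ker`); `mem_J_iff_kill`, `pcZ_eq_pz`.
-/

set_option autoImplicit false

noncomputable section

namespace Crest.Agent.R186.KOS296

open Crest.Agent.R186.DefsQ830 Crest.Agent.R186.PBW128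
open Crest.Agent.R186.C2b362 (pz J NZ mem_NZ mem_pz mem_pz_nat mem_J pz_neg)
open Crest.Agent.R186.C2b44 (kill kill_mem kill_x kill_kill)

variable {K : Type} [Field K] (π : Par K)

theorem pcZ_eq_pz (P A C : ℤ) : Win810.pcZ π P A C = pz π P A C := by
  rw [C2b362.pz_eq]; rfl

theorem mem_J_iff_kill {r : R π} : r ∈ J π ↔ kill π r = 0 := by
  rw [mem_J, C2b44.kill_eq_zero_iff]

theorem sub_kill_mem_J (r : R π) : r - kill π r ∈ J π := by
  rw [mem_J_iff_kill, map_sub, kill_kill, sub_self]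

theorem kill_pz {P A C : ℤ} {r : R π} (hr : r ∈ pz π P A C) : kill π r ∈ pz π P A C := by
  rw [← pcZ_eq_pz] at hr ⊢
  exact kill_mem π hr

theorem pz_cases {P A C : ℤ} {r : R π} (hr : r ∈ pz π P A C) :
    r = 0 ∨ ∃ A' C' : ℕ, A = A' ∧ C = C' := by
  by_cases h : A < 0 ∨ C < 0
  · exact Or.inl (pz_neg h hr)
  · push Not at h
    exact Or.inr ⟨A.toNat, C.toNat, (Int.toNat_of_nonneg h.1).symm, (Int.toNat_of_nonneg h.2).symm⟩

/-- right multiplication by `x_i` is injective -/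
theorem xr_inj (c : Fin 2) {a : R π} (h : a * X π (.x c) = 0) : a = 0 := K0 π c h

/-- right Koszul, generation -/
theorem xr_surZ {P A C : ℤ} (hP : 1 ≤ P) {r : R π} (hr : r ∈ pz π P A C) :
    ∃ a ∈ pz π (P - 1) A C, ∃ b ∈ pz π (P - 1) A C, r = a * X π (.x 0) + b * X π (.x 1) := by
  rcases pz_cases π hr with rfl | ⟨A', C', rfl, rfl⟩
  · exact ⟨0, Submodule.zero_mem _, 0, Submodule.zero_mem _, by simp⟩
  · obtain ⟨a, ha, b, hb, h⟩ := K1 π hP (mem_pz_nat.1 hr)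
    exact ⟨a, mem_pz_nat.2 ha, b, mem_pz_nat.2 hb, h⟩

theorem mem_of_mul_xZ {P A C : ℤ} (c : Fin 2) {a : R π} (h : a * X π (.x c) ∈ pz π P A C) :
    a ∈ pz π (P - 1) A C := by
  rcases pz_cases π h with h0 | ⟨A', C', rfl, rfl⟩
  · rw [K0 π c h0]; exact Submodule.zero_mem _
  · exact mem_pz_nat.2 (mem_of_mul_x π c (mem_pz_nat.1 h))

/-- right Koszul, kernel (only the degree of `a` is needed) -/
theorem xr_kerZ {P A C : ℤ} {a b : R π} (ha : a ∈ pz π P A C)
    (h : a * X π (.x 1) = b * X π (.x 0)) :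
    ∃ c ∈ pz π (P - 1) A C, a = c * X π (.x 0) ∧ b = c * X π (.x 1) := by
  have h2 : (-b) * X π (.x 0) + a * X π (.x 1) = 0 := by rw [h, ← add_mul, neg_add_cancel, zero_mul]
  obtain ⟨e, e1, e2⟩ := K2' π h2
  refine ⟨e, ?_, e2, neg_injective e1⟩
  rw [e2] at ha
  exact mem_of_mul_xZ π 0 ha

/-- right Koszul, kernel, additive form (all characteristics) -/
theorem xr_kerZ' {P A C : ℤ} {a b : R π} (ha : b ∈ pz π P A C)
    (h : a * X π (.x 0) + b * X π (.x 1) = 0) :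
    ∃ e ∈ pz π (P - 1) A C, a = -(e * X π (.x 1)) ∧ b = e * X π (.x 0) := by
  obtain ⟨e, e1, e2⟩ := K2' π h
  refine ⟨e, ?_, e1, e2⟩
  rw [e2] at ha
  exact mem_of_mul_xZ π 0 ha

/-! ### modulo `J`, i.e. on `R' = R''/(W_+)` -/

theorem jr_inj (c : Fin 2) {r : R π} (h : r * X π (.x c) ∈ J π) : r ∈ J π := by
  rw [mem_J_iff_kill] at h ⊢
  rw [map_mul, kill_x] at h
  exact K0 π c h

/-- **right Koszul modulo `J`** -/
theorem jr_ker {P A C : ℤ} {a b : R π} (ha : a ∈ pz π P A C)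
    (h : a * X π (.x 1) - b * X π (.x 0) ∈ J π) :
    ∃ c ∈ pz π (P - 1) A C, a - c * X π (.x 0) ∈ J π ∧ b - c * X π (.x 1) ∈ J π := by
  rw [mem_J_iff_kill, map_sub, map_mul, map_mul, kill_x, kill_x, sub_eq_zero] at h
  obtain ⟨c, hc, e1, e2⟩ := xr_kerZ π (kill_pz π ha) h
  have hk : kill π c = c := by
    have h3 := congrArg (kill π) e1
    rw [kill_kill, map_mul, kill_x] at h3
    have h4 : (kill π c - c) * X π (.x 0) = 0 := by rw [sub_mul, ← h3, ← e1, sub_self]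
    exact sub_eq_zero.1 (K0 π 0 h4)
  refine ⟨c, hc, ?_, ?_⟩
  · rw [mem_J_iff_kill, map_sub, map_mul, kill_x, hk, e1, sub_self]
  · rw [mem_J_iff_kill, map_sub, map_mul, kill_x, hk, e2, sub_self]

/-- the same for elements of `R'` realised as the range of `kill` -/
theorem kr_ker {P A C : ℤ} {a b : R π} (ha : a ∈ pz π P A C) (hka : kill π a = a)
    (h : a * X π (.x 1) = b * X π (.x 0)) :
    ∃ c ∈ pz π (P - 1) A C, kill π c = c ∧ a = c * X π (.x 0) ∧ b = c * X π (.x 1) := by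
  obtain ⟨c, hc, e1, e2⟩ := xr_kerZ π ha h
  refine ⟨c, hc, ?_, e1, e2⟩
  have h3 := congrArg (kill π) e1
  rw [map_mul, kill_x, hka] at h3
  have h4 : (kill π c - c) * X π (.x 0) = 0 := by rw [sub_mul, ← h3, ← e1, sub_self]
  exact sub_eq_zero.1 (K0 π 0 h4)

theorem kr_sur {P A C : ℤ} (hP : 1 ≤ P) {r : R π} (hr : r ∈ pz π P A C) (hk : kill π r = r) :
    ∃ a ∈ pz π (P - 1) A C, ∃ b ∈ pz π (P - 1) A C, kill π a = a ∧ kill π b = b ∧
      r = a * X π (.x 0) + b * X π (.x 1) := by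
  obtain ⟨a, ha, b, hb, h⟩ := xr_surZ π hP hr
  refine ⟨kill π a, kill_pz π ha, kill π b, kill_pz π hb, kill_kill π a, kill_kill π b, ?_⟩
  have := congrArg (kill π) h
  rwa [hk, map_add, map_mul, map_mul, kill_x, kill_x] at this

end Crest.Agent.R186.KOS296
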