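import Crest.Agent.R186.WL_221
import Crest.Agent.R186.KOSZ_296
import Crest.Agent.R186.KosJ_374

/-!
Row 186, half (A), leaf A.C1 (helper161): Koszul exactness on both sides over `RL π` (entries of the
window of `R'`), signs removed (characteristic two).
-/

set_option autoImplicit false

open scoped MulOpposite

namespace Crest.Agent.R186.KzE161

open Crest.Agent.R186.DefsQ830 Crest.Agent.R186.PBW128 Crest.Agent.R186.KOS296
open Crest.Agent.R186.Win810 Crest.Agent.R186.WL221 Crest.Agent.R186.Kos374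
open Crest.Agent.R186.C2b362 (pz J NZ mem_NZ mem_pz mem_pz_nat mem_J)
open Crest.Agent.R186.C2b44 (kill kill_mem kill_x kill_kill)

variable {K : Type} [Field K] (π : Par K)

/-- the letters `x_j` in `R'` -/
noncomputable def xL (j : Fin 2) : RL π := prL π (X π (.x j))

theorem xL_val (j : Fin 2) : (xL π j).1 = X π (.x j) := kill_x π j

theorem kill_val (r : RL π) : kill π r.1 = r.1 := r.2

theorem neg_R (r : R π) : -r = r := neg_eq_of_add_eq_zero_left (Der580.add_self π r)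

theorem two_L (r : RL π) : r + r = 0 := Subtype.ext (Der580.add_self π r.1)

theorem pcL_pz {P A C : ℤ} {r : RL π} : r ∈ pcL π P A C ↔ r.1 ∈ pz π P A C := by
  rw [mem_pcL, pcZ_eq_pz]

theorem xL_mem (j : Fin 2) : xL π j ∈ pcL π 1 0 0 := by
  rw [pcL_pz, xL_val]
  exact mem_pz_nat.2 (X_mem_pc π (.x j))

theorem comm_x : xL π 0 * xL π 1 = xL π 1 * xL π 0 := Subtype.ext (by
  rw [MulMemClass.coe_mul, MulMemClass.coe_mul, xL_val, xL_val, rxx])

theorem comm_x' : xL π 1 * xL π 0 + xL π 0 * xL π 1 = 0 := by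
  rw [comm_x, two_L]

theorem rI_x (j : Fin 2) {z : RL π} (h : z * xL π j = 0) : z = 0 := by
  apply Subtype.ext
  have h1 := congrArg Subtype.val h
  rw [MulMemClass.coe_mul, xL_val] at h1
  exact xr_inj π j h1

theorem rE_x {P A C : ℤ} {u0 u1 : RL π} (h1 : u1 ∈ pcL π P A C)
    (h : u0 * xL π 0 + u1 * xL π 1 = 0) :
    ∃ z ∈ pcL π (P - 1) A C, u0 = z * xL π 1 ∧ u1 = z * xL π 0 := by
  have h2 : u1.1 * X π (.x 1) = u0.1 * X π (.x 0) := by
    have := congrArg Subtype.val h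
    rw [AddMemClass.coe_add, MulMemClass.coe_mul, MulMemClass.coe_mul, xL_val, xL_val] at this
    have h3 : u0.1 * X π (.x 0) = -(u1.1 * X π (.x 1)) := eq_neg_of_add_eq_zero_left this
    rw [h3, neg_R]
  obtain ⟨c, hc, hk, e1, e2⟩ := kr_ker π ((pcL_pz π).1 h1) (kill_val π u1) h2
  refine ⟨⟨c, hk⟩, (pcL_pz π).2 hc, Subtype.ext ?_, Subtype.ext ?_⟩
  · rw [MulMemClass.coe_mul, xL_val]
    exact e2
  · rw [MulMemClass.coe_mul, xL_val]
    exact e1

theorem rS_x {P A C : ℤ} (hP : 1 ≤ P) {x : RL π} (hx : x ∈ pcL π P A C) :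
    ∃ u0 ∈ pcL π (P - 1) A C, ∃ u1 ∈ pcL π (P - 1) A C, x = u0 * xL π 0 + u1 * xL π 1 := by
  obtain ⟨a, ha, b, hb, ka, kb, h⟩ := kr_sur π hP ((pcL_pz π).1 hx) (kill_val π x)
  refine ⟨⟨a, ka⟩, (pcL_pz π).2 ha, ⟨b, kb⟩, (pcL_pz π).2 hb, Subtype.ext ?_⟩
  rw [AddMemClass.coe_add, MulMemClass.coe_mul, MulMemClass.coe_mul, xL_val, xL_val]
  exact h

theorem x_inj (j : Fin 2) {c : R π} (h : X π (.x j) * c = 0) : c = 0 := by
  have h0 : ∀ c : R π, X π (.x j) * c = 0 → ev π c = 0 := by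
    intro c h
    have h1 := congrArg (ev π) h
    rcases fin2 j with rfl | rfl
    · rw [ev_x0, map_zero] at h1
      exact opX0_inj h1
    · rw [ev_x1, map_zero] at h1
      exact opX1_inj h1
  have h1 := h0 c h
  have h2 := Psi_ev π c
  rw [h1, map_zero] at h2
  exact h2.symm

theorem lI_x (j : Fin 2) {r : RL π} (h : xL π j * r = 0) : r = 0 := by
  apply Subtype.ext
  have h1 := congrArg Subtype.val h
  rw [MulMemClass.coe_mul, xL_val] at h1
  exact x_inj π j h1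

theorem lE_x {P A C : ℤ} {w0 w1 : RL π} (h0 : w0 ∈ pcL π P A C)
    (h : xL π 1 * w0 + xL π 0 * w1 = 0) :
    ∃ r ∈ pcL π (P - 1) A C, w0 = xL π 0 * r ∧ w1 = xL π 1 * r := by
  have h2 : X π (.x 1) * w0.1 = X π (.x 0) * w1.1 := by
    have := congrArg Subtype.val h
    rw [AddMemClass.coe_add, MulMemClass.coe_mul, MulMemClass.coe_mul, xL_val, xL_val] at this
    rw [eq_neg_of_add_eq_zero_left this, neg_R]
  obtain ⟨c, hc, e1, e2⟩ := xl_kerZ π ((pcL_pz π).1 h0) h2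
  have hk : kill π c = c := by
    have h3 := congrArg (kill π) e1
    rw [kill_val, map_mul, kill_x] at h3
    have h4 : X π (.x 0) * (kill π c - c) = 0 := by rw [mul_sub, ← h3, ← e1, sub_self]
    exact sub_eq_zero.1 (x_inj π 0 h4)
  refine ⟨⟨c, hk⟩, (pcL_pz π).2 hc, Subtype.ext ?_, Subtype.ext ?_⟩
  · rw [MulMemClass.coe_mul, xL_val]
    exact e1
  · rw [MulMemClass.coe_mul, xL_val]
    exact e2

theorem lS_x {P A C : ℤ} (hP : 1 ≤ P) {w : RL π} (hw : w ∈ pcL π P A C) :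
    ∃ w0 ∈ pcL π (P - 1) A C, ∃ w1 ∈ pcL π (P - 1) A C, w = xL π 1 * w0 + xL π 0 * w1 := by
  obtain ⟨a, ha, b, hb, h⟩ := xl_surZ π hP ((pcL_pz π).1 hw)
  refine ⟨⟨kill π b, kill_kill π b⟩, (pcL_pz π).2 (kill_pz π hb), ⟨kill π a, kill_kill π a⟩,
    (pcL_pz π).2 (kill_pz π ha), Subtype.ext ?_⟩
  rw [AddMemClass.coe_add, MulMemClass.coe_mul, MulMemClass.coe_mul, xL_val, xL_val]
  have := congrArg (kill π) h
  rw [kill_val, map_add, map_mul, map_mul, kill_x, kill_x] at this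
  rw [this, add_comm]

end Crest.Agent.R186.KzE161
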