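import Crest.Agent.R186.Beta_763
import Crest.Agent.R186.KzE_161

/-!
Row 186, half (A), leaf (c1), item (beta) (helper763), part 2: the Koszul step `F(-1, a)` from
`F(0, a)`, `F(1, a)` and the end: `C1Q611.Beta`.
-/

set_option autoImplicit false
set_option linter.style.haveILetI false
set_option linter.unusedSectionVars false

noncomputable section

open MulOpposite

namespace Crest.Agent.R186.Beta763

open Hat827 Frame515 Res255 Win810 Win810.WD Col921 C1F154 C1x134 C1P611 C1Q611 FinV988 Core890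
open SM890 WL221 DefsQ830 WBM163 KzE161

variable {K : Type} [Field K] {π : Par K} {s : ℕ} {Y : RCells (WL π).dga}

theorem D_xL (j : Fin 2) : WL221.DL π (xL π j) = 0 := by
  rw [xL, DL_prL]
  have : Der580.D π (X π (.x j)) = 0 := by
    rw [Der580.D_X]
    simp [dGen]
  rw [this, map_zero]

variable (π)

/-- the letter -/
def xs (j : Fin 2) : (WL π).S := xL π j

variable {π}

theorem xs_mem (j : Fin 2) : xs π j ∈ (WL π).pc 1 0 0 := xL_mem π j

theorem D_xs (j : Fin 2) : (WL π).D (xs π j) = 0 := D_xL j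

variable (π)

/-- right multiplication by `x_j` -/
def rx (j : Fin 2) : LH (lb π) (lb π) 1 0 where
  f := LinearMap.mulRight K (xs π j)
  smul a b := mul_assoc (G := (WL π).S) a b (xs π j)
  comm b := by
    have h := (WL π).D_mul b (xs π j)
    rw [D_xs, mul_zero, add_zero] at h
    exact h
  mem {P A C b} hb := by
    have h := (WL π).mul_mem hb (xs_mem j)
    exact pcc π h rfl (by ring) rfl

/-- left multiplication by `x_j` on rows -/
def lx (j : Fin 2) : ((WL π).Ob → (WL π).S) →ₗ[K] ((WL π).Ob → (WL π).S) where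
  toFun r := fun i => xs π j * r i
  map_add' r r' := funext fun i => mul_add _ _ _
  map_smul' c r := funext fun i => mul_smul_comm c (xs π j) (r i)

/-- a column -/
def tc (f : (WL π).Ob → (WL π).S) : Cv (lb π) := f

variable {π}

theorem tc_apply (f : (WL π).Ob → (WL π).S) (i : (WL π).Ob) : tc π f i = f i := rfl

theorem rx_f (j : Fin 2) (b : (WL π).S) : (rx π j).f b = b * xs π j := rfl

theorem lx_apply (j : Fin 2) (r : (WL π).Ob → (WL π).S) (i : (WL π).Ob) :
    lx π j r i = xs π j * r i := rfl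

theorem lx_mem (j : Fin 2) {p p' a k : ℤ} (hp : p + 1 = p') {r : (WL π).Ob → (WL π).S}
    (hr : r ∈ (rw' π p a).gr k) : lx π j r ∈ (rw' π p' a).gr k := by
  intro i
  have h := (WL π).mul_mem (xs_mem j) (hr i)
  exact pcc π h (by rw [← hp]; ring) (zero_add _) (zero_add _)

theorem lx_d (j : Fin 2) (p p' a : ℤ) (r : (WL π).Ob → (WL π).S) :
    lx π j ((rw' π p a).d r) = (rw' π p' a).d (lx π j r) := by
  funext i
  have h := (WL π).D_mul (xs π j) (r i)
  rw [D_xs, zero_mul, zero_add] at h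
  exact h.symm

theorem mp_rx (j : Fin 2) (x : Y.ι →₀ Cv (lb π)) (σ : Y.ι) (i : (WL π).Ob) :
    mp Y (rx π j).f x σ i = (rx π j).f (x σ i) := mp_apply _ x σ i

theorem ev_rx (R : RRes Y (DtL π s)) (j : Fin 2) (p p' a : ℤ) (x : Y.ι →₀ Cv (lb π))
    (r : (WL π).Ob → (WL π).S) :
    (pA π R p' a).ev (mp Y (rx π j).f x) r = (pA π R p a).ev x (lx π j r) := by
  have hs : (mp Y (rx π j).f x).support ⊆ x.support := by
    intro σ hσ
    rw [Finsupp.mem_support_iff] at hσ ⊢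
    intro h0
    apply hσ
    rw [mp_apply', h0, map_zero]
  refine ((pA π R p' a).ev_apply' _ r x.support hs).trans (Eq.trans ?_
    ((pA π R p a).ev_apply' x _ x.support (Finset.Subset.refl _)).symm)
  refine Finset.sum_congr rfl fun σ _ => ?_
  change vx π R σ (bl π s (mp Y (rx π j).f x σ) r) = vx π R σ (bl π s (x σ) (lx π j r))
  refine congrArg (vx π R σ) ?_
  funext i l
  rw [bl_apply, bl_apply, mp_rx, lx_apply]
  exact mul_assoc (G := (WL π).S) _ _ _

/-! ### Koszul exactness -/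

theorem rI (j : Fin 2) {z : (WL π).S} (h : (rx π j).f z = 0) : z = 0 := rI_x π j h

theorem rE {P A C : ℤ} {u0 u1 : (WL π).S} (h1 : u1 ∈ (WL π).pc P A C)
    (h : (rx π 0).f u0 + (rx π 1).f u1 = 0) :
    ∃ z ∈ (WL π).pc (P - 1) A C, u0 = (rx π 1).f z ∧ u1 = (rx π 0).f z := rE_x π h1 h

theorem rS {P A C : ℤ} (hP : 1 ≤ P) {x : (WL π).S} (hx : x ∈ (WL π).pc P A C) :
    ∃ u0 ∈ (WL π).pc (P - 1) A C, ∃ u1 ∈ (WL π).pc (P - 1) A C,
      x = (rx π 0).f u0 + (rx π 1).f u1 := rS_x π hP hx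

theorem mp_inj (j : Fin 2) {x : Y.ι →₀ Cv (lb π)} (h : mp Y (rx π j).f x = 0) : x = 0 := by
  refine Finsupp.ext fun σ => ?_
  funext i
  have h1 := congrFun (DFunLike.congr_fun h σ) i
  rw [mp_rx] at h1
  exact rI j h1

theorem act_rx (j : Fin 2) (a : (WL π).dga.C) (v : Cv (lb π)) (i : (WL π).Ob) :
    (rx π j).f ((a • v) i) = (a • cm (rx π j).f v) i := congrFun ((rx π j).cm_smul a v) i

theorem exX {p p' a : ℤ} (hp : p = p' + 1) (k : ℤ) (u0 u1 : Y.ι →₀ Cv (lb π))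
    (h0 : u0 ∈ (tY Y (cl π p' a)).gr k) (h1 : u1 ∈ (tY Y (cl π p' a)).gr k)
    (h : mp Y (rx π 0).f u0 + mp Y (rx π 1).f u1 = 0) :
    ∃ z ∈ (tY Y (cl π p a)).gr k, u0 = mp Y (rx π 1).f z ∧ u1 = mp Y (rx π 0).f z := by
  classical
  have key : ∀ σ i, ∃ z ∈ (WL π).pc ((WL π).P i - p' - 1) ((WL π).A i - a) (k - Y.s σ),
      u0 σ i = (rx π 1).f z ∧ u1 σ i = (rx π 0).f z := by
    intro σ i
    refine rE ((h1 σ).1 i) ?_
    have h2 := congrFun (DFunLike.congr_fun h σ) i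
    rw [Finsupp.add_apply, Cv.add_apply, mp_rx, mp_rx] at h2
    exact h2
  choose z hz e0 e1 using key
  have hz0 : ∀ σ, u0 σ = 0 → tc π (z σ) = 0 := by
    intro σ h2
    funext i
    refine rI 1 ?_
    rw [tc_apply, ← e0, h2]
    rfl
  let Z : Y.ι →₀ Cv (lb π) := Finsupp.onFinset u0.support (fun σ => tc π (z σ)) (fun σ hσ => by
    rw [Finsupp.mem_support_iff]
    intro h2
    exact hσ (hz0 σ h2))
  have eZ : ∀ σ i, Z σ i = z σ i := fun σ i => rfl
  have eu0 : u0 = mp Y (rx π 1).f Z := by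
    refine Finsupp.ext fun σ => ?_
    funext i
    rw [mp_rx, eZ]
    exact e0 σ i
  have eu1 : u1 = mp Y (rx π 0).f Z := by
    refine Finsupp.ext fun σ => ?_
    funext i
    rw [mp_rx, eZ]
    exact e1 σ i
  refine ⟨Z, ?_, eu0, eu1⟩
  intro σ
  refine ⟨fun i => ?_, ?_⟩
  · exact pcc π (hz σ i) (by rw [hp]; ring) rfl rfl
  · change Y.e σ • Z σ = Z σ
    funext i
    have h3 : (rx π 1).f ((Y.e σ • Z σ) i - Z σ i) = 0 := by
      have h4 : (Y.e σ • u0 σ) i = u0 σ i := congrFun (h0 σ).2 i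
      have h5 : cm (rx π 1).f (Z σ) = u0 σ := by
        funext i
        exact (e0 σ i).symm
      rw [map_sub, act_rx, h5, h4, eZ, ← e0, sub_self]
    exact sub_eq_zero.1 (rI 1 h3)

theorem suX {p a : ℤ} (hp : ∀ i : (WL π).Ob, 1 ≤ (WL π).P i - (p - 1)) (k : ℤ)
    (x : Y.ι →₀ Cv (lb π)) (hx : x ∈ (tY Y (cl π (p - 1) a)).gr k) :
    ∃ u0 ∈ (tY Y (cl π p a)).gr k, ∃ u1 ∈ (tY Y (cl π p a)).gr k,
      x = mp Y (rx π 0).f u0 + mp Y (rx π 1).f u1 := by
  classical
  have key : ∀ σ i, ∃ a0 ∈ (WL π).pc ((WL π).P i - (p - 1) - 1) ((WL π).A i - a) (k - Y.s σ),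
      ∃ a1 ∈ (WL π).pc ((WL π).P i - (p - 1) - 1) ((WL π).A i - a) (k - Y.s σ),
      x σ i = (rx π 0).f a0 + (rx π 1).f a1 := fun σ i => rS (hp i) ((hx σ).1 i)
  choose a0 h0 a1 h1 e using key
  let U : (Y.ι → (WL π).Ob → (WL π).S) → (Y.ι →₀ Cv (lb π)) := fun b =>
    Finsupp.onFinset x.support (fun σ => if σ ∈ x.support then Y.e σ • tc π (b σ) else 0)
      (fun σ hσ => by
        by_contra h
        exact hσ (if_neg h))
  have eU : ∀ b σ, U b σ = if σ ∈ x.support then Y.e σ • tc π (b σ) else 0 := fun b σ => rfl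
  have mU : ∀ b : Y.ι → (WL π).Ob → (WL π).S,
      (∀ σ i, b σ i ∈ (WL π).pc ((WL π).P i - (p - 1) - 1) ((WL π).A i - a) (k - Y.s σ)) →
      U b ∈ (tY Y (cl π p a)).gr k := by
    intro b hb σ
    rw [eU]
    split_ifs with hσ
    · have h2 : tc π (b σ) ∈ (cl π p a).gr (k - Y.s σ) :=
        fun i => pcc π (hb σ i) (by ring) rfl rfl
      have h3 := (cl π p a).smul_mem (Y.e_mem σ) h2
      rw [zero_add] at h3
      refine ⟨h3, ?_⟩
      change Y.e σ • Y.e σ • tc π (b σ) = Y.e σ • tc π (b σ)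
      rw [smul_smul, Y.e_idem]
    · exact ⟨Submodule.zero_mem _, smul_zero (Y.e σ)⟩
  refine ⟨U a0, mU a0 h0, U a1, mU a1 h1, ?_⟩
  refine Finsupp.ext fun σ => ?_
  funext i
  rw [Finsupp.add_apply, Cv.add_apply, mp_rx, mp_rx, eU, eU]
  split_ifs with hσ
  · rw [act_rx, act_rx, ← Cv.add_apply, ← smul_add]
    have h2 : cm (rx π 0).f (tc π (a0 σ)) + cm (rx π 1).f (tc π (a1 σ)) = x σ := by
      funext i
      exact (e σ i).symm
    rw [h2]
    exact (congrFun (hx σ).2 i).symm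
  · rw [Finsupp.notMem_support_iff.1 hσ, Cv.zero_apply, map_zero, map_zero, add_zero]

/-! ### the rows -/

theorem lE {P A C : ℤ} {w0 w1 : (WL π).S} (h0 : w0 ∈ (WL π).pc P A C)
    (h : xs π 1 * w0 + xs π 0 * w1 = 0) :
    ∃ r ∈ (WL π).pc (P - 1) A C, w0 = xs π 0 * r ∧ w1 = xs π 1 * r := lE_x π h0 h

theorem lS {P A C : ℤ} (hP : 1 ≤ P) {w : (WL π).S} (hw : w ∈ (WL π).pc P A C) :
    ∃ w0 ∈ (WL π).pc (P - 1) A C, ∃ w1 ∈ (WL π).pc (P - 1) A C,
      w = xs π 1 * w0 + xs π 0 * w1 := lS_x π hP hw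

theorem xx0 (b : (WL π).S) : xs π 1 * (xs π 0 * b) + xs π 0 * (xs π 1 * b) = 0 := by
  rw [← mul_assoc, ← mul_assoc, ← add_mul]
  have h : xs π 1 * xs π 0 + xs π 0 * xs π 1 = 0 := comm_x' π
  rw [h, zero_mul]

theorem xx1 (b : (WL π).S) : b * xs π 1 * xs π 0 + b * xs π 0 * xs π 1 = 0 := by
  rw [mul_assoc, mul_assoc, ← mul_add]
  have h : xs π 1 * xs π 0 + xs π 0 * xs π 1 = 0 := comm_x' π
  rw [h, mul_zero]

theorem mp_comm (z : Y.ι →₀ Cv (lb π)) :
    mp Y (rx π 0).f (mp Y (rx π 1).f z) + mp Y (rx π 1).f (mp Y (rx π 0).f z) = 0 := by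
  refine Finsupp.ext fun σ => ?_
  funext i
  rw [Finsupp.add_apply]
  change mp Y (rx π 0).f (mp Y (rx π 1).f z) σ i + mp Y (rx π 1).f (mp Y (rx π 0).f z) σ i = 0
  rw [mp_rx, mp_rx, mp_rx, mp_rx]
  exact xx1 (z σ i)

/-! ### the Koszul step -/

/-- the pairing as 154's `PC` -/
def pcOf (R : RRes Y (DtL π s)) (p a : ℤ) : PC K where
  X := tY Y (cl π p a)
  W := (WL π).Ob → (WL π).S
  gw := (rw' π p a).gr
  dw := (rw' π p a).d
  F := (pA π R p a).ev

theorem ex_iff (R : RRes Y (DtL π s)) (p a k : ℤ) :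
    (pcOf R p a).EX (R.lo + s) k ↔ (pA π R p a).ExAt k := by
  have e1 : -(R.lo + s + k - 1) = 1 - (pA π R p a).lo - k := by
    change _ = 1 - (R.lo + s) - k
    ring
  have e2 : -(R.lo + s + k) = -(pA π R p a).lo - k := by
    change _ = -(R.lo + s) - k
    ring
  constructor
  · intro h x g hx hd hg
    obtain ⟨y, hy, hd', g', h'⟩ := h x hx hd g (fun w hw => hg w (by
      have hw' : w ∈ (rw' π p a).gr (-(R.lo + s + k - 1)) := hw
      rwa [e1] at hw'))
    refine ⟨y, hy, g', hd', fun w hw => h' w ?_⟩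
    change w ∈ (rw' π p a).gr (-(R.lo + s + k))
    rwa [e2]
  · intro h x hx hd g hg
    obtain ⟨y, hy, g', hd', h'⟩ := h x g hx hd (fun w hw => hg w (by
      change w ∈ (rw' π p a).gr (-(R.lo + s + k - 1))
      rwa [e1]))
    refine ⟨y, hy, hd', g', fun w hw => h' w ?_⟩
    have hw' : w ∈ (rw' π p a).gr (-(R.lo + s + k)) := hw
    rwa [e2] at hw'

theorem two_K (π : Par K) (a : K) : a + a = 0 := by rw [← two_mul, π.two, zero_mul]

theorem add_eq_K (π : Par K) {a b : K} (h : a + b = 0) : a = b := by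
  have := two_K π b
  rw [← this] at h
  exact add_right_cancel h

theorem koszul_step (R : RRes Y (DtL π s)) (a k : ℤ) (h0 : (pA π R 0 a).ExAt k)
    (h1 : (pA π R 1 a).ExAt (k - 1)) : (pA π R (-1) a).ExAt k := by
  rw [← ex_iff] at h0 h1 ⊢
  refine koszul (P1 := pcOf R 1 a) (P2 := pcOf R 0 a) (P3 := pcOf R (-1) a) (two_K π) (R.lo + s)
    ?hc2 ?dg2 ?dg3 ?ddw2
    (mp Y (rx π 1).f) (mp Y (rx π 0).f) (mp Y (rx π 0).f) (mp Y (rx π 1).f)
    ?a0d ?a1d ?b0d ?b1d ?a0m ?a1m ?b0m ?b1m ?ba ?exX ?suX ?inX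
    (lx π 0) (lx π 1) (lx π 1) (lx π 0)
    ?c0d ?c1d ?e0d ?e1d ?c0m ?c1m ?e0m ?e1m ?ec ?inW ?exW ?suW ?F30 ?F31 ?F20 ?F21 k h0 h1
  case hc2 =>
    intro k x hx w hw
    exact add_eq_K π ((pA π R 0 a).ev_d π.two hx hw)
  case dg2 => exact fun hw => (rw' π 0 a).d_mem hw
  case dg3 => exact fun hw => (rw' π (-1) a).d_mem hw
  case ddw2 => exact fun w => (rw' π 0 a).d_d w
  case a0d => exact fun x => ((rx π 1).mp_d 1 a 0 a x).symm
  case a1d => exact fun x => ((rx π 0).mp_d 1 a 0 a x).symm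
  case b0d => exact fun x => ((rx π 0).mp_d 0 a (-1) a x).symm
  case b1d => exact fun x => ((rx π 1).mp_d 0 a (-1) a x).symm
  case a0m =>
    intro k x hx
    have := (rx π 1).mp_gr (p := 1) (p' := 0) (by ring) hx
    rwa [add_zero] at this
  case a1m =>
    intro k x hx
    have := (rx π 0).mp_gr (p := 1) (p' := 0) (by ring) hx
    rwa [add_zero] at this
  case b0m =>
    intro k x hx
    have := (rx π 0).mp_gr (p := 0) (p' := -1) (by ring) hx
    rwa [add_zero] at this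
  case b1m =>
    intro k x hx
    have := (rx π 1).mp_gr (p := 0) (p' := -1) (by ring) hx
    rwa [add_zero] at this
  case ba => exact fun z => mp_comm z
  case exX => exact fun k u0 u1 h0 h1 h => exX (by ring) k u0 u1 h0 h1 h
  case suX =>
    intro k x hx
    refine suX (p := 0) (a := a) (fun i => ?_) k x hx
    change (1 : ℤ) ≤ (i.1.val : ℤ) - (0 - 1)
    omega
  case inX => exact fun k z _ h => mp_inj 1 h
  case c0d => exact fun w => lx_d 0 (-1) 0 a w
  case c1d => exact fun w => lx_d 1 (-1) 0 a w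
  case e0d => exact fun w => lx_d 1 0 1 a w
  case e1d => exact fun w => lx_d 0 0 1 a w
  case c0m => exact fun hw => lx_mem 0 (by ring) hw
  case c1m => exact fun hw => lx_mem 1 (by ring) hw
  case e0m => exact fun hw => lx_mem 1 (by ring) hw
  case e1m => exact fun hw => lx_mem 0 (by ring) hw
  case ec =>
    intro w
    funext i
    exact xx0 (w i)
  case inW =>
    intro k w _ h _
    funext i
    exact lI_x π 0 (congrFun h i)
  case exW =>
    intro k w0 w1 hw0 _ h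
    have key : ∀ i, ∃ r ∈ (WL π).pc (0 + 1 - (WL π).P i - 1) (a - (WL π).A i) k,
        w0 i = xs π 0 * r ∧ w1 i = xs π 1 * r := fun i => lE (hw0 i) (congrFun h i)
    choose r hr e0 e1 using key
    refine ⟨r, fun i => ?_, funext fun i => e0 i, funext fun i => e1 i⟩
    exact pcc π (hr i) (by ring) rfl rfl
  case suW =>
    intro k u hu
    have key : ∀ i, ∃ w0 ∈ (WL π).pc (1 + 1 - (WL π).P i - 1) (a - (WL π).A i) k,
        ∃ w1 ∈ (WL π).pc (1 + 1 - (WL π).P i - 1) (a - (WL π).A i) k,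
        u i = xs π 1 * w0 + xs π 0 * w1 := by
      intro i
      refine lS ?_ (hu i)
      change (1 : ℤ) ≤ 1 + 1 - (i.1.val : ℤ)
      have := i.1.2
      omega
    choose w0 h0 w1 h1 e using key
    refine ⟨w0, fun i => pcc π (h0 i) (by ring) rfl rfl, w1, fun i => pcc π (h1 i) (by ring) rfl rfl,
      funext fun i => e i⟩
  case F30 => exact fun u w => ev_rx R 0 0 (-1) a u w
  case F31 => exact fun u w => ev_rx R 1 0 (-1) a u w
  case F20 => exact fun z w => ev_rx R 1 1 0 a z w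
  case F21 => exact fun z w => ev_rx R 0 1 0 a z w

/-- the pairing at the positions of the columns of `tL` -/
theorem ex_all (R : RRes Y (DtL π s)) (o : (WL π).Ob) (k : ℤ) :
    (pA π R ((WL π).P o - 1) ((WL π).A o)).ExAt k := by
  have h0 : ∀ k, (pA π R 0 ((WL π).A o)).ExAt k := fun k => col_ex R ((0, o.2) : DefsQ830.Ob) k
  have h1 : ∀ k, (pA π R 1 ((WL π).A o)).ExAt k := fun k => col_ex R ((1, o.2) : DefsQ830.Ob) k
  obtain ⟨i, b⟩ := o
  have hi : (i.val : ℤ) = 0 ∨ (i.val : ℤ) = 1 := by omega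
  rcases hi with hi | hi
  · have e : (WL π).P (i, b) - 1 = -1 := by
      change (i.val : ℤ) - 1 = -1
      omega
    rw [e]
    exact koszul_step R _ k (h0 k) (h1 (k - 1))
  · have e : (WL π).P (i, b) - 1 = 0 := by
      change (i.val : ℤ) - 1 = 0
      omega
    rw [e]
    exact h0 k

/-- **(beta), dual-free form** -/
theorem beta_ex (R : RRes Y (DtL π s)) : (paOf (tLW π s) R.toRAug).Ex :=
  fun k => join R (ex_all R) k

/-- **(beta)** for any right cells over `L` -/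
theorem beta_ce (R : RRes Y (DtL π s)) (k : ℤ) :
    AcIff492.CE (tY Y (tLW π s).toLM) (DR (selfL (WL π).dga)).toGC R.lo k
      (evD (Z := selfL (WL π).dga) (paOf (tLW π s) R.toRAug)) :=
  (ex_iff_ce (Z := selfL (WL π).dga) (paOf (tLW π s) R.toRAug) (paOf_off (tLW π s) R.toRAug)
    (FinD988.prlSelf (grL π))).1 (beta_ex R) k

/-- **`C1Q611.Beta`** -/
theorem beta {Y : RCells (WR π).dga} (R' : RRes (pushR (prHm π) Y) (DtL π s)) : Beta π s R' :=
  fun k => beta_ce R' k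

end Crest.Agent.R186.Beta763
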