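import Crest.Agent.R186.Frame_515

/-!
Row 186 (A), leaf (c1) from (c2'') (helper154), abstract part.

`PC K` : a graded complex `X` paired with a graded space `W` with differential (a row), by
`F : X → Dual W`.  `P.EX lo k` : the map `X → D W` has an exact cone in degree `k` (elementwise;
functionals are arbitrary linear maps, tested only on homogeneous elements).

* `koszul` : the third map of two Koszul sequences.
* `filt` : a filtered pairing whose graded pieces are copies of one pairing.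
-/

set_option autoImplicit false
set_option linter.unusedSectionVars false

namespace Crest.Agent.R186.C1F154

open Frame515

variable {K : Type} [Field K]

/-- a functional on `S` killing `S ⊓ ker g` factors through `g` -/
theorem exists_factor {U V : Type} [AddCommGroup U] [Module K U] [AddCommGroup V] [Module K V]
    (g : U →ₗ[K] V) (S : Submodule K U) (T : U →ₗ[K] K) (h : ∀ u ∈ S, g u = 0 → T u = 0) :
    ∃ T' : V →ₗ[K] K, ∀ u ∈ S, T' (g u) = T u := by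
  -- restrict to `S`
  let gS : S →ₗ[K] V := g ∘ₗ S.subtype
  let TS : S →ₗ[K] K := T ∘ₗ S.subtype
  have hk : LinearMap.ker gS ≤ LinearMap.ker TS := by
    intro u hu
    exact h u.1 u.2 hu
  -- the map on the range
  let T1 : (S ⧸ LinearMap.ker gS) →ₗ[K] K := (LinearMap.ker gS).liftQ TS hk
  let e : (S ⧸ LinearMap.ker gS) ≃ₗ[K] LinearMap.range gS := gS.quotKerEquivRange
  let T2 : LinearMap.range gS →ₗ[K] K := T1 ∘ₗ e.symm.toLinearMap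
  obtain ⟨T', hT'⟩ := LinearMap.exists_extend T2
  refine ⟨T', fun u hu => ?_⟩
  have h1 : T' (g u) = T2 ⟨g u, ⟨⟨u, hu⟩, rfl⟩⟩ := by
    rw [← hT']; rfl
  rw [h1]
  have h2 : e.symm ⟨g u, ⟨⟨u, hu⟩, rfl⟩⟩ = Submodule.Quotient.mk ⟨u, hu⟩ := by
    rw [LinearEquiv.symm_apply_eq]
    rfl
  change T1 (e.symm ⟨g u, ⟨⟨u, hu⟩, rfl⟩⟩) = T u
  rw [h2]
  rfl

/-- a complex paired with a row -/
structure PC (K : Type) [Field K] where
  X : GC K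
  W : Type
  [grp : AddCommGroup W]
  [mod : Module K W]
  gw : ℤ → Submodule K W
  dw : W →ₗ[K] W
  F : X.X →ₗ[K] W →ₗ[K] K

attribute [instance] PC.grp PC.mod

/-- the cone of `X → D W` is exact in degree `k` -/
def PC.EX (P : PC K) (lo k : ℤ) : Prop :=
  ∀ x ∈ P.X.gr (k - 1), P.X.d x = 0 → ∀ t : P.W →ₗ[K] K,
    (∀ w ∈ P.gw (-(lo + k - 1)), P.F x w + t (P.dw w) = 0) →
    ∃ y ∈ P.X.gr k, P.X.d y = x ∧ ∃ t' : P.W →ₗ[K] K,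
      ∀ w ∈ P.gw (-(lo + k)), t w = P.F y w + t' (P.dw w)

/-- `F` is a chain map (characteristic two) -/
def PC.Ch (P : PC K) (lo : ℤ) : Prop :=
  ∀ (k : ℤ), ∀ x ∈ P.X.gr k, ∀ w ∈ P.gw (-(lo + k - 1)), P.F (P.X.d x) w = P.F x (P.dw w)

section koszul

variable {P1 P2 P3 : PC K}

/-- **Koszul step** -/
theorem koszul (two : ∀ a : K, a + a = 0) (lo : ℤ)
    (hc2 : P2.Ch lo)
    (dg2 : ∀ {k : ℤ} {w : P2.W}, w ∈ P2.gw k → P2.dw w ∈ P2.gw (k - 1))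
    (dg3 : ∀ {k : ℤ} {w : P3.W}, w ∈ P3.gw k → P3.dw w ∈ P3.gw (k - 1))
    (ddw2 : ∀ w, P2.dw (P2.dw w) = 0)
    (α0 α1 : P1.X.X →ₗ[K] P2.X.X) (β0 β1 : P2.X.X →ₗ[K] P3.X.X)
    (α0d : ∀ x, α0 (P1.X.d x) = P2.X.d (α0 x)) (α1d : ∀ x, α1 (P1.X.d x) = P2.X.d (α1 x))
    (β0d : ∀ x, β0 (P2.X.d x) = P3.X.d (β0 x)) (β1d : ∀ x, β1 (P2.X.d x) = P3.X.d (β1 x))
    (α0m : ∀ {k : ℤ} {x : P1.X.X}, x ∈ P1.X.gr k → α0 x ∈ P2.X.gr k)
    (α1m : ∀ {k : ℤ} {x : P1.X.X}, x ∈ P1.X.gr k → α1 x ∈ P2.X.gr k)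
    (β0m : ∀ {k : ℤ} {x : P2.X.X}, x ∈ P2.X.gr k → β0 x ∈ P3.X.gr k)
    (β1m : ∀ {k : ℤ} {x : P2.X.X}, x ∈ P2.X.gr k → β1 x ∈ P3.X.gr k)
    (βα : ∀ z, β0 (α0 z) + β1 (α1 z) = 0)
    (exX : ∀ (k : ℤ) (u0 u1 : P2.X.X), u0 ∈ P2.X.gr k → u1 ∈ P2.X.gr k → β0 u0 + β1 u1 = 0 →
      ∃ z ∈ P1.X.gr k, u0 = α0 z ∧ u1 = α1 z)
    (suX : ∀ (k : ℤ) (x : P3.X.X), x ∈ P3.X.gr k →
      ∃ u0 ∈ P2.X.gr k, ∃ u1 ∈ P2.X.gr k, x = β0 u0 + β1 u1)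
    (inX : ∀ (k : ℤ) (z : P1.X.X), z ∈ P1.X.gr k → α0 z = 0 → z = 0)
    (a0 a1 : P3.W →ₗ[K] P2.W) (b0 b1 : P2.W →ₗ[K] P1.W)
    (a0d : ∀ w, a0 (P3.dw w) = P2.dw (a0 w)) (a1d : ∀ w, a1 (P3.dw w) = P2.dw (a1 w))
    (b0d : ∀ w, b0 (P2.dw w) = P1.dw (b0 w)) (b1d : ∀ w, b1 (P2.dw w) = P1.dw (b1 w))
    (a0m : ∀ {k : ℤ} {w : P3.W}, w ∈ P3.gw k → a0 w ∈ P2.gw k)
    (a1m : ∀ {k : ℤ} {w : P3.W}, w ∈ P3.gw k → a1 w ∈ P2.gw k)
    (b0m : ∀ {k : ℤ} {w : P2.W}, w ∈ P2.gw k → b0 w ∈ P1.gw k)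
    (b1m : ∀ {k : ℤ} {w : P2.W}, w ∈ P2.gw k → b1 w ∈ P1.gw k)
    (ba : ∀ w, b0 (a0 w) + b1 (a1 w) = 0)
    (inW : ∀ (k : ℤ) (w : P3.W), w ∈ P3.gw k → a0 w = 0 → a1 w = 0 → w = 0)
    (exW : ∀ (k : ℤ) (w0 w1 : P2.W), w0 ∈ P2.gw k → w1 ∈ P2.gw k → b0 w0 + b1 w1 = 0 →
      ∃ l ∈ P3.gw k, w0 = a0 l ∧ w1 = a1 l)
    (suW : ∀ (k : ℤ) (u : P1.W), u ∈ P1.gw k →
      ∃ w0 ∈ P2.gw k, ∃ w1 ∈ P2.gw k, u = b0 w0 + b1 w1)
    (F30 : ∀ u w, P3.F (β0 u) w = P2.F u (a0 w)) (F31 : ∀ u w, P3.F (β1 u) w = P2.F u (a1 w))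
    (F20 : ∀ z w, P2.F (α0 z) w = P1.F z (b0 w)) (F21 : ∀ z w, P2.F (α1 z) w = P1.F z (b1 w))
    (k : ℤ) (h2 : P2.EX lo k) (h1 : P1.EX lo (k - 1)) : P3.EX lo k := by
  intro x hx hdx t ht
  obtain ⟨x0, hx0, x1, hx1, rfl⟩ := suX (k - 1) x hx
  have hd : β0 (P2.X.d x0) + β1 (P2.X.d x1) = 0 := by rw [β0d, β1d, ← map_add, hdx]
  obtain ⟨z, hz, hz0, hz1⟩ := exX (k - 1 - 1) _ _ (P2.X.d_mem hx0) (P2.X.d_mem hx1) hd
  have hdz : P1.X.d z = 0 := by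
    refine inX _ _ (P1.X.d_mem hz) ?_
    rw [α0d, ← hz0, P2.X.d_d]
  -- extend `t`
  let aa : P3.W →ₗ[K] (P2.W × P2.W) := a0.prod a1
  obtain ⟨T, hT⟩ := exists_factor aa (P3.gw (-(lo + k))) t (by
    intro u hu hau
    have e0 : a0 u = 0 := congrArg Prod.fst hau
    have e1 : a1 u = 0 := congrArg Prod.snd hau
    rw [inW _ u hu e0 e1, map_zero])
  let T0 : P2.W →ₗ[K] K := T ∘ₗ LinearMap.inl K P2.W P2.W
  let T1 : P2.W →ₗ[K] K := T ∘ₗ LinearMap.inr K P2.W P2.W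
  have hT01 : ∀ w0 w1, T (w0, w1) = T0 w0 + T1 w1 := by
    intro w0 w1
    change T (w0, w1) = T (w0, 0) + T (0, w1)
    rw [← map_add, Prod.mk_add_mk, add_zero, zero_add]
  have hT' : ∀ l ∈ P3.gw (-(lo + k)), T0 (a0 l) + T1 (a1 l) = t l := by
    intro l hl
    rw [← hT01]
    exact hT l hl
  -- `ρ`
  let bb : (P2.W × P2.W) →ₗ[K] P1.W :=
    b0 ∘ₗ LinearMap.fst K P2.W P2.W + b1 ∘ₗ LinearMap.snd K P2.W P2.W
  let ρ : (P2.W × P2.W) →ₗ[K] K :=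
    (P2.F x0 + T0 ∘ₗ P2.dw) ∘ₗ LinearMap.fst K P2.W P2.W +
      (P2.F x1 + T1 ∘ₗ P2.dw) ∘ₗ LinearMap.snd K P2.W P2.W
  have hρ : ∀ w0 w1, ρ (w0, w1) = (P2.F x0 w0 + T0 (P2.dw w0)) + (P2.F x1 w1 + T1 (P2.dw w1)) :=
    fun _ _ => rfl
  obtain ⟨τ, hτ⟩ := exists_factor bb
    ((P2.gw (-(lo + k - 1))).prod (P2.gw (-(lo + k - 1)))) ρ (by
      rintro ⟨w0, w1⟩ hw hb
      obtain ⟨hw0, hw1⟩ := Submodule.mem_prod.1 hw
      obtain ⟨l, hl, rfl, rfl⟩ := exW _ w0 w1 hw0 hw1 hb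
      rw [hρ, ← a0d, ← a1d]
      have hdl : P3.dw l ∈ P3.gw (-(lo + k)) := by
        have := dg3 hl
        rwa [show -(lo + k - 1) - 1 = -(lo + k) by ring] at this
      have h5 := ht l hl
      rw [map_add, LinearMap.add_apply, F30, F31, ← hT' _ hdl] at h5
      rw [← h5]
      abel)
  have hτ' : ∀ w0 ∈ P2.gw (-(lo + k - 1)), ∀ w1 ∈ P2.gw (-(lo + k - 1)),
      τ (b0 w0 + b1 w1) = (P2.F x0 w0 + T0 (P2.dw w0)) + (P2.F x1 w1 + T1 (P2.dw w1)) :=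
    fun w0 h0 w1 h1 => hτ (w0, w1) (Submodule.mem_prod.2 ⟨h0, h1⟩)
  -- the cycle of `P1`
  obtain ⟨z', hz', hdz', τ', hτ''⟩ := h1 z hz hdz τ (by
    intro u hu
    obtain ⟨w0, hw0, w1, hw1, rfl⟩ := suW _ u hu
    have hw0' : w0 ∈ P2.gw (-(lo + (k - 1) - 1)) := hw0
    have hw1' : w1 ∈ P2.gw (-(lo + (k - 1) - 1)) := hw1
    have hd0 : P2.dw w0 ∈ P2.gw (-(lo + k - 1)) := by
      have := dg2 hw0
      rwa [show -(lo + (k - 1) - 1) - 1 = -(lo + k - 1) by ring] at this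
    have hd1 : P2.dw w1 ∈ P2.gw (-(lo + k - 1)) := by
      have := dg2 hw1
      rwa [show -(lo + (k - 1) - 1) - 1 = -(lo + k - 1) by ring] at this
    have e1 : τ (P1.dw (b0 w0 + b1 w1)) = P2.F x0 (P2.dw w0) + P2.F x1 (P2.dw w1) := by
      rw [map_add, ← b0d, ← b1d, hτ' _ hd0 _ hd1, ddw2, ddw2, map_zero, map_zero, add_zero,
        add_zero]
    rw [e1, ← hc2 (k - 1) x0 hx0 w0 hw0', ← hc2 (k - 1) x1 hx1 w1 hw1', hz0, hz1, F20, F21,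
      map_add]
    exact two _)
  -- corrected data
  have hx0' : x0 + α0 z' ∈ P2.X.gr (k - 1) := add_mem hx0 (α0m hz')
  have hx1' : x1 + α1 z' ∈ P2.X.gr (k - 1) := add_mem hx1 (α1m hz')
  have two2 : ∀ v : P2.X.X, v + v = 0 := by
    intro v
    rw [← two_smul K v, show (2 : K) = 1 + 1 by norm_num, two 1, zero_smul]
  have two3 : ∀ v : P3.X.X, v + v = 0 := by
    intro v
    rw [← two_smul K v, show (2 : K) = 1 + 1 by norm_num, two 1, zero_smul]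
  have hd0 : P2.X.d (x0 + α0 z') = 0 := by
    rw [map_add, ← α0d, hdz', hz0]
    exact two2 _
  have hd1 : P2.X.d (x1 + α1 z') = 0 := by
    rw [map_add, ← α1d, hdz', hz1]
    exact two2 _
  let T0' : P2.W →ₗ[K] K := T0 + τ' ∘ₗ b0
  let T1' : P2.W →ₗ[K] K := T1 + τ' ∘ₗ b1
  have hτ0 : ∀ u ∈ P1.gw (-(lo + (k - 1))), τ u = P1.F z' u + τ' (P1.dw u) := hτ''
  have hg0 : (-(lo + k - 1) : ℤ) = -(lo + (k - 1)) := by ring
  -- membership of `b0 w`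
  have bm0 : ∀ w ∈ P2.gw (-(lo + k - 1)), τ (b0 w) = P2.F x0 w + T0 (P2.dw w) := by
    intro w hw
    have h5 := hτ' w hw 0 (zero_mem _)
    rw [map_zero, add_zero, map_zero, map_zero, map_zero, add_zero, add_zero] at h5
    exact h5
  have bm1 : ∀ w ∈ P2.gw (-(lo + k - 1)), τ (b1 w) = P2.F x1 w + T1 (P2.dw w) := by
    intro w hw
    have h5 := hτ' 0 (zero_mem _) w hw
    rw [map_zero, zero_add, map_zero, map_zero, map_zero, add_zero, zero_add] at h5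
    exact h5
  -- apply the hypothesis on `P2` twice
  have two1 : ∀ a b : K, a + (b + (a + b)) = 0 := by
    intro a b
    have := two (a + b)
    rw [← this]; ring
  obtain ⟨y0, hy0, hdy0, t0', ht0'⟩ := h2 _ hx0' hd0 T0' (by
    intro w hw
    have hbw : b0 w ∈ P1.gw (-(lo + (k - 1))) := by
      rw [← hg0]; exact b0m hw
    have e1 := hτ0 _ hbw
    have e2 := bm0 w hw
    rw [map_add, LinearMap.add_apply, F20]
    change P2.F x0 w + P1.F z' (b0 w) + (T0 (P2.dw w) + τ' (b0 (P2.dw w))) = 0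
    rw [b0d]
    have e3 : P2.F x0 w + T0 (P2.dw w) = P1.F z' (b0 w) + τ' (P1.dw (b0 w)) := by
      rw [← e2, e1]
    calc P2.F x0 w + P1.F z' (b0 w) + (T0 (P2.dw w) + τ' (P1.dw (b0 w)))
        = (P2.F x0 w + T0 (P2.dw w)) + (P1.F z' (b0 w) + τ' (P1.dw (b0 w))) := by ring
      _ = 0 := by rw [e3]; exact two _)
  obtain ⟨y1, hy1, hdy1, t1', ht1'⟩ := h2 _ hx1' hd1 T1' (by
    intro w hw
    have hbw : b1 w ∈ P1.gw (-(lo + (k - 1))) := by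
      rw [← hg0]; exact b1m hw
    have e1 := hτ0 _ hbw
    have e2 := bm1 w hw
    rw [map_add, LinearMap.add_apply, F21]
    change P2.F x1 w + P1.F z' (b1 w) + (T1 (P2.dw w) + τ' (b1 (P2.dw w))) = 0
    rw [b1d]
    have e3 : P2.F x1 w + T1 (P2.dw w) = P1.F z' (b1 w) + τ' (P1.dw (b1 w)) := by
      rw [← e2, e1]
    calc P2.F x1 w + P1.F z' (b1 w) + (T1 (P2.dw w) + τ' (P1.dw (b1 w)))
        = (P2.F x1 w + T1 (P2.dw w)) + (P1.F z' (b1 w) + τ' (P1.dw (b1 w))) := by ring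
      _ = 0 := by rw [e3]; exact two _)
  refine ⟨β0 y0 + β1 y1, add_mem (β0m hy0) (β1m hy1), ?_, t0' ∘ₗ a0 + t1' ∘ₗ a1, ?_⟩
  · rw [map_add, ← β0d, ← β1d, hdy0, hdy1, map_add, map_add]
    have := βα z'
    calc β0 x0 + β0 (α0 z') + (β1 x1 + β1 (α1 z'))
        = β0 x0 + β1 x1 + (β0 (α0 z') + β1 (α1 z')) := by abel
      _ = β0 x0 + β1 x1 := by rw [this, add_zero]
  · intro l hl
    have e0 := ht0' _ (a0m hl)
    have e1 := ht1' _ (a1m hl)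
    have e2 := hT' l hl
    have e3 : T0' (a0 l) + T1' (a1 l) = t l := by
      change T0 (a0 l) + τ' (b0 (a0 l)) + (T1 (a1 l) + τ' (b1 (a1 l))) = t l
      calc T0 (a0 l) + τ' (b0 (a0 l)) + (T1 (a1 l) + τ' (b1 (a1 l)))
          = T0 (a0 l) + T1 (a1 l) + τ' (b0 (a0 l) + b1 (a1 l)) := by rw [map_add]; ring
        _ = t l := by rw [ba, map_zero, add_zero, e2]
    rw [← e3, e0, e1, map_add, LinearMap.add_apply, F30, F31]
    change _ = P2.F y0 (a0 l) + P2.F y1 (a1 l) + (t0' (a0 (P3.dw l)) + t1' (a1 (P3.dw l)))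
    rw [a0d, a1d]
    ring

end koszul

end Crest.Agent.R186.C1F154
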