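import Crest.Agent.R186.TR_810

/-!
Row 186 (A), leaf V3 (helper921), part 1: COLUMNS.

* `LB w` : tri-graded left dg modules over the algebra of a window datum `w`;
* `colL B p a : LM w.dga` : the column of `B` at the position `(p, a)`;
* `Sc Y B p a = Y ⊗ colL B p a`, `TFc Y B F` families with entries in `F`;
* `Cop`, `Cop.ac` : copies; `Kz`, `Kz.ac` : right Koszul columns; `deg` : the degree induction;
* `LB.cone`, `Cop.cone`, `Kz.cone` : the same for cones of a central element.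
-/

set_option autoImplicit false
set_option linter.style.haveILetI false
set_option linter.unusedSectionVars false

open MulOpposite

namespace Crest.Agent.R186.Col921

open Hat827 Hat827.DGA Frame515 Win810 TR810

variable {K : Type} [Field K]

/-- tri-graded left dg module over a window datum -/
structure LB (w : WD K) where
  B : Type
  [grp : AddCommGroup B]
  [mod : Module K B]
  [act : Module w.S B]
  [tower : IsScalarTower K w.S B]
  pb : ℤ → ℤ → ℤ → Submodule K B
  smul_mem : ∀ {P A C P' A' C' : ℤ} {a : w.S} {b : B}, a ∈ w.pc P A C → b ∈ pb P' A' C' →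
    a • b ∈ pb (P + P') (A + A') (C + C')
  d : B →ₗ[K] B
  d_smul : ∀ (a : w.S) (b : B), d (a • b) = w.D a • b + a • d b
  d_d : ∀ b : B, d (d b) = 0
  d_mem : ∀ {P A C : ℤ} {b : B}, b ∈ pb P A C → d b ∈ pb P A (C - 1)

attribute [instance] LB.grp LB.mod LB.act LB.tower

variable {w : WD K}

namespace LB

variable (B : LB w)

theorem two (b : B.B) : b + b = 0 := by
  have h : b + b = ((1 : w.S) + 1) • b := by rw [add_smul, one_smul]
  rw [h, w.two, zero_smul]

theorem cast {P P' A A' C C' : ℤ} {x : B.B} (h : x ∈ B.pb P A C) (hP : P = P') (hA : A = A')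
    (hC : C = C') : x ∈ B.pb P' A' C' := by
  subst hP hA hC
  exact h

end LB

/-- columns -/
def Cv (B : LB w) : Type := w.Ob → B.B

section Cv

variable {B : LB w}

instance : AddCommGroup (Cv B) := inferInstanceAs (AddCommGroup (w.Ob → B.B))
instance : Module K (Cv B) := inferInstanceAs (Module K (w.Ob → B.B))

@[ext] theorem Cv.ext {v v' : Cv B} (h : ∀ i, v i = v' i) : v = v' := funext h

@[simp] theorem Cv.add_apply (v v' : Cv B) (i : w.Ob) : (v + v') i = v i + v' i := rfl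
@[simp] theorem Cv.sub_apply (v v' : Cv B) (i : w.Ob) : (v - v') i = v i - v' i := rfl
@[simp] theorem Cv.zero_apply (i : w.Ob) : (0 : Cv B) i = 0 := rfl
@[simp] theorem Cv.smul_apply (r : K) (v : Cv B) (i : w.Ob) : (r • v) i = r • v i := rfl

/-- evaluation -/
def Cv.evL (i : w.Ob) : Cv B →ₗ[K] B.B where
  toFun v := v i
  map_add' _ _ := rfl
  map_smul' _ _ := rfl

theorem Cv.sum_apply {α : Type} (s : Finset α) (f : α → Cv B) (i : w.Ob) :
    (∑ j ∈ s, f j) i = ∑ j ∈ s, f j i := map_sum (Cv.evL i) f s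

instance : SMul w.dga.C (Cv B) := ⟨fun m v i => ∑ l, (m : w.Win).1 i l • v l⟩

theorem Cv.act_apply (m : w.dga.C) (v : Cv B) (i : w.Ob) :
    (m • v) i = ∑ l, (m : w.Win).1 i l • v l := rfl

instance : Module w.dga.C (Cv B) where
  one_smul v := by
    ext i
    change ∑ l, (1 : Matrix w.Ob w.Ob w.S) i l • v l = v i
    simp only [Matrix.one_apply, ite_smul, one_smul, zero_smul]
    rw [Finset.sum_ite_eq Finset.univ i]
    simp
  mul_smul m m' v := by
    ext i
    change ∑ l, ((m : w.Win).1 * (m' : w.Win).1) i l • v l =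
      ∑ l, (m : w.Win).1 i l • ∑ l', (m' : w.Win).1 l l' • v l'
    simp only [Matrix.mul_apply, Finset.smul_sum, Finset.sum_smul]
    rw [Finset.sum_comm]
    refine Finset.sum_congr rfl fun i _ => Finset.sum_congr rfl fun l _ => ?_
    rw [mul_smul]
  smul_zero m := by
    ext i
    change ∑ l, (m : w.Win).1 i l • (0 : B.B) = 0
    simp
  smul_add m v v' := by
    ext i
    change ∑ l, (m : w.Win).1 i l • (v l + v' l) = ∑ l, (m : w.Win).1 i l • v l +
      ∑ l, (m : w.Win).1 i l • v' l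
    simp only [smul_add, Finset.sum_add_distrib]
  add_smul m m' v := by
    ext i
    change ∑ l, ((m : w.Win).1 i l + (m' : w.Win).1 i l) • v l =
      ∑ l, (m : w.Win).1 i l • v l + ∑ l, (m' : w.Win).1 i l • v l
    simp only [add_smul, Finset.sum_add_distrib]
  zero_smul v := by
    ext i
    change ∑ l, (0 : w.S) • v l = 0
    simp

instance : IsScalarTower K w.dga.C (Cv B) where
  smul_assoc r m v := by
    ext i
    change ∑ l, (r • (m : w.Win).1 i l) • v l = r • ∑ l, (m : w.Win).1 i l • v l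
    rw [Finset.smul_sum]
    exact Finset.sum_congr rfl fun l _ => smul_assoc _ _ _

variable (B) in
/-- homogeneous columns -/
def grc (p a k : ℤ) : Submodule K (Cv B) where
  carrier := {v | ∀ i, v i ∈ B.pb (w.P i - p) (w.A i - a) k}
  zero_mem' := fun _ => Submodule.zero_mem _
  add_mem' := fun h h' i => Submodule.add_mem _ (h i) (h' i)
  smul_mem' := fun r _ h i => Submodule.smul_mem _ r (h i)

theorem mem_grc {p a k : ℤ} {v : Cv B} :
    v ∈ grc B p a k ↔ ∀ i, v i ∈ B.pb (w.P i - p) (w.A i - a) k := Iff.rfl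

variable (B) in
/-- the differential of columns -/
def dc : Cv B →ₗ[K] Cv B where
  toFun v := fun i => B.d (v i)
  map_add' v v' := by
    ext i
    exact map_add B.d _ _
  map_smul' r v := by
    ext i
    exact map_smul B.d _ _

theorem dc_apply (v : Cv B) (i : w.Ob) : dc B v i = B.d (v i) := rfl

variable (B) in
/-- **the column of `B` at the position `(p, a)`** -/
abbrev colL (p a : ℤ) : LM w.dga where
  X := Cv B
  gr := grc B p a
  d := dc B
  d_mem {k v} hv := fun i => B.d_mem (hv i)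
  d_d v := by
    ext i
    exact B.d_d _
  smul_mem {k l m v} hm hv := by
    intro i
    rw [Cv.act_apply]
    exact Submodule.sum_mem _ fun j _ => B.cast (B.smul_mem (hm i j) (hv j)) (by ring) (by ring) rfl
  leib m v := by
    ext i
    rw [dc_apply, Cv.add_apply, Cv.act_apply, Cv.act_apply, Cv.act_apply, map_sum,
      ← Finset.sum_add_distrib]
    refine Finset.sum_congr rfl fun l _ => ?_
    rw [B.d_smul]
    rfl

end Cv

/-- `Y ⊗` column -/
noncomputable abbrev Sc (Y : RCells w.dga) (B : LB w) (p a : ℤ) : GC K := tY Y (colL B p a)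

section Sc

variable {Y : RCells w.dga} {B : LB w}

theorem mem_Sc {p a k : ℤ} {x : Y.ι →₀ Cv B} : x ∈ (Sc Y B p a).gr k ↔
    ∀ σ, (∀ i, x σ i ∈ B.pb (w.P i - p) (w.A i - a) (k - Y.s σ)) ∧ Y.e σ • x σ = x σ := Iff.rfl

theorem Sc_d (p a : ℤ) (x : Y.ι →₀ Cv B) (S : Finset Y.ι) (hS : x.support ⊆ S) (τ : Y.ι) :
    (show Y.ι →₀ Cv B from (Sc Y B p a).d x) τ = dc B (x τ) + ∑ σ ∈ S, Y.c τ σ • x σ :=
  (twY Y (colL B p a)).dd_apply' x S hS τ

/-- families with entries in `F` -/
def TFc (Y : RCells w.dga) (B : LB w) (F : Submodule K B.B) : Submodule K (Y.ι →₀ Cv B) where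
  carrier := {x | ∀ σ i, x σ i ∈ F}
  zero_mem' := fun _ _ => Submodule.zero_mem _
  add_mem' := fun h h' σ i => Submodule.add_mem _ (h σ i) (h' σ i)
  smul_mem' := fun r _ h σ i => Submodule.smul_mem _ r (h σ i)

theorem mem_TFc {F : Submodule K B.B} {x : Y.ι →₀ Cv B} :
    x ∈ TFc Y B F ↔ ∀ σ i, x σ i ∈ F := Iff.rfl

theorem TFc_top : TFc Y B ⊤ = ⊤ := by
  rw [eq_top_iff]
  intro x _ σ i
  exact Submodule.mem_top

theorem TFc_bot : TFc Y B ⊥ = ⊥ := by
  rw [eq_bot_iff]
  intro x hx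
  rw [Submodule.mem_bot]
  refine Finsupp.ext fun σ => ?_
  ext i
  exact (Submodule.mem_bot K).1 (hx σ i)

theorem TFc_mono {F F' : Submodule K B.B} (h : F ≤ F') : TFc Y B F ≤ TFc Y B F' :=
  fun _ hx σ i => h (hx σ i)

/-- stable submodules -/
structure Stab (B : LB w) (F : Submodule K B.B) : Prop where
  smul : ∀ (a : w.S) {b : B.B}, b ∈ F → a • b ∈ F
  d : ∀ {b : B.B}, b ∈ F → B.d b ∈ F

theorem Stab.act {F : Submodule K B.B} (h : Stab B F) (m : w.dga.C) {v : Cv B}
    (hv : ∀ i, v i ∈ F) (i : w.Ob) : (m • v) i ∈ F := by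
  rw [Cv.act_apply]
  exact Submodule.sum_mem _ fun l _ => h.smul _ (hv l)

theorem Stab.TFc_d {F : Submodule K B.B} (h : Stab B F) (p a : ℤ) {x : Y.ι →₀ Cv B}
    (hx : x ∈ TFc Y B F) : (Sc Y B p a).d x ∈ TFc Y B F := by
  intro τ i
  have e := Sc_d (Y := Y) (B := B) p a x x.support (Finset.Subset.refl _) τ
  have e2 := congrFun e i
  refine (show (show Y.ι →₀ Cv B from (Sc Y B p a).d x) τ i ∈ F from ?_)
  rw [e2, Cv.add_apply, Cv.sum_apply]
  exact Submodule.add_mem _ (h.d (hx τ i)) (Submodule.sum_mem _ fun σ _ => h.act _ (hx σ) i)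

end Sc

/-! ### maps -/

/-- morphisms of tri-graded dg modules -/
structure LH (B B' : LB w) (dP dC : ℤ) where
  f : B.B →ₗ[K] B'.B
  smul : ∀ (a : w.S) (b : B.B), f (a • b) = a • f b
  comm : ∀ b : B.B, B'.d (f b) = f (B.d b)
  mem : ∀ {P A C : ℤ} {b : B.B}, b ∈ B.pb P A C → f b ∈ B'.pb (P + dP) A (C + dC)

section maps

variable {Y : RCells w.dga} {B B' : LB w} {dP dC : ℤ}

/-- entrywise map of columns -/
def cm (f : B.B →ₗ[K] B'.B) : Cv B →ₗ[K] Cv B' where
  toFun v := fun i => f (v i)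
  map_add' v v' := by
    ext i
    exact map_add f _ _
  map_smul' r v := by
    ext i
    exact map_smul f _ _

theorem cm_apply (f : B.B →ₗ[K] B'.B) (v : Cv B) (i : w.Ob) : cm f v i = f (v i) := rfl

variable (Y) in
/-- entrywise map of families of columns -/
noncomputable def mp (f : B.B →ₗ[K] B'.B) : (Y.ι →₀ Cv B) →ₗ[K] (Y.ι →₀ Cv B') :=
  Finsupp.mapRange.linearMap (cm f)

theorem mp_apply (f : B.B →ₗ[K] B'.B) (x : Y.ι →₀ Cv B) (σ : Y.ι) (i : w.Ob) :
    mp Y f x σ i = f (x σ i) := by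
  rw [mp, Finsupp.mapRange.linearMap_apply, Finsupp.mapRange_apply]
  rfl

theorem mp_apply' (f : B.B →ₗ[K] B'.B) (x : Y.ι →₀ Cv B) (σ : Y.ι) :
    mp Y f x σ = cm f (x σ) := by
  rw [mp, Finsupp.mapRange.linearMap_apply, Finsupp.mapRange_apply]

theorem LH.cm_smul (f : LH B B' dP dC) (m : w.dga.C) (v : Cv B) :
    cm f.f (m • v) = m • cm f.f v := by
  ext i
  rw [cm_apply, Cv.act_apply, Cv.act_apply, map_sum]
  exact Finset.sum_congr rfl fun l _ => f.smul _ _

theorem LH.mp_d (f : LH B B' dP dC) (p a p' a' : ℤ) (x : Y.ι →₀ Cv B) :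
    (Sc Y B' p' a').d (mp Y f.f x) = mp Y f.f ((Sc Y B p a).d x) := by
  refine Finsupp.ext fun τ => ?_
  have hs : (mp Y f.f x).support ⊆ x.support := by
    intro σ hσ
    rw [Finsupp.mem_support_iff] at hσ ⊢
    intro h0
    apply hσ
    rw [mp_apply', h0, map_zero]
  have e1 := Sc_d (Y := Y) (B := B') p' a' (mp Y f.f x) x.support hs τ
  have e2 := Sc_d (Y := Y) (B := B) p a x x.support (Finset.Subset.refl _) τ
  refine (show (show Y.ι →₀ Cv B' from (Sc Y B' p' a').d (mp Y f.f x)) τ =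
    mp Y f.f (show Y.ι →₀ Cv B from (Sc Y B p a).d x) τ from ?_)
  rw [e1, mp_apply' f.f (show Y.ι →₀ Cv B from (Sc Y B p a).d x) τ, e2, map_add, map_sum]
  congr 1
  · rw [mp_apply']
    ext i
    exact f.comm _
  · refine Finset.sum_congr rfl fun σ _ => ?_
    rw [mp_apply', f.cm_smul]

theorem LH.mp_gr (f : LH B B' dP dC) {p p' a m : ℤ} (hp : p = p' + dP) {x : Y.ι →₀ Cv B}
    (hx : x ∈ (Sc Y B p a).gr m) : mp Y f.f x ∈ (Sc Y B' p' a).gr (m + dC) := by
  rw [mem_Sc] at hx ⊢
  intro σ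
  refine ⟨fun i => ?_, ?_⟩
  · rw [mp_apply]
    exact B'.cast (f.mem ((hx σ).1 i)) (by rw [hp]; ring) rfl (by ring)
  · rw [mp_apply', ← f.cm_smul, (hx σ).2]

end maps

/-! ### copies -/

/-- `F / F'` is a sum of shifted copies of `S0 / J0` -/
structure Cop (S0 : LB w) (J0 : Submodule K S0.B) (B : LB w) (F F' : Submodule K B.B) (uP : ℤ) where
  κ : Type
  [fin : Fintype κ]
  uC : κ → ℤ
  u : ∀ k, LH S0 B uP (uC k)
  st : Stab B F'
  u_F : ∀ k z, (u k).f z ∈ F
  u_J : ∀ k z, z ∈ J0 → (u k).f z ∈ F'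
  gen : ∀ {P A C : ℤ} {x : B.B}, x ∈ F → x ∈ B.pb P A C →
    ∃ z : κ → S0.B, (∀ k, z k ∈ S0.pb (P - uP) A (C - uC k)) ∧ x - ∑ k, (u k).f (z k) ∈ F'
  uniq : ∀ z : κ → S0.B, ∑ k, (u k).f (z k) ∈ F' → ∀ k, z k ∈ J0

attribute [instance] Cop.fin

section Cop

variable {Y : RCells w.dga} {S0 B : LB w} {J0 : Submodule K S0.B} {F F' : Submodule K B.B} {uP : ℤ}

theorem smul_gr {p a k : ℤ} (σ : Y.ι) {v : Cv B} (hv : v ∈ grc B p a k) :
    Y.e σ • v ∈ grc B p a k := by
  have h := (colL B p a).smul_mem (Y.e_mem σ) hv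
  rwa [zero_add] at h

theorem e_e (σ : Y.ι) (v : Cv B) : Y.e σ • (Y.e σ • v) = Y.e σ • v := by
  rw [smul_smul, Y.e_idem]

theorem sum_mp_apply {κ : Type} [Fintype κ] (f : κ → (S0.B →ₗ[K] B.B)) (z : κ → (Y.ι →₀ Cv S0))
    (σ : Y.ι) : (∑ k, mp Y (f k) (z k)) σ = ∑ k, cm (f k) (z k σ) := by
  rw [Finsupp.finsetSum_apply]
  exact Finset.sum_congr rfl fun k _ => mp_apply' _ _ _

theorem sum_mp_apply' {κ : Type} [Fintype κ] (f : κ → (S0.B →ₗ[K] B.B)) (z : κ → (Y.ι →₀ Cv S0))
    (σ : Y.ι) (i : w.Ob) : (∑ k, mp Y (f k) (z k)) σ i = ∑ k, f k (z k σ i) := by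
  rw [sum_mp_apply, Cv.sum_apply]
  rfl

theorem Cop.ac (h : Cop S0 J0 B F F' uP) {p a n : ℤ}
    (ih : ∀ k, AcQ (Sc Y S0 (p + uP) a) ⊤ (TFc Y S0 J0) (n - h.uC k)) :
    AcQ (Sc Y B p a) (TFc Y B F) (TFc Y B F') n := by
  classical
  refine AcQ.copies (Y := Sc Y B p a) (fun x hx => h.st.TFc_d p a hx)
    (fun _ => Sc Y S0 (p + uP) a) (fun _ => TFc Y S0 J0) h.uC (fun k => mp Y (h.u k).f)
    ?_ ?_ ?_ ?_ ?_ ?_ ih
  · intro k m z hz
    exact (h.u k).mp_gr rfl hz
  · intro k z σ i
    rw [mp_apply]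
    exact h.u_F k _
  · intro k z hz σ i
    rw [mp_apply]
    exact h.u_J k _ (hz σ i)
  · intro k z
    have e := (h.u k).mp_d (Y := Y) (p + uP) a p a z
    rw [e, sub_self]
    exact Submodule.zero_mem _
  · intro x hx hF
    have hx' := mem_Sc.1 hx
    have H : ∀ σ i, ∃ z : h.κ → S0.B,
        (∀ k, z k ∈ S0.pb (w.P i - p - uP) (w.A i - a) (n - Y.s σ - h.uC k)) ∧
        (show Y.ι →₀ Cv B from x) σ i - ∑ k, (h.u k).f (z k) ∈ F' :=
      fun σ i => h.gen (hF σ i) ((hx' σ).1 i)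
    choose z hz hz' using H
    let X : Y.ι →₀ Cv B := x
    let g : h.κ → Y.ι → Cv S0 := fun k σ => if σ ∈ X.support then
      Y.e σ • (show Cv S0 from fun i => z σ i k) else 0
    let G : h.κ → (Y.ι →₀ Cv S0) := fun k => Finsupp.onFinset X.support (g k) fun σ hσ => by
      by_contra hc
      exact hσ (if_neg hc)
    have hG : ∀ k σ, G k σ = g k σ := fun k σ => rfl
    refine ⟨G, ?_, ?_⟩
    · intro k
      rw [mem_Sc]
      intro σ
      rw [hG]
      by_cases hσ : σ ∈ X.support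
      · have e : g k σ = Y.e σ • (show Cv S0 from fun i => z σ i k) := if_pos hσ
        rw [e]
        refine ⟨fun i => ?_, e_e σ _⟩
        refine smul_gr (p := p + uP) (a := a) (k := n - h.uC k - Y.s σ) σ
          (v := (show Cv S0 from fun i => z σ i k)) ?_ i
        intro i
        exact S0.cast (hz σ i k) (by ring) rfl (by ring)
      · have e : g k σ = 0 := if_neg hσ
        rw [e]
        exact ⟨fun i => Submodule.zero_mem _, smul_zero _⟩
    · intro σ i
      refine (show (X - ∑ k, mp Y (h.u k).f (G k)) σ i ∈ F' from ?_)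
      rw [Finsupp.sub_apply, Cv.sub_apply, sum_mp_apply]
      by_cases hσ : σ ∈ X.support
      · have e : ∀ k, cm (h.u k).f (G k σ) =
            Y.e σ • cm (h.u k).f (show Cv S0 from fun i => z σ i k) := by
          intro k
          rw [hG, show g k σ = _ from if_pos hσ, (h.u k).cm_smul]
        have e2 : (X σ) i - (∑ k, cm (h.u k).f (G k σ)) i =
            (Y.e σ • (X σ - ∑ k, cm (h.u k).f (show Cv S0 from fun i => z σ i k))) i := by
          rw [smul_sub, Finset.smul_sum, Cv.sub_apply, Finset.sum_congr rfl fun k _ => e k]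
          rw [show Y.e σ • X σ = X σ from (hx' σ).2]
        rw [e2]
        refine h.st.act _ (fun j => ?_) i
        rw [Cv.sub_apply, Cv.sum_apply]
        exact hz' σ j
      · have e0 : X σ = 0 := Finsupp.notMem_support_iff.1 hσ
        have e1 : ∀ k, cm (h.u k).f (G k σ) = 0 := by
          intro k
          rw [hG, show g k σ = _ from if_neg hσ, map_zero]
        rw [e0, Finset.sum_congr rfl fun k _ => e1 k, Finset.sum_const_zero, Cv.zero_apply,
          sub_zero]
        exact Submodule.zero_mem _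
  · intro z _ hz k σ i
    refine h.uniq (fun k => z k σ i) ?_ k
    have h2 := hz σ i
    rw [sum_mp_apply'] at h2
    exact h2

end Cop

/-! ### the right Koszul column -/

/-- right Koszul column of `S0 / J` -/
structure Kz (S0 : LB w) (J : Submodule K S0.B) where
  x : Fin 2 → LH S0 S0 1 0
  kk : Fin 2 → LH S0 S0 1 0
  st : Stab S0 J
  x_J : ∀ j z, z ∈ J → (x j).f z ∈ J
  k_J : ∀ j z, z ∈ J → (kk j).f z ∈ J
  xk : ∀ z, ∑ j, (x j).f ((kk j).f z) ∈ J
  gen : ∀ {P A C : ℤ} {y : S0.B}, 1 ≤ P → y ∈ S0.pb P A C →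
    ∃ z : Fin 2 → S0.B, (∀ j, z j ∈ S0.pb (P - 1) A C) ∧ y - ∑ j, (x j).f (z j) ∈ J
  ker : ∀ {P A C : ℤ} (z : Fin 2 → S0.B), (∀ j, z j ∈ S0.pb P A C) → ∑ j, (x j).f (z j) ∈ J →
    ∃ s ∈ S0.pb (P - 1) A C, ∀ j, z j - (kk j).f s ∈ J
  inj : ∀ {s : S0.B}, (kk 0).f s ∈ J → s ∈ J

section Kz

variable {Y : RCells w.dga} {S0 : LB w} {J : Submodule K S0.B}

theorem Kz.ac (h : Kz S0 J) {p a n : ℤ} (hp : ∀ i, p ≤ w.P i)
    (a1 : AcQ (Sc Y S0 p a) ⊤ (TFc Y S0 J) n)
    (a0 : AcQ (Sc Y S0 (p + 1) a) ⊤ (TFc Y S0 J) (n - 1)) :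
    AcQ (Sc Y S0 (p - 1) a) ⊤ (TFc Y S0 J) n := by
  classical
  refine AcQ.koszul (Y := Sc Y S0 (p - 1) a) (fun x hx => h.st.TFc_d (p - 1) a hx)
    (Sc Y S0 p a) (Sc Y S0 (p + 1) a) (TFc Y S0 J) (TFc Y S0 J) (fun x hx => h.st.TFc_d p a hx)
    (fun j => mp Y (h.x j).f) (fun j => mp Y (h.kk j).f) ?_ ?_ ?_ ?_ ?_ ?_ ?_ ?_ ?_ ?_ a1 a0
  · intro j m z hz
    have := (h.x j).mp_gr (p' := p - 1) (by ring) hz
    rwa [add_zero] at this
  · intro j m z hz
    have := (h.kk j).mp_gr (p' := p) rfl hz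
    rwa [add_zero] at this
  · intro j z hz σ i
    rw [mp_apply]
    exact h.x_J j _ (hz σ i)
  · intro j z hz σ i
    rw [mp_apply]
    exact h.k_J j _ (hz σ i)
  · intro j z
    have e := (h.x j).mp_d (Y := Y) p a (p - 1) a z
    rw [e, sub_self]
    exact Submodule.zero_mem _
  · intro j z
    have e := (h.kk j).mp_d (Y := Y) (p + 1) a p a z
    rw [e, sub_self]
    exact Submodule.zero_mem _
  · intro z σ i
    rw [sum_mp_apply']
    have e : ∀ j, (h.x j).f (mp Y (h.kk j).f z σ i) = (h.x j).f ((h.kk j).f (z σ i)) := by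
      intro j
      rw [mp_apply]
    rw [Finset.sum_congr rfl fun j _ => e j]
    exact h.xk _
  · intro y hy
    have hy' := mem_Sc.1 hy
    have H : ∀ σ i, ∃ z : Fin 2 → S0.B,
        (∀ k, z k ∈ S0.pb (w.P i - p) (w.A i - a) (n - Y.s σ)) ∧
        (show Y.ι →₀ Cv S0 from y) σ i - ∑ k, (h.x k).f (z k) ∈ J := by
      intro σ i
      have := h.gen (P := w.P i - (p - 1)) (by have := hp i; omega) ((hy' σ).1 i)
      rwa [show w.P i - (p - 1) - 1 = w.P i - p by ring] at this
    choose z hz hz' using H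
    let X : Y.ι →₀ Cv S0 := y
    let g : Fin 2 → Y.ι → Cv S0 := fun k σ => if σ ∈ X.support then
      Y.e σ • (show Cv S0 from fun i => z σ i k) else 0
    let G : Fin 2 → (Y.ι →₀ Cv S0) := fun k => Finsupp.onFinset X.support (g k) fun σ hσ => by
      by_contra hc
      exact hσ (if_neg hc)
    have hG : ∀ k σ, G k σ = g k σ := fun k σ => rfl
    refine ⟨G, ?_, ?_⟩
    · intro k
      rw [mem_Sc]
      intro σ
      rw [hG]
      by_cases hσ : σ ∈ X.support
      · have e : g k σ = Y.e σ • (show Cv S0 from fun i => z σ i k) := if_pos hσ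
        rw [e]
        refine ⟨fun i => ?_, e_e σ _⟩
        refine smul_gr (p := p) (a := a) (k := n - Y.s σ) σ
          (v := (show Cv S0 from fun i => z σ i k)) ?_ i
        intro i
        exact hz σ i k
      · have e : g k σ = 0 := if_neg hσ
        rw [e]
        exact ⟨fun i => Submodule.zero_mem _, smul_zero _⟩
    · intro σ i
      refine (show (X - ∑ k, mp Y (h.x k).f (G k)) σ i ∈ J from ?_)
      rw [Finsupp.sub_apply, Cv.sub_apply, sum_mp_apply]
      by_cases hσ : σ ∈ X.support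
      · have e : ∀ k, cm (h.x k).f (G k σ) =
            Y.e σ • cm (h.x k).f (show Cv S0 from fun i => z σ i k) := by
          intro k
          rw [hG, show g k σ = _ from if_pos hσ, (h.x k).cm_smul]
        have e2 : (X σ) i - (∑ k, cm (h.x k).f (G k σ)) i =
            (Y.e σ • (X σ - ∑ k, cm (h.x k).f (show Cv S0 from fun i => z σ i k))) i := by
          rw [smul_sub, Finset.smul_sum, Cv.sub_apply, Finset.sum_congr rfl fun k _ => e k]
          rw [show Y.e σ • X σ = X σ from (hy' σ).2]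
        rw [e2]
        refine h.st.act _ (fun j => ?_) i
        rw [Cv.sub_apply, Cv.sum_apply]
        exact hz' σ j
      · have e0 : X σ = 0 := Finsupp.notMem_support_iff.1 hσ
        have e1 : ∀ k, cm (h.x k).f (G k σ) = 0 := by
          intro k
          rw [hG, show g k σ = _ from if_neg hσ, map_zero]
        rw [e0, Finset.sum_congr rfl fun k _ => e1 k, Finset.sum_const_zero, Cv.zero_apply,
          sub_zero]
        exact Submodule.zero_mem _
  · intro z hz hzJ
    have hz' : ∀ j, ∀ σ, (∀ i, (show Y.ι →₀ Cv S0 from z j) σ i ∈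
        S0.pb (w.P i - p) (w.A i - a) (n - 1 - Y.s σ)) ∧ Y.e σ • (show Y.ι →₀ Cv S0 from z j) σ =
        (show Y.ι →₀ Cv S0 from z j) σ := fun j => mem_Sc.1 (hz j)
    let X : Fin 2 → (Y.ι →₀ Cv S0) := z
    have H : ∀ σ i, ∃ s ∈ S0.pb (w.P i - p - 1) (w.A i - a) (n - 1 - Y.s σ),
        ∀ j, X j σ i - (h.kk j).f s ∈ J := by
      intro σ i
      refine h.ker (fun j => X j σ i) (fun j => (hz' j σ).1 i) ?_
      have h2 := hzJ σ i
      rw [sum_mp_apply'] at h2
      exact h2
    choose s hs hs' using H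
    let T : Finset Y.ι := (X 0).support ∪ (X 1).support
    let g : Y.ι → Cv S0 := fun σ => if σ ∈ T then
      Y.e σ • (show Cv S0 from fun i => s σ i) else 0
    let G : Y.ι →₀ Cv S0 := Finsupp.onFinset T g fun σ hσ => by
      by_contra hc
      exact hσ (if_neg hc)
    have hG : ∀ σ, G σ = g σ := fun σ => rfl
    refine ⟨G, ?_, ?_⟩
    · rw [mem_Sc]
      intro σ
      rw [hG]
      by_cases hσ : σ ∈ T
      · have e : g σ = Y.e σ • (show Cv S0 from fun i => s σ i) := if_pos hσ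
        rw [e]
        refine ⟨fun i => ?_, e_e σ _⟩
        refine smul_gr (p := p + 1) (a := a) (k := n - 1 - Y.s σ) σ
          (v := (show Cv S0 from fun i => s σ i)) ?_ i
        intro i
        exact S0.cast (hs σ i) (by ring) rfl rfl
      · have e : g σ = 0 := if_neg hσ
        rw [e]
        exact ⟨fun i => Submodule.zero_mem _, smul_zero _⟩
    · intro j σ i
      refine (show (X j - mp Y (h.kk j).f G) σ i ∈ J from ?_)
      rw [Finsupp.sub_apply, Cv.sub_apply, mp_apply']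
      by_cases hσ : σ ∈ T
      · have e : cm (h.kk j).f (G σ) =
            Y.e σ • cm (h.kk j).f (show Cv S0 from fun i => s σ i) := by
          rw [hG, show g σ = _ from if_pos hσ, (h.kk j).cm_smul]
        have e2 : (X j σ) i - (cm (h.kk j).f (G σ)) i =
            (Y.e σ • (X j σ - cm (h.kk j).f (show Cv S0 from fun i => s σ i))) i := by
          rw [smul_sub, Cv.sub_apply, e]
          rw [show Y.e σ • X j σ = X j σ from (hz' j σ).2]
        rw [e2]
        refine h.st.act _ (fun i => ?_) i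
        rw [Cv.sub_apply]
        exact hs' σ i j
      · have e0 : X j σ = 0 := by
          have h1 : σ ∉ (X 0).support := fun hc => hσ (Finset.mem_union_left _ hc)
          have h2 : σ ∉ (X 1).support := fun hc => hσ (Finset.mem_union_right _ hc)
          have hj : j = 0 ∨ j = 1 := by omega
          rcases hj with rfl | rfl
          · exact Finsupp.notMem_support_iff.1 h1
          · exact Finsupp.notMem_support_iff.1 h2
        have e1 : cm (h.kk j).f (G σ) = 0 := by
          rw [hG, show g σ = _ from if_neg hσ, map_zero]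
        rw [e0, e1, Cv.zero_apply, sub_zero]
        exact Submodule.zero_mem _
  · intro s _ hs σ i
    have h2 := hs σ i
    rw [mp_apply] at h2
    exact h.inj h2

end Kz

/-! ### the degree induction -/

section deg

variable {Y : RCells w.dga} {S0 : LB w} {J F1 : Submodule K S0.B}

/-- two-step filtration `⊤ ⊇ J ⊇ F1 ⊇ 0` by non-negatively shifted copies of `S0 / J` -/
theorem deg (neg : ∀ {P A C : ℤ}, C < 0 → S0.pb P A C = ⊥)
    (hJ : F1 ≤ J) (c1 : Cop S0 J S0 J F1 0) (c2 : Cop S0 J S0 F1 ⊥ 0)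
    (n1 : ∀ k, 0 ≤ c1.uC k) (n2 : ∀ k, 0 ≤ c2.uC k) {p a : ℤ}
    (base : ∀ n, AcQ (Sc Y S0 p a) ⊤ ⊥ n) : ∀ n, AcQ (Sc Y S0 p a) ⊤ (TFc Y S0 J) n := by
  have key : ∀ (N : ℕ) (n : ℤ), n < N → AcQ (Sc Y S0 p a) ⊤ (TFc Y S0 J) n := by
    intro N
    induction N with
    | zero =>
      intro n hn x hx _ _
      refine ⟨0, Submodule.zero_mem _, Submodule.mem_top, ?_⟩
      rw [map_zero, sub_zero]
      intro σ i
      have h := (mem_Sc.1 hx σ).1 i
      rw [neg (by push_cast at hn; omega)] at h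
      rw [(Submodule.mem_bot K).1 h]
      exact Submodule.zero_mem _
    | succ N ih =>
      intro n hn
      have h1 : AcQ (Sc Y S0 p a) (TFc Y S0 J) (TFc Y S0 F1) (n - 1) := by
        refine c1.ac fun k => ?_
        rw [add_zero]
        have := n1 k
        exact ih _ (by push_cast at hn; omega)
      have h2 : AcQ (Sc Y S0 p a) (TFc Y S0 F1) ⊥ (n - 1) := by
        rw [← TFc_bot]
        refine c2.ac fun k => ?_
        rw [add_zero]
        have := n2 k
        exact ih _ (by push_cast at hn; omega)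
      have h3 : AcQ (Sc Y S0 p a) (TFc Y S0 J) ⊥ (n - 1) :=
        AcQ.trans (TFc_mono hJ) bot_le h1 h2
      have h4 := AcQ.quot (Y := Sc Y S0 p a) (F := ⊤) (F' := TFc Y S0 J) (F'' := ⊥) (n := n - 1)
        le_top bot_le (base _) h3
      rwa [sub_add_cancel] at h4
  intro n
  exact key (n.toNat + 1) n (by push_cast; omega)

end deg

end Crest.Agent.R186.Col921
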