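import Crest.Agent.R186.C1Q_611
import Crest.Agent.R186.C1F_154
import Crest.Agent.R186.Col_921
import Crest.Agent.R186.KosJ_374

/-!
Row 186, half (A), leaf (c1), item (beta) (helper763): for right cells `Y → D(tL)` over `L`,
`Y ⊗ tL → D(L)` has an acyclic cone.

Columns `(p, a)`: `F(p, a) : Y ⊗ col (p, a) → D (row (p + 1, a))`; `F(0, a), F(1, a)` from the
resolution, `F(-1, a)` by the Koszul step, and the join.
-/

set_option autoImplicit false
set_option linter.style.haveILetI false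
set_option linter.unusedSectionVars false

noncomputable section

open MulOpposite

namespace Crest.Agent.R186.Beta763

open Hat827 Frame515 Res255 Win810 Win810.WD Col921 C1F154 C1x134 C1P611 C1Q611 FinV988 Core890
open SM890 WL221 DefsQ830 WBM163

variable {K : Type} [Field K]

/-! ### linear algebra -/

section lin

variable {V : Type} [AddCommGroup V] [Module K V]

/-- a projection onto a subspace -/
theorem exists_prj (E : Submodule K V) : ∃ p : V →ₗ[K] V, (∀ v, p v ∈ E) ∧ ∀ v ∈ E, p v = v := by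
  obtain ⟨r, hr⟩ := LinearMap.exists_leftInverse_of_injective E.subtype E.ker_subtype
  refine ⟨E.subtype ∘ₗ r, fun v => (r v).2, fun v hv => ?_⟩
  exact congrArg Subtype.val (LinearMap.congr_fun hr ⟨v, hv⟩)

def prj (E : Submodule K V) : V →ₗ[K] V := (exists_prj E).choose

theorem prj_mem (E : Submodule K V) (v : V) : prj E v ∈ E := (exists_prj E).choose_spec.1 v

theorem prj_self {E : Submodule K V} {v : V} (hv : v ∈ E) : prj E v = v :=
  (exists_prj E).choose_spec.2 v hv

end lin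

/-! ### maps of families -/

section maps

variable {A : DGA K} {Y : RCells A} {N' N : LM A} (v : N'.X →ₗ[K] N.X)

/-- the map on `Y ⊗ -` -/
def mF (Y : RCells A) : (Y.ι →₀ N'.X) →ₗ[K] (Y.ι →₀ N.X) := Finsupp.mapRange.linearMap v

theorem mF_apply (x : Y.ι →₀ N'.X) (σ : Y.ι) : mF v Y x σ = v (x σ) := rfl

theorem mF_support (x : Y.ι →₀ N'.X) : (mF v Y x).support ⊆ x.support :=
  Finsupp.support_mapRange (hf := map_zero v)

theorem mF_mem {k c : ℤ} (hs : ∀ {k : ℤ} {a : A.C} {n : N'.X}, a ∈ A.G 0 → n ∈ N'.gr k →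
      v (a • n) = a • v n)
    (hm : ∀ {k : ℤ} {n : N'.X}, n ∈ N'.gr k → v n ∈ N.gr (k + c)) {x : Y.ι →₀ N'.X}
    (hx : x ∈ (tY Y N').gr k) : mF v Y x ∈ (tY Y N).gr (k + c) := by
  intro σ
  constructor
  · have := hm (hx σ).1
    rw [show k - (Y.s σ : ℤ) + c = k + c - Y.s σ by ring] at this
    exact this
  · have h2 : Y.e σ • x σ = x σ := (hx σ).2
    change Y.e σ • v (x σ) = v (x σ)
    rw [← hs (Y.e_mem σ) (hx σ).1, h2]

theorem mF_d {k : ℤ} (hs : ∀ {k l : ℤ} {a : A.C} {n : N'.X}, a ∈ A.G l → n ∈ N'.gr k →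
      v (a • n) = a • v n)
    (hd : ∀ {k : ℤ} {n : N'.X}, n ∈ N'.gr k → v (N'.d n) = N.d (v n)) {x : Y.ι →₀ N'.X}
    (hx : x ∈ (tY Y N').gr k) : mF v Y ((tY Y N').d x) = (tY Y N).d (mF v Y x) := by
  refine Finsupp.ext fun τ => ?_
  have e1 : (tY Y N').d x τ = N'.d (x τ) + ∑ σ ∈ x.support, Y.c τ σ • x σ :=
    (twY Y N').dd_apply' x x.support (Finset.Subset.refl _) τ
  have e2 : (tY Y N).d (mF v Y x) τ = N.d (mF v Y x τ) + ∑ σ ∈ x.support, Y.c τ σ • mF v Y x σ :=
    (twY Y N).dd_apply' (mF v Y x) x.support (Finsupp.support_mapRange (hf := map_zero v)) τ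
  rw [mF_apply, e1, e2, map_add, map_sum, mF_apply, hd (hx τ).1]
  congr 1
  refine Finset.sum_congr rfl fun σ _ => ?_
  rw [hs (Y.c_mem τ σ) (hx σ).1, mF_apply]

end maps

/-! ### columns and rows of `R'` -/

variable (π : Par K) (s : ℕ)

/-- `R'` as a left module -/
abbrev lb : LB (WL π) where
  B := (WL π).S
  pb := (WL π).pc
  smul_mem ha hb := (WL π).mul_mem ha hb
  d := (WL π).D
  d_smul a b := (WL π).D_mul a b
  d_d := (WL π).D_D
  d_mem h := (WL π).D_mem h

/-- the column -/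
abbrev cl (p a : ℤ) : LM (WL π).dga := colL (lb π) p a

theorem pcc {P P' A A' C C' : ℤ} {x : (WL π).S} (h : x ∈ (WL π).pc P A C) (hP : P = P')
    (hA : A = A') (hC : C = C') : x ∈ (WL π).pc P' A' C' := by
  subst hP hA hC
  exact h

/-- the row `(p + 1, a)` -/
def rw' (p a : ℤ) : GC K where
  X := (WL π).Ob → (WL π).S
  gr l :=
    { carrier := {r | ∀ j, r j ∈ (WL π).pc (p + 1 - (WL π).P j) (a - (WL π).A j) l}
      add_mem' := fun ha hb j => Submodule.add_mem _ (ha j) (hb j)
      zero_mem' := fun _ => Submodule.zero_mem _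
      smul_mem' := fun c _ ha j => Submodule.smul_mem _ c (ha j) }
  d :=
    { toFun := fun r j => (WL π).D (r j)
      map_add' := fun r r' => funext fun j => map_add (WL π).D (r j) (r' j)
      map_smul' := fun c r => funext fun j => map_smul (WL π).D c (r j) }
  d_mem h j := (WL π).D_mem (h j)
  d_d r := funext fun j => (WL π).D_D _

theorem mem_rw {p a l : ℤ} {r : (WL π).Ob → (WL π).S} : r ∈ (rw' π p a).gr l ↔
    ∀ j, r j ∈ (WL π).pc (p + 1 - (WL π).P j) (a - (WL π).A j) l := Iff.rfl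

/-- all matrices -/
abbrev MX : Type := (tLT π s).X

/-- `n ⊗ r ↦ (n_i r_j)` -/
def bl : ((WL π).Ob → (WL π).S) →ₗ[K] ((WL π).Ob → (WL π).S) →ₗ[K] MX π s :=
  LinearMap.mk₂ K (fun n r => (fun i j => n i * r j : MX π s))
    (fun n n' r => by
      funext i j
      change (n i + n' i) * r j = n i * r j + n' i * r j
      exact add_mul _ _ _)
    (fun c n r => by
      funext i j
      change (c • n i) * r j = c • (n i * r j)
      exact smul_mul_assoc c (n i) (r j))
    (fun n r r' => by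
      funext i j
      change n i * (r j + r' j) = n i * r j + n i * r' j
      exact mul_add _ _ _)
    (fun c n r => by
      funext i j
      change n i * (c • r j) = c • (n i * r j)
      exact mul_smul_comm c (n i) (r j))

theorem bl_apply (n r : (WL π).Ob → (WL π).S) (i j : (WL π).Ob) : bl π s n r i j = n i * r j := rfl

theorem bl_mem {p a k l : ℤ} {n r : (WL π).Ob → (WL π).S} (hn : n ∈ (cl π p a).gr k)
    (hr : r ∈ (rw' π p a).gr l) : bl π s n r ∈ (tLT π s).gr (k + l + s) := by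
  intro i j
  rw [bl_apply]
  refine (le_of_eq (q_tLT π s i j (k + l + s)).symm) ?_
  refine pcc π ((WL π).mul_mem (hn i) (hr j)) (by ring) (by ring) (by ring)

variable {s}
variable {Y : RCells (WL π).dga} (R : RRes Y (DtL π s))

/-- extension of a functional to all matrices -/
theorem exists_vx (f : (tLW π s).X →ₗ[K] K) : ∃ g : MX π s →ₗ[K] K, ∀ m : Xs (tLT π s), g m.1 = f m := by
  obtain ⟨g, hg⟩ := LinearMap.exists_extend (p := Xs (tLT π s)) f
  exact ⟨g, fun m => LinearMap.congr_fun hg m⟩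

def vx (σ : Y.ι) : MX π s →ₗ[K] K := (exists_vx π (show (tLW π s).X →ₗ[K] K from R.v σ)).choose

theorem vx_apply (σ : Y.ι) (m : Xs (tLT π s)) :
    vx π R σ m.1 = dev (tLW π s).toLM m (R.v σ) :=
  (exists_vx π (show (tLW π s).X →ₗ[K] K from R.v σ)).choose_spec m

/-- a matrix in the core -/
def cr {k : ℤ} (m : MX π s) (h : m ∈ (tLT π s).gr k) : (tLW π s).X := ⟨m, gr_le_Xs _ k h⟩

/-- **the pairing at the position `(p, a)`** -/
def pA (p a : ℤ) : Pa Y (cl π p a) (rw' π p a) where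
  lo := R.lo + s
  f σ := (bl π s).compr₂ (vx π R σ)
  f_d := by
    intro σ k l n r hn hr
    have h1 : bl π s n r ∈ (tLT π s).gr (k + l + s) := bl_mem π s hn hr
    have h2 : bl π s ((cl π p a).d n) r ∈ (tLT π s).gr (k - 1 + l + s) :=
      bl_mem π s ((cl π p a).d_mem hn) hr
    have h3 : bl π s n ((rw' π p a).d r) ∈ (tLT π s).gr (k + (l - 1) + s) :=
      bl_mem π s hn ((rw' π p a).d_mem hr)
    have h := congrArg (dev (tLW π s).toLM (cr π _ h1)) (R.v_d σ)
    rw [dev_d, map_sum] at h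
    have e1 : (tLW π s).toLM.d (cr π _ h1) = cr π _ h2 + cr π _ h3 := by
      apply Subtype.ext
      funext i j
      exact (WL π).D_mul (n i) (r j)
    change vx π R σ (bl π s ((cl π p a).d n) r) + vx π R σ (bl π s n ((rw' π p a).d r)) = _
    have e2 : vx π R σ (bl π s ((cl π p a).d n) r) + vx π R σ (bl π s n ((rw' π p a).d r)) =
        dev (tLW π s).toLM (cr π _ h2 + cr π _ h3) (R.v σ) := by
      have a2 := vx_apply π R σ (cr π _ h2)
      have a3 := vx_apply π R σ (cr π _ h3)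
      refine (congrArg₂ (· + ·) a2 a3).trans ?_
      exact (map_add (show (tLW π s).X →ₗ[K] K from R.v σ) _ _).symm
    rw [e2, ← e1, h]
    refine Finset.sum_congr rfl fun τ _ => ?_
    change dev (tLW π s).toLM (Y.c τ σ • cr π _ h1) (R.v τ) = vx π R τ (bl π s (Y.c τ σ • n) r)
    rw [← vx_apply]
    refine congrArg (vx π R τ) ?_
    funext i j
    change ∑ l, ((Y.c τ σ : (WL π).dga.C) : (WL π).Win).1 i l * (n l * r j) =
      (∑ l, ((Y.c τ σ : (WL π).dga.C) : (WL π).Win).1 i l * n l) * r j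
    rw [Finset.sum_mul]
    exact Finset.sum_congr rfl fun l _ => (mul_assoc _ _ _).symm

theorem pA_f (p a : ℤ) (σ : Y.ι) (n : (cl π p a).X) (r : (rw' π p a).X) :
    (pA π R p a).f σ n r = vx π R σ (bl π s n r) := rfl

/-! ### one column, one row -/

section mats

variable (E0 : (WL π).Ob → (WL π).Ob → Submodule K (WL π).S) (o : (WL π).Ob)

/-- one column -/
def cM0 : ((WL π).Ob → (WL π).S) →ₗ[K] ((WL π).Ob → (WL π).Ob → (WL π).S) where
  toFun f i j := if j = o then prj (E0 i o) (f i) else 0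
  map_add' f g := by
    funext i j
    change (if j = o then prj (E0 i o) (f i + g i) else 0) =
      (if j = o then prj (E0 i o) (f i) else 0) + (if j = o then prj (E0 i o) (g i) else 0)
    split_ifs
    · exact map_add _ _ _
    · exact (add_zero 0).symm
  map_smul' c f := by
    funext i j
    change (if j = o then prj (E0 i o) (c • f i) else 0) =
      c • (if j = o then prj (E0 i o) (f i) else 0)
    split_ifs
    · exact map_smul _ _ _
    · exact (smul_zero c).symm

/-- one row -/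
def rM0 : ((WL π).Ob → (WL π).S) →ₗ[K] ((WL π).Ob → (WL π).Ob → (WL π).S) where
  toFun f i j := if i = o then prj (E0 o j) (f j) else 0
  map_add' f g := by
    funext i j
    change (if i = o then prj (E0 o j) (f j + g j) else 0) =
      (if i = o then prj (E0 o j) (f j) else 0) + (if i = o then prj (E0 o j) (g j) else 0)
    split_ifs
    · exact map_add _ _ _
    · exact (add_zero 0).symm
  map_smul' c f := by
    funext i j
    change (if i = o then prj (E0 o j) (c • f j) else 0) =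
      c • (if i = o then prj (E0 o j) (f j) else 0)
    split_ifs
    · exact map_smul _ _ _
    · exact (smul_zero c).symm

theorem cM0_mem (f : (WL π).Ob → (WL π).S) (i j : (WL π).Ob) : cM0 π E0 o f i j ∈ E0 i j := by
  change (if j = o then prj (E0 i o) (f i) else 0) ∈ _
  split_ifs with h
  · rw [h]; exact prj_mem _ _
  · exact Submodule.zero_mem _

theorem rM0_mem (f : (WL π).Ob → (WL π).S) (i j : (WL π).Ob) : rM0 π E0 o f i j ∈ E0 i j := by
  change (if i = o then prj (E0 o j) (f j) else 0) ∈ _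
  split_ifs with h
  · rw [h]; exact prj_mem _ _
  · exact Submodule.zero_mem _

theorem cM0_self {f : (WL π).Ob → (WL π).S} (hf : ∀ i, f i ∈ E0 i o) (i j : (WL π).Ob) :
    cM0 π E0 o f i j = if j = o then f i else 0 := by
  change (if j = o then prj (E0 i o) (f i) else 0) = _
  rw [prj_self (hf i)]

theorem rM0_self {f : (WL π).Ob → (WL π).S} (hf : ∀ j, f j ∈ E0 o j) (i j : (WL π).Ob) :
    rM0 π E0 o f i j = if i = o then f j else 0 := by
  change (if i = o then prj (E0 o j) (f j) else 0) = _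
  rw [prj_self (hf j)]

end mats

/-! #### in `L` -/

section inA

variable (o : (WL π).Ob)

def cpA : (WL π).dga.C →ₗ[K] Cv (lb π) where
  toFun m := fun i => (m : (WL π).Win).1 i o
  map_add' _ _ := rfl
  map_smul' _ _ := rfl

def rpA : (WL π).dga.C →ₗ[K] ((WL π).Ob → (WL π).S) where
  toFun m := fun j => (m : (WL π).Win).1 o j
  map_add' _ _ := rfl
  map_smul' _ _ := rfl

def ciA : Cv (lb π) →ₗ[K] (WL π).dga.C where
  toFun f := (⟨Matrix.of (cM0 π (WL π).E o f), fun i j => cM0_mem π _ o f i j⟩ : (WL π).Win)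
  map_add' f g := Subtype.ext (map_add (cM0 π (WL π).E o) f g)
  map_smul' c f := Subtype.ext (map_smul (cM0 π (WL π).E o) c f)

def riA : ((WL π).Ob → (WL π).S) →ₗ[K] (WL π).dga.C where
  toFun f := (⟨Matrix.of (rM0 π (WL π).E o f), fun i j => rM0_mem π _ o f i j⟩ : (WL π).Win)
  map_add' f g := Subtype.ext (map_add (rM0 π (WL π).E o) f g)
  map_smul' c f := Subtype.ext (map_smul (rM0 π (WL π).E o) c f)

variable {π o}

theorem ciA_apply {k : ℤ} {n : Cv (lb π)} (hn : n ∈ (cl π ((WL π).P o) ((WL π).A o)).gr k)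
    (i j : (WL π).Ob) : ((ciA π o n : (WL π).dga.C) : (WL π).Win).1 i j = if j = o then n i else 0 :=
  cM0_self π (WL π).E o (fun i => WD.q_le i o k (hn i)) i j

theorem rw_A {k : ℤ} {r : (WL π).Ob → (WL π).S}
    (hr : r ∈ (rw' π ((WL π).P o - 1) ((WL π).A o)).gr k) (j : (WL π).Ob) :
    r j ∈ (WL π).q o j k := pcc π (hr j) (by ring) rfl rfl

theorem riA_apply {k : ℤ} {r : (WL π).Ob → (WL π).S}
    (hr : r ∈ (rw' π ((WL π).P o - 1) ((WL π).A o)).gr k) (i j : (WL π).Ob) :
    ((riA π o r : (WL π).dga.C) : (WL π).Win).1 i j = if i = o then r j else 0 :=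
  rM0_self π (WL π).E o (fun j => WD.q_le o j k (rw_A hr j)) i j

theorem cpA_mem {k : ℤ} {m : (WL π).dga.C} (hm : m ∈ (WL π).dga.G k) :
    cpA π o m ∈ (cl π ((WL π).P o) ((WL π).A o)).gr k := fun i => hm i o

theorem rpA_mem {k : ℤ} {m : (WL π).dga.C} (hm : m ∈ (WL π).dga.G k) :
    rpA π o m ∈ (rw' π ((WL π).P o - 1) ((WL π).A o)).gr k :=
  fun j => pcc π (hm o j) (by ring) rfl rfl

theorem ciA_mem {k : ℤ} {n : Cv (lb π)} (hn : n ∈ (cl π ((WL π).P o) ((WL π).A o)).gr k) :
    ciA π o n ∈ (WL π).dga.G k := by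
  intro i j
  rw [ciA_apply hn]
  split_ifs with h
  · rw [h]; exact hn i
  · exact Submodule.zero_mem _

theorem riA_mem {k : ℤ} {r : (WL π).Ob → (WL π).S}
    (hr : r ∈ (rw' π ((WL π).P o - 1) ((WL π).A o)).gr k) : riA π o r ∈ (WL π).dga.G k := by
  intro i j
  rw [riA_apply hr]
  split_ifs with h
  · rw [h]; exact rw_A hr j
  · exact Submodule.zero_mem _

theorem ciA_d {k : ℤ} {n : Cv (lb π)} (hn : n ∈ (cl π ((WL π).P o) ((WL π).A o)).gr k) :
    ciA π o ((cl π ((WL π).P o) ((WL π).A o)).d n) = (selfL (WL π).dga).d (ciA π o n) := by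
  apply Subtype.ext
  ext i j : 2
  rw [ciA_apply ((cl π _ _).d_mem hn)]
  change _ = (WL π).D (((ciA π o n : (WL π).dga.C) : (WL π).Win).1 i j)
  rw [ciA_apply hn]
  split_ifs
  · rfl
  · exact (map_zero _).symm

theorem riA_d {k : ℤ} {r : (WL π).Ob → (WL π).S}
    (hr : r ∈ (rw' π ((WL π).P o - 1) ((WL π).A o)).gr k) :
    riA π o ((rw' π ((WL π).P o - 1) ((WL π).A o)).d r) = (WL π).dga.D (riA π o r) := by
  apply Subtype.ext
  ext i j : 2
  rw [riA_apply ((rw' π _ _).d_mem hr)]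
  change _ = (WL π).D (((riA π o r : (WL π).dga.C) : (WL π).Win).1 i j)
  rw [riA_apply hr]
  split_ifs
  · rfl
  · exact (map_zero _).symm

theorem ciA_smul {k l : ℤ} {a : (WL π).dga.C} {n : Cv (lb π)} (ha : a ∈ (WL π).dga.G l)
    (hn : n ∈ (cl π ((WL π).P o) ((WL π).A o)).gr k) :
    ciA π o (a • n) = a * ciA π o n := by
  apply Subtype.ext
  ext i j : 2
  rw [ciA_apply ((cl π _ _).smul_mem ha hn)]
  change _ = ∑ l, (a : (WL π).Win).1 i l * ((ciA π o n : (WL π).dga.C) : (WL π).Win).1 l j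
  split_ifs with h
  · refine Finset.sum_congr rfl fun l _ => ?_
    rw [ciA_apply hn, if_pos h]
    rfl
  · symm
    refine Finset.sum_eq_zero fun l _ => ?_
    rw [ciA_apply hn, if_neg h, mul_zero]

theorem cpA_ciA {k : ℤ} {n : Cv (lb π)} (hn : n ∈ (cl π ((WL π).P o) ((WL π).A o)).gr k) :
    cpA π o (ciA π o n) = n := by
  funext i
  change ((ciA π o n : (WL π).dga.C) : (WL π).Win).1 i o = n i
  rw [ciA_apply hn, if_pos rfl]

theorem cpA_smul (a m : (WL π).dga.C) : cpA π o (a * m) = a • cpA π o m := rfl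

theorem sum_riA {k : ℤ} {b : (WL π).dga.C} (hb : b ∈ (WL π).dga.G k) :
    b = ∑ o, riA π o (rpA π o b) := by
  apply Subtype.ext
  ext i j : 2
  have e : (∑ o, riA π o (rpA π o b) : (WL π).dga.C) = (∑ o, (riA π o (rpA π o b) : (WL π).Win) : (WL π).Win) := rfl
  have e2 : ((∑ o, (riA π o (rpA π o b) : (WL π).Win) : (WL π).Win)).1 i j =
      ∑ o, (riA π o (rpA π o b) : (WL π).Win).1 i j := by
    rw [AddSubmonoidClass.coe_finsetSum, Matrix.sum_apply]
  refine Eq.trans ?_ e2.symm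
  rw [Finset.sum_eq_single i]
  · rw [riA_apply (rpA_mem hb), if_pos rfl]
    rfl
  · intro o _ ho
    rw [riA_apply (rpA_mem hb), if_neg (Ne.symm ho)]
  · intro h; exact absurd (Finset.mem_univ _) h

end inA

/-! #### in `tL` -/

section inT

variable (s) (o : (WL π).Ob)

def cpT : (tLW π s).X →ₗ[K] Cv (lb π) where
  toFun m := fun i => m.1 i o
  map_add' _ _ := rfl
  map_smul' _ _ := rfl

def rpT : (tLW π s).X →ₗ[K] ((WL π).Ob → (WL π).S) where
  toFun m := fun j => m.1 o j
  map_add' _ _ := rfl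
  map_smul' _ _ := rfl

def ciT : Cv (lb π) →ₗ[K] (tLW π s).X where
  toFun f := (⟨cM0 π (E (tLT π s)) o f, fun i j => cM0_mem π _ o f i j⟩ : Xs (tLT π s))
  map_add' f g := Subtype.ext (map_add (cM0 π (E (tLT π s)) o) f g)
  map_smul' c f := Subtype.ext (map_smul (cM0 π (E (tLT π s)) o) c f)

def riT : ((WL π).Ob → (WL π).S) →ₗ[K] (tLW π s).X where
  toFun f := (⟨rM0 π (E (tLT π s)) o f, fun i j => rM0_mem π _ o f i j⟩ : Xs (tLT π s))
  map_add' f g := Subtype.ext (map_add (rM0 π (E (tLT π s)) o) f g)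
  map_smul' c f := Subtype.ext (map_smul (rM0 π (E (tLT π s)) o) c f)

variable {π s o}

theorem cl_T {k : ℤ} {n : Cv (lb π)} (hn : n ∈ (cl π ((WL π).P o - 1) ((WL π).A o)).gr k)
    (i : (WL π).Ob) : n i ∈ (tLT π s).q i o (k + s) :=
  (le_of_eq (q_tLT π s i o (k + s)).symm) (pcc π (hn i) (by ring) rfl (by ring))

theorem rw_T {k : ℤ} {r : (WL π).Ob → (WL π).S}
    (hr : r ∈ (rw' π ((WL π).P o) ((WL π).A o)).gr k) (j : (WL π).Ob) :
    r j ∈ (tLT π s).q o j (k + s) :=
  (le_of_eq (q_tLT π s o j (k + s)).symm) (pcc π (hr j) (by ring) rfl (by ring))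

theorem ciT_apply {k : ℤ} {n : Cv (lb π)} (hn : n ∈ (cl π ((WL π).P o - 1) ((WL π).A o)).gr k)
    (i j : (WL π).Ob) : (ciT π s o n).1 i j = if j = o then n i else 0 :=
  cM0_self π (E (tLT π s)) o (fun i => q_le_E _ i o (k + s) (cl_T hn i)) i j

theorem riT_apply {k : ℤ} {r : (WL π).Ob → (WL π).S}
    (hr : r ∈ (rw' π ((WL π).P o) ((WL π).A o)).gr k) (i j : (WL π).Ob) :
    (riT π s o r).1 i j = if i = o then r j else 0 :=
  rM0_self π (E (tLT π s)) o (fun j => q_le_E _ o j (k + s) (rw_T hr j)) i j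

theorem cpT_mem {k : ℤ} {m : (tLW π s).X} (hm : m ∈ (tLW π s).gr k) :
    cpT π s o m ∈ (cl π ((WL π).P o - 1) ((WL π).A o)).gr (k - s) :=
  fun i => pcc π (mem_grtL.1 hm i o) (by ring) rfl rfl

theorem rpT_mem {k : ℤ} {m : (tLW π s).X} (hm : m ∈ (tLW π s).gr k) :
    rpT π s o m ∈ (rw' π ((WL π).P o) ((WL π).A o)).gr (k - s) :=
  fun j => pcc π (mem_grtL.1 hm o j) (by ring) rfl rfl

theorem ciT_mem {k : ℤ} {n : Cv (lb π)} (hn : n ∈ (cl π ((WL π).P o - 1) ((WL π).A o)).gr k) :
    ciT π s o n ∈ (tLW π s).gr (k + s) := by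
  intro i j
  change (ciT π s o n).1 i j ∈ (tLT π s).q i j (k + s)
  rw [ciT_apply hn]
  split_ifs with h
  · rw [h]; exact cl_T hn i
  · exact Submodule.zero_mem _

theorem riT_mem {k : ℤ} {r : (WL π).Ob → (WL π).S}
    (hr : r ∈ (rw' π ((WL π).P o) ((WL π).A o)).gr k) : riT π s o r ∈ (tLW π s).gr (k + s) := by
  intro i j
  change (riT π s o r).1 i j ∈ (tLT π s).q i j (k + s)
  rw [riT_apply hr]
  split_ifs with h
  · rw [h]; exact rw_T hr j
  · exact Submodule.zero_mem _

theorem ciT_d {k : ℤ} {n : Cv (lb π)} (hn : n ∈ (cl π ((WL π).P o - 1) ((WL π).A o)).gr k) :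
    ciT π s o ((cl π ((WL π).P o - 1) ((WL π).A o)).d n) = (tLW π s).d (ciT π s o n) := by
  apply Subtype.ext
  funext i j
  rw [ciT_apply ((cl π _ _).d_mem hn)]
  change _ = (WL π).D ((ciT π s o n).1 i j)
  rw [ciT_apply hn]
  split_ifs
  · rfl
  · exact (map_zero _).symm

theorem riT_d {k : ℤ} {r : (WL π).Ob → (WL π).S}
    (hr : r ∈ (rw' π ((WL π).P o) ((WL π).A o)).gr k) :
    riT π s o ((rw' π ((WL π).P o) ((WL π).A o)).d r) = (tLW π s).d (riT π s o r) := by
  apply Subtype.ext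
  funext i j
  rw [riT_apply ((rw' π _ _).d_mem hr)]
  change _ = (WL π).D ((riT π s o r).1 i j)
  rw [riT_apply hr]
  split_ifs
  · rfl
  · exact (map_zero _).symm

theorem ciT_smul {k l : ℤ} {a : (WL π).dga.C} {n : Cv (lb π)} (ha : a ∈ (WL π).dga.G l)
    (hn : n ∈ (cl π ((WL π).P o - 1) ((WL π).A o)).gr k) :
    ciT π s o (a • n) = a • ciT π s o n := by
  apply Subtype.ext
  funext i j
  rw [ciT_apply ((cl π _ _).smul_mem ha hn)]
  change _ = ∑ l, (a : (WL π).Win).1 i l * (show (WL π).S from (ciT π s o n).1 l j)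
  split_ifs with h
  · refine Finset.sum_congr rfl fun l _ => ?_
    rw [ciT_apply hn, if_pos h]
    rfl
  · symm
    refine Finset.sum_eq_zero fun l _ => ?_
    rw [ciT_apply hn, if_neg h]
    exact mul_zero _

theorem cpT_smul (a : (WL π).dga.C) (m : (tLW π s).X) : cpT π s o (a • m) = a • cpT π s o m := rfl

theorem sum_ciT {k : ℤ} {m : (tLW π s).X} (hm : m ∈ (tLW π s).gr k) :
    m = ∑ o, ciT π s o (cpT π s o m) := by
  apply Subtype.ext
  funext i j
  refine Eq.trans ?_ (coe_sumS _ (fun o => ciT π s o (cpT π s o m)) i j).symm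
  rw [Finset.sum_eq_single j]
  · rw [ciT_apply (cpT_mem hm), if_pos rfl]
    rfl
  · intro o _ ho
    rw [ciT_apply (cpT_mem hm), if_neg (Ne.symm ho)]
    rfl
  · intro h; exact absurd (Finset.mem_univ _) h

end inT

/-! ### the pairing of `Y ⊗ L` with `tL` -/

/-- left multiplication as a bilinear map -/
def lbm : (WL π).dga.C →ₗ[K] (tLW π s).X →ₗ[K] (tLW π s).X :=
  LinearMap.mk₂ K (fun a z => a • z) (fun a b z => add_smul a b z) (fun c a z => smul_assoc c a z)
    (fun a z z' => smul_add a z z') (fun c a z => by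
      change (lmul (tLW π s).toLM a) (c • z) = c • (lmul (tLW π s).toLM a) z
      exact map_smul _ _ _)

/-- the pairing `(a, z) ↦ v_σ (a z)` -/
def pL : Pa Y (selfL (WL π).dga) (tLW π s).toLM.toGC where
  lo := R.lo
  f σ := (lbm π).compr₂ (show (tLW π s).X →ₗ[K] K from R.v σ)
  f_d := by
    intro σ k l a z _ _
    have h := congrArg (dev (tLW π s).toLM ((show (WL π).dga.C from a) • z)) (R.v_d σ)
    rw [dev_d, map_sum] at h
    have e1 : (tLW π s).toLM.d ((show (WL π).dga.C from a) • z) =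
        (WL π).dga.D a • z + (show (WL π).dga.C from a) • (tLW π s).toLM.d z := (tLW π s).leib a z
    rw [e1] at h
    have e2 : dev (tLW π s).toLM ((WL π).dga.D a • z + (show (WL π).dga.C from a) •
        (tLW π s).toLM.d z) (R.v σ) = dev (tLW π s).toLM ((WL π).dga.D a • z) (R.v σ) +
        dev (tLW π s).toLM ((show (WL π).dga.C from a) • (tLW π s).toLM.d z) (R.v σ) :=
      map_add (show (tLW π s).X →ₗ[K] K from R.v σ) _ _
    rw [e2] at h
    refine h.trans ?_
    refine Finset.sum_congr rfl fun τ _ => ?_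
    change dev (tLW π s).toLM (Y.c τ σ • ((show (WL π).dga.C from a) • z)) (R.v τ) =
      dev (tLW π s).toLM ((Y.c τ σ * (show (WL π).dga.C from a)) • z) (R.v τ)
    rw [mul_smul]

theorem pL_f (σ : Y.ι) (a : (WL π).dga.C) (z : (tLW π s).X) :
    (pL π R).f σ a z = dev (tLW π s).toLM (a • z) (R.v σ) := rfl

theorem pL_off : Off (Z := (tLW π s).toLM) (pL π R) := by
  intro σ k l a z ha hz hne
  have h := (tLW π s).toLM.smul_mem ha hz
  exact R.v_mem σ _ _ h (by
    intro h0
    apply hne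
    change k + l + R.lo + Y.s σ = 0
    omega)

theorem pL_evD : evD (Z := (tLW π s).toLM) (pL π R) = augR Y (DtL π s) R.v := by
  apply Finsupp.lhom_ext
  intro σ a
  refine Eq.trans ?_ (augR_single Y (DtL π s) R.v σ a).symm
  refine DR_ext fun z => ?_
  rw [dev_evD, Pa.ev_single]
  rfl

/-- the resolution in 134's form -/
theorem pL_ex (k : ℤ) : (pL π R).ExAt k := by
  refine ex_of_ce (Z := (tLW π s).toLM) (pL π R) (pL_off π R) (prLtL π s) ?_
  rw [pL_evD]
  intro x n hx hd hn e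
  exact R.ex k x n hx hd hn e

/-! ### the columns `p = 0, 1` -/

section one

variable {π R} {o : (WL π).Ob}

theorem ciA_act {k : ℤ} {n : Cv (lb π)} (hn : n ∈ (cl π ((WL π).P o) ((WL π).A o)).gr k)
    (z : (tLW π s).X) : (ciA π o n • z).1 = bl π s n (rpT π s o z) := by
  funext i j
  change ∑ l, ((ciA π o n : (WL π).dga.C) : (WL π).Win).1 i l * (show (WL π).S from z.1 l j) =
    n i * (show (WL π).S from z.1 o j)
  rw [Finset.sum_eq_single o]
  · rw [ciA_apply hn, if_pos rfl]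
  · intro l _ hl
    rw [ciA_apply hn, if_neg hl, zero_mul]
  · intro h; exact absurd (Finset.mem_univ _) h

theorem riT_act {k : ℤ} {r : (WL π).Ob → (WL π).S}
    (hr : r ∈ (rw' π ((WL π).P o) ((WL π).A o)).gr k) (a : (WL π).dga.C) :
    (a • riT π s o r).1 = bl π s (cpA π o a) r := by
  funext i j
  change ∑ l, (a : (WL π).Win).1 i l * (show (WL π).S from (riT π s o r).1 l j) =
    (a : (WL π).Win).1 i o * r j
  rw [Finset.sum_eq_single o]
  · rw [riT_apply hr, if_pos rfl]
  · intro l _ hl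
    rw [riT_apply hr, if_neg hl]
    exact mul_zero _
  · intro h; exact absurd (Finset.mem_univ _) h

theorem ev_ciA {k : ℤ} {x : Y.ι →₀ Cv (lb π)}
    (hx : x ∈ (tY Y (cl π ((WL π).P o) ((WL π).A o))).gr k) (z : (tLW π s).X) :
    (pL π R).ev (mF (N' := cl π ((WL π).P o) ((WL π).A o)) (N := selfL (WL π).dga) (ciA π o) Y x) z =
      (pA π R ((WL π).P o) ((WL π).A o)).ev x (rpT π s o z) := by
  have hs := mF_support (Y := Y) (N' := cl π ((WL π).P o) ((WL π).A o)) (N := selfL (WL π).dga)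
    (ciA π o) x
  refine ((pL π R).ev_apply' _ z x.support hs).trans (Eq.trans ?_
    ((pA π R ((WL π).P o) ((WL π).A o)).ev_apply' x _ x.support (Finset.Subset.refl _)).symm)
  refine Finset.sum_congr rfl fun σ _ => ?_
  change dev (tLW π s).toLM (ciA π o (x σ) • z) (R.v σ) = vx π R σ (bl π s (x σ) (rpT π s o z))
  rw [← vx_apply]
  exact congrArg (vx π R σ) (ciA_act (hx σ).1 z)

theorem ev_riT {l : ℤ} (y : Y.ι →₀ (WL π).dga.C) {r : (WL π).Ob → (WL π).S}
    (hr : r ∈ (rw' π ((WL π).P o) ((WL π).A o)).gr l) :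
    (pL π R).ev y (riT π s o r) =
      (pA π R ((WL π).P o) ((WL π).A o)).ev
        (mF (N' := selfL (WL π).dga) (N := cl π ((WL π).P o) ((WL π).A o)) (cpA π o) Y y) r := by
  have hs := mF_support (Y := Y) (N' := selfL (WL π).dga) (N := cl π ((WL π).P o) ((WL π).A o))
    (cpA π o) y
  refine ((pL π R).ev_apply' y _ y.support (Finset.Subset.refl _)).trans (Eq.trans ?_
    ((pA π R ((WL π).P o) ((WL π).A o)).ev_apply' _ r y.support hs).symm)
  refine Finset.sum_congr rfl fun σ _ => ?_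
  change dev (tLW π s).toLM (y σ • riT π s o r) (R.v σ) = vx π R σ (bl π s (cpA π o (y σ)) r)
  rw [← vx_apply]
  exact congrArg (vx π R σ) (riT_act hr (y σ))

variable (R o)

theorem col_ex (k : ℤ) : (pA π R ((WL π).P o) ((WL π).A o)).ExAt k := by
  intro x g hx hd hg
  have hxA : mF (N' := cl π ((WL π).P o) ((WL π).A o)) (N := selfL (WL π).dga) (ciA π o) Y x ∈
      (tY Y (selfL (WL π).dga)).gr (k - 1) := by
    have := mF_mem (N' := cl π ((WL π).P o) ((WL π).A o)) (N := selfL (WL π).dga) (Y := Y)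
      (c := 0) (ciA π o) (fun ha hn => ciA_smul ha hn)
      (fun hn => by rw [add_zero]; exact ciA_mem hn) hx
    rwa [add_zero] at this
  have hdA : (tY Y (selfL (WL π).dga)).d
      (mF (N' := cl π ((WL π).P o) ((WL π).A o)) (N := selfL (WL π).dga) (ciA π o) Y x) = 0 := by
    rw [← mF_d (N' := cl π ((WL π).P o) ((WL π).A o)) (N := selfL (WL π).dga) (ciA π o)
      (fun ha hn => ciA_smul ha hn) (fun hn => ciA_d hn) hx, hd, map_zero]
  obtain ⟨y, hy, g', e1, e2⟩ := pL_ex π R k _ (g ∘ₗ rpT π s o) hxA hdA (by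
    intro z hz
    rw [ev_ciA hx z]
    refine hg _ ?_
    have := rpT_mem (o := o) hz
    rwa [show 1 - (pL π R).lo - k - s = 1 - (pA π R ((WL π).P o) ((WL π).A o)).lo - k by
      change 1 - R.lo - k - s = 1 - (R.lo + s) - k
      ring] at this)
  refine ⟨mF (N' := selfL (WL π).dga) (N := cl π ((WL π).P o) ((WL π).A o)) (cpA π o) Y y, ?_,
    g' ∘ₗ riT π s o, ?_, ?_⟩
  · have := mF_mem (N' := selfL (WL π).dga) (N := cl π ((WL π).P o) ((WL π).A o)) (Y := Y)
      (c := 0) (cpA π o) (fun _ _ => rfl) (fun hn => by rw [add_zero]; exact cpA_mem hn) hy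
    rwa [add_zero] at this
  · rw [← mF_d (N' := selfL (WL π).dga) (N := cl π ((WL π).P o) ((WL π).A o)) (cpA π o)
      (fun _ _ => rfl) (fun _ => rfl) hy, e1]
    refine Finsupp.ext fun σ => ?_
    rw [mF_apply, mF_apply]
    exact cpA_ciA (hx σ).1
  · intro r hr
    have hr' : r ∈ (rw' π ((WL π).P o) ((WL π).A o)).gr (-(R.lo + s) - k) := hr
    have hz : riT π s o r ∈ (tLW π s).toLM.gr (-(pL π R).lo - k) := by
      have := riT_mem (s := s) hr'
      rwa [show -(R.lo + s) - k + s = -(pL π R).lo - k by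
        change -(R.lo + s) - k + s = -R.lo - k
        ring] at this
    have h := e2 _ hz
    rw [ev_riT y hr'] at h
    have h1 : (g ∘ₗ rpT π s o) (riT π s o r) = g r := by
      refine congrArg g ?_
      funext j
      change (riT π s o r).1 o j = r j
      rw [riT_apply hr', if_pos rfl]
    have h2 : (tLW π s).toLM.d (riT π s o r) =
        riT π s o ((rw' π ((WL π).P o) ((WL π).A o)).d r) := (riT_d hr').symm
    rw [h2] at h
    exact h1.symm.trans h

end one

/-! ### the join -/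

section join

variable {π R} {o : (WL π).Ob}

theorem ciT_act {k : ℤ} {n : Cv (lb π)} (hn : n ∈ (cl π ((WL π).P o - 1) ((WL π).A o)).gr k)
    (b : (WL π).dga.C) : (op b • ciT π s o n).1 = bl π s n (rpA π o b) := by
  funext i j
  change ∑ l, (show (WL π).S from (ciT π s o n).1 i l) * (b : (WL π).Win).1 l j =
    n i * (b : (WL π).Win).1 o j
  rw [Finset.sum_eq_single o]
  · rw [ciT_apply hn, if_pos rfl]
  · intro l _ hl
    rw [ciT_apply hn, if_neg hl]
    exact zero_mul _
  · intro h; exact absurd (Finset.mem_univ _) h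

theorem riA_act {k : ℤ} {r : (WL π).Ob → (WL π).S}
    (hr : r ∈ (rw' π ((WL π).P o - 1) ((WL π).A o)).gr k) (m : (tLW π s).X) :
    (op (riA π o r) • m).1 = bl π s (cpT π s o m) r := by
  funext i j
  change ∑ l, (show (WL π).S from m.1 i l) * ((riA π o r : (WL π).dga.C) : (WL π).Win).1 l j =
    (show (WL π).S from m.1 i o) * r j
  rw [Finset.sum_eq_single o]
  · rw [riA_apply hr, if_pos rfl]
  · intro l _ hl
    rw [riA_apply hr, if_neg hl, mul_zero]
  · intro h; exact absurd (Finset.mem_univ _) h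

theorem ev_ciT {k : ℤ} {x : Y.ι →₀ Cv (lb π)}
    (hx : x ∈ (tY Y (cl π ((WL π).P o - 1) ((WL π).A o))).gr k) (b : (WL π).dga.C) :
    (paOf (tLW π s) R.toRAug).ev
      (mF (N' := cl π ((WL π).P o - 1) ((WL π).A o)) (N := (tLW π s).toLM) (ciT π s o) Y x) b =
      (pA π R ((WL π).P o - 1) ((WL π).A o)).ev x (rpA π o b) := by
  have hs := mF_support (Y := Y) (N' := cl π ((WL π).P o - 1) ((WL π).A o)) (N := (tLW π s).toLM)
    (ciT π s o) x
  refine ((paOf (tLW π s) R.toRAug).ev_apply' _ b x.support hs).trans (Eq.trans ?_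
    ((pA π R ((WL π).P o - 1) ((WL π).A o)).ev_apply' x _ x.support (Finset.Subset.refl _)).symm)
  refine Finset.sum_congr rfl fun σ _ => ?_
  change dev (tLW π s).toLM (op b • ciT π s o (x σ)) (R.v σ) =
    vx π R σ (bl π s (x σ) (rpA π o b))
  rw [← vx_apply]
  exact congrArg (vx π R σ) (ciT_act (hx σ).1 b)

theorem ev_riA {l : ℤ} (x : Y.ι →₀ (tLW π s).X) {r : (WL π).Ob → (WL π).S}
    (hr : r ∈ (rw' π ((WL π).P o - 1) ((WL π).A o)).gr l) :
    (paOf (tLW π s) R.toRAug).ev x (riA π o r) =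
      (pA π R ((WL π).P o - 1) ((WL π).A o)).ev
        (mF (N' := (tLW π s).toLM) (N := cl π ((WL π).P o - 1) ((WL π).A o)) (cpT π s o) Y x) r := by
  have hs := mF_support (Y := Y) (N' := (tLW π s).toLM) (N := cl π ((WL π).P o - 1) ((WL π).A o))
    (cpT π s o) x
  refine ((paOf (tLW π s) R.toRAug).ev_apply' x _ x.support (Finset.Subset.refl _)).trans
    (Eq.trans ?_ ((pA π R ((WL π).P o - 1) ((WL π).A o)).ev_apply' _ r x.support hs).symm)
  refine Finset.sum_congr rfl fun σ _ => ?_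
  change dev (tLW π s).toLM (op (riA π o r) • x σ) (R.v σ) =
    vx π R σ (bl π s (cpT π s o (x σ)) r)
  rw [← vx_apply]
  exact congrArg (vx π R σ) (riA_act hr (x σ))

variable (R)

theorem join (hp : ∀ (o : (WL π).Ob) (k : ℤ), (pA π R ((WL π).P o - 1) ((WL π).A o)).ExAt k)
    (k : ℤ) : (paOf (tLW π s) R.toRAug).ExAt k := by
  intro x g hx hd hg
  have h : ∀ o : (WL π).Ob, ∃ y ∈ (tY Y (cl π ((WL π).P o - 1) ((WL π).A o))).gr (k - s),
      ∃ g' : Module.Dual K (rw' π ((WL π).P o - 1) ((WL π).A o)).X,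
      (tY Y (cl π ((WL π).P o - 1) ((WL π).A o))).d y =
        mF (N' := (tLW π s).toLM) (N := cl π ((WL π).P o - 1) ((WL π).A o)) (cpT π s o) Y x ∧
      ∀ r ∈ (rw' π ((WL π).P o - 1) ((WL π).A o)).gr (-(R.lo + s) - (k - s)),
        (g ∘ₗ riA π o) r = (pA π R ((WL π).P o - 1) ((WL π).A o)).ev y r +
          g' ((rw' π ((WL π).P o - 1) ((WL π).A o)).d r) := by
    intro o
    refine hp o (k - s) _ (g ∘ₗ riA π o) ?_ ?_ ?_
    · have := mF_mem (N' := (tLW π s).toLM) (N := cl π ((WL π).P o - 1) ((WL π).A o)) (Y := Y)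
        (c := -(s : ℤ)) (cpT π s o) (fun _ _ => rfl) (fun hn => cpT_mem hn) hx
      rwa [show k - 1 + -(s : ℤ) = k - s - 1 by ring] at this
    · rw [← mF_d (N' := (tLW π s).toLM) (N := cl π ((WL π).P o - 1) ((WL π).A o)) (cpT π s o)
        (fun _ _ => rfl) (fun _ => rfl) hx, hd, map_zero]
    · intro r hr
      have hr' : r ∈ (rw' π ((WL π).P o - 1) ((WL π).A o)).gr (1 - R.lo - k) := by
        have e : 1 - (pA π R ((WL π).P o - 1) ((WL π).A o)).lo - (k - s) = 1 - R.lo - k := by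
          change 1 - (R.lo + s) - (k - s) = 1 - R.lo - k
          ring
        rwa [e] at hr
      have h1 := hg _ (riA_mem hr')
      rw [ev_riA x hr'] at h1
      have h2 : (selfL (WL π).dga).toGC.d (riA π o r) =
          riA π o ((rw' π ((WL π).P o - 1) ((WL π).A o)).d r) := (riA_d hr').symm
      rw [h2] at h1
      exact h1
  choose y hy g' e1 e2 using h
  refine ⟨∑ o, mF (N' := cl π ((WL π).P o - 1) ((WL π).A o)) (N := (tLW π s).toLM)
    (ciT π s o) Y (y o), ?_, ∑ o, g' o ∘ₗ rpA π o, ?_, ?_⟩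
  · refine Submodule.sum_mem _ fun o _ => ?_
    have := mF_mem (N' := cl π ((WL π).P o - 1) ((WL π).A o)) (N := (tLW π s).toLM) (Y := Y)
      (c := (s : ℤ)) (ciT π s o) (fun ha hn => ciT_smul ha hn) (fun hn => ciT_mem hn) (hy o)
    rwa [show k - (s : ℤ) + s = k by ring] at this
  · rw [map_sum]
    have e3 : ∀ o, (tY Y (tLW π s).toLM).d (mF (N' := cl π ((WL π).P o - 1) ((WL π).A o))
        (N := (tLW π s).toLM) (ciT π s o) Y (y o)) =
        mF (N' := cl π ((WL π).P o - 1) ((WL π).A o)) (N := (tLW π s).toLM) (ciT π s o) Y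
        (mF (N' := (tLW π s).toLM) (N := cl π ((WL π).P o - 1) ((WL π).A o)) (cpT π s o) Y x) := by
      intro o
      rw [← mF_d (N' := cl π ((WL π).P o - 1) ((WL π).A o)) (N := (tLW π s).toLM) (ciT π s o)
        (fun ha hn => ciT_smul ha hn) (fun hn => ciT_d hn) (hy o), e1 o]
    rw [Finset.sum_congr rfl fun o _ => e3 o]
    refine Finsupp.ext fun σ => ?_
    refine (Finsupp.finset_sum_apply _ _ σ).trans ?_
    exact (sum_ciT (hx σ).1).symm
  · intro b hb
    have hb' : b ∈ (WL π).dga.G (-R.lo - k) := hb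
    have e4 : g b = ∑ o, (g ∘ₗ riA π o) (rpA π o b) := by
      conv_lhs => rw [sum_riA hb']
      exact map_sum g _ _
    refine e4.trans ?_
    have e5 : (paOf (tLW π s) R.toRAug).ev (∑ o, mF (N' := cl π ((WL π).P o - 1) ((WL π).A o))
        (N := (tLW π s).toLM) (ciT π s o) Y (y o)) b =
        ∑ o, (pA π R ((WL π).P o - 1) ((WL π).A o)).ev (y o) (rpA π o b) := by
      rw [map_sum, LinearMap.sum_apply]
      exact Finset.sum_congr rfl fun o _ => ev_ciT (hy o) b
    rw [e5, LinearMap.sum_apply, ← Finset.sum_add_distrib]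
    refine Finset.sum_congr rfl fun o _ => ?_
    have hr : rpA π o b ∈ (rw' π ((WL π).P o - 1) ((WL π).A o)).gr (-(R.lo + s) - (k - s)) := by
      have := rpA_mem (o := o) hb'
      rwa [show -R.lo - k = -(R.lo + s) - (k - s) by ring] at this
    exact e2 o _ hr

end join

end Crest.Agent.R186.Beta763
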