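import Crest.Agent.R186.PBWK_633
import Crest.Agent.R186.FDord_757
import Crest.Agent.R186.WResV_322

/-!
# Row 186, S0281 base: 128's `Fil` is an instance of `WRes322.Bi` (helper322)

On `M = Op K`: `X i`, `D i` = right multiplications by `X i`, `D g i`, `L i` = left multiplication by
`X i`, `F P A = Fil g A P`, constants `K · 1`.
-/

set_option autoImplicit false

namespace Crest.Agent.R186.BiI322

open B281 PBWD633

variable {K : Type} [Field K] {g : K}

/-- the `q`-Weyl data of 128's operators -/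
noncomputable def wq (hg : Gen g) : QW g (Op K) where
  x0 := X 0
  x1 := X 1
  d0 := D g 0
  d1 := D g 1
  hx := X_comm 0 1
  hd := D_comm g 0 1
  h01 := X_D g (by decide)
  h10 := X_D g (by decide)
  h00 := X_D_self hg 0
  h11 := X_D_self hg 1

theorem wq_M (hg : Gen g) (q : Ix) : (wq hg).M q = mon g (q.1, q.2.1) (q.2.2.1, q.2.2.2) := by
  simp [QW.M, mon, wq, mul_assoc]

theorem wq_PBW (hg : Gen g) : (wq hg).PBW := by
  have h1 := FD757.mon_indep hg
  have h2 := h1.comp (fun q : Ix => ((q.1, q.2.1), (q.2.2.1, q.2.2.2))) (by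
    rintro ⟨a, b, c, d⟩ ⟨a', b', c', d'⟩ h
    simp only [Prod.mk.injEq] at h ⊢
    omega)
  have h3 : (wq hg).M = (fun p : (ℕ × ℕ) × (ℕ × ℕ) => mon g p.1 p.2) ∘
      (fun q : Ix => ((q.1, q.2.1), (q.2.2.1, q.2.2.2))) := funext fun q => wq_M hg q
  rw [QW.PBW, h3]
  exact h2

theorem Fil_eq (hg : Gen g) (k P : ℤ) : Fil g k P = (wq hg).F k P := by
  unfold Fil QW.F
  congr 1
  ext T
  constructor
  · rintro ⟨a, b, h1, h2, rfl⟩
    exact ⟨(a.1, a.2, b.1, b.2), ⟨h1, h2⟩, wq_M hg _⟩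
  · rintro ⟨q, ⟨h1, h2⟩, rfl⟩
    exact ⟨(q.1, q.2.1), (q.2.2.1, q.2.2.2), h1, h2, wq_M hg q⟩

theorem X1r (hg : Gen g) {k P : ℤ} (hP : 1 ≤ P) {c : Op K} (hc : c ∈ Fil g k P) :
    ∃ a ∈ Fil g k (P - 1), ∃ b ∈ Fil g k (P - 1), c = a * X 0 + b * X 1 := by
  simp only [Fil_eq hg] at hc ⊢
  exact QW.X1R hg.1 hP hc

theorem X1l (hg : Gen g) {k P : ℤ} (hP : 1 ≤ P) {c : Op K} (hc : c ∈ Fil g k P) :
    ∃ a ∈ Fil g k (P - 1), ∃ b ∈ Fil g k (P - 1), c = X 0 * a + X 1 * b := by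
  simp only [Fil_eq hg] at hc ⊢
  exact QW.X1L hg.1 hP hc

theorem X2r (hg : Gen g) {k P k' P' : ℤ} {a b : Op K} (ha : a ∈ Fil g k P) (hb : b ∈ Fil g k' P')
    (h0 : a * X 0 + b * X 1 = 0) : ∃ e ∈ Fil g k (P - 1), a = e * X 1 ∧ b = -(e * X 0) := by
  simp only [Fil_eq hg] at ha hb ⊢
  exact QW.X2R (wq_PBW hg) hg.1 ha hb h0

theorem X2l (hg : Gen g) {k P k' P' : ℤ} {a b : Op K} (ha : a ∈ Fil g k P) (hb : b ∈ Fil g k' P')
    (h0 : X 0 * a + X 1 * b = 0) : ∃ e ∈ Fil g k (P - 1), a = X 1 * e ∧ b = -(X 0 * e) := by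
  simp only [Fil_eq hg] at ha hb ⊢
  exact QW.X2L (wq_PBW hg) hg.1 ha hb h0

theorem D2r (hg : Gen g) {k P k' P' : ℤ} {a b : Op K} (ha : a ∈ Fil g k P) (hb : b ∈ Fil g k' P')
    (h0 : a * D g 0 + b * D g 1 = 0) :
    ∃ e ∈ Fil g (k - 1) (P + 1), a = e * D g 1 ∧ b = -(e * D g 0) := by
  simp only [Fil_eq hg] at ha hb ⊢
  exact QW.D2R (wq_PBW hg) hg.1 ha hb h0

theorem D2l (hg : Gen g) {k P k' P' : ℤ} {a b : Op K} (ha : a ∈ Fil g k P) (hb : b ∈ Fil g k' P')
    (h0 : D g 0 * a + D g 1 * b = 0) :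
    ∃ e ∈ Fil g (k - 1) (P + 1), a = D g 1 * e ∧ b = -(D g 0 * e) := by
  simp only [Fil_eq hg] at ha hb ⊢
  exact QW.D2L (wq_PBW hg) hg.1 ha hb h0

theorem Fil_zero_neg (g : K) {P : ℤ} (hP : P ≤ -1) : Fil g 0 P = ⊥ := by
  refine Submodule.span_eq_bot.2 ?_
  rintro T ⟨a, b, h1, h2, rfl⟩
  omega

theorem Fil_neg (g : K) {k P : ℤ} (hk : k ≤ -1) : Fil g k P = ⊥ := by
  refine Submodule.span_eq_bot.2 ?_
  rintro T ⟨a, b, h1, h2, rfl⟩
  omega

theorem Fil_zero_zero (g : K) : Fil g 0 0 = Submodule.span K {(1 : Op K)} := by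
  refine le_antisymm (Submodule.span_le.2 ?_) (Submodule.span_le.2 ?_)
  · rintro T ⟨⟨a, b⟩, ⟨c, d⟩, h1, h2, rfl⟩
    simp only at h1 h2
    obtain rfl : a = 0 := by omega
    obtain rfl : b = 0 := by omega
    obtain rfl : c = 0 := by omega
    obtain rfl : d = 0 := by omega
    refine Submodule.subset_span ?_
    simp [mon]
  · rintro _ rfl
    exact Submodule.subset_span ⟨(0, 0), (0, 0), by simp, by simp, by simp [mon]⟩

/-- `D1r` in negative `P`-degree -/
theorem D1r (hg : Gen g) {k P : ℤ} (hP : P ≤ -1) {c : Op K} (hc : c ∈ Fil g k P) :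
    ∃ a ∈ Fil g (k - 1) (P + 1), ∃ b ∈ Fil g (k - 1) (P + 1), c = a * D g 0 + b * D g 1 := by
  rw [Fil_eq hg] at hc
  obtain ⟨a, ha, b, hb, p, hp, e⟩ := QW.D1R hg.1 hc
  rw [← Fil_eq hg] at ha hb hp
  rw [Fil_zero_neg g hP, Submodule.mem_bot] at hp
  exact ⟨a, ha, b, hb, by rw [e, hp, add_zero]; rfl⟩

theorem D1l (hg : Gen g) {k P : ℤ} (hP : P ≤ -1) {c : Op K} (hc : c ∈ Fil g k P) :
    ∃ a ∈ Fil g (k - 1) (P + 1), ∃ b ∈ Fil g (k - 1) (P + 1), c = D g 0 * a + D g 1 * b := by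
  rw [Fil_eq hg] at hc
  obtain ⟨a, ha, b, hb, p, hp, e⟩ := QW.D1L hg.1 hc
  rw [← Fil_eq hg] at ha hb hp
  rw [Fil_zero_neg g hP, Submodule.mem_bot] at hp
  exact ⟨a, ha, b, hb, by rw [e, hp, add_zero]; rfl⟩

/-- `P = 0`: modulo the constants -/
theorem D1r0 (hg : Gen g) {k : ℤ} {c : Op K} (hc : c ∈ Fil g k 0) :
    ∃ t : K, ∃ a ∈ Fil g (k - 1) 1, ∃ b ∈ Fil g (k - 1) 1, c = t • (1 : Op K) + a * D g 0 + b * D g 1 := by
  rw [Fil_eq hg] at hc
  obtain ⟨a, ha, b, hb, p, hp, e⟩ := QW.D1R hg.1 hc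
  rw [← Fil_eq hg] at ha hb hp
  rw [Fil_zero_zero, Submodule.mem_span_singleton] at hp
  obtain ⟨t, rfl⟩ := hp
  refine ⟨t, a, by simpa using ha, b, by simpa using hb, ?_⟩
  rw [e, add_comm, ← add_assoc]; rfl

theorem D1l0 (hg : Gen g) {k : ℤ} {c : Op K} (hc : c ∈ Fil g k 0) :
    ∃ t : K, ∃ a ∈ Fil g (k - 1) 1, ∃ b ∈ Fil g (k - 1) 1, c = t • (1 : Op K) + D g 0 * a + D g 1 * b := by
  rw [Fil_eq hg] at hc
  obtain ⟨a, ha, b, hb, p, hp, e⟩ := QW.D1L hg.1 hc
  rw [← Fil_eq hg] at ha hb hp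
  rw [Fil_zero_zero, Submodule.mem_span_singleton] at hp
  obtain ⟨t, rfl⟩ := hp
  refine ⟨t, a, by simpa using ha, b, by simpa using hb, ?_⟩
  rw [e, add_comm, ← add_assoc]; rfl

theorem X1l0 (hg : Gen g) {k : ℤ} {c : Op K} (hc : c ∈ Fil g k 0) :
    ∃ t : K, ∃ a ∈ Fil g k (-1), ∃ b ∈ Fil g k (-1), c = t • (1 : Op K) + X 0 * a + X 1 * b := by
  rw [Fil_eq hg] at hc
  obtain ⟨a, ha, b, hb, p, hp, e⟩ := shift_surj (f := (wq hg).M) (φ := LinearMap.mulLeft K (wq hg).x0)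
    (ψ := LinearMap.mulLeft K (wq hg).x1) QW.lx0 QW.lx1 (B := S k (-1))
    (C := S k (-1)) (E := {(0, 0, 0, 0)}) (A := S k 0) (by
      rintro ⟨a0, a1, b0, b1⟩ ⟨h1, h2⟩
      simp only [od, dg] at h1 h2
      rcases Nat.eq_zero_or_pos a0 with h3 | h3
      · rcases Nat.eq_zero_or_pos a1 with h4 | h4
        · refine Or.inr (Or.inr ?_)
          obtain rfl : b0 = 0 := by omega
          obtain rfl : b1 = 0 := by omega
          rw [h3, h4]; rfl
        · refine Or.inr (Or.inl ⟨(a0, a1 - 1, b0, b1), ⟨?_, ?_⟩, ?_⟩)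
          · simp only [od]; omega
          · simp only [dg]; omega
          · show (a0, a1 - 1 + 1, b0, b1) = (a0, a1, b0, b1)
            rw [Nat.sub_add_cancel (by omega)]
      · refine Or.inl ⟨(a0 - 1, a1, b0, b1), ⟨?_, ?_⟩, ?_⟩
        · simp only [od]; omega
        · simp only [dg]; omega
        · show (a0 - 1 + 1, a1, b0, b1) = (a0, a1, b0, b1)
          rw [Nat.sub_add_cancel (by omega)]) hc
  rw [Set.image_singleton, Submodule.mem_span_singleton] at hp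
  obtain ⟨t, rfl⟩ := hp
  have h1 : (wq hg).M (0, 0, 0, 0) = 1 := by simp [QW.M]
  refine ⟨t, a, by rw [Fil_eq hg]; exact ha, b, by rw [Fil_eq hg]; exact hb, ?_⟩
  rw [e, h1, add_comm, ← add_assoc]; rfl

theorem X1r0 (hg : Gen g) {k : ℤ} {c : Op K} (hc : c ∈ Fil g k 0) :
    ∃ t : K, ∃ a ∈ Fil g k (-1), ∃ b ∈ Fil g k (-1), c = t • (1 : Op K) + a * X 0 + b * X 1 := by
  rw [Fil_eq hg, QW.mem_FN hg.1] at hc
  obtain ⟨a, ha, b, hb, p, hp, e⟩ := shift_surj (f := (wq hg).N) (φ := LinearMap.mulRight K (wq hg).x0)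
    (ψ := LinearMap.mulRight K (wq hg).x1) QW.rx0 QW.rx1 (B := S k (-1))
    (C := S k (-1)) (E := {(0, 0, 0, 0)}) (A := S k 0) (by
      rintro ⟨a0, a1, b0, b1⟩ ⟨h1, h2⟩
      simp only [od, dg] at h1 h2
      rcases Nat.eq_zero_or_pos a0 with h3 | h3
      · rcases Nat.eq_zero_or_pos a1 with h4 | h4
        · refine Or.inr (Or.inr ?_)
          obtain rfl : b0 = 0 := by omega
          obtain rfl : b1 = 0 := by omega
          rw [h3, h4]; rfl
        · refine Or.inr (Or.inl ⟨(a0, a1 - 1, b0, b1), ⟨?_, ?_⟩, ?_⟩)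
          · simp only [od]; omega
          · simp only [dg]; omega
          · show (a0, a1 - 1 + 1, b0, b1) = (a0, a1, b0, b1)
            rw [Nat.sub_add_cancel (by omega)]
      · refine Or.inl ⟨(a0 - 1, a1, b0, b1), ⟨?_, ?_⟩, ?_⟩
        · simp only [od]; omega
        · simp only [dg]; omega
        · show (a0 - 1 + 1, a1, b0, b1) = (a0, a1, b0, b1)
          rw [Nat.sub_add_cancel (by omega)]) hc
  rw [Set.image_singleton, Submodule.mem_span_singleton] at hp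
  obtain ⟨t, rfl⟩ := hp
  have h1 : (wq hg).N (0, 0, 0, 0) = 1 := by simp [QW.N]
  rw [← QW.mem_FN hg.1, ← Fil_eq hg] at ha hb
  refine ⟨t, a, ha, b, hb, ?_⟩
  rw [e, h1, add_comm, ← add_assoc]; rfl

theorem D1inj (hg : Gen g) {k P : ℤ} {c : Op K} (hc : c ∈ Fil g k P) (h0 : c * D g 1 = 0) : c = 0 := by
  rw [Fil_eq hg] at hc
  exact QW.inj_d1R (wq_PBW hg) hg.1 hc h0

theorem D0inj (hg : Gen g) {k P : ℤ} {c : Op K} (hc : c ∈ Fil g k P) (h0 : c * D g 0 = 0) : c = 0 := by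
  rw [Fil_eq hg] at hc
  exact QW.inj_d0R (wq_PBW hg) hg.1 hc h0

/-- right multiplication by `x_i` is injective on all operators -/
theorem mulX_inj (i : Fin 2) {c : Op K} (h0 : c * X i = 0) : c = 0 := by
  apply op_ext
  intro m
  have := LinearMap.congr_fun h0 (Finsupp.single (m - ev i) 1)
  rw [Module.End.mul_apply, X_single, sub_add_cancel] at this
  rw [this]; rfl

/-- left multiplication by `x_i` is injective on all operators -/
theorem Xmul_inj (i : Fin 2) {c : Op K} (h0 : X i * c = 0) : c = 0 := by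
  refine LinearMap.ext fun v => ?_
  have h1 := LinearMap.congr_fun h0 v
  rw [Module.End.mul_apply] at h1
  have h2 : Function.Injective (X i : Op K) :=
    Finsupp.mapDomain_injective (fun a b h => add_right_cancel h)
  exact h2 (by rw [h1]; simp)

/-- a constant is not in the right span of `d_0`, `d_1` (all operators) -/
theorem const_zero {t : K} {p q : Op K} (h : t • (1 : Op K) = p * D g 0 + q * D g 1) : t = 0 := by
  have h1 := LinearMap.congr_fun h (Finsupp.single 0 1)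
  have h2 : ∀ i : Fin 2, D g i (Finsupp.single (0 : ℤ × ℤ) (1 : K)) = 0 := fun i => by
    rw [D_single]
    have : co i (0 : ℤ × ℤ) = 0 := by fin_cases i <;> rfl
    rw [this, cq_zero, zero_mul, Finsupp.single_zero]
  rw [LinearMap.add_apply, Module.End.mul_apply, Module.End.mul_apply, h2, h2, map_zero, map_zero,
    add_zero, LinearMap.smul_apply, Module.End.one_apply, Finsupp.smul_single, smul_eq_mul, mul_one,
    Finsupp.single_eq_zero] at h1
  exact h1

theorem Fil_mono' (g : K) {k l P : ℤ} (h : k ≤ l) : Fil g k P ≤ Fil g l P := by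
  refine Submodule.span_mono ?_
  rintro T ⟨a, b, h1, h2, rfl⟩
  exact ⟨a, b, h1.trans h, h2, rfl⟩

/-- **the instance** -/
theorem fil (hg : Gen g) : WRes322.Fil (K := K) (M := Op K) g (fun i => LinearMap.mulRight K (X i : Op K))
    (fun i => LinearMap.mulRight K (D g i)) (fun P A => Fil g A P) where
  xx m := by
    simp only [LinearMap.mulRight_apply, mul_assoc]
    rw [X_comm]
  dd m := by
    simp only [LinearMap.mulRight_apply, mul_assoc]
    rw [D_comm]
  dx0 m := by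
    simp only [LinearMap.mulRight_apply, mul_assoc]
    rw [X_D_self hg, mul_add, mul_one, mul_smul_comm]
  dx1 m := by
    simp only [LinearMap.mulRight_apply, mul_assoc]
    rw [X_D_self hg, mul_add, mul_one, mul_smul_comm]
  d0x1 m := by
    simp only [LinearMap.mulRight_apply, mul_assoc]
    rw [X_D g (by decide)]
  d1x0 m := by
    simp only [LinearMap.mulRight_apply, mul_assoc]
    rw [X_D g (by decide)]
  mono P A m hm := Fil_mono' g (by omega) hm
  Xm i P A m hm := FD757.mul_X_mem hg i hm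
  Dm i P A m hm := FD757.mul_D_mem i hm
  inj i m h := mulX_inj i h
  X1 P A m hP hm := X1r hg hP hm
  X2 P A u v hu hv h := X2r hg hu hv h
  D1 P A m hP hm := D1r hg hP hm
  D2 P A u v hu hv h := D2r hg hu hv h

/-- **the bimodule instance** -/
theorem bi (hg : Gen g) : WRes322.Bi (K := K) (M := Op K) g (fun i => LinearMap.mulRight K (X i : Op K))
    (fun i => LinearMap.mulRight K (D g i)) (fun i => LinearMap.mulLeft K (X i : Op K))
    (fun P A => Fil g A P) (Submodule.span K {(1 : Op K)}) where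
  toFil := fil hg
  LX i j m := by simp only [LinearMap.mulRight_apply, LinearMap.mulLeft_apply, mul_assoc]
  LD i j m := by simp only [LinearMap.mulRight_apply, LinearMap.mulLeft_apply, mul_assoc]
  LL m := by
    simp only [LinearMap.mulLeft_apply, ← mul_assoc]
    rw [X_comm]
  Lm i P A m hm := FD757.X_mul_mem i hm
  L1 P A m hP hm := X1l hg hP hm
  Lc A m hm := by
    obtain ⟨t, p, hp, q, hq, e⟩ := X1l0 hg hm
    exact ⟨t • 1, Submodule.smul_mem _ _ (Submodule.mem_span_singleton_self _), p, hp, q, hq, e⟩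
  Dc A m hm := by
    obtain ⟨t, p, hp, q, hq, e⟩ := D1r0 hg hm
    exact ⟨t • 1, Submodule.smul_mem _ _ (Submodule.mem_span_singleton_self _), p, hp, q, hq, e⟩
  CL k hk i := by
    obtain ⟨t, rfl⟩ := Submodule.mem_span_singleton.1 hk
    simp only [LinearMap.mulRight_apply, LinearMap.mulLeft_apply, mul_smul_comm, smul_mul_assoc,
      mul_one, one_mul]
  CF k hk := by
    show k ∈ Fil g 0 0
    rw [Fil_zero_zero]; exact hk
  C0 k hk p q h := by
    obtain ⟨t, rfl⟩ := Submodule.mem_span_singleton.1 hk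
    rw [const_zero (g := g) h, zero_smul]
  Dinj P A m hm h := D1inj hg hm h

end Crest.Agent.R186.BiI322
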