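import Crest.Agent.R186.Defs281_128

/-!
Row 186 (S0281), helper538: the brick statement for the dual chain.

Functions on `Fin m` = functionals on `K[x₀,x₁]_(m-1)`, index `a` = exponent of `x₀`
(or of `x₁`, exchange the two variables).  `op c i j m` = transpose of `x_i d_j`.
-/

set_option autoImplicit false

namespace Crest.Agent.R186.BrickS538

variable {K : Type*} [Field K]

/-- transpose of the Euler operator of the indexing variable: `x^a ↦ c a x^a` -/
def eu (c : ℤ → K) (m : ℕ) : (Fin m → K) →ₗ[K] (Fin m → K) where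
  toFun f a := c (a : ℤ) * f a
  map_add' f g := by funext a; simp [mul_add]
  map_smul' r f := by funext a; simp [mul_left_comm]

/-- transpose of the Euler operator of the other variable: `x^a ↦ c (m - 1 - a) x^a` -/
def ev (c : ℤ → K) (m : ℕ) : (Fin m → K) →ₗ[K] (Fin m → K) where
  toFun f a := c ((m : ℤ) - 1 - a) * f a
  map_add' f g := by funext a; simp [mul_add]
  map_smul' r f := by funext a; simp [mul_left_comm]

/-- transpose of `x^a ↦ c a x^(a-1)` (times the other variable) -/
def sd (c : ℤ → K) (m : ℕ) : (Fin m → K) →ₗ[K] (Fin m → K) where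
  toFun f a := c (a : ℤ) * if h : 0 < (a : ℕ) then f ⟨a - 1, by omega⟩ else 0
  map_add' f g := by
    funext a
    by_cases h : 0 < (a : ℕ)
    · simp only [h, dite_true, Pi.add_apply, mul_add]
    · simp only [h, dite_false, Pi.add_apply, mul_zero, add_zero]
  map_smul' r f := by
    funext a
    by_cases h : 0 < (a : ℕ)
    · simp only [h, dite_true, Pi.smul_apply, smul_eq_mul, RingHom.id_apply]; ring
    · simp only [h, dite_false, Pi.smul_apply, smul_eq_mul, mul_zero]

/-- transpose of `x^a ↦ c (m-1-a) x^(a+1)` -/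
def su (c : ℤ → K) (m : ℕ) : (Fin m → K) →ₗ[K] (Fin m → K) where
  toFun f a := c ((m : ℤ) - 1 - a) * if h : (a : ℕ) + 1 < m then f ⟨a + 1, h⟩ else 0
  map_add' f g := by
    funext a
    by_cases h : (a : ℕ) + 1 < m
    · simp only [h, dite_true, Pi.add_apply, mul_add]
    · simp only [h, dite_false, Pi.add_apply, mul_zero, add_zero]
  map_smul' r f := by
    funext a
    by_cases h : (a : ℕ) + 1 < m
    · simp only [h, dite_true, Pi.smul_apply, smul_eq_mul, RingHom.id_apply]; ring
    · simp only [h, dite_false, Pi.smul_apply, smul_eq_mul, mul_zero]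

/-- a map between function spaces commuting with the two Euler operators vanishes for
different degrees -/
theorem zero_of_ne {c : ℤ → K} (hc : Function.Injective c) {m m' : ℕ} (hm : m ≠ m')
    (δ : (Fin m → K) →ₗ[K] (Fin m' → K)) (h1 : ∀ x, δ (eu c m x) = eu c m' (δ x))
    (h2 : ∀ x, δ (ev c m x) = ev c m' (δ x)) : δ = 0 := by
  classical
  refine LinearMap.pi_ext' fun a => LinearMap.ext_ring ?_
  funext b
  show δ (Pi.single a 1) b = 0
  by_contra hne
  have e1 : eu c m (Pi.single a 1) = c (a : ℤ) • Pi.single a (1 : K) := by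
    funext i
    by_cases hi : i = a
    · subst hi; simp [eu]
    · simp [eu, hi]
  have e2 : ev c m (Pi.single a 1) = c ((m : ℤ) - 1 - a) • Pi.single a (1 : K) := by
    funext i
    by_cases hi : i = a
    · subst hi; simp [ev]
    · simp [ev, hi]
  have f1 := congrFun (h1 (Pi.single a 1)) b
  have f2 := congrFun (h2 (Pi.single a 1)) b
  rw [e1, map_smul] at f1
  rw [e2, map_smul] at f2
  have g1 : c (a : ℤ) = c (b : ℤ) := mul_right_cancel₀ hne f1
  have g2 : c ((m : ℤ) - 1 - a) = c ((m' : ℤ) - 1 - b) := mul_right_cancel₀ hne f2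
  have := hc g1
  have := hc g2
  omega

/-- in the same degree it is a scalar as soon as it commutes with the shift -/
theorem scalar_of_comm {c : ℤ → K} (hc : Function.Injective c) (h0 : c 0 = 0) {m : ℕ}
    (δ : (Fin m → K) →ₗ[K] (Fin m → K)) (h1 : ∀ x, δ (eu c m x) = eu c m (δ x))
    (h3 : ∀ x, δ (sd c m x) = sd c m (δ x)) : ∃ r : K, δ = r • LinearMap.id := by
  classical
  have e1 : ∀ a : Fin m, eu c m (Pi.single a 1) = c (a : ℤ) • Pi.single a (1 : K) := by
    intro a
    funext i
    by_cases hi : i = a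
    · subst hi; simp [eu]
    · simp [eu, hi]
  have dg : ∀ a b : Fin m, a ≠ b → δ (Pi.single a 1) b = 0 := by
    intro a b hab
    by_contra hne
    have f1 := congrFun (h1 (Pi.single a 1)) b
    rw [e1, map_smul] at f1
    have g1 : c (a : ℤ) = c (b : ℤ) := mul_right_cancel₀ hne f1
    have := hc g1
    exact hab (Fin.ext (by omega))
  have dg' : ∀ a : Fin m, δ (Pi.single a 1) = δ (Pi.single a 1) a • Pi.single a (1 : K) := by
    intro a
    funext b
    by_cases hb : b = a
    · subst hb; simp
    · rw [dg a b (Ne.symm hb)]; simp [hb]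
  have st : ∀ a b : Fin m, (a : ℕ) = b + 1 → δ (Pi.single a 1) a = δ (Pi.single b 1) b := by
    intro a b hab
    have e3 : sd c m (Pi.single b 1) = c (a : ℤ) • Pi.single a (1 : K) := by
      funext i
      by_cases hi : i = a
      · subst hi
        have hpos : 0 < (i : ℕ) := by omega
        have : (⟨(i : ℕ) - 1, by omega⟩ : Fin m) = b := Fin.ext (by simp; omega)
        simp [sd, hpos, this]
      · by_cases hpos : 0 < (i : ℕ)
        · have : (⟨(i : ℕ) - 1, by omega⟩ : Fin m) ≠ b := by
            intro h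
            have := congrArg Fin.val h
            simp only at this
            exact hi (Fin.ext (by omega))
          simp [sd, hpos, this, hi]
        · simp [sd, hpos, hi]
    have f3 := congrFun (h3 (Pi.single b 1)) a
    rw [e3, map_smul, dg' b, map_smul, e3] at f3
    simp only [Pi.smul_apply, smul_eq_mul, Pi.single_eq_same, mul_one] at f3
    have hca : c (a : ℤ) ≠ 0 := by
      rw [← h0]
      intro h
      have := hc h
      omega
    rw [mul_comm] at f3
    exact mul_right_cancel₀ hca f3
  rcases Nat.eq_zero_or_pos m with rfl | hm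
  · exact ⟨0, by ext x b; exact b.elim0⟩
  · refine ⟨δ (Pi.single ⟨0, hm⟩ 1) ⟨0, hm⟩, ?_⟩
    have all : ∀ (k : ℕ) (hk : k < m), δ (Pi.single ⟨k, hk⟩ 1) ⟨k, hk⟩ =
        δ (Pi.single ⟨0, hm⟩ 1) ⟨0, hm⟩ := by
      intro k
      induction k with
      | zero => intro _; rfl
      | succ k ih =>
        intro hk
        rw [st ⟨k + 1, hk⟩ ⟨k, by omega⟩ rfl, ih]
    refine LinearMap.pi_ext' fun a => LinearMap.ext_ring ?_
    show δ (Pi.single a 1) = δ (Pi.single ⟨0, hm⟩ 1) ⟨0, hm⟩ • Pi.single a (1 : K)
    rw [dg' a, all a.1 a.2]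

/-- the operators on the pairs -/
def pr (op : (m : ℕ) → (Fin m → K) →ₗ[K] (Fin m → K)) (n : ℕ) :
    ((Fin (n + 1) → K) × (Fin n → K)) →ₗ[K] ((Fin (n + 1) → K) × (Fin n → K)) :=
  LinearMap.prodMap (op (n + 1)) (op n)

/-- the shape of the connecting maps -/
theorem brick_form {c : ℤ → K} (hc : Function.Injective c) (h0 : c 0 = 0) (n : ℕ)
    (δ : ((Fin (n + 1) → K) × (Fin n → K)) →ₗ[K] ((Fin (n + 2) → K) × (Fin (n + 1) → K)))
    (h1 : ∀ x, δ (pr (eu c) n x) = pr (eu c) (n + 1) (δ x))
    (h2 : ∀ x, δ (pr (ev c) n x) = pr (ev c) (n + 1) (δ x))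
    (h3 : ∀ x, δ (pr (sd c) n x) = pr (sd c) (n + 1) (δ x)) :
    ∃ r : K, ∀ x, δ x = (0, r • x.1) := by
  have i1 : ∀ (op : (m : ℕ) → (Fin m → K) →ₗ[K] (Fin m → K)) (x : Fin (n + 1) → K),
      pr op n (x, 0) = (op (n + 1) x, 0) := fun op x => by simp [pr]
  have i2 : ∀ (op : (m : ℕ) → (Fin m → K) →ₗ[K] (Fin m → K)) (y : Fin n → K),
      pr op n (0, y) = (0, op n y) := fun op y => by simp [pr]
  -- the four blocks
  have b11 : LinearMap.fst K _ _ ∘ₗ δ ∘ₗ LinearMap.inl K _ _ = 0 :=
    zero_of_ne hc (m := n + 1) (m' := n + 2) (by omega) _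
      (fun x => by
        have := h1 (x, 0)
        rw [i1] at this
        exact congrArg Prod.fst this)
      (fun x => by
        have := h2 (x, 0)
        rw [i1] at this
        exact congrArg Prod.fst this)
  have b12 : LinearMap.fst K _ _ ∘ₗ δ ∘ₗ LinearMap.inr K _ _ = 0 :=
    zero_of_ne hc (m := n) (m' := n + 2) (by omega) _
      (fun x => by
        have := h1 (0, x)
        rw [i2] at this
        exact congrArg Prod.fst this)
      (fun x => by
        have := h2 (0, x)
        rw [i2] at this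
        exact congrArg Prod.fst this)
  have b22 : LinearMap.snd K _ _ ∘ₗ δ ∘ₗ LinearMap.inr K _ _ = 0 :=
    zero_of_ne hc (m := n) (m' := n + 1) (by omega) _
      (fun x => by
        have := h1 (0, x)
        rw [i2] at this
        exact congrArg Prod.snd this)
      (fun x => by
        have := h2 (0, x)
        rw [i2] at this
        exact congrArg Prod.snd this)
  obtain ⟨r, hr⟩ := scalar_of_comm hc h0 (LinearMap.snd K _ _ ∘ₗ δ ∘ₗ LinearMap.inl K _ _)
    (fun x => by
      have := h1 (x, 0)
      rw [i1] at this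
      exact congrArg Prod.snd this)
    (fun x => by
      have := h3 (x, 0)
      rw [i1] at this
      exact congrArg Prod.snd this)
  refine ⟨r, fun x => ?_⟩
  have hx : x = (x.1, 0) + (0, x.2) := by ext <;> simp
  have e1 : δ (x.1, 0) = (0, r • x.1) := by
    refine Prod.ext ?_ ?_
    · exact congrArg (fun f => f x.1) b11
    · exact congrArg (fun f => f x.1) hr
  have e2 : δ (0, x.2) = 0 := by
    refine Prod.ext ?_ ?_
    · exact congrArg (fun f => f x.2) b12
    · exact congrArg (fun f => f x.2) b22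
  rw [show δ x = δ ((x.1, 0) + (0, x.2)) from congrArg δ hx, map_add, e1, e2, add_zero]

variable (K) in
/-- the second component -/
def S (n : ℕ) : Submodule K ((Fin (n + 1) → K) × (Fin n → K)) :=
  LinearMap.ker (LinearMap.fst K _ _)

theorem S_zero : S K 0 = ⊥ := by
  refine (Submodule.eq_bot_iff _).2 fun x hx => ?_
  have : x.1 = 0 := hx
  refine Prod.ext this ?_
  funext a
  exact a.elim0

/-- **the brick statement** -/
theorem brick {c : ℤ → K} (hc : Function.Injective c) (h0 : c 0 = 0) (n : ℕ)
    (δ : ((Fin (n + 1) → K) × (Fin n → K)) →ₗ[K] ((Fin (n + 2) → K) × (Fin (n + 1) → K)))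
    (hδ : δ ≠ 0)
    (h1 : ∀ x, δ (pr (eu c) n x) = pr (eu c) (n + 1) (δ x))
    (h2 : ∀ x, δ (pr (ev c) n x) = pr (ev c) (n + 1) (δ x))
    (h3 : ∀ x, δ (pr (sd c) n x) = pr (sd c) (n + 1) (δ x)) :
    LinearMap.ker δ = S K n ∧ LinearMap.range δ = S K (n + 1) := by
  obtain ⟨r, hr⟩ := brick_form hc h0 n δ h1 h2 h3
  have hr0 : r ≠ 0 := by
    rintro rfl
    refine hδ (LinearMap.ext fun x => ?_)
    rw [hr x, zero_smul]
    rfl
  constructor
  · ext x
    rw [LinearMap.mem_ker, hr x]
    show _ ↔ x.1 = 0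
    constructor
    · intro h
      have := congrArg Prod.snd h
      exact (smul_eq_zero.1 this).resolve_left hr0
    · intro h
      rw [h, smul_zero]
      rfl
  · ext y
    constructor
    · rintro ⟨x, rfl⟩
      rw [hr x]
      exact (rfl : (0 : Fin (n + 2) → K) = 0)
    · intro hy
      have hy1 : y.1 = 0 := hy
      refine ⟨(r⁻¹ • y.2, 0), ?_⟩
      rw [hr]
      refine Prod.ext hy1.symm ?_
      show r • r⁻¹ • y.2 = y.2
      rw [smul_smul, mul_inv_cancel₀ hr0, one_smul]

/-- 128's `q`-numbers are injective -/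
theorem cq_inj {K : Type} [Field K] {g : K} (hg : B281.Gen g) :
    Function.Injective (B281.cq g) := by
  intro a b hab
  have h1 : g ^ (-a) - 1 = g ^ (-b) - 1 := by
    have := congrArg (fun z => z * (g - 1)) hab
    simp only [B281.cq, div_mul_cancel₀ _ hg.sub] at this
    exact this
  by_contra hne
  refine hg.zpow (m := a - b) (sub_ne_zero.2 hne) ?_
  have h2 : g ^ (-a) = g ^ (-b) := by simpa using h1
  have h3 : g ^ a ≠ 0 := zpow_ne_zero _ hg.1
  rw [zpow_sub₀ hg.1]
  rw [zpow_neg, zpow_neg, inv_inj] at h2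
  rw [h2, div_self]
  exact zpow_ne_zero _ hg.1

/-- **the brick statement** for 128's `q`-numbers and all four operators `x_i d_j`;
`op (i, j)`: `(0,0)` and `(1,1)` Euler operators, `(1,0)` and `(0,1)` the shifts -/
noncomputable def op {K : Type} [Field K] (g : K) (t : Fin 2 × Fin 2) (m : ℕ) :
    (Fin m → K) →ₗ[K] (Fin m → K) :=
  if t = (0, 0) then eu (B281.cq g) m else if t = (1, 1) then ev (B281.cq g) m
  else if t = (1, 0) then sd (B281.cq g) m else su (B281.cq g) m

theorem op_zz {K : Type} [Field K] (g : K) : op g (0, 0) = eu (B281.cq g) := by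
  funext m
  exact if_pos rfl

theorem op_oo {K : Type} [Field K] (g : K) : op g (1, 1) = ev (B281.cq g) := by
  funext m
  rw [op, if_neg (by decide), if_pos rfl]

theorem op_oz {K : Type} [Field K] (g : K) : op g (1, 0) = sd (B281.cq g) := by
  funext m
  rw [op, if_neg (by decide), if_neg (by decide), if_pos rfl]

theorem op_zo {K : Type} [Field K] (g : K) : op g (0, 1) = su (B281.cq g) := by
  funext m
  rw [op, if_neg (by decide), if_neg (by decide), if_neg (by decide)]

theorem brick_op {K : Type} [Field K] {g : K} (hg : B281.Gen g) (n : ℕ)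
    (δ : ((Fin (n + 1) → K) × (Fin n → K)) →ₗ[K] ((Fin (n + 2) → K) × (Fin (n + 1) → K)))
    (hδ : δ ≠ 0) (h : ∀ t x, δ (pr (op g t) n x) = pr (op g t) (n + 1) (δ x)) :
    LinearMap.ker δ = S K n ∧ LinearMap.range δ = S K (n + 1) := by
  refine brick (cq_inj hg) (B281.cq_zero g) n δ hδ ?_ ?_ ?_
  · intro x; have := h (0, 0) x; rwa [op_zz] at this
  · intro x; have := h (1, 1) x; rwa [op_oo] at this
  · intro x; have := h (1, 0) x; rwa [op_oz] at this

end Crest.Agent.R186.BrickS538
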