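import Crest.Agent.R186.ConeAlg_462
import Crest.Agent.R186.C2b_44

/-!
# Row 186 (A) (helper44): the gradings are direct (projections)

`GrP A` : projections of a `Hat827.DGA` onto its homogeneous pieces.

* `SP w` : projections of the pieces of `w.S`; `SP.win : GrP w.dga`.
* `spR π : SP (WR π)` from the PBW coordinates.
* `GrP.cone : GrP A → GrP S.dga` for `ConeAlg462`.
-/

set_option autoImplicit false

noncomputable section

namespace Crest.Agent.R186.GrP44

open Crest.Agent.R186 Hat827

variable {K : Type} [Field K]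

/-- projections onto the homogeneous pieces -/
structure GrP (A : DGA K) where
  pi : ℤ → A.C →ₗ[K] A.C
  mem : ∀ (k : ℤ) (a : A.C), pi k a ∈ A.G k
  same : ∀ (k : ℤ) (a : A.C), a ∈ A.G k → pi k a = a
  ne : ∀ (k l : ℤ) (a : A.C), k ≠ l → a ∈ A.G l → pi k a = 0
  sum : ∀ a : A.C, ∑ k ∈ Finset.range (A.N + 1), pi k a = a

/-- the sum formula from generation by homogeneous elements, general form -/
theorem sum_of {V : Type*} [AddCommGroup V] [Module K V] (p : ℤ → V →ₗ[K] V)
    (G : ℤ → Submodule K V) (N : ℕ) (hneg : ∀ k : ℤ, k < 0 → G k = ⊥)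
    (hbig : ∀ k : ℤ, (N : ℤ) < k → G k = ⊥)
    (same : ∀ (k : ℤ) (a : V), a ∈ G k → p k a = a)
    (ne : ∀ (k l : ℤ) (a : V), k ≠ l → a ∈ G l → p k a = 0) {a : V} (ha : a ∈ ⨆ k, G k) :
    ∑ k ∈ Finset.range (N + 1), p k a = a := by
  have h : (⨆ k, G k) ≤ LinearMap.ker ((∑ k ∈ Finset.range (N + 1), p k) - LinearMap.id) := by
    refine iSup_le fun k x hx => ?_
    rw [LinearMap.mem_ker, LinearMap.sub_apply, LinearMap.sum_apply, LinearMap.id_apply, sub_eq_zero]
    by_cases h0 : k < 0
    · rw [hneg k h0] at hx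
      rw [(Submodule.mem_bot K).1 hx]
      simp
    by_cases h1 : (N : ℤ) < k
    · rw [hbig k h1] at hx
      rw [(Submodule.mem_bot K).1 hx]
      simp
    obtain ⟨n, rfl⟩ : ∃ n : ℕ, k = n := ⟨k.toNat, by omega⟩
    rw [Finset.sum_eq_single n]
    · exact same _ _ hx
    · intro m _ hm
      exact ne _ _ _ (by exact_mod_cast hm) hx
    · intro hn
      exact absurd (Finset.mem_range.2 (by omega)) hn
  have h2 := h ha
  rw [LinearMap.mem_ker, LinearMap.sub_apply, LinearMap.sum_apply, LinearMap.id_apply,
    sub_eq_zero] at h2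
  exact h2

/-! ### windows -/

open Win810

/-- projections of the pieces of the tri-graded algebra of a window -/
structure SP (w : WD K) where
  pr : ℤ → ℤ → ℤ → w.S →ₗ[K] w.S
  mem : ∀ (P A C : ℤ) (s : w.S), pr P A C s ∈ w.pc P A C
  same : ∀ (P A C : ℤ) (s : w.S), s ∈ w.pc P A C → pr P A C s = s
  ne : ∀ (P A C C' : ℤ) (s : w.S), C ≠ C' → s ∈ w.pc P A C' → pr P A C s = 0

namespace SP

variable {w : WD K} (p : SP w)

/-- the projection of the window algebra -/
def wpi (k : ℤ) : w.Win →ₗ[K] w.Win where
  toFun m := ⟨Matrix.of fun i j => p.pr (w.P i - w.P j) (w.A i - w.A j) k (m.1 i j), fun i j =>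
    WD.q_le i j k (p.mem _ _ _ _)⟩
  map_add' a b := by
    apply Subtype.ext
    ext i j
    exact map_add (p.pr _ _ _) _ _
  map_smul' r a := by
    apply Subtype.ext
    ext i j
    exact map_smul (p.pr _ _ _) _ _

theorem wpi_apply (k : ℤ) (m : w.Win) (i j : w.Ob) :
    (p.wpi k m).1 i j = p.pr (w.P i - w.P j) (w.A i - w.A j) k (m.1 i j) := rfl

/-- **projections of the window algebra** -/
def win : GrP w.dga where
  pi := p.wpi
  mem k a := fun i j => p.mem _ _ _ _
  same k a ha := by
    apply Subtype.ext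
    ext i j
    exact p.same _ _ _ _ (ha i j)
  ne k l a hkl ha := by
    apply Subtype.ext
    ext i j
    exact p.ne _ _ _ _ _ hkl (ha i j)
  sum a := by
    apply Subtype.ext
    ext i j
    have e : (∑ k ∈ Finset.range (w.dga.N + 1), p.wpi k a : w.Win).1 i j =
        ∑ k ∈ Finset.range (w.dga.N + 1), (p.wpi k a).1 i j := by
      exact GCells.sum_apply _ _ i j
    refine e.trans ?_
    refine (Finset.sum_congr rfl fun (k : ℕ) _ => p.wpi_apply (k : ℤ) a i j).trans ?_
    exact sum_of (fun k => p.pr (w.P i - w.P j) (w.A i - w.A j) k) (fun k => w.q i j k) w.N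
      (fun k hk => w.neg i j k hk) (fun k hk => w.big i j k hk) (fun k s hs => p.same _ _ _ _ hs)
      (fun k l s hkl hs => p.ne _ _ _ _ _ hkl hs) (a.2 i j)

end SP

/-! ### the window of `R''` -/

section R

open DefsQ830 PBW128 C2b44

variable (π : Par K)

/-- the projection on coordinates -/
def prN (K : Type) [Field K] (P A C : ℤ) : N K →ₗ[K] N K :=
  Finsupp.linearCombination K (fun ν : Ix =>
    if dPx ν = P ∧ (dAx ν : ℤ) = A ∧ (dCx ν : ℤ) = C then Finsupp.single ν 1 else 0)

theorem prN_bv {P A C : ℤ} {i j k : ℕ} {w : List E} {q : Wb} : prN K P A C (bv K i j k w q) =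
    if dPx (i, j, k, w, q) = P ∧ (dAx (i, j, k, w, q) : ℤ) = A ∧ (dCx (i, j, k, w, q) : ℤ) = C
    then bv K i j k w q else 0 := by
  simp [prN, bv]

/-- the projection of `R''` onto a piece -/
def prR (P A C : ℤ) : R π →ₗ[K] R π := (Psi π) ∘ₗ (prN K P A C) ∘ₗ (ev π)

theorem prR_mem (P A C : ℤ) (r : R π) : prR π P A C r ∈ pcZ π P A C := by
  have h : (⊤ : Submodule K (N K)) ≤ (pcZ π P A C).comap ((Psi π) ∘ₗ (prN K P A C)) := by
    rw [← Finsupp.supported_univ, Finsupp.supported_eq_span_single, Submodule.span_le]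
    rintro _ ⟨⟨i, j, k, w, q⟩, -, rfl⟩
    show Psi π (prN K P A C (bv K i j k w q)) ∈ pcZ π P A C
    rw [prN_bv]
    split_ifs with h
    · rw [Psi_bv]
      exact nf_mem_pcZ π _ h.1 h.2.1 h.2.2
    · rw [map_zero]
      exact Submodule.zero_mem _
  exact h (Submodule.mem_top (x := ev π r))

theorem prR_same (P A C : ℤ) (r : R π) (hr : r ∈ pcZ π P A C) : prR π P A C r = r := by
  have h := map_pcZ π (φ := (Psi π) ∘ₗ (prN K P A C) - Psi π) (T := ⊥) ?_ hr
  · rw [Submodule.mem_bot, LinearMap.sub_apply, LinearMap.comp_apply, Psi_ev, sub_eq_zero] at h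
    exact h
  · intro i j k w q h1 h2 h3
    rw [Submodule.mem_bot, LinearMap.sub_apply, LinearMap.comp_apply, prN_bv, if_pos ⟨h1, h2, h3⟩,
      sub_self]

theorem prR_ne (P A C C' : ℤ) (r : R π) (hC : C ≠ C') (hr : r ∈ pcZ π P A C') :
    prR π P A C r = 0 := by
  have h := map_pcZ π (φ := (Psi π) ∘ₗ (prN K P A C)) (T := ⊥) ?_ hr
  · rw [Submodule.mem_bot, LinearMap.comp_apply] at h
    exact h
  · intro i j k w q h1 h2 h3
    rw [Submodule.mem_bot, LinearMap.comp_apply, prN_bv, if_neg (fun h => hC (h.2.2.symm.trans h3)),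
      map_zero]

/-- projections of the pieces of `R''` -/
def spR : SP (WR π) where
  pr := prR π
  mem := prR_mem π
  same := prR_same π
  ne := prR_ne π

/-- **the grading of the window algebra of `R''` is direct** -/
def grR : GrP (WR π).dga := (spR π).win

end R

/-! ### the cone algebra -/

section Cone

open ConeAlg462

variable {A : DGA K} (S : Data A)

/-- the projection of the matrices -/
def jp (m : ℤ) : Matrix S.β S.γ K →ₗ[K] Matrix S.β S.γ K where
  toFun t := Matrix.of fun b c => if S.dk b + S.dh c + 1 = m then t b c else 0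
  map_add' x y := by
    ext b c
    simp only [Matrix.of_apply, Matrix.add_apply]
    split_ifs <;> simp
  map_smul' r x := by
    ext b c
    simp only [Matrix.of_apply, Matrix.smul_apply, RingHom.id_apply]
    split_ifs <;> simp

theorem jp_apply (m : ℤ) (t : Matrix S.β S.γ K) (b : S.β) (c : S.γ) :
    jp S m t b c = if S.dk b + S.dh c + 1 = m then t b c else 0 := rfl

theorem jp_mem (m : ℤ) (t : Matrix S.β S.γ K) : jp S m t ∈ S.J m := by
  intro b c h
  rw [jp_apply] at h
  by_contra h2
  exact h (if_neg h2)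

theorem jp_same (m : ℤ) (t : Matrix S.β S.γ K) (ht : t ∈ S.J m) : jp S m t = t := by
  ext b c
  rw [jp_apply]
  split_ifs with h
  · rfl
  · by_contra h2
    exact h (ht b c (Ne.symm h2))

theorem jp_ne (m l : ℤ) (t : Matrix S.β S.γ K) (hml : m ≠ l) (ht : t ∈ S.J l) : jp S m t = 0 := by
  ext b c
  rw [jp_apply]
  split_ifs with h
  · by_contra h2
    exact hml (h.symm.trans (ht b c h2))
  · rfl

theorem J_top (t : Matrix S.β S.γ K) : t ∈ ⨆ m, S.J m := by
  have : t = ∑ b, ∑ c, Matrix.single b c (t b c) := Matrix.matrix_eq_sum_single t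
  rw [this]
  refine Submodule.sum_mem _ fun b _ => Submodule.sum_mem _ fun c _ => ?_
  refine Submodule.mem_iSup_of_mem (S.dk b + S.dh c + 1) ?_
  intro b' c' h
  rw [Matrix.single_apply] at h
  split_ifs at h with h2
  · rw [h2.1, h2.2]
  · exact absurd rfl h

/-- **the grading of the cone algebra is direct** -/
def GrP.cone (g : GrP A) : GrP S.dga where
  pi k :=
    { toFun := fun x => S.el (g.pi k x.1) (jp S k x.2)
      map_add' := fun x y => by
        apply Data.Car.ext
        · exact map_add (g.pi k) _ _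
        · exact map_add (jp S k) _ _
      map_smul' := fun r x => by
        apply Data.Car.ext
        · exact map_smul (g.pi k) _ _
        · exact map_smul (jp S k) _ _ }
  mem k a := ⟨g.mem k _, jp_mem S k _⟩
  same k a ha := by
    apply Data.Car.ext
    · exact g.same k _ ha.1
    · exact jp_same S k _ ha.2
  ne k l a hkl ha := by
    apply Data.Car.ext
    · exact g.ne k l _ hkl ha.1
    · exact jp_ne S k l _ hkl ha.2
  sum a := by
    have h1 : ∀ s : Finset ℕ, (∑ k ∈ s, S.el (g.pi k a.1) (jp S k a.2) : S.Car) =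
        S.el (∑ k ∈ s, g.pi k a.1) (∑ k ∈ s, jp S k a.2) := by
      classical
      intro s
      induction s using Finset.induction_on with
      | empty => rfl
      | insert x s hx ih =>
        rw [Finset.sum_insert hx, Finset.sum_insert hx, Finset.sum_insert hx, ih]
        rfl
    refine (h1 _).trans ?_
    apply Data.Car.ext
    · refine sum_of (fun k => g.pi k) A.G (A.N + S.bd) A.G_neg ?_ (fun k a h => g.same k a h)
        (fun k l a hkl h => g.ne k l a hkl h) ?_
      · intro k hk
        push_cast at hk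
        exact A.G_big k (by omega)
      · rw [← g.sum a.1]
        exact Submodule.sum_mem _ fun k _ => Submodule.mem_iSup_of_mem (k : ℤ) (g.mem _ _)
    · refine sum_of (fun k => jp S k) S.J (A.N + S.bd) ?_ ?_ (fun k a h => jp_same S k a h)
        (fun k l a hkl h => jp_ne S k l a hkl h) (J_top S _)
      · intro k hk
        rw [eq_bot_iff]
        intro t ht
        rw [Submodule.mem_bot]
        ext b c
        by_contra hne
        have h3 := ht b c hne
        have h4 := S.dk_nn b
        have h5 := S.dh_nn c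
        omega
      · intro k hk
        rw [eq_bot_iff]
        intro t ht
        rw [Submodule.mem_bot]
        ext b c
        by_contra hne
        have h3 := ht b c hne
        have h4 := S.le_bd b c
        push_cast at hk
        omega

end Cone

end Crest.Agent.R186.GrP44
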