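import Crest.Agent.R186.FinV_988
import Crest.Agent.R186.GrP_44

/-!
Row 186 (A), leaf A.FIN, the dualisation half of D1 / D2 (helper988).

`gD I X kt : GCHom (tG (DR (selfL A)) (lpc X)) (DZc I)`, `x ↦ (η ↦ ∑ x σ (ev (kt σ) η))`.
`QI gD` gives the fields `D1`, `D2` of 384's `HIn`.
-/

set_option autoImplicit false
set_option linter.style.haveILetI false
set_option linter.unusedSectionVars false

open MulOpposite

namespace Crest.Agent.R186.FinD988

open Hat827 Frame515 Res255 ConeHyp462 Adapt186 FinV988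

variable {K : Type} [Field K] {A : DGA K}

/-! ### pairing of `DR Z ⊗ X` with `Hom(X, Z)` -/

section pairing

variable {Z : LM A} (X : LCells A)

/-- the differential of `Hom(X, Z)` -/
def bd (φ : X.ι → Z.X) (σ : X.ι) : Z.X := Z.d (φ σ) + ∑ τ ∈ X.F (X.s σ), X.c σ τ • φ τ

/-- the pairing with `φ` -/
noncomputable def pa (φ : X.ι → Z.X) : (X.ι →₀ (DR Z).X) →ₗ[K] K :=
  Finsupp.lsum K fun σ => dev Z (φ σ)

theorem pa_single (φ : X.ι → Z.X) (σ : X.ι) (f : (DR Z).X) :
    pa X φ (Finsupp.single σ f) = dev Z (φ σ) f := by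
  simp [pa]

theorem pa_apply (φ : X.ι → Z.X) (x : X.ι →₀ (DR Z).X) (S : Finset X.ι) (hS : x.support ⊆ S) :
    pa X φ x = ∑ σ ∈ S, dev Z (φ σ) (x σ) := by
  rw [pa, Finsupp.lsum_apply]
  exact Finsupp.sum_of_support_subset _ hS _ fun σ _ => map_zero _

theorem dev_sum {ι' : Type} (s : Finset ι') (g : ι' → Z.X) (f : (DR Z).X) :
    dev Z (∑ i ∈ s, g i) f = ∑ i ∈ s, dev Z (g i) f :=
  map_sum (show Z.X →ₗ[K] K from f) g s

theorem dev_add (a b : Z.X) (f : (DR Z).X) : dev Z (a + b) f = dev Z a f + dev Z b f :=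
  map_add (show Z.X →ₗ[K] K from f) a b

/-- the pairing is compatible with the differentials -/
theorem pa_d (φ : X.ι → Z.X) (x : X.ι →₀ (DR Z).X) :
    pa X φ ((twG (DR Z) X).dd x) = pa X (bd X φ) x := by
  classical
  suffices h : pa X φ ∘ₗ (twG (DR Z) X).dd = pa X (bd X φ) from LinearMap.congr_fun h x
  refine Finsupp.lhom_ext fun σ f => ?_
  rw [LinearMap.comp_apply, pa_single, Tw.dd_single, map_add, map_sum, pa_single]
  have h1 : ∀ τ, pa X φ (Finsupp.single τ (rmul (DR Z) (X.c σ τ) f)) =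
      dev Z (X.c σ τ • φ τ) f := fun τ => by rw [pa_single, dev_rmul]
  have h2 : ∑ τ ∈ X.F (X.s σ), pa X φ (Finsupp.single τ ((twG (DR Z) X).m σ τ f)) =
      ∑ τ ∈ X.F (X.s σ), dev Z (X.c σ τ • φ τ) f := Finset.sum_congr rfl fun τ _ => h1 τ
  refine (congrArg₂ (· + ·) (dev_d f (φ σ)) h2).trans ?_
  rw [bd, dev_add, dev_sum]

/-- a functional which kills coboundaries is a cycle of `DR Z ⊗ X` -/
theorem func (P : PrL Z) (p : ℤ) (lam : (X.ι → Z.X) →ₗ[K] K)
    (hl : ∀ ψ : X.ι → Z.X, (∀ σ, ψ σ ∈ Z.gr ((X.s σ : ℤ) - p + 1)) →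
      (∀ σ, X.e σ • ψ σ = ψ σ) → lam (bd X ψ) = 0) :
    ∃ x ∈ (tG (DR Z) X).gr p, (tG (DR Z) X).d x = 0 ∧
      ∀ ψ : X.ι → Z.X, (∀ σ, ψ σ ∈ Z.gr ((X.s σ : ℤ) - p)) → (∀ σ, X.e σ • ψ σ = ψ σ) →
        lam ψ = pa X ψ x := by
  classical
  let x : X.ι → (Z.X →ₗ[K] K) := fun σ =>
    lam ∘ₗ (LinearMap.single K (fun _ : X.ι => Z.X) σ) ∘ₗ lmul Z (X.e σ) ∘ₗ P.pr ((X.s σ : ℤ) - p)
  have x_ap : ∀ σ z, x σ z = lam (Pi.single σ (X.e σ • P.pr ((X.s σ : ℤ) - p) z)) := by
    intro σ z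
    rfl
  have hi0 : ∀ {l : ℤ} {z : Z.X}, z ∈ Z.gr l → P.hi < l → z = 0 := by
    intro l z hz h
    exact P.lz.eq_zero_of_hi hz h
  set M : ℕ := (P.hi + p).toNat with hM
  have hM' : P.hi + p ≤ (M : ℤ) := Int.self_le_toNat _
  have xs : ∀ σ, x σ ≠ 0 → σ ∈ X.F M := by
    intro σ hσ
    by_contra hn
    have hn' : M < X.s σ := notF hn
    apply hσ
    ext z
    rw [x_ap, hi0 (P.pr_mem _ z) (by omega), smul_zero, Pi.single_zero, map_zero]
    rfl
  let x' : X.ι →₀ (DR Z).X := Finsupp.onFinset (X.F M) x xs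
  have hxs : x'.support ⊆ X.F M := Finsupp.support_onFinset_subset
  have pair : ∀ ψ : X.ι → Z.X, (∀ σ, ψ σ ∈ Z.gr ((X.s σ : ℤ) - p)) →
      (∀ σ, X.e σ • ψ σ = ψ σ) → lam ψ = pa X ψ x' := by
    intro ψ h1 h2
    rw [pa_apply X ψ x' (X.F M) hxs]
    have e1 : ψ = ∑ σ ∈ X.F M, Pi.single σ (ψ σ) := by
      funext τ
      rw [Finset.sum_apply]
      by_cases hτ : τ ∈ X.F M
      · rw [Finset.sum_eq_single τ]
        · rw [Pi.single_eq_same]
        · intro σ _ hσ
          rw [Pi.single_eq_of_ne hσ.symm]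
        · intro h
          exact absurd hτ h
      · have hn' : M < X.s τ := notF hτ
        rw [hi0 (h1 τ) (by omega)]
        symm
        refine Finset.sum_eq_zero fun σ hσ => ?_
        rw [Pi.single_eq_of_ne]
        rintro rfl
        exact hτ hσ
    conv_lhs => rw [e1]
    rw [map_sum]
    refine Finset.sum_congr rfl fun σ _ => ?_
    change _ = x σ (ψ σ)
    rw [x_ap, P.pr_same (h1 σ), h2]
  refine ⟨x', ?_, ?_, pair⟩
  · intro σ
    constructor
    · intro l z hz hl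
      change x σ z = 0
      rw [x_ap, P.pr_ne hz (by
        change l ≠ -(p - (X.s σ : ℤ)) at hl
        omega), smul_zero, Pi.single_zero, map_zero]
    · refine DR_ext fun z => ?_
      change x σ (X.e σ • z) = x σ z
      have a1 : P.pr ((X.s σ : ℤ) - p) (X.e σ • z) = X.e σ • P.pr ((X.s σ : ℤ) - p) z :=
        P.lz.pr_smul (m := (X.s σ : ℤ) - p) (k := 0) (l := (X.s σ : ℤ) - p) (by ring)
          (X.e_mem σ) z
      rw [x_ap, x_ap, a1, smul_smul, X.e_idem]
  · refine Finsupp.ext fun τ => ?_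
    refine ((twG (DR Z) X).dd_apply' x' (X.F M) hxs τ).trans ?_
    refine DR_ext fun z => ?_
    rw [map_add, map_sum]
    change x τ (Z.d z) + ∑ σ ∈ X.F M, x σ (X.c σ τ • z) = 0
    set w : Z.X := X.e τ • P.pr ((X.s τ : ℤ) - p + 1) z with hw
    have hw1 : w ∈ Z.gr ((X.s τ : ℤ) - p + 1) := by
      have h := Z.smul_mem (X.e_mem τ) (P.pr_mem ((X.s τ : ℤ) - p + 1) z)
      rwa [zero_add] at h
    have hw2 : X.e τ • w = w := by
      rw [hw, smul_smul, X.e_idem]
    have h0 := hl (Pi.single τ w)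
      (fun σ => by
        by_cases h : σ = τ
        · subst h
          rw [Pi.single_eq_same]
          exact hw1
        · rw [Pi.single_eq_of_ne h]
          exact Submodule.zero_mem _)
      (fun σ => by
        by_cases h : σ = τ
        · subst h
          rw [Pi.single_eq_same]
          exact hw2
        · rw [Pi.single_eq_of_ne h, smul_zero])
    have hbσ : ∀ σ, bd X (Pi.single τ w) σ = (if σ = τ then Z.d w else 0) + X.c σ τ • w := by
      intro σ
      rw [bd]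
      congr 1
      · by_cases h : σ = τ
        · subst h
          rw [Pi.single_eq_same, if_pos rfl]
        · rw [Pi.single_eq_of_ne h, if_neg h, map_zero]
      · by_cases h : τ ∈ X.F (X.s σ)
        · rw [Finset.sum_eq_single τ]
          · rw [Pi.single_eq_same]
          · intro ρ _ hρ
            rw [Pi.single_eq_of_ne hρ, smul_zero]
          · intro h'
            exact absurd h h'
        · rw [LCells.c_zero (by have := notF h; omega), zero_smul]
          refine Finset.sum_eq_zero fun ρ hρ => ?_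
          rw [Pi.single_eq_of_ne, smul_zero]
          rintro rfl
          exact h hρ
    have hb1 : ∀ σ, bd X (Pi.single τ w) σ ∈ Z.gr ((X.s σ : ℤ) - p) := by
      intro σ
      rw [hbσ]
      refine Submodule.add_mem _ ?_ ?_
      · by_cases h : σ = τ
        · subst h
          rw [if_pos rfl]
          have := Z.d_mem hw1
          rwa [show (X.s σ : ℤ) - p + 1 - 1 = X.s σ - p by ring] at this
        · rw [if_neg h]
          exact Submodule.zero_mem _
      · have := Z.smul_mem (X.c_mem σ τ) hw1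
        rwa [show (X.s σ : ℤ) - X.s τ - 1 + ((X.s τ : ℤ) - p + 1) = (X.s σ : ℤ) - p by ring]
          at this
    have hb2 : ∀ σ, X.e σ • bd X (Pi.single τ w) σ = bd X (Pi.single τ w) σ := by
      intro σ
      rw [hbσ, smul_add, smul_smul, X.c_left]
      congr 1
      by_cases h : σ = τ
      · subst h
        rw [if_pos rfl]
        have := Z.leib (X.e σ) w
        rw [LCells.De, zero_smul, zero_add, hw2] at this
        exact this.symm
      · rw [if_neg h, smul_zero]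
    rw [pair _ hb1 hb2, pa_apply X _ x' (X.F M) hxs] at h0
    have e1 : x τ (Z.d z) = x τ (Z.d w) := by
      rw [x_ap, x_ap]
      have a1 : P.pr ((X.s τ : ℤ) - p) (Z.d z) = Z.d (P.pr ((X.s τ : ℤ) - p + 1) z) :=
        P.lz.pr_d (k := (X.s τ : ℤ) - p) (l := (X.s τ : ℤ) - p + 1) rfl z
      have a2 : P.pr ((X.s τ : ℤ) - p) (Z.d w) = Z.d (P.pr ((X.s τ : ℤ) - p + 1) w) :=
        P.lz.pr_d (k := (X.s τ : ℤ) - p) (l := (X.s τ : ℤ) - p + 1) rfl w
      rw [a1, a2, P.pr_same hw1, hw, Z.leib, LCells.De, zero_smul,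
        zero_add, smul_smul, X.e_idem]
    have e2 : ∀ σ, x σ (X.c σ τ • z) = x σ (X.c σ τ • w) := by
      intro σ
      rw [x_ap, x_ap]
      have a1 : ∀ y, P.pr ((X.s σ : ℤ) - p) (X.c σ τ • y) =
          X.c σ τ • P.pr ((X.s τ : ℤ) - p + 1) y := fun y =>
        P.lz.pr_smul (m := (X.s σ : ℤ) - p) (k := (X.s σ : ℤ) - X.s τ - 1)
          (l := (X.s τ : ℤ) - p + 1) (by ring) (X.c_mem σ τ) y
      rw [a1, a1, P.pr_same hw1, hw, smul_smul (X.c σ τ) (X.e τ), X.c_right]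
    have h3 : ∑ σ ∈ X.F M, dev Z (bd X (Pi.single τ w) σ) (x' σ) =
        x τ (Z.d w) + ∑ σ ∈ X.F M, x σ (X.c σ τ • w) := by
      have h4 : ∀ σ ∈ X.F M, dev Z (bd X (Pi.single τ w) σ) (x' σ) =
          x σ (if σ = τ then Z.d w else 0) + x σ (X.c σ τ • w) := by
        intro σ _
        rw [hbσ, dev_add]
        rfl
      rw [Finset.sum_congr rfl h4, Finset.sum_add_distrib]
      congr 1
      by_cases hτ : τ ∈ X.F M
      · rw [Finset.sum_eq_single τ]
        · rw [if_pos rfl]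
        · intro σ _ hσ
          rw [if_neg hσ, map_zero]
        · intro h
          exact absurd hτ h
      · have hx0 : x τ = 0 := by
          by_contra hne
          exact hτ (xs τ hne)
        rw [hx0, LinearMap.zero_apply]
        refine Finset.sum_eq_zero fun σ hσ => ?_
        rw [if_neg, map_zero]
        rintro rfl
        exact hτ hσ
    rw [h3] at h0
    rw [e1, Finset.sum_congr rfl fun σ _ => e2 σ, h0]

end pairing

/-! ### the map to the dual of `H` -/

section gd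

variable (I : In A)

/-- the dual complex of `H` -/
def DZc : GC K where
  X := I.Z →ₗ[K] K
  gr k :=
    { carrier := {f | ∀ l z, z ∈ I.gs.G l → l ≠ -k → f z = 0}
      add_mem' := fun {f g} hf hg l z hz hl => by
        rw [LinearMap.add_apply, hf l z hz hl, hg l z hz hl, add_zero]
      zero_mem' := fun l z _ _ => rfl
      smul_mem' := fun r f hf l z hz hl => by
        rw [LinearMap.smul_apply, hf l z hz hl, smul_zero] }
  d :=
    { toFun := fun f => f ∘ₗ I.dZ
      map_add' := fun f g => rfl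
      map_smul' := fun r f => rfl }
  d_mem := by
    intro k f hf l z hz hl
    exact hf (l - 1) (I.dZ z) (I.dZ_deg hz) (by omega)
  d_d := by
    intro f
    ext z
    change f (I.dZ (I.dZ z)) = 0
    rw [I.dZZ, map_zero]

/-- evaluation at `z` -/
def zev (z : I.Z) : (DZc I).X →ₗ[K] K where
  toFun f := (show I.Z →ₗ[K] K from f) z
  map_add' _ _ := rfl
  map_smul' _ _ := rfl

theorem DZc_ext {f g : (DZc I).X} (h : ∀ z, zev I z f = zev I z g) : f = g := LinearMap.ext h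

variable (X : PCells A) (kt : X.ι → I.Y)

/-- `φ ↦ (η ↦ φ (ev (kt σ) η))` -/
def g1 (σ : X.ι) : (DR (selfL A)).X →ₗ[K] (DZc I).X where
  toFun f := (show A.C →ₗ[K] K from f) ∘ₗ I.ev (kt σ)
  map_add' _ _ := rfl
  map_smul' _ _ := rfl

theorem zev_g1 (σ : X.ι) (z : I.Z) (f : (DR (selfL A)).X) :
    zev I z (g1 I X kt σ f) = dev (selfL A) (I.ev (kt σ) z) f := rfl

/-- the underlying linear map -/
noncomputable def gf : ((lpc X).ι →₀ (DR (selfL A)).X) →ₗ[K] (DZc I).X :=
  Finsupp.lsum K fun σ => g1 I X kt σ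

/-- `η ↦ (σ ↦ ev (kt σ) η)` -/
def evk (z : I.Z) : (lpc X).ι → (selfL A).X := fun σ => I.ev (kt σ) z

theorem zev_gf (x : (lpc X).ι →₀ (DR (selfL A)).X) (z : I.Z) :
    zev I z (gf I X kt x) = pa (lpc X) (evk I X kt z) x := by
  suffices h : zev I z ∘ₗ gf I X kt = pa (Z := selfL A) (lpc X) (evk I X kt z) from
    LinearMap.congr_fun h x
  refine Finsupp.lhom_ext fun σ f => ?_
  rw [LinearMap.comp_apply, pa_single, gf, Finsupp.lsum_single, zev_g1]
  rfl

/-- the class of `kt` is a cocycle -/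
def KtD : Prop := ∀ σ, I.dY (kt σ) + ∑ τ ∈ X.F (X.s σ), I.L (X.c σ τ) (kt τ) = 0

theorem bd_evk (hd : KtD I X kt) (z : I.Z) :
    bd (lpc X) (evk I X kt z) = evk I X kt (I.dZ z) := by
  funext σ
  have h1 : bd (lpc X) (evk I X kt z) σ =
      A.D (I.ev (kt σ) z) + ∑ τ ∈ X.F (X.s σ), X.c σ τ * I.ev (kt τ) z := rfl
  rw [h1, I.ev_D]
  have h2 : ∑ τ ∈ X.F (X.s σ), X.c σ τ * I.ev (kt τ) z =
      I.ev (∑ τ ∈ X.F (X.s σ), I.L (X.c σ τ) (kt τ)) z := by
    rw [map_sum, LinearMap.sum_apply]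
    exact Finset.sum_congr rfl fun τ _ => (I.ev_l _ _ _).symm
  have h3 : I.ev (I.dY (kt σ)) z + I.ev (∑ τ ∈ X.F (X.s σ), I.L (X.c σ τ) (kt τ)) z = 0 := by
    rw [← LinearMap.add_apply, ← map_add, hd σ, map_zero, LinearMap.zero_apply]
  rw [h2, add_right_comm, h3, zero_add]
  rfl

/-- **the chain map** -/
noncomputable def gD (hk : ∀ σ, kt σ ∈ I.gr.G (X.s σ)) (hd : KtD I X kt) :
    GCHom (tG (DR (selfL A)) (lpc X)) (DZc I) where
  f := gf I X kt
  f_mem := by
    intro k x hx l z hz hl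
    have h1 := zev_gf I X kt x z
    refine h1.trans ?_
    rw [pa_apply (lpc X) _ x x.support (Finset.Subset.refl _)]
    refine Finset.sum_eq_zero fun σ _ => ?_
    have h2 := (hx σ).1 ((X.s σ : ℤ) + l) (I.ev (kt σ) z) (I.ev_deg (hk σ) hz)
    refine h2 ?_
    change (X.s σ : ℤ) + l ≠ -(k - (X.s σ : ℤ))
    omega
  f_d := by
    intro x
    refine DZc_ext I fun z => ?_
    have h1 : zev I z ((DZc I).d (gf I X kt x)) = zev I (I.dZ z) (gf I X kt x) := rfl
    rw [h1, zev_gf, zev_gf]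
    have h2 := pa_d (lpc X) (evk I X kt z) x
    rw [bd_evk I X kt hd] at h2
    exact h2

/-! ### projections -/

theorem gs_ne {k l : ℤ} {z : I.Z} (hz : z ∈ I.gs.G l) (h : k ≠ l) : I.gs.pr k z = 0 := by
  rw [← (I.gs.mem_G).1 hz]
  exact I.gs.pr_ne _ _ _ h

theorem gs_d (k : ℤ) (z : I.Z) : I.gs.pr k (I.dZ z) = I.dZ (I.gs.pr (k + 1) z) := by
  have h1 : ∀ (j : ℤ), I.gs.pr k (I.dZ (I.gs.pr j z)) =
      if j = k + 1 then I.dZ (I.gs.pr (k + 1) z) else 0 := by
    intro j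
    have hj := I.dZ_deg (I.gs.pr_mem j z)
    by_cases h : j = k + 1
    · subst h
      rw [if_pos rfl]
      rw [show k + 1 - 1 = k by ring] at hj
      exact (I.gs.mem_G).1 hj
    · rw [if_neg h]
      exact gs_ne I hj (by omega)
  conv_lhs => rw [← I.gs.total z]
  rw [map_sum, map_sum]
  simp only [h1]
  by_cases h2 : ∃ j : Fin (I.gs.N + 1), ((j : ℕ) : ℤ) = k + 1
  · obtain ⟨j, hj⟩ := h2
    rw [Finset.sum_eq_single j]
    · rw [if_pos hj]
    · intro i _ hi
      rw [if_neg]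
      intro h
      apply hi
      apply Fin.ext
      have : ((i : ℕ) : ℤ) = ((j : ℕ) : ℤ) := by rw [h, hj]
      exact_mod_cast this
    · intro h
      exact absurd (Finset.mem_univ j) h
  · have h3 : ∀ i : Fin (I.gs.N + 1), ((i : ℕ) : ℤ) ≠ k + 1 := fun i hi => h2 ⟨i, hi⟩
    have h4 : I.gs.pr (k + 1) z = 0 := by
      rw [← I.gs.pr_pr, ← I.gs.total (I.gs.pr (k + 1) z)]
      rw [map_sum]
      refine Finset.sum_eq_zero fun i _ => ?_
      exact I.gs.pr_ne _ _ _ (h3 i).symm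
    rw [h4, map_zero]
    refine Finset.sum_eq_zero fun i _ => ?_
    rw [if_neg (h3 i)]

variable {I X kt}

/-- **the field `D2` of `HIn`** -/
theorem D2_of (hk : ∀ σ, kt σ ∈ I.gr.G (X.s σ)) (hd : KtD I X kt)
    (h : QI (gD I X kt hk hd)) (p : ℤ) (η : I.Z) (hη : η ∈ I.gs.G (-p)) (hη2 : I.dZ η = 0)
    (hc : IsCob A X p (fun σ => I.ev (kt σ) η)) : ∃ η' ∈ I.gs.G (-p + 1), η = I.dZ η' := by
  by_contra hcon
  have hnot : η ∉ (I.gs.G (-p + 1)).map I.dZ := by
    rintro ⟨η', h1, h2⟩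
    exact hcon ⟨η', h1, h2.symm⟩
  obtain ⟨mu, hm0, hmk⟩ := Submodule.exists_le_ker_of_notMem hnot
  let μ : (DZc I).X := (mu ∘ₗ I.gs.pr (-p) : I.Z →ₗ[K] K)
  have hμ : ∀ z, zev I z μ = mu (I.gs.pr (-p) z) := fun z => rfl
  have h1 : μ ∈ (DZc I).gr p := by
    intro l z hz hl
    change mu (I.gs.pr (-p) z) = 0
    rw [gs_ne I hz (fun h => hl h.symm), map_zero]
  have h2 : (DZc I).d μ = 0 := by
    refine DZc_ext I fun z => ?_
    change mu (I.gs.pr (-p) (I.dZ z)) = 0
    rw [gs_d]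
    exact hmk ⟨_, I.gs.pr_mem _ z, rfl⟩
  obtain ⟨x, hx, hxd, ν, -, e⟩ := h.surj p μ h1 h2
  apply hm0
  have e1 := congrArg (zev I η) e
  rw [map_add, hμ, (I.gs.mem_G).1 hη] at e1
  rw [e1]
  have e2 : zev I η ((DZc I).d ν) = 0 := by
    change zev I (I.dZ η) ν = 0
    rw [hη2]
    exact map_zero (show I.Z →ₗ[K] K from ν)
  rw [e2, add_zero]
  refine (zev_gf I X kt x η).trans ?_
  obtain ⟨ψ, -, -, hψ⟩ := hc
  have e3 : evk I X kt η = bd (lpc X) (Z := selfL A) ψ := funext fun σ => hψ σ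
  rw [e3, ← pa_d]
  have e4 : (twG (DR (selfL A)) (lpc X)).dd x = 0 := hxd
  rw [e4, map_zero]

/-- **the field `D1` of `HIn`** -/
theorem D1_of (P : PrL (selfL A)) (hk : ∀ σ, kt σ ∈ I.gr.G (X.s σ))
    (he : ∀ σ, I.L (X.e σ) (kt σ) = kt σ) (hd : KtD I X kt)
    (h : QI (gD I X kt hk hd)) (p : ℤ) (φ : X.ι → A.C) (h1 : ∀ σ, φ σ ∈ A.G ((X.s σ : ℤ) - p))
    (h2 : ∀ σ, X.e σ * φ σ = φ σ)
    (h3 : ∀ σ, A.D (φ σ) + ∑ τ ∈ X.F (X.s σ), X.c σ τ * φ τ = 0) :
    ∃ η ∈ I.gs.G (-p), I.dZ η = 0 ∧ IsCob A X p (fun σ => φ σ + I.ev (kt σ) η) := by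
  classical
  -- coboundaries
  let B : Submodule K (X.ι → A.C) :=
    { carrier := {φ | IsCob A X p φ}
      zero_mem' := ⟨0, fun σ => Submodule.zero_mem _, fun σ => mul_zero _, fun σ => by
        simp⟩
      add_mem' := by
        rintro φ φ' ⟨ψ, a1, a2, a3⟩ ⟨ψ', b1, b2, b3⟩
        refine ⟨ψ + ψ', fun σ => Submodule.add_mem _ (a1 σ) (b1 σ), fun σ => ?_, fun σ => ?_⟩
        · rw [Pi.add_apply, mul_add, a2, b2]
        · rw [Pi.add_apply, a3, b3]
          simp only [Pi.add_apply, map_add, mul_add, Finset.sum_add_distrib]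
          abel
      smul_mem' := by
        rintro r φ ⟨ψ, a1, a2, a3⟩
        refine ⟨r • ψ, fun σ => Submodule.smul_mem _ r (a1 σ), fun σ => ?_, fun σ => ?_⟩
        · rw [Pi.smul_apply, mul_smul_comm, a2]
        · rw [Pi.smul_apply, a3]
          simp only [Pi.smul_apply, map_smul, mul_smul_comm, smul_add, Finset.smul_sum] }
  let ek : I.Z →ₗ[K] (X.ι → A.C) := LinearMap.pi fun σ => I.ev (kt σ)
  let W : Submodule K (X.ι → A.C) := B ⊔ (I.gs.G (-p) ⊓ LinearMap.ker I.dZ).map ek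
  by_cases hW : φ ∈ W
  · obtain ⟨b, hb, c, hc, e⟩ := Submodule.mem_sup.1 hW
    obtain ⟨η, ⟨hη1, hη2⟩, rfl⟩ := hc
    refine ⟨η, hη1, hη2, ?_⟩
    have e1 : (fun σ => φ σ + I.ev (kt σ) η) = b := by
      funext σ
      rw [← e]
      change b σ + I.ev (kt σ) η + I.ev (kt σ) η = b σ
      rw [add_assoc, A.two, add_zero]
    rw [e1]
    exact hb
  · exfalso
    obtain ⟨lam, hl0, hlk⟩ := Submodule.exists_le_ker_of_notMem hW
    obtain ⟨x, hx, hxd, hxp⟩ := func (Z := selfL A) (lpc X) P p lam (fun ψ a1 a2 => by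
      refine hlk (Submodule.mem_sup_left ?_)
      exact ⟨ψ, a1, a2, fun σ => rfl⟩)
    -- the image of `x` is a boundary
    let μ : I.Z →ₗ[K] K := (gf I X kt x : (DZc I).X)
    have hμ : ∀ z, μ z = pa (lpc X) (evk I X kt z) x := fun z => zev_gf I X kt x z
    have hμg : ∀ l z, z ∈ I.gs.G l → l ≠ -p → μ z = 0 := (gD I X kt hk hd).f_mem hx
    have hμk : ∀ z, z ∈ I.gs.G (-p) → I.dZ z = 0 → μ z = 0 := by
      intro z hz hzd
      rw [hμ, ← hxp (evk I X kt z)]
      · exact hlk (Submodule.mem_sup_right ⟨z, ⟨hz, hzd⟩, rfl⟩)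
      · intro σ
        have := I.ev_deg (hk σ) hz
        rwa [show (X.s σ : ℤ) + -p = X.s σ - p by ring] at this
      · intro σ
        change X.e σ * I.ev (kt σ) z = I.ev (kt σ) z
        rw [← I.ev_l, he]
    have hpr : ∀ z, μ z = μ (I.gs.pr (-p) z) := by
      intro z
      have a : ∀ j : Fin (I.gs.N + 1), μ (I.gs.pr ((j : ℕ) : ℤ) z) =
          μ (I.gs.pr ((j : ℕ) : ℤ) (I.gs.pr (-p) z)) := by
        intro j
        by_cases hj : ((j : ℕ) : ℤ) = -p
        · rw [hj, I.gs.pr_pr]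
        · rw [hμg _ _ (I.gs.pr_mem _ z) hj, I.gs.pr_ne _ _ _ hj, map_zero]
      conv_lhs => rw [← I.gs.total z]
      conv_rhs => rw [← I.gs.total (I.gs.pr (-p) z)]
      rw [map_sum, map_sum]
      exact Finset.sum_congr rfl fun j _ => a j
    have hker : μ ∈ (LinearMap.ker I.dZ).dualAnnihilator := by
      rw [Submodule.mem_dualAnnihilator]
      intro z hz
      rw [LinearMap.mem_ker] at hz
      rw [hpr z]
      refine hμk _ (I.gs.pr_mem _ z) ?_
      have := gs_d I (-p - 1) z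
      rw [hz, map_zero, show -p - 1 + 1 = -p by ring] at this
      exact this.symm
    rw [← LinearMap.range_dualMap_eq_dualAnnihilator_ker] at hker
    obtain ⟨ν, hν⟩ := hker
    have hν' : ∀ z, ν (I.dZ z) = μ z := fun z => LinearMap.congr_fun hν z
    let ν' : (DZc I).X := (ν ∘ₗ I.gs.pr (-(p + 1)) : I.Z →ₗ[K] K)
    have hbd : ∃ z ∈ (DZc I).gr (p + 1), (gD I X kt hk hd).f x = (DZc I).d z := by
      refine ⟨ν', ?_, ?_⟩
      · intro l z hz hl
        change ν (I.gs.pr (-(p + 1)) z) = 0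
        rw [gs_ne I hz (fun h => hl h.symm), map_zero]
      · refine DZc_ext I fun z => ?_
        change μ z = ν (I.gs.pr (-(p + 1)) (I.dZ z))
        rw [gs_d, show -(p + 1) + 1 = -p by ring, hν', ← hpr]
    obtain ⟨y, hy, e⟩ := h.inj p x hx hxd hbd
    apply hl0
    refine (hxp φ h1 h2).trans ?_
    rw [e]
    have e5 : pa (lpc X) φ ((twG (DR (selfL A)) (lpc X)).dd y) = pa (lpc X) (bd (lpc X) φ) y :=
      pa_d (Z := selfL A) (lpc X) φ y
    refine e5.trans ?_
    have e6 : bd (lpc X) (Z := selfL A) φ = 0 := funext fun σ => h3 σ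
    rw [e6]
    have e7 : pa (lpc X) (0 : (lpc X).ι → (selfL A).X) y = 0 := by
      rw [pa_apply (lpc X) _ y y.support (Finset.Subset.refl _)]
      refine Finset.sum_eq_zero fun σ _ => ?_
      exact map_zero (show A.C →ₗ[K] K from y σ)
    exact e7

end gd

/-- 44's projections as `PrL` -/
noncomputable def prlSelf (g : GrP44.GrP A) : PrL (selfL A) where
  pr := g.pi
  pr_mem := g.mem
  pr_same hz := g.same _ _ hz
  pr_ne hz h := g.ne _ _ _ h hz
  lo := 0
  hi := A.N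
  pr_sum z := by
    have h := g.sum z
    conv_rhs => rw [← h]
    symm
    refine Finset.sum_nbij' (fun k : ℕ => (k : ℤ)) (fun k : ℤ => k.toNat) ?_ ?_ ?_ ?_ ?_
    · intro k hk
      simp only [Finset.mem_range] at hk
      simp only [Finset.mem_Icc]
      omega
    · intro k hk
      simp only [Finset.mem_Icc] at hk
      simp only [Finset.mem_range]
      omega
    · intro k _
      simp
    · intro k hk
      simp only [Finset.mem_Icc] at hk
      omega
    · intro k _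
      rfl

end Crest.Agent.R186.FinD988
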