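import Crest.Agent.R186.SM_890
import Crest.Agent.R186.WLF_296

/-!
Row 186, half (A) (helper296): left coordinates `cM q : M → R'` of 890's bimodule
`M = ⊕_q R' o_q` (`m = Σ_q (cM q m) · o_q`), degrees, left and right multiplication, and the RIGHT
Koszul columns of `x` on `M` in the pieces `pcM`.
-/

set_option autoImplicit false

noncomputable section

namespace Crest.Agent.R186.KOSM296

open Crest.Agent.R186.DefsQ830 Crest.Agent.R186.PBW128
open Crest.Agent.R186.C2b362 (pz J NZ mem_NZ mem_pz mem_pz_nat mem_J pz_neg)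
open Crest.Agent.R186.C2b44 (kill kill_mem kill_x kill_h kill_kill kill_nf kill_D)
open Crest.Agent.R186.KOS296 (kill_pz mem_J_iff_kill pcZ_eq_pz K0 xr_kerZ' xr_surZ mem_of_mul_xZ kr_sur)
open Crest.Agent.R186.WLF296 (ext_nf kill_nf')
open Crest.Agent.R186.SM890 (MM oM pcM nf1 repM repM_nf1 repM_nf cW tW Tq tw tw_ne tau tau_X
  op_smul_oM smul_oM pcM_ind mem_pcM dMM dMM_oM MM_two oo)

variable {K : Type} [Field K] (π : Par K)

/-- the `q`-th left coordinate, on `N K` -/
def cN (q : Wb) : N K →ₗ[K] R π :=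
  Finsupp.linearCombination K (fun ν : Ix =>
    if ν.2.2.2.2 = q then nf π (ν.1, ν.2.1, ν.2.2.1, ν.2.2.2.1, .one) else 0)

theorem cN_bv (q : Wb) (i j k : ℕ) (w : List E) (q' : Wb) : cN π q (bv K i j k w q') =
    if q' = q then nf π (i, j, k, w, .one) else 0 := by
  simp [cN, bv]

/-- **the `q`-th left coordinate** -/
def cM (q : Wb) : MM π →ₗ[K] R π := cN π q

theorem oM_nf (q q1 : Wb) (i j k : ℕ) (w : List E) :
    oM π q (nf π (i, j, k, w, q1)) = cW π q1 q • (bv K i j k w (tW q1 q) : N K) := by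
  show repM π (nf π (i, j, k, w, q1)) (oo K q) = _
  rw [SM890.nf_eq]
  exact repM_nf π i j k w q1 q

theorem oM_nf1 (q : Wb) (i j k : ℕ) (w : List E) :
    oM π q (nf π (i, j, k, w, .one)) = (bv K i j k w q : N K) := repM_nf1 π i j k w q

theorem cM_oM_nf (q q' : Wb) (i j k : ℕ) (w : List E) :
    cM π q (oM π q' (nf π (i, j, k, w, .one))) = if q' = q then nf π (i, j, k, w, .one) else 0 := by
  rw [oM_nf1]
  exact cN_bv π q i j k w q'

theorem cM_oM_kill (q q' : Wb) (r : R π) :
    cM π q (oM π q' (kill π r)) = if q' = q then kill π r else 0 := by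
  refine (ext_nf π (φ := cM π q ∘ₗ oM π q' ∘ₗ (kill π).toLinearMap)
    (ψ := if q' = q then (kill π).toLinearMap else 0) ?_ r).trans ?_
  · intro i j k w q1
    rw [LinearMap.comp_apply, LinearMap.comp_apply]
    show cM π q (oM π q' (kill π _)) = _
    rw [kill_nf']
    by_cases h1 : q1 = .one
    · subst h1
      rw [if_pos rfl, cM_oM_nf]
      by_cases h2 : q' = q
      · rw [if_pos h2, if_pos h2]
        show _ = kill π _
        rw [kill_nf', if_pos rfl]
      · rw [if_neg h2, if_neg h2]; rfl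
    · rw [if_neg h1, map_zero, map_zero]
      by_cases h2 : q' = q
      · rw [if_pos h2]
        show _ = kill π _
        rw [kill_nf', if_neg h1]
      · rw [if_neg h2]; rfl
  · by_cases h2 : q' = q
    · rw [if_pos h2, if_pos h2]; rfl
    · rw [if_neg h2, if_neg h2]; rfl

theorem cM_oM (q q' : Wb) {s : R π} (hs : kill π s = s) :
    cM π q (oM π q' s) = if q' = q then s else 0 := by
  have := cM_oM_kill π q q' s
  rwa [hs] at this

theorem ext_bvM {M : Type*} [AddCommMonoid M] [Module K M] {φ ψ : MM π →ₗ[K] M}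
    (h : ∀ i j k w q, φ (oM π q (nf π (i, j, k, w, .one))) = ψ (oM π q (nf π (i, j, k, w, .one))))
    (m : MM π) : φ m = ψ m := by
  have h1 : (φ : N K →ₗ[K] M) = ψ := by
    apply ext_bv
    intro i j k w q
    have := h i j k w q
    rwa [oM_nf1] at this
  exact LinearMap.congr_fun h1 m

theorem kill_cM (q : Wb) (m : MM π) : kill π (cM π q m) = cM π q m := by
  refine ext_bvM π (φ := (kill π).toLinearMap ∘ₗ cM π q) (ψ := cM π q) ?_ m
  intro i j k w q'
  rw [LinearMap.comp_apply, cM_oM_nf]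
  split_ifs
  · show kill π _ = _
    rw [kill_nf', if_pos rfl]
  · rw [map_zero]

/-- **m = Σ_q (cM q m) · o_q** -/
theorem sum_cM (m : MM π) : m = ∑ q, oM π q (cM π q m) := by
  have := ext_bvM π (φ := LinearMap.id) (ψ := ∑ q, oM π q ∘ₗ cM π q) ?_ m
  · rw [LinearMap.id_apply, LinearMap.sum_apply] at this
    exact this
  · intro i j k w q'
    rw [LinearMap.id_apply, LinearMap.sum_apply, Finset.sum_eq_single q']
    · rw [LinearMap.comp_apply, cM_oM_nf, if_pos rfl]
    · intro q _ hq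
      rw [LinearMap.comp_apply, cM_oM_nf, if_neg (Ne.symm hq), map_zero]
    · intro h; exact absurd (Finset.mem_univ _) h

theorem cM_sum (s : Wb → R π) (hs : ∀ q, kill π (s q) = s q) (q : Wb) :
    cM π q (∑ q', oM π q' (s q')) = s q := by
  rw [map_sum, Finset.sum_eq_single q]
  · rw [cM_oM π q q (hs q), if_pos rfl]
  · intro q' _ hq
    rw [cM_oM π q q' (hs q'), if_neg hq]
  · intro h; exact absurd (Finset.mem_univ _) h

theorem eq_zero_of_cM {m : MM π} (h : ∀ q, cM π q m = 0) : m = 0 := by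
  rw [sum_cM π m]
  exact Finset.sum_eq_zero fun q _ => by rw [h q, map_zero]

theorem ext_cM {m m' : MM π} (h : ∀ q, cM π q m = cM π q m') : m = m' := by
  rw [← sub_eq_zero]
  exact eq_zero_of_cM π fun q => by rw [map_sub, h q, sub_self]

theorem wC_tW (q1 q : Wb) (h : cW π q1 q ≠ 0) :
    (wC q.word : ℤ) = wC q1.word + wC (tW q1 q).word := by
  revert h
  have h10 : (1 : Fin 2) ≠ 0 := by decide
  have h01 : (0 : Fin 2) ≠ 1 := by decide
  rcases q1 with _ | s | s | _ <;> rcases q with _ | s' | s' | _ <;>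
    (try rcases fin2 s with rfl | rfl) <;> (try rcases fin2 s' with rfl | rfl) <;>
    simp [SM890.cW, SM890.dk, SM890.dt, SM890.tW, wC, Wb.word, Gen.dC, h10, h01]

/-- degrees -/
theorem cM_mem (s : ℕ) {P A C : ℤ} {m : MM π} (hm : m ∈ pcM π s P A C) (q : Wb) :
    cM π q m ∈ pz π (P + 1) A (C - s + wC q.word) := by
  have h : pcM π s P A C ≤ (pz π (P + 1) A (C - s + wC q.word)).comap (cM π q) := by
    apply pcM_ind
    intro q' t ht
    show cM π q (oM π q' t) ∈ pz π (P + 1) A (C - s + wC q.word)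
    rw [pcZ_eq_pz] at ht
    have h2 : NZ K (P + 1) A (C - s + wC q'.word) ≤
        (pz π (P + 1) A (C - s + wC q.word)).comap (cM π q ∘ₗ oM π q' ∘ₗ Psi π) := by
      rw [NZ, Finsupp.supported_eq_span_single, Submodule.span_le]
      rintro _ ⟨⟨i, j, k, w, q1⟩, ⟨h1, h2, h3⟩, rfl⟩
      show cM π q (oM π q' (Psi π (bv K i j k w q1))) ∈ pz π (P + 1) A (C - s + wC q.word)
      rw [Psi_bv, oM_nf]
      show cN π q (cW π q1 q' • (bv K i j k w (tW q1 q') : N K)) ∈
        pz π (P + 1) A (C - s + wC q.word)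
      rw [map_smul]
      by_cases hc : cW π q1 q' = 0
      · rw [hc, zero_smul]; exact Submodule.zero_mem _
      · refine Submodule.smul_mem _ _ ?_
        show cN π q _ ∈ pz π (P + 1) A (C - s + wC q.word)
        rw [cN_bv]
        split_ifs with h
        · rw [mem_pz]
          intro ν hν
          rw [ev_nf, bv_apply] at hν
          have hν' : ((i, j, k, w, Wb.one) : Ix) = ν := by
            by_contra h0; exact hν (if_neg h0)
          subst hν'
          refine ⟨h1, h2, ?_⟩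
          have hw := wC_tW π q1 q' hc
          rw [h] at hw
          simp only [dCx] at h3 ⊢
          have : wC Wb.one.word = 0 := rfl
          rw [this]
          push_cast at h3 ⊢
          linarith
        · exact Submodule.zero_mem _
    have h3 := h2 (show ev π t ∈ NZ K (P + 1) A (C - s + wC q'.word) from ht)
    have h4 : Psi π (ev π t) = t := Psi_ev π t
    rw [Submodule.mem_comap, LinearMap.comp_apply, LinearMap.comp_apply, h4] at h3
    exact h3
  exact h hm

theorem mem_pcM_iff (s : ℕ) {P A C : ℤ} {m : MM π} :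
    m ∈ pcM π s P A C ↔ ∀ q, cM π q m ∈ pz π (P + 1) A (C - s + wC q.word) := by
  refine ⟨fun h q => cM_mem π s h q, fun h => ?_⟩
  rw [sum_cM π m]
  refine Submodule.sum_mem _ fun q _ => ?_
  refine mem_pcM π s q ?_ rfl
  rw [pcZ_eq_pz]
  exact h q

/-! ### multiplications and the differential -/

theorem cM_x (c : Fin 2) (q : Wb) (m : MM π) :
    cM π q (MulOpposite.op (X π (.x c)) • m) = tw (Tq π q) (.x c) • (cM π q m * X π (.x c)) := by
  have e : MulOpposite.op (X π (.x c)) • m =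
      ∑ q, oM π q (tw (Tq π q) (.x c) • (cM π q m * X π (.x c))) := by
    conv_lhs => rw [sum_cM π m]
    rw [Finset.smul_sum]
    refine Finset.sum_congr rfl fun q _ => ?_
    rw [op_smul_oM, tau_X, mul_smul_comm]
  rw [e, cM_sum π _ (fun q => by rw [map_smul, map_mul, kill_x, kill_cM])]

theorem cM_op_h (q : Wb) (m : MM π) :
    cM π q (MulOpposite.op (X π .h) • m) = cM π q m * X π .h := by
  have e : MulOpposite.op (X π .h) • m = ∑ q, oM π q (cM π q m * X π .h) := by
    conv_lhs => rw [sum_cM π m]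
    rw [Finset.smul_sum]
    refine Finset.sum_congr rfl fun q _ => ?_
    rw [op_smul_oM, tau_X]
    show oM π q (cM π q m * ((1 : K) • X π .h)) = _
    rw [one_smul]
  rw [e, cM_sum π _ (fun q => by rw [map_mul, kill_h, kill_cM])]

theorem cM_smul {r : R π} (hr : kill π r = r) (q : Wb) (m : MM π) :
    cM π q (r • m) = r * cM π q m := by
  have e : r • m = ∑ q, oM π q (r * cM π q m) := by
    conv_lhs => rw [sum_cM π m]
    rw [Finset.smul_sum]
    refine Finset.sum_congr rfl fun q _ => ?_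
    rw [smul_oM]
  rw [e, cM_sum π _ (fun q => by rw [map_mul, hr, kill_cM])]

/-! ### right Koszul on `M` -/

/-- (a) right multiplication by `x_c` is injective on `M` -/
theorem xM_inj (c : Fin 2) {m : MM π} (h : MulOpposite.op (X π (.x c)) • m = 0) : m = 0 := by
  refine eq_zero_of_cM π fun q => ?_
  have h1 := cM_x π c q m
  rw [h, map_zero] at h1
  have h2 := (smul_eq_zero.1 h1.symm).resolve_left (tw_ne _ _)
  exact K0 π c h2

theorem neg_MM (m : MM π) : -m = m := by
  rw [neg_eq_iff_add_eq_zero]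
  exact MM_two π m

/-- (b) right Koszul kernel -/
theorem xM_ker (s : ℕ) {P A C : ℤ} {a b : MM π} (hb : b ∈ pcM π s P A C)
    (h : MulOpposite.op (X π (.x 0)) • a + MulOpposite.op (X π (.x 1)) • b = 0) :
    ∃ e ∈ pcM π s (P - 1) A C, a = MulOpposite.op (X π (.x 1)) • e ∧
      b = MulOpposite.op (X π (.x 0)) • e := by
  have hq : ∀ q, ∃ e ∈ pz π (P + 1 - 1) A (C - s + wC q.word), kill π e = e ∧
      cM π q a = -(tw (Tq π q) (.x 1) • (e * X π (.x 1))) ∧
      cM π q b = tw (Tq π q) (.x 0) • (e * X π (.x 0)) := by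
    intro q
    have h0 := tw_ne (Tq π q) (.x 0)
    have h1 := tw_ne (Tq π q) (.x 1)
    have h2 := congrArg (cM π q) h
    rw [map_add, map_zero, cM_x, cM_x, ← smul_mul_assoc, ← smul_mul_assoc] at h2
    obtain ⟨e, he, e1, e2⟩ := xr_kerZ' π (Submodule.smul_mem _ (tw (Tq π q) (.x 1))
      (cM_mem π s hb q)) h2
    have hk : kill π e = e := by
      have h3 := congrArg (kill π) e2
      rw [map_mul, kill_x, map_smul, kill_cM, e2] at h3
      have h4 : (kill π e - e) * X π (.x 0) = 0 := by rw [sub_mul, ← h3, sub_self]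
      exact sub_eq_zero.1 (K0 π 0 h4)
    refine ⟨((tw (Tq π q) (.x 0))⁻¹ * (tw (Tq π q) (.x 1))⁻¹) • e,
      Submodule.smul_mem _ _ he, by rw [map_smul, hk], ?_, ?_⟩
    · rw [smul_mul_assoc, smul_smul]
      rw [show ∀ (c : K) (y : R π), -(c • y) = c • (-y) from fun c y => (smul_neg c y).symm, ← e1,
        smul_smul]
      rw [show tw (Tq π q) (.x 1) * ((tw (Tq π q) (.x 0))⁻¹ * (tw (Tq π q) (.x 1))⁻¹) *
        tw (Tq π q) (.x 0) = 1 by field_simp, one_smul]
    · rw [smul_mul_assoc, smul_smul, ← e2, smul_smul]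
      rw [show tw (Tq π q) (.x 0) * ((tw (Tq π q) (.x 0))⁻¹ * (tw (Tq π q) (.x 1))⁻¹) *
        tw (Tq π q) (.x 1) = 1 by field_simp, one_smul]
  choose e he hk h1 h2 using hq
  have hc : ∀ q, cM π q (∑ q', oM π q' (e q')) = e q := fun q => cM_sum π e hk q
  refine ⟨∑ q, oM π q (e q), ?_, ?_, ?_⟩
  · rw [mem_pcM_iff]
    intro q
    rw [hc, show P - 1 + 1 = P + 1 - 1 by ring]
    exact he q
  · rw [← neg_MM π a]
    refine ext_cM π fun q => ?_
    rw [map_neg, cM_x, hc, h1, neg_neg]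
  · refine ext_cM π fun q => ?_
    rw [cM_x, hc, h2]

/-- (c) right Koszul generation, `R''`-degree `P + 1 ≥ 1` -/
theorem xM_sur (s : ℕ) {P A C : ℤ} (hP : 0 ≤ P) {m : MM π} (hm : m ∈ pcM π s P A C) :
    ∃ a ∈ pcM π s (P - 1) A C, ∃ b ∈ pcM π s (P - 1) A C,
      m = MulOpposite.op (X π (.x 0)) • a + MulOpposite.op (X π (.x 1)) • b := by
  have hq : ∀ q, ∃ a ∈ pz π (P + 1 - 1) A (C - s + wC q.word),
      ∃ b ∈ pz π (P + 1 - 1) A (C - s + wC q.word), kill π a = a ∧ kill π b = b ∧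
      cM π q m = a * X π (.x 0) + b * X π (.x 1) := fun q =>
    kr_sur π (by linarith) (cM_mem π s hm q) (kill_cM π q m)
  choose a ha b hb hka hkb h using hq
  have hs : ∀ (x : Wb → R π) (c : Fin 2), (∀ q, x q ∈ pz π (P + 1 - 1) A (C - s + wC q.word)) →
      (∀ q, kill π (x q) = x q) → ∃ y ∈ pcM π s (P - 1) A C,
        ∀ q, cM π q (MulOpposite.op (X π (.x c)) • y) = x q * X π (.x c) := by
    intro x c hx hkx
    have hk : ∀ q, kill π ((tw (Tq π q) (.x c))⁻¹ • x q) = (tw (Tq π q) (.x c))⁻¹ • x q :=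
      fun q => by rw [map_smul, hkx]
    refine ⟨∑ q, oM π q ((tw (Tq π q) (.x c))⁻¹ • x q), ?_, ?_⟩
    · rw [mem_pcM_iff]
      intro q
      rw [cM_sum π _ hk, show P - 1 + 1 = P + 1 - 1 by ring]
      exact Submodule.smul_mem _ _ (hx q)
    · intro q
      rw [cM_x, cM_sum π _ hk, smul_mul_assoc, smul_smul, mul_inv_cancel₀ (tw_ne _ _), one_smul]
  obtain ⟨y, hy, hy2⟩ := hs a 0 ha hka
  obtain ⟨z, hz, hz2⟩ := hs b 1 hb hkb
  refine ⟨y, hy, z, hz, ext_cM π fun q => ?_⟩
  rw [map_add, hy2, hz2, h]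

theorem mem_of_op_x (s : ℕ) {P A C : ℤ} (c : Fin 2) {m : MM π}
    (h : MulOpposite.op (X π (.x c)) • m ∈ pcM π s P A C) : m ∈ pcM π s (P - 1) A C := by
  rw [mem_pcM_iff] at h ⊢
  intro q
  have h1 := h q
  rw [cM_x, ← smul_mul_assoc] at h1
  have h2 := mem_of_mul_xZ π c h1
  have h3 := Submodule.smul_mem _ (tw (Tq π q) (.x c))⁻¹ h2
  rw [smul_smul, inv_mul_cancel₀ (tw_ne _ _), one_smul] at h3
  rwa [show P - 1 + 1 = P + 1 - 1 by ring]

end Crest.Agent.R186.KOSM296
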