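import Crest.Agent.R186.C2b_44
import Crest.Agent.R186.Cells_221

/-!
# Row 186, half (A) (helper221): the concrete algebra `L` = window of `R' = R''/(W-letters)`

`RL π` = the range of 44's `kill π : R π →ₐ[K] R π` (elements with `kill r = r`), a subalgebra of
`R π`; `prL : R π →ₐ[K] RL π` (surjective, kernel `kill r = 0`), `DL` the induced differential
(`DL (prL r) = prL (D r)`), `pcL` the pieces, `WL π : WD K` the window data (same objects as
`WR π`), `prW : (WR π).Win →ₐ[K] (WL π).Win`, `VL n : WMod (WL π)`.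
-/

set_option autoImplicit false
set_option linter.style.haveILetI false

noncomputable section

namespace Crest.Agent.R186.WL221

open Crest.Agent.R186.DefsQ830 Crest.Agent.R186.PBW128 Crest.Agent.R186.Der580
open Crest.Agent.R186.Win810 Crest.Agent.R186.C2b44
open Crest.Agent.R186.VOp220 Crest.Agent.R186.Vmod220

/-! ### generic: maps of window algebras -/

section generic

variable {K : Type} [Field K] {w w' : WD K} (f : w.S →ₐ[K] w'.S) (e : w'.Ob ≃ w.Ob)
  (hf : ∀ (i j : w'.Ob) (C : ℤ) (a : w.S), a ∈ w.q (e i) (e j) C → f a ∈ w'.q i j C)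

include hf in
theorem E_map {i j : w'.Ob} {a : w.S} (ha : a ∈ w.E (e i) (e j)) : f a ∈ w'.E i j := by
  have key : w.E (e i) (e j) ≤ (w'.E i j).comap f.toLinearMap := by
    refine iSup_le fun C => ?_
    intro x hx
    exact WD.q_le i j C (hf i j C x hx)
  exact key ha

/-- the map of window algebras induced by a homomorphism -/
def mapW : w.Win →ₐ[K] w'.Win where
  toFun m := ⟨Matrix.of fun i j => f (m.1 (e i) (e j)), fun i j => E_map f e hf (m.2 (e i) (e j))⟩
  map_one' := by
    apply Subtype.ext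
    ext i j : 2
    change f ((1 : Matrix w.Ob w.Ob w.S) (e i) (e j)) = (1 : Matrix w'.Ob w'.Ob w'.S) i j
    rw [Matrix.one_apply, Matrix.one_apply]
    by_cases h : i = j
    · rw [if_pos h, if_pos (congrArg e h), map_one]
    · rw [if_neg h, if_neg (fun h' => h (e.injective h')), map_zero]
  map_mul' a b := by
    apply Subtype.ext
    ext i j : 2
    change f ((a.1 * b.1) (e i) (e j)) =
      (Matrix.of (fun i j => f (a.1 (e i) (e j))) * Matrix.of (fun i j => f (b.1 (e i) (e j)))) i j
    rw [Matrix.mul_apply, Matrix.mul_apply, map_sum, ← Equiv.sum_comp e]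
    exact Finset.sum_congr rfl fun l _ => map_mul _ _ _
  map_zero' := by
    apply Subtype.ext
    ext i j : 2
    exact map_zero f
  map_add' a b := by
    apply Subtype.ext
    ext i j : 2
    exact map_add f (a.1 (e i) (e j)) (b.1 (e i) (e j))
  commutes' r := by
    apply Subtype.ext
    ext i j : 2
    change f ((algebraMap K (Matrix w.Ob w.Ob w.S) r) (e i) (e j)) =
      (algebraMap K (Matrix w'.Ob w'.Ob w'.S) r) i j
    rw [Matrix.algebraMap_matrix_apply, Matrix.algebraMap_matrix_apply]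
    by_cases h : i = j
    · rw [if_pos h, if_pos (congrArg e h)]
      exact AlgHom.commutes _ _
    · rw [if_neg h, if_neg (fun h' => h (e.injective h')), map_zero]

@[simp] theorem mapW_apply (m : w.Win) (i j : w'.Ob) :
    (mapW f e hf m).1 i j = f (m.1 (e i) (e j)) := rfl

theorem mapW_mem {k : ℤ} {m : w.Win} (hm : m ∈ w.G k) : mapW f e hf m ∈ w'.G k :=
  fun i j => hf i j k _ (hm (e i) (e j))

theorem mapW_D (hD : ∀ a, f (w.D a) = w'.D (f a)) (m : w.Win) :
    mapW f e hf (w.DW m) = w'.DW (mapW f e hf m) := by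
  apply Subtype.ext
  ext i j : 2
  exact hD _

theorem mapW_e (i : w'.Ob) : mapW f e hf (WD.e (e i)) = WD.e i := by
  apply Subtype.ext
  ext i' j' : 2
  rw [mapW_apply]
  unfold WD.e
  rw [WD.ws_apply, WD.ws_apply]
  by_cases h : i = i' ∧ i = j'
  · rw [if_pos h, if_pos ⟨congrArg e h.1, congrArg e h.2⟩, map_one]
  · rw [if_neg h, if_neg (fun h' => h ⟨e.injective h'.1, e.injective h'.2⟩), map_zero]

end generic

variable {K : Type} [Field K] (π : Par K)

/-- the algebra `R'` -/
def RL : Subalgebra K (R π) where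
  carrier := {r | kill π r = r}
  mul_mem' {a b} ha hb := by
    change kill π (a * b) = a * b
    rw [map_mul, show kill π a = a from ha, show kill π b = b from hb]
  add_mem' {a b} ha hb := by
    change kill π (a + b) = a + b
    rw [map_add, show kill π a = a from ha, show kill π b = b from hb]
  algebraMap_mem' r := AlgHom.commutes _ _

variable {π}

theorem mem_RL {r : R π} : r ∈ RL π ↔ kill π r = r := Iff.rfl

theorem kill_val (r : RL π) : kill π r.1 = r.1 := r.2

variable (π)

/-- the projection -/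
def prL : R π →ₐ[K] RL π := (kill π).codRestrict (RL π) fun r => kill_kill π r

/-- the inclusion (an algebra homomorphism, not compatible with differentials) -/
abbrev inL : RL π →ₐ[K] R π := (RL π).val

variable {π}

@[simp] theorem prL_val (r : R π) : (prL π r : R π) = kill π r := rfl

@[simp] theorem prL_inL (r : RL π) : prL π r.1 = r := Subtype.ext r.2

theorem prL_surj : Function.Surjective (prL π) := fun r => ⟨r.1, prL_inL r⟩

theorem prL_eq_zero {r : R π} : prL π r = 0 ↔ kill π r = 0 :=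
  ⟨fun h => congrArg Subtype.val h, fun h => Subtype.ext h⟩

theorem prL_kill (r : R π) : prL π (kill π r) = prL π r := Subtype.ext (kill_kill π r)

theorem prL_eq_zero_iff {r : R π} :
    prL π r = 0 ↔ ∀ ν : Ix, ν.2.2.2.2 = .one → ev π r ν = 0 := by
  rw [prL_eq_zero, kill_eq_zero_iff]

variable (π)

/-- the induced differential -/
def DL : RL π →ₗ[K] RL π where
  toFun r := prL π (D π r.1)
  map_add' a b := by
    rw [← map_add, ← map_add]
    rfl
  map_smul' c a := by
    rw [RingHom.id_apply, ← map_smul, ← map_smul]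
    rfl

variable {π}

theorem DL_apply (r : RL π) : DL π r = prL π (D π r.1) := rfl

theorem DL_val (r : RL π) : (DL π r : R π) = kill π (D π r.1) := rfl

@[simp] theorem DL_prL (r : R π) : DL π (prL π r) = prL π (D π r) := Subtype.ext (kill_D π r)

theorem DL_mul (a b : RL π) : DL π (a * b) = DL π a * b + a * DL π b := by
  obtain ⟨a, rfl⟩ := prL_surj a
  obtain ⟨b, rfl⟩ := prL_surj b
  rw [← map_mul, DL_prL, D_mul, map_add, map_mul, map_mul, DL_prL, DL_prL]

theorem DL_DL (a : RL π) : DL π (DL π a) = 0 := by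
  obtain ⟨a, rfl⟩ := prL_surj a
  rw [DL_prL, DL_prL, D_D, map_zero]

variable (π)

/-- the pieces of `R'` -/
def pcL (P A C : ℤ) : Submodule K (RL π) := (pcZ π P A C).comap (RL π).val.toLinearMap

variable {π}

theorem mem_pcL {P A C : ℤ} {r : RL π} : r ∈ pcL π P A C ↔ r.1 ∈ pcZ π P A C := Iff.rfl

theorem prL_mem {P A C : ℤ} {r : R π} (hr : r ∈ pcZ π P A C) : prL π r ∈ pcL π P A C :=
  kill_mem π hr

theorem pcL_lift {P A C : ℤ} {r : RL π} (hr : r ∈ pcL π P A C) :
    ∃ r' ∈ pcZ π P A C, prL π r' = r := ⟨r.1, hr, prL_inL r⟩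

theorem map_pcZ_prL (P A C : ℤ) : (pcZ π P A C).map (prL π).toLinearMap = pcL π P A C := by
  ext r
  constructor
  · rintro ⟨r', h, rfl⟩
    exact prL_mem h
  · intro h
    exact ⟨r.1, h, prL_inL r⟩

theorem pcL_neg {P A C : ℤ} (h : A < 0 ∨ C < 0) : pcL π P A C = ⊥ := by
  rw [eq_bot_iff]
  intro r hr
  rw [mem_pcL, pcZ_neg π h, Submodule.mem_bot] at hr
  exact (Submodule.mem_bot K).2 (Subtype.ext hr)

instance (P A C : ℤ) : Module.Finite K (pcL π P A C) := by
  rw [← map_pcZ_prL]
  infer_instance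

theorem pcL_one : (1 : RL π) ∈ pcL π 0 0 0 := pcZ_one π

theorem pcL_mul {P A C P' A' C' : ℤ} {a b : RL π} (ha : a ∈ pcL π P A C)
    (hb : b ∈ pcL π P' A' C') : a * b ∈ pcL π (P + P') (A + A') (C + C') :=
  pcZ_mul π ha hb

theorem pcL_D {P A C : ℤ} {a : RL π} (ha : a ∈ pcL π P A C) : DL π a ∈ pcL π P A (C - 1) :=
  prL_mem (pcZ_D π ha)

theorem pcL_big (P : ℤ) {A C : ℤ} (h : 2 * A + 2 < C) (h0 : 0 ≤ A) : pcL π P A C = ⊥ := by
  rw [eq_bot_iff]
  intro r hr
  rw [mem_pcL, pcZ_of π ⟨h0, by omega⟩, pc_big π P (by omega), Submodule.mem_bot] at hr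
  exact (Submodule.mem_bot K).2 (Subtype.ext hr)

variable (π)

/-- window data of `R'` -/
def WL : WD K where
  S := RL π
  two a := Subtype.ext (Der580.add_self π a.1)
  pc := pcL π
  one_mem := pcL_one
  mul_mem := pcL_mul
  D := DL π
  D_mul := DL_mul
  D_D := DL_DL
  D_mem := pcL_D
  Ob := DefsQ830.Ob
  P o := (o.1.val : ℤ)
  A o := (o.2.val : ℤ)
  N := 8
  neg i j C hC := pcL_neg (Or.inr hC)
  big i j C hC := by
    have hi := i.2.2
    have hj := j.2.2
    by_cases h : 0 ≤ (i.2.val : ℤ) - (j.2.val : ℤ)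
    · apply pcL_big _ _ h
      push_cast at hC
      omega
    · exact pcL_neg (Or.inl (by omega))
  fin i j C := inferInstance

/-- the map of window algebras `L'' → L` -/
def prW : (WR π).Win →ₐ[K] (WL π).Win :=
  mapW (w := WR π) (w' := WL π) (prL π) (Equiv.refl DefsQ830.Ob) fun _ _ _ _ ha => prL_mem ha

/-- the multiplicative linear section of `prW` -/
def inW : (WL π).Win →ₐ[K] (WR π).Win :=
  mapW (w := WL π) (w' := WR π) (RL π).val (Equiv.refl DefsQ830.Ob) fun _ _ _ _ ha => ha

variable {π}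

@[simp] theorem prW_apply (m : (WR π).Win) (i j : DefsQ830.Ob) :
    (prW π m).1 i j = prL π (m.1 i j) := rfl

theorem prW_mem {k : ℤ} {m : (WR π).Win} (hm : m ∈ (WR π).G k) : prW π m ∈ (WL π).G k :=
  mapW_mem (w := WR π) (w' := WL π) _ _ _ hm

theorem prW_D (m : (WR π).Win) : prW π ((WR π).DW m) = (WL π).DW (prW π m) :=
  mapW_D (w := WR π) (w' := WL π) _ _ _ (fun a => (DL_prL a).symm) m

@[simp] theorem inW_apply (m : (WL π).Win) (i j : DefsQ830.Ob) :
    (inW π m).1 i j = (m.1 i j : RL π).1 := rfl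

theorem inW_mem {k : ℤ} {m : (WL π).Win} (hm : m ∈ (WL π).G k) : inW π m ∈ (WR π).G k :=
  mapW_mem (w := WL π) (w' := WR π) _ _ _ hm

@[simp] theorem prW_inW (m : (WL π).Win) : prW π (inW π m) = m := by
  apply Subtype.ext
  ext i j : 2
  exact prL_inL _

theorem prW_surj : Function.Surjective (prW π) := fun m => ⟨inW π m, prW_inW m⟩

theorem prW_surj_G {k : ℤ} {m : (WL π).Win} (hm : m ∈ (WL π).G k) :
    ∃ m' ∈ (WR π).G k, prW π m' = m := ⟨inW π m, inW_mem hm, prW_inW m⟩

theorem prW_e (i : DefsQ830.Ob) : prW π (WD.e (w := WR π) i) = WD.e (w := WL π) i :=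
  mapW_e (w := WR π) (w' := WL π) _ _ _ i

end Crest.Agent.R186.WL221
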