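import Crest.Agent.R186.C1P_611
import Crest.Agent.R186.TLW_890
import Crest.Agent.R186.FinD_988

/-!
Row 186 (A), leaf A.C1 (helper611): the pairings `Pa` of right cells `Y → D(M)` for a bimodule `M`,
the push-forward, and (c1) from (beta) through a layer structure.
-/

set_option autoImplicit false
set_option linter.unusedSectionVars false

open MulOpposite

namespace Crest.Agent.R186.C1Q611

open Hat827 Frame515 Res255 C1x134 FinV988 C1P611

variable {K : Type} [Field K] {A B : DGA K}

/-! ### the pairing of an augmentation `Y → D(M)` -/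

section pa

variable {Y : RCells A} (M : BM A B) (R : RAug Y (DR M.toLM))

/-- right multiplication as a bilinear map -/
def rb : M.X →ₗ[K] B.C →ₗ[K] M.X where
  toFun m :=
    { toFun := fun b => op b • m
      map_add' := fun a b => by rw [op_add, add_smul]
      map_smul' := fun r a => by rw [op_smul, smul_assoc]; rfl }
  map_add' m m' := LinearMap.ext fun b => smul_add _ _ _
  map_smul' r m := LinearMap.ext fun b => rmul_smul r m b
where
  rmul_smul (r : K) (m : M.X) (b : B.C) : op b • (r • m) = r • (op b • m) :=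
    (rmul M.toRM b).map_smul r m

theorem rb_apply (m : M.X) (b : B.C) : rb M m b = op b • m := rfl

/-- the functionals -/
def vf (σ : Y.ι) : M.X →ₗ[K] K := R.v σ

/-- **the pairing** `(m, b) ↦ v_σ (m b)` -/
def paOf : Pa Y M.toLM (selfL B).toGC where
  lo := R.lo
  f σ := (rb M).compr₂ (vf M R σ)
  f_d := by
    intro σ k l n s _ _
    have h := congrArg (dev M.toLM (op (show B.C from s) • n)) (R.v_d σ)
    rw [dev_d, map_sum] at h
    have e1 : M.d (op (show B.C from s) • n) =
        op (B.D s) • n + op (show B.C from s) • M.d n := M.leibR s n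
    have e2 : dev M.toLM (M.toLM.d (op (show B.C from s) • n)) (R.v σ) =
        dev M.toLM (op (B.D s) • n) (R.v σ) +
          dev M.toLM (op (show B.C from s) • M.d n) (R.v σ) := by
      change vf M R σ (M.d (op (show B.C from s) • n)) = _
      rw [e1]
      exact map_add (vf M R σ) _ _
    rw [e2] at h
    change dev M.toLM (op (show B.C from s) • M.d n) (R.v σ) + dev M.toLM (op (B.D s) • n) (R.v σ) =
      ∑ τ ∈ Y.F (Y.s σ), dev M.toLM (op (show B.C from s) • (Y.c τ σ • n)) (R.v τ)
    rw [add_comm, h]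
    refine Finset.sum_congr rfl fun τ _ => ?_
    change dev M.toLM (Y.c τ σ • (op (show B.C from s) • n)) (R.v τ) = _
    rw [smul_comm]

theorem paOf_f (σ : Y.ι) (m : M.X) (b : B.C) :
    (paOf M R).f σ m b = dev M.toLM (op b • m) (R.v σ) := rfl

theorem paOf_off : Off (Z := selfL B) (paOf M R) := by
  intro σ k l n z hn hz hne
  have h := M.smul_memR hz hn
  exact R.v_mem σ _ _ h (by
    intro h0
    apply hne
    change k + l + R.lo + Y.s σ = 0
    omega)

theorem evD_single (σ : Y.ι) (m : M.X) (b : B.C) :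
    dev (selfL B) b (evD (Z := selfL B) (paOf M R) (Finsupp.single σ m)) =
      dev M.toLM (op b • m) (R.v σ) :=
  (paOf M R).ev_single σ m (show (selfL B).X from b)

end pa

/-! ### push-forward of the cells -/

section push

variable {A' : DGA K} (h : Hm A A') {Y : RCells A} {N : LM A'} {S : GC K}

/-- the same pairing over `A` -/
def paPush (P : Pa (pushR h Y) N S) : Pa Y (resL h N) S := ⟨P.lo, P.f, P.f_d⟩

theorem exAt_push (P : Pa (pushR h Y) N S) (k : ℤ) : (paPush h P).ExAt k ↔ P.ExAt k := Iff.rfl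

theorem ex_push (P : Pa (pushR h Y) N S) : (paPush h P).Ex ↔ P.Ex := Iff.rfl

end push

/-! ### (c1) from (beta) -/

section main

variable {A' B' : DGA K} (h : Hm A A') {Y : RCells A} (M : BM A B) (T : BM A' B')
  (R : RAug Y (DR M.toLM)) (R' : RAug (pushR h Y) (DR T.toLM))

/-- (beta) in 134's form -/
theorem ex_beta (Q : PrL (selfL B'))
    (hb : ∀ k, AcIff492.CE (tY (pushR h Y) T.toLM) (DR (selfL B')).toGC R'.lo k
      (evD (Z := selfL B') (paOf T R'))) : (paPush h (paOf T R')).Ex :=
  (ex_push h _).2 ((ex_iff_ce (Z := selfL B') (paOf T R') (paOf_off T R') Q).2 hb)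

/-- **(c1) from (beta)** -/
theorem c1_of (h2 : (2 : K) = 0) (Q : PrL (selfL B)) (Q' : PrL (selfL B'))
    (L : Lay Y M.toLM (resL h T.toLM) (selfL B).toGC (selfL B').toGC)
    (hP : L.P = paOf M R) (hP0 : L.P0 = paPush h (paOf T R'))
    (hb : ∀ k, AcIff492.CE (tY (pushR h Y) T.toLM) (DR (selfL B')).toGC R'.lo k
      (evD (Z := selfL B') (paOf T R'))) :
    ∀ k, AcIff492.CE (tY Y M.toLM) (DR (selfL B)).toGC R.lo k (evD (Z := selfL B) (paOf M R)) := by
  have h1 : L.P0.Ex := by
    rw [hP0]
    exact ex_beta h T R' Q' hb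
  have h3 : L.P.Ex := L.ex h2 h1
  rw [hP] at h3
  exact (ex_iff_ce (Z := selfL B) (paOf M R) (paOf_off M R) Q).1 h3

end main

/-! ### the concrete objects -/

section conc

open DefsQ830 Win810 SM890 WL221

variable (π : Par K) (s : ℕ) (hs : 2 ≤ s) {Y : RCells (WR π).dga}

/-- the pairing `(m, a) ↦ v_σ (m a)` on `M` and `L''` -/
noncomputable def P (R : RRes Y (DM π s hs)) : Pa Y (MW π s hs).toLM (selfL (WR π).dga).toGC :=
  paOf (MW π s hs) R.toRAug

/-- the pairing `(z, l) ↦ v_σ (z l)` on `tL` and `L` -/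
noncomputable def P0 (R' : RRes (pushR (prHm π) Y) (DtL π s)) :
    Pa Y (resL (prHm π) (tLW π s).toLM) (selfL (WL π).dga).toGC :=
  paPush (prHm π) (paOf (tLW π s) R'.toRAug)

/-- the statement (beta), 605's form -/
def Beta (R' : RRes (pushR (prHm π) Y) (DtL π s)) : Prop :=
  ∀ k, AcIff492.CE (tY (pushR (prHm π) Y) (tLW π s).toLM) (DR (selfL (WL π).dga)).toGC R'.lo k
    (evD (Z := selfL (WL π).dga) (paOf (tLW π s) R'.toRAug))

/-- the statement (c1), 124's and 161's form -/
def C1 (R : RRes Y (DM π s hs)) : Prop :=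
  ∀ k, AcIff492.CE (tY Y (MW π s hs).toLM) (DR (selfL (WR π).dga)).toGC R.lo k
    (evD (Z := selfL (WR π).dga) (paOf (MW π s hs) R.toRAug))

/-- **(c1)** from (beta) and the layers -/
theorem c1 (R : RRes Y (DM π s hs)) (R' : RRes (pushR (prHm π) Y) (DtL π s))
    (L : Lay Y (MW π s hs).toLM (resL (prHm π) (tLW π s).toLM) (selfL (WR π).dga).toGC
      (selfL (WL π).dga).toGC) (hP : L.P = P π s hs R) (hP0 : L.P0 = P0 π s R')
    (hb : Beta π s R') : C1 π s hs R :=
  c1_of (prHm π) (MW π s hs) (tLW π s) R.toRAug R'.toRAug π.two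
    (FinD988.prlSelf (GrP44.grR π)) (FinD988.prlSelf (grL π)) L hP hP0 hb

/-- 124's map `c1m` -/
theorem c1m_single (R : RRes Y (DM π s hs)) (σ : Y.ι) (m : (MW π s hs).X) (b : (WR π).dga.C) :
    dev (selfL (WR π).dga) b (evD (Z := selfL (WR π).dga) (paOf (MW π s hs) R.toRAug)
      (Finsupp.single σ m)) = dev (MW π s hs).toLM (op b • m) (R.v σ) :=
  evD_single (MW π s hs) R.toRAug σ m b

end conc

end Crest.Agent.R186.C1Q611
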