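import Crest.Agent.R186.Frame_515

/-!
Row 186 (A) (helper134), leaf A.C1, dual-free form.

`Pa Y N S` : a pairing `f σ : N → S → K` indexed by the right cells `Y`, compatible with the
differentials on homogeneous elements.  `Pa.Ex` : the cone of `Y ⊗ N → D(S)` is acyclic;
functionals are tested on homogeneous pieces only.

`Pa.ex_of_layers` : `Ex` for `(N, S)` from `Ex` for `(N0, S0)`, where `N` is filtered with layers
`N0` and `S` is filtered with layers `S0`.
-/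

set_option autoImplicit false
set_option linter.unusedSectionVars false

namespace Crest.Agent.R186.C1x134

open Hat827 Hat827.DGA Frame515

variable {K : Type} [Field K] {A : DGA K}

/-- pairing of `Y ⊗ N` with `S` -/
structure Pa (Y : RCells A) (N : LM A) (S : GC K) where
  lo : ℤ
  f : Y.ι → N.X →ₗ[K] S.X →ₗ[K] K
  f_d : ∀ (σ : Y.ι) {k l : ℤ} {n : N.X} {s : S.X}, n ∈ N.gr k → s ∈ S.gr l →
    f σ (N.d n) s + f σ n (S.d s) = ∑ τ ∈ Y.F (Y.s σ), f τ (Y.c τ σ • n) s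

namespace Pa

variable {Y : RCells A} {N : LM A} {S : GC K}

/-- the evaluation `Y ⊗ N → D(S)` -/
noncomputable def ev (P : Pa Y N S) : (Y.ι →₀ N.X) →ₗ[K] S.X →ₗ[K] K :=
  Finsupp.lsum K P.f

theorem ev_apply (P : Pa Y N S) (x : Y.ι →₀ N.X) (s : S.X) :
    P.ev x s = x.sum fun σ n => P.f σ n s := by
  rw [ev, Finsupp.lsum_apply, Finsupp.sum, LinearMap.sum_apply]
  rfl

theorem ev_apply' (P : Pa Y N S) (x : Y.ι →₀ N.X) (s : S.X) (T : Finset Y.ι) (hT : x.support ⊆ T) :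
    P.ev x s = ∑ σ ∈ T, P.f σ (x σ) s := by
  rw [ev_apply]
  exact Finsupp.sum_of_support_subset _ hT _ fun σ _ => by rw [map_zero, LinearMap.zero_apply]

theorem ev_single (P : Pa Y N S) (σ : Y.ι) (n : N.X) (s : S.X) :
    P.ev (Finsupp.single σ n) s = P.f σ n s := by
  rw [ev, Finsupp.lsum_single]

/-- the cone of `Y ⊗ N → D(S)` is exact in degree `k` -/
def ExAt (P : Pa Y N S) (k : ℤ) : Prop :=
  ∀ (x : Y.ι →₀ N.X) (g : Module.Dual K S.X), x ∈ (tY Y N).gr (k - 1) → (tY Y N).d x = 0 →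
    (∀ s ∈ S.gr (1 - P.lo - k), P.ev x s + g (S.d s) = 0) →
    ∃ y ∈ (tY Y N).gr k, ∃ g' : Module.Dual K S.X, (tY Y N).d y = x ∧
      ∀ s ∈ S.gr (-P.lo - k), g s = P.ev y s + g' (S.d s)

/-- the cone of `Y ⊗ N → D(S)` is acyclic -/
def Ex (P : Pa Y N S) : Prop := ∀ k, P.ExAt k

theorem two_S (h2 : (2 : K) = 0) (c : K) : c + c = 0 := by
  rw [← two_mul, h2, zero_mul]

/-- compatibility of `ev` with the differentials -/
theorem ev_d (h2 : (2 : K) = 0) (P : Pa Y N S) {k l : ℤ} {x : Y.ι →₀ N.X} {s : S.X}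
    (hx : x ∈ (tY Y N).gr k) (hs : s ∈ S.gr l) : P.ev ((tY Y N).d x) s + P.ev x (S.d s) = 0 := by
  classical
  have hx' : x = ∑ σ ∈ x.support, Finsupp.single σ (x σ) := (Finsupp.sum_single x).symm
  have key : ∀ σ ∈ x.support, P.ev ((tY Y N).d (Finsupp.single σ (x σ))) s +
      P.ev (Finsupp.single σ (x σ)) (S.d s) = 0 := by
    intro σ _
    have e1 : (tY Y N).d (Finsupp.single σ (x σ)) = Finsupp.single σ (N.d (x σ)) +
        ∑ τ ∈ Y.F (Y.s σ), Finsupp.single τ (Y.c τ σ • x σ) := (twY Y N).dd_single σ (x σ)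
    rw [e1, map_add, map_sum, LinearMap.add_apply, LinearMap.sum_apply, ev_single, ev_single]
    simp only [ev_single]
    have h3 := P.f_d σ ((hx σ).1) hs
    rw [← h3]
    have := two_S h2 (P.f σ (N.d (x σ)) s + P.f σ (x σ) (S.d s))
    linear_combination this
  have e2 : (tY Y N).d x = ∑ σ ∈ x.support, (tY Y N).d (Finsupp.single σ (x σ)) := by
    conv_lhs => rw [hx']
    exact map_sum _ _ _
  have e3 : P.ev x (S.d s) = ∑ σ ∈ x.support, P.ev (Finsupp.single σ (x σ)) (S.d s) := by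
    conv_lhs => rw [hx']
    rw [map_sum, LinearMap.sum_apply]
  rw [e2, e3, map_sum, LinearMap.sum_apply, ← Finset.sum_add_distrib]
  exact Finset.sum_eq_zero key

end Pa

/-! ### layers -/

/-- `N` is filtered with layers `N0` (maps `μ`, `ν`), `S` with layers `S0` (maps `rho`, `lam`) -/
structure Lay (Y : RCells A) (N N0 : LM A) (S S0 : GC K) where
  P : Pa Y N S
  P0 : Pa Y N0 S0
  r : ℕ
  μ : ℕ → N.X →ₗ[K] N0.X
  ν : ℕ → N0.X →ₗ[K] N.X
  lam : ℕ → S.X →ₗ[K] S0.X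
  rho : ℕ → S0.X →ₗ[K] S.X
  c : ℕ → ℤ
  e : ℕ → ℤ
  hlo : ∀ j < r, P0.lo = P.lo + c j + e j
  μ_mem : ∀ j < r, ∀ {k : ℤ} {n : N.X}, n ∈ N.gr k → μ j n ∈ N0.gr (k - c j)
  ν_mem : ∀ j < r, ∀ {k : ℤ} {n : N0.X}, n ∈ N0.gr k → ν j n ∈ N.gr (k + c j)
  zero : ∀ {k : ℤ} {n : N.X}, n ∈ N.gr k → (∀ j < r, μ j n = 0) → n = 0
  μ_smul : ∀ j < r, ∀ {k l : ℤ} {a : A.C} {n : N.X}, a ∈ A.G l → n ∈ N.gr k →
    (∀ i < r, j < i → μ i n = 0) → μ j (a • n) = a • μ j n
  μ_d : ∀ j < r, ∀ {k : ℤ} {n : N.X}, n ∈ N.gr k → (∀ i < r, j < i → μ i n = 0) →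
    μ j (N.d n) = N0.d (μ j n)
  μ_ν : ∀ j < r, ∀ {k : ℤ} {n : N0.X}, n ∈ N0.gr k → μ j (ν j n) = n
  μ_ν' : ∀ j < r, ∀ i < r, j < i → ∀ {k : ℤ} {n : N0.X}, n ∈ N0.gr k → μ i (ν j n) = 0
  lam_mem : ∀ j < r, ∀ {k : ℤ} {s : S.X}, s ∈ S.gr k → lam j s ∈ S0.gr (k - e j)
  rho_mem : ∀ j < r, ∀ {k : ℤ} {s : S0.X}, s ∈ S0.gr k → rho j s ∈ S.gr (k + e j)
  sum : ∀ {k : ℤ} {s : S.X}, s ∈ S.gr k → s = ∑ j ∈ Finset.range r, rho j (lam j s)
  lam_rho : ∀ j < r, ∀ {k : ℤ} {s : S0.X}, s ∈ S0.gr k → lam j (rho j s) = s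
  lam_d : ∀ j < r, ∀ {k : ℤ} {s : S0.X}, s ∈ S0.gr k → lam j (S.d (rho j s)) = S0.d s
  lam_d' : ∀ j < r, ∀ i < j, ∀ {k : ℤ} {s : S0.X}, s ∈ S0.gr k → lam i (S.d (rho j s)) = 0
  f_rho : ∀ (σ : Y.ι), ∀ j < r, ∀ {k l : ℤ} {n : N.X} {s : S0.X}, n ∈ N.gr k → s ∈ S0.gr l →
    (∀ i < r, j < i → μ i n = 0) → P.f σ n (rho j s) = P0.f σ (μ j n) s

namespace Lay

variable {Y : RCells A} {N N0 : LM A} {S S0 : GC K} (L : Lay Y N N0 S S0)

/-- coordinates of `Y ⊗ N` -/
noncomputable def M (j : ℕ) : (Y.ι →₀ N.X) →ₗ[K] (Y.ι →₀ N0.X) :=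
  Finsupp.mapRange.linearMap (L.μ j)

theorem M_apply (j : ℕ) (x : Y.ι →₀ N.X) (σ : Y.ι) : L.M j x σ = L.μ j (x σ) := rfl

/-- layer `< l` -/
def Lt (l : ℕ) (x : Y.ι →₀ N.X) : Prop := ∀ i < L.r, l ≤ i → L.M i x = 0

theorem Lt.apply {l : ℕ} {x : Y.ι →₀ N.X} (h : L.Lt l x) {i : ℕ} (hi : i < L.r) (hl : l ≤ i)
    (σ : Y.ι) : L.μ i (x σ) = 0 := DFunLike.congr_fun (h i hi hl) σ

theorem M_d {j : ℕ} (hj : j < L.r) {k : ℤ} {x : Y.ι →₀ N.X} (hx : x ∈ (tY Y N).gr k)
    (h : ∀ i < L.r, j < i → L.M i x = 0) : L.M j ((tY Y N).d x) = (tY Y N0).d (L.M j x) := by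
  classical
  have h' : ∀ σ, ∀ i < L.r, j < i → L.μ i (x σ) = 0 := fun σ i hi hji =>
    DFunLike.congr_fun (h i hi hji) σ
  refine Finsupp.ext fun τ => ?_
  have e1 : (tY Y N).d x τ = N.d (x τ) + ∑ σ ∈ x.support, Y.c τ σ • x σ :=
    (twY Y N).dd_apply' x x.support (Finset.Subset.refl _) τ
  have e2 : (tY Y N0).d (L.M j x) τ = N0.d (L.M j x τ) + ∑ σ ∈ x.support, Y.c τ σ • L.M j x σ :=
    (twY Y N0).dd_apply' (L.M j x) x.support (Finsupp.support_mapRange (hf := map_zero (L.μ j))) τ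
  rw [M_apply, e1, e2, map_add, map_sum, L.μ_d j hj ((hx τ).1) (h' τ)]
  congr 1
  refine Finset.sum_congr rfl fun σ _ => ?_
  rw [L.μ_smul j hj (Y.c_mem τ σ) ((hx σ).1) (h' σ)]
  rfl

theorem M_mem {j : ℕ} (hj : j < L.r) {k : ℤ} {x : Y.ι →₀ N.X} (hx : x ∈ (tY Y N).gr k)
    (h : ∀ i < L.r, j < i → L.M i x = 0) : L.M j x ∈ (tY Y N0).gr (k - L.c j) := by
  intro σ
  refine ⟨?_, ?_⟩
  · have := L.μ_mem j hj (hx σ).1
    rwa [show k - (Y.s σ : ℤ) - L.c j = k - L.c j - Y.s σ by ring] at this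
  · change Y.e σ • L.μ j (x σ) = L.μ j (x σ)
    rw [← L.μ_smul j hj (Y.e_mem σ) ((hx σ).1) (fun i hi hji => DFunLike.congr_fun (h i hi hji) σ)]
    congr 1
    exact (hx σ).2

theorem ev_rho {j : ℕ} (hj : j < L.r) {k l : ℤ} {x : Y.ι →₀ N.X} (hx : x ∈ (tY Y N).gr k)
    {s : S0.X} (hs : s ∈ S0.gr l) (h : ∀ i < L.r, j < i → L.M i x = 0) :
    L.P.ev x (L.rho j s) = L.P0.ev (L.M j x) s := by
  rw [L.P.ev_apply' x _ x.support (Finset.Subset.refl _),
    L.P0.ev_apply' (L.M j x) _ x.support (Finsupp.support_mapRange (hf := map_zero (L.μ j)))]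
  refine Finset.sum_congr rfl fun σ _ => ?_
  rw [L.f_rho σ j hj ((hx σ).1) hs (fun i hi hji => DFunLike.congr_fun (h i hi hji) σ)]
  rfl

/-- lifting of a layer -/
noncomputable def lift (j : ℕ) (y : Y.ι →₀ N0.X) : Y.ι →₀ N.X :=
  Finsupp.onFinset y.support (fun σ => Y.e σ • L.ν j (y σ)) fun σ h => by
    rw [Finsupp.mem_support_iff]
    intro h0
    rw [h0, map_zero, smul_zero] at h
    exact h rfl

theorem lift_apply (j : ℕ) (y : Y.ι →₀ N0.X) (σ : Y.ι) : L.lift j y σ = Y.e σ • L.ν j (y σ) := rfl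

theorem lift_mem {j : ℕ} (hj : j < L.r) {k : ℤ} {y : Y.ι →₀ N0.X}
    (hy : y ∈ (tY Y N0).gr (k - L.c j)) : L.lift j y ∈ (tY Y N).gr k := by
  intro σ
  refine ⟨?_, ?_⟩
  · have := N.smul_mem (Y.e_mem σ) (L.ν_mem j hj (hy σ).1)
    rwa [show 0 + (k - L.c j - (Y.s σ : ℤ) + L.c j) = k - Y.s σ by ring] at this
  · change Y.e σ • L.lift j y σ = L.lift j y σ
    rw [lift_apply, smul_smul, Y.e_idem]

theorem M_lift {j : ℕ} (hj : j < L.r) {k : ℤ} {y : Y.ι →₀ N0.X}
    (hy : y ∈ (tY Y N0).gr k) : L.M j (L.lift j y) = y := by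
  refine Finsupp.ext fun σ => ?_
  rw [M_apply, lift_apply, L.μ_smul j hj (Y.e_mem σ) (L.ν_mem j hj (hy σ).1)
    (fun i hi hji => L.μ_ν' j hj i hi hji (hy σ).1), L.μ_ν j hj (hy σ).1]
  exact (hy σ).2

theorem M_lift' {j i : ℕ} (hj : j < L.r) (hi : i < L.r) (hji : j < i) {k : ℤ} {y : Y.ι →₀ N0.X}
    (hy : y ∈ (tY Y N0).gr k) : L.M i (L.lift j y) = 0 := by
  refine Finsupp.ext fun σ => ?_
  rw [M_apply, lift_apply, L.μ_smul i hi (Y.e_mem σ) (L.ν_mem j hj (hy σ).1)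
    (fun i' hi' hji' => L.μ_ν' j hj i' hi' (by omega) (hy σ).1), L.μ_ν' j hj i hi hji (hy σ).1,
    smul_zero]
  rfl

/-- **the theorem of layers** -/
theorem ex (h2 : (2 : K) = 0) (h0 : L.P0.Ex) : L.P.Ex := by
  classical
  have key : ∀ (l : ℕ), l ≤ L.r → ∀ (k : ℤ) (x : Y.ι →₀ N.X) (g : Module.Dual K S.X),
      x ∈ (tY Y N).gr (k - 1) → (tY Y N).d x = 0 →
      (∀ s ∈ S.gr (1 - L.P.lo - k), L.P.ev x s + g (S.d s) = 0) →
      (∀ i < L.r, l ≤ i → L.M i x = 0) →
      (∀ i < L.r, l ≤ i → ∀ s ∈ S0.gr (-L.P.lo - k - L.e i), g (L.rho i s) = 0) →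
      ∃ y ∈ (tY Y N).gr k, ∃ g' : Module.Dual K S.X, (tY Y N).d y = x ∧
        ∀ s ∈ S.gr (-L.P.lo - k), g s = L.P.ev y s + g' (S.d s) := by
    intro l
    induction l with
    | zero =>
      intro _ k x g hx hdx hc hxl hgl
      have x0 : x = 0 := by
        refine Finsupp.ext fun σ => ?_
        exact L.zero (hx σ).1 fun j hj => DFunLike.congr_fun (hxl j hj (Nat.zero_le _)) σ
      refine ⟨0, Submodule.zero_mem _, 0, by rw [x0, map_zero], fun s hs => ?_⟩
      rw [map_zero, LinearMap.zero_apply, LinearMap.zero_apply, add_zero, L.sum hs, map_sum]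
      refine Finset.sum_eq_zero fun j hj => ?_
      exact hgl j (Finset.mem_range.1 hj) (Nat.zero_le _) _
        (L.lam_mem j (Finset.mem_range.1 hj) hs)
    | succ j ih =>
      intro hjr k x g hx hdx hc hxl hgl
      have hj : j < L.r := hjr
      have hxj : ∀ i < L.r, j < i → L.M i x = 0 := fun i hi hji => hxl i hi hji
      -- the leading coordinate
      have hlo := L.hlo j hj
      obtain ⟨y, hy, g1, hy1, hy2⟩ := h0 (k - L.c j) (L.M j x) (g ∘ₗ L.rho j)
        (by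
          have := L.M_mem hj hx hxj
          rwa [show k - 1 - L.c j = k - L.c j - 1 by ring] at this)
        (by rw [← L.M_d hj hx hxj, hdx, map_zero])
        (by
          intro s hs
          have hs' : L.rho j s ∈ S.gr (1 - L.P.lo - k) := by
            have := L.rho_mem j hj hs
            rwa [show 1 - L.P0.lo - (k - L.c j) + L.e j = 1 - L.P.lo - k by rw [hlo]; ring] at this
          have e1 := hc _ hs'
          rw [L.ev_rho hj hx hs hxj] at e1
          rw [← e1]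
          congr 1
          change g (L.rho j (S0.d s)) = g (S.d (L.rho j s))
          have hds : S.d (L.rho j s) ∈ S.gr (-L.P.lo - k) := by
            have := S.d_mem hs'
            rwa [show 1 - L.P.lo - k - 1 = -L.P.lo - k by ring] at this
          rw [L.sum hds, map_sum, Finset.sum_eq_single j]
          · rw [L.lam_d j hj hs]
          · intro i hi hij
            rcases lt_or_gt_of_ne hij with h | h
            · rw [L.lam_d' j hj i h hs, map_zero, map_zero]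
            · exact hgl i (Finset.mem_range.1 hi) h _ (L.lam_mem i (Finset.mem_range.1 hi) hds)
          · intro h; exact absurd (Finset.mem_range.2 hj) h)
      have hY : L.lift j y ∈ (tY Y N).gr k := L.lift_mem hj hy
      have hYi : ∀ i < L.r, j < i → L.M i (L.lift j y) = 0 := fun i hi hji =>
        L.M_lift' hj hi hji hy
      let g2 : Module.Dual K S.X := g - L.P.ev (L.lift j y) - (g1 ∘ₗ L.lam j) ∘ₗ S.d
      have hg2 : ∀ s, g2 s = g s - L.P.ev (L.lift j y) s - g1 (L.lam j (S.d s)) := fun s => rfl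
      have hdY : (tY Y N).d (L.lift j y) ∈ (tY Y N).gr (k - 1) := (tY Y N).d_mem hY
      obtain ⟨z, hz, g3, hz1, hz2⟩ := ih (by omega) k (x - (tY Y N).d (L.lift j y)) g2
        (Submodule.sub_mem _ hx hdY)
        (by rw [map_sub, hdx, (tY Y N).d_d, sub_zero])
        (by
          intro s hs
          have e1 := hc s hs
          have e2 := L.P.ev_d h2 hY hs
          have hds : S.d s ∈ S.gr (-L.P.lo - k) := by
            have := S.d_mem hs
            rwa [show 1 - L.P.lo - k - 1 = -L.P.lo - k by ring] at this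
          rw [hg2, S.d_d, map_zero, map_zero, map_sub, LinearMap.sub_apply]
          linear_combination e1 - e2)
        (by
          intro i hi hji
          rcases eq_or_lt_of_le hji with h | h
          · subst h
            rw [map_sub, L.M_d hj hY hYi, L.M_lift hj hy, hy1, sub_self]
          · have hd' : L.M i ((tY Y N).d (L.lift j y)) = 0 := by
              rw [L.M_d hi hY (fun i' hi' hii' => hYi i' hi' (by omega)), hYi i hi h, map_zero]
            rw [map_sub, hxj i hi h, hd', sub_zero])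
        (by
          intro i hi hji s hs
          have hrs : L.rho i s ∈ S.gr (-L.P.lo - k) := by
            have := L.rho_mem i hi hs
            rwa [show -L.P.lo - k - L.e i + L.e i = -L.P.lo - k by ring] at this
          rw [hg2, L.ev_rho hi hY hs (fun i' hi' hii' => hYi i' hi' (by omega))]
          rcases eq_or_lt_of_le hji with h | h
          · subst h
            rw [L.M_lift hj hy, L.lam_d j hj hs]
            have hs' : s ∈ S0.gr (-L.P0.lo - (k - L.c j)) := by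
              rwa [show -L.P0.lo - (k - L.c j) = -L.P.lo - k - L.e j by rw [hlo]; ring]
            have e3 := hy2 s hs'
            change g (L.rho j s) = _ at e3
            rw [e3]
            ring
          · rw [hYi i hi h, L.lam_d' i hi j h hs, map_zero, map_zero, LinearMap.zero_apply,
              hgl i hi h s hs]
            ring)
      refine ⟨z + L.lift j y, Submodule.add_mem _ hz hY, g3 + g1 ∘ₗ L.lam j, ?_, ?_⟩
      · rw [map_add, hz1]; abel
      · intro s hs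
        have e4 := hz2 s hs
        rw [hg2] at e4
        rw [map_add, LinearMap.add_apply, LinearMap.add_apply, LinearMap.comp_apply]
        linear_combination e4
  intro k x g hx hdx hc
  exact key L.r le_rfl k x g hx hdx hc (fun i hi h => absurd hi (by omega))
    (fun i hi h => absurd hi (by omega))

end Lay

end Crest.Agent.R186.C1x134
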