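import Crest.Agent.R186.ConeHyp_462

/-!
Row 186 (A), closing (helper462): the two acyclicity lemmas for the ideal
`J = (K ⊗ H)[1]` of the cone algebra.
-/

set_option autoImplicit false

open Matrix

namespace Crest.Agent.R186.ConeHyp462

open Hat827 ConeAlg462

variable {K : Type} [Field K] {A : DGA K} (S : Data A) (X : PCells A)

theorem PCells.D_e (σ : X.ι) : A.D (X.e σ) = 0 := DGA.D_neg (X.e_mem σ) (by norm_num)

theorem PCells.c_zero {σ τ : X.ι} (h : X.s σ ≤ X.s τ) : X.c σ τ = 0 :=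
  DGA.neg (X.c_mem σ τ) (by omega)

theorem σ_comm (σ : X.ι) : S.ε * S.σ (X.e σ) = S.σ (X.e σ) * S.ε := by
  have h := S.σ_D (X.e σ)
  rw [X.D_e, map_zero] at h
  have h2 : (S.σ (X.e σ) * S.ε : Matrix S.γ S.γ K) + S.σ (X.e σ) * S.ε = 0 := by
    have := congrArg S.σ (A.two (X.e σ))
    rw [map_add, map_zero] at this
    rw [← Matrix.add_mul, this, Matrix.zero_mul]
  calc S.ε * S.σ (X.e σ) = S.ε * S.σ (X.e σ) + (S.σ (X.e σ) * S.ε + S.σ (X.e σ) * S.ε) := by
        rw [h2, add_zero]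
    _ = (S.ε * S.σ (X.e σ) + S.σ (X.e σ) * S.ε) + S.σ (X.e σ) * S.ε := by abel
    _ = _ := by rw [← h, zero_add]

theorem ρ_comm (σ : X.ι) : S.δ * S.ρ (X.e σ) = S.ρ (X.e σ) * S.δ := by
  have h := S.ρ_D (X.e σ)
  rw [X.D_e, map_zero] at h
  have h2 : (S.ρ (X.e σ) * S.δ : Matrix S.β S.β K) + S.ρ (X.e σ) * S.δ = 0 := by
    have := congrArg S.ρ (A.two (X.e σ))
    rw [map_add, map_zero] at this
    rw [← Matrix.add_mul, this, Matrix.zero_mul]
  calc S.δ * S.ρ (X.e σ) = S.δ * S.ρ (X.e σ) + (S.ρ (X.e σ) * S.δ + S.ρ (X.e σ) * S.δ) := by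
        rw [h2, add_zero]
    _ = (S.δ * S.ρ (X.e σ) + S.ρ (X.e σ) * S.δ) + S.ρ (X.e σ) * S.δ := by abel
    _ = _ := by rw [← h, zero_add]

/-! ### `H ⊗ X` -/

theorem Y_zero {n : ℤ} {y : X.ι → S.γ → K} (hy : y ∈ Y S X n) {σ : X.ι} (h : n < X.s σ) :
    y σ = 0 := by
  funext c
  by_contra hne
  have h1 := hy.1 σ c hne
  have h2 := S.dh_nn c
  omega

theorem Y_neg {n : ℤ} {y : X.ι → S.γ → K} (hy : y ∈ Y S X n) (h : n < 0) : y = 0 := by
  funext σ
  exact Y_zero S X hy (by omega)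

theorem dYM_eq {n : ℤ} {y : X.ι → S.γ → K} (hy : y ∈ Y S X n) {M : ℕ} (h : n ≤ M) :
    dYM S X M y = dY S X n y := by
  funext τ
  unfold dY
  rw [dYM_apply, dYM_apply]
  congr 1
  symm
  refine Finset.sum_subset (fun σ hσ => ?_) fun σ _ hσ => ?_
  · rw [X.mem_F] at hσ ⊢
    omega
  · rw [X.mem_F] at hσ
    rw [Y_zero S X hy (by omega), Matrix.zero_vecMul]

theorem dY_mem {n : ℤ} {y : X.ι → S.γ → K} (hy : y ∈ Y S X n) (M : ℕ) :
    dYM S X M y ∈ Y S X (n - 1) := by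
  refine ⟨fun τ c h => ?_, fun τ => ?_⟩
  · rw [dYM_apply, Pi.add_apply, Finset.sum_apply] at h
    by_cases h1 : (y τ ᵥ* S.ε) c = 0
    · rw [h1, zero_add] at h
      obtain ⟨σ, -, hσ⟩ := Finset.exists_ne_zero_of_sum_ne_zero h
      rw [Matrix.vecMul, dotProduct] at hσ
      obtain ⟨c', -, hc⟩ := Finset.exists_ne_zero_of_sum_ne_zero hσ
      have e1 := hy.1 σ c' (left_ne_zero_of_mul hc)
      have e2 := S.σ_deg (X.c_mem σ τ) c' c (right_ne_zero_of_mul hc)
      omega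
    · rw [Matrix.vecMul, dotProduct] at h1
      obtain ⟨c', -, hc⟩ := Finset.exists_ne_zero_of_sum_ne_zero h1
      have e1 := hy.1 τ c' (left_ne_zero_of_mul hc)
      have e2 := S.ε_deg c' c (right_ne_zero_of_mul hc)
      omega
  · rw [dYM_apply, Matrix.add_vecMul, Matrix.vecMul_vecMul, σ_comm S X τ, ← Matrix.vecMul_vecMul,
      hy.2, Matrix.sum_vecMul]
    congr 1
    refine Finset.sum_congr rfl fun σ _ => ?_
    rw [Matrix.vecMul_vecMul, ← map_mul, X.c_right]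

theorem dblv {β : Type} (S : Data A) (b : S.β) (c : S.γ) (x : β → K) : x + x = 0 := by
  have h : (1 : K) + 1 = 0 := by
    have := congrFun (congrFun (S.dbl (Matrix.single b c (1 : K))) b) c
    simpa using this
  funext i
  have : x i + x i = (1 + 1) * x i := by ring
  rw [Pi.add_apply, this, h, zero_mul, Pi.zero_apply]

theorem dblσ (y : S.γ → K) : y + y = 0 := by
  have := congrArg (fun M : Matrix S.γ S.γ K => y ᵥ* M) (congrArg S.σ (A.two 1))
  simpa [Matrix.vecMul_add] using this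

theorem dblρ (y : S.β → K) : y + y = 0 := by
  have := congrArg (fun M : Matrix S.β S.β K => M *ᵥ y) (congrArg S.ρ (A.two 1))
  simpa [Matrix.add_mulVec] using this

theorem dYM_dYM (M : ℕ) (y : X.ι → S.γ → K) : dYM S X M (dYM S X M y) = 0 := by
  funext ω
  rw [dYM_apply]
  simp only [dYM_apply, Matrix.add_vecMul, Matrix.sum_vecMul, Matrix.vecMul_vecMul, S.εε,
    Matrix.vecMul_zero, zero_add, Finset.sum_add_distrib, Pi.zero_apply]
  have e1 : ∑ τ ∈ X.F M, ∑ σ ∈ X.F M, y σ ᵥ* (S.σ (X.c σ τ) * S.σ (X.c τ ω)) =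
      ∑ σ ∈ X.F M, y σ ᵥ* (S.σ (A.D (X.c σ ω))) := by
    rw [Finset.sum_comm]
    refine Finset.sum_congr rfl fun σ hσ => ?_
    rw [← Matrix.vecMul_sum]
    congr 1
    have e2 : ∑ τ ∈ X.F M, X.c σ τ * X.c τ ω = ∑ τ ∈ X.F (X.s σ), X.c σ τ * X.c τ ω := by
      symm
      refine Finset.sum_subset (fun τ hτ => ?_) fun τ _ hτ => ?_
      · rw [X.mem_F] at hτ hσ ⊢
        omega
      · rw [X.mem_F] at hτ
        rw [X.c_zero (by omega), zero_mul]
    have e3 : ∑ τ ∈ X.F (X.s σ), X.c σ τ * X.c τ ω = A.D (X.c σ ω) := by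
      have h1 := X.mc σ ω
      have h2 := A.two (A.D (X.c σ ω))
      exact add_left_cancel (h1.trans h2.symm)
    rw [← e3, ← e2, map_sum]
    simp only [map_mul]
  rw [e1]
  have e4 : ∑ σ ∈ X.F M, y σ ᵥ* (S.σ (A.D (X.c σ ω))) =
      ∑ σ ∈ X.F M, y σ ᵥ* (S.ε * S.σ (X.c σ ω)) + ∑ σ ∈ X.F M, y σ ᵥ* (S.σ (X.c σ ω) * S.ε) := by
    rw [← Finset.sum_add_distrib]
    refine Finset.sum_congr rfl fun σ _ => ?_
    rw [S.σ_D, Matrix.vecMul_add]
  rw [e4]
  have h1 := dblσ S (∑ σ ∈ X.F M, y σ ᵥ* (S.ε * S.σ (X.c σ ω)))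
  have h2 := dblσ S (∑ σ ∈ X.F M, y σ ᵥ* (S.σ (X.c σ ω) * S.ε))
  generalize (∑ σ ∈ X.F M, y σ ᵥ* (S.ε * S.σ (X.c σ ω))) = a at *
  generalize (∑ σ ∈ X.F M, y σ ᵥ* (S.σ (X.c σ ω) * S.ε)) = b at *
  calc b + (a + (a + b)) = (a + a) + (b + b) := by abel
    _ = 0 := by rw [h1, h2, add_zero]

/-- the homotopy on `H ⊗ X` -/
theorem exists_hY (hH : ∀ (m : ℕ) (y : X.ι → S.γ → K), y ∈ Y S X m → dY S X m y = 0 →
      ∃ z ∈ Y S X (m + 1), y = dY S X (m + 1) z) :
    ∃ h : ℤ → (X.ι → S.γ → K) →ₗ[K] (X.ι → S.γ → K), (∀ n y, h n y ∈ Y S X (n + 1)) ∧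
      ∀ n, ∀ y ∈ Y S X n, y = dY S X (n + 1) (h n y) + h (n - 1) (dY S X n y) := by
  obtain ⟨h, h1, h2⟩ := HomA462.exists_homotopy (K := K) (fun p => Y S X (-p)) (fun _ => ⊥)
    (fun p => dY S X (-p)) (fun p x hx => by
      have e1 : dY S X (-(p + 1)) (dY S X (-p) x) = dYM S X (-p).toNat (dY S X (-p) x) :=
        (dYM_eq S X (n := -(p + 1)) (by
          have := dY_mem S X hx (-p).toNat
          rw [show -p - 1 = -(p + 1) by ring] at this
          exact this) (by omega)).symm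
      exact e1.trans (dYM_dYM S X _ _)) (fun p x hx hd => by
      by_cases hp : 0 ≤ -(p + 1)
      · obtain ⟨m, hm⟩ := Int.eq_ofNat_of_zero_le hp
        have hp' : -p = m + 1 := by omega
        simp only [hm] at hx hd
        obtain ⟨z, hz, hz'⟩ := hH m x hx hd
        refine ⟨z, ?_, ?_⟩
        · change z ∈ Y S X (-p)
          rw [hp']
          exact hz
        · change x - dY S X (-p) z ∈ (⊥ : Submodule K _)
          rw [hp', ← hz', sub_self]
          exact Submodule.zero_mem _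
      · have hx0 : x = 0 := Y_neg S X hx (by omega)
        exact ⟨0, Submodule.zero_mem _, by rw [hx0, map_zero, sub_zero]; exact Submodule.zero_mem _⟩)
  refine ⟨fun n => h (-n - 1), fun n y => ?_, fun n y hy => ?_⟩
  · have := h1 (-n - 1) y
    simp only [show -(-n - 1) = n + 1 by ring] at this
    exact this
  · have h3 := h2 (-n - 1) y (by
      change y ∈ Y S X (-(-n - 1 + 1))
      rw [show -(-n - 1 + 1) = n by ring]
      exact hy)
    rw [Submodule.mem_bot, sub_eq_zero] at h3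
    simp only [show -(-n - 1) = n + 1 by ring, show -n - 1 + 1 = -n by ring,
      show -(-n) = n by ring] at h3
    simp only [show -(n - 1) - 1 = -n by ring]
    exact h3

theorem row (M : ℕ) (t : X.ι → Matrix S.β S.γ K) (τ : X.ι) (b : S.β) (c : S.γ) :
    (S.dJ (t τ) + ∑ σ ∈ X.F M, t σ * S.σ (X.c σ τ)) b c =
      (∑ b', S.δ b b' * t τ b' c) + dYM S X M (fun σ => t σ b) τ c := by
  rw [dYM_apply, Data.dJ_apply, Matrix.add_apply, Matrix.add_apply, Matrix.sum_apply,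
    Pi.add_apply, Finset.sum_apply, Matrix.mul_apply, Matrix.mul_apply, ← add_assoc]
  rfl

/-- **(JR)** -/
theorem JR (hH : ∀ (m : ℕ) (y : X.ι → S.γ → K), y ∈ Y S X m → dY S X m y = 0 →
      ∃ z ∈ Y S X (m + 1), y = dY S X (m + 1) z)
    (m : ℕ) (t : X.ι → Matrix S.β S.γ K) (ht : ∀ σ, t σ ∈ S.J ((m : ℤ) + 1 - X.s σ))
    (he : ∀ σ, t σ * S.σ (X.e σ) = t σ)
    (hd : ∀ τ, S.dJ (t τ) + ∑ σ ∈ X.F (m + 1), t σ * S.σ (X.c σ τ) = 0) :
    ∃ t' : X.ι → Matrix S.β S.γ K, (∀ σ, t' σ ∈ S.J ((m : ℤ) + 2 - X.s σ)) ∧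
      (∀ σ, t' σ * S.σ (X.e σ) = t' σ) ∧
      ∀ τ, t τ = S.dJ (t' τ) + ∑ σ ∈ X.F (m + 2), t' σ * S.σ (X.c σ τ) := by
  obtain ⟨h, h1, h2⟩ := exists_hY S X hH
  set y : S.β → (X.ι → S.γ → K) := fun b σ => t σ b with hy
  have hyY : ∀ b, y b ∈ Y S X (m - S.dk b) := fun b => by
    refine ⟨fun σ c hc => ?_, fun σ => ?_⟩
    · have := ht σ b c hc
      omega
    · have := congrFun (he σ) b
      rw [Matrix.mul_apply_eq_vecMul] at this
      exact this
  set z : S.β → (X.ι → S.γ → K) := fun b => h (m - S.dk b) (y b) with hz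
  have hzY : ∀ b, z b ∈ Y S X (m - S.dk b + 1) := fun b => h1 _ _
  -- the cocycle condition by rows
  have hrow : ∀ b, dY S X (m - S.dk b) (y b) = ∑ b', S.δ b b' • y b' := fun b => by
    rw [← dYM_eq S X (hyY b) (M := m + 1) (by have := S.dk_nn b; push_cast; omega)]
    funext τ
    have h3 : (∑ b', S.δ b b' • y b') τ + dYM S X (m + 1) (y b) τ = 0 := by
      funext c
      have := congrFun (congrFun (hd τ) b) c
      rw [row S X (m + 1) t τ b c] at this
      simp only [Pi.add_apply, Finset.sum_apply, Pi.smul_apply, smul_eq_mul]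
      exact this
    have h4 := dblσ S ((∑ b', S.δ b b' • y b') τ)
    exact add_left_cancel (h3.trans h4.symm)
  refine ⟨fun σ => Matrix.of fun b c => z b σ c, fun σ b c hc => ?_, fun σ => ?_, fun τ => ?_⟩
  · have := (hzY b).1 σ c hc
    omega
  · ext b c
    rw [Matrix.mul_apply]
    exact congrFun ((hzY b).2 σ) c
  · ext b c
    rw [row S X (m + 2) (fun σ => Matrix.of fun b c => z b σ c) τ b c]
    have h3 := h2 (m - S.dk b) (y b) (hyY b)
    rw [hrow b, map_sum, ← dYM_eq S X (hzY b) (M := m + 2) (by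
      have := S.dk_nn b; push_cast; omega)] at h3
    have h4 : ∑ b', h (m - S.dk b - 1) (S.δ b b' • y b') = ∑ b', S.δ b b' • z b' := by
      refine Finset.sum_congr rfl fun b' _ => ?_
      rw [map_smul]
      by_cases h0 : S.δ b b' = 0
      · rw [h0, zero_smul, zero_smul]
      · have := S.δ_deg b' b h0
        rw [hz]
        simp only
        rw [show (m : ℤ) - S.dk b' = m - S.dk b - 1 by omega]
    rw [h4] at h3
    have h5 := congrFun (congrFun h3 τ) c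
    simp only [Pi.add_apply, Finset.sum_apply, Pi.smul_apply, smul_eq_mul] at h5
    rw [add_comm] at h5
    exact h5

/-! ### `Hom(X, K)` -/

theorem dZ_mem {p : ℤ} {κ : X.ι → S.β → K} (hκ : κ ∈ Z S X p) : dZ S X κ ∈ Z S X (p + 1) := by
  refine ⟨fun σ b h => ?_, fun σ => ?_⟩
  · rw [dZ_apply, Pi.add_apply, Finset.sum_apply] at h
    by_cases h1 : (S.δ *ᵥ κ σ) b = 0
    · rw [h1, zero_add] at h
      obtain ⟨τ, -, hτ⟩ := Finset.exists_ne_zero_of_sum_ne_zero h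
      rw [Matrix.mulVec, dotProduct] at hτ
      obtain ⟨b', -, hc⟩ := Finset.exists_ne_zero_of_sum_ne_zero hτ
      have e1 := hκ.1 τ b' (right_ne_zero_of_mul hc)
      have e2 := S.ρ_deg (X.c_mem σ τ) b' b (left_ne_zero_of_mul hc)
      omega
    · rw [Matrix.mulVec, dotProduct] at h1
      obtain ⟨b', -, hc⟩ := Finset.exists_ne_zero_of_sum_ne_zero h1
      have e1 := hκ.1 σ b' (right_ne_zero_of_mul hc)
      have e2 := S.δ_deg b' b (left_ne_zero_of_mul hc)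
      omega
  · rw [dZ_apply, Matrix.mulVec_add, Matrix.mulVec_mulVec, ← ρ_comm S X σ,
      ← Matrix.mulVec_mulVec, hκ.2, Matrix.mulVec_sum]
    congr 1
    refine Finset.sum_congr rfl fun τ _ => ?_
    rw [Matrix.mulVec_mulVec, ← map_mul, X.c_left]

theorem dZ_dZ (κ : X.ι → S.β → K) : dZ S X (dZ S X κ) = 0 := by
  funext σ
  rw [dZ_apply]
  simp only [dZ_apply, Matrix.mulVec_add, Matrix.mulVec_sum, Matrix.mulVec_mulVec, S.δδ,
    Matrix.zero_mulVec, zero_add, Finset.sum_add_distrib, Pi.zero_apply]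
  have e1 : ∑ τ ∈ X.F (X.s σ), ∑ ω ∈ X.F (X.s τ), (S.ρ (X.c σ τ) * S.ρ (X.c τ ω)) *ᵥ κ ω =
      ∑ ω ∈ X.F (X.s σ), S.ρ (A.D (X.c σ ω)) *ᵥ κ ω := by
    have e2 : ∀ τ ∈ X.F (X.s σ), ∑ ω ∈ X.F (X.s τ), (S.ρ (X.c σ τ) * S.ρ (X.c τ ω)) *ᵥ κ ω =
        ∑ ω ∈ X.F (X.s σ), (S.ρ (X.c σ τ) * S.ρ (X.c τ ω)) *ᵥ κ ω := fun τ hτ => by
      refine Finset.sum_subset (fun ω hω => ?_) fun ω _ hω => ?_
      · rw [X.mem_F] at hτ hω ⊢
        omega
      · rw [X.mem_F] at hω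
        rw [X.c_zero (σ := τ) (τ := ω) (by omega), map_zero, Matrix.mul_zero,
          Matrix.zero_mulVec]
    rw [Finset.sum_congr rfl e2, Finset.sum_comm]
    refine Finset.sum_congr rfl fun ω _ => ?_
    rw [← Matrix.sum_mulVec]
    congr 1
    have e3 : ∑ τ ∈ X.F (X.s σ), X.c σ τ * X.c τ ω = A.D (X.c σ ω) := by
      have h1 := X.mc σ ω
      have h2 := A.two (A.D (X.c σ ω))
      exact add_left_cancel (h1.trans h2.symm)
    rw [← e3, map_sum]
    simp only [map_mul]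
  rw [e1]
  have e4 : ∑ ω ∈ X.F (X.s σ), S.ρ (A.D (X.c σ ω)) *ᵥ κ ω =
      ∑ ω ∈ X.F (X.s σ), (S.δ * S.ρ (X.c σ ω)) *ᵥ κ ω +
        ∑ ω ∈ X.F (X.s σ), (S.ρ (X.c σ ω) * S.δ) *ᵥ κ ω := by
    rw [← Finset.sum_add_distrib]
    refine Finset.sum_congr rfl fun ω _ => ?_
    rw [S.ρ_D, Matrix.add_mulVec]
  rw [e4]
  have h1 := dblρ S (∑ ω ∈ X.F (X.s σ), (S.δ * S.ρ (X.c σ ω)) *ᵥ κ ω)
  have h2 := dblρ S (∑ ω ∈ X.F (X.s σ), (S.ρ (X.c σ ω) * S.δ) *ᵥ κ ω)
  generalize (∑ ω ∈ X.F (X.s σ), (S.δ * S.ρ (X.c σ ω)) *ᵥ κ ω) = a at *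
  generalize (∑ ω ∈ X.F (X.s σ), (S.ρ (X.c σ ω) * S.δ) *ᵥ κ ω) = b at *
  calc a + (b + (a + b)) = (a + a) + (b + b) := by abel
    _ = 0 := by rw [h1, h2, add_zero]

theorem col (t : X.ι → Matrix S.β S.γ K) (σ : X.ι) (b : S.β) (c : S.γ) :
    (S.dJ (t σ) + ∑ τ ∈ X.F (X.s σ), S.ρ (X.c σ τ) * t τ) b c =
      dZ S X (fun τ b' => t τ b' c) σ b + ∑ c', t σ b c' * S.ε c' c := by
  rw [dZ_apply, Data.dJ_apply, Matrix.add_apply, Matrix.add_apply, Matrix.sum_apply,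
    Pi.add_apply, Finset.sum_apply, Matrix.mul_apply, Matrix.mul_apply]
  simp only [Matrix.mul_apply, Matrix.mulVec, dotProduct]
  abel

/-- **(JK)** -/
theorem JK (kt : X.ι → S.β → K) (kt_d : dZ S X kt = 0) (kt_ne : kt ≠ 0)
    (KX : ∀ (p : ℤ) (κ : X.ι → S.β → K), κ ∈ Z S X p → dZ S X κ = 0 →
      ∃ ψ ∈ Z S X (p - 1), ∃ r : K, (p ≠ 0 → r = 0) ∧ κ = r • kt + dZ S X ψ)
    (p : ℤ) (t : X.ι → Matrix S.β S.γ K) (ht : ∀ σ, t σ ∈ S.J ((X.s σ : ℤ) - p))
    (he : ∀ σ, S.ρ (X.e σ) * t σ = t σ)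
    (hd : ∀ σ, S.dJ (t σ) + ∑ τ ∈ X.F (X.s σ), S.ρ (X.c σ τ) * t τ = 0) :
    ∃ (t' : X.ι → Matrix S.β S.γ K) (η : S.γ → K),
      (∀ σ, t' σ ∈ S.J ((X.s σ : ℤ) - p + 1)) ∧ (∀ σ, S.ρ (X.e σ) * t' σ = t' σ) ∧
      (∀ c, η c ≠ 0 → S.dh c = -p - 1) ∧ η ᵥ* S.ε = 0 ∧
      ∀ σ, t σ = S.dJ (t' σ) + ∑ τ ∈ X.F (X.s σ), S.ρ (X.c σ τ) * t' τ +
        vecMulVec (kt σ) η := by
  obtain ⟨h, h1, h2⟩ := HomA462.exists_homotopy (K := K) (fun p => Z S X p)
    (fun q => if q = 0 then Submodule.span K {kt} else ⊥) (fun _ => dZ S X)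
    (fun _ x _ => dZ_dZ S X x) (fun q x hx hdx => by
      obtain ⟨ψ, hψ, r, hr, e⟩ := KX (q + 1) x hx hdx
      refine ⟨ψ, by rwa [add_sub_cancel_right] at hψ, ?_⟩
      rw [e, add_sub_cancel_right]
      by_cases hq : q + 1 = 0
      · rw [if_pos hq]
        exact Submodule.smul_mem _ _ (Submodule.mem_span_singleton_self _)
      · rw [if_neg hq, hr hq, zero_smul]
        exact Submodule.zero_mem _)
  set y : S.γ → (X.ι → S.β → K) := fun c σ b => t σ b c with hy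
  have hyZ : ∀ c, y c ∈ Z S X (p + S.dh c + 1) := fun c => by
    refine ⟨fun σ b hc => ?_, fun σ => ?_⟩
    · have := ht σ b c hc
      omega
    · funext b
      have := congrFun (congrFun (he σ) b) c
      rw [Matrix.mul_apply] at this
      exact this
  set z : S.γ → (X.ι → S.β → K) := fun c => h (p + S.dh c) (y c) with hz
  have hzZ : ∀ c, z c ∈ Z S X (p + S.dh c) := fun c => h1 _ _
  have hcol : ∀ c, dZ S X (y c) = ∑ c', S.ε c' c • y c' := fun c => by
    funext σ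
    have h3 : dZ S X (y c) σ + (∑ c', S.ε c' c • y c') σ = 0 := by
      funext b
      have := congrFun (congrFun (hd σ) b) c
      rw [col S X t σ b c] at this
      have e : ∑ c', t σ b c' * S.ε c' c = (∑ c', S.ε c' c • y c') σ b := by
        rw [Finset.sum_apply, Finset.sum_apply]
        exact Finset.sum_congr rfl fun _ _ => mul_comm _ _
      rw [e] at this
      exact this
    have h4 := dblρ S ((∑ c', S.ε c' c • y c') σ)
    exact add_right_cancel (h3.trans h4.symm)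
  have hl : ∀ c, ∃ r : K, (r ≠ 0 → S.dh c = -p - 1) ∧
      y c = dZ S X (z c) + ∑ c', S.ε c' c • z c' + r • kt := fun c => by
    have h3 := h2 (p + S.dh c) (y c) (hyZ c)
    rw [hcol c, map_sum] at h3
    have h4 : ∑ c', h (p + S.dh c + 1) (S.ε c' c • y c') = ∑ c', S.ε c' c • z c' := by
      refine Finset.sum_congr rfl fun c' _ => ?_
      rw [map_smul]
      by_cases h0 : S.ε c' c = 0
      · rw [h0, zero_smul, zero_smul]
      · have := S.ε_deg c' c h0
        rw [hz]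
        simp only
        rw [show p + S.dh c' = p + S.dh c + 1 by omega]
    rw [h4] at h3
    by_cases hq : p + S.dh c + 1 = 0
    · rw [if_pos hq, Submodule.mem_span_singleton] at h3
      obtain ⟨r, hr⟩ := h3
      refine ⟨r, fun _ => by omega, ?_⟩
      rw [hr]
      simp only [hz]
      abel
    · rw [if_neg hq, Submodule.mem_bot, sub_eq_zero] at h3
      refine ⟨0, fun h0 => absurd rfl h0, ?_⟩
      rw [zero_smul, add_zero]
      exact h3
  choose η hη1 hη2 using hl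
  refine ⟨fun σ => Matrix.of fun b c => z c σ b, η, fun σ b c hc => ?_, fun σ => ?_, hη1, ?_,
    fun σ => ?_⟩
  · have := (hzZ c).1 σ b hc
    omega
  · ext b c
    rw [Matrix.mul_apply]
    exact congrFun ((hzZ c).2 σ) b
  · funext c
    -- apply `dZ` to the formula of column `c`
    have e1 := congrArg (dZ S X) (hη2 c)
    rw [map_add, map_add, dZ_dZ, zero_add, map_smul, kt_d, smul_zero, add_zero, hcol c, map_sum]
      at e1
    have e2 : ∑ c', S.ε c' c • y c' = ∑ c', S.ε c' c • dZ S X (z c') +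
        ∑ c', S.ε c' c • ∑ c'', S.ε c'' c' • z c'' + (∑ c', S.ε c' c * η c') • kt := by
      rw [Finset.sum_smul, ← Finset.sum_add_distrib, ← Finset.sum_add_distrib]
      refine Finset.sum_congr rfl fun c' _ => ?_
      conv_lhs => rw [hη2 c']
      rw [smul_add, smul_add, smul_smul]
    have e3 : ∑ c', S.ε c' c • ∑ c'', S.ε c'' c' • z c'' = 0 := by
      simp only [Finset.smul_sum, smul_smul]
      rw [Finset.sum_comm]
      refine Finset.sum_eq_zero fun c'' _ => ?_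
      rw [← Finset.sum_smul]
      have := congrFun (congrFun S.εε c'') c
      rw [Matrix.mul_apply] at this
      have e : ∑ c', S.ε c' c * S.ε c'' c' = 0 := by
        rw [← Matrix.zero_apply c'' c, ← this]
        exact Finset.sum_congr rfl fun _ _ => mul_comm _ _
      rw [e, zero_smul]
    rw [e2, e3, add_zero] at e1
    simp only [map_smul] at e1
    have e4 : (∑ c', S.ε c' c * η c') • kt = 0 := by
      have := e1
      rwa [add_eq_left] at this
    have e5 : ∑ c', S.ε c' c * η c' = 0 := (smul_eq_zero.1 e4).resolve_right kt_ne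
    rw [Matrix.vecMul, dotProduct, Pi.zero_apply, ← e5]
    exact Finset.sum_congr rfl fun _ _ => mul_comm _ _
  · ext b c
    rw [Matrix.add_apply]
    have h3 := col S X (fun σ => Matrix.of fun b c => z c σ b) σ b c
    rw [h3]
    have h5 := congrFun (congrFun (hη2 c) σ) b
    simp only [Pi.add_apply, Finset.sum_apply, Pi.smul_apply, smul_eq_mul] at h5
    simp only [Matrix.of_apply, vecMulVec_apply]
    rw [mul_comm (kt σ b)]
    simp only [mul_comm (z _ _ _)]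
    exact h5

end Crest.Agent.R186.ConeHyp462
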