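import Crest.Agent.R186.HatD_827

/-!
Row 186, leaf HAT, part 6 (helper827): **the transfer theorem**: a strict dg algebra `C`
(characteristic `2`, finite dimensional, degrees `[-N, 0]`) with a module `V` and a semi-free
resolution satisfying the exactness statements `exR, exR0, exV, exC` gives a null pair.
-/

set_option autoImplicit false
set_option linter.style.haveILetI false

open CategoryTheory CategoryTheory.Abelian

namespace Crest.Agent.R186.Hat827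

variable {K : Type} [Field K]

open DGA

namespace Cells

variable {A : DGA K} (R : Cells A)

/-- the terms of the resolution -/
def T (m : ℕ) : Submodule A.Hat (R.ι → A.Hat) where
  carrier := {x | ∀ σ, x σ * R.ep m σ = x σ}
  add_mem' := by
    intro x y hx hy σ
    change (x σ + y σ) * _ = x σ + y σ
    rw [add_mul, hx σ, hy σ]
  zero_mem' := fun σ => zero_mul _
  smul_mem' := by
    intro a x hx σ
    change (a * x σ) * _ = a * x σ
    rw [mul_assoc, hx σ]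

instance (m : ℕ) : AddCommGroup (R.T m) := Submodule.addCommGroup _
instance (m : ℕ) : Module A.Hat (R.T m) := Submodule.module _
noncomputable instance (priority := 2000) instSMulT (m : ℕ) : SMul A.Hat (R.T m) :=
  (Submodule.module (R.T m)).toSMul

theorem mem_T {m : ℕ} {x : R.ι → A.Hat} : x ∈ R.T m ↔ ∀ σ, x σ * R.ep m σ = x σ := Iff.rfl

theorem T_out {m : ℕ} {x : R.ι → A.Hat} (hx : x ∈ R.T m) {σ : R.ι} (h : σ ∉ R.F m) :
    x σ = 0 := by
  rw [← hx σ, R.ep_out, mul_zero]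
  rw [R.mem_F] at h
  unfold inr pos
  omega

open Classical in
/-- basis elements -/
noncomputable def bas (m : ℕ) (σ : R.ι) : R.T m :=
  ⟨Pi.single σ (R.ep m σ), by
    intro τ
    by_cases h : τ = σ
    · subst h
      rw [Pi.single_eq_same, R.ep_idem]
    · rw [Pi.single_eq_of_ne h, zero_mul]⟩

theorem bas_sum {m : ℕ} (x : R.T m) : x = ∑ σ ∈ R.F m, x.1 σ • R.bas m σ := by
  classical
  apply Subtype.ext
  funext τ
  rw [AddSubmonoidClass.coe_finsetSum, Finset.sum_apply]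
  change x.1 τ = ∑ σ ∈ R.F m, x.1 σ * (Pi.single σ (R.ep m σ) : R.ι → A.Hat) τ
  by_cases h : τ ∈ R.F m
  · rw [Finset.sum_eq_single τ]
    · rw [Pi.single_eq_same, x.2 τ]
    · intro σ _ hσ
      rw [Pi.single_eq_of_ne (Ne.symm hσ), mul_zero]
    · intro h'
      exact absurd h h'
  · rw [R.T_out x.2 h]
    symm
    refine Finset.sum_eq_zero fun σ hσ => ?_
    rw [Pi.single_eq_of_ne (by rintro rfl; exact h hσ), mul_zero]

/-- maps out of `T m` -/
noncomputable def lift {m : ℕ} {M : Type} [AddCommGroup M] [Module A.Hat M] (φ : R.ι → M) :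
    R.T m →ₗ[A.Hat] M where
  toFun x := ∑ σ ∈ R.F m, x.1 σ • φ σ
  map_add' x y := by
    rw [← Finset.sum_add_distrib]
    exact Finset.sum_congr rfl fun σ _ => add_smul _ _ _
  map_smul' a x := by
    rw [RingHom.id_apply, Finset.smul_sum]
    exact Finset.sum_congr rfl fun σ _ => mul_smul _ _ _

theorem lift_apply {m : ℕ} {M : Type} [AddCommGroup M] [Module A.Hat M] (φ : R.ι → M)
    (x : R.T m) : R.lift φ x = ∑ σ ∈ R.F m, x.1 σ • φ σ := rfl

theorem map_eq {m : ℕ} {M : Type} [AddCommGroup M] [Module A.Hat M] (f : R.T m →ₗ[A.Hat] M)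
    (x : R.T m) : f x = ∑ σ ∈ R.F m, x.1 σ • f (R.bas m σ) := by
  conv_lhs => rw [R.bas_sum x, map_sum]
  exact Finset.sum_congr rfl fun σ _ => f.map_smul _ _

theorem ep_bas {m : ℕ} (σ : R.ι) : R.ep m σ • R.bas m σ = R.bas m σ := by
  classical
  apply Subtype.ext
  funext τ
  change R.ep m σ * (Pi.single σ (R.ep m σ) : R.ι → A.Hat) τ = _
  change _ = (Pi.single σ (R.ep m σ) : R.ι → A.Hat) τ
  by_cases h : τ = σ
  · subst h
    rw [Pi.single_eq_same, R.ep_idem]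
  · rw [Pi.single_eq_of_ne h, mul_zero]

instance (m : ℕ) : Module.Projective A.Hat (R.T m) := by
  classical
  refine Module.Projective.of_split (P := R.T m) (M := R.F m → A.Hat)
    { toFun := fun x σ => x.1 σ.1
      map_add' := fun _ _ => rfl
      map_smul' := fun _ _ => rfl }
    { toFun := fun z => ⟨fun σ => if h : σ ∈ R.F m then z ⟨σ, h⟩ * R.ep m σ else 0, ?_⟩
      map_add' := ?_
      map_smul' := ?_ } ?_
  · intro σ
    dsimp only
    split
    · rw [mul_assoc, R.ep_idem]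
    · rw [zero_mul]
  · intro z z'
    apply Subtype.ext
    funext σ
    change (if h : σ ∈ R.F m then (z ⟨σ, h⟩ + z' ⟨σ, h⟩) * R.ep m σ else 0) =
      (if h : σ ∈ R.F m then z ⟨σ, h⟩ * R.ep m σ else 0) +
      (if h : σ ∈ R.F m then z' ⟨σ, h⟩ * R.ep m σ else 0)
    split
    · rw [add_mul]
    · rw [add_zero]
  · intro a z
    apply Subtype.ext
    funext σ
    change (if h : σ ∈ R.F m then (a * z ⟨σ, h⟩) * R.ep m σ else 0) =
      a * (if h : σ ∈ R.F m then z ⟨σ, h⟩ * R.ep m σ else 0)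
    split
    · rw [mul_assoc]
    · rw [mul_zero]
  · apply LinearMap.ext
    intro x
    apply Subtype.ext
    funext σ
    change (if h : σ ∈ R.F m then x.1 σ * R.ep m σ else 0) = x.1 σ
    split
    · exact x.2 σ
    · next h => exact (R.T_out x.2 h).symm

theorem dm_ep' (m : ℕ) (σ τ : R.ι) : R.dm m σ τ * R.ep m τ = R.dm m σ τ := R.dm_ep m σ τ

/-- the differential -/
noncomputable def d (m : ℕ) : R.T (m + 1) →ₗ[A.Hat] R.T m where
  toFun x := ⟨fun τ => ∑ σ ∈ R.F (m + 1), x.1 σ * R.dm m σ τ, by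
    intro τ
    dsimp only
    rw [Finset.sum_mul]
    exact Finset.sum_congr rfl fun σ _ => by rw [mul_assoc, R.dm_ep]⟩
  map_add' x y := by
    apply Subtype.ext
    funext τ
    change ∑ σ ∈ R.F (m + 1), (x.1 σ + y.1 σ) * R.dm m σ τ = _ + _
    rw [← Finset.sum_add_distrib]
    exact Finset.sum_congr rfl fun σ _ => add_mul _ _ _
  map_smul' a x := by
    apply Subtype.ext
    funext τ
    change ∑ σ ∈ R.F (m + 1), (a * x.1 σ) * R.dm m σ τ = a * _
    rw [Finset.mul_sum]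
    exact Finset.sum_congr rfl fun σ _ => mul_assoc _ _ _

theorem d_apply (m : ℕ) (x : R.T (m + 1)) (τ : R.ι) :
    (R.d m x).1 τ = ∑ σ ∈ R.F (m + 1), x.1 σ * R.dm m σ τ := rfl

theorem cast_ep (m : ℕ) (σ : R.ι) : R.ep ((m + 1 : ℕ) : ℤ) σ = R.ep ((m : ℤ) + 1) σ := rfl

theorem cast_dm (m : ℕ) (σ τ : R.ι) : R.dm ((m + 1 : ℕ) : ℤ) σ τ = R.dm ((m : ℤ) + 1) σ τ := rfl

theorem d_d (m : ℕ) (x : R.T (m + 2)) : R.d m (R.d (m + 1) x) = 0 := by
  apply Subtype.ext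
  funext τ
  rw [d_apply]
  change ∑ ρ ∈ R.F (m + 1), (∑ σ ∈ R.F (m + 2), x.1 σ * R.dm ((m : ℤ) + 1) σ ρ) * R.dm m ρ τ = 0
  simp only [Finset.sum_mul]
  rw [Finset.sum_comm]
  refine Finset.sum_eq_zero fun σ hσ => ?_
  simp only [mul_assoc]
  rw [← Finset.mul_sum, R.dm_dm, mul_zero]
  intro ρ hρ
  rw [R.dm_out (m := m + 1) (Or.inr ?_), zero_mul]
  rw [R.mem_F] at hρ
  unfold inr pos
  omega

/-- normal forms of the components of a chain -/
theorem chain_form (m : ℤ) (x : R.ι → A.Hat) (hx : ∀ σ, x σ * R.ep m σ = x σ) :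
    ∃ a b : R.ι → ℤ → A.C, (∀ σ, (x σ).1 = A.col (R.pos σ m) (a σ) (b σ)) ∧
      (∀ σ j, a σ j ∈ A.G (j - R.pos σ m)) ∧ (∀ σ j, b σ j ∈ A.G (j - R.pos σ m + 1)) ∧
      (∀ σ j, a σ j * R.e σ = a σ j) ∧ (∀ σ j, b σ j * R.e σ = b σ j) ∧
      (∀ σ, ¬ A.inr (R.pos σ m) → a σ = 0 ∧ b σ = 0) ∧ (∀ σ, R.pos σ m = 0 → b σ = 0) ∧
      (∀ σ, b σ A.n = 0) := by
  have hc := fun σ => exists_col (x σ) (i := R.pos σ m) (R.e_mem σ) (R.e_idem σ)
    (congrArg Subtype.val (hx σ))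
  choose a b h1 h2 h3 h4 h5 h6 h7 h8 using hc
  exact ⟨a, b, h1, h2, h3, h4, h5, h6, h7, h8⟩

theorem exact_aux (m : ℕ) (x : R.ι → A.Hat) (hx : ∀ σ, x σ * R.ep ((m : ℤ) + 1) σ = x σ)
    (hd : ∀ τ, ∑ σ ∈ R.F (m + 1), x σ * R.dm m σ τ = 0) :
    ∃ y : R.ι → A.Hat, (∀ σ, y σ * R.ep ((m : ℤ) + 1 + 1) σ = y σ) ∧
      ∀ τ, x τ = ∑ σ ∈ R.F (m + 2), y σ * R.dm ((m : ℤ) + 1) σ τ := by
  classical
  have hn1 : 0 < A.n := Nat.succ_pos _
  obtain ⟨a, b, hab, ha, hb, hea, heb, hout, hzero, hlast⟩ :=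
    R.chain_form ((m : ℤ) + 1) x hx
  have hin : ∀ σ, A.inr (R.pos σ ((m : ℤ) + 1)) ∨ (a σ = 0 ∧ b σ = 0) := fun σ => by
    by_cases h : A.inr (R.pos σ ((m : ℤ) + 1))
    · exact Or.inl h
    · exact Or.inr (hout σ h)
  have hoF : ∀ σ, σ ∉ R.F (m + 1) → ¬ A.inr (R.pos σ ((m : ℤ) + 1)) := by
    intro σ h
    rw [R.mem_F] at h
    unfold inr pos
    omega
  have hSa : ∀ σ, σ ∉ R.F (m + 1) → a σ = 0 := fun σ h => (hout σ (hoF σ h)).1
  have hSb : ∀ σ, σ ∉ R.F (m + 1) → b σ = 0 := fun σ h => (hout σ (hoF σ h)).2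
  have hp1 : ∀ σ, R.pos σ ((m : ℤ) + 1) = R.pos σ m - 1 := fun σ => by unfold pos; ring
  have hcol : ∀ τ, A.col (R.pos τ m)
      (fun j => ∑ σ ∈ R.F (m + 1), (a σ j * R.c σ τ + b σ j * A.D (R.c σ τ)))
      (fun j => a τ j + ∑ σ ∈ R.F (m + 1), b σ j * R.c σ τ) = 0 := by
    intro τ
    rw [← R.col_dm (m : ℤ) (R.F (m + 1)) x a b hab ha hb hea hin hSa τ, hd τ]
    rfl
  have hchg : ∀ (f : R.ι → A.C), (∀ σ, σ ∉ R.F (m + 1) → f σ = 0) →
      ∑ σ ∈ R.F (m + 2), f σ = ∑ σ ∈ R.F (m + 1), f σ := by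
    intro f hf
    refine sum_eq_sum (fun σ _ h => hf σ h) (fun σ h h' => ?_)
    exfalso
    rw [R.mem_F] at h h'
    omega
  have hmem : ∀ τ, A.D (a τ A.n) + ∑ σ ∈ R.F (m + 1), a σ A.n * R.c σ τ ∈
      A.G ((A.n : ℤ) - R.pos τ m) := by
    intro τ
    refine Submodule.add_mem _ ?_ (Submodule.sum_mem _ fun σ _ => ?_)
    · have := A.D_mem (ha τ A.n)
      rwa [show (A.n : ℤ) - R.pos τ ((m : ℤ) + 1) - 1 = A.n - R.pos τ m by rw [hp1]; ring] at this
    · have := A.mul_mem (ha σ A.n) (R.dm_rep m σ τ).1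
      rwa [show (A.n : ℤ) - R.pos σ ((m : ℤ) + 1) + (R.pos σ ((m : ℤ) + 1) - R.pos τ m) =
        A.n - R.pos τ m by ring] at this
  obtain ⟨y', hy1, hy2, hy3⟩ := R.exR m (fun σ => a σ A.n)
    (fun σ => by
      have := ha σ A.n
      unfold pos at this
      rwa [show (A.n : ℤ) - (R.s σ + A.n - ((m : ℤ) + 1)) = (m : ℤ) + 1 - R.s σ by ring] at this)
    (fun σ => hea σ A.n)
    (fun τ => by
      have hm := hmem τ
      by_cases h1 : R.pos τ m ≤ 0
      · exact big hm (by omega)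
      by_cases h2 : (A.n : ℤ) < R.pos τ m
      · exact neg hm (by omega)
      have h3 := (col_coord (hcol τ) (by omega) (by omega)).2
      rw [add_comm]
      refine Eq.trans ?_ h3
      congr 1
      · exact Finset.sum_congr rfl fun σ _ => by rw [hlast σ, zero_mul, add_zero]
      · rw [Finset.sum_eq_zero (s := R.F (m + 1)) (fun σ _ => by rw [hlast σ, zero_mul]),
          add_zero])
  obtain ⟨y, hy4, hy5⟩ := R.col_build ((m : ℤ) + 1) (R.F (m + 2))
    (fun τ h => by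
      rw [R.mem_F] at h
      unfold inr pos
      omega)
    a b ha hb heb (fun σ h => (hout σ h).2) hzero hlast
    (fun τ j h1 h2 h3 h4 => by
      have h5 := (col_coord (hcol τ) (by rw [hp1] at h1; omega) (by rw [hp1] at h2; omega)).1 j
        h3 h4
      rw [hchg _ (fun σ h => by rw [hSb σ h]; exact zero_mul _)]
      exact eq_of_add h5)
    y' (fun σ => by
      have := hy1 σ
      rwa [show (m : ℤ) + 2 - R.s σ = (m : ℤ) + 1 + 1 - R.s σ by ring] at this)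
    hy2 hy3
  refine ⟨y, hy4, fun τ => ?_⟩
  apply Subtype.ext
  rw [hab τ, hy5 τ]

theorem exact_T (m : ℕ) (x : R.T (m + 1)) (hx : R.d m x = 0) : ∃ y, R.d (m + 1) y = x := by
  obtain ⟨y, hy1, hy2⟩ := R.exact_aux m x.1 x.2 (fun τ => by
    rw [← R.d_apply, hx]
    rfl)
  refine ⟨⟨y, hy1⟩, ?_⟩
  apply Subtype.ext
  funext τ
  rw [hy2 τ, R.d_apply]
  rfl

theorem exact_T' (m : ℕ) (x : R.T (m + 1)) : R.d m x = 0 ↔ ∃ y, R.d (m + 1) y = x := by
  constructor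
  · exact R.exact_T m x
  · rintro ⟨y, rfl⟩
    exact R.d_d m y

/-! ### the augmentation -/

/-- the generators in the hat module -/
def vh (σ : R.ι) : R.Vh := R.v σ

/-- the augmentation `T 0 → V` -/
noncomputable def aug : R.T 0 →ₗ[A.Hat] R.Vh := R.lift (M := R.Vh) R.vh

theorem aug_apply (x : R.T 0) :
    (show R.V from R.aug x) = ∑ σ ∈ R.F 0, ev (x.1 σ) • R.v σ := rfl

theorem ev_col {i : ℤ} (a b : ℤ → A.C) (X : A.Hat) (hX : X.1 = A.col i a b) :
    ev X = if i = A.n then a A.n + A.D (b A.n) else 0 := by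
  unfold ev
  rw [hX]
  unfold col
  rw [mat_last]
  by_cases h : (A.n : ℤ) = i
  · rw [if_pos h, if_pos h, if_pos h.symm]
  · rw [if_neg h, if_neg h, if_neg (Ne.symm h), map_zero, add_zero]

theorem ev_sg {j i : ℤ} (u v : A.C) (X : A.Hat) (hX : X.1 = A.sg j i u v) :
    ev X = if j = A.n ∧ i = A.n then u + A.D v else 0 := by
  unfold ev
  rw [hX]
  unfold sg
  rw [mat_last]
  by_cases h : (A.n : ℤ) = j ∧ (A.n : ℤ) = i
  · rw [if_pos h, if_pos h, if_pos ⟨h.1.symm, h.2.symm⟩]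
  · rw [if_neg h, if_neg h, if_neg (fun h' => h ⟨h'.1.symm, h'.2.symm⟩), map_zero, add_zero]

theorem F0 {σ : R.ι} (h : σ ∈ R.F 0) : R.s σ = 0 := by
  rw [R.mem_F] at h
  omega

theorem aug_surj : Function.Surjective R.aug := by
  intro w
  obtain ⟨x, hx, hw⟩ := R.gen w
  have hxe : ∀ σ, x σ * R.e σ ∈ A.G (R.pos σ 0 - R.pos σ 0) := by
    intro σ
    have h1 := A.mul_mem (hx σ) (R.e_mem σ)
    by_cases h : R.s σ = 0
    · simpa [h] using h1
    · rw [neg h1 (by omega)]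
      exact Submodule.zero_mem _
  refine ⟨⟨fun σ => hmk (Rep.sg (j := R.pos σ 0) (i := R.pos σ 0) (u := x σ * R.e σ) (v := 0)
    (hxe σ) (Submodule.zero_mem _)), ?_⟩, ?_⟩
  · intro σ
    apply Subtype.ext
    change A.sg _ _ _ _ * (R.ep 0 σ).1 = A.sg _ _ _ _
    rw [ep_val]
    by_cases h : A.inr (R.pos σ 0)
    · rw [sg_mul_sg (hxe σ) (Submodule.zero_mem _) (by simpa using R.e_mem σ)
        (Submodule.zero_mem _) h]
      congr 1
      · rw [mul_assoc, R.e_idem, zero_mul, add_zero]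
      · simp
    · rw [sg_out (Or.inl h), zero_mul]
  · rw [← hw]
    refine Finset.sum_congr rfl fun σ hσ => ?_
    have h1 := ev_sg (A := A) (x σ * R.e σ) 0
      (hmk (Rep.sg (j := R.pos σ 0) (i := R.pos σ 0) (hxe σ) (Submodule.zero_mem _))) rfl
    have h2 : R.pos σ 0 = A.n ∧ R.pos σ 0 = A.n := by
      have := R.F0 hσ
      unfold pos
      omega
    rw [if_pos h2, map_zero, add_zero] at h1
    refine (congrArg (fun z : A.C => z • R.v σ) h1).trans ?_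
    rw [mul_smul, R.v_e]

theorem dm_v (σ : R.ι) : ∑ τ ∈ R.F 0, R.dm 0 σ τ • R.vh τ = 0 := by
  classical
  change ∑ τ ∈ R.F 0, ev (R.dm 0 σ τ) • R.v τ = 0
  have h1 : ∀ τ ∈ R.F 0, ev (R.dm 0 σ τ) • R.v τ =
      if R.s σ = 1 then R.c σ τ • R.v τ else 0 := by
    intro τ hτ
    rw [ev_sg _ _ _ (R.dm_val 0 σ τ)]
    have h2 := R.F0 hτ
    by_cases h3 : R.s σ = 1
    · rw [if_pos h3, if_pos, if_neg, map_zero, add_zero]
      · rintro rfl; omega
      · unfold pos; omega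
    · rw [if_neg h3, if_neg, zero_smul]
      unfold pos
      omega
  rw [Finset.sum_congr rfl h1]
  by_cases h3 : R.s σ = 1
  · simp only [if_pos h3]
    exact R.v_aug σ h3
  · simp only [if_neg h3, Finset.sum_const_zero]

theorem aug_d (y : R.T 1) : R.aug (R.d 0 y) = 0 := by
  classical
  have h0 : R.aug (R.d 0 y) = ∑ τ ∈ R.F 0, ((∑ σ ∈ R.F 1, y.1 σ * R.dm 0 σ τ) • R.vh τ) := rfl
  rw [h0]
  simp only [Finset.sum_smul, mul_smul]
  rw [Finset.sum_comm]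
  refine Finset.sum_eq_zero fun σ hσ => ?_
  rw [← Finset.smul_sum, R.dm_v, smul_zero]

theorem exact_0 (x : R.T 0) (hx : R.aug x = 0) : ∃ y, R.d 0 y = x := by
  classical
  have hn1 : 0 < A.n := Nat.succ_pos _
  obtain ⟨a, b, hab, ha, hb, hea, heb, hout, hzero, hlast⟩ :=
    R.chain_form 0 x.1 x.2
  have hx' : ∑ σ ∈ R.F 0, a σ A.n • R.v σ = 0 := by
    have h1 : ∑ σ ∈ R.F 0, ev (x.1 σ) • R.v σ = 0 := hx
    rw [← h1]
    refine Finset.sum_congr rfl fun σ hσ => ?_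
    rw [ev_col _ _ _ (hab σ), if_pos, hlast σ, map_zero, add_zero]
    have := R.F0 hσ
    unfold pos
    omega
  obtain ⟨y', hy1, hy2, hy3⟩ := R.exR0 (fun σ => a σ A.n)
    (fun σ => by
      have := ha σ A.n
      unfold pos at this
      rwa [show (A.n : ℤ) - (R.s σ + A.n - 0) = -(R.s σ : ℤ) by ring] at this)
    (fun σ => hea σ A.n) hx'
  obtain ⟨y, hy4, hy5⟩ := R.col_build 0 (R.F 1)
    (fun τ h => by
      rw [R.mem_F] at h
      unfold inr pos
      omega)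
    a b ha hb heb (fun σ h => (hout σ h).2) hzero hlast
    (fun τ j h1 h2 h3 h4 => by
      exfalso
      unfold pos at h2
      omega)
    y' (fun σ => by
      have := hy1 σ
      rwa [show (1 : ℤ) - R.s σ = 0 + 1 - R.s σ by ring] at this)
    hy2 hy3
  refine ⟨⟨y, hy4⟩, ?_⟩
  apply Subtype.ext
  funext τ
  apply Subtype.ext
  rw [hab τ, hy5 τ]
  rfl

theorem exact_0' (x : R.T 0) : R.aug x = 0 ↔ ∃ y, R.d 0 y = x := by
  constructor
  · exact R.exact_0 x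
  · rintro ⟨y, rfl⟩
    exact R.aug_d y

/-! ### `Ext` -/

theorem d_bas (m : ℕ) (σ τ : R.ι) : (R.d m (R.bas (m + 1) σ)).1 τ = R.dm m σ τ := by
  classical
  rw [d_apply]
  change ∑ ρ ∈ R.F (m + 1), (Pi.single σ (R.ep ((m + 1 : ℕ) : ℤ) σ) : R.ι → A.Hat) ρ *
    R.dm m ρ τ = _
  by_cases h : σ ∈ R.F (m + 1)
  · rw [Finset.sum_eq_single σ]
    · rw [Pi.single_eq_same, cast_ep, R.ep_dm]
    · intro ρ _ hρ
      rw [Pi.single_eq_of_ne hρ, zero_mul]
    · intro h'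
      exact absurd h h'
  · rw [R.dm_out (Or.inl ?_)]
    · refine Finset.sum_eq_zero fun ρ hρ => ?_
      rw [Pi.single_eq_of_ne (by rintro rfl; exact h hρ), zero_mul]
    · rw [R.mem_F] at h
      unfold inr pos
      omega

/-- the criterion -/
theorem ext_crit (m : ℕ) (M : Type) [AddCommGroup M] [Module A.Hat M]
    (h : ∀ φ : R.ι → M, (∀ σ, R.ep ((m : ℤ) + 1) σ • φ σ = φ σ) →
      (∀ σ, ∑ τ ∈ R.F (m + 1), R.dm ((m : ℤ) + 1) σ τ • φ τ = 0) →
      ∃ ψ : R.ι → M, ∀ σ, φ σ = ∑ τ ∈ R.F m, R.dm m σ τ • ψ τ) :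
    Subsingleton (Ext (ModuleCat.of A.Hat R.Vh) (ModuleCat.of A.Hat M) (m + 1)) := by
  classical
  refine Res827.ext_of_res (A := A.Hat) m (fun m => R.T m) (fun m => R.d m) R.exact_T' R.Vh
    R.aug R.aug_surj R.exact_0' M ?_
  intro f hf
  obtain ⟨ψ, hψ⟩ := h (fun σ => f (R.bas (m + 1) σ))
    (fun σ => by
      have := R.ep_bas (m := m + 1) σ
      rw [cast_ep] at this
      rw [← f.map_smul, this])
    (fun σ => by
      have h1 := LinearMap.congr_fun hf (R.bas (m + 2) σ)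
      rw [LinearMap.comp_apply, LinearMap.zero_apply, R.map_eq f] at h1
      rw [← h1]
      refine Finset.sum_congr rfl fun τ _ => ?_
      rw [R.d_bas (m + 1) σ τ, cast_dm])
  refine ⟨R.lift ψ, ?_⟩
  apply LinearMap.ext
  intro x
  rw [R.map_eq f, LinearMap.comp_apply, R.lift_apply]
  simp only [hψ, R.d_apply, Finset.smul_sum, Finset.sum_smul, mul_smul]
  rw [Finset.sum_comm]

/-- `Ext^{>0}(V, Ĉ) = 0` -/
theorem ext_hat (m : ℕ) :
    Subsingleton (Ext (ModuleCat.of A.Hat R.Vh) (ModuleCat.of A.Hat A.Hat) (m + 1)) := by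
  refine R.ext_crit m A.Hat ?_
  intro φ hφ hd
  have hφ0 : ∀ τ, τ ∉ R.F (m + 1) → φ τ = 0 := by
    intro τ h
    rw [← hφ τ, R.ep_out, zero_smul]
    rw [R.mem_F] at h
    unfold inr pos
    omega
  have hz : ∀ (m : ℤ) (σ τ : R.ι), τ ∉ R.F (R.s σ) → R.dm m σ τ = 0 := by
    intro m σ τ h
    rw [R.mem_F] at h
    exact R.dm_zero m (by omega)
  obtain ⟨ψ, h1, h2⟩ := R.row_lemma (m : ℤ) φ hφ (fun σ => by
    rw [← hd σ]
    exact sum_eq_sum (fun τ _ h => by rw [hφ0 τ h, mul_zero])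
      (fun τ _ h => by rw [hz _ _ _ h]; exact zero_mul _))
  refine ⟨ψ, fun σ => ?_⟩
  rw [h2 σ]
  refine sum_eq_sum (fun τ _ h => ?_) (fun τ _ h => by rw [hz _ _ _ h, zero_mul])
  rw [← h1 τ, R.ep_out, zero_mul, mul_zero]
  rw [R.mem_F] at h
  unfold inr pos
  omega

theorem ev_ep (m : ℤ) (σ : R.ι) : ev (R.ep m σ) = if R.pos σ m = A.n then R.e σ else 0 := by
  rw [ev_sg _ _ _ (R.ep_val m σ)]
  simp

theorem ev_dm (m : ℤ) (σ τ : R.ι) :
    ev (R.dm m σ τ) = if R.pos σ (m + 1) = A.n ∧ R.pos τ m = A.n then R.c σ τ else 0 := by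
  classical
  rw [ev_sg _ _ _ (R.dm_val m σ τ)]
  have : A.D (if σ = τ then R.e σ else 0) = 0 := by
    split
    · exact R.De σ
    · exact map_zero _
  rw [this, add_zero]

theorem ext_V_aux (m : ℕ) (φ : R.ι → R.V)
    (e1 : ∀ σ, ev (R.ep ((m : ℤ) + 1) σ) • φ σ = φ σ)
    (e2 : ∀ σ, ∑ τ ∈ R.F (m + 1), ev (R.dm ((m : ℤ) + 1) σ τ) • φ τ = 0) :
    ∃ ψ : R.ι → R.V, ∀ σ, φ σ = ∑ τ ∈ R.F m, ev (R.dm (m : ℤ) σ τ) • ψ τ := by
  have hφ0 : ∀ τ, R.s τ ≠ m + 1 → φ τ = 0 := by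
    intro τ h
    have h1 : R.pos τ ((m : ℤ) + 1) ≠ A.n := by
      unfold pos
      omega
    rw [← e1 τ, R.ev_ep, if_neg h1, zero_smul]
  have hφe : ∀ σ, R.e σ • φ σ = φ σ := by
    intro σ
    by_cases h : R.s σ = m + 1
    · have h1 : R.pos σ ((m : ℤ) + 1) = A.n := by
        unfold pos
        omega
      have h2 := e1 σ
      rwa [R.ev_ep, if_pos h1] at h2
    · rw [hφ0 σ h, smul_zero]
  obtain ⟨ψ, h1, h2⟩ := R.exV m φ hφ0 hφe (fun σ hσ => by
    rw [← e2 σ]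
    refine Finset.sum_congr rfl fun τ _ => ?_
    by_cases h : R.s τ = m + 1
    · have h1 : R.pos σ ((m : ℤ) + 1 + 1) = A.n ∧ R.pos τ ((m : ℤ) + 1) = A.n := by
        unfold pos
        omega
      rw [R.ev_dm, if_pos h1]
    · rw [hφ0 τ h, smul_zero, smul_zero])
  refine ⟨ψ, fun σ => ?_⟩
  by_cases h : R.s σ = m + 1
  · rw [h2 σ h]
    refine Finset.sum_congr rfl fun τ _ => ?_
    by_cases h' : R.s τ = m
    · have h1 : R.pos σ ((m : ℤ) + 1) = A.n ∧ R.pos τ (m : ℤ) = A.n := by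
        unfold pos
        omega
      rw [R.ev_dm, if_pos h1]
    · rw [h1 τ h', smul_zero, smul_zero]
  · rw [hφ0 σ h]
    symm
    refine Finset.sum_eq_zero fun τ _ => ?_
    have h1 : ¬ (R.pos σ ((m : ℤ) + 1) = A.n ∧ R.pos τ (m : ℤ) = A.n) := by
      unfold pos
      omega
    rw [R.ev_dm, if_neg h1, zero_smul]

/-- `Ext^{>0}(V, V) = 0` -/
theorem ext_V (m : ℕ) :
    Subsingleton (Ext (ModuleCat.of A.Hat R.Vh) (ModuleCat.of A.Hat R.Vh) (m + 1)) :=
  R.ext_crit m R.Vh fun φ hφ hd => R.ext_V_aux m φ hφ hd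

/-- `Hom(V, Ĉ) = 0` -/
theorem hom_zero (f : R.Vh →ₗ[A.Hat] A.Hat) : f = 0 := by
  have hv : ∀ σ, R.ep 0 σ • R.vh σ = R.vh σ := by
    intro σ
    change ev (R.ep 0 σ) • R.v σ = R.v σ
    by_cases h : R.s σ = 0
    · rw [R.ev_ep, if_pos, R.v_e]
      unfold pos
      omega
    · rw [R.v_zero σ h, smul_zero]
  have hv0 : ∀ σ, σ ∉ R.F 0 → R.vh σ = 0 := by
    intro σ h
    rw [R.mem_F] at h
    exact R.v_zero σ (by omega)
  obtain ⟨ψ, h1, h2⟩ := R.row_lemma (-1) (fun σ => f (R.vh σ))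
    (fun σ => by
      change R.ep 0 σ • f (R.vh σ) = f (R.vh σ)
      rw [← f.map_smul, hv σ])
    (fun σ => by
      change ∑ τ ∈ R.F (R.s σ), R.dm 0 σ τ • f (R.vh τ) = 0
      have h3 : ∑ τ ∈ R.F (R.s σ), R.dm 0 σ τ • f (R.vh τ) =
          f (∑ τ ∈ R.F (R.s σ), R.dm 0 σ τ • R.vh τ) := by
        rw [map_sum]
        exact Finset.sum_congr rfl fun τ _ => (f.map_smul _ _).symm
      rw [h3, sum_eq_sum (S' := R.F 0) (fun τ _ h => by rw [hv0 τ h, smul_zero])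
        (fun τ h h' => by
          exfalso
          rw [R.mem_F] at h h'
          omega), R.dm_v σ, map_zero])
  have hψ : ∀ σ, ψ σ = 0 := by
    intro σ
    rw [← h1 σ, R.ep_out, zero_mul]
    unfold inr pos
    omega
  have hφ : ∀ σ, f (R.vh σ) = 0 := by
    intro σ
    rw [h2 σ]
    exact Finset.sum_eq_zero fun τ _ => by rw [hψ τ, mul_zero]
  apply LinearMap.ext
  intro w
  obtain ⟨x, rfl⟩ := R.aug_surj w
  have h4 : R.aug x = ∑ σ ∈ R.F 0, x.1 σ • R.vh σ := rfl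
  rw [h4, map_sum, LinearMap.zero_apply]
  refine Finset.sum_eq_zero fun σ _ => ?_
  rw [f.map_smul, hφ σ, smul_zero]

end Cells

/-- **the hat theorem** -/
theorem null {A : DGA K} (R : Cells A) : Nonempty (Spine700.Null.{0, 0} K) :=
  ⟨{ Γ := A.Hat
     V := R.Vh
     h0 := R.hom_zero
     eG := fun i hi => by
       obtain ⟨m, rfl⟩ := Nat.exists_eq_add_of_le' hi
       exact R.ext_hat m
     eV := fun i hi => by
       obtain ⟨m, rfl⟩ := Nat.exists_eq_add_of_le' hi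
       exact R.ext_V m }⟩

end Crest.Agent.R186.Hat827
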