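import Crest.Agent.R186.ConeCells_384
import Crest.Agent.R186.ConeJ_462
import Crest.Agent.R186.Adapt_186
import Crest.Agent.R186.Hat_827

/-!
Row 186 (A), leaf A.FIN (helper384): the joint of the closing in basis-free form.
Input: `I : Adapt186.In A` (`Y = K`, `Z = H`, `ev`), `X : PCells A` and `HIn I X`
(`H ⊗ X` acyclic; `kt`; `Hom(X, Y) = K kt`; `H → Hom(X, A)` a quasi-isomorphism).
Output: `Hat827.Cells I.data.dga` and a null pair.
-/

set_option autoImplicit false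

open Matrix

namespace Crest.Agent.R186.FinD384

open Hat827 ConeAlg462 ConeHyp462 Adapt186 ConeCells384

variable {K : Type} [Field K]

section coord

variable {A : DGA K} (I : In A)

/-- coordinates of `Y` -/
noncomputable def vY : I.Y ≃ₗ[K] (I.data.β → K) := I.gr.bas.equivFun
/-- coordinates of `Z` -/
noncomputable def vZ : I.Z ≃ₗ[K] (I.data.γ → K) := I.gs.bas.equivFun

theorem toMatrix_vY (f : I.Y →ₗ[K] I.Y) (y : I.Y) :
    LinearMap.toMatrix I.gr.bas I.gr.bas f *ᵥ I.gr.bas.equivFun y = I.gr.bas.equivFun (f y) :=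
  LinearMap.toMatrix_mulVec_repr I.gr.bas I.gr.bas f y

theorem toMatrix_vZ (f : I.Z →ₗ[K] I.Z) (y : I.Z) :
    I.gs.bas.equivFun y ᵥ* (LinearMap.toMatrix I.gs.bas I.gs.bas f).transpose =
      I.gs.bas.equivFun (f y) := by
  rw [Matrix.vecMul_transpose]
  exact LinearMap.toMatrix_mulVec_repr I.gs.bas I.gs.bas f y

theorem rho_v (a : A.C) (y : I.Y) : I.data.ρ a *ᵥ vY I y = vY I (I.L a y) :=
  toMatrix_vY I (I.L a) y

theorem del_v (y : I.Y) : I.data.δ *ᵥ vY I y = vY I (I.dY y) := toMatrix_vY I I.dY y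

theorem sig_v (a : A.C) (y : I.Z) : vZ I y ᵥ* I.data.σ a = vZ I (I.Rr a y) :=
  toMatrix_vZ I (I.Rr a) y

theorem eps_v (y : I.Z) : vZ I y ᵥ* I.data.ε = vZ I (I.dZ y) := toMatrix_vZ I I.dZ y

theorem deg_vY (m : ℤ) (y : I.Y) :
    (∀ b : I.data.β, vY I y b ≠ 0 → I.data.dk b = m) ↔ y ∈ I.gr.G m := by
  constructor
  · intro h
    rw [← I.gr.bas.sum_repr y]
    refine Submodule.sum_mem _ fun b _ => ?_
    by_cases hb : I.gr.bas.repr y b = 0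
    · rw [hb, zero_smul]
      exact Submodule.zero_mem _
    · have : I.gr.deg b = m := h b hb
      rw [← this]
      exact Submodule.smul_mem _ _ (I.gr.bas_mem b)
  · intro h b hb
    exact I.gr.deg_of_repr h hb

theorem deg_vZ (m : ℤ) (y : I.Z) :
    (∀ b : I.data.γ, vZ I y b ≠ 0 → I.data.dh b = m) ↔ y ∈ I.gs.G m := by
  constructor
  · intro h
    rw [← I.gs.bas.sum_repr y]
    refine Submodule.sum_mem _ fun b _ => ?_
    by_cases hb : I.gs.bas.repr y b = 0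
    · rw [hb, zero_smul]
      exact Submodule.zero_mem _
    · have : I.gs.deg b = m := h b hb
      rw [← this]
      exact Submodule.smul_mem _ _ (I.gs.bas_mem b)
  · intro h b hb
    exact I.gs.deg_of_repr h hb

theorem ev_v (y : I.Y) (z : I.Z) : I.data.ev (vecMulVec (vY I y) (vZ I z)) = I.ev y z := by
  have h1 : I.ev y z = ∑ b : I.gr.B, ∑ c : I.gs.B,
      (I.gr.bas.repr y b * I.gs.bas.repr z c) • I.ev (I.gr.bas b) (I.gs.bas c) := by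
    have e1 : I.ev y = ∑ b : I.gr.B, I.gr.bas.repr y b • I.ev (I.gr.bas b) := by
      conv_lhs => rw [← I.gr.bas.sum_repr y]
      rw [map_sum]
      exact Finset.sum_congr rfl fun b _ => map_smul _ _ _
    rw [e1, LinearMap.sum_apply]
    refine Finset.sum_congr rfl fun b _ => ?_
    conv_lhs => rw [← I.gs.bas.sum_repr z]
    rw [map_sum]
    refine Finset.sum_congr rfl fun c _ => ?_
    rw [map_smul, LinearMap.smul_apply, smul_smul, mul_comm]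
  rw [In.data_ev, h1]
  rfl

end coord

/-- the hypotheses of the closing, without bases -/
structure HIn {A : DGA K} (I : In A) (X : PCells A) where
  /-- `ev` kills `V` -/
  evV : ∀ y z (w : X.V), I.ev y z • w = 0
  /-- `H ⊗ X` is acyclic -/
  H : ∀ (m : ℕ) (y : X.ι → I.Z), (∀ σ, y σ ∈ I.gs.G ((m : ℤ) - X.s σ)) →
    (∀ σ, I.Rr (X.e σ) (y σ) = y σ) →
    (∀ τ, I.dZ (y τ) + ∑ σ ∈ X.F m, I.Rr (X.c σ τ) (y σ) = 0) →
    ∃ z : X.ι → I.Z, (∀ σ, z σ ∈ I.gs.G ((m : ℤ) + 1 - X.s σ)) ∧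
      (∀ σ, I.Rr (X.e σ) (z σ) = z σ) ∧
      ∀ τ, y τ = I.dZ (z τ) + ∑ σ ∈ X.F (m + 1), I.Rr (X.c σ τ) (z σ)
  /-- the lift of the augmentation -/
  kt : X.ι → I.Y
  kt_deg : ∀ σ, kt σ ∈ I.gr.G (X.s σ)
  kt_e : ∀ σ, I.L (X.e σ) (kt σ) = kt σ
  kt_d : ∀ σ, I.dY (kt σ) + ∑ τ ∈ X.F (X.s σ), I.L (X.c σ τ) (kt τ) = 0
  kt_ne : kt ≠ 0
  /-- `Hom(X, Y)` has cohomology spanned by `kt` -/
  KX : ∀ (p : ℤ) (κ : X.ι → I.Y), (∀ σ, κ σ ∈ I.gr.G ((X.s σ : ℤ) - p)) →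
    (∀ σ, I.L (X.e σ) (κ σ) = κ σ) →
    (∀ σ, I.dY (κ σ) + ∑ τ ∈ X.F (X.s σ), I.L (X.c σ τ) (κ τ) = 0) →
    ∃ (ψ : X.ι → I.Y) (r : K), (∀ σ, ψ σ ∈ I.gr.G ((X.s σ : ℤ) - p + 1)) ∧
      (∀ σ, I.L (X.e σ) (ψ σ) = ψ σ) ∧ (p ≠ 0 → r = 0) ∧
      ∀ σ, κ σ = r • kt σ + (I.dY (ψ σ) + ∑ τ ∈ X.F (X.s σ), I.L (X.c σ τ) (ψ τ))
  /-- `H → Hom(X, A)` is onto on cohomology -/
  D1 : ∀ (p : ℤ) (φ : X.ι → A.C), (∀ σ, φ σ ∈ A.G ((X.s σ : ℤ) - p)) →
    (∀ σ, X.e σ * φ σ = φ σ) → (∀ σ, A.D (φ σ) + ∑ τ ∈ X.F (X.s σ), X.c σ τ * φ τ = 0) →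
    ∃ η ∈ I.gs.G (-p), I.dZ η = 0 ∧ IsCob A X p (fun σ => φ σ + I.ev (kt σ) η)
  /-- `H → Hom(X, A)` is injective on cohomology -/
  D2 : ∀ (p : ℤ), ∀ η ∈ I.gs.G (-p), I.dZ η = 0 → IsCob A X p (fun σ => I.ev (kt σ) η) →
    ∃ η' ∈ I.gs.G (-p + 1), η = I.dZ η'

variable {A : DGA K} {I : In A} {X : PCells A}

theorem dY_v (m : ℤ) (y : X.ι → I.Z) (τ : X.ι) :
    dY I.data X m (fun σ => vZ I (y σ)) τ =
      vZ I (I.dZ (y τ) + ∑ σ ∈ X.F m.toNat, I.Rr (X.c σ τ) (y σ)) := by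
  change dYM I.data X m.toNat (fun σ => vZ I (y σ)) τ = _
  rw [dYM_apply, eps_v, map_add, map_sum]
  simp only [sig_v]

theorem dZ_v (κ : X.ι → I.Y) (σ : X.ι) :
    dZ I.data X (fun σ => vY I (κ σ)) σ =
      vY I (I.dY (κ σ) + ∑ τ ∈ X.F (X.s σ), I.L (X.c σ τ) (κ τ)) := by
  rw [dZ_apply, del_v, map_add, map_sum]
  simp only [rho_v]

theorem mem_Y_v (n : ℤ) (y : X.ι → I.Z) : (fun σ => vZ I (y σ)) ∈ Y I.data X n ↔
    (∀ σ, y σ ∈ I.gs.G (n - X.s σ)) ∧ ∀ σ, I.Rr (X.e σ) (y σ) = y σ := by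
  rw [mem_Y]
  constructor
  · rintro ⟨h1, h2⟩
    refine ⟨fun σ => (deg_vZ I _ _).1 fun c hc => ?_, fun σ => ?_⟩
    · have := h1 σ c hc
      omega
    · have := h2 σ
      rw [sig_v] at this
      exact (vZ I).injective this
  · rintro ⟨h1, h2⟩
    refine ⟨fun σ c hc => ?_, fun σ => ?_⟩
    · have := (deg_vZ I _ _).2 (h1 σ) c hc
      omega
    · rw [sig_v, h2]

theorem mem_Z_v (p : ℤ) (κ : X.ι → I.Y) : (fun σ => vY I (κ σ)) ∈ Z I.data X p ↔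
    (∀ σ, κ σ ∈ I.gr.G ((X.s σ : ℤ) - p)) ∧ ∀ σ, I.L (X.e σ) (κ σ) = κ σ := by
  rw [mem_Z]
  constructor
  · rintro ⟨h1, h2⟩
    refine ⟨fun σ => (deg_vY I _ _).1 fun c hc => h1 σ c hc, fun σ => ?_⟩
    have := h2 σ
    rw [rho_v] at this
    exact (vY I).injective this
  · rintro ⟨h1, h2⟩
    exact ⟨fun σ c hc => (deg_vY I _ _).2 (h1 σ) c hc, fun σ => by rw [rho_v, h2]⟩

theorem exists_vZ (y : X.ι → I.data.γ → K) : ∃ y' : X.ι → I.Z, y = fun σ => vZ I (y' σ) :=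
  ⟨fun σ => (vZ I).symm (y σ), by funext σ; exact ((vZ I).apply_symm_apply (y σ)).symm⟩

theorem exists_vY (y : X.ι → I.data.β → K) : ∃ y' : X.ι → I.Y, y = fun σ => vY I (y' σ) :=
  ⟨fun σ => (vY I).symm (y σ), by funext σ; exact ((vY I).apply_symm_apply (y σ)).symm⟩

namespace HIn

variable (h : HIn I X)

/-- **matrix form** -/
noncomputable def toHyp : Hyp I.data X where
  H m y hy hd := by
    obtain ⟨y', rfl⟩ := exists_vZ y
    obtain ⟨h1, h2⟩ := (mem_Y_v _ _).1 hy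
    obtain ⟨z, hz1, hz2, hz3⟩ := h.H m y' h1 h2 (fun τ => by
      have := congrFun hd τ
      rw [dY_v] at this
      exact (vZ I).injective (this.trans (map_zero _).symm))
    refine ⟨fun σ => vZ I (z σ), (mem_Y_v _ _).2 ⟨hz1, hz2⟩, ?_⟩
    funext τ
    rw [dY_v]
    exact congrArg (vZ I) (hz3 τ)
  kt σ := vY I (h.kt σ)
  kt_mem := (mem_Z_v _ _).2 ⟨fun σ => by rw [sub_zero]; exact h.kt_deg σ, h.kt_e⟩
  kt_d := by
    funext σ
    rw [dZ_v, h.kt_d, map_zero]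
    rfl
  kt_ne h0 := by
    apply h.kt_ne
    funext σ
    exact (vY I).injective ((congrFun h0 σ).trans (map_zero _).symm)
  KX p κ hκ hd := by
    obtain ⟨κ', rfl⟩ := exists_vY κ
    obtain ⟨h1, h2⟩ := (mem_Z_v _ _).1 hκ
    obtain ⟨ψ, r, h3, h4, h5, h6⟩ := h.KX p κ' h1 h2 (fun σ => by
      have := congrFun hd σ
      rw [dZ_v] at this
      exact (vY I).injective (this.trans (map_zero _).symm))
    refine ⟨fun σ => vY I (ψ σ), (mem_Z_v _ _).2 ⟨fun σ => ?_, h4⟩, r, h5, ?_⟩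
    · rw [show (X.s σ : ℤ) - (p - 1) = X.s σ - p + 1 by ring]
      exact h3 σ
    · funext σ
      rw [Pi.add_apply, dZ_v, Pi.smul_apply, ← map_smul, ← map_add]
      exact congrArg (vY I) (h6 σ)
  D1 p φ h1 h2 h3 := by
    obtain ⟨η, h4, h5, h6⟩ := h.D1 p φ h1 h2 h3
    refine ⟨vZ I η, fun c hc => (deg_vZ I _ _).2 h4 c hc, by rw [eps_v, h5, map_zero], ?_⟩
    simp only [ev_v]
    exact h6
  D2 p η h1 h2 h3 := by
    obtain ⟨η', rfl⟩ : ∃ η', η = vZ I η' := ⟨(vZ I).symm η, ((vZ I).apply_symm_apply η).symm⟩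
    simp only [ev_v] at h3
    obtain ⟨η1, h4, h5⟩ := h.D2 p η' ((deg_vZ I _ _).1 h1) ((vZ I).injective (by
      rw [← eps_v, h2, map_zero])) h3
    refine ⟨vZ I η1, fun c hc => (deg_vZ I _ _).2 h4 c hc, ?_⟩
    rw [eps_v, ← h5]

include h in
theorem ev_V : EvV I.data X := fun t _ w => In.data_ev_smul I h.evV t w

/-- **cells over the cone** -/
noncomputable def cells : Cells I.data.dga :=
  ConeCells384.cells h.ev_V (fun m t => JR I.data X h.toHyp.H m t)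
    { kt := h.toHyp.kt
      kt_mem := h.toHyp.kt_mem
      kt_d := h.toHyp.kt_d
      JK := JK I.data X h.toHyp.kt h.toHyp.kt_d h.toHyp.kt_ne h.toHyp.KX
      D1 := h.toHyp.D1
      D2 := h.toHyp.D2 }

include h in
/-- **the null pair** -/
theorem null : Nonempty (Spine700.Null.{0, 0} K) := Hat827.null h.cells

end HIn

end Crest.Agent.R186.FinD384
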