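import Crest.Agent.R186.C1F_154
import Crest.Agent.R186.C1x_134
import Crest.Agent.R186.FinV_988
import Crest.Agent.R186.AcIff_492

/-!
Row 186 (A), leaf A.C1 (helper328): `(beta)` from `RRes Y (D T)`, abstract.

`Kz A T` : a dg bimodule `T` over `A` with idempotents `E0 + E1 = 1`, Koszul data
`X0, X1 ∈ A`, `T0, T1 ∈ T`, `U ∈ T`.
`paL R` : the pairing of `Y ⊗ A` with `T` given by `R : RRes Y (D T)`; it is exact.
`paT R` : the pairing of `Y ⊗ T` with `A`, `(y ⊗ z, r) ↦ φ_y (z r)`.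
`beta` : `paT R` is exact.
-/

set_option autoImplicit false
set_option linter.unusedSectionVars false

open MulOpposite

namespace Crest.Agent.R186.C1b328

open Hat827 Hat827.DGA Frame515 Res255 C1F154 C1x134 FinV988

variable {K : Type} [Field K] {A : DGA K}

/-! ### maps of tensor products -/

section mR

variable (Y : RCells A) {N N' : LM A}

/-- `1 ⊗ f` -/
noncomputable def mR (f : N.X →ₗ[K] N'.X) : (Y.ι →₀ N.X) →ₗ[K] (Y.ι →₀ N'.X) :=
  Finsupp.mapRange.linearMap f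

theorem mR_apply (f : N.X →ₗ[K] N'.X) (x : Y.ι →₀ N.X) (σ : Y.ι) : mR Y f x σ = f (x σ) := rfl

theorem mR_supp (f : N.X →ₗ[K] N'.X) (x : Y.ι →₀ N.X) : (mR Y f x).support ⊆ x.support :=
  Finsupp.support_mapRange (hf := map_zero f)

theorem tY_d_apply (N : LM A) (x : Y.ι →₀ N.X) (S : Finset Y.ι) (hS : x.support ⊆ S) (σ : Y.ι) :
    (tY Y N).d x σ = N.d (x σ) + ∑ ρ ∈ S, Y.c σ ρ • x ρ := (twY Y N).dd_apply' x S hS σ

theorem mR_d (f : N.X →ₗ[K] N'.X) (hs : ∀ (a : A.C) (x : N.X), f (a • x) = a • f x)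
    (hd : ∀ x : N.X, f (N.d x) = N'.d (f x)) (x : Y.ι →₀ N.X) :
    mR Y f ((tY Y N).d x) = (tY Y N').d (mR Y f x) := by
  refine Finsupp.ext fun σ => ?_
  rw [mR_apply, tY_d_apply Y N x x.support (Finset.Subset.refl _),
    tY_d_apply Y N' (mR Y f x) x.support (mR_supp Y f x), map_add, map_sum, hd]
  congr 1
  exact Finset.sum_congr rfl fun ρ _ => hs _ _

theorem mR_mem (f : N.X →ₗ[K] N'.X) (hs : ∀ (a : A.C) (x : N.X), f (a • x) = a • f x)
    (j : ℤ) (hm : ∀ {k : ℤ} {x : N.X}, x ∈ N.gr k → f x ∈ N'.gr (k + j)) {k : ℤ}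
    {x : Y.ι →₀ N.X} (hx : x ∈ (tY Y N).gr k) : mR Y f x ∈ (tY Y N').gr (k + j) := by
  intro σ
  refine ⟨?_, ?_⟩
  · have := hm (hx σ).1
    rwa [show k - (Y.s σ : ℤ) + j = k + j - Y.s σ by ring] at this
  · change Y.e σ • f (x σ) = f (x σ)
    rw [← hs]
    exact congrArg f (hx σ).2

end mR

/-! ### pairings cut by idempotents -/

section pc

variable {Y : RCells A} {N : LM A} {S : GC K}

/-- idempotents on the two sides of a pairing -/
structure Id (P : Pa Y N S) where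
  i : N.X →ₗ[K] N.X
  ρ : S.X →ₗ[K] S.X
  i_smul : ∀ (a : A.C) (x : N.X), i (a • x) = a • i x
  i_d : ∀ x : N.X, i (N.d x) = N.d (i x)
  i_mem : ∀ {k : ℤ} {x : N.X}, x ∈ N.gr k → i x ∈ N.gr k
  i_i : ∀ x, i (i x) = i x
  ρ_d : ∀ s : S.X, ρ (S.d s) = S.d (ρ s)
  ρ_mem : ∀ {k : ℤ} {s : S.X}, s ∈ S.gr k → ρ s ∈ S.gr k
  ρ_ρ : ∀ s, ρ (ρ s) = ρ s
  f_i : ∀ (σ : Y.ι) (x : N.X) (s : S.X), P.f σ (i x) s = P.f σ x (ρ s)

variable {P : Pa Y N S} (I : Id P)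

theorem Id.ev_i (x : Y.ι →₀ N.X) (s : S.X) : P.ev (mR Y I.i x) s = P.ev x (I.ρ s) := by
  rw [P.ev_apply' _ _ x.support (mR_supp Y I.i x), P.ev_apply' _ _ x.support (Finset.Subset.refl _)]
  exact Finset.sum_congr rfl fun σ _ => I.f_i σ _ _

theorem Id.mR_fix {x : Y.ι →₀ N.X} (h : ∀ σ, I.i (x σ) = x σ) : mR Y I.i x = x :=
  Finsupp.ext fun σ => h σ

theorem Id.fix_d {x : Y.ι →₀ N.X} (h : ∀ σ, I.i (x σ) = x σ) (σ : Y.ι) :
    I.i ((tY Y N).d x σ) = (tY Y N).d x σ := by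
  have h1 := mR_d Y I.i I.i_smul I.i_d x
  rw [I.mR_fix h] at h1
  exact DFunLike.congr_fun h1 σ

/-- the cut pairing, with a shift -/
noncomputable def Id.pc (sh : ℤ) : PC K where
  X :=
    { X := Y.ι →₀ N.X
      gr := fun k =>
        { carrier := {x | x ∈ (tY Y N).gr (k + sh) ∧ ∀ σ, I.i (x σ) = x σ}
          add_mem' := fun {x y} hx hy => ⟨Submodule.add_mem _ hx.1 hy.1, fun σ => by
            rw [Finsupp.add_apply, map_add, hx.2, hy.2]⟩
          zero_mem' := ⟨Submodule.zero_mem _, fun σ => by rw [Finsupp.zero_apply, map_zero]⟩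
          smul_mem' := fun r x hx => ⟨Submodule.smul_mem _ r hx.1, fun σ => by
            rw [Finsupp.smul_apply, map_smul, hx.2]⟩ }
      d := (tY Y N).d
      d_mem := fun {k x} hx => ⟨by
        have := (tY Y N).d_mem hx.1
        rwa [show k + sh - 1 = k - 1 + sh by ring] at this, I.fix_d hx.2⟩
      d_d := (tY Y N).d_d }
  W := S.X
  gw m :=
    { carrier := {s | s ∈ S.gr (m - sh) ∧ I.ρ s = s}
      add_mem' := fun {x y} hx hy => ⟨Submodule.add_mem _ hx.1 hy.1, by rw [map_add, hx.2, hy.2]⟩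
      zero_mem' := ⟨Submodule.zero_mem _, map_zero _⟩
      smul_mem' := fun r x hx => ⟨Submodule.smul_mem _ r hx.1, by rw [map_smul, hx.2]⟩ }
  dw := S.d
  F := P.ev

theorem Id.mem_X {sh k : ℤ} {x : Y.ι →₀ N.X} :
    x ∈ (I.pc sh).X.gr k ↔ x ∈ (tY Y N).gr (k + sh) ∧ ∀ σ, I.i (x σ) = x σ := Iff.rfl

theorem Id.mem_W {sh k : ℤ} {s : S.X} :
    s ∈ (I.pc sh).gw k ↔ s ∈ S.gr (k - sh) ∧ I.ρ s = s := Iff.rfl

theorem Id.gw_d {sh k : ℤ} {s : S.X} (h : s ∈ (I.pc sh).gw k) : S.d s ∈ (I.pc sh).gw (k - 1) := by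
  refine ⟨?_, ?_⟩
  · have := S.d_mem h.1
    rwa [show k - sh - 1 = k - 1 - sh by ring] at this
  · rw [I.ρ_d, h.2]

theorem Id.ch (h2 : (2 : K) = 0) (sh lo : ℤ) : (I.pc sh).Ch lo := by
  intro k x hx w hw
  have h := Pa.ev_d h2 P hx.1 hw.1
  have h3 := Pa.two_S h2 (P.ev x (S.d w))
  change P.ev ((tY Y N).d x) w = P.ev x (S.d w)
  linear_combination h - h3

/-- the cut of an exact pairing is exact -/
theorem Id.cut (h : P.Ex) (sh k : ℤ) : (I.pc sh).EX P.lo k := by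
  intro x hx hd t ht
  have hx1 : x ∈ (tY Y N).gr (k + sh - 1) := by
    have := hx.1
    rwa [show k - 1 + sh = k + sh - 1 by ring] at this
  obtain ⟨y, hy, g', hyd, hg'⟩ := h (k + sh) x (t ∘ₗ I.ρ) hx1 hd (by
    intro s hs
    have h1 : I.ρ s ∈ (I.pc sh).gw (-(P.lo + k - 1)) := by
      refine ⟨?_, I.ρ_ρ s⟩
      have := I.ρ_mem hs
      rwa [show 1 - P.lo - (k + sh) = -(P.lo + k - 1) - sh by ring] at this
    have h3 := ht (I.ρ s) h1
    change P.ev x (I.ρ s) + t (S.d (I.ρ s)) = 0 at h3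
    rw [← I.ev_i, I.mR_fix hx.2] at h3
    change P.ev x s + t (I.ρ (S.d s)) = 0
    rw [I.ρ_d]
    exact h3)
  refine ⟨mR Y I.i y, ⟨?_, fun σ => I.i_i _⟩, ?_, g', ?_⟩
  · have := mR_mem Y I.i I.i_smul 0 (fun {k x} h => by rw [add_zero]; exact I.i_mem h) hy
    rwa [add_zero] at this
  · change (tY Y N).d (mR Y I.i y) = x
    rw [← mR_d Y I.i I.i_smul I.i_d, hyd, I.mR_fix hx.2]
  · intro w hw
    have h4 : w ∈ S.gr (-P.lo - (k + sh)) := by
      have := hw.1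
      rwa [show -(P.lo + k) - sh = -P.lo - (k + sh) by ring] at this
    have h5 := hg' w h4
    change t (I.ρ w) = _ at h5
    rw [hw.2] at h5
    change t w = P.ev (mR Y I.i y) w + g' (S.d w)
    rw [h5, I.ev_i, hw.2]

/-- exactness from two complementary cuts -/
theorem Id.glue (I J : Id P) (hN : ∀ x, I.i x + J.i x = x) (hS : ∀ s, I.ρ s + J.ρ s = s)
    (sh k : ℤ) (hI : (I.pc sh).EX P.lo (k - sh)) (hJ : (J.pc sh).EX P.lo (k - sh)) : P.ExAt k := by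
  intro x g hx hd hg
  have aux : ∀ (L : Id P), (L.pc sh).EX P.lo (k - sh) → ∃ y : Y.ι →₀ N.X, y ∈ (L.pc sh).X.gr (k - sh) ∧
      (tY Y N).d y = mR Y L.i x ∧ ∃ t' : S.X →ₗ[K] K, ∀ w ∈ (L.pc sh).gw (-(P.lo + (k - sh))),
        g w = P.ev y w + t' (S.d w) := by
    intro L hL
    obtain ⟨y, hy, hyd, t', ht'⟩ := hL (mR Y L.i x) ⟨by
        have := mR_mem Y L.i L.i_smul 0 (fun {k x} h => by rw [add_zero]; exact L.i_mem h) hx
        rwa [show k - 1 + 0 = k - sh - 1 + sh by ring] at this, fun σ => L.i_i _⟩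
      (by
        change (tY Y N).d (mR Y L.i x) = 0
        rw [← mR_d Y L.i L.i_smul L.i_d, hd, map_zero]) g (by
        intro w hw
        change P.ev (mR Y L.i x) w + g (S.d w) = 0
        rw [L.ev_i, hw.2]
        refine hg w ?_
        have := hw.1
        rwa [show -(P.lo + (k - sh) - 1) - sh = 1 - P.lo - k by ring] at this)
    exact ⟨y, hy, hyd, t', ht'⟩
  obtain ⟨y0, hy0, hd0, t0, ht0⟩ := aux I hI
  obtain ⟨y1, hy1, hd1, t1, ht1⟩ := aux J hJ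
  refine ⟨y0 + y1, ?_, t0 ∘ₗ I.ρ + t1 ∘ₗ J.ρ, ?_, ?_⟩
  · have e0 := hy0.1
    have e1 := hy1.1
    rw [show k - sh + sh = k by ring] at e0 e1
    exact Submodule.add_mem _ e0 e1
  · rw [map_add, hd0, hd1]
    refine Finsupp.ext fun σ => ?_
    exact hN (x σ)
  · intro s hs
    have m0 : I.ρ s ∈ (I.pc sh).gw (-(P.lo + (k - sh))) := ⟨by
      have := I.ρ_mem hs
      rwa [show -P.lo - k = -(P.lo + (k - sh)) - sh by ring] at this, I.ρ_ρ s⟩
    have m1 : J.ρ s ∈ (J.pc sh).gw (-(P.lo + (k - sh))) := ⟨by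
      have := J.ρ_mem hs
      rwa [show -P.lo - k = -(P.lo + (k - sh)) - sh by ring] at this, J.ρ_ρ s⟩
    have q0 := ht0 _ m0
    have q1 := ht1 _ m1
    rw [← I.ev_i, I.mR_fix hy0.2, ← I.ρ_d] at q0
    rw [← J.ev_i, J.mR_fix hy1.2, ← J.ρ_d] at q1
    have e : g s = g (I.ρ s) + g (J.ρ s) := by rw [← map_add, hS]
    rw [e, q0, q1, map_add, LinearMap.add_apply]
    change _ = _ + (t0 (I.ρ (S.d s)) + t1 (J.ρ (S.d s)))
    ring

end pc

/-! ### families -/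

/-- choosing a finitely supported family, fixed by the idempotents of the cells -/
theorem choose_fam {Y : RCells A} {N : LM A} (S : Finset Y.ι) (Q : Y.ι → N.X → Prop)
    (h0 : ∀ σ, σ ∉ S → Q σ 0) (h : ∀ σ, ∃ z, Q σ z) : ∃ z : Y.ι →₀ N.X, ∀ σ, Q σ (z σ) := by
  classical
  choose f hf using h
  refine ⟨Finsupp.onFinset S (fun σ => if σ ∈ S then f σ else 0) fun σ hσ => ?_, fun σ => ?_⟩
  · by_contra hc
    exact hσ (if_neg hc)
  · rw [Finsupp.onFinset_apply]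
    split_ifs with hc
    · exact hf σ
    · exact h0 σ hc

/-- two families at once -/
theorem choose_fam2 {Y : RCells A} {N N' : LM A} (S : Finset Y.ι) (Q : Y.ι → N.X → N'.X → Prop)
    (h0 : ∀ σ, σ ∉ S → Q σ 0 0) (h : ∀ σ, ∃ z z', Q σ z z') :
    ∃ (z : Y.ι →₀ N.X) (z' : Y.ι →₀ N'.X), ∀ σ, Q σ (z σ) (z' σ) := by
  classical
  choose f f' hf using h
  refine ⟨Finsupp.onFinset S (fun σ => if σ ∈ S then f σ else 0) fun σ hσ => ?_,
    Finsupp.onFinset S (fun σ => if σ ∈ S then f' σ else 0) fun σ hσ => ?_, fun σ => ?_⟩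
  · by_contra hc
    exact hσ (if_neg hc)
  · by_contra hc
    exact hσ (if_neg hc)
  · rw [Finsupp.onFinset_apply, Finsupp.onFinset_apply]
    by_cases hc : σ ∈ S
    · rw [if_pos hc, if_pos hc]
      exact hf σ
    · rw [if_neg hc, if_neg hc]
      exact h0 σ hc

/-! ### the abstract Koszul data -/

/-- Koszul data -/
structure Kz (A : DGA K) (T : BM A A) where
  s : ℤ
  E0 : A.C
  E1 : A.C
  E0_mem : E0 ∈ A.G 0
  E1_mem : E1 ∈ A.G 0
  E00 : E0 * E0 = E0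
  E11 : E1 * E1 = E1
  E_add : E0 + E1 = 1
  X0 : A.C
  X1 : A.C
  X0_mem : X0 ∈ A.G 0
  X1_mem : X1 ∈ A.G 0
  E1X0 : E1 * X0 = X0
  E1X1 : E1 * X1 = X1
  X0E0 : X0 * E0 = X0
  X1E0 : X1 * E0 = X1
  T0 : T.X
  T1 : T.X
  T0_mem : T0 ∈ T.gr s
  T1_mem : T1 ∈ T.gr s
  dT0 : T.d T0 = 0
  dT1 : T.d T1 = 0
  E0T0 : E0 • T0 = T0
  E0T1 : E0 • T1 = T1
  T0E0 : op E0 • T0 = T0
  T1E0 : op E0 • T1 = T1
  U : T.X
  U_mem : U ∈ T.gr s
  dU : T.d U = 0
  E0U : E0 • U = U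
  UE1 : op E1 • U = U
  comm : X1 • T0 + X0 • T1 = 0
  cI : ∀ {k : ℤ} {z : A.C}, z ∈ A.G k → z * E1 = z → z * X1 = 0 → z = 0
  cE : ∀ {k : ℤ} {u0 u1 : A.C}, u0 ∈ A.G k → u1 ∈ A.G k → u0 * E0 = u0 → u1 * E0 = u1 →
    u0 • T0 + u1 • T1 = 0 → ∃ z ∈ A.G k, z * E1 = z ∧ u0 = z * X1 ∧ u1 = z * X0
  cS : ∀ {k : ℤ} {x : T.X}, x ∈ T.gr (k + s) → op E0 • x = x →
    ∃ u0 ∈ A.G k, ∃ u1 ∈ A.G k, u0 * E0 = u0 ∧ u1 * E0 = u1 ∧ x = u0 • T0 + u1 • T1
  rI : ∀ {k : ℤ} {r : A.C}, r ∈ A.G k → E0 * r = r → op r • T0 = 0 → r = 0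
  rE : ∀ {m : ℤ} {w0 w1 : T.X}, w0 ∈ T.gr m → w1 ∈ T.gr m → E0 • w0 = w0 → E0 • w1 = w1 →
    X1 • w0 + X0 • w1 = 0 → ∃ r ∈ A.G (m - s), E0 * r = r ∧ w0 = op r • T0 ∧ w1 = op r • T1
  rS : ∀ {m : ℤ} {w : T.X}, w ∈ T.gr m → E1 • w = w →
    ∃ w0 ∈ T.gr m, ∃ w1 ∈ T.gr m, E0 • w0 = w0 ∧ E0 • w1 = w1 ∧ w = X1 • w0 + X0 • w1
  uX : ∀ {k : ℤ} {x : T.X}, x ∈ T.gr (k + s) → op E1 • x = x →
    ∃ u ∈ A.G k, u * E0 = u ∧ x = u • U
  uI : ∀ {k : ℤ} {u : A.C}, u ∈ A.G k → u * E0 = u → u • U = 0 → u = 0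
  uW : ∀ {m : ℤ} {w : T.X}, w ∈ T.gr m → E0 • w = w →
    ∃ r ∈ A.G (m - s), E1 * r = r ∧ w = op r • U
  uJ : ∀ {k : ℤ} {r : A.C}, r ∈ A.G k → E1 * r = r → op r • U = 0 → r = 0

/-! ### the two pairings -/

section pa

variable {T : BM A A} {Y : RCells A}

/-- functionals on the right cells -/
structure Fn (Y : RCells A) (T : BM A A) where
  lo : ℤ
  v : Y.ι → T.X →ₗ[K] K
  v_d : ∀ (σ : Y.ι) (x : T.X), v σ (T.d x) = ∑ τ ∈ Y.F (Y.s σ), v τ (Y.c τ σ • x)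

/-- left action, bilinear -/
def lact (T : BM A A) : A.C →ₗ[K] T.X →ₗ[K] T.X :=
  LinearMap.mk₂ K (fun a x => a • x) (fun a b x => add_smul a b x)
    (fun r a x => smul_assoc r a x) (fun a x y => smul_add a x y)
    (fun r a x => (lmul T.toLM a).map_smul r x)

/-- right action, bilinear -/
def ract (T : BM A A) : T.X →ₗ[K] A.C →ₗ[K] T.X :=
  LinearMap.mk₂ K (fun x a => op a • x) (fun x y a => smul_add _ x y)
    (fun r x a => (rmul T.toRM a).map_smul r x)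
    (fun x a b => by rw [op_add, add_smul])
    (fun r x a => by rw [op_smul, smul_assoc])

/-- the pairing of `Y ⊗ A` with `T` -/
def paL (R : Fn Y T) : Pa Y (selfL A) T.toGC where
  lo := R.lo
  f σ := (lact T).compr₂ (R.v σ)
  f_d := by
    intro σ k l (n : A.C) (s : T.X) _ _
    change R.v σ (A.D n • s) + R.v σ (n • T.d s) = ∑ τ ∈ Y.F (Y.s σ), R.v τ ((Y.c τ σ * n) • s)
    rw [← map_add, ← T.leib, R.v_d]
    exact Finset.sum_congr rfl fun τ _ => by rw [mul_smul]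

/-- the pairing of `Y ⊗ T` with `A` -/
def paT (R : Fn Y T) : Pa Y T.toLM (selfL A).toGC where
  lo := R.lo
  f σ := (ract T).compr₂ (R.v σ)
  f_d := by
    intro σ k l (n : T.X) (s : A.C) _ _
    change R.v σ (op s • T.d n) + R.v σ (op (A.D s) • n) =
      ∑ τ ∈ Y.F (Y.s σ), R.v τ (op s • (Y.c τ σ • n))
    rw [← map_add, add_comm (op s • T.d n), ← T.leibR, R.v_d]
    exact Finset.sum_congr rfl fun τ _ => by rw [smul_comm]

theorem paL_f (R : Fn Y T) (σ : Y.ι) (u : A.C) (w : T.X) : (paL R).f σ u w = R.v σ (u • w) := rfl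
theorem paT_f (R : Fn Y T) (σ : Y.ι) (z : T.X) (r : A.C) : (paT R).f σ z r = R.v σ (op r • z) := rfl

variable (R : Fn Y T)

theorem D_zero {a : A.C} (h : a ∈ A.G 0) : A.D a = 0 := D_neg h (by omega)

/-- idempotents of `paL` -/
noncomputable def idL (E : A.C) (hE : E ∈ A.G 0) (hEE : E * E = E) : Id (paL R) where
  i := LinearMap.mulRight K E
  ρ := lact T E
  i_smul := fun (a x : A.C) => mul_assoc a x E
  i_d := fun (x : A.C) => by
    change A.D x * E = A.D (x * E)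
    rw [A.D_mul, D_zero hE, mul_zero, add_zero]
  i_mem := fun {k} {x : A.C} hx => by
    have := A.mul_mem (show x ∈ A.G k from hx) hE
    rwa [add_zero] at this
  i_i := fun (x : A.C) => by
    change x * E * E = x * E
    rw [mul_assoc, hEE]
  ρ_d := fun (s : T.X) => by
    change E • T.d s = T.d (E • s)
    rw [T.leib, D_zero hE, zero_smul, zero_add]
  ρ_mem := fun {k} {s : T.X} hs => by
    have := T.smul_mem hE hs
    rwa [zero_add] at this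
  ρ_ρ := fun (s : T.X) => by
    change E • E • s = E • s
    rw [smul_smul, hEE]
  f_i := fun σ (x : A.C) (s : T.X) => by
    change R.v σ ((x * E) • s) = R.v σ (x • E • s)
    rw [mul_smul]

/-- idempotents of `paT` -/
noncomputable def idT (E : A.C) (hE : E ∈ A.G 0) (hEE : E * E = E) : Id (paT R) where
  i := (ract T).flip E
  ρ := LinearMap.mulLeft K E
  i_smul := fun (a : A.C) (x : T.X) => (smul_comm a (op E) x).symm
  i_d := fun (x : T.X) => by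
    change op E • T.d x = T.d (op E • x)
    rw [T.leibR, D_zero hE, op_zero, zero_smul, zero_add]
  i_mem := fun {k} {x : T.X} hx => by
    have := T.smul_memR hE hx
    rwa [zero_add] at this
  i_i := fun (x : T.X) => by
    change op E • op E • x = op E • x
    rw [smul_smul, ← op_mul, hEE]
  ρ_d := fun (s : A.C) => by
    change E * A.D s = A.D (E * s)
    rw [A.D_mul, D_zero hE, zero_mul, zero_add]
  ρ_mem := fun {k} {s : A.C} hs => by
    have := A.mul_mem hE (show s ∈ A.G k from hs)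
    rwa [zero_add] at this
  ρ_ρ := fun (s : A.C) => by
    change E * (E * s) = E * s
    rw [← mul_assoc, hEE]
  f_i := fun σ (x : T.X) (s : A.C) => by
    change R.v σ (op s • op E • x) = R.v σ (op (E * s) • x)
    rw [smul_smul, ← op_mul]


variable (Z : Kz A T)

/-- the map `u ↦ u • t` -/
noncomputable def toT (t : T.X) : (selfL A).X →ₗ[K] T.toLM.X := (lact T).flip t

theorem toT_apply (t : T.X) (u : A.C) : toT t u = u • t := rfl

/-- the map `u ↦ u x` -/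
noncomputable def toA (x : A.C) : (selfL A).X →ₗ[K] (selfL A).X := LinearMap.mulRight K x

theorem toA_apply (x u : A.C) : toA x u = u * x := rfl

theorem toT_smul (t : T.X) (a : A.C) (u : A.C) : toT t (a * u) = a • toT t u := mul_smul a u t

theorem evT (t : T.X) (u : Y.ι →₀ A.C) (r : A.C) :
    (paT R).ev (mR Y (toT t) u) r = (paL R).ev u (op r • t) := by
  rw [(paT R).ev_apply' _ _ u.support (mR_supp Y (toT t) u),
    (paL R).ev_apply' _ _ u.support (Finset.Subset.refl _)]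
  refine Finset.sum_congr rfl fun σ _ => ?_
  change R.v σ (op r • (u σ • t)) = R.v σ (u σ • op r • t)
  rw [smul_comm (u σ) (op r) t]

theorem evA (x : A.C) (u : Y.ι →₀ A.C) (w : T.X) :
    (paL R).ev (mR Y (toA x) u) w = (paL R).ev u (x • w) := by
  rw [(paL R).ev_apply' _ _ u.support (mR_supp Y (toA x) u),
    (paL R).ev_apply' _ _ u.support (Finset.Subset.refl _)]
  refine Finset.sum_congr rfl fun σ _ => ?_
  change R.v σ ((u σ * x) • w) = R.v σ (u σ • x • w)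
  rw [mul_smul]

theorem toT_d {t : T.X} (ht : T.d t = 0) (u : A.C) : toT t (A.D u) = T.d (toT t u) := by
  change A.D u • t = T.d (u • t)
  rw [T.leib, ht, smul_zero, add_zero]

theorem toA_d {x : A.C} (hx : x ∈ A.G 0) (u : A.C) : toA x (A.D u) = A.D (toA x u) := by
  change A.D u * x = A.D (u * x)
  rw [A.D_mul, D_zero hx, mul_zero, add_zero]

/-- the columns `E0` of `Y ⊗ T` -/
theorem ex0 (h2 : (2 : K) = 0) (hL : (paL R).Ex) (k : ℤ) :
    ((idT R Z.E0 Z.E0_mem Z.E00).pc Z.s).EX R.lo k := by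
  classical
  have two : ∀ a : K, a + a = 0 := fun a => Pa.two_S h2 a
  have H1 : ∀ k, ((idL R Z.E1 Z.E1_mem Z.E11).pc 0).EX R.lo k := fun k =>
    (idL R Z.E1 Z.E1_mem Z.E11).cut hL 0 k
  have H2 : ∀ k, ((idL R Z.E0 Z.E0_mem Z.E00).pc 0).EX R.lo k := fun k =>
    (idL R Z.E0 Z.E0_mem Z.E00).cut hL 0 k
  have β_mem : ∀ (t : T.X), t ∈ T.gr Z.s → op Z.E0 • t = t → ∀ {k : ℤ} {x : Y.ι →₀ A.C},
      x ∈ ((idL R Z.E0 Z.E0_mem Z.E00).pc 0).X.gr k →
      mR Y (toT t) x ∈ ((idT R Z.E0 Z.E0_mem Z.E00).pc Z.s).X.gr k := by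
    intro t ht htE k x hx
    refine ⟨?_, fun σ => ?_⟩
    · have := mR_mem Y (toT t) (fun a x => toT_smul t a x) Z.s
        (fun {k x} h => T.smul_mem h ht) hx.1
      rwa [add_zero] at this
    · change op Z.E0 • (x σ • t) = x σ • t
      rw [← smul_comm (x σ) (op Z.E0) t, htE]
  have α_mem : ∀ (c : A.C), c ∈ A.G 0 → c * Z.E0 = c → ∀ {k : ℤ} {x : Y.ι →₀ A.C},
      x ∈ ((idL R Z.E1 Z.E1_mem Z.E11).pc 0).X.gr k →
      mR Y (toA c) x ∈ ((idL R Z.E0 Z.E0_mem Z.E00).pc 0).X.gr k := by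
    intro c hc hcE k x hx
    refine ⟨?_, fun σ => ?_⟩
    · have := mR_mem Y (toA c) (fun a x => mul_assoc a x c) 0
        (fun {k x} h => A.mul_mem h hc) hx.1
      rwa [add_zero] at this
    · change x σ * c * Z.E0 = x σ * c
      rw [mul_assoc, hcE]
  have a_mem : ∀ (t : T.X), t ∈ T.gr Z.s → Z.E0 • t = t → ∀ {k : ℤ} {w : A.C},
      w ∈ ((idT R Z.E0 Z.E0_mem Z.E00).pc Z.s).gw k →
      ract T t w ∈ ((idL R Z.E0 Z.E0_mem Z.E00).pc 0).gw k := by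
    intro t ht htE k w hw
    refine ⟨?_, ?_⟩
    · have := T.smul_memR (show w ∈ A.G (k - Z.s) from hw.1) ht
      rwa [show k - Z.s + Z.s = k - 0 by ring] at this
    · change Z.E0 • (op w • t) = op w • t
      rw [smul_comm, htE]
  have b_mem : ∀ (c : A.C), c ∈ A.G 0 → Z.E1 * c = c → ∀ {k : ℤ} {w : T.X},
      w ∈ ((idL R Z.E0 Z.E0_mem Z.E00).pc 0).gw k →
      lact T c w ∈ ((idL R Z.E1 Z.E1_mem Z.E11).pc 0).gw k := by
    intro c hc hcE k w hw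
    refine ⟨?_, ?_⟩
    · have := T.smul_mem hc hw.1
      rwa [zero_add] at this
    · change Z.E1 • (c • w) = c • w
      rw [smul_smul, hcE]
  refine koszul (P1 := (idL R Z.E1 Z.E1_mem Z.E11).pc 0) (P2 := (idL R Z.E0 Z.E0_mem Z.E00).pc 0)
    (P3 := (idT R Z.E0 Z.E0_mem Z.E00).pc Z.s) two R.lo
    ((idL R Z.E0 Z.E0_mem Z.E00).ch h2 0 R.lo)
    (fun {k w} h => (idL R Z.E0 Z.E0_mem Z.E00).gw_d h)
    (fun {k w} h => (idT R Z.E0 Z.E0_mem Z.E00).gw_d h) (fun w => T.d_d w)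
    (mR Y (toA Z.X1)) (mR Y (toA Z.X0)) (mR Y (toT Z.T0)) (mR Y (toT Z.T1))
    (fun x => mR_d Y (toA Z.X1) (fun a x => mul_assoc a x Z.X1) (toA_d Z.X1_mem) x)
    (fun x => mR_d Y (toA Z.X0) (fun a x => mul_assoc a x Z.X0) (toA_d Z.X0_mem) x)
    (fun x => mR_d Y (toT Z.T0) (fun a x => toT_smul Z.T0 a x) (toT_d Z.dT0) x)
    (fun x => mR_d Y (toT Z.T1) (fun a x => toT_smul Z.T1 a x) (toT_d Z.dT1) x)
    (fun {k x} h => α_mem Z.X1 Z.X1_mem Z.X1E0 h) (fun {k x} h => α_mem Z.X0 Z.X0_mem Z.X0E0 h)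
    (fun {k x} h => β_mem Z.T0 Z.T0_mem Z.T0E0 h) (fun {k x} h => β_mem Z.T1 Z.T1_mem Z.T1E0 h)
    ?_ ?_ ?_ ?_ (ract T Z.T0) (ract T Z.T1) (lact T Z.X1) (lact T Z.X0)
    ?_ ?_ ?_ ?_
    (fun {k w} h => a_mem Z.T0 Z.T0_mem Z.E0T0 h) (fun {k w} h => a_mem Z.T1 Z.T1_mem Z.E0T1 h)
    (fun {k w} h => b_mem Z.X1 Z.X1_mem Z.E1X1 h) (fun {k w} h => b_mem Z.X0 Z.X0_mem Z.E1X0 h)
    ?_ ?_ ?_ ?_ (fun u w => evT R Z.T0 u w) (fun u w => evT R Z.T1 u w)
    (fun z w => evA R Z.X1 z w) (fun z w => evA R Z.X0 z w) k (H2 k) (H1 (k - 1))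
  · -- βα
    intro z
    change Y.ι →₀ A.C at z
    refine Finsupp.ext fun σ => ?_
    change (z σ * Z.X1) • Z.T0 + (z σ * Z.X0) • Z.T1 = 0
    rw [mul_smul, mul_smul, ← smul_add, Z.comm, smul_zero]
  · -- exX
    intro k u0 u1 h0 h1 h
    change Y.ι →₀ A.C at u0 u1
    replace h : (mR Y (toT Z.T0) u0 + mR Y (toT Z.T1) u1 : Y.ι →₀ T.X) = 0 := h
    have key : ∀ σ, ∃ z : A.C, z ∈ A.G (k + 0 - Y.s σ) ∧ Y.e σ * z = z ∧ z * Z.E1 = z ∧
        u0 σ = z * Z.X1 ∧ u1 σ = z * Z.X0 := by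
      intro σ
      obtain ⟨z, hz, hz1, hz2, hz3⟩ := Z.cE (h0.1 σ).1 (h1.1 σ).1 (h0.2 σ) (h1.2 σ)
        (DFunLike.congr_fun h σ)
      refine ⟨Y.e σ * z, ?_, ?_, ?_, ?_, ?_⟩
      · have := A.mul_mem (Y.e_mem σ) hz
        rwa [zero_add] at this
      · rw [← mul_assoc, Y.e_idem]
      · rw [mul_assoc, hz1]
      · rw [mul_assoc, ← hz2]
        exact (h0.1 σ).2.symm
      · rw [mul_assoc, ← hz3]
        exact (h1.1 σ).2.symm
    obtain ⟨z, hz⟩ := choose_fam (Y := Y) (N := selfL A) (u0.support ∪ u1.support)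
      (fun σ (z : A.C) => z ∈ A.G (k + 0 - Y.s σ) ∧ Y.e σ * z = z ∧ z * Z.E1 = z ∧
        u0 σ = z * Z.X1 ∧ u1 σ = z * Z.X0) (fun σ hσ => by
        rw [Finset.notMem_union, Finsupp.notMem_support_iff, Finsupp.notMem_support_iff] at hσ
        refine ⟨Submodule.zero_mem _, mul_zero _, zero_mul _, ?_, ?_⟩
        · rw [hσ.1]
          exact (zero_mul _).symm
        · rw [hσ.2]
          exact (zero_mul _).symm) key
    refine ⟨z, ⟨fun σ => ⟨(hz σ).1, (hz σ).2.1⟩, fun σ => (hz σ).2.2.1⟩, ?_, ?_⟩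
    · exact Finsupp.ext fun σ => (hz σ).2.2.2.1
    · exact Finsupp.ext fun σ => (hz σ).2.2.2.2
  · -- suX
    intro k x hx
    change Y.ι →₀ T.X at x
    have key : ∀ σ, ∃ z z' : A.C, (z ∈ A.G (k + 0 - Y.s σ) ∧ Y.e σ * z = z ∧ z * Z.E0 = z) ∧
        (z' ∈ A.G (k + 0 - Y.s σ) ∧ Y.e σ * z' = z' ∧ z' * Z.E0 = z') ∧
        x σ = z • Z.T0 + z' • Z.T1 := by
      intro σ
      have hd : x σ ∈ T.gr (k + 0 - Y.s σ + Z.s) := by
        have := (hx.1 σ).1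
        rwa [show k + Z.s - (Y.s σ : ℤ) = k + 0 - Y.s σ + Z.s by ring] at this
      obtain ⟨z, hz, z', hz', h1, h2, h3⟩ := Z.cS hd (hx.2 σ)
      refine ⟨Y.e σ * z, Y.e σ * z', ⟨?_, ?_, ?_⟩, ⟨?_, ?_, ?_⟩, ?_⟩
      · have := A.mul_mem (Y.e_mem σ) hz
        rwa [zero_add] at this
      · rw [← mul_assoc, Y.e_idem]
      · rw [mul_assoc, h1]
      · have := A.mul_mem (Y.e_mem σ) hz'
        rwa [zero_add] at this
      · rw [← mul_assoc, Y.e_idem]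
      · rw [mul_assoc, h2]
      · rw [mul_smul, mul_smul, ← smul_add, ← h3]
        exact (hx.1 σ).2.symm
    obtain ⟨z, z', hz⟩ := choose_fam2 (Y := Y) (N := selfL A) (N' := selfL A) x.support
      (fun σ (z z' : A.C) => (z ∈ A.G (k + 0 - Y.s σ) ∧ Y.e σ * z = z ∧ z * Z.E0 = z) ∧
        (z' ∈ A.G (k + 0 - Y.s σ) ∧ Y.e σ * z' = z' ∧ z' * Z.E0 = z') ∧
        x σ = z • Z.T0 + z' • Z.T1) (fun σ hσ => by
        rw [Finsupp.notMem_support_iff] at hσ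
        refine ⟨⟨Submodule.zero_mem _, mul_zero _, zero_mul _⟩,
          ⟨Submodule.zero_mem _, mul_zero _, zero_mul _⟩, ?_⟩
        rw [hσ]
        exact (show (0 : A.C) • Z.T0 + (0 : A.C) • Z.T1 = 0 by
          rw [zero_smul, zero_smul, add_zero]).symm) key
    refine ⟨z, ⟨fun σ => ⟨(hz σ).1.1, (hz σ).1.2.1⟩, fun σ => (hz σ).1.2.2⟩,
      z', ⟨fun σ => ⟨(hz σ).2.1.1, (hz σ).2.1.2.1⟩, fun σ => (hz σ).2.1.2.2⟩, ?_⟩
    exact Finsupp.ext fun σ => (hz σ).2.2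
  · -- inX
    intro k z hz h
    change Y.ι →₀ A.C at z
    replace h : (mR Y (toA Z.X1) z : Y.ι →₀ A.C) = 0 := h
    refine Finsupp.ext fun σ => ?_
    exact Z.cI (hz.1 σ).1 (hz.2 σ) (DFunLike.congr_fun h σ)
  · intro w
    change A.C at w
    change op (A.D w) • Z.T0 = T.d (op w • Z.T0)
    rw [T.leibR, Z.dT0, smul_zero, add_zero]
  · intro w
    change A.C at w
    change op (A.D w) • Z.T1 = T.d (op w • Z.T1)
    rw [T.leibR, Z.dT1, smul_zero, add_zero]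
  · intro w
    change T.X at w
    change Z.X1 • T.d w = T.d (Z.X1 • w)
    rw [T.leib, D_zero Z.X1_mem, zero_smul, zero_add]
  · intro w
    change T.X at w
    change Z.X0 • T.d w = T.d (Z.X0 • w)
    rw [T.leib, D_zero Z.X0_mem, zero_smul, zero_add]
  · intro w
    change A.C at w
    change Z.X1 • op w • Z.T0 + Z.X0 • op w • Z.T1 = 0
    rw [smul_comm, smul_comm Z.X0, ← smul_add, Z.comm, smul_zero]
  · intro k w hw h _
    exact Z.rI hw.1 hw.2 h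
  · intro k w0 w1 h0 h1 h
    obtain ⟨r, hr, h3, h4, h5⟩ := Z.rE h0.1 h1.1 h0.2 h1.2 h
    refine ⟨r, ⟨?_, h3⟩, h4, h5⟩
    rwa [show k - 0 - Z.s = k - Z.s by ring] at hr
  · intro k u hu
    obtain ⟨w0, hw0, w1, hw1, h3, h4, h5⟩ := Z.rS hu.1 hu.2
    exact ⟨w0, ⟨hw0, h3⟩, w1, ⟨hw1, h4⟩, h5⟩

/-- the columns `E1` of `Y ⊗ T` -/
theorem ex1 (hL : (paL R).Ex) (k : ℤ) :
    ((idT R Z.E1 Z.E1_mem Z.E11).pc Z.s).EX R.lo k := by
  classical
  have H2 : ((idL R Z.E0 Z.E0_mem Z.E00).pc 0).EX R.lo k := (idL R Z.E0 Z.E0_mem Z.E00).cut hL 0 k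
  intro x hx hd t ht
  change Y.ι →₀ T.X at x
  change A.C →ₗ[K] K at t
  -- lift of `x`
  have key : ∀ σ, ∃ z : A.C, z ∈ A.G (k - 1 + 0 - Y.s σ) ∧ Y.e σ * z = z ∧ z * Z.E0 = z ∧
      x σ = z • Z.U := by
    intro σ
    have hd : x σ ∈ T.gr (k - 1 + 0 - Y.s σ + Z.s) := by
      have := (hx.1 σ).1
      rwa [show k - 1 + Z.s - (Y.s σ : ℤ) = k - 1 + 0 - Y.s σ + Z.s by ring] at this
    obtain ⟨z, hz, h1, h2⟩ := Z.uX hd (hx.2 σ)
    refine ⟨Y.e σ * z, ?_, ?_, ?_, ?_⟩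
    · have := A.mul_mem (Y.e_mem σ) hz
      rwa [zero_add] at this
    · rw [← mul_assoc, Y.e_idem]
    · rw [mul_assoc, h1]
    · rw [mul_smul, ← h2]
      exact (hx.1 σ).2.symm
  obtain ⟨z, hz⟩ := choose_fam (Y := Y) (N := selfL A) x.support
    (fun σ (z : A.C) => z ∈ A.G (k - 1 + 0 - Y.s σ) ∧ Y.e σ * z = z ∧ z * Z.E0 = z ∧
      x σ = z • Z.U) (fun σ hσ => by
      rw [Finsupp.notMem_support_iff] at hσ
      refine ⟨Submodule.zero_mem _, mul_zero _, zero_mul _, ?_⟩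
      rw [hσ]
      exact (zero_smul A.C Z.U).symm) key
  have hxz : mR Y (toT Z.U) z = x := Finsupp.ext fun σ => (hz σ).2.2.2.symm
  have hzm : z ∈ ((idL R Z.E0 Z.E0_mem Z.E00).pc 0).X.gr (k - 1) :=
    ⟨fun σ => ⟨(hz σ).1, (hz σ).2.1⟩, fun σ => (hz σ).2.2.1⟩
  have hzd : (tY Y (selfL A)).d z = 0 := by
    have h1 := ((idL R Z.E0 Z.E0_mem Z.E00).pc 0).X.d_mem hzm
    have h3 : mR Y (toT Z.U) ((tY Y (selfL A)).d z) = 0 := by
      rw [mR_d Y (toT Z.U) (fun a x => toT_smul Z.U a x) (toT_d Z.dU), hxz]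
      exact hd
    refine Finsupp.ext fun σ => ?_
    exact Z.uI (h1.1 σ).1 (h1.2 σ) (DFunLike.congr_fun h3 σ)
  -- lift of `t`
  let S : Submodule K A.C :=
    { carrier := {r | r ∈ A.G (-(R.lo + k) - Z.s) ∧ Z.E1 * r = r}
      add_mem' := fun {x y} hx hy => ⟨Submodule.add_mem _ hx.1 hy.1, by
        rw [mul_add, hx.2, hy.2]⟩
      zero_mem' := ⟨Submodule.zero_mem _, mul_zero _⟩
      smul_mem' := fun r x hx => ⟨Submodule.smul_mem _ r hx.1, by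
        rw [mul_smul_comm, hx.2]⟩ }
  obtain ⟨t2, ht2⟩ := exists_factor (ract T Z.U) S t (by
    intro r hr h
    rw [Z.uJ hr.1 hr.2 h, map_zero])
  obtain ⟨y, hy, hyd, t3, ht3⟩ := H2 z hzm hzd t2 (by
    intro w hw
    change T.X at w
    obtain ⟨r, hr, h1, h3⟩ := Z.uW hw.1 hw.2
    rw [show -(R.lo + k - 1) - 0 - Z.s = -(R.lo + k - 1) - Z.s by ring] at hr
    have h4 := ht r ⟨hr, h1⟩
    change (paT R).ev x r + t (A.D r) = 0 at h4
    have h5 : A.D r ∈ S := by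
      refine ⟨?_, ?_⟩
      · have := A.D_mem hr
        rwa [show -(R.lo + k - 1) - Z.s - 1 = -(R.lo + k) - Z.s by ring] at this
      · have := congrArg A.D h1
        rwa [A.D_mul, D_zero Z.E1_mem, zero_mul, zero_add] at this
    have h6 := ht2 _ h5
    change t2 (op (A.D r) • Z.U) = t (A.D r) at h6
    have h7 : T.d w = op (A.D r) • Z.U := by
      rw [h3, T.leibR, Z.dU, smul_zero, add_zero]
    change (paL R).ev z w + t2 (T.d w) = 0
    rw [h7, h6, h3, ← evT, hxz]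
    exact h4)
  change Y.ι →₀ A.C at y
  refine ⟨mR Y (toT Z.U) y, ⟨?_, fun σ => ?_⟩, ?_, t3 ∘ₗ ract T Z.U, ?_⟩
  · have := mR_mem Y (toT Z.U) (fun a x => toT_smul Z.U a x) Z.s
      (fun {k x} h => T.smul_mem h Z.U_mem) hy.1
    rwa [add_zero] at this
  · change op Z.E1 • (y σ • Z.U) = y σ • Z.U
    rw [← smul_comm (y σ) (op Z.E1) Z.U, Z.UE1]
  · change (tY Y T.toLM).d (mR Y (toT Z.U) y) = x
    rw [← mR_d Y (toT Z.U) (fun a x => toT_smul Z.U a x) (toT_d Z.dU)]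
    have : (tY Y (selfL A)).d y = z := hyd
    rw [this, hxz]
  · intro r hr
    change A.C at r
    have hr' : r ∈ S := hr
    have h1 := ht2 r hr'
    change t2 (op r • Z.U) = t r at h1
    have h3 := ht3 (op r • Z.U) ⟨by
      have := T.smul_memR (show r ∈ A.G (-(R.lo + k) - Z.s) from hr.1) Z.U_mem
      rwa [show -(R.lo + k) - Z.s + Z.s = -(R.lo + k) - 0 by ring] at this, by
      change Z.E0 • op r • Z.U = op r • Z.U
      rw [smul_comm, Z.E0U]⟩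
    change t r = (paT R).ev (mR Y (toT Z.U) y) r + t3 (op (A.D r) • Z.U)
    have h7 : T.d (op r • Z.U) = op (A.D r) • Z.U := by
      rw [T.leibR, Z.dU, smul_zero, add_zero]
    rw [evT, ← h1, ← h7]
    exact h3

include Z in
/-- **`(beta)`** -/
theorem beta (h2 : (2 : K) = 0) (hL : (paL R).Ex) : (paT R).Ex := fun k =>
  Id.glue (idT R Z.E0 Z.E0_mem Z.E00) (idT R Z.E1 Z.E1_mem Z.E11)
    (fun x => by
      change T.X at x
      change op Z.E0 • x + op Z.E1 • x = x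
      rw [← add_smul, ← op_add, Z.E_add, op_one, one_smul])
    (fun r => by
      change A.C at r
      change Z.E0 * r + Z.E1 * r = r
      rw [← add_mul, Z.E_add, one_mul]) Z.s k
    (ex0 R Z h2 hL (k - Z.s)) (ex1 R Z hL (k - Z.s))

end pa

end Crest.Agent.R186.C1b328
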