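import Mathlib

/-!
Row 186, half (A), leaf A.C1 (helper226): acyclic bounded below complexes which are graded-free
over the six-dimensional algebra `W` (four generators `y g`, socle `pi`) stay acyclic modulo `W_+`.
-/

set_option autoImplicit false

namespace Crest.Agent.R186.FW226

variable {K C ι : Type*} [Field K] [AddCommGroup C] [Module K C] [Fintype ι]

/-- the action of `W` on a complex -/
structure WC (K C ι : Type*) [Field K] [AddCommGroup C] [Module K C] [Fintype ι] where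
  gr : ℤ → Submodule K C
  d : C →ₗ[K] C
  d_mem : ∀ {k : ℤ} {x : C}, x ∈ gr k → d x ∈ gr (k - 1)
  d_d : ∀ x, d (d x) = 0
  lo : ℤ
  low : ∀ k : ℤ, k < lo → ∀ x ∈ gr k, x = 0
  y : ι → C →ₗ[K] C
  δ : ι → ℕ
  y_mem : ∀ {k : ℤ} {x : C} (g : ι), x ∈ gr k → y g x ∈ gr (k + δ g)
  y_d : ∀ (g : ι) (x : C), d (y g x) = y g (d x)
  pi : C →ₗ[K] C
  δp : ℕ
  pi_mem : ∀ {k : ℤ} {x : C}, x ∈ gr k → pi x ∈ gr (k + δp)
  pi_d : ∀ x : C, d (pi x) = pi (d x)
  /-- the submodule `C W_+` -/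
  Wp : Submodule K C
  y_Wp : ∀ (g : ι) (x : C), y g x ∈ Wp
  pi_Wp : ∀ x : C, pi x ∈ Wp
  hW : ∀ {k : ℤ} {w : C}, w ∈ Wp → w ∈ gr k →
    ∃ c : ι → C, (∀ g, c g ∈ gr (k - δ g)) ∧ w = ∑ g, y g (c g)
  yW : ∀ {k : ℤ} {w : C} (g : ι), w ∈ Wp → w ∈ gr k → ∃ c ∈ gr (k + δ g - δp), y g w = pi c
  piW : ∀ w ∈ Wp, pi w = 0
  fr1 : ∀ c : ι → C, (∃ x, ∑ g, y g (c g) = pi x) → ∀ g, c g ∈ Wp
  fr2 : ∀ c : C, pi c = 0 → c ∈ Wp

namespace WC

variable (S : WC K C ι)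

theorem Wp_d {w : C} {k : ℤ} (h : w ∈ S.Wp) (hk : w ∈ S.gr k) : S.d w ∈ S.Wp := by
  obtain ⟨c, -, rfl⟩ := S.hW h hk
  rw [map_sum]
  refine Submodule.sum_mem _ fun g _ => ?_
  rw [S.y_d]
  exact S.y_Wp _ _

/-- the inductive statement -/
def Z (k : ℤ) : Prop :=
  ∀ c ∈ S.gr k, S.d c ∈ S.Wp → ∃ c' ∈ S.gr (k + 1), c - S.d c' ∈ S.Wp

/-- homology of `C W_+` from homology of the quotient in lower degrees -/
theorem sub_acyclic (k : ℤ) (ih : ∀ j : ℤ, j ≤ k → S.Z j) (w : C) (hw : w ∈ S.Wp)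
    (hk : w ∈ S.gr k) (hd : S.d w = 0) : ∃ w' ∈ S.gr (k + 1), w' ∈ S.Wp ∧ S.d w' = w := by
  obtain ⟨c, hc, rfl⟩ := S.hW hw hk
  have h1 : ∀ g, S.d (c g) ∈ S.Wp := by
    refine S.fr1 (fun g => S.d (c g)) ⟨0, ?_⟩
    rw [map_zero, ← hd, map_sum]
    exact Finset.sum_congr rfl fun g _ => (S.y_d g (c g)).symm
  have h2 : ∀ g, ∃ c' ∈ S.gr (k - S.δ g + 1), c g - S.d c' ∈ S.Wp := fun g =>
    ih (k - S.δ g) (by omega) (c g) (hc g) (h1 g)
  choose c' hc' hw' using h2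
  have h3 : ∀ g, c g - S.d (c' g) ∈ S.gr (k - S.δ g) := by
    intro g
    refine Submodule.sub_mem _ (hc g) ?_
    have := S.d_mem (hc' g)
    rwa [add_sub_cancel_right] at this
  have h4 : ∀ g, ∃ e ∈ S.gr (k - S.δp), S.y g (c g - S.d (c' g)) = S.pi e := by
    intro g
    obtain ⟨e, he, h⟩ := S.yW g (hw' g) (h3 g)
    refine ⟨e, ?_, h⟩
    rwa [sub_add_cancel] at he
  choose e he hye using h4
  have hE : ∑ g, e g ∈ S.gr (k - S.δp) := Submodule.sum_mem _ fun g _ => he g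
  have h5 : ∑ g, S.y g (c g) = S.d (∑ g, S.y g (c' g)) + S.pi (∑ g, e g) := by
    rw [map_sum, map_sum, ← Finset.sum_add_distrib]
    refine Finset.sum_congr rfl fun g _ => ?_
    rw [← hye g, S.y_d, ← map_add, add_sub_cancel]
  have h6 : S.pi (S.d (∑ g, e g)) = 0 := by
    rw [← S.pi_d]
    have := congrArg S.d h5
    rw [hd, map_add, S.d_d, zero_add] at this
    exact this.symm
  obtain ⟨f, hf, hfw⟩ := ih (k - S.δp) (by omega) _ hE (S.fr2 _ h6)
  refine ⟨∑ g, S.y g (c' g) + S.pi f, ?_, ?_, ?_⟩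
  · refine Submodule.add_mem _ (Submodule.sum_mem _ fun g _ => ?_) ?_
    · have := S.y_mem g (hc' g)
      rwa [show k - (S.δ g : ℤ) + 1 + S.δ g = k + 1 by ring] at this
    · have := S.pi_mem hf
      rwa [show k - (S.δp : ℤ) + 1 + S.δp = k + 1 by ring] at this
  · exact Submodule.add_mem _ (Submodule.sum_mem _ fun g _ => S.y_Wp _ _) (S.pi_Wp _)
  · rw [h5, map_add]
    congr 1
    have h7 := S.piW _ hfw
    rw [map_sub, sub_eq_zero] at h7
    rw [h7, S.pi_d]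

/-- **an acyclic complex which is graded-free over `W` is acyclic modulo `W_+`** -/
theorem bar_acyclic (ac : ∀ (k : ℤ), ∀ x ∈ S.gr k, S.d x = 0 → ∃ x' ∈ S.gr (k + 1), S.d x' = x)
    (k : ℤ) : S.Z k := by
  have key : ∀ (n : ℕ) (k : ℤ), k < S.lo + n → S.Z k := by
    intro n
    induction n with
    | zero =>
      intro k hk c hc _
      refine ⟨0, Submodule.zero_mem _, ?_⟩
      rw [S.low k (by simpa using hk) c hc, map_zero, sub_zero]
      exact Submodule.zero_mem _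
    | succ n ih =>
      intro k hk c hc hw
      have hk1 : S.d c ∈ S.gr (k - 1) := S.d_mem hc
      obtain ⟨w', hw', hwp, hwd⟩ := S.sub_acyclic (k - 1)
        (fun j hj => ih j (by push_cast at hk; omega)) (S.d c) hw hk1 (S.d_d c)
      rw [sub_add_cancel] at hw'
      obtain ⟨c', hc', hcd⟩ := ac k (c - w') (Submodule.sub_mem _ hc hw') (by
        rw [map_sub, hwd, sub_self])
      refine ⟨c', hc', ?_⟩
      rw [hcd, sub_sub_cancel]
      exact hwp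
  exact key (k - S.lo + 1).toNat k (by omega)

end WC

end Crest.Agent.R186.FW226
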