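import Crest.Agent.R186.Frame2_515
import Crest.Agent.R186.FW_226

/-!
Row 186, half (A), leaf FWI (helper226): right `W`-freeness of right dg modules, and its
consequence: a quasi-isomorphism of bounded below right `W`-free modules is a quasi-isomorphism
modulo `W_+`.
-/

set_option autoImplicit false
set_option linter.style.haveILetI false
set_option linter.unusedSectionVars false

open MulOpposite

namespace Crest.Agent.R186.FWI226

open Hat827 Frame515

variable {K : Type} [Field K] {A : DGA K}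

/-- the letters of `W` in a dg algebra -/
structure WEl (A : DGA K) where
  ι : Type
  [fι : Fintype ι]
  [dι : DecidableEq ι]
  y : ι → A.C
  δ : ι → ℕ
  y_mem : ∀ g, y g ∈ A.G (δ g)
  D_y : ∀ g, A.D (y g) = 0
  pi : A.C
  δp : ℕ
  pi_mem : pi ∈ A.G δp
  D_pi : A.D pi = 0
  ε : ι → ι → K
  yy : ∀ g g', y g * y g' = ε g g' • pi
  ε_deg : ∀ g g', ε g g' ≠ 0 → δ g + δ g' = δp
  y_pi : ∀ g, y g * pi = 0
  pi_y : ∃ (g : ι) (a : A.C), pi = a * y g

attribute [instance] WEl.fι WEl.dι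

variable (S : WEl A)

/-- `Σ c_g · y_g` -/
def sy (G : RM A) : (S.ι → G.X) →ₗ[K] G.X := ∑ g, rmul G (S.y g) ∘ₗ LinearMap.proj g

theorem sy_apply (G : RM A) (c : S.ι → G.X) : sy S G c = ∑ g, op (S.y g) • c g := by
  rw [sy, LinearMap.sum_apply]
  rfl

/-- `G W_+` -/
def Wp (G : RM A) : Submodule K G.X := LinearMap.range (sy S G)

theorem mem_Wp {G : RM A} {w : G.X} : w ∈ Wp S G ↔ ∃ c : S.ι → G.X, ∑ g, op (S.y g) • c g = w := by
  rw [Wp, LinearMap.mem_range]
  simp only [sy_apply]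

theorem y_Wp {G : RM A} (g : S.ι) (x : G.X) : op (S.y g) • x ∈ Wp S G := by
  rw [mem_Wp]
  refine ⟨Pi.single g x, ?_⟩
  rw [Finset.sum_eq_single g]
  · rw [Pi.single_eq_same]
  · intro g' _ h
    rw [Pi.single_eq_of_ne h, smul_zero]
  · intro h
    exact absurd (Finset.mem_univ g) h

theorem pi_Wp {G : RM A} (x : G.X) : op S.pi • x ∈ Wp S G := by
  obtain ⟨g, a, h⟩ := S.pi_y
  rw [h, op_mul, mul_smul]
  exact y_Wp S g _

theorem smulK (G : RM A) (r : K) (a : A.C) (x : G.X) : op (r • a) • x = op a • (r • x) := by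
  rw [op_smul, smul_assoc, ← rmul_apply, ← rmul_apply, map_smul]

theorem piW {G : RM A} {w : G.X} (h : w ∈ Wp S G) : op S.pi • w = 0 := by
  obtain ⟨c, rfl⟩ := (mem_Wp S).1 h
  rw [Finset.smul_sum]
  refine Finset.sum_eq_zero fun g _ => ?_
  rw [smul_smul, ← op_mul, S.y_pi, op_zero, zero_smul]

/-- right `W`-freeness -/
structure RFree (G : RM A) : Prop where
  a : ∀ (k : ℤ) (w : G.X), w ∈ Wp S G → w ∈ G.gr k →
    ∃ c : S.ι → G.X, (∀ g, c g ∈ G.gr (k - S.δ g)) ∧ w = ∑ g, op (S.y g) • c g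
  b : ∀ c : S.ι → G.X, (∃ x : G.X, ∑ g, op (S.y g) • c g = op S.pi • x) → ∀ g, c g ∈ Wp S G
  c : ∀ x : G.X, op S.pi • x = 0 → x ∈ Wp S G

theorem rmul_d {G : RM A} {a : A.C} (h : A.D a = 0) (x : G.X) :
    G.d (op a • x) = op a • G.d x := by
  rw [G.leib, h, op_zero, zero_smul, zero_add]

/-- the `W`-complex of a right `W`-free module -/
def toWC {G : RM A} (hG : RFree S G) (lo : ℤ) (low : ∀ k : ℤ, k < lo → ∀ x ∈ G.gr k, x = 0) :
    FW226.WC K G.X S.ι where
  gr := G.gr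
  d := G.d
  d_mem := G.d_mem
  d_d := G.d_d
  lo := lo
  low := low
  y g := rmul G (S.y g)
  δ := S.δ
  y_mem {k x} g hx := by
    have := G.smul_mem (S.y_mem g) hx
    rwa [add_comm] at this
  y_d g x := rmul_d (S.D_y g) x
  pi := rmul G S.pi
  δp := S.δp
  pi_mem {k x} hx := by
    have := G.smul_mem S.pi_mem hx
    rwa [add_comm] at this
  pi_d x := rmul_d S.D_pi x
  Wp := Wp S G
  y_Wp g x := y_Wp S g x
  pi_Wp x := pi_Wp S x
  hW {k w} hw hk := hG.a k w hw hk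
  yW {k w} g hw hk := by
    obtain ⟨c, hc, rfl⟩ := hG.a k w hw hk
    refine ⟨∑ g', S.ε g' g • c g', Submodule.sum_mem _ fun g' _ => ?_, ?_⟩
    · by_cases h : S.ε g' g = 0
      · rw [h, zero_smul]
        exact Submodule.zero_mem _
      · have h1 := S.ε_deg g' g h
        have h2 := hc g'
        rw [show k + (S.δ g : ℤ) - S.δp = k - S.δ g' by omega]
        exact Submodule.smul_mem _ _ h2
    · rw [rmul_apply, rmul_apply, Finset.smul_sum, Finset.smul_sum]
      refine Finset.sum_congr rfl fun g' _ => ?_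
      rw [smul_smul, ← op_mul, S.yy, smulK]
  piW w hw := piW S hw
  fr1 c h := hG.b c (by
    obtain ⟨x, hx⟩ := h
    exact ⟨x, hx⟩)
  fr2 c h := hG.c c h

/-- **an acyclic bounded below right `W`-free module is acyclic modulo `W_+`** -/
theorem RFree.bar {G : RM A} (hG : RFree S G) (lo : ℤ)
    (low : ∀ k : ℤ, k < lo → ∀ x ∈ G.gr k, x = 0) (ac : Ac G.toGC) (k : ℤ) (c : G.X)
    (hc : c ∈ G.gr k) (hd : G.d c ∈ Wp S G) :
    ∃ c' ∈ G.gr (k + 1), c - G.d c' ∈ Wp S G :=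
  (toWC S hG lo low).bar_acyclic ac k c hc hd

/-! ### cones -/

/-- right linear chain maps -/
structure RHom (G H : RM A) extends GCHom G.toGC H.toGC where
  lin : ∀ (a : A.C) (x : G.X), f (op a • x) = op a • f x

theorem two_rm (G : RM A) (x : G.X) : x + x = 0 := by
  have h : x = op (1 : A.C) • x := by rw [op_one, one_smul]
  rw [h, ← add_smul, ← op_add, A.two, op_zero, zero_smul]

/-- the cone of a right linear chain map, as a right module -/
def coneR {G H : RM A} (f : RHom G H) : RM A where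
  X := G.X × H.X
  gr k := (G.gr (k - 1)).prod (H.gr k)
  d := LinearMap.prod (G.d ∘ₗ LinearMap.fst K _ _)
    (f.f ∘ₗ LinearMap.fst K _ _ + H.d ∘ₗ LinearMap.snd K _ _)
  d_mem {k x} hx := by
    have h1 : G.d x.1 ∈ G.gr (k - 1 - 1) := G.d_mem hx.1
    have h2 : f.f x.1 + H.d x.2 ∈ H.gr (k - 1) :=
      Submodule.add_mem _ (f.f_mem hx.1) (H.d_mem hx.2)
    exact ⟨h1, h2⟩
  d_d x := by
    refine Prod.ext ?_ ?_
    · simp [G.d_d]
    · simp [f.f_d, H.d_d, two_rm]
  smul_mem {k l a x} ha hx := by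
    refine ⟨?_, H.smul_mem ha hx.2⟩
    have := G.smul_mem ha hx.1
    rwa [show k + (l - 1) = k + l - 1 by ring] at this
  leib a x := by
    refine Prod.ext ?_ ?_
    · exact G.leib a x.1
    · change f.f (op a • x.1) + H.d (op a • x.2) =
        op (A.D a) • x.2 + op a • (f.f x.1 + H.d x.2)
      rw [f.lin, H.leib, smul_add]
      abel

theorem cone_Wp {G H : RM A} (f : RHom G H) {x : G.X} {y : H.X} :
    ((x, y) : G.X × H.X) ∈ Wp S (coneR f) ↔ x ∈ Wp S G ∧ y ∈ Wp S H := by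
  constructor
  · intro h
    obtain ⟨c, hc⟩ := (mem_Wp S).1 h
    constructor
    · refine (mem_Wp S).2 ⟨fun g => (c g).1, ?_⟩
      refine Eq.trans ?_ (congrArg Prod.fst hc)
      exact (Prod.fst_sum (s := Finset.univ)
        (f := fun g => ((op (S.y g) • (c g).1, op (S.y g) • (c g).2) : G.X × H.X))).symm
    · refine (mem_Wp S).2 ⟨fun g => (c g).2, ?_⟩
      refine Eq.trans ?_ (congrArg Prod.snd hc)
      exact (Prod.snd_sum (s := Finset.univ)
        (f := fun g => ((op (S.y g) • (c g).1, op (S.y g) • (c g).2) : G.X × H.X))).symm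
  · rintro ⟨hx, hy⟩
    obtain ⟨c, rfl⟩ := (mem_Wp S).1 hx
    obtain ⟨e, rfl⟩ := (mem_Wp S).1 hy
    refine (mem_Wp S).2 ⟨fun g => ((c g, e g) : G.X × H.X), ?_⟩
    refine Prod.ext ?_ ?_
    · exact Prod.fst_sum (s := Finset.univ)
        (f := fun g => ((op (S.y g) • c g, op (S.y g) • e g) : G.X × H.X))
    · exact Prod.snd_sum (s := Finset.univ)
        (f := fun g => ((op (S.y g) • c g, op (S.y g) • e g) : G.X × H.X))

/-- the cone of a map of right `W`-free modules is right `W`-free -/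
theorem RFree.cone {G H : RM A} (hG : RFree S G) (hH : RFree S H) (f : RHom G H) :
    RFree S (coneR f) where
  a := by
    rintro k ⟨x, y⟩ hw ⟨hx, hy⟩
    obtain ⟨h1, h2⟩ := (cone_Wp S f).1 hw
    obtain ⟨c, hc, hcx⟩ := hG.a (k - 1) x h1 hx
    obtain ⟨e, he, hey⟩ := hH.a k y h2 hy
    refine ⟨fun g => ((c g, e g) : G.X × H.X), fun g => ⟨?_, he g⟩, ?_⟩
    · have := hc g
      rwa [show k - 1 - (S.δ g : ℤ) = k - S.δ g - 1 by ring] at this
    · refine Prod.ext ?_ ?_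
      · rw [hcx]
        exact (Prod.fst_sum (s := Finset.univ)
          (f := fun g => ((op (S.y g) • c g, op (S.y g) • e g) : G.X × H.X))).symm
      · rw [hey]
        exact (Prod.snd_sum (s := Finset.univ)
          (f := fun g => ((op (S.y g) • c g, op (S.y g) • e g) : G.X × H.X))).symm
  b := by
    rintro c ⟨x, hx⟩ g
    have h1 := hG.b (fun g => (c g).1) ⟨x.1, by
      have := congrArg Prod.fst hx
      refine Eq.trans ?_ this
      exact (Prod.fst_sum (s := Finset.univ) (f := fun g => op (S.y g) • c g)).symm⟩ g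
    have h2 := hH.b (fun g => (c g).2) ⟨x.2, by
      have := congrArg Prod.snd hx
      refine Eq.trans ?_ this
      exact (Prod.snd_sum (s := Finset.univ) (f := fun g => op (S.y g) • c g)).symm⟩ g
    exact (cone_Wp S f (x := (c g).1) (y := (c g).2)).2 ⟨h1, h2⟩
  c := by
    intro x hx
    exact (cone_Wp S f (x := x.1) (y := x.2)).2
      ⟨hG.c _ (congrArg Prod.fst hx), hH.c _ (congrArg Prod.snd hx)⟩

/-- the cone of a quasi-isomorphism is acyclic -/
theorem coneR_ac {G H : RM A} (f : RHom G H) (hf : QI f.toGCHom) : Ac (coneR f).toGC := by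
  rintro k ⟨x, y⟩ ⟨hx, hy⟩ hd
  have h1 : G.d x = 0 := congrArg Prod.fst hd
  have h2 : f.f x + H.d y = 0 := congrArg Prod.snd hd
  have h3 : f.f x = H.d y := by
    rw [← add_zero (f.f x), ← two_rm H (H.d y), ← add_assoc, h2, zero_add]
  obtain ⟨w, hw, hxw⟩ := hf.inj (k - 1) x hx h1 ⟨y, by
    rw [show k - 1 + 1 = k by ring]; exact hy, h3⟩
  rw [show k - 1 + 1 = k by ring] at hw
  obtain ⟨v, hv, hdv, z, hz, hyz⟩ := hf.surj k (y + f.f w)
    (Submodule.add_mem _ hy (f.f_mem hw)) (by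
      rw [map_add, ← f.f_d, ← hxw, h3, two_rm])
  refine ⟨(w + v, z), ⟨?_, hz⟩, Prod.ext ?_ ?_⟩
  · change w + v ∈ G.gr (k + 1 - 1)
    rw [add_sub_cancel_right]
    exact Submodule.add_mem _ hw hv
  · change G.d (w + v) = x
    rw [map_add, hdv, add_zero, hxw]
  · change f.f (w + v) + H.d z = y
    rw [map_add, add_assoc, ← hyz, add_comm y, ← add_assoc, two_rm, zero_add]

/-- **a quasi-isomorphism of bounded below right `W`-free modules is one modulo `W_+`**:
surjectivity on classes -/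
theorem bar_surj {G H : RM A} (hG : RFree S G) (hH : RFree S H) (f : RHom G H)
    (hf : QI f.toGCHom) (lo : ℤ) (lowG : ∀ k : ℤ, k < lo → ∀ x ∈ G.gr k, x = 0)
    (lowH : ∀ k : ℤ, k < lo → ∀ x ∈ H.gr k, x = 0) (k : ℤ) (y : H.X) (hy : y ∈ H.gr k)
    (hd : H.d y ∈ Wp S H) :
    ∃ x ∈ G.gr k, G.d x ∈ Wp S G ∧ ∃ z ∈ H.gr (k + 1), y - (f.f x + H.d z) ∈ Wp S H := by
  obtain ⟨⟨x, z⟩, ⟨hx, hz⟩, hw⟩ := (hG.cone S hH f).bar S lo
    (fun k hk w hw => Prod.ext (lowG (k - 1) (by omega) _ hw.1) (lowH k hk _ hw.2))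
    (coneR_ac f hf) k ((0, y) : G.X × H.X) ⟨Submodule.zero_mem _, hy⟩ (by
      refine (cone_Wp S f (x := G.d 0) (y := f.f 0 + H.d y)).2 ⟨?_, ?_⟩
      · rw [map_zero]; exact Submodule.zero_mem _
      · rwa [map_zero, zero_add])
  obtain ⟨h1, h2⟩ := (cone_Wp S f (x := 0 - G.d x) (y := y - (f.f x + H.d z))).1 hw
  refine ⟨x, ?_, ?_, z, hz, h2⟩
  · have : x ∈ G.gr (k + 1 - 1) := hx
    rwa [add_sub_cancel_right] at this
  · rw [zero_sub] at h1
    exact (Submodule.neg_mem_iff _).1 h1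

/-- injectivity on classes -/
theorem bar_inj {G H : RM A} (hG : RFree S G) (hH : RFree S H) (f : RHom G H)
    (hf : QI f.toGCHom) (lo : ℤ) (lowG : ∀ k : ℤ, k < lo → ∀ x ∈ G.gr k, x = 0)
    (lowH : ∀ k : ℤ, k < lo → ∀ x ∈ H.gr k, x = 0) (k : ℤ) (x : G.X) (hx : x ∈ G.gr k)
    (hd : G.d x ∈ Wp S G) (z : H.X) (hz : z ∈ H.gr (k + 1)) (h : f.f x - H.d z ∈ Wp S H) :
    ∃ w ∈ G.gr (k + 1), x - G.d w ∈ Wp S G := by
  obtain ⟨⟨w, v⟩, ⟨hw, hv⟩, he⟩ := (hG.cone S hH f).bar S lo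
    (fun k hk w hw => Prod.ext (lowG (k - 1) (by omega) _ hw.1) (lowH k hk _ hw.2))
    (coneR_ac f hf) (k + 1) ((x, z) : G.X × H.X)
    ⟨by change x ∈ G.gr (k + 1 - 1); rwa [add_sub_cancel_right], hz⟩ (by
      refine (cone_Wp S f (x := G.d x) (y := f.f x + H.d z)).2 ⟨hd, ?_⟩
      have e : f.f x + H.d z = f.f x - H.d z := by
        rw [sub_eq_add_neg]
        congr 1
        exact eq_neg_of_add_eq_zero_left (two_rm H _)
      rwa [e])
  obtain ⟨h1, -⟩ := (cone_Wp S f (x := x - G.d w) (y := z - (f.f w + H.d v))).1 he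
  refine ⟨w, ?_, h1⟩
  have : w ∈ G.gr (k + 1 + 1 - 1) := hw
  rwa [add_sub_cancel_right] at this

end Crest.Agent.R186.FWI226
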