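import Crest.Agent.R186.C2pp_655
import Crest.Agent.R186.FWI_226
import Crest.Agent.R186.FinV_988

/-!
Row 186, half (A), leaf A.C1 (helper226): the instance `WG` of helper655's `C2pp_655` for
`G = DR N` (functionals on a left module `N` over `A`), `G' = DR N'` (functionals on a left module
`N'` over `A'`), where `i : N' → N` is the inclusion of the part killed by `W_+`; and right
`W`-freeness (`FWI226.RFree`) of `DR N`.
-/

set_option autoImplicit false
set_option linter.style.haveILetI false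
set_option linter.unusedSectionVars false

open MulOpposite

namespace Crest.Agent.R186.C2G226

open Hat827 Hat827.DGA Frame515 Res255 C2pp655 FinV988

variable {K : Type} [Field K] {A A' : DGA K}

/-- the left module `N` is cofree over `W`, with socle `N'` -/
structure WN {ι : Type} [Fintype ι] (y : ι → A.C) (δ : ι → ℕ) (pi : A.C) (δp : ℕ) (pr : Hm A A')
    (N : LM A) (N' : LM A') where
  i : N'.X →ₗ[K] N.X
  i_d : ∀ z, i (N'.d z) = N.d (i z)
  i_smul : ∀ (a : A.C) (z : N'.X), i (pr.f a • z) = a • i z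
  i_mem : ∀ {k : ℤ} {z : N'.X}, z ∈ N'.gr k → i z ∈ N.gr k
  r : N.X →ₗ[K] N'.X
  r_mem : ∀ {k : ℤ} {n : N.X}, n ∈ N.gr k → r n ∈ N'.gr k
  r_i : ∀ z, r (i z) = z
  P : PrL N
  s : ι → N.X →ₗ[K] N.X
  s_mem : ∀ g {k : ℤ} {n : N.X}, n ∈ N.gr k → s g n ∈ N.gr (k - δ g)
  u : ι → N.X →ₗ[K] N.X
  u_mem : ∀ g {k : ℤ} {n : N.X}, n ∈ N.gr k → u g n ∈ N.gr (k + δ g - δp)
  hs : ∀ n : N.X, ∃ z, n = ∑ g, s g (y g • n) + i z
  hu : ∀ g (n : N.X), ∃ z, y g • n = u g (pi • n) + i z
  hp : ∀ n : N.X, ∃ z, pi • n = i z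
  f1 : ∀ g z, ∃ m : N.X, y g • m = i z ∧ (∀ g', g' ≠ g → y g' • m = 0) ∧ pi • m = 0
  f2 : ∀ z, ∃ m : N.X, pi • m = i z

section

variable {ι : Type} [Fintype ι] {y : ι → A.C} {δ : ι → ℕ} {pi : A.C} {δp : ℕ} {pr : Hm A A'}
  {N : LM A} {N' : LM A'} (V : WN y δ pi δp pr N N')

/-- evaluation of a sum -/
theorem dev_smul (a : A.C) (f : (DR N).X) (z : N.X) :
    dev N z (op a • f) = dev N (a • z) f := rfl

theorem dev_add (f : (DR N).X) (z z' : N.X) : dev N (z + z') f = dev N z f + dev N z' f :=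
  map_add (show N.X →ₗ[K] K from f) z z'

theorem dev_zero (f : (DR N).X) : dev N 0 f = 0 := map_zero (show N.X →ₗ[K] K from f)

theorem dev_sum {κ : Type} (S : Finset κ) (z : κ → N.X) (f : (DR N).X) :
    dev N (∑ j ∈ S, z j) f = ∑ j ∈ S, dev N (z j) f :=
  map_sum (show N.X →ₗ[K] K from f) z S

/-- functional composed with an operator -/
noncomputable def pre (t : N.X →ₗ[K] N.X) (f : (DR N).X) : (DR N).X :=
  (show N.X →ₗ[K] K from f) ∘ₗ t

theorem dev_pre (t : N.X →ₗ[K] N.X) (f : (DR N).X) (z : N.X) : dev N z (pre t f) = dev N (t z) f := rfl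

/-- restriction of functionals to the socle -/
noncomputable def resq : (DR N).X →ₗ[K] (DR N').X where
  toFun f := (show N.X →ₗ[K] K from f) ∘ₗ V.i
  map_add' _ _ := rfl
  map_smul' _ _ := rfl

theorem dev_resq (f : (DR N).X) (z : N'.X) : dev N' z (resq V f) = dev N (V.i z) f := rfl

theorem resq_zero {f : (DR N).X} (h : resq V f = 0) (z : N'.X) : dev N (V.i z) f = 0 := by
  rw [← dev_resq V f z, h, map_zero]

theorem resq_of {f : (DR N).X} (h : ∀ z : N'.X, dev N (V.i z) f = 0) : resq V f = 0 :=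
  DR_ext fun z => by rw [dev_resq, h, map_zero]

theorem hW' {k : ℤ} {f : (DR N).X} (h0 : resq V f = 0) (hf : f ∈ (DR N).gr k) :
    ∃ c : ι → (DR N).X, (∀ g, c g ∈ (DR N).gr (k - δ g)) ∧ f = ∑ g, op (y g) • c g := by
  refine ⟨fun g => pre (V.s g) f, fun g l z hz hl => hf _ (V.s g z) (V.s_mem g hz) (by omega),
    DR_ext fun n => ?_⟩
  rw [map_sum]
  obtain ⟨z, hz⟩ := V.hs n
  calc dev N n f = dev N (∑ g, V.s g (y g • n) + V.i z) f := by rw [← hz]
    _ = ∑ g, dev N (V.s g (y g • n)) f := by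
      rw [dev_add, resq_zero V h0, add_zero, dev_sum]
    _ = _ := rfl

theorem hW0 {f : (DR N).X} (h0 : resq V f = 0) :
    ∃ c : ι → (DR N).X, f = ∑ g, op (y g) • c g := by
  refine ⟨fun g => pre (V.s g) f, DR_ext fun n => ?_⟩
  rw [map_sum]
  obtain ⟨z, hz⟩ := V.hs n
  calc dev N n f = dev N (∑ g, V.s g (y g • n) + V.i z) f := by rw [← hz]
    _ = ∑ g, dev N (V.s g (y g • n)) f := by
      rw [dev_add, resq_zero V h0, add_zero, dev_sum]
    _ = _ := rfl

theorem fr1' (c : ι → (DR N).X) (h : ∃ x : (DR N).X, ∑ g, op (y g) • c g = op pi • x) (g : ι) :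
    resq V (c g) = 0 := by
  classical
  obtain ⟨x, hx⟩ := h
  refine resq_of V fun z => ?_
  obtain ⟨m, h1, h2, h3⟩ := V.f1 g z
  have h := congrArg (dev N m) hx
  rw [map_sum, Finset.sum_eq_single g] at h
  · rw [dev_smul, h1, dev_smul, h3, dev_zero] at h
    exact h
  · intro g' _ hg'
    rw [dev_smul, h2 g' hg', dev_zero]
  · intro hg
    exact absurd (Finset.mem_univ g) hg

theorem fr2' (c : (DR N).X) (hc : op pi • c = 0) : resq V c = 0 := by
  refine resq_of V fun z => ?_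
  obtain ⟨m, hm⟩ := V.f2 z
  have h := congrArg (dev N m) hc
  rw [dev_smul, hm, map_zero] at h
  exact h

end

/-- **the instance of helper655's `WG`** -/
noncomputable def wgOf {pr : Hm A A'} {ι : Type} [Fintype ι] (W : WA pr ι) {N : LM A} {N' : LM A'}
    (V : WN W.y W.δ W.pi W.δp pr N N') : WG W (DR N) (DR N') where
  q := resq V
  q_mem {k f} hf := fun l z hz hl => hf l (V.i z) (V.i_mem hz) hl
  q_d f := DR_ext fun z => by
    rw [dev_resq, dev_d, dev_d, dev_resq, V.i_d]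
  q_smul a f := DR_ext fun z => by
    rw [dev_resq, dev_smul, dev_smul, dev_resq, V.i_smul]
  lo := -V.P.hi
  low k hk f hf := dr_zero V.P hf (by omega)
  lift {k b} hb := by
    refine ⟨(show N'.X →ₗ[K] K from b) ∘ₗ V.r, fun l z hz hl => hb l (V.r z) (V.r_mem hz) hl,
      DR_ext fun z => ?_⟩
    change (show N'.X →ₗ[K] K from b) (V.r (V.i z)) = dev N' z b
    rw [V.r_i]
    rfl
  hW {k f} h0 hf := hW' V h0 hf
  yW {k f} g h0 hf := by
    refine ⟨pre (V.u g) f, fun l z hz hl => hf _ (V.u g z) (V.u_mem g hz) (by omega),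
      DR_ext fun n => ?_⟩
    obtain ⟨z, hz⟩ := V.hu g n
    rw [dev_smul, dev_smul, dev_pre, hz, dev_add, resq_zero V h0, add_zero]
  piW f h0 := DR_ext fun n => by
    obtain ⟨z, hz⟩ := V.hp n
    rw [dev_smul, hz, resq_zero V h0, map_zero]
  fr1 c h g := fr1' V c h g
  fr2 c hc := fr2' V c hc

/-- **functionals on a cofree module are right `W`-free** -/
theorem rfreeOf (S : FWI226.WEl A) {pr : Hm A A'} {N : LM A} {N' : LM A'}
    (V : WN S.y S.δ S.pi S.δp pr N N') (hpr : ∀ g, pr.f (S.y g) = 0) : FWI226.RFree S (DR N) := by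
  have hWp : ∀ f : (DR N).X, f ∈ FWI226.Wp S (DR N) → resq V f = 0 := by
    intro f hf
    obtain ⟨c, rfl⟩ := (FWI226.mem_Wp S).1 hf
    refine resq_of V fun z => ?_
    rw [map_sum]
    refine Finset.sum_eq_zero fun g _ => ?_
    rw [dev_smul, ← V.i_smul, hpr, zero_smul, map_zero, dev_zero]
  have hWp' : ∀ f : (DR N).X, resq V f = 0 → f ∈ FWI226.Wp S (DR N) := by
    intro f hf
    obtain ⟨c, hc⟩ := hW0 V hf
    exact (FWI226.mem_Wp S).2 ⟨c, hc.symm⟩
  constructor
  · intro k w hw hk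
    exact hW' V (hWp w hw) hk
  · intro c h g
    exact hWp' _ (fr1' V c h g)
  · intro x hx
    exact hWp' _ (fr2' V x hx)

/-! ### right cell modules -/

/-- a component -/
noncomputable def atY (Y : RCells A) (σ : Y.ι) : (tQ Y (selfB A)).X →ₗ[K] (selfR A).X :=
  (Finsupp.lapply σ : (Y.ι →₀ A.C) →ₗ[K] A.C)

theorem atY_smul (Y : RCells A) (σ : Y.ι) (a : A.C) (x : (tQ Y (selfB A)).X) :
    atY Y σ (op a • x) = op a • atY Y σ x := rfl

theorem ext_atY {Y : RCells A} {x x' : (tQ Y (selfB A)).X} (h : ∀ σ, atY Y σ x = atY Y σ x') :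
    x = x' := Finsupp.ext h

/-- choice of components -/
theorem choose_atY {Y : RCells A} {ι : Type} (x : (tQ Y (selfB A)).X)
    (P : Y.ι → (selfR A).X → (ι → (selfR A).X) → Prop) (h0 : ∀ σ, P σ 0 0)
    (h : ∀ σ, ∃ z, P σ (atY Y σ x) z) :
    ∃ z : ι → (tQ Y (selfB A)).X, ∀ σ, P σ (atY Y σ x) (fun g => atY Y σ (z g)) := by
  obtain ⟨z, hz⟩ := choose_fs (β := A.C) (γ := ι → A.C) (show Y.ι →₀ A.C from x) P h0 h
  exact ⟨fun g => (Finsupp.mapRange (fun c : ι → A.C => c g) rfl z : Y.ι →₀ A.C), fun σ => hz σ⟩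

theorem wp_iff (S : FWI226.WEl A) (Y : RCells A) (x : (tQ Y (selfB A)).X) :
    x ∈ FWI226.Wp S (tQ Y (selfB A)) ↔ ∀ σ, atY Y σ x ∈ FWI226.Wp S (selfR A) := by
  constructor
  · intro hx σ
    obtain ⟨c, rfl⟩ := (FWI226.mem_Wp S).1 hx
    refine (FWI226.mem_Wp S).2 ⟨fun g => atY Y σ (c g), ?_⟩
    rw [map_sum]
    rfl
  · intro hx
    obtain ⟨z, hz⟩ := choose_atY (ι := S.ι) x
      (fun σ a c => ∑ g, op (S.y g) • c g = a)
      (fun σ => by simp)
      (fun σ => (FWI226.mem_Wp S).1 (hx σ))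
    refine (FWI226.mem_Wp S).2 ⟨z, ext_atY fun σ => ?_⟩
    rw [map_sum]
    exact hz σ

/-- **right cell modules are right `W`-free** -/
theorem rfree_tQ (S : FWI226.WEl A) (h : FWI226.RFree S (selfR A)) (Y : RCells A) :
    FWI226.RFree S (tQ Y (selfB A)) := by
  constructor
  · intro k w hw hk
    rw [wp_iff] at hw
    obtain ⟨z, hz⟩ := choose_atY (ι := S.ι) w
      (fun σ a c => (∀ g, (show A.C from c g) ∈ A.G (k - Y.s σ - S.δ g)) ∧
        (∀ g, Y.e σ * (show A.C from c g) = c g) ∧ a = ∑ g, op (S.y g) • c g)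
      (fun σ => ⟨fun g => Submodule.zero_mem _, fun g => mul_zero _, by simp⟩)
      (fun σ => by
        obtain ⟨c, hc, he⟩ := h.a (k - Y.s σ) (atY Y σ w) (hw σ) (hk σ).1
        refine ⟨fun g => Y.e σ * (show A.C from c g), fun g => ?_, fun g => ?_, ?_⟩
        · have := A.mul_mem (Y.e_mem σ) (hc g)
          rwa [zero_add] at this
        · exact (mul_assoc _ _ _).symm.trans (congrArg (· * (show A.C from c g)) (Y.e_idem σ))
        · have h' : Y.e σ * (show A.C from atY Y σ w) = atY Y σ w := (hk σ).2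
          have he' : (show A.C from atY Y σ w) = ∑ g, (show A.C from c g) * S.y g := he
          refine h'.symm.trans ?_
          refine (congrArg (Y.e σ * ·) he').trans ?_
          refine (Finset.mul_sum _ _ _).trans ?_
          exact Finset.sum_congr rfl fun g _ => (mul_assoc _ _ _).symm)
    refine ⟨z, fun g σ => ⟨?_, ?_⟩, ?_⟩
    · have h1 := (hz σ).1 g
      rw [show k - (Y.s σ : ℤ) - S.δ g = k - S.δ g - Y.s σ by ring] at h1
      exact h1
    · exact (hz σ).2.1 g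
    · refine ext_atY fun σ => ?_
      rw [map_sum]
      exact (hz σ).2.2
  · rintro c ⟨x, hx⟩ g
    rw [wp_iff]
    intro σ
    refine h.b (fun g => atY Y σ (c g)) ⟨atY Y σ x, ?_⟩ g
    have h1 := congrArg (atY Y σ) hx
    rw [map_sum] at h1
    exact h1
  · intro x hx
    rw [wp_iff]
    intro σ
    exact h.c _ (by
      have h1 := congrArg (atY Y σ) hx
      rw [map_zero] at h1
      exact h1)

end Crest.Agent.R186.C2G226
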