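import Crest.Agent.R186.C2M_655
import Crest.Agent.R186.C2G_226
import Crest.Agent.R186.TLW_890

/-!
Row 186, half (A), leaf A.C1 (helper655): (c2''), the instance `WN` of helper226 for helper890's
window `MW π s hs` and its socle `tLW π s`, and **(c2'') itself**:

`c2M (R : RRes Y (DM π s hs)) : RRes (pushR (prHm π) Y) (DtL π s)`.
-/

set_option autoImplicit false
set_option linter.style.haveILetI false
set_option linter.unusedSectionVars false

noncomputable section

open MulOpposite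

namespace Crest.Agent.R186.C2N655

open Crest.Agent.R186 Crest.Agent.R186.DefsQ830 Crest.Agent.R186.PBW128 Crest.Agent.R186.SM890
open Hat827 Win810 Frame515 Res255 FinV988 Core890
open Crest.Agent.R186.C2b44 (kill kill_kill)
open Crest.Agent.R186.WLM982 (ro lM kill_lM ro_apply)
open Crest.Agent.R186.C2W655 (yq dy dpi yW piW)
open Crest.Agent.R186.C2M655
open Crest.Agent.R186.C2pp655 (WA WG)
open Crest.Agent.R186.C2G226 (WN wgOf)
open Crest.Agent.R186.WL221 (RL WL)

variable {K : Type} [Field K] (π : Par K) (s : ℕ) (hs : 2 ≤ s)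

/-! ### entrywise operators -/

theorem ent_E (f : MM π →ₗ[K] MM π) (l : ℤ)
    (hf : ∀ (P A C : ℤ) (m : MM π), m ∈ pcM π s P A C → f m ∈ pcM π s P A (C + l))
    {i j : Ob} {m : MM π} (hm : m ∈ E (tbOf (bdM π s hs)) i j) :
    f m ∈ E (tbOf (bdM π s hs)) i j := by
  have h : E (tbOf (bdM π s hs)) i j ≤ (E (tbOf (bdM π s hs)) i j).comap f := by
    refine iSup_le fun k x hx => ?_
    refine q_le_E (tbOf (bdM π s hs)) i j (k + l) ?_
    exact (le_of_eq (q_tbOf (bdM π s hs) i j (k + l)).symm)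
      (hf _ _ _ _ ((le_of_eq (q_tbOf (bdM π s hs) i j k)) hx))
  exact h hm

/-- entrywise operator on the window of `M` -/
def entW (f : MM π →ₗ[K] MM π) (l : ℤ)
    (hf : ∀ (P A C : ℤ) (m : MM π), m ∈ pcM π s P A C → f m ∈ pcM π s P A (C + l)) :
    (MW π s hs).X →ₗ[K] (MW π s hs).X where
  toFun m := (⟨fun i j => f (m.1 i j), fun i j => ent_E π s hs f l hf (m.2 i j)⟩ :
    Xs (tbOf (bdM π s hs)))
  map_add' z z' := by
    apply Subtype.ext
    funext i j
    exact map_add f _ _
  map_smul' c z := by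
    apply Subtype.ext
    funext i j
    exact map_smul f _ _

theorem entW_mem (f : MM π →ₗ[K] MM π) (l : ℤ)
    (hf : ∀ (P A C : ℤ) (m : MM π), m ∈ pcM π s P A C → f m ∈ pcM π s P A (C + l)) {k : ℤ}
    {m : (MW π s hs).X} (hm : m ∈ (MW π s hs).gr k) :
    entW π s hs f l hf m ∈ (MW π s hs).gr (k + l) :=
  (mem_grM (bdM π s hs)).2 fun i j => hf _ _ _ _ ((mem_grM (bdM π s hs)).1 hm i j)

/-- entries -/
def eM (m : (MW π s hs).X) (i j : Ob) : MM π := m.1 i j

variable {π s hs}

theorem eM_ext {m n : (MW π s hs).X} (h : ∀ i j, eM π s hs m i j = eM π s hs n i j) : m = n := by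
  apply Subtype.ext
  funext i j
  exact h i j

theorem eM_add (m n : (MW π s hs).X) (i j : Ob) :
    eM π s hs (m + n) i j = eM π s hs m i j + eM π s hs n i j := rfl

theorem eM_zero (i j : Ob) : eM π s hs 0 i j = 0 := rfl

theorem eM_sum (f : Y → (MW π s hs).X) (i j : Ob) :
    eM π s hs (∑ a, f a) i j = ∑ a, eM π s hs (f a) i j := by
  let φ : (MW π s hs).X →+ MM π :=
    { toFun := fun m => eM π s hs m i j
      map_zero' := rfl
      map_add' := fun _ _ => rfl }
  exact map_sum φ f Finset.univ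

theorem eM_entW (f : MM π →ₗ[K] MM π) (l : ℤ)
    (hf : ∀ (P A C : ℤ) (m : MM π), m ∈ pcM π s P A C → f m ∈ pcM π s P A (C + l))
    (m : (MW π s hs).X) (i j : Ob) :
    eM π s hs (entW π s hs f l hf m) i j = f (eM π s hs m i j) := rfl

theorem eM_dgw (a : R π) (c : ℤ) (ha : a ∈ (WR π).pc 0 0 c) (m : (MW π s hs).X) (i j : Ob) :
    eM π s hs ((show (WR π).dga.C from C2W655.dgw (WR π) a c ha) • m) i j =
      repM π a (eM π s hs m i j) := by
  have h1 : eM π s hs ((show (WR π).dga.C from C2W655.dgw (WR π) a c ha) • m) i j =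
      ∑ l : Ob, repM π (Matrix.diagonal (fun _ : Ob => a) i l) (eM π s hs m l j) := rfl
  rw [h1, Finset.sum_eq_single i]
  · rw [Matrix.diagonal_apply_eq]
  · intro l _ hl
    rw [Matrix.diagonal_apply_ne _ (Ne.symm hl), map_zero]
    rfl
  · intro h
    exact absurd (Finset.mem_univ i) h

theorem eM_yW (a : Y) (m : (MW π s hs).X) (i j : Ob) :
    eM π s hs ((show (WR π).dga.C from yW π a) • m) i j = X π a.toGen • eM π s hs m i j :=
  eM_dgw _ _ _ m i j

theorem eM_piW (m : (MW π s hs).X) (i j : Ob) :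
    eM π s hs ((show (WR π).dga.C from piW π) • m) i j = wq π .pi • eM π s hs m i j :=
  eM_dgw _ _ _ m i j

theorem ro_one (r : R π) : ro π .one r = soc π r := by
  rw [ro_apply, tau_one_eq]

/-- `soc (lM q m)` as an element of the image of the socle, entrywise -/
theorem exists_soc (q : Wb) (m : (MW π s hs).X) :
    ∃ z : (tLW π s).X, ∀ i j, eM π s hs (socW π s hs z) i j = ro π .one (lM π q (eM π s hs m i j)) := by
  have hmem : ∀ (P A C : ℤ) (m : MM π), m ∈ pcM π s P A C →
      (ro π .one ∘ₗ lM π q) m ∈ pcM π s P A (C + wC q.word) := fun P A C m hm =>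
    rolM_mem π s .one q hm (by rw [wC_one]; push_cast; ring)
  refine ⟨retW π s hs (entW π s hs (ro π .one ∘ₗ lM π q) (wC q.word) hmem m), fun i j => ?_⟩
  change socE π (retE π (ro π .one (lM π q (eM π s hs m i j)))) = _
  have h : ro π .one (lM π q (eM π s hs m i j)) =
      socE π (⟨lM π q (eM π s hs m i j), kill_lM π q _⟩ : RL π) := ro_one _
  rw [h, retE_socE]

theorem eM_socW (z : (tLW π s).X) (i j : Ob) :
    eM π s hs (socW π s hs z) i j = ro π .one (show RL π from z.1 i j).1 := (ro_one _).symm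

/-- entries `ro q z` -/
theorem exists_ro (q : Wb) (z : (tLW π s).X) :
    ∃ m : (MW π s hs).X, ∀ i j, eM π s hs m i j = ro π q (show RL π from z.1 i j).1 := by
  have hmem : ∀ (P A C : ℤ) (m : MM π), m ∈ pcM π s P A C →
      (ro π q ∘ₗ lM π .one) m ∈ pcM π s P A (C + -(wC q.word : ℤ)) := fun P A C m hm =>
    rolM_mem π s q .one hm (by rw [wC_one]; push_cast; ring)
  refine ⟨entW π s hs (ro π q ∘ₗ lM π .one) (-(wC q.word : ℤ)) hmem (socW π s hs z),
    fun i j => ?_⟩
  change ro π q (lM π .one (eM π s hs (socW π s hs z) i j)) = _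
  rw [eM_socW, WLM982.lM_ro_of π .one .one (show RL π from z.1 i j).2, if_pos rfl]

variable (π s hs)

/-- `s_a` in the window -/
def sW (a : Y) : (MW π s hs).X →ₗ[K] (MW π s hs).X :=
  entW π s hs (sM π a) (-(dy a : ℤ)) fun P A C m hm => by
    rw [← sub_eq_add_neg]; exact sM_mem π s a hm

/-- `u_a` in the window -/
def uW (a : Y) : (MW π s hs).X →ₗ[K] (MW π s hs).X :=
  entW π s hs (uM π a) ((dy a : ℤ) - dpi) fun P A C m hm => by
    rw [← add_sub_assoc]; exact uM_mem π s a hm

/-- **the window of `M` is cofree over `W` with socle `tL`** -/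
def wnM : WN (C2W655.waR π).y (C2W655.waR π).δ (C2W655.waR π).pi (C2W655.waR π).δp
    (C2W655.prHm π) (MW π s hs).toLM (tLW π s).toLM where
  i := socW π s hs
  i_d := socW_d
  i_smul := socW_l
  i_mem := socW_mem
  r := retW π s hs
  r_mem := retW_mem
  r_i := retW_socW π s hs
  P := prLM π s hs
  s := sW π s hs
  s_mem a {k n} hn := by
    have := entW_mem π s hs (sM π a) (-(dy a : ℤ)) (fun P A C m hm => by
      rw [← sub_eq_add_neg]; exact sM_mem π s a hm) hn
    rwa [← sub_eq_add_neg] at this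
  u := uW π s hs
  u_mem a {k n} hn := by
    have := entW_mem π s hs (uM π a) ((dy a : ℤ) - dpi) (fun P A C m hm => by
      rw [← add_sub_assoc]; exact uM_mem π s a hm) hn
    rwa [← add_sub_assoc] at this
  hs n := by
    obtain ⟨z, hz⟩ := exists_soc (π := π) (s := s) (hs := hs) .one n
    refine ⟨z, eM_ext fun i j => ?_⟩
    refine (sum_sM π (eM π s hs n i j)).trans ?_
    refine Eq.trans (congrArg₂ (· + ·) ?_ (hz i j).symm) (eM_add _ _ i j).symm
    refine Eq.trans (Finset.sum_congr rfl fun a _ => ?_)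
      (eM_sum (fun a => sW π s hs a ((show (WR π).dga.C from yW π a) • n)) i j).symm
    exact congrArg (sM π a) (eM_yW a n i j).symm
  hu a n := by
    obtain ⟨z, hz⟩ := exists_soc (π := π) (s := s) (hs := hs) (yq a) n
    refine ⟨z, eM_ext fun i j => ?_⟩
    refine (eM_yW a n i j).trans ((Y_uM π a (eM π s hs n i j)).trans ?_)
    refine Eq.trans (congrArg₂ (· + ·) ?_ (hz i j).symm) (eM_add _ _ i j).symm
    exact congrArg (uM π a) (eM_piW n i j).symm
  hp n := by
    obtain ⟨z, hz⟩ := exists_soc (π := π) (s := s) (hs := hs) .pi n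
    refine ⟨z, eM_ext fun i j => ?_⟩
    exact (eM_piW n i j).trans ((pi_m π (eM π s hs n i j)).trans (hz i j).symm)
  f1 a z := by
    obtain ⟨m, hm⟩ := exists_ro (π := π) (s := s) (hs := hs) (yq a) z
    refine ⟨m, eM_ext fun i j => ?_, fun b hb => eM_ext fun i j => ?_, eM_ext fun i j => ?_⟩
    · refine (eM_yW a m i j).trans ?_
      rw [hm, Y_ro_yq, if_pos rfl, eM_socW]
    · refine (eM_yW b m i j).trans ?_
      rw [hm, Y_ro_yq, if_neg hb]
      rfl
    · refine (eM_piW m i j).trans ?_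
      rw [hm, pi_ro_yq]
      rfl
  f2 z := by
    obtain ⟨m, hm⟩ := exists_ro (π := π) (s := s) (hs := hs) .pi z
    refine ⟨m, eM_ext fun i j => ?_⟩
    refine (eM_piW m i j).trans ?_
    rw [hm, pi_ro_pi, eM_socW]

/-- the instance `WG` -/
def wgM : WG (C2W655.waR π) (DM π s hs) (DtL π s) := wgOf (C2W655.waR π) (wnM π s hs)

theorem wgM_q : (wgM π s hs).q = qD π s hs := rfl

/-- **(c2'')** -/
def c2M {Y : RCells (WR π).dga} (R : RRes Y (DM π s hs)) :
    RRes (pushR (C2W655.prHm π) Y) (DtL π s) :=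
  C2pp655.c2pp (C2W655.waR π) (wgM π s hs) R

theorem c2M_lo {Y : RCells (WR π).dga} (R : RRes Y (DM π s hs)) : (c2M π s hs R).lo = R.lo := rfl

theorem c2M_v {Y : RCells (WR π).dga} (R : RRes Y (DM π s hs)) (σ : Y.ι) :
    (c2M π s hs R).v σ = qD π s hs (R.v σ) := rfl

end Crest.Agent.R186.C2N655
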