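import Crest.Agent.R186.C1w_154
import Crest.Agent.R186.C1Q_611
import Crest.Agent.R186.C2N_655
import Crest.Agent.R186.C1b_328

/-!
Row 186 (A), leaf (c1), last line (helper154): `C1Q611.C1 π s hs R` from 328's Koszul data of `tL`.
-/

set_option autoImplicit false
set_option linter.unusedSectionVars false

noncomputable section

open MulOpposite

namespace Crest.Agent.R186.C1Z154

open Hat827 Win810 Win810.WD Frame515 Res255 FinV988 Core890 C1x134 C1P611 C1b328
open Crest.Agent.R186.DefsQ830 Crest.Agent.R186.SM890 Crest.Agent.R186.WL221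
open Crest.Agent.R186.C1W154

variable {K : Type} [Field K]

/-! ### the pairing `Y ⊗ A → D(T)` of a resolution is exact -/

section gen

variable {A : DGA K} {T : BM A A} {Y : RCells A}

/-- 328's functionals of an augmentation -/
def fn (R : RAug Y (DR T.toLM)) : Fn Y T where
  lo := R.lo
  v σ := (show T.X →ₗ[K] K from R.v σ)
  v_d σ x := by
    have h := congrArg (dev T.toLM x) (R.v_d σ)
    rw [dev_d, map_sum] at h
    exact h

theorem off_L (R : RAug Y (DR T.toLM)) : Off (Z := T.toLM) (paL (fn R)) := by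
  intro σ k l n z hn hz hne
  have h := T.smul_mem hn hz
  exact R.v_mem σ _ _ h (by
    intro h0
    apply hne
    change k + l + R.lo + Y.s σ = 0
    omega)

theorem evD_L (R : RAug Y (DR T.toLM)) :
    evD (Z := T.toLM) (paL (fn R)) = augR Y (DR T.toLM) R.v := by
  refine Finsupp.lhom_ext fun σ a => ?_
  refine DR_ext fun z => ?_
  exact ((paL (fn R)).ev_single σ a z).trans
    (congrArg (dev T.toLM z) (augR_single Y (DR T.toLM) R.v σ (show A.C from a))).symm

/-- **exactness of `Y ⊗ A → D(T)`** -/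
theorem ex_L (R : RRes Y (DR T.toLM)) (Q : PrL T.toLM) : (paL (fn R.toRAug)).Ex :=
  fun k => ex_of_ce (Z := T.toLM) (paL (fn R.toRAug)) (off_L R.toRAug) Q (by
    rw [evD_L]
    exact R.ex k)

/-- **(beta)** for a bimodule with Koszul data -/
theorem ex_T (Z : Kz A T) (R : RRes Y (DR T.toLM)) (Q : PrL T.toLM) (h2 : (2 : K) = 0) :
    (paT (fn R.toRAug)).Ex := C1b328.beta (fn R.toRAug) Z h2 (ex_L R Q)

end gen

/-! ### (c1) -/

variable (π : Par K) (s : ℕ) (hs : 2 ≤ s) {Y : RCells (WR π).dga}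

/-- (beta) for `tL`, in the form of the layers -/
theorem pt_ex (Z : Kz (WL π).dga (tLW π s)) (R : RRes Y (DM π s hs)) :
    (PT R.toRAug).Ex :=
  ex_T (Y := pushR (SM890.prHm π) Y) Z (C2N655.c2M π s hs R) (prLtL π s) π.two

/-- **(c1)**, 134's form -/
theorem pm_ex (Z : Kz (WL π).dga (tLW π s)) (R : RRes Y (DM π s hs)) :
    (PM R.toRAug).Ex := ex_of_socle R.toRAug π.two (pt_ex π s hs Z R)

/-- **(c1)** from 328's Koszul data -/
theorem c1_of_kz (Z : Kz (WL π).dga (tLW π s)) (R : RRes Y (DM π s hs)) :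
    C1Q611.C1 π s hs R :=
  (ex_iff_ce (Z := selfL (WR π).dga) (C1Q611.paOf (MW π s hs) R.toRAug)
    (C1Q611.paOf_off (MW π s hs) R.toRAug) (FinD988.prlSelf (GrP44.grR π))).1
    (pm_ex π s hs Z R)

end Crest.Agent.R186.C1Z154
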