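import Crest.Agent.R186.KzW_462
import Crest.Agent.R186.C1Z_154

/-!
Row 186 (A), leaf A.C1 (helper462): **(c1) without hypothesis**, 611's literal `C1Q611.C1`, from
154's `c1_of_kz` and the Koszul data `KzW462.kz`.
-/

set_option autoImplicit false
set_option linter.style.haveILetI false

noncomputable section

namespace Crest.Agent.R186.C1A462

open Hat827 Win810 Frame515 Res255 DefsQ830 SM890 WL221

variable {K : Type} [Field K] (π : Par K) (s : ℕ) (hs : 2 ≤ s) {Y : RCells (WR π).dga}

/-- **(c1)** -/
theorem c1_all (R : RRes Y (DM π s hs)) : C1Q611.C1 π s hs R :=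
  C1Z154.c1_of_kz π s hs (KzW462.kz π s) R

end Crest.Agent.R186.C1A462
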