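import Crest.Agent.R186.C1n_154
import Crest.Agent.R186.TLW_890
import Crest.Agent.R186.C1x_134

/-!
Row 186 (A), leaf (c1) (helper154), windows: the instance of helper134's `Lay` for
`M` against `L''`, with layers `tL` against `L`.

`lay π s hs R : Lay Y (MW π s hs).toLM (resL (prHm π) (tLW π s).toLM) L'' L`.
-/

set_option autoImplicit false
set_option linter.style.haveILetI false
set_option linter.unusedSectionVars false

noncomputable section

open MulOpposite

namespace Crest.Agent.R186.C1W154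

open Hat827 Win810 Win810.WD Frame515 Res255 WBM163 FinV988 Core890 SExt44
open Crest.Agent.R186.DefsQ830 Crest.Agent.R186.PBW128 Crest.Agent.R186.SM890
open Crest.Agent.R186.WL221 Crest.Agent.R186.C2b44 Crest.Agent.R186.C1N154 C1x134
open Crest.Agent.R186.WLF296 (lev lq)

variable {K : Type} [Field K]

/-! ### pairings from functionals -/

section pair

variable {A A' : DGA K} (h : Hm A A')

/-- `(z, l) ↦ v (z l)` -/
def pf {X : Type} [AddCommGroup X] [Module K X] [Module A.Cᵐᵒᵖ X] [IsScalarTower K A.Cᵐᵒᵖ X]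
    (v : X →ₗ[K] K) : X →ₗ[K] A.C →ₗ[K] K where
  toFun n :=
    { toFun := fun a => v (op a • n)
      map_add' := fun a b => by rw [op_add, add_smul, map_add]
      map_smul' := fun c a => by
        rw [op_smul, smul_assoc, map_smul, RingHom.id_apply] }
  map_add' n n' := by
    ext a
    change v (op a • (n + n')) = v (op a • n) + v (op a • n')
    rw [smul_add, map_add]
  map_smul' c n := by
    ext a
    change v (op a • (c • n)) = c • v (op a • n)
    rw [smul_comm, map_smul]

end pair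

variable (π : Par K) (s : ℕ) (hs : 2 ≤ s)

/-! ### the `M` side -/

theorem muE_E {i j : Ob} {m : MM π} (q : Wb) (hm : m ∈ E (tbOf (bdM π s hs)) i j) :
    muE π q m ∈ E (tLT π s) i j := by
  have h : E (tbOf (bdM π s hs)) i j ≤ (E (tLT π s) i j).comap (muE π q) := by
    refine iSup_le fun k x hx => ?_
    refine q_le_E (tLT π s) i j (k + wC q.word) ?_
    have h1 := muE_mem s q ((le_of_eq (q_tbOf (bdM π s hs) i j k)) hx)
    rw [show (k - s + wC q.word : ℤ) = k + wC q.word - s by ring] at h1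
    exact (le_of_eq (q_tLT π s i j (k + wC q.word)).symm) h1
  exact h hm

theorem oM_E {i j : Ob} {z : RL π} (q : Wb) (hz : z ∈ E (tLT π s) i j) :
    oM π q z.1 ∈ E (tbOf (bdM π s hs)) i j := by
  have h : E (tLT π s) i j ≤
      (E (tbOf (bdM π s hs)) i j).comap (oM π q ∘ₗ (RL π).val.toLinearMap) := by
    refine iSup_le fun k x hx => ?_
    refine q_le_E (tbOf (bdM π s hs)) i j (k - wC q.word) ?_
    have h1 := (le_of_eq (q_tLT π s i j k)) hx
    refine (le_of_eq (q_tbOf (bdM π s hs) i j (k - wC q.word)).symm) (oM_mem s q ?_)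
    rw [show (k - wC q.word - s + wC q.word : ℤ) = k - s by ring]
    exact h1
  exact h hz

/-- components of `M` -/
def muW (q : Wb) : (MW π s hs).X →ₗ[K] (tLW π s).X where
  toFun m := (⟨fun i j => muE π q (m.1 i j), fun i j => muE_E π s hs q (m.2 i j)⟩ : Xs (tLT π s))
  map_add' z z' := by
    apply Subtype.ext
    funext i j
    exact map_add (muE π q) _ _
  map_smul' c z := by
    apply Subtype.ext
    funext i j
    exact map_smul (muE π q) _ _

/-- `z ↦ z · o_q` -/
def nuW (q : Wb) : (tLW π s).X →ₗ[K] (MW π s hs).X where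
  toFun z := (⟨fun i j => oM π q (show RL π from z.1 i j).1, fun i j => oM_E π s hs q (z.2 i j)⟩ :
    Xs (tbOf (bdM π s hs)))
  map_add' z z' := by
    apply Subtype.ext
    funext i j
    exact map_add (oM π q ∘ₗ (RL π).val.toLinearMap) _ _
  map_smul' c z := by
    apply Subtype.ext
    funext i j
    exact map_smul (oM π q ∘ₗ (RL π).val.toLinearMap) _ _

theorem muW_apply (q : Wb) (m : (MW π s hs).X) (i j : Ob) :
    (muW π s hs q m).1 i j = muE π q (m.1 i j) := rfl
theorem nuW_apply (q : Wb) (z : (tLW π s).X) (i j : Ob) :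
    (nuW π s hs q z).1 i j = oM π q (show RL π from z.1 i j).1 := rfl

variable {π s hs}

theorem muW_eq_zero {q : Wb} {m : (MW π s hs).X} :
    muW π s hs q m = 0 ↔ ∀ i j, muE π q (m.1 i j) = 0 :=
  ⟨fun h i j => congrFun (congrFun (congrArg Subtype.val h) i) j,
    fun h => Subtype.ext (funext fun i => funext fun j => h i j)⟩

theorem muW_mem (q : Wb) {k : ℤ} {m : (MW π s hs).X} (hm : m ∈ (MW π s hs).gr k) :
    muW π s hs q m ∈ (tLW π s).gr (k + wC q.word) :=
  mem_grtL.2 fun i j => by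
    have h1 := muE_mem s q ((mem_grM (bdM π s hs)).1 hm i j)
    rw [show (k - s + wC q.word : ℤ) = k + wC q.word - s by ring] at h1
    exact h1

theorem nuW_mem (q : Wb) {k : ℤ} {z : (tLW π s).X} (hz : z ∈ (tLW π s).gr k) :
    nuW π s hs q z ∈ (MW π s hs).gr (k - wC q.word) :=
  (mem_grM (bdM π s hs)).2 fun i j => by
    refine oM_mem s q ?_
    rw [show (k - wC q.word - s + wC q.word : ℤ) = k - s by ring]
    exact mem_grtL.1 hz i j

theorem muW_nuW (q : Wb) (z : (tLW π s).X) : muW π s hs q (nuW π s hs q z) = z := by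
  apply Subtype.ext
  funext i j
  exact (muE_oM' q q _).trans (if_pos rfl)

theorem muW_nuW' {q q' : Wb} (h : q' ≠ q) (z : (tLW π s).X) :
    muW π s hs q (nuW π s hs q' z) = 0 := by
  apply Subtype.ext
  funext i j
  exact (muE_oM' q q' _).trans (if_neg h)

theorem eq_zero_of_muW {m : (MW π s hs).X} (h : ∀ q, muW π s hs q m = 0) : m = 0 := by
  apply Subtype.ext
  funext i j
  exact eq_zero_of_muE fun q => muW_eq_zero.1 (h q) i j

theorem muW_smul (q : Wb) (a : (WR π).dga.C) {m : (MW π s hs).X}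
    (h : ∀ q', ix q < ix q' → muW π s hs q' m = 0) :
    muW π s hs q (a • m) = (prHm π).f a • muW π s hs q m := by
  apply Subtype.ext
  funext i j
  refine (map_sum (muE π q) (fun l : Ob => (repM π ((show (WR π).Win from a).1 i l)
    (m.1 l j) : MM π)) Finset.univ).trans ?_
  exact Finset.sum_congr rfl fun l _ => muE_rep q _ fun q' hq' => muW_eq_zero.1 (h q' hq') l j

theorem muW_d (q : Wb) {m : (MW π s hs).X} (h : ∀ q', ix q < ix q' → muW π s hs q' m = 0) :
    muW π s hs q ((MW π s hs).d m) = (tLW π s).d (muW π s hs q m) := by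
  apply Subtype.ext
  funext i j
  exact muE_D q fun q' hq' => muW_eq_zero.1 (h q' hq') i j

/-! ### the `L''` side -/

variable (π)

/-- entries of `lam` -/
def laE (q : Wb) : R π →ₗ[K] RL π := ct π q • ((prL π).toLinearMap ∘ₗ lq π q)

/-- entries of `rho` -/
def rhE (q : Wb) : RL π →ₗ[K] R π :=
  (ct π q)⁻¹ • ((LinearMap.mulLeft K (wq π q)) ∘ₗ (RL π).val.toLinearMap)

theorem laE_apply (q : Wb) (r : R π) : laE π q r = ct π q • prL π (lq π q r) := rfl
theorem rhE_apply (q : Wb) (z : RL π) : rhE π q z = (ct π q)⁻¹ • (wq π q * z.1) := rfl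

variable {π}

theorem laE_mem (q : Wb) {P A C : ℤ} {r : R π} (hr : r ∈ pcZ π P A C) :
    laE π q r ∈ pcL π P A (C - wC q.word) := by
  rw [laE_apply]
  refine Submodule.smul_mem _ _ (prL_mem ?_)
  rw [KOS296.pcZ_eq_pz] at hr ⊢
  exact WLF296.lq_mem π hr q

theorem wq_pcZ (q : Wb) : wq π q ∈ pcZ π 0 0 (wC q.word) := by
  have h := C2b44.nf_mem_pcZ π (0, 0, 0, [], q) (P := 0) (A := 0) (C := (wC q.word : ℤ))
    rfl rfl (by simp [dCx])
  have e : nf π (0, 0, 0, [], q) = wq π q := by simp [nf, we_nil]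
  rwa [e] at h

theorem rhE_mem (q : Wb) {P A C : ℤ} {z : RL π} (hz : z ∈ pcL π P A C) :
    rhE π q z ∈ pcZ π P A (C + wC q.word) := by
  rw [rhE_apply]
  refine Submodule.smul_mem _ _ ?_
  have h := pcZ_mul π (wq_pcZ q) hz
  rwa [zero_add, zero_add, add_comm] at h

theorem laE_rhE (q q' : Wb) (z : RL π) : laE π q (rhE π q' z) = if q' = q then z else 0 := by
  rw [laE_apply, rhE_apply, map_smul, WLF296.lq_wq π q' q z.2, map_smul]
  by_cases h : q = q'
  · subst h
    rw [if_pos rfl, if_pos rfl, prL_inL, smul_smul, mul_inv_cancel₀ (ct_ne π q), one_smul]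
  · rw [if_neg h, if_neg (Ne.symm h), map_zero, smul_zero, smul_zero]

theorem laE_D_rhE (q q' : Wb) (h : ix q ≤ ix q') (z : RL π) :
    laE π q (Der580.D π (rhE π q' z)) = if q' = q then DL π z else 0 := by
  have e : Der580.D π (wq π q' * z.1) = wq π q' * Der580.D π z.1 := by
    rw [Der580.D_mul, WLF296.D_wq, zero_mul, zero_add]
  rw [laE_apply, rhE_apply, map_smul, e, map_smul, WLF296.lq_wq_mul π q' q _ (lev_mono h),
    map_smul]
  by_cases hq : q = q'
  · subst hq
    rw [if_pos rfl, if_pos rfl, prL_kill, smul_smul, mul_inv_cancel₀ (ct_ne π q), one_smul,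
      DL_apply]
  · rw [if_neg hq, if_neg (Ne.symm hq), map_zero, smul_zero, smul_zero]

theorem sum_rhE (r : R π) : ∑ q, rhE π q (laE π q r) = r := by
  conv_rhs => rw [WLF296.sum_lq π r]
  refine Finset.sum_congr rfl fun q _ => ?_
  rw [laE_apply, map_smul, rhE_apply, smul_smul, mul_inv_cancel₀ (ct_ne π q), one_smul, prL_val,
    WLF296.kill_lq]

variable (π)

/-- components of `L''` -/
def laW (q : Wb) : (WR π).Win →ₗ[K] (WL π).Win where
  toFun r := ⟨Matrix.of fun i j => laE π q (r.1 i j), fun i j => by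
    have h : (WR π).E i j ≤ ((WL π).E i j).comap (laE π q) := by
      refine iSup_le fun k x hx => ?_
      exact WD.q_le (w := WL π) i j (k - wC q.word) (laE_mem q hx)
    exact h (r.2 i j)⟩
  map_add' z z' := by
    apply Subtype.ext
    ext i j : 2
    exact map_add (laE π q) _ _
  map_smul' c z := by
    apply Subtype.ext
    ext i j : 2
    exact map_smul (laE π q) _ _

/-- the layer `wq q * L` -/
def rhW (q : Wb) : (WL π).Win →ₗ[K] (WR π).Win where
  toFun r := ⟨Matrix.of fun i j => rhE π q (r.1 i j), fun i j => by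
    have h : (WL π).E i j ≤ ((WR π).E i j).comap (rhE π q) := by
      refine iSup_le fun k x hx => ?_
      exact WD.q_le (w := WR π) i j (k + wC q.word) (rhE_mem q hx)
    exact h (r.2 i j)⟩
  map_add' z z' := by
    apply Subtype.ext
    ext i j : 2
    exact map_add (rhE π q) _ _
  map_smul' c z := by
    apply Subtype.ext
    ext i j : 2
    exact map_smul (rhE π q) _ _

theorem laW_apply (q : Wb) (r : (WR π).Win) (i j : Ob) : (laW π q r).1 i j = laE π q (r.1 i j) :=
  rfl
theorem rhW_apply (q : Wb) (r : (WL π).Win) (i j : Ob) : (rhW π q r).1 i j = rhE π q (r.1 i j) :=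
  rfl

variable {π}

theorem laW_mem (q : Wb) {k : ℤ} {r : (WR π).Win} (hr : r ∈ (WR π).G k) :
    laW π q r ∈ (WL π).G (k - wC q.word) := fun i j => laE_mem q (hr i j)

theorem rhW_mem (q : Wb) {k : ℤ} {r : (WL π).Win} (hr : r ∈ (WL π).G k) :
    rhW π q r ∈ (WR π).G (k + wC q.word) := fun i j => rhE_mem q (hr i j)

theorem laW_rhW (q q' : Wb) (r : (WL π).Win) :
    laW π q (rhW π q' r) = if q' = q then r else 0 := by
  by_cases hq : q' = q
  · rw [if_pos hq]
    apply Subtype.ext
    ext i j : 2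
    exact (laE_rhE q q' _).trans (if_pos hq)
  · rw [if_neg hq]
    apply Subtype.ext
    ext i j : 2
    exact (laE_rhE q q' _).trans (if_neg hq)

theorem laW_D_rhW (q q' : Wb) (h : ix q ≤ ix q') (r : (WL π).Win) :
    laW π q ((WR π).DW (rhW π q' r)) = if q' = q then (WL π).DW r else 0 := by
  by_cases hq : q' = q
  · rw [if_pos hq]
    apply Subtype.ext
    ext i j : 2
    exact (laE_D_rhE q q' h _).trans (if_pos hq)
  · rw [if_neg hq]
    apply Subtype.ext
    ext i j : 2
    exact (laE_D_rhE q q' h _).trans (if_neg hq)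

theorem sum_rhW (r : (WR π).Win) : ∑ q, rhW π q (laW π q r) = r := by
  apply Subtype.ext
  ext i j : 2
  let ev : (WR π).Win →ₗ[K] (WR π).S :=
    { toFun := fun x => x.1 i j
      map_add' := fun _ _ => rfl
      map_smul' := fun _ _ => rfl }
  exact (map_sum ev (fun q => rhW π q (laW π q r)) Finset.univ).trans (sum_rhE (π := π) (r.1 i j))

/-! ### the pairing -/

theorem rho_rhE (q : Wb) {m : MM π} (h : ∀ q', ix q < ix q' → muE π q' m = 0) (z : RL π) :
    (rho π (rhE π q z) m : MM π) = socE π (muE π q m * z) := by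
  have e := rho_wq q h z.1
  have e2 : rho π (rhE π q z) = (ct π q)⁻¹ • rho π (wq π q * z.1) := by
    rw [rhE_apply, map_smul]
  refine (congrArg (fun f : N K →ₗ[K] N K => (f m : MM π)) e2).trans ?_
  change (ct π q)⁻¹ • (rho π (wq π q * z.1) m : MM π) = _
  refine (congrArg (fun y : MM π => (ct π q)⁻¹ • y) e).trans ?_
  exact inv_smul_smul₀ (ct_ne π q) _

theorem op_rhW_smul (q : Wb) {m : (MW π s hs).X}
    (h : ∀ q', ix q < ix q' → muW π s hs q' m = 0) (r : (WL π).Win) :
    (op (show (WR π).dga.C from rhW π q r) • m : (MW π s hs).X) =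
      socW π s hs (op (show (WL π).dga.C from r) • muW π s hs q m) := by
  apply Subtype.ext
  funext i j
  change (∑ l : Ob, (rho π (rhE π q (r.1 l j)) (m.1 i l) : MM π)) =
    socE π (∑ l : Ob, muE π q (m.1 i l) * (show RL π from r.1 l j))
  rw [map_sum]
  exact Finset.sum_congr rfl fun l _ =>
    rho_rhE q (fun q' hq' => muW_eq_zero.1 (h q' hq') i l) (show RL π from r.1 l j)

/-! ### the layers -/

section lay

variable {Y : RCells (WR π).dga} (R : RAug Y (DM π s hs))

/-- the functional of a cell -/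
def vf (σ : Y.ι) : (MW π s hs).X →ₗ[K] K := (show (MW π s hs).X →ₗ[K] K from R.v σ)

theorem vf_d (σ : Y.ι) (m : (MW π s hs).X) :
    vf R σ ((MW π s hs).d m) = ∑ τ ∈ Y.F (Y.s σ), vf R τ (Y.c τ σ • m) := by
  have h := congrArg (dev (MW π s hs).toLM m) (R.v_d σ)
  rw [dev_d, map_sum] at h
  exact h

theorem vf_off (σ : Y.ι) {k : ℤ} {m : (MW π s hs).X} (hm : m ∈ (MW π s hs).gr k)
    (hk : k ≠ -(R.lo + Y.s σ)) : vf R σ m = 0 := R.v_mem σ k m hm hk

/-- its restriction to the socle -/
def wf (σ : Y.ι) : (tLW π s).X →ₗ[K] K := vf R σ ∘ₗ socW π s hs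

theorem wf_d (σ : Y.ι) (z : (tLW π s).X) :
    wf R σ ((tLW π s).d z) = ∑ τ ∈ Y.F (Y.s σ), wf R τ ((prHm π).f (Y.c τ σ) • z) := by
  change vf R σ (socW π s hs ((tLW π s).d z)) = _
  rw [socW_d, vf_d]
  refine Finset.sum_congr rfl fun τ _ => ?_
  change _ = vf R τ (socW π s hs ((prHm π).f (Y.c τ σ) • z))
  rw [socW_l]

/-- the pairing of `M` with `L''` -/
def pM (σ : Y.ι) : (MW π s hs).X →ₗ[K] (WR π).dga.C →ₗ[K] K :=
  pf (A := (WR π).dga) (vf R σ)

theorem pM_apply (σ : Y.ι) (m : (MW π s hs).X) (a : (WR π).dga.C) :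
    pM R σ m a = vf R σ (op a • m) := rfl

theorem pM_d (σ : Y.ι) (n : (MW π s hs).X) (a : (WR π).dga.C) :
    pM R σ ((MW π s hs).d n) a + pM R σ n ((WR π).dga.D a) =
      ∑ τ ∈ Y.F (Y.s σ), pM R τ (Y.c τ σ • n) a := by
  simp only [pM_apply]
  rw [← map_add, add_comm, ← (MW π s hs).leibR, vf_d]
  refine Finset.sum_congr rfl fun τ _ => ?_
  rw [smul_comm]

/-- the pairing of `tL` with `L` -/
def pT (σ : Y.ι) : (tLW π s).X →ₗ[K] (WL π).dga.C →ₗ[K] K :=
  pf (A := (WL π).dga) (wf R σ)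

theorem pT_apply (σ : Y.ι) (m : (tLW π s).X) (a : (WL π).dga.C) :
    pT R σ m a = wf R σ (op a • m) := rfl

theorem pT_d (σ : Y.ι) (n : (tLW π s).X) (a : (WL π).dga.C) :
    pT R σ ((tLW π s).d n) a + pT R σ n ((WL π).dga.D a) =
      ∑ τ ∈ Y.F (Y.s σ), pT R τ ((prHm π).f (Y.c τ σ) • n) a := by
  simp only [pT_apply]
  rw [← map_add, add_comm, ← (tLW π s).leibR, wf_d]
  refine Finset.sum_congr rfl fun τ _ => ?_
  rw [smul_comm]

/-- 134's pairing of `M` with `L''` -/
def PM : Pa Y (MW π s hs).toLM (selfL (WR π).dga).toGC where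
  lo := R.lo
  f σ := pM R σ
  f_d σ {_ _ n a} _ _ := pM_d R σ n a

/-- 134's pairing of `tL` with `L` -/
def PT : Pa Y (resL (prHm π) (tLW π s).toLM) (selfL (WL π).dga).toGC where
  lo := R.lo
  f σ := pT R σ
  f_d σ {_ _ n a} _ _ := pT_d R σ n a

theorem PM_f (σ : Y.ι) (m : (MW π s hs).X) (a : (WR π).dga.C) :
    (PM R).f σ m a = vf R σ (op a • m) := rfl
theorem PT_f (σ : Y.ι) (z : (tLW π s).X) (a : (WL π).dga.C) :
    (PT R).f σ z a = vf R σ (socW π s hs (op a • z)) := rfl

theorem pM_rho (σ : Y.ι) (q : Wb) {m : (MW π s hs).X}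
    (h : ∀ q', ix q < ix q' → muW π s hs q' m = 0) (r : (WL π).Win) :
    pM R σ m (rhW π q r) = pT R σ (muW π s hs q m) r :=
  congrArg (vf R σ) (op_rhW_smul q h r)

theorem le_lt {i j : ℕ} (hi : i < 6) {q' : Wb} (h : ix (le i) < ix q') : i < ix q' := by
  rwa [ix_le hi] at h

/-- from the ℕ-indexed form of "all higher components vanish" -/
theorem high {j : ℕ} (hj : j < 6) {m : (MW π s hs).X}
    (h : ∀ i < 6, j < i → muW π s hs (le i) m = 0) (q' : Wb) (hq : ix (le j) < ix q') :
    muW π s hs q' m = 0 := by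
  rw [ix_le hj] at hq
  have h1 := h (ix q') (ix_lt q') hq
  rwa [le_ix] at h1

theorem le_ne {i j : ℕ} (hi : i < 6) (hj : j < 6) (h : i ≠ j) : le i ≠ le j := by
  intro h'
  apply h
  rw [← ix_le hi, h', ix_le hj]

/-- **134's layers** -/
def lay : Lay Y (MW π s hs).toLM (resL (prHm π) (tLW π s).toLM) (selfL (WR π).dga).toGC
    (selfL (WL π).dga).toGC where
  P := PM R
  P0 := PT R
  r := 6
  μ j := muW π s hs (le j)
  ν j := nuW π s hs (le j)
  lam j := laW π (le j)
  rho j := rhW π (le j)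
  c j := -(wC (le j).word : ℤ)
  e j := wC (le j).word
  hlo i _ := by
    change R.lo = R.lo + -(wC (le i).word : ℤ) + wC (le i).word
    ring
  μ_mem j _ {k n} hn := by
    rw [sub_neg_eq_add]
    exact muW_mem (le j) hn
  ν_mem j _ {k n} hn := nuW_mem (le j) hn
  zero {k n} _ h := eq_zero_of_muW fun q => by
    have h1 := h (ix q) (ix_lt q)
    rwa [le_ix] at h1
  μ_smul j hj {k l a n} _ _ h := muW_smul (le j) a (high hj h)
  μ_d j hj {k n} _ h := muW_d (le j) (high hj h)
  μ_ν j _ {k n} _ := muW_nuW (le j) n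
  μ_ν' j hj i hi hij {k n} _ := muW_nuW' (le_ne hj hi (by omega)) n
  lam_mem j _ {k s} hs := laW_mem (le j) hs
  rho_mem j _ {k s} hs := rhW_mem (le j) hs
  sum {k x} _ := ((sum_ix (fun q => rhW π q (laW π q x))).symm.trans (sum_rhW x)).symm
  lam_rho j _ {k x} _ := (laW_rhW (le j) (le j) x).trans (if_pos rfl)
  lam_d j _ {k x} _ := (laW_D_rhW (le j) (le j) le_rfl x).trans (if_pos rfl)
  lam_d' j hj i hij {k x} _ := by
    have hi : i < 6 := by omega
    refine (laW_D_rhW (le i) (le j) ?_ x).trans (if_neg (le_ne hj hi (by omega)))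
    rw [ix_le hi, ix_le hj]
    exact hij.le
  f_rho σ j hj {k l n x} _ _ h := pM_rho R σ (le j) (high hj h) x

/-- **step (2) of (c1)** -/
theorem ex_of_socle (h2 : (2 : K) = 0) (h : (PT R).Ex) : (PM R).Ex := (lay R).ex h2 h

end lay

end Crest.Agent.R186.C1W154
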