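import Crest.Agent.R186.Beta2_763
import Crest.Agent.R186.C1w_154
import Crest.Agent.R186.C1Q_611
import Crest.Agent.R186.C2N_655

/-!
Row 186 (A), leaf (c1), last line (helper763): `c1_all (R) : C1Q611.C1 π s hs R`, no open input.
(beta) is `Beta763.beta`, the socle step is helper154's `ex_of_socle`.
-/

set_option autoImplicit false
set_option linter.unusedSectionVars false

noncomputable section

open MulOpposite

namespace Crest.Agent.R186.C1All763

open Hat827 Win810 Win810.WD Frame515 Res255 FinV988 Core890 C1x134 C1P611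
open Crest.Agent.R186.DefsQ830 Crest.Agent.R186.SM890 Crest.Agent.R186.WL221
open Crest.Agent.R186.C1W154

variable {K : Type} [Field K]
variable (π : Par K) (s : ℕ) (hs : 2 ≤ s) {Y : RCells (WR π).dga}

/-- (beta) for `tL`, in the form of the layers -/
theorem pt_ex (R : RRes Y (DM π s hs)) : (PT R.toRAug).Ex :=
  Beta763.beta_ex (Y := pushR (SM890.prHm π) Y) (C2N655.c2M π s hs R)

/-- **(c1)**, 134's form -/
theorem pm_ex (R : RRes Y (DM π s hs)) : (PM R.toRAug).Ex :=
  ex_of_socle R.toRAug π.two (pt_ex π s hs R)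

/-- **(c1)** -/
theorem c1_all (R : RRes Y (DM π s hs)) : C1Q611.C1 π s hs R :=
  (ex_iff_ce (Z := selfL (WR π).dga) (C1Q611.paOf (MW π s hs) R.toRAug)
    (C1Q611.paOf_off (MW π s hs) R.toRAug) (FinD988.prlSelf (GrP44.grR π))).1
    (pm_ex π s hs R)

end Crest.Agent.R186.C1All763
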