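import Crest.Agent.R186.HatA_827

/-!
Row 186 (helper830): dg modules over a strict dg algebra `A : Hat827.DGA K` (characteristic two),
the opposite dg algebra, and EXISTENCE OF CELLS: every left dg module `M` in homological degrees
`≥ 0` with finite dimensional pieces has a semi-free resolution by cells (after helper515's
`SemiFree_515`). Right modules = left modules over `A.op`.
-/

set_option autoImplicit false
set_option linter.style.haveILetI false
set_option linter.unusedSectionVars false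

namespace Crest.Agent.R186.CellsDG830

open Hat827 Hat827.DGA

variable {K : Type} [Field K]

/-- left dg module; `gr k` is the part of homological degree `k` -/
structure LM (A : DGA K) where
  Y : Type
  [grp : AddCommGroup Y]
  [modK : Module K Y]
  [modC : Module A.C Y]
  [tower : IsScalarTower K A.C Y]
  gr : ℤ → Submodule K Y
  smul_mem : ∀ {k l : ℤ} {a : A.C} {y : Y}, a ∈ A.G k → y ∈ gr l → a • y ∈ gr (k + l)
  d : Y →ₗ[K] Y
  d_smul : ∀ (a : A.C) (y : Y), d (a • y) = A.D a • y + a • d y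
  dd : ∀ y, d (d y) = 0
  d_mem : ∀ {k : ℤ} {y : Y}, y ∈ gr k → d y ∈ gr (k - 1)

attribute [instance] LM.grp LM.modK LM.modC LM.tower

theorem LM.two {A : DGA K} (M : LM A) (y : M.Y) : y + y = 0 := by
  have h : ((1 : A.C) + 1) • y = 0 := by rw [A.two, zero_smul]
  rwa [add_smul, one_smul] at h

/-- cells over a dg algebra with a map to a dg module -/
structure Res {A : DGA K} (M : LM A) where
  ι : Type
  s : ι → ℕ
  F : ℕ → Finset ι
  mem_F : ∀ m σ, σ ∈ F m ↔ s σ ≤ m
  c : ι → ι → A.C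
  c_mem : ∀ σ τ, c σ τ ∈ A.G ((s σ : ℤ) - s τ - 1)
  mc : ∀ σ τ, A.D (c σ τ) + ∑ ρ ∈ F (s σ), c σ ρ * c ρ τ = 0
  v : ι → M.Y
  v_mem : ∀ σ, v σ ∈ M.gr (s σ)
  v_d : ∀ σ, M.d (v σ) = ∑ τ ∈ F (s σ), c σ τ • v τ
  /-- the cone of `cells → M` is exact -/
  ex : ∀ (n : ℕ) (x : ι → A.C) (w : M.Y), (∀ σ, x σ ∈ A.G ((n : ℤ) - 1 - s σ)) → w ∈ M.gr n →
    (∀ τ, A.D (x τ) + ∑ σ ∈ F n, x σ * c σ τ = 0) → ∑ σ ∈ F n, x σ • v σ = M.d w →
    ∃ y : ι → A.C, (∀ σ, y σ ∈ A.G ((n : ℤ) - s σ)) ∧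
      (∀ τ, A.D (y τ) + ∑ σ ∈ F n, y σ * c σ τ = x τ) ∧ ∑ σ ∈ F n, y σ • v σ = w

section constr

variable {A : DGA K} (M : LM A)

/-- number of cells of level `< n` -/
noncomputable def S : ℕ → ℕ
  | 0 => 0
  | n + 1 => S n + (S n * Module.finrank K A.C + Module.finrank K (M.gr n))

/-- number of cells of level `n` -/
noncomputable def N (n : ℕ) : ℕ := S M n * Module.finrank K A.C + Module.finrank K (M.gr n)

/-- the cells -/
abbrev I : Type := Σ m : ℕ, Fin (N M m)

/-- cells of level `< n` -/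
noncomputable def FF (n : ℕ) : Finset (I M) := (Finset.range n).sigma fun _ => Finset.univ

variable {M}

theorem mem_FF (n : ℕ) (σ : I M) : σ ∈ FF M n ↔ σ.1 < n := by
  simp [FF]

theorem card_FF (n : ℕ) : (FF M n).card = S M n := by
  rw [FF, Finset.card_sigma]
  simp only [Finset.card_univ, Fintype.card_fin]
  induction n with
  | zero => rfl
  | succ n ih => rw [Finset.sum_range_succ, ih]; rfl

/-- data of cells -/
abbrev Q (M : LM A) : Type := I M → (I M → A.C) × M.Y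

/-- cycles of the cone which give the cells of level `n` -/
noncomputable def Z (n : ℕ) (q : Q M) : Submodule K ((I M → A.C) × M.Y) where
  carrier := {p | (∀ σ, p.1 σ ∈ A.G ((n : ℤ) - 1 - σ.1)) ∧ p.2 ∈ M.gr n ∧
    (∀ τ, A.D (p.1 τ) + ∑ σ ∈ FF M n, p.1 σ * (q σ).1 τ = 0) ∧
    ∑ σ ∈ FF M n, p.1 σ • (q σ).2 = M.d p.2}
  zero_mem' := by
    refine ⟨fun σ => Submodule.zero_mem _, Submodule.zero_mem _, fun τ => ?_, ?_⟩
    · simp
    · simp
  add_mem' := by
    rintro x y ⟨hx1, hx2, hx3, hx4⟩ ⟨hy1, hy2, hy3, hy4⟩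
    refine ⟨fun σ => Submodule.add_mem _ (hx1 σ) (hy1 σ), Submodule.add_mem _ hx2 hy2,
      fun τ => ?_, ?_⟩
    · have := congrArg₂ (· + ·) (hx3 τ) (hy3 τ)
      simp only [add_zero] at this
      rw [← this]
      simp only [Prod.fst_add, Pi.add_apply, map_add, add_mul, Finset.sum_add_distrib]
      abel
    · simp only [Prod.fst_add, Prod.snd_add, Pi.add_apply, add_smul, Finset.sum_add_distrib,
        hx4, hy4, map_add]
  smul_mem' := by
    rintro a x ⟨hx1, hx2, hx3, hx4⟩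
    refine ⟨fun σ => Submodule.smul_mem _ a (hx1 σ), Submodule.smul_mem _ a hx2, fun τ => ?_, ?_⟩
    · simp only [Prod.smul_fst, Pi.smul_apply, map_smul, smul_mul_assoc, ← Finset.smul_sum,
        ← smul_add]
      rw [hx3 τ, smul_zero]
    · simp only [Prod.smul_fst, Prod.smul_snd, Pi.smul_apply, smul_assoc, ← Finset.smul_sum,
        map_smul, hx4]

theorem Z_zero {n : ℕ} {q : Q M} {p : (I M → A.C) × M.Y} (hp : p ∈ Z n q)
    {σ : I M} (hσ : n ≤ σ.1) : p.1 σ = 0 :=
  neg (hp.1 σ) (by omega)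

/-- restriction to the cells of level `< n` -/
noncomputable def res (n : ℕ) (q : Q M) : Z n q →ₗ[K] (FF M n → A.C) × M.gr n where
  toFun x := (fun σ => x.1.1 σ.1, ⟨x.1.2, x.2.2.1⟩)
  map_add' _ _ := rfl
  map_smul' _ _ := rfl

theorem res_inj (n : ℕ) (q : Q M) : Function.Injective (res n q) := by
  intro x y hxy
  apply Subtype.ext
  refine Prod.ext ?_ ?_
  · funext σ
    by_cases hσ : σ.1 < n
    · exact congrFun (congrArg Prod.fst hxy) ⟨σ, (mem_FF n σ).2 hσ⟩
    · rw [Z_zero x.2 (by omega), Z_zero y.2 (by omega)]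
  · exact congrArg Subtype.val (congrArg Prod.snd hxy)

variable [hfin : ∀ k : ℤ, Module.Finite K (M.gr k)]

theorem fin_Z (n : ℕ) (q : Q M) : Module.Finite K (Z n q) :=
  Module.Finite.of_injective (res n q) (res_inj n q)

theorem finrank_Z (n : ℕ) (q : Q M) : Module.finrank K (Z n q) ≤ N M n := by
  refine (LinearMap.finrank_le_finrank_of_injective (res_inj n q)).trans ?_
  rw [Module.finrank_prod, Module.finrank_pi_fintype]
  simp only [Finset.sum_const, Finset.card_univ, Fintype.card_coe, smul_eq_mul, card_FF]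
  exact le_rfl

/-- a subspace of small dimension is spanned by a family of prescribed length -/
theorem exists_fam {W : Type} [AddCommGroup W] [Module K W] [Module.Finite K W] {n : ℕ}
    (h : Module.finrank K W ≤ n) :
    ∃ f : Fin n → W, ∀ x : W, ∃ a : Fin n → K, x = ∑ i, a i • f i := by
  classical
  have h1 : Submodule.span K (Set.range (Module.finBasis K W)) = ⊤ := (Module.finBasis K W).span_eq
  let f : Fin n → W := fun i =>
    if hi : i.val < Module.finrank K W then Module.finBasis K W ⟨i.val, hi⟩ else 0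
  have hf : Submodule.span K (Set.range f) = ⊤ := by
    rw [eq_top_iff, ← h1]
    refine Submodule.span_mono ?_
    rintro _ ⟨j, rfl⟩
    exact ⟨⟨j.val, lt_of_lt_of_le j.2 h⟩, by simp [f]⟩
  refine ⟨f, fun x => ?_⟩
  have hx : x ∈ Submodule.span K (Set.range f) := by rw [hf]; trivial
  obtain ⟨a, ha⟩ := (Submodule.mem_span_range_iff_exists_fun K).1 hx
  exact ⟨a, ha.symm⟩

theorem exists_fam_Z (n : ℕ) (q : Q M) :
    ∃ f : Fin (N M n) → (I M → A.C) × M.Y, (∀ i, f i ∈ Z n q) ∧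
      ∀ x ∈ Z n q, ∃ a : Fin (N M n) → K, x = ∑ i, a i • f i := by
  haveI := fin_Z n q
  obtain ⟨f, hf⟩ := exists_fam (K := K) (finrank_Z n q)
  refine ⟨fun i => (f i).1, fun i => (f i).2, fun x hx => ?_⟩
  obtain ⟨a, ha⟩ := hf ⟨x, hx⟩
  refine ⟨a, ?_⟩
  have h1 := congrArg (Submodule.subtype _) ha
  rw [map_sum] at h1
  simpa using h1

/-- the chosen spanning family of the cycles -/
noncomputable def fam (n : ℕ) (q : Q M) : Fin (N M n) → (I M → A.C) × M.Y :=
  Classical.choose (exists_fam_Z n q)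

theorem fam_mem (n : ℕ) (q : Q M) (i) : fam n q i ∈ Z n q :=
  (Classical.choose_spec (exists_fam_Z n q)).1 i

theorem fam_span (n : ℕ) (q : Q M) : ∀ x ∈ Z n q,
    ∃ a : Fin (N M n) → K, x = ∑ i, a i • fam n q i :=
  (Classical.choose_spec (exists_fam_Z n q)).2

/-- one more level -/
noncomputable def step (n : ℕ) (q : Q M) : Q M :=
  fun σ => if h : σ.1 = n then fam n q (h ▸ σ.2) else q σ

/-- the data of level `< n` -/
noncomputable def qq (M : LM A) [∀ k : ℤ, Module.Finite K (M.gr k)] : ℕ → Q M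
  | 0 => fun _ => 0
  | n + 1 => step n (qq M n)

theorem qq_succ_self (n : ℕ) (i : Fin (N M n)) :
    qq M (n + 1) ⟨n, i⟩ = fam n (qq M n) i := by
  show step n (qq M n) ⟨n, i⟩ = _
  simp [step]

theorem qq_succ_ne (n : ℕ) {σ : I M} (h : σ.1 ≠ n) : qq M (n + 1) σ = qq M n σ := by
  show step n (qq M n) σ = _
  simp [step, h]

theorem qq_stable {σ : I M} : ∀ n, σ.1 < n → qq M n σ = qq M (σ.1 + 1) σ := by
  intro n
  induction n with
  | zero => intro h; omega
  | succ n ih =>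
    intro h
    by_cases h' : σ.1 = n
    · rw [h']
    · rw [qq_succ_ne n h', ih (by omega)]

/-- the data -/
noncomputable def qt (M : LM A) [∀ k : ℤ, Module.Finite K (M.gr k)] : Q M :=
  fun σ => qq M (σ.1 + 1) σ

theorem Z_congr (n : ℕ) : Z n (qq M n) = Z n (qt M) := by
  have h : ∀ σ ∈ FF M n, qq M n σ = qt M σ := fun σ hσ => qq_stable n ((mem_FF n σ).1 hσ)
  ext p
  have h1 : ∀ τ, ∑ σ ∈ FF M n, p.1 σ * (qq M n σ).1 τ = ∑ σ ∈ FF M n, p.1 σ * (qt M σ).1 τ :=
    fun τ => Finset.sum_congr rfl fun σ hσ => by rw [h σ hσ]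
  have h2 : ∑ σ ∈ FF M n, p.1 σ • (qq M n σ).2 = ∑ σ ∈ FF M n, p.1 σ • (qt M σ).2 :=
    Finset.sum_congr rfl fun σ hσ => by rw [h σ hσ]
  constructor
  · rintro ⟨a, b, c, d⟩
    exact ⟨a, b, fun τ => by rw [← h1 τ]; exact c τ, by rw [← h2]; exact d⟩
  · rintro ⟨a, b, c, d⟩
    exact ⟨a, b, fun τ => by rw [h1 τ]; exact c τ, by rw [h2]; exact d⟩

theorem qt_eq (n : ℕ) (i : Fin (N M n)) : qt M ⟨n, i⟩ = fam n (qq M n) i := qq_succ_self n i

theorem qt_row (σ : I M) : qt M σ ∈ Z σ.1 (qt M) := by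
  obtain ⟨n, i⟩ := σ
  rw [qt_eq, ← Z_congr]
  exact fam_mem _ _ _

theorem qt_span (n : ℕ) {x : (I M → A.C) × M.Y} (hx : x ∈ Z n (qt M)) :
    ∃ a : Fin (N M n) → K, x = ∑ i, a i • qt M ⟨n, i⟩ := by
  rw [← Z_congr] at hx
  obtain ⟨a, ha⟩ := fam_span n _ x hx
  exact ⟨a, by simpa only [qt_eq] using ha⟩

theorem ct_mem (σ τ : I M) : (qt M σ).1 τ ∈ A.G ((σ.1 : ℤ) - τ.1 - 1) := by
  have := (qt_row σ).1 τ
  rwa [show ((σ.1 : ℤ) - 1 - τ.1) = σ.1 - τ.1 - 1 by ring] at this

theorem ct_small {σ τ : I M} (h : σ.1 ≤ τ.1) : (qt M σ).1 τ = 0 :=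
  neg (ct_mem σ τ) (by omega)

/-- coefficients at the cells of level `n` -/
noncomputable def at_ (n : ℕ) (a : Fin (N M n) → K) : I M → A.C :=
  fun σ => if h : σ.1 = n then algebraMap K A.C (a (h ▸ σ.2)) else 0

theorem at_self (n : ℕ) (a : Fin (N M n) → K) (i : Fin (N M n)) :
    at_ (M := M) n a ⟨n, i⟩ = algebraMap K A.C (a i) := by simp [at_]

theorem at_ne {n : ℕ} (a : Fin (N M n) → K) {σ : I M} (h : σ.1 ≠ n) :
    at_ n a σ = 0 := by simp [at_, h]

theorem sum_at (n : ℕ) {W : Type} [AddCommMonoid W] (f : I M → W)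
    (hf : ∀ σ, σ.1 ≠ n → f σ = 0) : ∑ σ ∈ FF M (n + 1), f σ = ∑ i : Fin (N M n), f ⟨n, i⟩ := by
  rw [FF, Finset.sum_sigma]
  rw [Finset.sum_eq_single n]
  · intro j _ hj
    exact Finset.sum_eq_zero fun i _ => hf ⟨j, i⟩ hj
  · intro h
    exact absurd (Finset.mem_range.2 (by omega)) h

theorem at_mem (n : ℕ) (a : Fin (N M n) → K) (σ : I M) :
    at_ n a σ ∈ A.G ((n : ℤ) - σ.1) := by
  by_cases h : σ.1 = n
  · subst h
    have e : ((σ.1 : ℤ) - σ.1) = 0 := by ring
    rw [e]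
    obtain ⟨m, i⟩ := σ
    rw [at_self, Algebra.algebraMap_eq_smul_one]
    exact Submodule.smul_mem _ _ A.one_mem
  · rw [at_ne a h]; exact Submodule.zero_mem _

theorem D_at (n : ℕ) (a : Fin (N M n) → K) (σ : I M) : A.D (at_ n a σ) = 0 := by
  by_cases h : σ.1 = n
  · subst h
    obtain ⟨m, i⟩ := σ
    rw [at_self, Algebra.algebraMap_eq_smul_one, map_smul, D_one, smul_zero]
  · rw [at_ne a h, map_zero]

theorem sum_FF_succ {W : Type} [AddCommMonoid W] (n : ℕ) (f : I M → W)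
    (hf : ∀ σ, n ≤ σ.1 → f σ = 0) : ∑ σ ∈ FF M (n + 1), f σ = ∑ σ ∈ FF M n, f σ := by
  symm
  refine Finset.sum_subset (fun σ hσ => (mem_FF _ _).2 (((mem_FF _ _).1 hσ).trans (by omega)))
    fun σ _ hσ => hf σ ?_
  have := (not_congr (mem_FF n σ)).1 hσ
  omega

variable (M) in
/-- **existence of cells** for a left dg module in degrees `≥ 0` with finite pieces -/
noncomputable def resolution : Res M where
  ι := I M
  s := Sigma.fst
  F n := FF M (n + 1)
  mem_F m σ := by rw [mem_FF]; omega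
  c σ τ := (qt M σ).1 τ
  c_mem := ct_mem
  mc σ τ := by
    have h := (qt_row σ).2.2.1 τ
    rw [sum_FF_succ σ.1 _ fun ρ hρ => by rw [ct_small hρ, zero_mul]]
    exact h
  v σ := (qt M σ).2
  v_mem σ := (qt_row σ).2.1
  v_d σ := by
    have h := (qt_row σ).2.2.2
    rw [sum_FF_succ σ.1 _ fun ρ hρ => by rw [ct_small hρ, zero_smul]]
    exact h.symm
  ex n x w hx hw hD hv := by
    have hz : ∀ σ : I M, n ≤ σ.1 → x σ = 0 := fun σ h => neg (hx σ) (by omega)
    have hxw : ((x, w) : (I M → A.C) × M.Y) ∈ Z n (qt M) := by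
      refine ⟨hx, hw, fun τ => ?_, ?_⟩
      · have := hD τ
        rwa [sum_FF_succ n _ fun ρ hρ => by rw [hz ρ hρ, zero_mul]] at this
      · have := hv
        rwa [sum_FF_succ n _ fun ρ hρ => by rw [hz ρ hρ, zero_smul]] at this
    obtain ⟨a, ha⟩ := qt_span n hxw
    have ha1 : x = ∑ i, a i • (qt M ⟨n, i⟩).1 := by
      have := congrArg Prod.fst ha
      rw [Prod.fst_sum] at this
      simpa using this
    have ha2 : w = ∑ i, a i • (qt M ⟨n, i⟩).2 := by
      have := congrArg Prod.snd ha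
      rw [Prod.snd_sum] at this
      simpa using this
    refine ⟨at_ n a, at_mem n a, fun τ => ?_, ?_⟩
    · rw [D_at, zero_add, sum_at n _ fun σ hσ => by rw [at_ne a hσ, zero_mul], ha1,
        Finset.sum_apply]
      refine Finset.sum_congr rfl fun i _ => ?_
      rw [at_self, Pi.smul_apply, Algebra.smul_def]
    · rw [sum_at n _ fun σ hσ => by rw [at_ne a hσ, zero_smul], ha2]
      refine Finset.sum_congr rfl fun i _ => ?_
      rw [at_self, algebraMap_smul]

end constr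

/-! ### the opposite dg algebra -/

/-- the opposite dg algebra (characteristic two: no signs) -/
def op (A : DGA K) : DGA K where
  C := A.Cᵐᵒᵖ
  fin := Module.Finite.equiv (MulOpposite.opLinearEquiv K : A.C ≃ₗ[K] A.Cᵐᵒᵖ)
  two a := MulOpposite.unop_injective (by simpa using A.two a.unop)
  N := A.N
  G k := (A.G k).comap (MulOpposite.opLinearEquiv K : A.C ≃ₗ[K] A.Cᵐᵒᵖ).symm.toLinearMap
  G_neg k hk := by
    rw [A.G_neg k hk, Submodule.eq_bot_iff]
    intro x hx
    exact MulOpposite.unop_injective ((Submodule.mem_bot K).1 hx)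
  G_big k hk := by
    rw [A.G_big k hk, Submodule.eq_bot_iff]
    intro x hx
    exact MulOpposite.unop_injective ((Submodule.mem_bot K).1 hx)
  one_mem := A.one_mem
  mul_mem {k l a b} ha hb := by
    have h : b.unop * a.unop ∈ A.G (l + k) := A.mul_mem hb ha
    rw [add_comm] at h
    exact h
  D := (MulOpposite.opLinearEquiv K : A.C ≃ₗ[K] A.Cᵐᵒᵖ).toLinearMap ∘ₗ A.D ∘ₗ
    (MulOpposite.opLinearEquiv K : A.C ≃ₗ[K] A.Cᵐᵒᵖ).symm.toLinearMap
  D_mul a b := by
    apply MulOpposite.unop_injective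
    show A.D (b.unop * a.unop) = b.unop * A.D a.unop + A.D b.unop * a.unop
    rw [A.D_mul, add_comm]
  D_D a := by
    apply MulOpposite.unop_injective
    exact A.D_D a.unop
  D_mem {k a} ha := A.D_mem (a := a.unop) ha

theorem mem_op {A : DGA K} {k : ℤ} {a : (op A).C} :
    a ∈ (op A).G k ↔ MulOpposite.unop a ∈ A.G k := Iff.rfl

theorem op_D {A : DGA K} (a : A.C) : (op A).D (MulOpposite.op a) = MulOpposite.op (A.D a) := rfl

end Crest.Agent.R186.CellsDG830
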