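import Crest.Agent.R186.Res2_255
import Crest.Agent.R186.CellsDG_830

/-!
Row 186 (A), helper255: existence of cell resolutions in the frame, on both sides
(`exists_lres`, `exists_rres`), for bounded below, locally finite dg modules.
-/

set_option autoImplicit false
set_option linter.style.haveILetI false
set_option linter.unusedSectionVars false

open MulOpposite

namespace Crest.Agent.R186.Res255

open Hat827 Hat827.DGA Frame515 SemiFree515 PreDG84

variable {K : Type} [Field K] {A : DGA K}

/-! ### left modules -/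

/-- a bounded below, locally finite left module in the form of `PreDG_84` -/
def dgmL (N : LM A) (lo : ℤ) (hlo : ∀ k : ℤ, k < lo → N.gr k = ⊥)
    (hfin : ∀ k : ℤ, Module.Finite K (N.gr k)) : DGM A N.X where
  gr := N.gr
  d := N.d
  lo := lo
  lo_bot := hlo
  fin := hfin
  smul_mem := N.smul_mem
  d_mem := N.d_mem
  leib := N.leib
  d_d := N.d_d

/-- cells of 84's resolution -/
def lcPG {N : Type} [AddCommGroup N] [Module K N] [Module A.C N] {M : DGM A N}
    (R : PreDG A N M) : LCells A where
  ι := R.ι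
  s := R.s
  F := R.F
  mem_F := R.mem_F
  e _ := 1
  e_mem _ := A.one_mem
  e_idem _ := one_mul 1
  c := R.c
  c_mem := R.c_mem
  c_left _ _ := one_mul _
  c_right _ _ := mul_one _
  mc := R.mc

/-- 84's resolution as `LRes` -/
noncomputable def lresPG (N : LM A) (lo : ℤ) (hlo : ∀ k : ℤ, k < lo → N.gr k = ⊥)
    (hfin : ∀ k : ℤ, Module.Finite K (N.gr k)) (R : PreDG A N.X (dgmL N lo hlo hfin)) :
    LRes (lcPG R) N where
  lo := lo
  v := R.v
  v_mem := R.v_mem
  v_e σ := one_smul A.C (R.v σ)
  v_d := R.v_d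
  ex := by
    intro k x n hx hd hn hsum
    by_cases hk : k < 0
    · refine ⟨0, Submodule.zero_mem _, 0, Submodule.zero_mem _, ?_, ?_⟩
      · exact (map_zero _).trans (gr_neg (by omega) hx).symm
      · rw [hlo _ (by omega)] at hn
        refine ((Submodule.mem_bot K).1 hn).trans ?_
        exact ((congrArg₂ (· + ·) (map_zero (augL (lcPG R) N R.v))
          (map_zero N.d)).trans (add_zero _)).symm
    · obtain ⟨m, rfl⟩ : ∃ m : ℕ, k = m := ⟨k.toNat, by omega⟩
      have hx0 : ∀ σ, x σ ∈ A.G ((m : ℤ) - 1 - (R.s σ : ℤ)) := fun σ => (hx σ).1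
      have hs : x.support ⊆ R.F m := by
        intro σ hσ
        refine (R.mem_F m σ).2 ?_
        by_contra hc
        exact (Finsupp.mem_support_iff.1 hσ) (neg (hx0 σ) (by omega))
      have hc : ∀ τ, A.D (x τ) + ∑ σ ∈ R.F m, x σ * R.c σ τ = 0 := by
        intro τ
        have h1 := tG_self_d (lcPG R) x (R.F m) hs τ
        rw [hd] at h1
        exact h1.symm
      have ha : ∑ σ ∈ R.F m, x σ • R.v σ + (dgmL N lo hlo hfin).d n = 0 := by
        refine Eq.trans ?_ hsum
        exact congrArg (· + N.d n) (augL_sum (lcPG R) N R.v x (R.F m) hs).symm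
      obtain ⟨y, hy1, hy2, hy3⟩ := R.ex m x n hx0 hn hc ha
      have hz : ∀ σ, m < R.s σ → y σ = 0 := fun σ hσ => neg (hy1 σ) (by omega)
      refine ⟨mkF (lcPG R) m y hz, fun σ => ⟨hy1 σ, mul_one (y σ)⟩, 0, Submodule.zero_mem _, ?_, ?_⟩
      · refine Finsupp.ext fun τ => ?_
        exact (tG_self_d (lcPG R) _ (R.F m) (mkF_supp (lcPG R) m y hz) τ).trans (hy2 τ).symm
      · refine hy3.trans ?_
        refine Eq.trans ?_ (congrArg₂ (· + ·) rfl (map_zero N.d).symm)
        refine Eq.trans ?_ (add_zero _).symm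
        exact (augL_sum (lcPG R) N R.v (mkF (lcPG R) m y hz) (R.F m)
          (mkF_supp (lcPG R) m y hz)).symm

/-- **every bounded below, locally finite left dg module has a cell resolution** -/
theorem exists_lres (N : LM A) (lo : ℤ) (hlo : ∀ k : ℤ, k < lo → N.gr k = ⊥)
    (hfin : ∀ k : ℤ, Module.Finite K (N.gr k)) :
    ∃ (X : LCells A) (R : LRes X N), R.lo = lo ∧ ∀ σ, X.e σ = 1 := by
  obtain ⟨R⟩ := exists_preDG (dgmL N lo hlo hfin)
  exact ⟨lcPG R, lresPG N lo hlo hfin R, rfl, fun _ => rfl⟩

/-! ### right modules -/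

/-- a bounded below, locally finite right module in the form of `PreDG_84` over `A.op` -/
def dgmR (G : RM A) (lo : ℤ) (hlo : ∀ k : ℤ, k < lo → G.gr k = ⊥)
    (hfin : ∀ k : ℤ, Module.Finite K (G.gr k)) :
    letI : Module (CellsDG830.op A).C G.X := G.act
    DGM (CellsDG830.op A) G.X :=
  letI : Module (CellsDG830.op A).C G.X := G.act
  { gr := G.gr
    d := G.d
    lo := lo
    lo_bot := hlo
    fin := hfin
    smul_mem := fun {_ _ a _} ha hx => G.smul_mem (a := a.unop) ha hx
    d_mem := G.d_mem
    leib := fun a x => G.leib a.unop x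
    d_d := G.d_d }

theorem tY_self_d (Y : RCells A) (x : Y.ι →₀ A.C) (S : Finset Y.ι) (hS : x.support ⊆ S) (τ : Y.ι) :
    (show Y.ι →₀ A.C from (tY Y (selfL A)).d x) τ = A.D (x τ) + ∑ σ ∈ S, Y.c τ σ * x σ :=
  (twY Y (selfL A)).dd_apply' x S hS τ

theorem grY_neg {Y : RCells A} {k : ℤ} (hk : k < 0) {x : Y.ι →₀ A.C}
    (hx : x ∈ (tY Y (selfL A)).gr k) : x = 0 := by
  ext σ
  have h1 : x σ ∈ A.G (k - Y.s σ) := (hx σ).1
  exact neg h1 (by omega)

theorem augR_apply (Y : RCells A) (G : RM A) (v : Y.ι → G.X) (x : Y.ι →₀ A.C) :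
    augR Y G v x = x.sum fun σ a => MulOpposite.op a • v σ := by
  simp [augR, Finsupp.lsum_apply]

theorem augR_sum (Y : RCells A) (G : RM A) (v : Y.ι → G.X) (x : Y.ι →₀ A.C) (S : Finset Y.ι)
    (hS : x.support ⊆ S) : augR Y G v x = ∑ σ ∈ S, MulOpposite.op (x σ) • v σ := by
  rw [augR_apply]
  exact Finsupp.sum_of_support_subset _ hS _ fun σ _ => by rw [op_zero, zero_smul]

section right

variable (G : RM A) (lo : ℤ) (hlo : ∀ k : ℤ, k < lo → G.gr k = ⊥)
    (hfin : ∀ k : ℤ, Module.Finite K (G.gr k))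

/-- right cells from left cells over the opposite algebra -/
def rcPG (R : letI : Module (CellsDG830.op A).C G.X := G.act
      PreDG (CellsDG830.op A) G.X (dgmR G lo hlo hfin)) : RCells A :=
  letI : Module (CellsDG830.op A).C G.X := G.act
  { ι := R.ι
    s := R.s
    F := R.F
    mem_F := R.mem_F
    e := fun _ => 1
    e_mem := fun _ => A.one_mem
    e_idem := fun _ => one_mul 1
    c := fun τ σ => (R.c σ τ).unop
    c_mem := fun τ σ => R.c_mem σ τ
    c_left := fun _ _ => one_mul _
    c_right := fun _ _ => mul_one _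
    mc := fun τ σ => by
      have h := congrArg MulOpposite.unop (R.mc σ τ)
      have h2 : MulOpposite.unop ((CellsDG830.op A).D (R.c σ τ)) +
          MulOpposite.unop (∑ ρ ∈ R.F (R.s σ), R.c σ ρ * R.c ρ τ) = 0 := h
      have h3 : MulOpposite.unop (∑ ρ ∈ R.F (R.s σ), R.c σ ρ * R.c ρ τ) =
          ∑ ρ ∈ R.F (R.s σ), (R.c ρ τ).unop * (R.c σ ρ).unop := by
        have := map_sum (opAddEquiv (α := A.C)).symm (fun ρ => R.c σ ρ * R.c ρ τ) (R.F (R.s σ))
        exact this
      rw [h3] at h2
      exact h2 }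

/-- 84's resolution over the opposite algebra as `RRes` -/
noncomputable def rresPG (R : letI : Module (CellsDG830.op A).C G.X := G.act
      PreDG (CellsDG830.op A) G.X (dgmR G lo hlo hfin)) : RRes (rcPG G lo hlo hfin R) G :=
  letI : Module (CellsDG830.op A).C G.X := G.act
  { lo := lo
    v := R.v
    v_mem := R.v_mem
    v_e := fun σ => one_smul A.Cᵐᵒᵖ (R.v σ)
    v_d := R.v_d
    ex := by
      intro k x n hx hd hn hsum
      by_cases hk : k < 0
      · refine ⟨0, Submodule.zero_mem _, 0, Submodule.zero_mem _, ?_, ?_⟩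
        · exact (map_zero _).trans (grY_neg (by omega) hx).symm
        · rw [hlo _ (by omega)] at hn
          refine ((Submodule.mem_bot K).1 hn).trans ?_
          exact ((congrArg₂ (· + ·) (map_zero (augR (rcPG G lo hlo hfin R) G R.v))
            (map_zero G.d)).trans (add_zero _)).symm
      · obtain ⟨m, rfl⟩ : ∃ m : ℕ, k = m := ⟨k.toNat, by omega⟩
        have hx0 : ∀ σ, x σ ∈ A.G ((m : ℤ) - 1 - (R.s σ : ℤ)) := fun σ => (hx σ).1
        have hs : x.support ⊆ R.F m := by
          intro σ hσ
          refine (R.mem_F m σ).2 ?_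
          by_contra hc
          exact (Finsupp.mem_support_iff.1 hσ) (neg (hx0 σ) (by omega))
        let xo : R.ι → (CellsDG830.op A).C := fun σ => MulOpposite.op (x σ)
        have hc : ∀ τ, (CellsDG830.op A).D (xo τ) + ∑ σ ∈ R.F m, xo σ * R.c σ τ = 0 := by
          intro τ
          have h1 := tY_self_d (rcPG G lo hlo hfin R) x (R.F m) hs τ
          rw [hd] at h1
          have h2 : MulOpposite.op (A.D (x τ)) +
              MulOpposite.op (∑ σ ∈ R.F m, (R.c σ τ).unop * x σ) = 0 := by
            rw [← op_add]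
            exact (congrArg MulOpposite.op h1).symm
          have h3 : MulOpposite.op (∑ σ ∈ R.F m, (R.c σ τ).unop * x σ) =
              ∑ σ ∈ R.F m, xo σ * R.c σ τ := by
            have := map_sum (opAddEquiv (α := A.C)) (fun σ => (R.c σ τ).unop * x σ) (R.F m)
            exact this
          rw [h3] at h2
          exact h2
        have ha : ∑ σ ∈ R.F m, xo σ • R.v σ + (dgmR G lo hlo hfin).d n = 0 := by
          refine Eq.trans ?_ hsum
          exact congrArg (· + G.d n) (augR_sum (rcPG G lo hlo hfin R) G R.v x (R.F m) hs).symm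
        obtain ⟨y, hy1, hy2, hy3⟩ := R.ex m xo n hx0 hn hc ha
        have hz : ∀ σ, m < R.s σ → (y σ).unop = 0 := fun σ hσ =>
          neg (A := A) (hy1 σ) (by omega)
        let z : R.ι →₀ A.C := Finsupp.onFinset (R.F m) (fun σ => (y σ).unop) fun σ hσ =>
          (R.mem_F m σ).2 (by
            by_contra hc
            exact hσ (hz σ (by omega)))
        have hzs : z.support ⊆ R.F m := Finsupp.support_onFinset_subset
        refine ⟨z, fun σ => ⟨hy1 σ, one_mul (y σ).unop⟩, 0, Submodule.zero_mem _, ?_, ?_⟩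
        · refine Finsupp.ext fun τ => ?_
          refine (tY_self_d (rcPG G lo hlo hfin R) z (R.F m) hzs τ).trans ?_
          have h4 := congrArg MulOpposite.unop (hy2 τ)
          have h5 : x τ = MulOpposite.unop ((CellsDG830.op A).D (y τ)) +
              MulOpposite.unop (∑ σ ∈ R.F m, y σ * R.c σ τ) := h4
          have h6 : MulOpposite.unop (∑ σ ∈ R.F m, y σ * R.c σ τ) =
              ∑ σ ∈ R.F m, (R.c σ τ).unop * (y σ).unop := by
            have := map_sum (opAddEquiv (α := A.C)).symm (fun σ => y σ * R.c σ τ) (R.F m)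
            exact this
          rw [h6] at h5
          exact h5.symm
        · refine hy3.trans ?_
          refine Eq.trans ?_ (congrArg₂ (· + ·) rfl (map_zero G.d).symm)
          refine Eq.trans ?_ (add_zero _).symm
          exact (augR_sum (rcPG G lo hlo hfin R) G R.v z (R.F m) hzs).symm }

include hlo hfin in
/-- **every bounded below, locally finite right dg module has a cell resolution** -/
theorem exists_rres :
    ∃ (Y : RCells A) (R : RRes Y G), R.lo = lo ∧ ∀ σ, Y.e σ = 1 := by
  letI : Module (CellsDG830.op A).C G.X := G.act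
  haveI : IsScalarTower K (CellsDG830.op A).C G.X := G.tower
  obtain ⟨R⟩ := exists_preDG (dgmR G lo hlo hfin)
  exact ⟨rcPG G lo hlo hfin R, rresPG G lo hlo hfin R, rfl, fun _ => rfl⟩

end right

end Crest.Agent.R186.Res255
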