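import Crest.Agent.R186.WBM_163
import Crest.Agent.R186.FinV_988
import Crest.Agent.R186.Res3_255

/-!
Row 186, half (A) (helper890): THE HOMOGENEOUS CORE of 163's windows.

`WBM163.TB.win` is carried by ALL matrices; the dual `FinV988.DR` of it is not bounded.  Here:
`winS T : BM w.dga w'.dga` = matrices with entries in `⨆ k, T.q i j k` (same actions, same `d`, same
homogeneous parts), `incS : GCHom (winS T) T.win` bijective in each degree, and bounded projections
`PrL` of `winS T` when `T.B` has projections.  The same for `TL`, `TR`.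
-/

set_option autoImplicit false
set_option linter.style.haveILetI false
set_option linter.unusedSectionVars false

noncomputable section

open MulOpposite

namespace Crest.Agent.R186.Core890

open Hat827 Win810 Win810.WD Frame515 WBM163 FinV988

variable {K : Type} [Field K]

/-! ### bimodules -/

section TB

variable {w w' : WD K} (T : TB w w')

/-- entries -/
def E (i : w.Ob) (j : w'.Ob) : Submodule K T.B := ⨆ k : ℤ, T.q i j k

theorem q_le_E (i : w.Ob) (j : w'.Ob) (k : ℤ) : T.q i j k ≤ E T i j := le_iSup (fun k => T.q i j k) k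

theorem l_E {i j : w.Ob} {j' : w'.Ob} {a : w.S} {x : T.B} (ha : a ∈ w.E i j) (hx : x ∈ E T j j') :
    T.l a x ∈ E T i j' := by
  have h1 : ∀ (k : ℤ) (a : w.S), a ∈ w.q i j k → T.l a x ∈ E T i j' := by
    intro k a ha
    have h : E T j j' ≤ (E T i j').comap (T.l a) :=
      iSup_le fun l y hy => q_le_E T i j' (k + l) (T.q_l ha hy)
    exact h hx
  have h2 : w.E i j ≤ (E T i j').comap ((LinearMap.applyₗ x) ∘ₗ T.l.toLinearMap) :=
    iSup_le fun k a ha => h1 k a ha
  exact h2 ha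

theorem r_E {i : w.Ob} {j j' : w'.Ob} {x : T.B} {b : w'.S} (hx : x ∈ E T i j) (hb : b ∈ w'.E j j') :
    T.r (op b) x ∈ E T i j' := by
  have h1 : ∀ (k : ℤ) (b : w'.S), b ∈ w'.q j j' k → T.r (op b) x ∈ E T i j' := by
    intro k b hb
    have h : E T i j ≤ (E T i j').comap (T.r (op b)) :=
      iSup_le fun l y hy => q_le_E T i j' (l + k) (T.q_r hy hb)
    exact h hx
  have h2 : w'.E j j' ≤ (E T i j').comap ((LinearMap.applyₗ x) ∘ₗ T.r.toLinearMap ∘ₗ
      (MulOpposite.opLinearEquiv K : w'.S ≃ₗ[K] (w'.S)ᵐᵒᵖ).toLinearMap) :=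
    iSup_le fun k b hb => h1 k b hb
  exact h2 hb

theorem d_E {i : w.Ob} {j : w'.Ob} {x : T.B} (hx : x ∈ E T i j) : T.d x ∈ E T i j := by
  have h : E T i j ≤ (E T i j).comap T.d :=
    iSup_le fun l y hy => q_le_E T i j (l - 1) (T.d_mem hy)
  exact h hx

/-- the core -/
def Xs : Submodule K T.X where
  carrier := {m | ∀ i j, m i j ∈ E T i j}
  add_mem' ha hb i j := Submodule.add_mem _ (ha i j) (hb i j)
  zero_mem' _ _ := Submodule.zero_mem _
  smul_mem' c _ ha i j := Submodule.smul_mem _ c (ha i j)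

theorem mem_Xs {m : T.X} : m ∈ Xs T ↔ ∀ i j, m i j ∈ E T i j := Iff.rfl

theorem gr_le_Xs (k : ℤ) : T.gr k ≤ Xs T := fun m hm i j => q_le_E T i j k (hm i j)

theorem smul_Xs (x : w.Win) {m : T.X} (hm : m ∈ Xs T) : x • m ∈ Xs T := fun i j => by
  rw [T.smul_apply]
  exact Submodule.sum_mem _ fun l _ => l_E T (x.2 i l) (hm l j)

theorem op_smul_Xs (y : (w'.Win)ᵐᵒᵖ) {m : T.X} (hm : m ∈ Xs T) : y • m ∈ Xs T := fun i j => by
  change (op y.unop • m) i j ∈ _
  rw [T.op_smul_apply]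
  exact Submodule.sum_mem _ fun l _ => r_E T (hm i l) (y.unop.2 l j)

theorem dX_Xs {m : T.X} (hm : m ∈ Xs T) : T.dX m ∈ Xs T := fun i j => d_E T (hm i j)

instance instL : Module w.Win (Xs T) where
  smul x m := ⟨x • m.1, smul_Xs T x m.2⟩
  one_smul m := Subtype.ext (one_smul _ m.1)
  mul_smul x y m := Subtype.ext (mul_smul x y m.1)
  smul_zero x := Subtype.ext (smul_zero x)
  smul_add x m n := Subtype.ext (smul_add x m.1 n.1)
  add_smul x y m := Subtype.ext (add_smul x y m.1)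
  zero_smul m := Subtype.ext (zero_smul _ m.1)

instance instR : Module (w'.Win)ᵐᵒᵖ (Xs T) where
  smul x m := ⟨x • m.1, op_smul_Xs T x m.2⟩
  one_smul m := Subtype.ext (one_smul _ m.1)
  mul_smul x y m := Subtype.ext (mul_smul x y m.1)
  smul_zero x := Subtype.ext (smul_zero x)
  smul_add x m n := Subtype.ext (smul_add x m.1 n.1)
  add_smul x y m := Subtype.ext (add_smul x y m.1)
  zero_smul m := Subtype.ext (zero_smul _ m.1)

theorem coe_smul (x : w.Win) (m : Xs T) : ((x • m : Xs T) : T.X) = x • m.1 := rfl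
theorem coe_op_smul (y : (w'.Win)ᵐᵒᵖ) (m : Xs T) : ((y • m : Xs T) : T.X) = y • m.1 := rfl

instance towL : IsScalarTower K w.Win (Xs T) :=
  ⟨fun c x m => Subtype.ext (smul_assoc c x m.1)⟩
instance towR : IsScalarTower K (w'.Win)ᵐᵒᵖ (Xs T) :=
  ⟨fun c x m => Subtype.ext (smul_assoc c x m.1)⟩
instance cmmS : SMulCommClass w.Win (w'.Win)ᵐᵒᵖ (Xs T) :=
  ⟨fun x y m => Subtype.ext (smul_comm x y m.1)⟩

/-- the differential of the core -/
def dXs : Xs T →ₗ[K] Xs T where
  toFun m := ⟨T.dX m.1, dX_Xs T m.2⟩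
  map_add' m n := Subtype.ext (map_add T.dX m.1 n.1)
  map_smul' c m := Subtype.ext (map_smul T.dX c m.1)

@[simp] theorem dXs_coe (m : Xs T) : (dXs T m : T.X) = T.dX m.1 := rfl

/-- **the core of the window** -/
def winS : BM w.dga w'.dga where
  X := Xs T
  gr k := (T.gr k).comap (Xs T).subtype
  d := dXs T
  d_mem h := T.dX_mem h
  d_d m := Subtype.ext (T.dX_dX m.1)
  actL := inferInstanceAs (Module w.Win (Xs T))
  towerL := inferInstanceAs (IsScalarTower K w.Win (Xs T))
  actR := inferInstanceAs (Module (w'.Win)ᵐᵒᵖ (Xs T))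
  towerR := inferInstanceAs (IsScalarTower K (w'.Win)ᵐᵒᵖ (Xs T))
  comm := inferInstanceAs (SMulCommClass w.Win (w'.Win)ᵐᵒᵖ (Xs T))
  smul_mem ha hx := T.smul_mem ha hx
  leib a x := Subtype.ext (T.leibX a x.1)
  smul_memR {k l b x} hb hx := by
    have h := T.op_smul_mem hx hb
    rw [add_comm] at h
    exact h
  leibR b x := Subtype.ext (T.leibX' b x.1)

/-- the inclusion of the core -/
def incS : GCHom (winS T).toGC T.win.toGC where
  f := (Xs T).subtype
  f_mem h := h
  f_d _ := rfl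

theorem incS_apply (m : Xs T) : (incS T).f m = m.1 := rfl

theorem incS_qi : QI (incS T) where
  surj k y hy hd := ⟨⟨y, gr_le_Xs T k hy⟩, hy, Subtype.ext hd, 0, Submodule.zero_mem _, by
    rw [map_zero, add_zero]
    rfl⟩
  inj k x hx _ := by
    rintro ⟨z, hz, hz'⟩
    exact ⟨⟨z, gr_le_Xs T _ hz⟩, hz, Subtype.ext hz'⟩

/-- entrywise acyclicity -/
theorem acS_iff : Ac (winS T).toGC ↔ ∀ (i : w.Ob) (j : w'.Ob) (k : ℤ) (x : T.B), x ∈ T.q i j k →
    T.d x = 0 → ∃ y ∈ T.q i j (k + 1), T.d y = x := by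
  rw [← T.ac_iff]
  constructor
  · intro h k x hx hd
    obtain ⟨y, hy, hy'⟩ := h k ⟨x, gr_le_Xs T k hx⟩ hx (Subtype.ext hd)
    exact ⟨y.1, hy, congrArg Subtype.val hy'⟩
  · intro h k x hx hd
    obtain ⟨y, hy, hy'⟩ := h k x.1 hx (congrArg Subtype.val hd)
    exact ⟨⟨y, gr_le_Xs T _ hy⟩, hy, Subtype.ext hy'⟩

/-- projections of a bimodule over the pieces, with bounds on the window -/
structure PB where
  pr : ℤ → ℤ → ℤ → T.B →ₗ[K] T.B
  mem : ∀ (P A C : ℤ) (x : T.B), pr P A C x ∈ T.p P A C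
  same : ∀ (P A C : ℤ) (x : T.B), x ∈ T.p P A C → pr P A C x = x
  ne : ∀ (P A C C' : ℤ) (x : T.B), C ≠ C' → x ∈ T.p P A C' → pr P A C x = 0
  lo : ℤ
  hi : ℤ
  low : ∀ (i : w.Ob) (j : w'.Ob) (k : ℤ), k < lo → T.q i j k = ⊥
  high : ∀ (i : w.Ob) (j : w'.Ob) (k : ℤ), hi < k → T.q i j k = ⊥

variable {T}

/-- projections of the core -/
def PB.prX (p : PB T) (k : ℤ) : Xs T →ₗ[K] Xs T where
  toFun m := ⟨fun i j => p.pr (w.P i - w'.P j + T.p0) (w.A i - w'.A j + T.a0) k (m.1 i j),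
    fun i j => q_le_E T i j k (p.mem _ _ _ _)⟩
  map_add' m n := by
    apply Subtype.ext
    funext i j
    exact map_add (p.pr _ _ _) _ _
  map_smul' c m := by
    apply Subtype.ext
    funext i j
    exact map_smul (p.pr _ _ _) _ _

theorem PB.prX_apply (p : PB T) (k : ℤ) (m : Xs T) (i : w.Ob) (j : w'.Ob) :
    (p.prX k m).1 i j = p.pr (w.P i - w'.P j + T.p0) (w.A i - w'.A j + T.a0) k (m.1 i j) := rfl

theorem PB.sum_entry (p : PB T) (i : w.Ob) (j : w'.Ob) {x : T.B} (hx : x ∈ E T i j) :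
    ∑ k ∈ Finset.Icc p.lo p.hi, p.pr (w.P i - w'.P j + T.p0) (w.A i - w'.A j + T.a0) k x = x := by
  have h : E T i j ≤ LinearMap.ker ((∑ k ∈ Finset.Icc p.lo p.hi,
      p.pr (w.P i - w'.P j + T.p0) (w.A i - w'.A j + T.a0) k) - LinearMap.id) := by
    refine iSup_le fun k x hx => ?_
    rw [LinearMap.mem_ker, LinearMap.sub_apply, LinearMap.sum_apply, LinearMap.id_apply, sub_eq_zero]
    by_cases h0 : k < p.lo
    · rw [p.low i j k h0] at hx
      rw [(Submodule.mem_bot K).1 hx]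
      simp
    by_cases h1 : p.hi < k
    · rw [p.high i j k h1] at hx
      rw [(Submodule.mem_bot K).1 hx]
      simp
    rw [Finset.sum_eq_single k]
    · exact p.same _ _ _ _ hx
    · intro l _ hl
      exact p.ne _ _ _ _ _ hl hx
    · intro hk
      exact absurd (Finset.mem_Icc.2 ⟨by omega, by omega⟩) hk
  have := h hx
  rw [LinearMap.mem_ker, LinearMap.sub_apply, LinearMap.sum_apply, LinearMap.id_apply, sub_eq_zero] at this
  exact this

theorem coe_sumS {ι : Type} (s : Finset ι) (f : ι → Xs T) (i : w.Ob) (j : w'.Ob) :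
    (∑ a ∈ s, f a : Xs T).1 i j = ∑ a ∈ s, (f a).1 i j := by
  rw [AddSubmonoidClass.coe_finsetSum, TB.sum_apply]

/-- **bounded projections of the core** -/
def PB.prL (p : PB T) : PrL (winS T).toLM where
  pr := p.prX
  pr_mem k m i j := p.mem _ _ _ _
  pr_same {k m} hm := by
    apply Subtype.ext
    funext i j
    exact p.same _ _ _ _ (hm i j)
  pr_ne {k l m} hm hkl := by
    apply Subtype.ext
    funext i j
    exact p.ne _ _ _ _ _ hkl (hm i j)
  lo := p.lo
  hi := p.hi
  pr_sum m := by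
    apply Subtype.ext
    funext i j
    exact (coe_sumS _ (fun k => p.prX k m) i j).trans (p.sum_entry i j (m.2 i j))

theorem PB.gr_low (p : PB T) (k : ℤ) (hk : k < p.lo) : (winS T).gr k = ⊥ := by
  rw [eq_bot_iff]
  intro m hm
  rw [Submodule.mem_bot]
  apply Subtype.ext
  funext i j
  have h := hm i j
  change m.1 i j ∈ T.q i j k at h
  rw [p.low i j k hk] at h
  exact (Submodule.mem_bot K).1 h

theorem PB.gr_high (p : PB T) (k : ℤ) (hk : p.hi < k) : (winS T).gr k = ⊥ := by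
  rw [eq_bot_iff]
  intro m hm
  rw [Submodule.mem_bot]
  apply Subtype.ext
  funext i j
  have h := hm i j
  change m.1 i j ∈ T.q i j k at h
  rw [p.high i j k hk] at h
  exact (Submodule.mem_bot K).1 h

/-- finiteness -/
theorem gr_finiteS [∀ P A C, Module.Finite K (T.p P A C)] (k : ℤ) :
    Module.Finite K ((winS T).gr k) := by
  have h := T.gr_finite k
  let f : (winS T).gr k →ₗ[K] T.gr k :=
    { toFun := fun m => ⟨m.1.1, m.2⟩
      map_add' := fun _ _ => rfl
      map_smul' := fun _ _ => rfl }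
  refine Module.Finite.of_injective f fun a b hab => ?_
  have h2 : a.1.1 = b.1.1 := congrArg (fun z : T.gr k => z.1) hab
  exact Subtype.ext (Subtype.ext h2)

end TB

/-! ### the dual of a bounded left module -/

section dual

variable {A : DGA K} {N : LM A}

/-- bounded below -/
theorem DR_low (P : PrL N) (k : ℤ) (hk : k < -P.hi) : (DR N).gr k = ⊥ := by
  rw [eq_bot_iff]
  intro f hf
  rw [Submodule.mem_bot]
  exact dr_zero P (k := k) hf (by omega)

/-- bounded above -/
theorem DR_high (P : PrL N) (k : ℤ) (hk : -P.lo < k) : (DR N).gr k = ⊥ := by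
  rw [eq_bot_iff]
  intro f hf
  rw [Submodule.mem_bot]
  have hf' : ∀ l z, z ∈ N.gr l → l ≠ -k → (show N.X →ₗ[K] K from f) z = 0 := hf
  refine LinearMap.ext fun z => ?_
  have h : (show N.X →ₗ[K] K from f) z = 0 := by
    rw [← P.pr_sum z, map_sum]
    refine Finset.sum_eq_zero fun j hj => ?_
    rw [Finset.mem_Icc] at hj
    exact hf' j _ (P.pr_mem j z) (by omega)
  exact h

/-- degreewise finite -/
theorem DR_fin (P : PrL N) (hfin : ∀ k, Module.Finite K (N.gr k)) (k : ℤ) :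
    Module.Finite K ((DR N).gr k) := by
  have h := hfin (-k)
  let f : (DR N).gr k →ₗ[K] (N.gr (-k) →ₗ[K] K) :=
    { toFun := fun φ => (show N.X →ₗ[K] K from φ.1) ∘ₗ (N.gr (-k)).subtype
      map_add' := fun _ _ => rfl
      map_smul' := fun _ _ => rfl }
  refine Module.Finite.of_injective f fun φ ψ hφ => ?_
  apply Subtype.ext
  refine LinearMap.ext fun z => ?_
  have h1 : ∀ l z, z ∈ N.gr l → l ≠ -k → (show N.X →ₗ[K] K from φ.1) z = 0 := φ.2
  have h2 : ∀ l z, z ∈ N.gr l → l ≠ -k → (show N.X →ₗ[K] K from ψ.1) z = 0 := ψ.2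
  have h3 : (show N.X →ₗ[K] K from φ.1) z = (show N.X →ₗ[K] K from ψ.1) z := by
    rw [← P.pr_sum z, map_sum, map_sum]
    refine Finset.sum_congr rfl fun j _ => ?_
    by_cases hj : j = -k
    · subst hj
      exact LinearMap.congr_fun hφ ⟨_, P.pr_mem _ z⟩
    · rw [h1 j _ (P.pr_mem j z) hj, h2 j _ (P.pr_mem j z) hj]
  exact h3

/-- **right cells for the dual** -/
theorem exists_resDR (P : PrL N) (hfin : ∀ k, Module.Finite K (N.gr k)) :
    ∃ (Y : RCells A) (R : Res255.RRes Y (DR N)), R.lo = -P.hi ∧ ∀ σ, Y.e σ = 1 :=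
  Res255.exists_rres (DR N) (-P.hi) (fun k hk => DR_low P k hk) (fun k => DR_fin P hfin k)

end dual

end Crest.Agent.R186.Core890
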