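import Crest.Agent.R186.SMp_890
import Crest.Agent.R186.Core_890

/-!
Row 186, half (A) (helper890): THE WINDOW OF A SQUARE ZERO KERNEL AND ITS DUAL.

Generic, for `B : SExt44.BD w`:
* `tbOf B : WBM163.TB w w`, `MWof B : BM w.dga w.dga := winS (tbOf B)`;
* `inrW : (MWof B).X →ₗ[K] B.ext.Win`, `sndW : B.ext.Win →ₗ[K] (MWof B).X` with all compatibilities;
* `jW : GCHom`, `a = inlW (fstW a) + inrW (sndW a)`.

Concrete: `MW π s hs`, `pbM`, `prLM`, `DM π s hs := FinV988.DR (MW π s hs).toLM`, `exists_resDM`.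
-/

set_option autoImplicit false
set_option linter.style.haveILetI false
set_option linter.unusedSectionVars false

noncomputable section

open MulOpposite

namespace Crest.Agent.R186.SM890

open Hat827 Win810 Win810.WD Frame515 WBM163 FinV988 Core890 SExt44

variable {K : Type} [Field K]

section gen

variable {w : WD K} (B : BD w)

/-- right action -/
def rOf : (w.S)ᵐᵒᵖ →ₐ[K] Module.End K B.M :=
  AlgHom.ofLinearMap (B.rM ∘ₗ (MulOpposite.opLinearEquiv K : w.S ≃ₗ[K] (w.S)ᵐᵒᵖ).symm.toLinearMap)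
    (LinearMap.ext fun m => B.rM_one m)
    (fun a b => LinearMap.ext fun m => B.rM_mul b.unop a.unop m)

theorem rOf_op (b : w.S) (m : B.M) : rOf B (op b) m = B.rM b m := rfl

/-- **163's form of 44's bimodule** -/
def tbOf : TB w w where
  B := B.M
  l := B.lM
  r := rOf B
  comm a b x := B.comm a b.unop x
  p := B.pcM
  lm ha hx := B.lM_mem ha hx
  rm hx hb := B.rM_mem hx hb
  d := B.DM
  d_mem := B.DM_mem
  d_d := B.DM_DM
  leibl := B.DM_l
  leibr b x := by
    change B.DM (B.rM b x) = B.rM (w.D b) x + B.rM b (B.DM x)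
    rw [B.DM_r, add_comm]
  p0 := 0
  a0 := 0

theorem q_tbOf (i j : w.Ob) (k : ℤ) :
    (tbOf B).q i j k = B.pcM (w.P i - w.P j) (w.A i - w.A j) k := by
  change B.pcM (w.P i - w.P j + 0) (w.A i - w.A j + 0) k = _
  rw [add_zero, add_zero]

/-- **the window bimodule** (homogeneous core) -/
abbrev MWof : BM w.dga w.dga := winS (tbOf B)

theorem mem_grM {k : ℤ} {m : (MWof B).X} :
    m ∈ (MWof B).gr k ↔ ∀ i j, m.1 i j ∈ B.pcM (w.P i - w.P j) (w.A i - w.A j) k := by
  constructor
  · intro h i j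
    have := h i j
    change m.1 i j ∈ (tbOf B).q i j k at this
    rwa [q_tbOf] at this
  · intro h i j
    change m.1 i j ∈ (tbOf B).q i j k
    rw [q_tbOf]
    exact h i j

theorem inr_E {i j : w.Ob} {m : B.M} (hm : m ∈ E (tbOf B) i j) : B.inr m ∈ B.ext.E i j := by
  have h : E (tbOf B) i j ≤ (B.ext.E i j).comap B.inr := by
    refine iSup_le fun k x hx => ?_
    rw [q_tbOf] at hx
    exact WD.q_le (w := B.ext) i j k (B.inr_mem hx)
  exact h hm

/-- second coordinate -/
def sndS : B.ext.S →ₗ[K] B.M where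
  toFun x := x.2
  map_add' _ _ := rfl
  map_smul' _ _ := rfl

theorem snd_E {i j : w.Ob} {x : B.ext.S} (hx : x ∈ B.ext.E i j) : sndS B x ∈ E (tbOf B) i j := by
  have h : B.ext.E i j ≤ (E (tbOf B) i j).comap (sndS B) := by
    refine iSup_le fun k x hx => ?_
    refine q_le_E (tbOf B) i j k ?_
    rw [q_tbOf]
    exact B.snd_mem hx
  exact h hx

/-- the inclusion `L'' → Γ` -/
def inlH : Res255.Hm w.dga B.ext.dga where
  f := B.inlW
  mem h := B.inlW_mem h
  D a := B.inlW_D a

/-- the projection `Γ → L''` -/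
def fstH : Res255.Hm B.ext.dga w.dga where
  f := B.fstW
  mem h := B.fstW_mem h
  D a := B.fstW_D a

theorem inlH_apply (a : w.dga.C) (i j : w.Ob) :
    (show B.ext.Win from (inlH B).f a).1 i j = B.inl ((show w.Win from a).1 i j) := rfl
theorem fstH_apply (a : B.ext.dga.C) (i j : w.Ob) :
    (show w.Win from (fstH B).f a).1 i j = B.fst ((show B.ext.Win from a).1 i j) := rfl
theorem fstH_inlH (a : w.dga.C) : (fstH B).f ((inlH B).f a) = a := B.fstW_inlW a

/-- `M → Γ` -/
def inrW : (MWof B).X →ₗ[K] B.ext.dga.C where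
  toFun m := (⟨Matrix.of fun i j => B.inr (m.1 i j), fun i j => inr_E B (m.2 i j)⟩ : B.ext.Win)
  map_add' m n := by
    apply Subtype.ext
    ext i j
    exact map_add B.inr _ _
  map_smul' c m := by
    apply Subtype.ext
    ext i j
    exact map_smul B.inr _ _

/-- `Γ → M` -/
def sndW : B.ext.dga.C →ₗ[K] (MWof B).X where
  toFun x := (⟨fun i j => sndS B ((show B.ext.Win from x).1 i j), fun i j =>
    snd_E B ((show B.ext.Win from x).2 i j)⟩ : Xs (tbOf B))
  map_add' _ _ := rfl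
  map_smul' _ _ := rfl

theorem inrW_apply (m : (MWof B).X) (i j : w.Ob) :
    (show B.ext.Win from inrW B m).1 i j = B.inr (m.1 i j) := rfl
theorem sndW_apply (x : B.ext.dga.C) (i j : w.Ob) :
    (sndW B x).1 i j = ((show B.ext.Win from x).1 i j).2 := rfl

@[simp] theorem sndW_inrW (m : (MWof B).X) : sndW B (inrW B m) = m := rfl
@[simp] theorem sndW_inlH (a : w.dga.C) : sndW B ((inlH B).f a) = 0 := rfl
@[simp] theorem fstH_inrW (m : (MWof B).X) : (fstH B).f (inrW B m) = 0 := rfl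

theorem inrW_inj : Function.Injective (inrW B) :=
  Function.LeftInverse.injective (g := sndW B) (sndW_inrW B)

theorem eq_inlH_inrW (x : B.ext.dga.C) : x = (inlH B).f ((fstH B).f x) + inrW B (sndW B x) := by
  apply Subtype.ext
  ext i j
  exact B.eq_inl_inr _

theorem eq_inrW {x : B.ext.dga.C} (h : (fstH B).f x = 0) : x = inrW B (sndW B x) := by
  conv_lhs => rw [eq_inlH_inrW B x, h, map_zero, zero_add]

theorem inrW_mem {k : ℤ} {m : (MWof B).X} (hm : m ∈ (MWof B).gr k) : inrW B m ∈ B.ext.dga.G k :=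
  fun i j => B.inr_mem ((mem_grM B).1 hm i j)

theorem sndW_mem {k : ℤ} {x : B.ext.dga.C} (hx : x ∈ B.ext.dga.G k) : sndW B x ∈ (MWof B).gr k :=
  (mem_grM B).2 fun i j => B.snd_mem (hx i j)

theorem mem_of_inrW {k : ℤ} {m : (MWof B).X} (h : inrW B m ∈ B.ext.dga.G k) :
    m ∈ (MWof B).gr k := sndW_mem B h

/-- exactness on homogeneous elements (153's `j_ex`) -/
theorem inrW_ex {k : ℤ} {x : B.ext.dga.C} (hx : x ∈ B.ext.dga.G k) (h : (fstH B).f x = 0) :
    ∃ m ∈ (MWof B).gr k, inrW B m = x := ⟨sndW B x, sndW_mem B hx, (eq_inrW B h).symm⟩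

theorem inrW_d (m : (MWof B).X) : inrW B ((MWof B).d m) = B.ext.dga.D (inrW B m) := by
  apply Subtype.ext
  ext i j
  exact (B.D_inr _).symm

theorem sndW_d (x : B.ext.dga.C) : sndW B (B.ext.dga.D x) = (MWof B).d (sndW B x) := rfl

theorem el_l (x : B.ext.S) (m : B.M) : x * B.inr m = B.inr (B.lM (B.fst x) m) := by
  conv_lhs => rw [B.eq_inl_inr x]
  rw [add_mul, B.inl_mul_inr, B.inr_mul_inr, add_zero]

theorem el_r (x : B.ext.S) (m : B.M) : B.inr m * x = B.inr (B.rM (B.fst x) m) := by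
  conv_lhs => rw [B.eq_inl_inr x]
  rw [mul_add, B.inr_mul_inl, B.inr_mul_inr, add_zero]

theorem aux_l (x : B.ext.Win) (m : (tbOf B).X) (i j : w.Ob) :
    ∑ l : w.Ob, x.1 i l * B.inr (m l j) = B.inr ((B.fstW x • m : (tbOf B).X) i j) := by
  refine Eq.trans (Finset.sum_congr rfl fun l _ => ?_)
    (map_sum B.inr (fun l : w.Ob => B.lM (B.fst (x.1 i l)) (m l j)) Finset.univ).symm
  exact el_l B _ _

theorem aux_r (x : B.ext.Win) (m : (tbOf B).X) (i j : w.Ob) :
    ∑ l : w.Ob, B.inr (m i l) * x.1 l j = B.inr ((op (B.fstW x) • m : (tbOf B).X) i j) := by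
  refine Eq.trans (Finset.sum_congr rfl fun l _ => ?_)
    (map_sum B.inr (fun l : w.Ob => B.rM (B.fst (x.1 l j)) (m i l)) Finset.univ).symm
  exact el_r B _ _

/-- left multiplication by `Γ` -/
theorem mul_inrW (x : B.ext.dga.C) (m : (MWof B).X) :
    x * inrW B m = inrW B ((fstH B).f x • m) := by
  apply Subtype.ext
  ext i j
  exact aux_l B x m.1 i j

/-- right multiplication by `Γ` -/
theorem inrW_mul (m : (MWof B).X) (x : B.ext.dga.C) :
    inrW B m * x = inrW B (op ((fstH B).f x) • m) := by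
  apply Subtype.ext
  ext i j
  exact aux_r B x m.1 i j

theorem inlH_mul_inrW (a : w.dga.C) (m : (MWof B).X) :
    (inlH B).f a * inrW B m = inrW B (a • m) := by
  rw [mul_inrW, fstH_inlH]

theorem inrW_mul_inlH (m : (MWof B).X) (a : w.dga.C) :
    inrW B m * (inlH B).f a = inrW B (op a • m) := by
  rw [inrW_mul, fstH_inlH]

theorem inrW_mul_inrW (m n : (MWof B).X) : inrW B m * inrW B n = 0 := by
  rw [mul_inrW, fstH_inrW, zero_smul, map_zero]

theorem sndW_inlH_mul (a : w.dga.C) (x : B.ext.dga.C) :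
    sndW B ((inlH B).f a * x) = a • sndW B x := by
  conv_lhs => rw [eq_inlH_inrW B x, mul_add, ← map_mul, inlH_mul_inrW, map_add, sndW_inlH, zero_add,
    sndW_inrW]

theorem sndW_mul_inlH (x : B.ext.dga.C) (a : w.dga.C) :
    sndW B (x * (inlH B).f a) = op a • sndW B x := by
  conv_lhs => rw [eq_inlH_inrW B x, add_mul, ← map_mul, inrW_mul_inlH, map_add, sndW_inlH, zero_add,
    sndW_inrW]

/-- the product of `Γ` in coordinates -/
theorem sndW_mul (x y : B.ext.dga.C) :
    sndW B (x * y) = (fstH B).f x • sndW B y + op ((fstH B).f y) • sndW B x := by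
  have h : x * y = (inlH B).f ((fstH B).f x * (fstH B).f y) +
      inrW B ((fstH B).f x • sndW B y + op ((fstH B).f y) • sndW B x) := by
    conv_lhs => rw [eq_inlH_inrW B x, eq_inlH_inrW B y]
    rw [add_mul, mul_add, mul_add, ← map_mul, inlH_mul_inrW, inrW_mul_inlH, inrW_mul_inrW, add_zero,
      map_add, add_assoc]
  rw [h, map_add, sndW_inlH, zero_add, sndW_inrW]

end gen

/-! ### the concrete module `M` -/

/-- **the window bimodule `M`** over `L'' = (WR π).dga` -/
abbrev MW (π : DefsQ830.Par K) (s : ℕ) (hs : 2 ≤ s) : BM (WR π).dga (WR π).dga := MWof (bdM π s hs)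

/-- projections of `M` -/
def pbM (π : DefsQ830.Par K) (s : ℕ) (hs : 2 ≤ s) : PB (tbOf (bdM π s hs)) where
  pr := prM K s
  mem P A C x := by
    show prM K s P A C x ∈ pcM π s P A C
    rw [pcM_supported]
    exact prM_mem s P A C x
  same P A C x hx := by
    have hm' : x ∈ pcM π s P A C := hx
    rw [pcM_supported] at hm'
    exact prM_same s P A C x hm'
  ne P A C C' x hC hx := by
    have hm' : x ∈ pcM π s P A C' := hx
    rw [pcM_supported] at hm'
    exact prM_ne s P A C C' x hC hm'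
  lo := 0
  hi := 8 + s
  low i j k hk := by
    rw [q_tbOf]
    exact (bdM π s hs).neg i j k hk
  high i j k hk := by
    rw [q_tbOf]
    refine (bdM π s hs).big i j k ?_
    have e : ((bdM π s hs).NM : ℤ) = 8 + s := by
      change (((8 + s : ℕ) : ℕ) : ℤ) = 8 + s
      push_cast
      ring
    rw [e]
    exact hk

/-- bounded projections of the left module `M` -/
def prLM (π : DefsQ830.Par K) (s : ℕ) (hs : 2 ≤ s) : PrL (MW π s hs).toLM := (pbM π s hs).prL

theorem MW_fin (π : DefsQ830.Par K) (s : ℕ) (hs : 2 ≤ s) (k : ℤ) :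
    Module.Finite K ((MW π s hs).gr k) := by
  haveI : ∀ P A C, Module.Finite K ((tbOf (bdM π s hs)).p P A C) := fun P A C => finM π s P A C
  exact gr_finiteS k

/-- **the dual right module `D(M)`** -/
abbrev DM (π : DefsQ830.Par K) (s : ℕ) (hs : 2 ≤ s) : RM (WR π).dga := DR (MW π s hs).toLM

theorem DM_low (π : DefsQ830.Par K) (s : ℕ) (hs : 2 ≤ s) (k : ℤ) (hk : k < -(8 + (s : ℤ))) :
    (DM π s hs).gr k = ⊥ := DR_low (prLM π s hs) k hk

theorem DM_fin (π : DefsQ830.Par K) (s : ℕ) (hs : 2 ≤ s) (k : ℤ) :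
    Module.Finite K ((DM π s hs).gr k) := DR_fin (prLM π s hs) (MW_fin π s hs) k

/-- **right `L''`-cells of `D(M)`** -/
theorem exists_resDM (π : DefsQ830.Par K) (s : ℕ) (hs : 2 ≤ s) :
    ∃ (Y : RCells (WR π).dga) (R : Res255.RRes Y (DM π s hs)), R.lo = -(8 + (s : ℤ)) ∧
      ∀ σ, Y.e σ = 1 :=
  exists_resDR (prLM π s hs) (MW_fin π s hs)

end Crest.Agent.R186.SM890
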