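import Crest.Agent.R186.C1Sq_161
import Crest.Agent.R186.MW_890

/-!
Row 186, half (A), leaf A.C1 (helper161): the split square-zero extension `Γ = L'' ⊕ M` as an
instance of `SqZ`, and `Y ⊗ Γ → D(Γ)` for it.
-/

set_option autoImplicit false
set_option linter.style.haveILetI false

open MulOpposite

namespace Crest.Agent.R186.C1161

open Hat827 Hat827.DGA Frame515 Res255 FinV988 AcIff492 SM890 Win810 WBM163 Core890 SExt44

variable {K : Type} [Field K]

/-- `Γ = L'' ⊕ M` -/
noncomputable def sqB {w : WD K} (B : BD w) : SqZ (inlH B) (fstH B) (MWof B) where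
  j := inrW B
  pr := sndW B
  j_mem := inrW_mem B
  pr_mem := sndW_mem B
  pr_j := sndW_inrW B
  pr_h := sndW_inlH B
  q_j := fstH_inrW B
  q_h := fstH_inlH B
  dec := eq_inlH_inrW B
  j_d m := (inrW_d B m).symm
  j_l := inlH_mul_inrW B
  j_r := inrW_mul B

/-- the instance for row 186 -/
noncomputable def sqG (π : DefsQ830.Par K) (s : ℕ) (hs : 2 ≤ s) :
    SqZ (HmI π s hs) (HmP π s hs) (MW π s hs) := sqB (bdM π s hs)

/-- **`Y ⊗ Γ → D(Γ)`** over the concrete objects, from (c1) -/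
theorem alphaG_ce (π : DefsQ830.Par K) (s : ℕ) (hs : 2 ≤ s) {Y : RCells (WR π).dga}
    (R : RRes Y (DM π s hs))
    (hc : ∀ k : ℤ, CE (tY Y (MW π s hs).toLM) (DR (selfL (WR π).dga)).toGC R.lo k
      (SqZ.phi (MW π s hs) R.toRAug)) (k : ℤ) :
    CE (tY Y (resL (HmI π s hs) (selfL (Gm π s hs)))) (DR (selfL (Gm π s hs))).toGC R.lo k
      (SqZ.alpha (sqG π s hs) R.toRAug) := alpha_ce (sqG π s hs) R hc k

end Crest.Agent.R186.C1161
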