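import Crest.Agent.R186.C1b_328
import Crest.Agent.R186.TLW_890
import Crest.Agent.R186.KzE_161

/-!
Row 186 (A), leaf A.C1 (helper322): the instance `C1b328.Kz (WL π).dga (tLW π s)`.

`smM u v a` : the matrix with entries `a` at `((u, b), (v, b))`; all Koszul data are of this form.
-/

set_option autoImplicit false
set_option linter.style.haveILetI false
set_option linter.unusedSectionVars false
set_option linter.unusedSimpArgs false

noncomputable section

open MulOpposite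

namespace Crest.Agent.R186.C1K322

open Hat827 Win810 Win810.WD Frame515 WBM163 Core890 DefsQ830 PBW128 Der580 WL221 C2b44 SM890 C1b328
open Crest.Agent.R186.KzE161 (xL xL_val xL_mem two_L comm_x comm_x' rI_x rE_x rS_x lI_x lE_x lS_x)

variable {K : Type} [Field K] (π : Par K) (s : ℕ)

/-! ### letters -/

theorem xL_D (c : Fin 2) : DL π (xL π c) = 0 := by
  rw [xL, DL_prL]
  have : D π (X π (.x c)) = 0 := by simp [D_X, dGen]
  rw [this, map_zero]

theorem D_one : DL π (1 : RL π) = 0 := by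
  have h := DL_mul (1 : RL π) 1
  rw [mul_one, mul_one, one_mul] at h
  have h2 : DL π (1 : RL π) + DL π 1 = 0 := Subtype.ext (Der580.add_self π _)
  rw [h2] at h
  exact h

theorem memL {P A C P' A' C' : ℤ} {a : RL π} (h : a ∈ pcL π P A C) (e1 : P' = P) (e2 : A' = A)
    (e3 : C' = C) : a ∈ pcL π P' A' C' := by
  subst e1 e2 e3
  exact h

/-! ### sparse matrices -/

/-- the matrix with entries `a` at `((u, b), (v, b))` -/
def smM (u v : Fin 2) (a : RL π) (i j : Ob) : RL π :=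
  if i.1 = u ∧ j.1 = v ∧ i.2 = j.2 then a else 0

theorem smM_q {u v : Fin 2} {a : RL π} (ha : a ∈ pcL π ((u.val : ℤ) - (v.val : ℤ)) 0 0)
    (i j : Ob) : smM π u v a i j ∈ (WL π).q i j 0 := by
  unfold smM
  split_ifs with h
  · obtain ⟨h1, h2, h3⟩ := h
    refine memL π ha ?_ ?_ rfl
    · change (i.1.val : ℤ) - (j.1.val : ℤ) = _
      rw [h1, h2]
    · change (i.2.val : ℤ) - (j.2.val : ℤ) = _
      rw [h3, sub_self]
  · exact Submodule.zero_mem _

/-- sparse matrices in `L` -/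
def sW (u v : Fin 2) (a : RL π) (ha : a ∈ pcL π ((u.val : ℤ) - (v.val : ℤ)) 0 0) : (WL π).dga.C :=
  (⟨smM π u v a, fun i j => q_le i j 0 (smM_q π ha i j)⟩ : (WL π).Win)

theorem sW_mem (u v : Fin 2) (a : RL π) (ha : a ∈ pcL π ((u.val : ℤ) - (v.val : ℤ)) 0 0) :
    sW π u v a ha ∈ (WL π).dga.G 0 := fun i j => smM_q π ha i j

theorem smM_qT {u v : Fin 2} {a : RL π} (ha : a ∈ pcL π ((u.val : ℤ) - (v.val : ℤ) + 1) 0 0)
    (i j : Ob) : smM π u v a i j ∈ (tLT π s).q i j (s : ℤ) := by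
  rw [q_tLT]
  unfold smM
  split_ifs with h
  · obtain ⟨h1, h2, h3⟩ := h
    refine memL π ha ?_ ?_ (by omega)
    · change (i.1.val : ℤ) - (j.1.val : ℤ) + 1 = _
      rw [h1, h2]
    · change (i.2.val : ℤ) - (j.2.val : ℤ) = _
      rw [h3, sub_self]
  · exact Submodule.zero_mem _

/-- sparse matrices in `tL` -/
def sT (u v : Fin 2) (a : RL π) (ha : a ∈ pcL π ((u.val : ℤ) - (v.val : ℤ) + 1) 0 0) :
    (tLW π s).X :=
  ⟨smM π u v a, fun i j => q_le_E _ i j _ (smM_qT π s ha i j)⟩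

theorem sT_mem (u v : Fin 2) (a : RL π) (ha : a ∈ pcL π ((u.val : ℤ) - (v.val : ℤ) + 1) 0 0) :
    sT π s u v a ha ∈ (tLW π s).gr (s : ℤ) := fun i j => smM_qT π s ha i j

/-- right multiplication by a sparse matrix -/
theorem sum_r (f : Ob → RL π) (u v : Fin 2) (a : RL π) (j : Ob) :
    ∑ l : Ob, f l * smM π u v a l j = if j.1 = v then f (u, j.2) * a else 0 := by
  by_cases h : j.1 = v
  · rw [if_pos h, Fintype.sum_eq_single (u, j.2)]
    · unfold smM
      rw [if_pos ⟨rfl, h, rfl⟩]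
    · intro l hl
      unfold smM
      rw [if_neg, mul_zero]
      rintro ⟨h1, -, h3⟩
      exact hl (Prod.ext h1 h3)
  · rw [if_neg h]
    refine Finset.sum_eq_zero fun l _ => ?_
    unfold smM
    rw [if_neg (fun h' => h h'.2.1), mul_zero]

/-- left multiplication by a sparse matrix -/
theorem sum_l (f : Ob → RL π) (u v : Fin 2) (a : RL π) (i : Ob) :
    ∑ l : Ob, smM π u v a i l * f l = if i.1 = u then a * f (v, i.2) else 0 := by
  by_cases h : i.1 = u
  · rw [if_pos h, Fintype.sum_eq_single (v, i.2)]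
    · unfold smM
      rw [if_pos ⟨h, rfl, rfl⟩]
    · intro l hl
      unfold smM
      rw [if_neg, zero_mul]
      rintro ⟨-, h2, h3⟩
      exact hl (Prod.ext h2 h3.symm)
  · rw [if_neg h]
    refine Finset.sum_eq_zero fun l _ => ?_
    unfold smM
    rw [if_neg (fun h' => h h'.1), zero_mul]

/-- entries -/
def eW (z : (WL π).dga.C) (i j : Ob) : RL π := (show (WL π).Win from z).1 i j

/-- entries -/
def eT (x : (tLW π s).X) (i j : Ob) : RL π := (show Xs (tLT π s) from x).1 i j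

theorem extW {z z' : (WL π).dga.C} (h : ∀ i j, eW π z i j = eW π z' i j) : z = z' :=
  Subtype.ext (Matrix.ext h)

theorem extT {x x' : (tLW π s).X} (h : ∀ i j, eT π s x i j = eT π s x' i j) : x = x' :=
  Subtype.ext (funext fun i => funext fun j => h i j)

section mul

variable {u v : Fin 2} {a : RL π} (ha : a ∈ pcL π ((u.val : ℤ) - (v.val : ℤ)) 0 0)
  (hb : a ∈ pcL π ((u.val : ℤ) - (v.val : ℤ) + 1) 0 0)

theorem mul_sW (z : (WL π).dga.C) (i j : Ob) :
    eW π (z * sW π u v a ha) i j = if j.1 = v then eW π z i (u, j.2) * a else 0 :=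
  (Matrix.mul_apply ..).trans (sum_r π (fun l => eW π z i l) u v a j)

theorem sW_mul (z : (WL π).dga.C) (i j : Ob) :
    eW π (sW π u v a ha * z) i j = if i.1 = u then a * eW π z (v, i.2) j else 0 :=
  (Matrix.mul_apply ..).trans (sum_l π (fun l => eW π z l j) u v a i)

theorem smul_sT (z : (WL π).dga.C) (i j : Ob) :
    eT π s (z • sT π s u v a hb) i j = if j.1 = v then eW π z i (u, j.2) * a else 0 :=
  sum_r π (fun l => eW π z i l) u v a j

theorem op_sT (z : (WL π).dga.C) (i j : Ob) :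
    eT π s (op z • sT π s u v a hb) i j = if i.1 = u then a * eW π z (v, i.2) j else 0 :=
  sum_l π (fun l => eW π z l j) u v a i

theorem sW_smul (x : (tLW π s).X) (i j : Ob) :
    eT π s (sW π u v a ha • x) i j = if i.1 = u then a * eT π s x (v, i.2) j else 0 :=
  sum_l π (fun l => eT π s x l j) u v a i

theorem op_sW (x : (tLW π s).X) (i j : Ob) :
    eT π s (op (sW π u v a ha) • x) i j = if j.1 = v then eT π s x i (u, j.2) * a else 0 :=
  sum_r π (fun l => eT π s x i l) u v a j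

end mul


/-! ### matrices from entries -/

theorem ex_W {k : ℤ} {Q : Ob → Ob → RL π → Prop}
    (h : ∀ i j, ∃ a ∈ (WL π).q i j k, Q i j a) :
    ∃ z ∈ (WL π).dga.G k, ∀ i j, Q i j (eW π z i j) := by
  choose f hf hQ using h
  exact ⟨(⟨Matrix.of f, fun i j => q_le i j k (hf i j)⟩ : (WL π).Win), fun i j => hf i j, hQ⟩

theorem ex_T {k : ℤ} {Q : Ob → Ob → RL π → Prop}
    (h : ∀ i j, ∃ a ∈ (tLT π s).q i j k, Q i j a) :
    ∃ x ∈ (tLW π s).gr k, ∀ i j, Q i j (eT π s x i j) := by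
  choose f hf hQ using h
  exact ⟨⟨f, fun i j => q_le_E _ i j k (hf i j)⟩, fun i j => hf i j, hQ⟩

theorem eW_mem {k : ℤ} {z : (WL π).dga.C} (hz : z ∈ (WL π).dga.G k) (i j : Ob) :
    eW π z i j ∈ pcL π ((i.1.val : ℤ) - j.1.val) ((i.2.val : ℤ) - j.2.val) k := hz i j

theorem eT_mem {k : ℤ} {x : (tLW π s).X} (hx : x ∈ (tLW π s).gr k) (i j : Ob) :
    eT π s x i j ∈ pcL π ((i.1.val : ℤ) - j.1.val + 1) ((i.2.val : ℤ) - j.2.val) (k - s) :=
  mem_grtL.1 hx i j

theorem mem_qW {i j : Ob} {k : ℤ} {a : RL π}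
    (h : a ∈ pcL π ((i.1.val : ℤ) - j.1.val) ((i.2.val : ℤ) - j.2.val) k) :
    a ∈ (WL π).q i j k := h

theorem mem_qT {i j : Ob} {k : ℤ} {a : RL π}
    (h : a ∈ pcL π ((i.1.val : ℤ) - j.1.val + 1) ((i.2.val : ℤ) - j.2.val) (k - s)) :
    a ∈ (tLT π s).q i j k := by
  rw [q_tLT]
  exact h

theorem two2 (c : Fin 2) : c = 0 ∨ c = 1 := by
  fin_cases c
  · exact Or.inl rfl
  · exact Or.inr rfl

theorem h00 : (1 : RL π) ∈ pcL π ((((0 : Fin 2).val : ℕ) : ℤ) - (((0 : Fin 2).val : ℕ) : ℤ)) 0 0 :=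
  memL π pcL_one rfl rfl rfl
theorem h11 : (1 : RL π) ∈ pcL π ((((1 : Fin 2).val : ℕ) : ℤ) - (((1 : Fin 2).val : ℕ) : ℤ)) 0 0 :=
  memL π pcL_one rfl rfl rfl
theorem h10 (c : Fin 2) :
    xL π c ∈ pcL π ((((1 : Fin 2).val : ℕ) : ℤ) - (((0 : Fin 2).val : ℕ) : ℤ)) 0 0 :=
  memL π (xL_mem π c) rfl rfl rfl
theorem t00 (c : Fin 2) :
    xL π c ∈ pcL π ((((0 : Fin 2).val : ℕ) : ℤ) - (((0 : Fin 2).val : ℕ) : ℤ) + 1) 0 0 :=
  memL π (xL_mem π c) rfl rfl rfl
theorem t01 : (1 : RL π) ∈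
    pcL π ((((0 : Fin 2).val : ℕ) : ℤ) - (((1 : Fin 2).val : ℕ) : ℤ) + 1) 0 0 :=
  memL π pcL_one rfl rfl rfl

/-- the idempotents -/
def E0 : (WL π).dga.C := sW π 0 0 1 (h00 π)
def E1 : (WL π).dga.C := sW π 1 1 1 (h11 π)
/-- the Koszul matrices -/
def X0 : (WL π).dga.C := sW π 1 0 (xL π 0) (h10 π 0)
def X1 : (WL π).dga.C := sW π 1 0 (xL π 1) (h10 π 1)
def T0 : (tLW π s).X := sT π s 0 0 (xL π 0) (t00 π 0)
def T1 : (tLW π s).X := sT π s 0 0 (xL π 1) (t00 π 1)
def U : (tLW π s).X := sT π s 0 1 1 (t01 π)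

variable {π}

theorem rE0 {z : (WL π).dga.C} : z * E0 π = z ↔ ∀ i b, eW π z i (1, b) = 0 := by
  constructor
  · intro h i b
    rw [← h, E0, mul_sW, if_neg (show ((1 : Fin 2)) ≠ 0 by decide)]
  · intro h
    refine extW π fun i j => ?_
    rw [E0, mul_sW, mul_one]
    rcases two2 j.1 with e | e
    · rw [if_pos e, show j = (0, j.2) from Prod.ext e rfl]
    · rw [if_neg (by rw [e]; decide), show j = (1, j.2) from Prod.ext e rfl, h]

theorem rE1 {z : (WL π).dga.C} : z * E1 π = z ↔ ∀ i b, eW π z i (0, b) = 0 := by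
  constructor
  · intro h i b
    rw [← h, E1, mul_sW, if_neg (show ((0 : Fin 2)) ≠ 1 by decide)]
  · intro h
    refine extW π fun i j => ?_
    rw [E1, mul_sW, mul_one]
    rcases two2 j.1 with e | e
    · rw [if_neg (by rw [e]; decide), show j = (0, j.2) from Prod.ext e rfl, h]
    · rw [if_pos e, show j = (1, j.2) from Prod.ext e rfl]

theorem lE0 {z : (WL π).dga.C} : E0 π * z = z ↔ ∀ b j, eW π z (1, b) j = 0 := by
  constructor
  · intro h b j
    rw [← h, E0, sW_mul, if_neg (show ((1 : Fin 2)) ≠ 0 by decide)]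
  · intro h
    refine extW π fun i j => ?_
    rw [E0, sW_mul, one_mul]
    rcases two2 i.1 with e | e
    · rw [if_pos e, show i = (0, i.2) from Prod.ext e rfl]
    · rw [if_neg (by rw [e]; decide), show i = (1, i.2) from Prod.ext e rfl, h]

theorem lE1 {z : (WL π).dga.C} : E1 π * z = z ↔ ∀ b j, eW π z (0, b) j = 0 := by
  constructor
  · intro h b j
    rw [← h, E1, sW_mul, if_neg (show ((0 : Fin 2)) ≠ 1 by decide)]
  · intro h
    refine extW π fun i j => ?_
    rw [E1, sW_mul, one_mul]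
    rcases two2 i.1 with e | e
    · rw [if_neg (by rw [e]; decide), show i = (0, i.2) from Prod.ext e rfl, h]
    · rw [if_pos e, show i = (1, i.2) from Prod.ext e rfl]

variable {s}

theorem tE0 {x : (tLW π s).X} : op (E0 π) • x = x ↔ ∀ i b, eT π s x i (1, b) = 0 := by
  constructor
  · intro h i b
    rw [← h, E0, op_sW, if_neg (show ((1 : Fin 2)) ≠ 0 by decide)]
  · intro h
    refine extT π s fun i j => ?_
    rw [E0, op_sW, mul_one]
    rcases two2 j.1 with e | e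
    · rw [if_pos e, show j = (0, j.2) from Prod.ext e rfl]
    · rw [if_neg (by rw [e]; decide), show j = (1, j.2) from Prod.ext e rfl, h]

theorem tE1 {x : (tLW π s).X} : op (E1 π) • x = x ↔ ∀ i b, eT π s x i (0, b) = 0 := by
  constructor
  · intro h i b
    rw [← h, E1, op_sW, if_neg (show ((0 : Fin 2)) ≠ 1 by decide)]
  · intro h
    refine extT π s fun i j => ?_
    rw [E1, op_sW, mul_one]
    rcases two2 j.1 with e | e
    · rw [if_neg (by rw [e]; decide), show j = (0, j.2) from Prod.ext e rfl, h]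
    · rw [if_pos e, show j = (1, j.2) from Prod.ext e rfl]

theorem sE0 {x : (tLW π s).X} : E0 π • x = x ↔ ∀ b j, eT π s x (1, b) j = 0 := by
  constructor
  · intro h b j
    rw [← h, E0, sW_smul, if_neg (show ((1 : Fin 2)) ≠ 0 by decide)]
  · intro h
    refine extT π s fun i j => ?_
    rw [E0, sW_smul, one_mul]
    rcases two2 i.1 with e | e
    · rw [if_pos e, show i = (0, i.2) from Prod.ext e rfl]
    · rw [if_neg (by rw [e]; decide), show i = (1, i.2) from Prod.ext e rfl, h]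

theorem sE1 {x : (tLW π s).X} : E1 π • x = x ↔ ∀ b j, eT π s x (0, b) j = 0 := by
  constructor
  · intro h b j
    rw [← h, E1, sW_smul, if_neg (show ((0 : Fin 2)) ≠ 1 by decide)]
  · intro h
    refine extT π s fun i j => ?_
    rw [E1, sW_smul, one_mul]
    rcases two2 i.1 with e | e
    · rw [if_neg (by rw [e]; decide), show i = (0, i.2) from Prod.ext e rfl, h]
    · rw [if_pos e, show i = (1, i.2) from Prod.ext e rfl]

theorem eT_add (x y : (tLW π s).X) (i j : Ob) :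
    eT π s (x + y) i j = eT π s x i j + eT π s y i j := rfl
theorem eT_zero (i j : Ob) : eT π s 0 i j = 0 := rfl
theorem eW_zero (i j : Ob) : eW π 0 i j = 0 := rfl
theorem eW_add (x y : (WL π).dga.C) (i j : Ob) :
    eW π (x + y) i j = eW π x i j + eW π y i j := rfl

/-- matrices from entries -/
def mkW {k : ℤ} (f : Ob → Ob → RL π) (hf : ∀ i j : Ob, f i j ∈ (WL π).q i j k) : (WL π).dga.C :=
  (⟨Matrix.of f, fun i j => q_le i j k (hf i j)⟩ : (WL π).Win)

theorem mkW_mem {k : ℤ} (f : Ob → Ob → RL π) (hf : ∀ i j : Ob, f i j ∈ (WL π).q i j k) :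
    mkW f hf ∈ (WL π).dga.G k := fun i j => hf i j

theorem eW_mkW {k : ℤ} (f : Ob → Ob → RL π) (hf : ∀ i j : Ob, f i j ∈ (WL π).q i j k) (i j : Ob) :
    eW π (mkW f hf) i j = f i j := rfl

/-- matrices from entries -/
def mkT {k : ℤ} (f : Ob → Ob → RL π) (hf : ∀ i j : Ob, f i j ∈ (tLT π s).q i j k) : (tLW π s).X :=
  ⟨f, fun i j => q_le_E _ i j k (hf i j)⟩

theorem mkT_mem {k : ℤ} (f : Ob → Ob → RL π) (hf : ∀ i j : Ob, f i j ∈ (tLT π s).q i j k) :
    mkT f hf ∈ (tLW π s).gr k := fun i j => hf i j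

theorem eT_mkT {k : ℤ} (f : Ob → Ob → RL π) (hf : ∀ i j : Ob, f i j ∈ (tLT π s).q i j k) (i j : Ob) :
    eT π s (mkT f hf) i j = f i j := rfl

theorem v0 : (((0 : Fin 2).val : ℕ) : ℤ) = 0 := rfl
theorem v1 : (((1 : Fin 2).val : ℕ) : ℤ) = 1 := rfl

theorem j0 {j : Ob} (e : j.1 = 0) : j = (0, j.2) := Prod.ext e rfl
theorem j1 {j : Ob} (e : j.1 = 1) : j = (1, j.2) := Prod.ext e rfl
theorem n01 : (0 : Fin 2) ≠ 1 := by decide
theorem n10 : (1 : Fin 2) ≠ 0 := by decide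

/-! ### the fields -/

theorem cI {z : (WL π).dga.C} (h1 : z * E1 π = z) (h : z * X1 π = 0) : z = 0 := by
  refine extW π fun i j => ?_
  rcases two2 j.1 with e | e
  · rw [j0 e]
    exact rE1.1 h1 i j.2
  · have h2 : eW π (z * X1 π) i (0, j.2) = 0 := by rw [h]; rfl
    rw [X1, mul_sW, if_pos rfl] at h2
    rw [j1 e]
    exact rI_x π 1 h2

theorem cE {k : ℤ} {u0 u1 : (WL π).dga.C} (hu1 : u1 ∈ (WL π).dga.G k)
    (h0 : u0 * E0 π = u0) (h1 : u1 * E0 π = u1) (h : u0 • T0 π s + u1 • T1 π s = 0) :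
    ∃ z ∈ (WL π).dga.G k, z * E1 π = z ∧ u0 = z * X1 π ∧ u1 = z * X0 π := by
  have key : ∀ i j : Ob, ∃ c : RL π, c ∈ (WL π).q i j k ∧ (j.1 = 0 → c = 0) ∧
      (j.1 = 1 → eW π u0 i (0, j.2) = c * xL π 1 ∧ eW π u1 i (0, j.2) = c * xL π 0) := by
    intro i j
    rcases two2 j.1 with e | e
    · exact ⟨0, Submodule.zero_mem _, fun _ => rfl, fun h => absurd (e.symm.trans h) n01⟩
    · have h2 : eT π s (u0 • T0 π s + u1 • T1 π s) i (0, j.2) = 0 := by rw [h]; rfl
      rw [eT_add, T0, T1, smul_sT, smul_sT, if_pos rfl, if_pos rfl] at h2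
      obtain ⟨c, hc, e1, e2⟩ := rE_x π (eW_mem π hu1 i (0, j.2)) h2
      refine ⟨c, mem_qW π (memL π hc ?_ rfl rfl), fun h => absurd (e.symm.trans h) n10,
        fun _ => ⟨e1, e2⟩⟩
      rw [e, v0, v1]
      ring
  choose f hf h2 h3 using key
  refine ⟨mkW f hf, mkW_mem f hf, rE1.2 fun i b => h2 i (0, b) rfl, extW π fun i j => ?_,
    extW π fun i j => ?_⟩
  · rw [X1, mul_sW, eW_mkW]
    rcases two2 j.1 with e | e
    · rw [if_pos e, j0 e]
      exact (h3 i (1, j.2) rfl).1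
    · rw [if_neg (by rw [e]; decide), j1 e]
      exact rE0.1 h0 i j.2
  · rw [X0, mul_sW, eW_mkW]
    rcases two2 j.1 with e | e
    · rw [if_pos e, j0 e]
      exact (h3 i (1, j.2) rfl).2
    · rw [if_neg (by rw [e]; decide), j1 e]
      exact rE0.1 h1 i j.2

theorem cS {k : ℤ} {x : (tLW π s).X} (hx : x ∈ (tLW π s).gr (k + s)) (h : op (E0 π) • x = x) :
    ∃ u0 ∈ (WL π).dga.G k, ∃ u1 ∈ (WL π).dga.G k, u0 * E0 π = u0 ∧ u1 * E0 π = u1 ∧
      x = u0 • T0 π s + u1 • T1 π s := by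
  have key : ∀ i j : Ob, ∃ a b : RL π, a ∈ (WL π).q i j k ∧ b ∈ (WL π).q i j k ∧
      (j.1 = 1 → a = 0) ∧ (j.1 = 1 → b = 0) ∧
      (j.1 = 0 → eT π s x i j = a * xL π 0 + b * xL π 1) := by
    intro i j
    rcases two2 j.1 with e | e
    · obtain ⟨a, ha, b, hb, h2⟩ := rS_x π (by rw [e, v0]; omega) (eT_mem π s hx i j)
      exact ⟨a, b, mem_qW π (memL π ha (by ring) rfl (by ring)),
        mem_qW π (memL π hb (by ring) rfl (by ring)), fun h => absurd (e.symm.trans h) n01,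
        fun h => absurd (e.symm.trans h) n01, fun _ => h2⟩
    · exact ⟨0, 0, Submodule.zero_mem _, Submodule.zero_mem _, fun _ => rfl, fun _ => rfl,
        fun h => absurd (e.symm.trans h) n10⟩
  choose f g hf hg h1 h2 h3 using key
  refine ⟨mkW f hf, mkW_mem f hf, mkW g hg, mkW_mem g hg, rE0.2 fun i b => h1 i (1, b) rfl,
    rE0.2 fun i b => h2 i (1, b) rfl, extT π s fun i j => ?_⟩
  rw [eT_add, T0, T1, smul_sT, smul_sT, eW_mkW, eW_mkW]
  rcases two2 j.1 with e | e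
  · rw [if_pos e, if_pos e, j0 e]
    exact h3 i (0, j.2) rfl
  · rw [if_neg (by rw [e]; decide), if_neg (by rw [e]; decide), add_zero, j1 e]
    exact tE0.1 h i j.2

theorem rI {r : (WL π).dga.C} (h0 : E0 π * r = r) (h : op r • T0 π s = 0) : r = 0 := by
  refine extW π fun i j => ?_
  rcases two2 i.1 with e | e
  · have h2 : eT π s (op r • T0 π s) (0, i.2) j = 0 := by rw [h]; rfl
    rw [T0, op_sT, if_pos rfl] at h2
    rw [j0 e]
    exact lI_x π 0 h2
  · rw [j1 e]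
    exact lE0.1 h0 i.2 j

theorem rE {m : ℤ} {w0 w1 : (tLW π s).X} (hw0 : w0 ∈ (tLW π s).gr m)
    (h0 : E0 π • w0 = w0) (h1 : E0 π • w1 = w1) (h : X1 π • w0 + X0 π • w1 = 0) :
    ∃ r ∈ (WL π).dga.G (m - s), E0 π * r = r ∧ w0 = op r • T0 π s ∧ w1 = op r • T1 π s := by
  have key : ∀ i j : Ob, ∃ c : RL π, c ∈ (WL π).q i j (m - s) ∧ (i.1 = 1 → c = 0) ∧
      (i.1 = 0 → eT π s w0 i j = xL π 0 * c ∧ eT π s w1 i j = xL π 1 * c) := by
    intro i j
    rcases two2 i.1 with e | e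
    · have h2 : eT π s (X1 π • w0 + X0 π • w1) (1, i.2) j = 0 := by rw [h]; rfl
      rw [eT_add, X0, X1, sW_smul, sW_smul, if_pos rfl, if_pos rfl] at h2
      obtain ⟨c, hc, e1, e2⟩ := lE_x π (eT_mem π s hw0 (0, i.2) j) h2
      refine ⟨c, mem_qW π (memL π hc ?_ rfl rfl), fun h => absurd (e.symm.trans h) n01,
        fun _ => ?_⟩
      · rw [e, v0]
        ring
      · rw [j0 e]
        exact ⟨e1, e2⟩
    · exact ⟨0, Submodule.zero_mem _, fun _ => rfl, fun h => absurd (e.symm.trans h) n10⟩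
  choose f hf h2 h3 using key
  refine ⟨mkW f hf, mkW_mem f hf, lE0.2 fun b j => h2 (1, b) j rfl, extT π s fun i j => ?_,
    extT π s fun i j => ?_⟩
  · rw [T0, op_sT, eW_mkW]
    rcases two2 i.1 with e | e
    · rw [if_pos e, j0 e]
      exact (h3 (0, i.2) j rfl).1
    · rw [if_neg (by rw [e]; decide), j1 e]
      exact sE0.1 h0 i.2 j
  · rw [T1, op_sT, eW_mkW]
    rcases two2 i.1 with e | e
    · rw [if_pos e, j0 e]
      exact (h3 (0, i.2) j rfl).2
    · rw [if_neg (by rw [e]; decide), j1 e]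
      exact sE0.1 h1 i.2 j

theorem rS {m : ℤ} {w : (tLW π s).X} (hw : w ∈ (tLW π s).gr m) (h : E1 π • w = w) :
    ∃ w0 ∈ (tLW π s).gr m, ∃ w1 ∈ (tLW π s).gr m, E0 π • w0 = w0 ∧ E0 π • w1 = w1 ∧
      w = X1 π • w0 + X0 π • w1 := by
  have key : ∀ i j : Ob, ∃ a b : RL π, a ∈ (tLT π s).q i j m ∧ b ∈ (tLT π s).q i j m ∧
      (i.1 = 1 → a = 0) ∧ (i.1 = 1 → b = 0) ∧
      (i.1 = 0 → eT π s w (1, i.2) j = xL π 1 * a + xL π 0 * b) := by
    intro i j
    rcases two2 i.1 with e | e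
    · obtain ⟨a, ha, b, hb, h2⟩ := lS_x π (by
        rw [v1]
        have := j.1.2
        omega) (eT_mem π s hw (1, i.2) j)
      refine ⟨a, b, mem_qT π s (memL π ha ?_ rfl rfl), mem_qT π s (memL π hb ?_ rfl rfl),
        fun h => absurd (e.symm.trans h) n01, fun h => absurd (e.symm.trans h) n01, fun _ => h2⟩
      · rw [e, v0, v1]
        ring
      · rw [e, v0, v1]
        ring
    · exact ⟨0, 0, Submodule.zero_mem _, Submodule.zero_mem _, fun _ => rfl, fun _ => rfl,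
        fun h => absurd (e.symm.trans h) n10⟩
  choose f g hf hg h1 h2 h3 using key
  refine ⟨mkT f hf, mkT_mem f hf, mkT g hg, mkT_mem g hg, sE0.2 fun b j => h1 (1, b) j rfl,
    sE0.2 fun b j => h2 (1, b) j rfl, extT π s fun i j => ?_⟩
  rw [eT_add, X0, X1, sW_smul, sW_smul, eT_mkT, eT_mkT]
  rcases two2 i.1 with e | e
  · rw [if_neg (by rw [e]; decide), if_neg (by rw [e]; decide), add_zero, j0 e]
    exact sE1.1 h i.2 j
  · rw [if_pos e, if_pos e, j1 e]
    exact h3 (0, i.2) j rfl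

theorem uX {k : ℤ} {x : (tLW π s).X} (hx : x ∈ (tLW π s).gr (k + s)) (h : op (E1 π) • x = x) :
    ∃ u ∈ (WL π).dga.G k, u * E0 π = u ∧ x = u • U π s := by
  have key : ∀ i j : Ob, ∃ a : RL π, a ∈ (WL π).q i j k ∧ (j.1 = 1 → a = 0) ∧
      (j.1 = 0 → a = eT π s x i (1, j.2)) := by
    intro i j
    rcases two2 j.1 with e | e
    · refine ⟨_, mem_qW π (memL π (eT_mem π s hx i (1, j.2)) ?_ rfl (by ring)),
        fun h => absurd (e.symm.trans h) n01, fun _ => rfl⟩
      rw [e, v0, v1]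
      ring
    · exact ⟨0, Submodule.zero_mem _, fun _ => rfl, fun h => absurd (e.symm.trans h) n10⟩
  choose f hf h1 h2 using key
  refine ⟨mkW f hf, mkW_mem f hf, rE0.2 fun i b => h1 i (1, b) rfl, extT π s fun i j => ?_⟩
  rw [U, smul_sT, eW_mkW, mul_one]
  rcases two2 j.1 with e | e
  · rw [if_neg (by rw [e]; decide), j0 e]
    exact tE1.1 h i j.2
  · rw [if_pos e, j1 e]
    exact (h2 i (0, j.2) rfl).symm

theorem uI {u : (WL π).dga.C} (h0 : u * E0 π = u) (h : u • U π s = 0) : u = 0 := by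
  refine extW π fun i j => ?_
  rcases two2 j.1 with e | e
  · have h2 : eT π s (u • U π s) i (1, j.2) = 0 := by rw [h]; rfl
    rw [U, smul_sT, if_pos rfl, mul_one] at h2
    rw [j0 e]
    exact h2
  · rw [j1 e]
    exact rE0.1 h0 i j.2

theorem uW {m : ℤ} {w : (tLW π s).X} (hw : w ∈ (tLW π s).gr m) (h : E0 π • w = w) :
    ∃ r ∈ (WL π).dga.G (m - s), E1 π * r = r ∧ w = op r • U π s := by
  have key : ∀ i j : Ob, ∃ a : RL π, a ∈ (WL π).q i j (m - s) ∧ (i.1 = 0 → a = 0) ∧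
      (i.1 = 1 → a = eT π s w (0, i.2) j) := by
    intro i j
    rcases two2 i.1 with e | e
    · exact ⟨0, Submodule.zero_mem _, fun _ => rfl, fun h => absurd (e.symm.trans h) n01⟩
    · refine ⟨_, mem_qW π (memL π (eT_mem π s hw (0, i.2) j) ?_ rfl rfl),
        fun h => absurd (e.symm.trans h) n10, fun _ => rfl⟩
      rw [e, v0, v1]
      ring
  choose f hf h1 h2 using key
  refine ⟨mkW f hf, mkW_mem f hf, lE1.2 fun b j => h1 (0, b) j rfl, extT π s fun i j => ?_⟩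
  rw [U, op_sT, eW_mkW, one_mul]
  rcases two2 i.1 with e | e
  · rw [if_pos e, j0 e]
    exact (h2 (1, i.2) j rfl).symm
  · rw [if_neg (by rw [e]; decide), j1 e]
    exact sE0.1 h i.2 j

theorem uJ {r : (WL π).dga.C} (h1 : E1 π * r = r) (h : op r • U π s = 0) : r = 0 := by
  refine extW π fun i j => ?_
  rcases two2 i.1 with e | e
  · rw [j0 e]
    exact lE1.1 h1 i.2 j
  · have h2 : eT π s (op r • U π s) (0, i.2) j = 0 := by rw [h]; rfl
    rw [U, op_sT, if_pos rfl, one_mul] at h2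
    rw [j1 e]
    exact h2

theorem comm : X1 π • T0 π s + X0 π • T1 π s = 0 := by
  refine extT π s fun i j => ?_
  rw [eT_add, X1, X0, sW_smul, sW_smul]
  rcases two2 i.1 with e | e
  · rw [if_neg (by rw [e]; decide), if_neg (by rw [e]; decide), add_zero]
    rfl
  · rw [if_pos e, if_pos e]
    change xL π 1 * smM π 0 0 (xL π 0) (0, i.2) j + xL π 0 * smM π 0 0 (xL π 1) (0, i.2) j = 0
    unfold smM
    split_ifs
    · exact comm_x' π
    · rw [mul_zero, mul_zero, add_zero]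

theorem dsT {u v : Fin 2} {a : RL π} (hb : a ∈ pcL π ((u.val : ℤ) - (v.val : ℤ) + 1) 0 0)
    (h : DL π a = 0) : (tLW π s).d (sT π s u v a hb) = 0 := by
  refine extT π s fun i j => ?_
  change DL π (smM π u v a i j) = 0
  unfold smM
  split_ifs
  · exact h
  · exact map_zero _

variable (π s) in
/-- **the Koszul data of `tL`** -/
def kz : Kz (WL π).dga (tLW π s) where
  s := s
  E0 := E0 π
  E1 := E1 π
  E0_mem := sW_mem π _ _ _ _
  E1_mem := sW_mem π _ _ _ _
  E00 := rE0.2 fun i b => by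
    change smM π 0 0 1 i (1, b) = 0
    unfold smM
    rw [if_neg]
    rintro ⟨-, h, -⟩
    exact n10 h
  E11 := rE1.2 fun i b => by
    change smM π 1 1 1 i (0, b) = 0
    unfold smM
    rw [if_neg]
    rintro ⟨-, h, -⟩
    exact n01 h
  E_add := extW π fun i j => by
    change smM π 0 0 1 i j + smM π 1 1 1 i j = (1 : Matrix Ob Ob (RL π)) i j
    rw [Matrix.one_apply]
    unfold smM
    by_cases hij : i = j
    · subst hij
      rw [if_pos rfl]
      rcases two2 i.1 with e | e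
      · rw [if_pos ⟨e, e, rfl⟩, if_neg (fun h => n01 (e.symm.trans h.1)), add_zero]
      · rw [if_neg (fun h => n10 (e.symm.trans h.1)), if_pos ⟨e, e, rfl⟩, zero_add]
    · rw [if_neg hij, if_neg (fun h => hij (Prod.ext (h.1.trans h.2.1.symm) h.2.2)),
        if_neg (fun h => hij (Prod.ext (h.1.trans h.2.1.symm) h.2.2)), add_zero]
  X0 := X0 π
  X1 := X1 π
  X0_mem := sW_mem π _ _ _ _
  X1_mem := sW_mem π _ _ _ _
  E1X0 := lE1.2 fun b j => by
    change smM π 1 0 (xL π 0) (0, b) j = 0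
    unfold smM
    rw [if_neg]
    rintro ⟨h, -, -⟩
    exact n01 h
  E1X1 := lE1.2 fun b j => by
    change smM π 1 0 (xL π 1) (0, b) j = 0
    unfold smM
    rw [if_neg]
    rintro ⟨h, -, -⟩
    exact n01 h
  X0E0 := rE0.2 fun i b => by
    change smM π 1 0 (xL π 0) i (1, b) = 0
    unfold smM
    rw [if_neg]
    rintro ⟨-, h, -⟩
    exact n10 h
  X1E0 := rE0.2 fun i b => by
    change smM π 1 0 (xL π 1) i (1, b) = 0
    unfold smM
    rw [if_neg]
    rintro ⟨-, h, -⟩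
    exact n10 h
  T0 := T0 π s
  T1 := T1 π s
  T0_mem := sT_mem π s _ _ _ _
  T1_mem := sT_mem π s _ _ _ _
  dT0 := dsT _ (xL_D π 0)
  dT1 := dsT _ (xL_D π 1)
  E0T0 := sE0.2 fun b j => by
    change smM π 0 0 (xL π 0) (1, b) j = 0
    unfold smM
    rw [if_neg]
    rintro ⟨h, -, -⟩
    exact n10 h
  E0T1 := sE0.2 fun b j => by
    change smM π 0 0 (xL π 1) (1, b) j = 0
    unfold smM
    rw [if_neg]
    rintro ⟨h, -, -⟩
    exact n10 h
  T0E0 := tE0.2 fun i b => by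
    change smM π 0 0 (xL π 0) i (1, b) = 0
    unfold smM
    rw [if_neg]
    rintro ⟨-, h, -⟩
    exact n10 h
  T1E0 := tE0.2 fun i b => by
    change smM π 0 0 (xL π 1) i (1, b) = 0
    unfold smM
    rw [if_neg]
    rintro ⟨-, h, -⟩
    exact n10 h
  U := U π s
  U_mem := sT_mem π s _ _ _ _
  dU := dsT _ (D_one π)
  E0U := sE0.2 fun b j => by
    change smM π 0 1 1 (1, b) j = 0
    unfold smM
    rw [if_neg]
    rintro ⟨h, -, -⟩
    exact n10 h
  UE1 := tE1.2 fun i b => by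
    change smM π 0 1 1 i (0, b) = 0
    unfold smM
    rw [if_neg]
    rintro ⟨-, h, -⟩
    exact n01 h
  comm := comm
  cI _ h1 h := cI h1 h
  cE _ hu1 h0 h1 h := cE hu1 h0 h1 h
  cS hx h := cS hx h
  rI _ h0 h := rI h0 h
  rE hw0 _ h0 h1 h := rE hw0 h0 h1 h
  rS hw h := rS hw h
  uX hx h := uX hx h
  uI _ h0 h := uI h0 h
  uW hw h := uW hw h
  uJ _ h1 h := uJ h1 h

end Crest.Agent.R186.C1K322
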