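import Crest.Agent.R186.TLW_890
import Crest.Agent.R186.KosJ_374

/-!
Row 186, half (A) (helper890): entrywise Koszul facts of `R'` (letters `xL c`: `xL_D`, `xx`,
`rinj`, `rker`, `rsur`, `linj`, `lker`, `lsur` over `(WL π).S` with `pc` degrees) and entries of
`(WL π).dga.C` (`en`, `toW`) and of `(tLW π s).X` (`et`, `toT`).
-/

set_option autoImplicit false
set_option linter.style.haveILetI false
set_option linter.unusedSectionVars false

noncomputable section

open MulOpposite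

namespace Crest.Agent.R186.KzE890

open Hat827 Win810 Win810.WD Frame515 WBM163 FinV988 Core890 SExt44 DefsQ830 WL221 GrP44 C2b44 SM890

variable {K : Type} [Field K] (π : Par K)

/-! ### Koszul facts of `R'` -/

/-- the letters `x_0, x_1` in `R'` -/
def xL (c : Fin 2) : (WL π).S := (⟨X π (.x c), kill_x π c⟩ : RL π)

/-- value in `R''` -/
def vl (r : (WL π).S) : R π := (show RL π from r).1

theorem vl_xL (c : Fin 2) : vl π (xL π c) = X π (.x c) := rfl
theorem vl_mul (a b : (WL π).S) : vl π (a * b) = vl π a * vl π b := rfl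
theorem vl_add (a b : (WL π).S) : vl π (a + b) = vl π a + vl π b := rfl
theorem vl_zero : vl π 0 = 0 := rfl
theorem vl_ext {a b : (WL π).S} (h : vl π a = vl π b) : a = b := Subtype.ext h
theorem vl_kill (a : (WL π).S) : kill π (vl π a) = vl π a := (show RL π from a).2

/-- element of `R'` -/
def mkL (r : R π) (h : kill π r = r) : (WL π).S := (⟨r, h⟩ : RL π)
theorem vl_mkL (r : R π) (h : kill π r = r) : vl π (mkL π r h) = r := rfl

theorem mem_iff {P A C : ℤ} {a : (WL π).S} : a ∈ (WL π).pc P A C ↔ vl π a ∈ pcZ π P A C := Iff.rfl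

theorem mem_pz_iff {P A C : ℤ} {a : (WL π).S} : a ∈ (WL π).pc P A C ↔ vl π a ∈ C2b362.pz π P A C := by
  rw [mem_iff, KOS296.pcZ_eq_pz]

theorem xL_mem (c : Fin 2) : xL π c ∈ (WL π).pc 1 0 0 := by
  have h := PBW128.X_mem_pc π (.x c)
  rw [← pcZ_nat] at h
  exact h

theorem xx : xL π 1 * xL π 0 = xL π 0 * xL π 1 := vl_ext π (Der580.r_xx (π := π))

theorem xL_D (c : Fin 2) : (WL π).D (xL π c) = 0 := by
  apply Subtype.ext
  change kill π (Der580.D π (X π (.x c))) = 0
  rw [Der580.D_X]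
  simp [dGen]

theorem neg_eq (a : R π) : -a = a := by
  rw [neg_eq_iff_add_eq_zero]
  exact Der580.add_self π a

theorem negL (a : (WL π).S) : -a = a := by
  rw [neg_eq_iff_add_eq_zero]
  exact (WL π).two a

theorem rinj (c : Fin 2) {r : (WL π).S} (h : r * xL π c = 0) : r = 0 :=
  vl_ext π (KOS296.K0 π c (congrArg (vl π) h))

theorem rker {P A C : ℤ} {a b : (WL π).S} (hb : b ∈ (WL π).pc P A C)
    (h : a * xL π 0 + b * xL π 1 = 0) :
    ∃ c ∈ (WL π).pc (P - 1) A C, a = c * xL π 1 ∧ b = c * xL π 0 := by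
  have h1 : vl π b * X π (.x 1) = vl π a * X π (.x 0) := by
    have h2 := congrArg (vl π) h
    change vl π a * X π (.x 0) + vl π b * X π (.x 1) = 0 at h2
    rw [add_comm, ← sub_neg_eq_add, neg_eq] at h2
    exact sub_eq_zero.1 h2
  obtain ⟨c, hc, hk, e1, e2⟩ := KOS296.kr_ker π ((mem_pz_iff π).1 hb) (vl_kill π b) h1
  refine ⟨mkL π c hk, (mem_pz_iff π).2 hc, vl_ext π e2, vl_ext π e1⟩

theorem rsur {P A C : ℤ} (hP : 1 ≤ P) {r : (WL π).S} (hr : r ∈ (WL π).pc P A C) :
    ∃ a ∈ (WL π).pc (P - 1) A C, ∃ b ∈ (WL π).pc (P - 1) A C, r = a * xL π 0 + b * xL π 1 := by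
  obtain ⟨a, ha, b, hb, hka, hkb, e⟩ := KOS296.kr_sur π hP ((mem_pz_iff π).1 hr) (vl_kill π r)
  exact ⟨mkL π a hka, (mem_pz_iff π).2 ha, mkL π b hkb, (mem_pz_iff π).2 hb, vl_ext π e⟩

theorem linj (c : Fin 2) {r : (WL π).S} (h : xL π c * r = 0) : r = 0 :=
  vl_ext π (Kos374.xl_inj π c (congrArg (vl π) h))

theorem lker {P A C : ℤ} {a b : (WL π).S} (ha : a ∈ (WL π).pc P A C)
    (h : xL π 1 * a + xL π 0 * b = 0) :
    ∃ c ∈ (WL π).pc (P - 1) A C, a = xL π 0 * c ∧ b = xL π 1 * c := by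
  have h1 : X π (.x 1) * vl π a = X π (.x 0) * vl π b := by
    have h2 := congrArg (vl π) h
    change X π (.x 1) * vl π a + X π (.x 0) * vl π b = 0 at h2
    rw [← sub_neg_eq_add, neg_eq] at h2
    exact sub_eq_zero.1 h2
  obtain ⟨c, hc, e1, e2⟩ := Kos374.xl_kerZ π ((mem_pz_iff π).1 ha) h1
  have hk : kill π c = c := by
    have h3 := congrArg (kill π) e1
    rw [map_mul, kill_x, vl_kill] at h3
    have h4 : X π (.x 0) * (kill π c - c) = 0 := by rw [mul_sub, ← h3, ← e1, sub_self]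
    exact sub_eq_zero.1 (Kos374.xl_inj π 0 h4)
  exact ⟨mkL π c hk, (mem_pz_iff π).2 hc, vl_ext π e1, vl_ext π e2⟩

theorem lsur {P A C : ℤ} (hP : 1 ≤ P) {r : (WL π).S} (hr : r ∈ (WL π).pc P A C) :
    ∃ a ∈ (WL π).pc (P - 1) A C, ∃ b ∈ (WL π).pc (P - 1) A C, r = xL π 1 * a + xL π 0 * b := by
  obtain ⟨a, ha, b, hb, e⟩ := Kos374.xl_surZ π hP ((mem_pz_iff π).1 hr)
  have e' := congrArg (kill π) e
  rw [vl_kill, map_add, map_mul, map_mul, kill_x, kill_x] at e'
  refine ⟨mkL π (kill π b) (kill_kill π b), (mem_pz_iff π).2 (KOS296.kill_pz π hb),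
    mkL π (kill π a) (kill_kill π a), (mem_pz_iff π).2 (KOS296.kill_pz π ha), vl_ext π ?_⟩
  rw [e', add_comm]
  rfl

/-! ### cutting to the core -/

/-- the sum of the projections in the degrees `0..8` -/
def cut (P A : ℤ) : (WL π).S →ₗ[K] (WL π).S := ∑ k ∈ Finset.range 9, (spL π).pr P A k

theorem cut_mem {P A : ℤ} (x : (WL π).S) : cut π P A x ∈ ⨆ k : ℤ, (WL π).pc P A k := by
  rw [cut, LinearMap.sum_apply]
  exact Submodule.sum_mem _ fun k _ => Submodule.mem_iSup_of_mem (k : ℤ) ((spL π).mem _ _ _ _)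

theorem cut_same {P A C : ℤ} (hA : A ≤ 3) {x : (WL π).S} (hx : x ∈ (WL π).pc P A C) :
    cut π P A x = x := by
  rw [cut, LinearMap.sum_apply]
  by_cases h0 : C < 0
  · have hb : (WL π).pc P A C = ⊥ := pcL_neg (Or.inr h0)
    rw [hb] at hx
    rw [(Submodule.mem_bot K).1 hx]
    simp
  by_cases h1 : 8 < C
  · have hb : (WL π).pc P A C = ⊥ := by
      by_cases h : 0 ≤ A
      · exact pcL_big _ (by omega) h
      · exact pcL_neg (Or.inl (by omega))
    rw [hb] at hx
    rw [(Submodule.mem_bot K).1 hx]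
    simp
  obtain ⟨m, rfl⟩ : ∃ m : ℕ, C = m := ⟨C.toNat, by omega⟩
  rw [Finset.sum_eq_single m]
  · exact (spL π).same _ _ _ _ hx
  · intro k _ hk
    exact (spL π).ne _ _ _ _ _ (by exact_mod_cast hk) hx
  · intro h
    exact absurd (Finset.mem_range.2 (by omega)) h

theorem A_le (i j : Ob) : (WL π).A i - (WL π).A j ≤ 3 := by
  have hi := i.2.2
  have e : (WL π).A i - (WL π).A j = (i.2.val : ℤ) - (j.2.val : ℤ) := rfl
  rw [e]
  omega

/-- matrices to `tL` -/
def toT (s : ℕ) : (Ob → Ob → (WL π).S) →ₗ[K] (tLW π s).X where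
  toFun m := (⟨fun i j => cut π ((WL π).P i - (WL π).P j + 1) ((WL π).A i - (WL π).A j) (m i j),
    fun i j => by
      have h := cut_mem π (P := (WL π).P i - (WL π).P j + 1) (A := (WL π).A i - (WL π).A j) (m i j)
      have h2 : (⨆ k : ℤ, (WL π).pc ((WL π).P i - (WL π).P j + 1) ((WL π).A i - (WL π).A j) k) ≤
          Core890.E (tLT π s) i j := by
        refine iSup_le fun k x hx => q_le_E (tLT π s) i j (k + s) ?_
        refine (le_of_eq (q_tLT π s i j (k + s)).symm) ?_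
        rwa [add_sub_cancel_right]
      exact h2 h⟩ : Xs (tLT π s))
  map_add' m n := by
    apply Subtype.ext
    funext i j
    exact map_add (cut π _ _) _ _
  map_smul' c m := by
    apply Subtype.ext
    funext i j
    exact map_smul (cut π _ _) _ _

theorem toT_val {s : ℕ} {k : ℤ} {m : Ob → Ob → (WL π).S}
    (h : ∀ i j, m i j ∈ (WL π).pc ((WL π).P i - (WL π).P j + 1) ((WL π).A i - (WL π).A j) (k - s)) :
    (toT π s m).1 = m := funext fun i => funext fun j => cut_same π (A_le π i j) (h i j)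

theorem toT_mem {s : ℕ} {k : ℤ} {m : Ob → Ob → (WL π).S}
    (h : ∀ i j, m i j ∈ (WL π).pc ((WL π).P i - (WL π).P j + 1) ((WL π).A i - (WL π).A j) (k - s)) :
    toT π s m ∈ (tLW π s).gr k := by
  refine mem_grtL.2 fun i j => ?_
  rw [toT_val π h]
  exact h i j

/-- matrices to `L` -/
def toW : (Ob → Ob → (WL π).S) →ₗ[K] (WL π).dga.C where
  toFun m := (⟨Matrix.of fun i j => cut π ((WL π).P i - (WL π).P j) ((WL π).A i - (WL π).A j) (m i j),
    fun i j => cut_mem π (m i j)⟩ : (WL π).Win)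
  map_add' m n := by
    apply Subtype.ext
    ext i j : 2
    exact map_add (cut π _ _) _ _
  map_smul' c m := by
    apply Subtype.ext
    ext i j : 2
    exact map_smul (cut π _ _) _ _

/-- entries of elements of `L` -/
def en (l : (WL π).dga.C) (i j : Ob) : (WL π).S := (show (WL π).Win from l).1 i j

theorem en_ext {l l' : (WL π).dga.C} (h : ∀ i j, en π l i j = en π l' i j) : l = l' := by
  apply Subtype.ext
  ext i j : 2
  exact h i j

theorem mem_G {k : ℤ} {l : (WL π).dga.C} : l ∈ (WL π).dga.G k ↔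
    ∀ i j, en π l i j ∈ (WL π).pc ((WL π).P i - (WL π).P j) ((WL π).A i - (WL π).A j) k := Iff.rfl

theorem toW_en {k : ℤ} {m : Ob → Ob → (WL π).S}
    (h : ∀ i j, m i j ∈ (WL π).pc ((WL π).P i - (WL π).P j) ((WL π).A i - (WL π).A j) k)
    (i j : Ob) : en π (toW π m) i j = m i j := cut_same π (A_le π i j) (h i j)

theorem toW_mem {k : ℤ} {m : Ob → Ob → (WL π).S}
    (h : ∀ i j, m i j ∈ (WL π).pc ((WL π).P i - (WL π).P j) ((WL π).A i - (WL π).A j) k) :
    toW π m ∈ (WL π).dga.G k := by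
  intro i j
  have := toW_en π h i j
  change en π (toW π m) i j ∈ _
  rw [this]
  exact h i j

/-- entries of elements of `tL` -/
def et {s : ℕ} (m : (tLW π s).X) (i j : Ob) : (WL π).S := m.1 i j

theorem et_ext {s : ℕ} {m m' : (tLW π s).X} (h : ∀ i j, et π m i j = et π m' i j) : m = m' :=
  Subtype.ext (funext fun i => funext fun j => h i j)

theorem et_smul {s : ℕ} (c : (WL π).dga.C) (m : (tLW π s).X) (i j : Ob) :
    et π (c • m) i j = ∑ t : Ob, en π c i t * et π m t j := rfl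

theorem et_op {s : ℕ} (c : (WL π).dga.C) (m : (tLW π s).X) (i j : Ob) :
    et π (op c • m) i j = ∑ t : Ob, et π m i t * en π c t j := rfl

theorem et_d {s : ℕ} (m : (tLW π s).X) (i j : Ob) :
    et π ((tLW π s).d m) i j = (WL π).D (et π m i j) := rfl

theorem et_toT {s : ℕ} {k : ℤ} {m : Ob → Ob → (WL π).S}
    (h : ∀ i j, m i j ∈ (WL π).pc ((WL π).P i - (WL π).P j + 1) ((WL π).A i - (WL π).A j) (k - s))
    (i j : Ob) : et π (toT π s m) i j = m i j := cut_same π (A_le π i j) (h i j)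

theorem mem_gT {s : ℕ} {k : ℤ} {m : (tLW π s).X} : m ∈ (tLW π s).gr k ↔ ∀ i j,
    et π m i j ∈ (WL π).pc ((WL π).P i - (WL π).P j + 1) ((WL π).A i - (WL π).A j) (k - s) :=
  mem_grtL

end Crest.Agent.R186.KzE890
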