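import Crest.Agent.R186.C1Z_154
import Crest.Agent.R186.KzE_890

/-!
Row 186, half (A), leaf A.C1 (helper808): the Koszul data `Kz` of 328 for
`A = (WL π).dga`, `T = tLW π s` (entrywise facts: 890's KzE_890), and (c1).
-/

set_option autoImplicit false
set_option linter.style.haveILetI false
set_option linter.unusedSectionVars false

noncomputable section

open MulOpposite

namespace Crest.Agent.R186.C1K808

open Crest.Agent.R186.DefsQ830
open Hat827 Win810 Frame515 SM890 WL221 C1b328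

variable {K : Type} [Field K] (π : Par K)

/-! ### Koszul facts in `R'` -/

/-- the letter `x_c` of `R'` -/
def xL (c : Fin 2) : RL π := KzE890.xL π c

theorem xL_mem (c : Fin 2) : xL π c ∈ pcL π 1 0 0 := KzE890.xL_mem π c

theorem one_memL : (1 : RL π) ∈ pcL π 0 0 0 := (WL π).one_mem

theorem RL_two (a : RL π) : a + a = 0 := (WL π).two a

theorem xL_comm : xL π 1 * xL π 0 = xL π 0 * xL π 1 := KzE890.xx π

theorem xL_D (c : Fin 2) : WL221.DL π (xL π c) = 0 := KzE890.xL_D π c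

theorem one_DL : WL221.DL π 1 = 0 := by
  have h : WL221.DL π (1 : RL π) ∈ pcL π 0 0 (0 - 1) := (WL π).D_mem (one_memL π)
  rw [pcL_neg (Or.inr (by norm_num))] at h
  exact (Submodule.mem_bot K).1 h

variable {π}

theorem rinj (c : Fin 2) {a : RL π} (h : a * xL π c = 0) : a = 0 := KzE890.rinj π c h

theorem rker {P A C : ℤ} {a b : RL π} (hb : b ∈ pcL π P A C)
    (h : a * xL π 0 + b * xL π 1 = 0) :
    ∃ c ∈ pcL π (P - 1) A C, a = c * xL π 1 ∧ b = c * xL π 0 := KzE890.rker π hb h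

theorem rsur {P A C : ℤ} (hP : 1 ≤ P) {r : RL π} (hr : r ∈ pcL π P A C) :
    ∃ a ∈ pcL π (P - 1) A C, ∃ b ∈ pcL π (P - 1) A C, r = a * xL π 0 + b * xL π 1 :=
  KzE890.rsur π hP hr

theorem linj (c : Fin 2) {a : RL π} (h : xL π c * a = 0) : a = 0 := KzE890.linj π c h

theorem lker {P A C : ℤ} {a b : RL π} (ha : a ∈ pcL π P A C)
    (h : xL π 1 * a + xL π 0 * b = 0) :
    ∃ c ∈ pcL π (P - 1) A C, a = xL π 0 * c ∧ b = xL π 1 * c := KzE890.lker π ha h

theorem lsur {P A C : ℤ} (hP : 1 ≤ P) {r : RL π} (hr : r ∈ pcL π P A C) :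
    ∃ a ∈ pcL π (P - 1) A C, ∃ b ∈ pcL π (P - 1) A C, r = xL π 1 * a + xL π 0 * b :=
  KzE890.lsur π hP hr

variable (π)

/-! ### sparse matrices -/

/-- `a` at the places `((p, b), (p', b))` -/
def cm (p p' : Fin 2) (a : RL π) (i j : Ob) : RL π :=
  if i.1 = p ∧ j.1 = p' ∧ i.2 = j.2 then a else 0

theorem S1 (f : Ob → RL π) (p p' : Fin 2) (a : RL π) (j : Ob) :
    ∑ l : Ob, f l * cm π p p' a l j = if j.1 = p' then f (p, j.2) * a else 0 := by
  rw [Finset.sum_eq_single (p, j.2)]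
  · unfold cm
    by_cases h : j.1 = p'
    · rw [if_pos ⟨rfl, h, rfl⟩, if_pos h]
    · rw [if_neg (fun h' => h h'.2.1), if_neg h, mul_zero]
  · intro l _ hl
    unfold cm
    rw [if_neg, mul_zero]
    rintro ⟨h1, _, h3⟩
    exact hl (Prod.ext h1 h3)
  · intro h
    exact absurd (Finset.mem_univ _) h

theorem S2 (f : Ob → RL π) (p p' : Fin 2) (a : RL π) (i : Ob) :
    ∑ l : Ob, cm π p p' a i l * f l = if i.1 = p then a * f (p', i.2) else 0 := by
  rw [Finset.sum_eq_single (p', i.2)]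
  · unfold cm
    by_cases h : i.1 = p
    · rw [if_pos ⟨h, rfl, rfl⟩, if_pos h]
    · rw [if_neg (fun h' => h h'.1), if_neg h, zero_mul]
  · intro l _ hl
    unfold cm
    rw [if_neg, zero_mul]
    rintro ⟨_, h1, h3⟩
    exact hl (Prod.ext h1 h3.symm)
  · intro h
    exact absurd (Finset.mem_univ _) h

theorem cm_mem {p p' : Fin 2} {a : RL π} {P C : ℤ} (ha : a ∈ pcL π P 0 C) (sh : ℤ)
    (hP : (p.val : ℤ) - p'.val + sh = P) (i j : Ob) :
    cm π p p' a i j ∈ pcL π ((i.1.val : ℤ) - j.1.val + sh) ((i.2.val : ℤ) - j.2.val) C := by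
  unfold cm
  split_ifs with h
  · obtain ⟨h1, h2, h3⟩ := h
    rw [h1, h2, h3, sub_self, hP]
    exact ha
  · exact Submodule.zero_mem _

/-! ### entries -/

/-- entries of the window algebra -/
def eA (z : (WL π).dga.C) (i j : Ob) : RL π := (show (WL π).Win from z).1 i j

variable {π}

theorem eA_ext {z z' : (WL π).dga.C} (h : ∀ i j, eA π z i j = eA π z' i j) : z = z' := by
  apply Subtype.ext
  ext i j : 2
  exact h i j

theorem eA_add (z z' : (WL π).dga.C) (i j : Ob) : eA π (z + z') i j = eA π z i j + eA π z' i j := rfl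
theorem eA_zero (i j : Ob) : eA π 0 i j = 0 := rfl
theorem eA_mul (z z' : (WL π).dga.C) (i j : Ob) :
    eA π (z * z') i j = ∑ l : Ob, eA π z i l * eA π z' l j := Matrix.mul_apply

theorem mem_GA {k : ℤ} {z : (WL π).dga.C} : z ∈ (WL π).dga.G k ↔
    ∀ i j : Ob, eA π z i j ∈ pcL π ((i.1.val : ℤ) - j.1.val) ((i.2.val : ℤ) - j.2.val) k := Iff.rfl

variable (π) in
/-- homogeneous elements -/
def mkA (k : ℤ) (m : Ob → Ob → RL π)
    (h : ∀ i j : Ob, m i j ∈ pcL π ((i.1.val : ℤ) - j.1.val) ((i.2.val : ℤ) - j.2.val) k) :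
    (WL π).dga.C :=
  (⟨Matrix.of m, fun i j => WD.q_le (w := WL π) i j k (h i j)⟩ : (WL π).Win)

theorem eA_mkA (k : ℤ) (m : Ob → Ob → RL π) (h) (i j : Ob) : eA π (mkA π k m h) i j = m i j := rfl

theorem mkA_mem (k : ℤ) (m : Ob → Ob → RL π) (h) : mkA π k m h ∈ (WL π).dga.G k := h

variable (s : ℕ)

/-- entries of `tL` -/
def eT (x : (tLW π s).X) (i j : Ob) : RL π := x.1 i j

variable {s}

theorem eT_ext {z z' : (tLW π s).X} (h : ∀ i j, eT s z i j = eT s z' i j) : z = z' := by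
  apply Subtype.ext
  funext i j
  exact h i j

theorem eT_add (z z' : (tLW π s).X) (i j : Ob) : eT s (z + z') i j = eT s z i j + eT s z' i j := rfl
theorem eT_zero (i j : Ob) : eT s (0 : (tLW π s).X) i j = 0 := rfl
theorem eT_smul (z : (WL π).dga.C) (x : (tLW π s).X) (i j : Ob) :
    eT s (z • x) i j = ∑ l : Ob, eA π z i l * eT s x l j := rfl
theorem eT_op (z : (WL π).dga.C) (x : (tLW π s).X) (i j : Ob) :
    eT s (op z • x) i j = ∑ l : Ob, eT s x i l * eA π z l j := rfl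
theorem eT_d (x : (tLW π s).X) (i j : Ob) : eT s ((tLW π s).d x) i j = WL221.DL π (eT s x i j) := rfl

theorem mem_GT {k : ℤ} {z : (tLW π s).X} : z ∈ (tLW π s).gr k ↔
    ∀ i j : Ob, eT s z i j ∈ pcL π ((i.1.val : ℤ) - j.1.val + 1) ((i.2.val : ℤ) - j.2.val) (k - s) :=
  mem_grtL

variable (π s) in
/-- homogeneous elements -/
def mkT (k : ℤ) (m : Ob → Ob → RL π)
    (h : ∀ i j : Ob, m i j ∈ pcL π ((i.1.val : ℤ) - j.1.val + 1) ((i.2.val : ℤ) - j.2.val) (k - s)) :
    (tLW π s).X :=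
  (⟨m, fun i j => Core890.q_le_E (tLT π s) i j k ((le_of_eq (q_tLT π s i j k).symm) (h i j))⟩ :
    Core890.Xs (tLT π s))

theorem eT_mkT (k : ℤ) (m : Ob → Ob → RL π) (h) (i j : Ob) : eT s (mkT π s k m h) i j = m i j := rfl

theorem mkT_mem (k : ℤ) (m : Ob → Ob → RL π) (h) : mkT π s k m h ∈ (tLW π s).gr k := mem_GT.2 h

/-! ### the elements -/

variable (π s)

/-- idempotents -/
def Ep (p : Fin 2) : (WL π).dga.C := mkA π 0 (cm π p p 1) fun i j => by
  have := cm_mem π (p := p) (p' := p) (one_memL π) 0 (by ring) i j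
  rwa [add_zero] at this

/-- `x_c : (0, b) → (1, b)` -/
def Xc (c : Fin 2) : (WL π).dga.C := mkA π 0 (cm π 1 0 (xL π c)) fun i j => by
  have := cm_mem π (p := 1) (p' := 0) (xL_mem π c) 0 (by simp) i j
  rwa [add_zero] at this

/-- `x_c` at `((0, b), (0, b))` in `tL` -/
def Tc (c : Fin 2) : (tLW π s).X := mkT π s s (cm π 0 0 (xL π c)) fun i j => by
  rw [sub_self]
  exact cm_mem π (p := 0) (p' := 0) (xL_mem π c) 1 (by simp) i j

/-- `1` at `((0, b), (1, b))` in `tL` -/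
def Uc : (tLW π s).X := mkT π s s (cm π 0 1 1) fun i j => by
  rw [sub_self]
  exact cm_mem π (p := 0) (p' := 1) (one_memL π) 1 (by simp) i j

variable {π s}

theorem eA_Ep (p : Fin 2) (i j : Ob) : eA π (Ep π p) i j = cm π p p 1 i j := rfl
theorem eA_Xc (c : Fin 2) (i j : Ob) : eA π (Xc π c) i j = cm π 1 0 (xL π c) i j := rfl
theorem eT_Tc (c : Fin 2) (i j : Ob) : eT s (Tc π s c) i j = cm π 0 0 (xL π c) i j := rfl
theorem eT_Uc (i j : Ob) : eT s (Uc π s) i j = cm π 0 1 1 i j := rfl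

theorem mul_Ep (p : Fin 2) (z : (WL π).dga.C) (i j : Ob) :
    eA π (z * Ep π p) i j = if j.1 = p then eA π z i j else 0 := by
  rw [eA_mul]
  simp only [eA_Ep]
  rw [S1]
  split_ifs with h
  · rw [mul_one, ← h]
  · rfl

theorem Ep_mul (p : Fin 2) (z : (WL π).dga.C) (i j : Ob) :
    eA π (Ep π p * z) i j = if i.1 = p then eA π z i j else 0 := by
  rw [eA_mul]
  simp only [eA_Ep]
  rw [S2]
  split_ifs with h
  · rw [one_mul, ← h]
  · rfl

theorem op_Ep (p : Fin 2) (z : (tLW π s).X) (i j : Ob) :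
    eT s (op (Ep π p) • z) i j = if j.1 = p then eT s z i j else 0 := by
  rw [eT_op]
  simp only [eA_Ep]
  rw [S1]
  split_ifs with h
  · rw [mul_one, ← h]
  · rfl

theorem Ep_smul (p : Fin 2) (z : (tLW π s).X) (i j : Ob) :
    eT s (Ep π p • z) i j = if i.1 = p then eT s z i j else 0 := by
  rw [eT_smul]
  simp only [eA_Ep]
  rw [S2]
  split_ifs with h
  · rw [one_mul, ← h]
  · rfl

theorem mul_Xc (c : Fin 2) (z : (WL π).dga.C) (i j : Ob) :
    eA π (z * Xc π c) i j = if j.1 = 0 then eA π z i (1, j.2) * xL π c else 0 := by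
  rw [eA_mul]
  simp only [eA_Xc]
  rw [S1]

theorem smul_Tc (c : Fin 2) (z : (WL π).dga.C) (i j : Ob) :
    eT s (z • Tc π s c) i j = if j.1 = 0 then eA π z i (0, j.2) * xL π c else 0 := by
  rw [eT_smul]
  simp only [eT_Tc]
  rw [S1]

theorem op_Tc (c : Fin 2) (z : (WL π).dga.C) (i j : Ob) :
    eT s (op z • Tc π s c) i j = if i.1 = 0 then xL π c * eA π z (0, i.2) j else 0 := by
  rw [eT_op]
  simp only [eT_Tc]
  rw [S2]

theorem Xc_smul (c : Fin 2) (z : (tLW π s).X) (i j : Ob) :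
    eT s (Xc π c • z) i j = if i.1 = 1 then xL π c * eT s z (0, i.2) j else 0 := by
  rw [eT_smul]
  simp only [eA_Xc]
  rw [S2]

theorem smul_Uc (z : (WL π).dga.C) (i j : Ob) :
    eT s (z • Uc π s) i j = if j.1 = 1 then eA π z i (0, j.2) else 0 := by
  rw [eT_smul]
  simp only [eT_Uc]
  rw [S1]
  simp only [mul_one]

theorem op_Uc (z : (WL π).dga.C) (i j : Ob) :
    eT s (op z • Uc π s) i j = if i.1 = 0 then eA π z (1, i.2) j else 0 := by
  rw [eT_op]
  simp only [eT_Uc]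
  rw [S2]
  simp only [one_mul]

theorem colA (p : Fin 2) {z : (WL π).dga.C} : z * Ep π p = z ↔ ∀ i j : Ob, j.1 ≠ p → eA π z i j = 0 := by
  constructor
  · intro h i j hj
    rw [← h, mul_Ep, if_neg hj]
  · intro h
    refine eA_ext fun i j => ?_
    rw [mul_Ep]
    split_ifs with hj
    · rfl
    · exact (h i j hj).symm

theorem rowA (p : Fin 2) {z : (WL π).dga.C} : Ep π p * z = z ↔ ∀ i j : Ob, i.1 ≠ p → eA π z i j = 0 := by
  constructor
  · intro h i j hj
    rw [← h, Ep_mul, if_neg hj]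
  · intro h
    refine eA_ext fun i j => ?_
    rw [Ep_mul]
    split_ifs with hj
    · rfl
    · exact (h i j hj).symm

theorem colT (p : Fin 2) {z : (tLW π s).X} :
    op (Ep π p) • z = z ↔ ∀ i j : Ob, j.1 ≠ p → eT s z i j = 0 := by
  constructor
  · intro h i j hj
    rw [← h, op_Ep, if_neg hj]
  · intro h
    refine eT_ext fun i j => ?_
    rw [op_Ep]
    split_ifs with hj
    · rfl
    · exact (h i j hj).symm

theorem rowT (p : Fin 2) {z : (tLW π s).X} :
    Ep π p • z = z ↔ ∀ i j : Ob, i.1 ≠ p → eT s z i j = 0 := by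
  constructor
  · intro h i j hj
    rw [← h, Ep_smul, if_neg hj]
  · intro h
    refine eT_ext fun i j => ?_
    rw [Ep_smul]
    split_ifs with hj
    · rfl
    · exact (h i j hj).symm

theorem fin2' (p : Fin 2) : p = 0 ∨ p = 1 := by fin_cases p <;> simp

theorem ne0 {p : Fin 2} (h : p ≠ 1) : p = 0 := (fin2' p).resolve_right h
theorem ne1 {p : Fin 2} (h : p ≠ 0) : p = 1 := (fin2' p).resolve_left h


theorem ob0 {j : Ob} (h : j.1 = 0) : (((0 : Fin 2), j.2) : Ob) = j := Prod.ext h.symm rfl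
theorem ob1 {j : Ob} (h : j.1 = 1) : (((1 : Fin 2), j.2) : Ob) = j := Prod.ext h.symm rfl

/-! ### the fields -/

theorem E_idem (p : Fin 2) : Ep π p * Ep π p = Ep π p := by
  rw [colA]
  intro i j hj
  rw [eA_Ep, cm, if_neg (fun h => hj h.2.1)]

theorem eA_one (i j : Ob) : eA π 1 i j = if i = j then 1 else 0 := by
  change (1 : Matrix Ob Ob (WL π).S) i j = _
  rw [Matrix.one_apply]
  rfl

theorem E_add : Ep π 0 + Ep π 1 = 1 := by
  refine eA_ext fun i j => ?_
  rw [eA_add, eA_Ep, eA_Ep, eA_one]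
  unfold cm
  rcases fin2' i.1 with h | h <;> rcases fin2' j.1 with h' | h' <;>
    by_cases h2 : i.2 = j.2 <;> simp [h, h', h2, Prod.ext_iff]

theorem E1X (c : Fin 2) : Ep π 1 * Xc π c = Xc π c := by
  rw [rowA]
  intro i j hi
  rw [eA_Xc, cm, if_neg (fun h => hi h.1)]

theorem XE0 (c : Fin 2) : Xc π c * Ep π 0 = Xc π c := by
  rw [colA]
  intro i j hi
  rw [eA_Xc, cm, if_neg (fun h => hi h.2.1)]

theorem E0T (c : Fin 2) : Ep π 0 • Tc π s c = Tc π s c := by
  rw [rowT]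
  intro i j hi
  rw [eT_Tc, cm, if_neg (fun h => hi h.1)]

theorem TE0 (c : Fin 2) : op (Ep π 0) • Tc π s c = Tc π s c := by
  rw [colT]
  intro i j hi
  rw [eT_Tc, cm, if_neg (fun h => hi h.2.1)]

theorem E0U : Ep π 0 • Uc π s = Uc π s := by
  rw [rowT]
  intro i j hi
  rw [eT_Uc, cm, if_neg (fun h => hi h.1)]

theorem UE1 : op (Ep π 1) • Uc π s = Uc π s := by
  rw [colT]
  intro i j hi
  rw [eT_Uc, cm, if_neg (fun h => hi h.2.1)]

theorem dT (c : Fin 2) : (tLW π s).d (Tc π s c) = 0 := by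
  refine eT_ext fun i j => ?_
  rw [eT_d, eT_Tc, eT_zero]
  unfold cm
  split_ifs
  · exact xL_D π c
  · exact map_zero _

theorem dU : (tLW π s).d (Uc π s) = 0 := by
  refine eT_ext fun i j => ?_
  rw [eT_d, eT_Uc, eT_zero]
  unfold cm
  split_ifs
  · exact one_DL π
  · exact map_zero _

theorem comm : Xc π 1 • Tc π s 0 + Xc π 0 • Tc π s 1 = 0 := by
  refine eT_ext fun i j => ?_
  rw [eT_add, Xc_smul, Xc_smul, eT_Tc, eT_Tc, eT_zero]
  unfold cm
  split_ifs with h h'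
  · rw [xL_comm]
    exact RL_two π _
  · rw [mul_zero, mul_zero, add_zero]
  · rw [add_zero]

theorem cI {z : (WL π).dga.C} (hz : z * Ep π 1 = z) (h : z * Xc π 1 = 0) : z = 0 := by
  refine eA_ext fun i j => ?_
  by_cases hj : j.1 = 1
  · have h1 := congrArg (fun y => eA π y i (0, j.2)) h
    change eA π (z * Xc π 1) i (0, j.2) = 0 at h1
    rw [mul_Xc, if_pos rfl] at h1
    have h2 := rinj 1 h1
    change eA π z i (1, j.2) = 0 at h2
    rw [ob1 hj] at h2
    exact h2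
  · exact (colA 1).1 hz i j hj

theorem cE {k : ℤ} {u0 u1 : (WL π).dga.C} (_ : u0 ∈ (WL π).dga.G k) (h1 : u1 ∈ (WL π).dga.G k)
    (e0 : u0 * Ep π 0 = u0) (e1 : u1 * Ep π 0 = u1) (h : u0 • Tc π s 0 + u1 • Tc π s 1 = 0) :
    ∃ z ∈ (WL π).dga.G k, z * Ep π 1 = z ∧ u0 = z * Xc π 1 ∧ u1 = z * Xc π 0 := by
  have key : ∀ (i : Ob) (b : Fin 4), ∃ c ∈ pcL π ((i.1.val : ℤ) - ((0 : Fin 2).val : ℕ) - 1)
      ((i.2.val : ℤ) - b.val) k, eA π u0 i (0, b) = c * xL π 1 ∧ eA π u1 i (0, b) = c * xL π 0 := by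
    intro i b
    refine rker (mem_GA.1 h1 i (0, b)) ?_
    have h2 := congrArg (fun y => eT s y i (0, b)) h
    change eT s (u0 • Tc π s 0 + u1 • Tc π s 1) i (0, b) = 0 at h2
    rw [eT_add, smul_Tc, smul_Tc, if_pos rfl, if_pos rfl] at h2
    exact h2
  choose c hc hc0 hc1 using key
  refine ⟨mkA π k (fun i j => if j.1 = 1 then c i j.2 else 0) ?_, mkA_mem _ _ _, ?_, ?_, ?_⟩
  · intro i j
    split_ifs with hj
    · have := hc i j.2
      rw [hj]
      simpa using this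
    · exact Submodule.zero_mem _
  · rw [colA]
    intro i j hj
    rw [eA_mkA, if_neg hj]
  · refine eA_ext fun i j => ?_
    rw [mul_Xc]
    by_cases hj : j.1 = 0
    · rw [if_pos hj, eA_mkA, if_pos rfl, ← hc0, ob0 hj]
    · rw [if_neg hj]
      exact (colA 0).1 e0 i j hj
  · refine eA_ext fun i j => ?_
    rw [mul_Xc]
    by_cases hj : j.1 = 0
    · rw [if_pos hj, eA_mkA, if_pos rfl, ← hc1, ob0 hj]
    · rw [if_neg hj]
      exact (colA 0).1 e1 i j hj

theorem cS {k : ℤ} {x : (tLW π s).X} (hx : x ∈ (tLW π s).gr (k + s)) (ex : op (Ep π 0) • x = x) :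
    ∃ u0 ∈ (WL π).dga.G k, ∃ u1 ∈ (WL π).dga.G k, u0 * Ep π 0 = u0 ∧ u1 * Ep π 0 = u1 ∧
      x = u0 • Tc π s 0 + u1 • Tc π s 1 := by
  have key : ∀ (i : Ob) (b : Fin 4), ∃ c ∈ pcL π ((i.1.val : ℤ) - ((0 : Fin 2).val : ℕ) + 1 - 1)
      ((i.2.val : ℤ) - b.val) (k + s - s), ∃ c' ∈ pcL π ((i.1.val : ℤ) - ((0 : Fin 2).val : ℕ) + 1 - 1)
      ((i.2.val : ℤ) - b.val) (k + s - s), eT s x i (0, b) = c * xL π 0 + c' * xL π 1 := by
    intro i b
    refine rsur ?_ (mem_GT.1 hx i (0, b))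
    simp only [Fin.val_zero]
    push_cast
    omega
  choose c hc c' hc' hcc using key
  refine ⟨mkA π k (fun i j => if j.1 = 0 then c i j.2 else 0) ?_, mkA_mem _ _ _,
    mkA π k (fun i j => if j.1 = 0 then c' i j.2 else 0) ?_, mkA_mem _ _ _, ?_, ?_, ?_⟩
  · intro i j
    split_ifs with hj
    · have := hc i j.2
      rw [hj]
      rwa [add_sub_cancel_right, add_sub_cancel_right] at this
    · exact Submodule.zero_mem _
  · intro i j
    split_ifs with hj
    · have := hc' i j.2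
      rw [hj]
      rwa [add_sub_cancel_right, add_sub_cancel_right] at this
    · exact Submodule.zero_mem _
  · rw [colA]
    intro i j hj
    rw [eA_mkA, if_neg hj]
  · rw [colA]
    intro i j hj
    rw [eA_mkA, if_neg hj]
  · refine eT_ext fun i j => ?_
    rw [eT_add, smul_Tc, smul_Tc]
    by_cases hj : j.1 = 0
    · rw [if_pos hj, if_pos hj, eA_mkA, eA_mkA, if_pos rfl, if_pos rfl, ← hcc, ob0 hj]
    · rw [if_neg hj, if_neg hj, add_zero]
      exact (colT 0).1 ex i j hj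

theorem rI {r : (WL π).dga.C} (hr : Ep π 0 * r = r) (h : op r • Tc π s 0 = 0) : r = 0 := by
  refine eA_ext fun i j => ?_
  by_cases hi : i.1 = 0
  · have h1 := congrArg (fun y => eT s y (0, i.2) j) h
    change eT s (op r • Tc π s 0) (0, i.2) j = 0 at h1
    rw [op_Tc, if_pos rfl] at h1
    have h2 := linj 0 h1
    change eA π r (0, i.2) j = 0 at h2
    rw [ob0 hi] at h2
    exact h2
  · exact (rowA 0).1 hr i j hi

theorem rE {m : ℤ} {w0 w1 : (tLW π s).X} (h0 : w0 ∈ (tLW π s).gr m) (_ : w1 ∈ (tLW π s).gr m)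
    (e0 : Ep π 0 • w0 = w0) (e1 : Ep π 0 • w1 = w1) (h : Xc π 1 • w0 + Xc π 0 • w1 = 0) :
    ∃ r ∈ (WL π).dga.G (m - s), Ep π 0 * r = r ∧ w0 = op r • Tc π s 0 ∧ w1 = op r • Tc π s 1 := by
  have key : ∀ (a : Fin 4) (j : Ob), ∃ c ∈ pcL π ((((0 : Fin 2).val : ℕ) : ℤ) - j.1.val + 1 - 1)
      ((a.val : ℤ) - j.2.val) (m - s), eT s w0 (0, a) j = xL π 0 * c ∧
        eT s w1 (0, a) j = xL π 1 * c := by
    intro a j
    refine lker (mem_GT.1 h0 (0, a) j) ?_
    have h2 := congrArg (fun y => eT s y (1, a) j) h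
    change eT s (Xc π 1 • w0 + Xc π 0 • w1) (1, a) j = 0 at h2
    rw [eT_add, Xc_smul, Xc_smul, if_pos rfl, if_pos rfl] at h2
    exact h2
  choose c hc hc0 hc1 using key
  refine ⟨mkA π (m - s) (fun i j => if i.1 = 0 then c i.2 j else 0) ?_, mkA_mem _ _ _, ?_, ?_, ?_⟩
  · intro i j
    split_ifs with hi
    · have := hc i.2 j
      rw [hi]
      rwa [add_sub_cancel_right] at this
    · exact Submodule.zero_mem _
  · rw [rowA]
    intro i j hi
    rw [eA_mkA, if_neg hi]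
  · refine eT_ext fun i j => ?_
    rw [op_Tc]
    by_cases hi : i.1 = 0
    · rw [if_pos hi, eA_mkA, if_pos rfl, ← hc0, ob0 hi]
    · rw [if_neg hi]
      exact (rowT 0).1 e0 i j hi
  · refine eT_ext fun i j => ?_
    rw [op_Tc]
    by_cases hi : i.1 = 0
    · rw [if_pos hi, eA_mkA, if_pos rfl, ← hc1, ob0 hi]
    · rw [if_neg hi]
      exact (rowT 0).1 e1 i j hi

theorem rS {m : ℤ} {w : (tLW π s).X} (hw : w ∈ (tLW π s).gr m) (ew : Ep π 1 • w = w) :
    ∃ w0 ∈ (tLW π s).gr m, ∃ w1 ∈ (tLW π s).gr m, Ep π 0 • w0 = w0 ∧ Ep π 0 • w1 = w1 ∧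
      w = Xc π 1 • w0 + Xc π 0 • w1 := by
  have key : ∀ (a : Fin 4) (j : Ob), ∃ c ∈ pcL π ((((1 : Fin 2).val : ℕ) : ℤ) - j.1.val + 1 - 1)
      ((a.val : ℤ) - j.2.val) (m - s), ∃ c' ∈ pcL π ((((1 : Fin 2).val : ℕ) : ℤ) - j.1.val + 1 - 1)
      ((a.val : ℤ) - j.2.val) (m - s), eT s w (1, a) j = xL π 1 * c + xL π 0 * c' := by
    intro a j
    refine lsur ?_ (mem_GT.1 hw (1, a) j)
    have := j.1.2
    simp only [Fin.val_one]
    push_cast
    omega
  choose c hc c' hc' hcc using key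
  refine ⟨mkT π s m (fun i j => if i.1 = 0 then c i.2 j else 0) ?_, mkT_mem _ _ _,
    mkT π s m (fun i j => if i.1 = 0 then c' i.2 j else 0) ?_, mkT_mem _ _ _, ?_, ?_, ?_⟩
  · intro i j
    split_ifs with hi
    · have := hc i.2 j
      rw [hi]
      convert this using 2
      simp only [Fin.val_one, Fin.val_zero]
      push_cast
      ring
    · exact Submodule.zero_mem _
  · intro i j
    split_ifs with hi
    · have := hc' i.2 j
      rw [hi]
      convert this using 2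
      simp only [Fin.val_one, Fin.val_zero]
      push_cast
      ring
    · exact Submodule.zero_mem _
  · rw [rowT]
    intro i j hi
    rw [eT_mkT, if_neg hi]
  · rw [rowT]
    intro i j hi
    rw [eT_mkT, if_neg hi]
  · refine eT_ext fun i j => ?_
    rw [eT_add, Xc_smul, Xc_smul]
    by_cases hi : i.1 = 1
    · rw [if_pos hi, if_pos hi, eT_mkT, eT_mkT, if_pos rfl, if_pos rfl, ← hcc, ob1 hi]
    · rw [if_neg hi, if_neg hi, add_zero]
      exact (rowT 1).1 ew i j hi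

theorem uX {k : ℤ} {x : (tLW π s).X} (hx : x ∈ (tLW π s).gr (k + s)) (ex : op (Ep π 1) • x = x) :
    ∃ u ∈ (WL π).dga.G k, u * Ep π 0 = u ∧ x = u • Uc π s := by
  refine ⟨mkA π k (fun i j => if j.1 = 0 then eT s x i (1, j.2) else 0) ?_, mkA_mem _ _ _, ?_, ?_⟩
  · intro i j
    split_ifs with hj
    · have := mem_GT.1 hx i (1, j.2)
      rw [hj]
      rw [add_sub_cancel_right] at this
      convert this using 2
      simp only [Fin.val_one, Fin.val_zero]
      push_cast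
      ring
    · exact Submodule.zero_mem _
  · rw [colA]
    intro i j hj
    rw [eA_mkA, if_neg hj]
  · refine eT_ext fun i j => ?_
    rw [smul_Uc]
    by_cases hj : j.1 = 1
    · rw [if_pos hj, eA_mkA, if_pos rfl]
      change _ = eT s x i (1, j.2)
      rw [ob1 hj]
    · rw [if_neg hj]
      exact (colT 1).1 ex i j hj

theorem uI {u : (WL π).dga.C} (hu : u * Ep π 0 = u) (h : u • Uc π s = 0) : u = 0 := by
  refine eA_ext fun i j => ?_
  by_cases hj : j.1 = 0
  · have h1 := congrArg (fun y => eT s y i (1, j.2)) h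
    change eT s (u • Uc π s) i (1, j.2) = 0 at h1
    rw [smul_Uc, if_pos rfl] at h1
    change eA π u i (0, j.2) = 0 at h1
    rw [ob0 hj] at h1
    exact h1
  · exact (colA 0).1 hu i j hj

theorem uW {m : ℤ} {w : (tLW π s).X} (hw : w ∈ (tLW π s).gr m) (ew : Ep π 0 • w = w) :
    ∃ r ∈ (WL π).dga.G (m - s), Ep π 1 * r = r ∧ w = op r • Uc π s := by
  refine ⟨mkA π (m - s) (fun i j => if i.1 = 1 then eT s w (0, i.2) j else 0) ?_,
    mkA_mem _ _ _, ?_, ?_⟩
  · intro i j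
    split_ifs with hi
    · have := mem_GT.1 hw (0, i.2) j
      rw [hi]
      convert this using 2
      simp only [Fin.val_one, Fin.val_zero]
      push_cast
      ring
    · exact Submodule.zero_mem _
  · rw [rowA]
    intro i j hi
    rw [eA_mkA, if_neg hi]
  · refine eT_ext fun i j => ?_
    rw [op_Uc]
    by_cases hi : i.1 = 0
    · rw [if_pos hi, eA_mkA, if_pos rfl]
      change _ = eT s w (0, i.2) j
      rw [ob0 hi]
    · rw [if_neg hi]
      exact (rowT 0).1 ew i j hi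

theorem uJ {r : (WL π).dga.C} (hr : Ep π 1 * r = r) (h : op r • Uc π s = 0) : r = 0 := by
  refine eA_ext fun i j => ?_
  by_cases hi : i.1 = 1
  · have h1 := congrArg (fun y => eT s y (0, i.2) j) h
    change eT s (op r • Uc π s) (0, i.2) j = 0 at h1
    rw [op_Uc, if_pos rfl] at h1
    change eA π r (1, i.2) j = 0 at h1
    rw [ob1 hi] at h1
    exact h1
  · exact (rowA 1).1 hr i j hi

variable (π s)

/-- **the Koszul data of `tL`** -/
def kz : Kz (WL π).dga (tLW π s) where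
  s := s
  E0 := Ep π 0
  E1 := Ep π 1
  E0_mem := mkA_mem _ _ _
  E1_mem := mkA_mem _ _ _
  E00 := E_idem 0
  E11 := E_idem 1
  E_add := E_add
  X0 := Xc π 0
  X1 := Xc π 1
  X0_mem := mkA_mem _ _ _
  X1_mem := mkA_mem _ _ _
  E1X0 := E1X 0
  E1X1 := E1X 1
  X0E0 := XE0 0
  X1E0 := XE0 1
  T0 := Tc π s 0
  T1 := Tc π s 1
  T0_mem := mkT_mem _ _ _
  T1_mem := mkT_mem _ _ _
  dT0 := dT 0
  dT1 := dT 1
  E0T0 := E0T 0
  E0T1 := E0T 1
  T0E0 := TE0 0
  T1E0 := TE0 1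
  U := Uc π s
  U_mem := mkT_mem _ _ _
  dU := dU
  E0U := E0U
  UE1 := UE1
  comm := comm
  cI _ h1 h2 := cI h1 h2
  cE h0 h1 e0 e1 h := cE h0 h1 e0 e1 h
  cS h e := cS h e
  rI _ h1 h2 := rI h1 h2
  rE h0 h1 e0 e1 h := rE h0 h1 e0 e1 h
  rS h e := rS h e
  uX h e := uX h e
  uI _ h1 h2 := uI h1 h2
  uW h e := uW h e
  uJ _ h1 h2 := uJ h1 h2

/-- **(c1)** -/
theorem c1 (hs : 2 ≤ s) {Y : RCells (WR π).dga} (R : Res255.RRes Y (DM π s hs)) :
    C1Q611.C1 π s hs R := C1Z154.c1_of_kz π s hs (kz π s) R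

end Crest.Agent.R186.C1K808
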