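import Crest.Agent.R186.TLW_890
import Crest.Agent.R186.C1x_134

/-!
Row 186, half (A), leaf A.C1 (helper808), racer: the instance of 134's `Lay` for `M` and `L''`.
-/

set_option autoImplicit false
set_option linter.style.haveILetI false
set_option linter.unusedSectionVars false

noncomputable section

open MulOpposite

namespace Crest.Agent.R186.C1L808

open Crest.Agent.R186.DefsQ830 Crest.Agent.R186.PBW128
open Crest.Agent.R186.C2b362 (pz J NZ mem_NZ mem_pz mem_J)
open Crest.Agent.R186.C2b44 (kill kill_kill)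
open Crest.Agent.R186.KOS296 (pcZ_eq_pz)
open Crest.Agent.R186.WLF296 (ext_nf kill_nf' lq lq_wq_mul lq_one lq_wq sum_lq kill_lq lq_mem D_wq)
open Crest.Agent.R186.SM890 (MM oM pcM repM cW tW Tq tw tw_ne tau tau_X op_smul_oM smul_oM
  dMM dMM_oM oo soc_right soc_kill repM_wq mem_pcM repM_repM)
open Crest.Agent.R186.KOSM296 (cM oM_nf cM_oM sum_cM kill_cM cM_mem eq_zero_of_cM)
open Hat827 Win810 Win810.WD Frame515 WBM163 FinV988 Core890 SExt44 WL221 C1x134

variable {K : Type} [Field K] (π : Par K)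

/-! ### letters -/

/-- the six letters in a linear order -/
def qj : ℕ → Wb
  | 0 => .one
  | 1 => .y 0
  | 2 => .y 1
  | 3 => .yb 0
  | 4 => .yb 1
  | _ => .pi

/-- the inverse -/
def jq : Wb → ℕ
  | .one => 0
  | .y s => if s = 0 then 1 else 2
  | .yb s => if s = 0 then 3 else 4
  | .pi => 5

theorem fin2 (s : Fin 2) : s = 0 ∨ s = 1 := by fin_cases s <;> simp

theorem qj_jq (q : Wb) : qj (jq q) = q := by
  cases q with
  | one => rfl
  | y s => rcases fin2 s with rfl | rfl <;> rfl
  | yb s => rcases fin2 s with rfl | rfl <;> rfl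
  | pi => rfl

theorem jq_lt (q : Wb) : jq q < 6 := by
  cases q with
  | one => decide
  | y s => rcases fin2 s with rfl | rfl <;> decide
  | yb s => rcases fin2 s with rfl | rfl <;> decide
  | pi => decide

theorem jq_qj {j : ℕ} (hj : j < 6) : jq (qj j) = j := by
  interval_cases j <;> rfl

theorem qj_inj {i j : ℕ} (hi : i < 6) (hj : j < 6) (h : qj i = qj j) : i = j := by
  rw [← jq_qj hi, ← jq_qj hj, h]

/-- `one < y0 < y1 < yb0 < yb1 < pi` refines the level -/
theorem tW_lt {q1 q : Wb} (h1 : q1 ≠ .one) (hc : cW π q1 q ≠ 0) : jq (tW q1 q) < jq q := by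
  revert hc
  have h10 : (1 : Fin 2) ≠ 0 := by decide
  have h01 : (0 : Fin 2) ≠ 1 := by decide
  rcases q1 with _ | s | s | _ <;> rcases q with _ | s' | s' | _ <;>
    (try rcases fin2 s with rfl | rfl) <;> (try rcases fin2 s' with rfl | rfl) <;>
    simp_all [SM890.cW, SM890.dk, SM890.dt, SM890.tW, jq]

theorem cW_le {q q' : Wb} (h : jq q' < jq q) : cW π q q' = 0 := by
  revert h
  have h10 : (1 : Fin 2) ≠ 0 := by decide
  have h01 : (0 : Fin 2) ≠ 1 := by decide
  rcases q with _ | s | s | _ <;> rcases q' with _ | s' | s' | _ <;>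
    (try rcases fin2 s with rfl | rfl) <;> (try rcases fin2 s' with rfl | rfl) <;>
    simp [SM890.cW, SM890.dk, SM890.dt, jq]

theorem cW_self (q : Wb) : cW π q q ≠ 0 ∧ tW q q = .one := by
  have hp := π.p0
  rcases q with _ | s | s | _ <;> (try rcases fin2 s with rfl | rfl) <;>
    simp [SM890.cW, SM890.dk, SM890.dt, SM890.tW]

/-! ### coordinates of `M` -/

/-- the coordinates `≥ q` of `u · o_q'`, `q' ≤ q` -/
theorem cM_oM_le {q q' : Wb} (h : jq q' ≤ jq q) (u : R π) :
    cM π q (oM π q' u) = if q' = q then kill π u else 0 := by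
  refine (ext_nf π (φ := cM π q ∘ₗ oM π q')
    (ψ := if q' = q then (kill π).toLinearMap else 0) ?_ u).trans ?_
  · intro i j k w q1
    rw [LinearMap.comp_apply, oM_nf]
    have e : cM π q (cW π q1 q' • (bv K i j k w (tW q1 q') : N K)) =
        cW π q1 q' • (if tW q1 q' = q then nf π (i, j, k, w, .one) else 0) := by
      rw [← KOSM296.cN_bv]
      exact map_smul (KOSM296.cN π q) _ _
    rw [e]
    by_cases h1 : q1 = .one
    · subst h1
      have e1 : cW π .one q' = 1 := rfl
      have e2 : tW .one q' = q' := rfl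
      rw [e1, e2, one_smul]
      by_cases h2 : q' = q
      · rw [if_pos h2, if_pos h2]
        show _ = kill π _
        rw [kill_nf', if_pos rfl]
      · rw [if_neg h2, if_neg h2]; rfl
    · have hz : cW π q1 q' • (if tW q1 q' = q then nf π (i, j, k, w, .one) else (0 : R π)) = 0 := by
        by_cases hc : cW π q1 q' = 0
        · rw [hc, zero_smul]
        · rw [if_neg, smul_zero]
          intro h2
          have := tW_lt π h1 hc
          rw [h2] at this
          omega
      rw [hz]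
      by_cases h2 : q' = q
      · rw [if_pos h2]
        show _ = kill π _
        rw [kill_nf', if_neg h1]
      · rw [if_neg h2]; rfl
  · by_cases h2 : q' = q
    · rw [if_pos h2, if_pos h2]; rfl
    · rw [if_neg h2, if_neg h2]; rfl

/-- leading coordinate under an operator acting on the `t`'s -/
theorem cM_T {q : Wb} {m : MM π} (hm : ∀ q', jq q < jq q' → cM π q' m = 0) (T : MM π →ₗ[K] MM π)
    (T1 : R π →ₗ[K] R π) (hT : ∀ q' t, T (oM π q' t) = oM π q' (T1 t)) :
    cM π q (T m) = kill π (T1 (cM π q m)) := by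
  conv_lhs => rw [sum_cM π m]
  rw [map_sum, map_sum, Finset.sum_eq_single q]
  · rw [hT, cM_oM_le π le_rfl, if_pos rfl]
  · intro q' _ hq
    rw [hT]
    rcases lt_trichotomy (jq q') (jq q) with h | h | h
    · rw [cM_oM_le π h.le, if_neg hq]
    · exact absurd (by rw [← qj_jq q', ← qj_jq q, h]) hq
    · rw [hm q' h, map_zero, map_zero, map_zero]
  · intro h; exact absurd (Finset.mem_univ _) h

theorem cM_smul_top {q : Wb} {m : MM π} (hm : ∀ q', jq q < jq q' → cM π q' m = 0) (r : R π) :
    cM π q (r • m) = kill π r * cM π q m := by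
  have := cM_T π hm (repM π r) (LinearMap.mulLeft K r) fun q' t => smul_oM π q' r t
  refine this.trans ?_
  rw [LinearMap.mulLeft_apply, map_mul, kill_cM]

theorem cM_d_top {q : Wb} {m : MM π} (hm : ∀ q', jq q < jq q' → cM π q' m = 0) :
    cM π q (dMM π m) = kill π (Der580.D π (cM π q m)) :=
  cM_T π hm (dMM π) (Der580.D π) fun q' t => dMM_oM π q' t

/-- the factor of `tau t (wq q)` -/
def tq (t : SM890.Tor K) : Wb → K
  | .one => 1
  | .y s => tw t (.y s)
  | .yb s => tw t (.yb s)
  | .pi => tw t (.y 0) * tw t (.y 1)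

theorem tau_wq (t : SM890.Tor K) (q : Wb) : tau π t (wq π q) = tq t q • wq π q := by
  cases q with
  | one => rw [wq_one, map_one]; simp [tq]
  | y s => rw [wq_y, tau_X]; rfl
  | yb s => rw [wq_yb, tau_X]; rfl
  | pi => rw [wq_pi, map_mul, tau_X, tau_X, smul_mul_smul_comm]; rfl

theorem tq_ne (t : SM890.Tor K) (q : Wb) : tq t q ≠ 0 := by
  cases q with
  | one => exact (one_ne_zero : (1 : K) ≠ 0)
  | y s => exact tw_ne t (Gen.y s)
  | yb s => exact tw_ne t (Gen.yb s)
  | pi => exact mul_ne_zero (tw_ne t (Gen.y 0)) (tw_ne t (Gen.y 1))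

/-- the unit of the letter `q` -/
def uq (q : Wb) : K := tq (Tq π q) q * cW π q q

theorem uq_ne (q : Wb) : uq π q ≠ 0 := mul_ne_zero (tq_ne _ _) (cW_self π q).1

theorem op_wq_oM (q q' : Wb) (t : R π) : (op (wq π q) : (R π)ᵐᵒᵖ) • oM π q' t =
    (tq (Tq π q') q * cW π q q') • oM π (tW q q') t := by
  rw [op_smul_oM, tau_wq, mul_smul_comm, map_smul, mul_smul]
  congr 1
  show repM π (t * wq π q) (oo K q') = _
  rw [← repM_repM, repM_wq, map_smul]
  rfl

/-- **the pairing of the leading coordinates** -/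
theorem op_wq_top {q : Wb} {m : MM π} (hm : ∀ q', jq q < jq q' → cM π q' m = 0) (t : R π) :
    (op (wq π q * t) : (R π)ᵐᵒᵖ) • m = uq π q • SM890.soc π (cM π q m * t) := by
  have e1 : (op (wq π q) : (R π)ᵐᵒᵖ) • m = uq π q • oM π .one (cM π q m) := by
    conv_lhs => rw [sum_cM π m]
    rw [Finset.smul_sum, Finset.sum_eq_single q]
    · rw [op_wq_oM, (cW_self π q).2]; rfl
    · intro q' _ hq
      rcases lt_trichotomy (jq q') (jq q) with h | h | h
      · rw [op_wq_oM, cW_le π h, mul_zero, zero_smul]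
      · exact absurd (by rw [← qj_jq q', ← qj_jq q, h]) hq
      · rw [hm q' h, map_zero, smul_zero]
    · intro h; exact absurd (Finset.mem_univ _) h
  rw [op_mul, mul_smul, e1]
  rw [smul_comm]
  congr 1
  exact soc_right π t _

/-! ### entries -/

theorem sum_qj {M : Type*} [AddCommMonoid M] (F : Wb → M) :
    ∑ j ∈ Finset.range 6, F (qj j) = ∑ q, F q := by
  refine Finset.sum_nbij' qj jq ?_ ?_ ?_ ?_ ?_
  · intro j _; exact Finset.mem_univ _
  · intro q _; exact Finset.mem_range.2 (jq_lt q)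
  · intro j hj; exact jq_qj (Finset.mem_range.1 hj)
  · intro q _; exact qj_jq q
  · intro j _; rfl

theorem lev_le {q q' : Wb} (h : jq q' ≤ jq q) : WLF296.lev q' ≤ WLF296.lev q := by
  revert h
  have h10 : (1 : Fin 2) ≠ 0 := by decide
  rcases q with _ | s | s | _ <;> rcases q' with _ | s' | s' | _ <;>
    (try rcases fin2 s with rfl | rfl) <;> (try rcases fin2 s' with rfl | rfl) <;>
    simp [WLF296.lev, jq]

theorem wq_memZ (q : Wb) : wq π q ∈ pcZ π 0 0 (wC q.word) := by
  have h1 : wq π q ∈ pc π (wP q.word) (wA q.word) (wC q.word) :=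
    Submodule.subset_span ⟨q.word, rfl, rfl, rfl, rfl⟩
  have h2 : wP q.word = 0 := by cases q <;> simp [Wb.word, wP, Gen.dP]
  have h3 : wA q.word = 0 := by cases q <;> simp [Wb.word, wA, Gen.dA]
  rw [h2, h3] at h1
  exact (le_of_eq (pcZ_nat π 0 0 (wC q.word)).symm) h1

/-- coordinate of `M` with values in `R'` -/
def muE (q : Wb) : MM π →ₗ[K] RL π := (prL π).toLinearMap ∘ₗ cM π q

/-- lifting -/
def nuE (q : Wb) : RL π →ₗ[K] MM π := oM π q ∘ₗ (RL π).val.toLinearMap

theorem muE_val (q : Wb) (m : MM π) : (muE π q m : R π) = cM π q m := kill_cM π q m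

theorem muE_zero {q : Wb} {m : MM π} : muE π q m = 0 ↔ cM π q m = 0 :=
  ⟨fun h => by rw [← muE_val, h]; rfl, fun h => Subtype.ext (by rw [muE_val, h]; rfl)⟩

theorem muE_mem (s : ℕ) {P A C : ℤ} {m : MM π} (hm : m ∈ pcM π s P A C) (q : Wb) :
    muE π q m ∈ pcL π (P + 1) A (C - s + wC q.word) := by
  rw [mem_pcL, muE_val, pcZ_eq_pz]
  exact cM_mem π s hm q

theorem nuE_mem (s : ℕ) {P A C : ℤ} {z : RL π} (q : Wb) (hz : z ∈ pcL π (P + 1) A (C - s)) :
    nuE π q z ∈ pcM π s P A (C - wC q.word) :=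
  mem_pcM π s q (C' := C - s) hz (by ring)

theorem muE_smul {q : Wb} {m : MM π} (hm : ∀ q', jq q < jq q' → muE π q' m = 0) (r : R π) :
    muE π q (r • m) = prL π r * muE π q m := by
  apply Subtype.ext
  rw [muE_val, cM_smul_top π fun q' h => (muE_zero π).1 (hm q' h)]
  show _ = kill π r * (muE π q m : R π)
  rw [muE_val]

theorem muE_d {q : Wb} {m : MM π} (hm : ∀ q', jq q < jq q' → muE π q' m = 0) :
    muE π q (dMM π m) = WL221.DL π (muE π q m) := by
  apply Subtype.ext
  rw [muE_val, cM_d_top π fun q' h => (muE_zero π).1 (hm q' h), DL_val, muE_val]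

theorem muE_nuE {q q' : Wb} (h : jq q' ≤ jq q) (z : RL π) :
    muE π q (nuE π q' z) = if q' = q then z else 0 := by
  apply Subtype.ext
  rw [muE_val]
  show cM π q (oM π q' z.1) = _
  rw [cM_oM_le π h, kill_val]
  split_ifs <;> rfl

/-- coordinate of `L''` with values in `R'`, normalised -/
def lamE (q : Wb) : R π →ₗ[K] RL π := uq π q • ((prL π).toLinearMap ∘ₗ lq π q)

/-- lifting -/
def rhoE (q : Wb) : RL π →ₗ[K] R π :=
  (uq π q)⁻¹ • (LinearMap.mulLeft K (wq π q) ∘ₗ (RL π).val.toLinearMap)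

theorem lamE_apply (q : Wb) (r : R π) : lamE π q r = uq π q • prL π (lq π q r) := rfl

theorem rhoE_apply (q : Wb) (z : RL π) : rhoE π q z = (uq π q)⁻¹ • (wq π q * z.1) := rfl

theorem lamE_mem {P A C : ℤ} {r : R π} (hr : r ∈ pcZ π P A C) (q : Wb) :
    lamE π q r ∈ pcL π P A (C - wC q.word) := by
  rw [pcZ_eq_pz] at hr
  refine Submodule.smul_mem _ _ (prL_mem ?_)
  rw [pcZ_eq_pz]
  exact lq_mem π hr q

theorem rhoE_mem {P A C : ℤ} {z : RL π} (hz : z ∈ pcL π P A C) (q : Wb) :
    rhoE π q z ∈ pcZ π P A (C + wC q.word) := by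
  refine Submodule.smul_mem _ _ ?_
  have := pcZ_mul π (wq_memZ π q) hz
  rwa [zero_add, zero_add, add_comm (wC q.word : ℤ)] at this

theorem rho_lam (q : Wb) (r : R π) : rhoE π q (lamE π q r) = wq π q * lq π q r := by
  rw [lamE_apply, map_smul, rhoE_apply, smul_smul, mul_inv_cancel₀ (uq_ne π q), one_smul]
  show wq π q * kill π (lq π q r) = _
  rw [kill_lq]

theorem sum_rho_lam (r : R π) : r = ∑ j ∈ Finset.range 6, rhoE π (qj j) (lamE π (qj j) r) := by
  rw [sum_qj fun q => rhoE π q (lamE π q r)]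
  simp only [rho_lam]
  exact sum_lq π r

theorem lam_rhoE (q : Wb) (z : RL π) : lamE π q (rhoE π q z) = z := by
  rw [lamE_apply, rhoE_apply, map_smul, lq_wq π q q (kill_val z), if_pos rfl, map_smul, smul_smul,
    mul_inv_cancel₀ (uq_ne π q), one_smul, prL_inL]

theorem lam_d_rho {q q' : Wb} (h : jq q' ≤ jq q) (z : RL π) :
    lamE π q' (Der580.D π (rhoE π q z)) = if q' = q then WL221.DL π z else 0 := by
  rw [rhoE_apply, map_smul, Der580.D_mul, D_wq, zero_mul, zero_add, map_smul, lamE_apply,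
    lq_wq_mul π q q' _ (lev_le h), smul_smul]
  by_cases hq : q' = q
  · subst hq
    rw [if_pos rfl, if_pos rfl, inv_mul_cancel₀ (uq_ne π q'), one_smul, prL_kill]
    rfl
  · rw [if_neg hq, if_neg hq, map_zero, smul_zero]

/-- **the pairing of entries** -/
theorem op_rhoE {q : Wb} {m : MM π} (hm : ∀ q', jq q < jq q' → muE π q' m = 0) (z : RL π) :
    (op (rhoE π q z) : (R π)ᵐᵒᵖ) • m = SM890.socE π (muE π q m * z) := by
  have h := op_wq_top π (fun q' h => (muE_zero π).1 (hm q' h)) z.1
  rw [rhoE_apply, op_smul, smul_assoc, h, smul_smul, inv_mul_cancel₀ (uq_ne π q), one_smul,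
    SM890.socE_apply]
  congr 1
  show _ = (muE π q m : R π) * z.1
  rw [muE_val]

/-! ### windows -/

section W

variable (s : ℕ) (hs : 2 ≤ s)

theorem muE_E (q : Wb) {i j : Ob} {m : MM π} (hm : m ∈ Core890.E (SM890.tbOf (SM890.bdM π s hs)) i j) :
    muE π q m ∈ Core890.E (SM890.tLT π s) i j := by
  have h : Core890.E (SM890.tbOf (SM890.bdM π s hs)) i j ≤ (Core890.E (SM890.tLT π s) i j).comap (muE π q) := by
    refine iSup_le fun k x hx => ?_
    refine Core890.q_le_E (SM890.tLT π s) i j (k + wC q.word) ?_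
    refine (le_of_eq (SM890.q_tLT π s i j _).symm) ?_
    have := muE_mem π s ((le_of_eq (SM890.q_tbOf (SM890.bdM π s hs) i j k)) hx) q
    rwa [show k - (s : ℤ) + wC q.word = k + wC q.word - s by ring] at this
  exact h hm

theorem nuE_E (q : Wb) {i j : Ob} {z : RL π} (hz : z ∈ Core890.E (SM890.tLT π s) i j) :
    nuE π q z ∈ Core890.E (SM890.tbOf (SM890.bdM π s hs)) i j := by
  have h : Core890.E (SM890.tLT π s) i j ≤ (Core890.E (SM890.tbOf (SM890.bdM π s hs)) i j).comap (nuE π q) := by
    refine iSup_le fun k x hx => ?_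
    refine Core890.q_le_E (SM890.tbOf (SM890.bdM π s hs)) i j (k - wC q.word) ?_
    exact (le_of_eq (SM890.q_tbOf (SM890.bdM π s hs) i j _).symm)
      (nuE_mem π s q ((le_of_eq (SM890.q_tLT π s i j k)) hx))
  exact h hz

theorem lamE_E (q : Wb) {i j : Ob} {r : R π} (hr : r ∈ (WR π).E i j) :
    lamE π q r ∈ (WL π).E i j := by
  have h : (WR π).E i j ≤ ((WL π).E i j).comap (lamE π q) := by
    refine iSup_le fun k x hx => ?_
    exact WD.q_le (w := WL π) i j (k - wC q.word) (lamE_mem π hx q)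
  exact h hr

theorem rhoE_E (q : Wb) {i j : Ob} {z : RL π} (hz : z ∈ (WL π).E i j) :
    rhoE π q z ∈ (WR π).E i j := by
  have h : (WL π).E i j ≤ ((WR π).E i j).comap (rhoE π q) := by
    refine iSup_le fun k x hx => ?_
    exact WD.q_le (w := WR π) i j (k + wC q.word) (rhoE_mem π hx q)
  exact h hz

/-- coordinates of the window of `M` -/
def muW (q : Wb) : (SM890.MW π s hs).X →ₗ[K] (SM890.tLW π s).X where
  toFun m := (⟨fun i j => muE π q (m.1 i j), fun i j => muE_E π s hs q (m.2 i j)⟩ :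
    Xs (SM890.tLT π s))
  map_add' z z' := by
    apply Subtype.ext
    funext i j
    exact map_add (muE π q) _ _
  map_smul' c z := by
    apply Subtype.ext
    funext i j
    exact map_smul (muE π q) _ _

/-- lifting -/
def nuW (q : Wb) : (SM890.tLW π s).X →ₗ[K] (SM890.MW π s hs).X where
  toFun z := (⟨fun i j => nuE π q (z.1 i j), fun i j => nuE_E π s hs q (z.2 i j)⟩ :
    Xs (SM890.tbOf (SM890.bdM π s hs)))
  map_add' z z' := by
    apply Subtype.ext
    funext i j
    exact map_add (nuE π q) _ _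
  map_smul' c z := by
    apply Subtype.ext
    funext i j
    exact map_smul (nuE π q) _ _

theorem muW_apply (q : Wb) (m : (SM890.MW π s hs).X) (i j : Ob) :
    (muW π s hs q m).1 i j = muE π q (m.1 i j) := rfl
theorem nuW_apply (q : Wb) (z : (SM890.tLW π s).X) (i j : Ob) :
    (nuW π s hs q z).1 i j = nuE π q (z.1 i j) := rfl

/-- coordinates of the window of `R''` -/
def lamW (q : Wb) : (WR π).Win →ₗ[K] (WL π).Win where
  toFun m := ⟨Matrix.of fun i j => lamE π q (m.1 i j), fun i j => lamE_E π q (m.2 i j)⟩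
  map_add' a b := by
    apply Subtype.ext
    ext i j : 2
    exact map_add (lamE π q) _ _
  map_smul' c a := by
    apply Subtype.ext
    ext i j : 2
    exact map_smul (lamE π q) _ _

/-- lifting -/
def rhoW (q : Wb) : (WL π).Win →ₗ[K] (WR π).Win where
  toFun m := ⟨Matrix.of fun i j => rhoE π q (m.1 i j), fun i j => rhoE_E π q (m.2 i j)⟩
  map_add' a b := by
    apply Subtype.ext
    ext i j : 2
    exact map_add (rhoE π q) _ _
  map_smul' c a := by
    apply Subtype.ext
    ext i j : 2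
    exact map_smul (rhoE π q) _ _

theorem lamW_apply (q : Wb) (m : (WR π).Win) (i j : Ob) :
    (lamW π q m).1 i j = lamE π q (m.1 i j) := rfl
theorem rhoW_apply (q : Wb) (m : (WL π).Win) (i j : Ob) :
    (rhoW π q m).1 i j = rhoE π q (m.1 i j) := rfl

theorem muW_mem {k : ℤ} {m : (SM890.MW π s hs).X} (hm : m ∈ (SM890.MW π s hs).gr k) (q : Wb) :
    muW π s hs q m ∈ (SM890.tLW π s).gr (k - -(wC q.word : ℤ)) :=
  SM890.mem_grtL.2 fun i j => by
    have := muE_mem π s ((SM890.mem_grM (SM890.bdM π s hs)).1 hm i j) q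
    rwa [show k - (s : ℤ) + wC q.word = k - -(wC q.word : ℤ) - s by ring] at this

theorem nuW_mem {k : ℤ} {z : (SM890.tLW π s).X} (hz : z ∈ (SM890.tLW π s).gr k) (q : Wb) :
    nuW π s hs q z ∈ (SM890.MW π s hs).gr (k + -(wC q.word : ℤ)) :=
  (SM890.mem_grM (SM890.bdM π s hs)).2 fun i j => nuE_mem π s q (SM890.mem_grtL.1 hz i j)

theorem lamW_mem {k : ℤ} {m : (WR π).Win} (hm : m ∈ (WR π).G k) (q : Wb) :
    lamW π q m ∈ (WL π).G (k - wC q.word) := fun i j => lamE_mem π (hm i j) q

theorem rhoW_mem {k : ℤ} {m : (WL π).Win} (hm : m ∈ (WL π).G k) (q : Wb) :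
    rhoW π q m ∈ (WR π).G (k + wC q.word) := fun i j => rhoE_mem π (hm i j) q

/-- the coordinates above `q` vanish -/
def Top (q : Wb) (m : (SM890.MW π s hs).X) : Prop := ∀ q', jq q < jq q' → muW π s hs q' m = 0

variable {π s hs}

theorem Top.ent {q : Wb} {m : (SM890.MW π s hs).X} (h : Top π s hs q m) (i j : Ob) :
    ∀ q', jq q < jq q' → muE π q' (m.1 i j) = 0 := fun q' hq => by
  have := congrArg (fun z : (SM890.tLW π s).X => z.1 i j) (h q' hq)
  exact this

theorem muW_smul {q : Wb} {m : (SM890.MW π s hs).X} (h : Top π s hs q m) (a : (WR π).dga.C) :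
    muW π s hs q (a • m) = (SM890.prHm π).f a • muW π s hs q m := by
  apply Subtype.ext
  funext i j
  refine (map_sum (muE π q) (fun l : Ob => (show R π from (show (WR π).Win from a).1 i l) •
    (show MM π from m.1 l j)) Finset.univ).trans ?_
  exact Finset.sum_congr rfl fun l _ => muE_smul π (h.ent l j) _

theorem muW_d {q : Wb} {m : (SM890.MW π s hs).X} (h : Top π s hs q m) :
    muW π s hs q ((SM890.MW π s hs).d m) = (SM890.tLW π s).d (muW π s hs q m) := by
  apply Subtype.ext
  funext i j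
  exact muE_d π (h.ent i j)

theorem muW_nuW {q q' : Wb} (h : jq q' ≤ jq q) (z : (SM890.tLW π s).X) :
    muW π s hs q (nuW π s hs q' z) = if q' = q then z else 0 := by
  have e : ∀ i j, muE π q (nuE π q' (z.1 i j)) = if q' = q then z.1 i j else 0 := fun i j =>
    muE_nuE π h _
  by_cases hq : q' = q
  · rw [if_pos hq]
    apply Subtype.ext
    funext i j
    have := e i j
    rw [if_pos hq] at this
    exact this
  · rw [if_neg hq]
    apply Subtype.ext
    funext i j
    have := e i j
    rw [if_neg hq] at this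
    exact this

theorem muW_zero {m : (SM890.MW π s hs).X} (h : ∀ q, muW π s hs q m = 0) : m = 0 := by
  apply Subtype.ext
  funext i j
  refine eq_zero_of_cM π fun q => (muE_zero π).1 ?_
  have := congrArg (fun z : (SM890.tLW π s).X => z.1 i j) (h q)
  exact this

theorem sum_rhoW (a : (WR π).Win) : a = ∑ j ∈ Finset.range 6, rhoW π (qj j) (lamW π (qj j) a) := by
  apply Subtype.ext
  ext i j : 2
  have e : (∑ l ∈ Finset.range 6, rhoW π (qj l) (lamW π (qj l) a) : (WR π).Win).1 i j =
      ∑ l ∈ Finset.range 6, rhoE π (qj l) (lamE π (qj l) (a.1 i j)) := by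
    have h := map_sum ((WR π).Win.val.toLinearMap) (fun l => rhoW π (qj l) (lamW π (qj l) a))
      (Finset.range 6)
    have h' := congrFun (congrFun h i) j
    refine h'.trans ?_
    rw [Matrix.sum_apply]
    rfl
  rw [e]
  exact sum_rho_lam π _

theorem lamW_rhoW (q : Wb) (z : (WL π).Win) : lamW π q (rhoW π q z) = z := by
  apply Subtype.ext
  ext i j : 2
  exact lam_rhoE π q _

theorem lamW_d {q q' : Wb} (h : jq q' ≤ jq q) (z : (WL π).Win) :
    lamW π q' ((WR π).DW (rhoW π q z)) = if q' = q then (WL π).DW z else 0 := by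
  have e : ∀ i j, lamE π q' (Der580.D π (rhoE π q (z.1 i j))) =
      if q' = q then WL221.DL π (z.1 i j) else 0 := fun i j => lam_d_rho π h _
  by_cases hq : q' = q
  · rw [if_pos hq]
    apply Subtype.ext
    ext i j : 2
    have := e i j
    rw [if_pos hq] at this
    exact this
  · rw [if_neg hq]
    apply Subtype.ext
    ext i j : 2
    have := e i j
    rw [if_neg hq] at this
    exact this

/-- **the pairing of windows** -/
theorem op_rhoW {q : Wb} {m : (SM890.MW π s hs).X} (h : Top π s hs q m) (z : (WL π).Win) :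
    (op (show (WR π).dga.C from rhoW π q z) : ((WR π).dga.C)ᵐᵒᵖ) • m =
      SM890.socW π s hs ((op (show (WL π).dga.C from z) : ((WL π).dga.C)ᵐᵒᵖ) • muW π s hs q m) := by
  apply Subtype.ext
  funext i j
  symm
  refine (map_sum (SM890.socE π) (fun l : Ob => muE π q (m.1 i l) *
    (show RL π from z.1 l j)) Finset.univ).trans ?_
  exact Finset.sum_congr rfl fun l _ => (op_rhoE π (h.ent i l) _).symm

end W

end Crest.Agent.R186.C1L808
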