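import Crest.Agent.R186.PBWr_128
import Crest.Agent.R186.PBWgr_128

/-!
Row 186 (A), helper128: the LEFT normal form of `R''`:
`nfl (i,j,k,w,q) = w_q * (x_0^i x_1^j h^k * word)` is a `K`-basis, `W` acts on the left through the
left regular representation, components `lc q r` with `r = ∑ q, w_q * lc q r`, gradings.
-/

set_option autoImplicit false
set_option linter.unusedSectionVars false

noncomputable section

namespace Crest.Agent.R186.PBW128

open Crest.Agent.R186.DefsQ830

variable {K : Type} [Field K]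

/-- the factor in `w_q · x_0^i x_1^j h^k w = scq • nf` -/
def scq (π : Par K) (q : Wb) (i j : ℕ) (w : List E) : K :=
  match q with
  | .one => 1
  | .y s => sc π (.y s) i j w
  | .yb s => sc π (.yb s) i j w
  | .pi => sc π (.y 1) i j w * sc π (.y 0) i j w

/-- the left normal elements -/
def nfl (π : Par K) (ν : Ix) : R π :=
  wq π ν.2.2.2.2 * nf π (ν.1, ν.2.1, ν.2.2.1, ν.2.2.2.1, .one)

theorem nfl_eq (π : Par K) (i j k : ℕ) (w : List E) (q : Wb) :
    nfl π (i, j, k, w, q) = scq π q i j w • nf π (i, j, k, w, q) := by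
  cases q with
  | one => simp [nfl, scq, wq_one]
  | y s =>
    have := Ynf π (.y s) i j k w .one
    simp only [nfl, scq, wq_y]
    rw [show wk π (.y s) .one = 1 from rfl, mul_one] at this
    exact this
  | yb s =>
    have := Ynf π (.yb s) i j k w .one
    simp only [nfl, scq, wq_yb]
    rw [show wk π (.yb s) .one = 1 from rfl, mul_one] at this
    exact this
  | pi =>
    have h1 := Ynf π (.y 1) i j k w .one
    have h0 := Ynf π (.y 0) i j k w (.y 1)
    rw [show wk π (.y 1) .one = 1 from rfl, mul_one, show wt (.y 1) .one = .y 1 from rfl] at h1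
    rw [show wk π (.y 0) (.y 1) = 1 from rfl, mul_one, show wt (.y 0) (.y 1) = .pi from rfl] at h0
    simp only [nfl, scq, wq_pi]
    change X π (.y 1) * _ = _ at h1
    change X π (.y 0) * _ = _ at h0
    rw [mul_assoc, h1, mul_smul_comm, h0, smul_smul]

theorem sc_ne (π : Par K) (a : Y) (i j : ℕ) (w : List E) : sc π a i j w ≠ 0 := by
  have hg := π.g0
  have h0 : π.c 0 ≠ 0 := by simp [Par.c, hg]
  have h1 : π.c 1 ≠ 0 := by simp [Par.c, hg]
  unfold sc
  refine mul_ne_zero (mul_ne_zero (pow_ne_zero _ (inv_ne_zero h0)) (pow_ne_zero _ (inv_ne_zero h1))) ?_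
  apply List.prod_ne_zero
  intro h
  obtain ⟨l, -, hl⟩ := List.mem_map.1 h
  exact chi_ne π a l hl

theorem scq_ne (π : Par K) (q : Wb) (i j : ℕ) (w : List E) : scq π q i j w ≠ 0 := by
  cases q with
  | one => exact one_ne_zero
  | y s => exact sc_ne π _ i j w
  | yb s => exact sc_ne π _ i j w
  | pi => exact mul_ne_zero (sc_ne π _ i j w) (sc_ne π _ i j w)

/-- **the left PBW basis** -/
def basisl (π : Par K) : Module.Basis Ix K (R π) :=
  (basis π).isUnitSMul (w := fun ν => scq π ν.2.2.2.2 ν.1 ν.2.1 ν.2.2.2.1)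
    (fun _ => (scq_ne π _ _ _ _).isUnit)

@[simp] theorem basisl_apply (π : Par K) (ν : Ix) : basisl π ν = nfl π ν := by
  obtain ⟨i, j, k, w, q⟩ := ν
  rw [basisl, Module.Basis.isUnitSMul_apply, basis_apply, nfl_eq]

/-- left multiplication by a `W`-letter -/
theorem Y_mul_nfl (π : Par K) (a : Y) (i j k : ℕ) (w : List E) (q : Wb) :
    X π a.toGen * nfl π (i, j, k, w, q) = wk π a q • nfl π (i, j, k, w, wt a q) := by
  simp only [nfl]
  rw [← mul_assoc, rW, smul_mul_assoc]

/-- the span of the normal elements without `W`-part -/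
def R1 (π : Par K) : Submodule K (R π) := Submodule.span K (nf π '' {ν | ν.2.2.2.2 = .one})

/-- the `q`-component of an element, from the left -/
def lc (π : Par K) (q : Wb) : R π →ₗ[K] R π :=
  (Finsupp.linearCombination K (fun ν : Ix =>
    if ν.2.2.2.2 = q then nf π (ν.1, ν.2.1, ν.2.2.1, ν.2.2.2.1, .one) else 0)) ∘ₗ
      (basisl π).repr.toLinearMap

theorem lc_nfl (π : Par K) (q : Wb) (i j k : ℕ) (w : List E) (q' : Wb) :
    lc π q (nfl π (i, j, k, w, q')) = if q' = q then nf π (i, j, k, w, .one) else 0 := by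
  rw [lc, LinearMap.comp_apply, LinearEquiv.coe_coe, ← basisl_apply, Module.Basis.repr_self,
    Finsupp.linearCombination_single, one_smul]

theorem lc_mem (π : Par K) (q : Wb) (r : R π) : lc π q r ∈ R1 π := by
  have h : (⊤ : Submodule K (R π)) ≤ (R1 π).comap (lc π q) := by
    rw [← (basisl π).span_eq, Submodule.span_le]
    rintro _ ⟨⟨i, j, k, w, q'⟩, rfl⟩
    rw [basisl_apply, SetLike.mem_coe, Submodule.mem_comap, lc_nfl]
    split_ifs
    · exact Submodule.subset_span ⟨(i, j, k, w, .one), rfl, rfl⟩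
    · exact Submodule.zero_mem _
  exact h Submodule.mem_top

/-- **the left decomposition** -/
theorem sum_lc (π : Par K) (r : R π) : ∑ q, wq π q * lc π q r = r := by
  have h : (∑ q, (LinearMap.mulLeft K (wq π q)) ∘ₗ lc π q) = LinearMap.id := by
    refine (basisl π).ext fun ν => ?_
    obtain ⟨i, j, k, w, q'⟩ := ν
    rw [basisl_apply, LinearMap.sum_apply, LinearMap.id_apply, Finset.sum_eq_single q']
    · rw [LinearMap.comp_apply, lc_nfl, if_pos rfl]
      rfl
    · intro q _ hq
      rw [LinearMap.comp_apply, lc_nfl, if_neg (Ne.symm hq), map_zero]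
    · intro h
      exact absurd (Finset.mem_univ _) h
  have := LinearMap.congr_fun h r
  rw [LinearMap.sum_apply] at this
  exact this

/-- on `w_q * r1` the components are the obvious ones -/
theorem lc_wq_mul (π : Par K) (q q' : Wb) {r : R π} (hr : r ∈ R1 π) :
    lc π q (wq π q' * r) = if q' = q then r else 0 := by
  have h : R1 π ≤ LinearMap.eqLocus ((lc π q) ∘ₗ (LinearMap.mulLeft K (wq π q')))
      (if q' = q then LinearMap.id else 0) := by
    rw [R1, Submodule.span_le]
    rintro _ ⟨⟨i, j, k, w, q1⟩, rfl, rfl⟩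
    show lc π q (nfl π (i, j, k, w, q')) = _
    rw [lc_nfl]
    split_ifs
    · rfl
    · rfl
  have := h hr
  rw [LinearMap.mem_eqLocus] at this
  rw [show lc π q (wq π q' * r) = ((lc π q) ∘ₗ (LinearMap.mulLeft K (wq π q'))) r from rfl, this]
  split_ifs
  · rfl
  · rfl

/-- uniqueness of the left decomposition -/
theorem lc_sum (π : Par K) (f : Wb → R π) (hf : ∀ q, f q ∈ R1 π) (q : Wb) :
    lc π q (∑ q', wq π q' * f q') = f q := by
  rw [map_sum, Finset.sum_eq_single q]
  · rw [lc_wq_mul π q q (hf q), if_pos rfl]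
  · intro q' _ h
    rw [lc_wq_mul π q q' (hf q'), if_neg h]
  · intro h
    exact absurd (Finset.mem_univ _) h

theorem lc_unique (π : Par K) (f : Wb → R π) (hf : ∀ q, f q ∈ R1 π)
    (h : ∑ q, wq π q * f q = 0) (q : Wb) : f q = 0 := by
  rw [← lc_sum π f hf q, h, map_zero]

theorem lc_ext (π : Par K) {r s : R π} (h : ∀ q, lc π q r = lc π q s) : r = s := by
  rw [← sum_lc π r, ← sum_lc π s]
  simp only [h]

/-- left multiplication by a `W`-letter in the components -/
theorem lc_Y_mul (π : Par K) (a : Y) (r : R π) (q : Wb) :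
    lc π q (X π a.toGen * r) = ∑ q', if wt a q' = q then wk π a q' • lc π q' r else 0 := by
  conv_lhs => rw [← sum_lc π r]
  rw [Finset.mul_sum, map_sum]
  refine Finset.sum_congr rfl fun q' _ => ?_
  rw [← mul_assoc, rW, smul_mul_assoc, map_smul, lc_wq_mul π q _ (lc_mem π q' r)]
  split_ifs
  · rfl
  · rw [smul_zero]

/-! ### gradings -/

theorem nfl_mem_pc (π : Par K) (ν : Ix) : nfl π ν ∈ pc π (dPx ν) (dAx ν) (dCx ν) := by
  obtain ⟨i, j, k, w, q⟩ := ν
  rw [nfl_eq]
  exact Submodule.smul_mem _ _ (nf_mem_pc π _)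

theorem mem_pc_spanl (π : Par K) (P : ℤ) (A C : ℕ) :
    pc π P A C = Submodule.span K (nfl π '' {ν | dPx ν = P ∧ dAx ν = A ∧ dCx ν = C}) := by
  apply le_antisymm
  · rw [mem_pc_span, Submodule.span_le]
    rintro _ ⟨⟨i, j, k, w, q⟩, h, rfl⟩
    have e : nf π (i, j, k, w, q) = (scq π q i j w)⁻¹ • nfl π (i, j, k, w, q) := by
      rw [nfl_eq, smul_smul, inv_mul_cancel₀ (scq_ne π q i j w), one_smul]
    rw [e]
    exact Submodule.smul_mem _ _ (Submodule.subset_span ⟨_, h, rfl⟩)
  · rw [Submodule.span_le]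
    rintro _ ⟨ν, ⟨h1, h2, h3⟩, rfl⟩
    have := nfl_mem_pc π ν
    rw [h1, h2, h3] at this
    exact this

/-- the components of a homogeneous element are homogeneous -/
theorem lc_mem_pc (π : Par K) {P : ℤ} {A C : ℕ} {r : R π} (hr : r ∈ pc π P A C) (q : Wb) :
    (wC q.word ≤ C → lc π q r ∈ pc π P A (C - wC q.word)) ∧ (C < wC q.word → lc π q r = 0) := by
  rw [mem_pc_spanl] at hr
  constructor
  · intro hC
    have h : Submodule.span K (nfl π '' {ν | dPx ν = P ∧ dAx ν = A ∧ dCx ν = C}) ≤
        (pc π P A (C - wC q.word)).comap (lc π q) := by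
      rw [Submodule.span_le]
      rintro _ ⟨⟨i, j, k, w, q'⟩, ⟨h1, h2, h3⟩, rfl⟩
      rw [SetLike.mem_coe, Submodule.mem_comap, lc_nfl]
      split_ifs with hq
      · subst hq
        have h4 := nf_mem_pc π (i, j, k, w, .one)
        rw [show dPx (i, j, k, w, Wb.one) = P from h1, show dAx (i, j, k, w, Wb.one) = A from h2,
          show dCx (i, j, k, w, Wb.one) = C - wC q'.word by
            simp only [dCx] at h3 ⊢
            have : wC Wb.one.word = 0 := rfl
            omega] at h4
        exact h4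
      · exact Submodule.zero_mem _
    exact h hr
  · intro hC
    have h : Submodule.span K (nfl π '' {ν | dPx ν = P ∧ dAx ν = A ∧ dCx ν = C}) ≤
        LinearMap.ker (lc π q) := by
      rw [Submodule.span_le]
      rintro _ ⟨⟨i, j, k, w, q'⟩, ⟨h1, h2, h3⟩, rfl⟩
      rw [SetLike.mem_coe, LinearMap.mem_ker, lc_nfl, if_neg]
      rintro rfl
      simp only [dCx] at h3
      omega
    exact h hr

end Crest.Agent.R186.PBW128
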