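import Crest.Agent.R186.SM_890
import Crest.Agent.R186.PBWl_128

/-!
Row 186, half (A), leaf A.C1 (helper605): the bimodule `M_0 = R'' (x)_W DW` in LEFT coordinates
`m = ∑ q, o_q · r_q`, `r_q ∈ R1`: the left action of `W` is (left action on `DW`) ⊗ 1, the right
action and the differential through the left normal form of `R''`.
-/

set_option autoImplicit false
set_option linter.unusedSimpArgs false
set_option linter.unusedSectionVars false

noncomputable section

namespace Crest.Agent.R186.C1M605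

open DefsQ830 DefsQ830.Gen PBW128 SM890 Win810

variable {K : Type} [Field K]

/-! ### the torus on normal elements -/

/-- weight of a normal element -/
def tsc (t : Tor K) (i j : ℕ) (w : List E) : K :=
  t.a0 ^ i * t.a1 ^ j * (w.map (fun l => tw t l.toGen)).prod

theorem tsc_ne (t : Tor K) (i j : ℕ) (w : List E) : tsc t i j w ≠ 0 := by
  unfold tsc
  refine mul_ne_zero (mul_ne_zero (pow_ne_zero _ t.h0) (pow_ne_zero _ t.h1)) ?_
  apply List.prod_ne_zero
  intro h
  obtain ⟨l, -, hl⟩ := List.mem_map.1 h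
  exact tw_ne t _ hl

theorem tau_we (π : Par K) (t : Tor K) (w : List E) :
    tau π t (we π w) = (w.map (fun l => tw t l.toGen)).prod • we π w := by
  induction w with
  | nil => simp [we_nil]
  | cons l w ih =>
    rw [we_cons, map_mul, ih, tau_X, smul_mul_assoc, mul_smul_comm, smul_smul, List.map_cons,
      List.prod_cons]

theorem tau_nf1 (π : Par K) (t : Tor K) (i j k : ℕ) (w : List E) :
    tau π t (nf1 π i j k w) = tsc t i j w • nf1 π i j k w := by
  rw [nf1_def, map_mul, map_mul, map_mul, map_pow, map_pow, map_pow, tau_X, tau_X, tau_X, tau_we]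
  have e0 : tw t (.x 0) = t.a0 := by simp [tw]
  have e1 : tw t (.x 1) = t.a1 := by simp [tw]
  have e2 : tw t .h = 1 := rfl
  rw [e0, e1, e2, one_smul, smul_pow, smul_pow]
  simp only [smul_mul_assoc, mul_smul_comm, smul_smul, tsc]
  congr 1
  ring

/-- weight of `w_q` -/
def tq (t : Tor K) : Wb → K
  | .one => 1
  | .y s => tw t (Gen.y s)
  | .yb s => tw t (Gen.yb s)
  | .pi => tw t (Gen.y 0) * tw t (Gen.y 1)

theorem tq_ne (t : Tor K) (q : Wb) : tq t q ≠ 0 := by
  cases q with
  | one => exact one_ne_zero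
  | y s => exact tw_ne t (Gen.y s)
  | yb s => exact tw_ne t (Gen.yb s)
  | pi => exact mul_ne_zero (tw_ne t _) (tw_ne t _)

theorem tau_wq (π : Par K) (t : Tor K) (q : Wb) : tau π t (wq π q) = tq t q • wq π q := by
  cases q with
  | one => rw [wq_one, map_one, tq, one_smul]
  | y s => rw [wq_y, tau_X]; rfl
  | yb s => rw [wq_yb, tau_X]; rfl
  | pi =>
    rw [wq_pi, map_mul, tau_X, tau_X, smul_mul_assoc, mul_smul_comm, smul_smul]
    rfl

theorem nf1_mem (π : Par K) (i j k : ℕ) (w : List E) : nf1 π i j k w ∈ R1 π :=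
  Submodule.subset_span ⟨(i, j, k, w, .one), rfl, rfl⟩

theorem R1_ind (π : Par K) {Q : Submodule K (R π)} (h : ∀ i j k w, nf1 π i j k w ∈ Q) :
    R1 π ≤ Q := by
  rw [R1, Submodule.span_le]
  rintro _ ⟨⟨i, j, k, w, q1⟩, rfl, rfl⟩
  exact h i j k w

/-! ### `o_q · r`, on `N K` -/

/-- `r ↦ o_q · r` -/
def roN (π : Par K) (q : Wb) : R π →ₗ[K] N K := (evM π (oo K q)) ∘ₗ (tau π (Tq π q)).toLinearMap

theorem roN_apply (π : Par K) (q : Wb) (r : R π) :
    roN π q r = repM π (tau π (Tq π q) r) (oo K q) := rfl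

theorem rho_roN (π : Par K) (q : Wb) (r s : R π) : rho π s (roN π q r) = roN π q (r * s) := by
  rw [roN_apply, roN_apply, rho_repM, map_mul (tau π (Tq π q))]

theorem dM_roN (π : Par K) (q : Wb) (r : R π) : dM π (roN π q r) = roN π q (Der580.D π r) := by
  rw [roN_apply, roN_apply, dM_repM, tau_D]

theorem repM_roN (π : Par K) (q1 q : Wb) (r : R π) :
    repM π (wq π q1) (roN π q r) = cW π q1 q • roN π (tW q1 q) r := by
  rw [roN_apply, repM_repM]
  exact P2 π r q1 q

theorem repM_X_roN (π : Par K) (a : Y) (q : Wb) (r : R π) :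
    repM π (X π a.toGen) (roN π q r) = dk π a q • roN π (dt a q) r := by
  have h := repM_roN π (yw a) q r
  rw [wq_yw] at h
  rw [h]
  cases a <;> rfl

theorem roN_wq (π : Par K) (q1 q : Wb) (r : R π) :
    roN π q (wq π q1 * r) = (tq (Tq π q) q1 * cW π q1 q) • roN π (tW q1 q) r := by
  rw [roN_apply, map_mul (tau π (Tq π q)), tau_wq, smul_mul_assoc, map_smul, LinearMap.smul_apply,
    mul_smul]
  congr 1
  exact P2 π r q1 q

theorem roN_nf1 (π : Par K) (q : Wb) (i j k : ℕ) (w : List E) :
    roN π q (nf1 π i j k w) = tsc (Tq π q) i j w • bv K i j k w q := by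
  rw [roN_apply, tau_nf1, map_smul, LinearMap.smul_apply, repM_nf1]

/-- the `q`-coordinate -/
def lmN (π : Par K) (q : Wb) : N K →ₗ[K] R π :=
  Finsupp.linearCombination K (fun ν : Ix =>
    if ν.2.2.2.2 = q then
      (tsc (Tq π q) ν.1 ν.2.1 ν.2.2.2.1)⁻¹ • nf1 π ν.1 ν.2.1 ν.2.2.1 ν.2.2.2.1 else 0)

theorem lmN_bv (π : Par K) (q : Wb) (i j k : ℕ) (w : List E) (q' : Wb) :
    lmN π q (bv K i j k w q') =
      if q' = q then (tsc (Tq π q) i j w)⁻¹ • nf1 π i j k w else 0 := by
  unfold lmN bv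
  rw [Finsupp.linearCombination_single, one_smul]

theorem lmN_mem (π : Par K) (q : Wb) (m : N K) : lmN π q m ∈ R1 π := by
  have h : ((R1 π).mkQ ∘ₗ lmN π q) = 0 := by
    apply ext_bv
    intro i j k w q'
    rw [LinearMap.comp_apply, lmN_bv, LinearMap.zero_apply, Submodule.mkQ_apply,
      Submodule.Quotient.mk_eq_zero]
    split_ifs
    · exact Submodule.smul_mem _ _ (nf1_mem π i j k w)
    · exact Submodule.zero_mem _
  have := LinearMap.congr_fun h m
  rwa [LinearMap.comp_apply, LinearMap.zero_apply, Submodule.mkQ_apply,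
      Submodule.Quotient.mk_eq_zero] at this

theorem sum_lmN (π : Par K) (m : N K) : ∑ q, roN π q (lmN π q m) = m := by
  have h : (∑ q, (roN π q) ∘ₗ lmN π q) = LinearMap.id := by
    apply ext_bv
    intro i j k w q'
    rw [LinearMap.sum_apply, LinearMap.id_apply, Finset.sum_eq_single q']
    · rw [LinearMap.comp_apply, lmN_bv, if_pos rfl, map_smul, roN_nf1, smul_smul,
        inv_mul_cancel₀ (tsc_ne _ i j w), one_smul]
    · intro q _ hq
      rw [LinearMap.comp_apply, lmN_bv, if_neg (Ne.symm hq), map_zero]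
    · intro h
      exact absurd (Finset.mem_univ _) h
  have := LinearMap.congr_fun h m
  rwa [LinearMap.sum_apply] at this

theorem lmN_roN (π : Par K) (q q' : Wb) {r : R π} (hr : r ∈ R1 π) :
    lmN π q (roN π q' r) = if q' = q then r else 0 := by
  have h : R1 π ≤ LinearMap.eqLocus ((lmN π q) ∘ₗ (roN π q'))
      (if q' = q then LinearMap.id else 0) := by
    apply R1_ind
    intro i j k w
    show lmN π q (roN π q' (nf1 π i j k w)) = _
    rw [roN_nf1, map_smul, lmN_bv]
    split_ifs with h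
    · subst h
      rw [smul_smul, mul_inv_cancel₀ (tsc_ne _ i j w), one_smul]
      rfl
    · rw [smul_zero]
      rfl
  have := h hr
  rw [LinearMap.mem_eqLocus] at this
  rw [show lmN π q (roN π q' r) = ((lmN π q) ∘ₗ (roN π q')) r from rfl, this]
  split_ifs
  · rfl
  · rfl

/-! ### on `MM` -/

/-- `r ↦ o_q · r` -/
def ro (π : Par K) (q : Wb) : R π →ₗ[K] MM π := roN π q

theorem ro_apply (π : Par K) (q : Wb) (r : R π) : ro π q r = oM π q (tau π (Tq π q) r) := rfl

/-- the right action in the coordinates -/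
theorem op_smul_ro (π : Par K) (q : Wb) (r s : R π) :
    MulOpposite.op s • ro π q r = ro π q (r * s) := rho_roN π q r s

theorem ro_eq (π : Par K) (q : Wb) (r : R π) : ro π q r = MulOpposite.op r • oM π q 1 := by
  rw [op_smul_oM, one_mul, ro_apply]

/-- the differential in the coordinates -/
theorem dMM_ro (π : Par K) (q : Wb) (r : R π) : dMM π (ro π q r) = ro π q (Der580.D π r) :=
  dM_roN π q r

/-- the left action of `W` in the coordinates = left action on `DW` -/
theorem wq_smul_ro (π : Par K) (q1 q : Wb) (r : R π) :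
    wq π q1 • ro π q r = cW π q1 q • ro π (tW q1 q) r := repM_roN π q1 q r

theorem X_smul_ro (π : Par K) (a : Y) (q : Wb) (r : R π) :
    X π a.toGen • ro π q r = dk π a q • ro π (dt a q) r := repM_X_roN π a q r

/-- the right action of `W` on `o_q` -/
theorem ro_wq (π : Par K) (q1 q : Wb) (r : R π) :
    ro π q (wq π q1 * r) = (tq (Tq π q) q1 * cW π q1 q) • ro π (tW q1 q) r := roN_wq π q1 q r

/-- the `q`-coordinate of `m` -/
def lm (π : Par K) (q : Wb) : MM π →ₗ[K] R π := lmN π q

theorem lm_mem (π : Par K) (q : Wb) (m : MM π) : lm π q m ∈ R1 π := lmN_mem π q m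

/-- **`m = ∑ q, o_q · m_q`** -/
theorem sum_lm (π : Par K) (m : MM π) : ∑ q, ro π q (lm π q m) = m := sum_lmN π m

/-- the coordinates of `o_q' · r` -/
theorem lm_ro (π : Par K) (q q' : Wb) {r : R π} (hr : r ∈ R1 π) :
    lm π q (ro π q' r) = if q' = q then r else 0 := lmN_roN π q q' hr

theorem lm_sum (π : Par K) (f : Wb → R π) (hf : ∀ q, f q ∈ R1 π) (q : Wb) :
    lm π q (∑ q', ro π q' (f q')) = f q := by
  rw [map_sum, Finset.sum_eq_single q]
  · rw [lm_ro π q q (hf q), if_pos rfl]
  · intro q' _ h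
    rw [lm_ro π q q' (hf q'), if_neg h]
  · intro h
    exact absurd (Finset.mem_univ _) h

/-- **uniqueness** -/
theorem lm_unique (π : Par K) (f : Wb → R π) (hf : ∀ q, f q ∈ R1 π)
    (h : ∑ q, ro π q (f q) = 0) (q : Wb) : f q = 0 := by
  rw [← lm_sum π f hf q, h, map_zero]

theorem lm_ext (π : Par K) {m n : MM π} (h : ∀ q, lm π q m = lm π q n) : m = n := by
  rw [← sum_lm π m, ← sum_lm π n]
  simp only [h]

/-- **left multiplication by `w_q1` in the coordinates** -/
theorem lm_W (π : Par K) (q1 : Wb) (m : MM π) (q : Wb) :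
    lm π q (wq π q1 • m) = ∑ q', if tW q1 q' = q then cW π q1 q' • lm π q' m else 0 := by
  conv_lhs => rw [← sum_lm π m]
  rw [Finset.smul_sum, map_sum]
  refine Finset.sum_congr rfl fun q' _ => ?_
  rw [wq_smul_ro, map_smul, lm_ro π q _ (lm_mem π q' m)]
  split_ifs
  · rfl
  · rw [smul_zero]

/-- **left multiplication by a letter of `W` in the coordinates** -/
theorem lm_Y (π : Par K) (a : Y) (m : MM π) (q : Wb) :
    lm π q (X π a.toGen • m) = ∑ q', if dt a q' = q then dk π a q' • lm π q' m else 0 := by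
  conv_lhs => rw [← sum_lm π m]
  rw [Finset.smul_sum, map_sum]
  refine Finset.sum_congr rfl fun q' _ => ?_
  rw [X_smul_ro, map_smul, lm_ro π q _ (lm_mem π q' m)]
  split_ifs
  · rfl
  · rw [smul_zero]

/-- the coordinates of `o_q' · r`, `r` arbitrary -/
theorem lm_ro_gen (π : Par K) (q q' : Wb) (r : R π) :
    lm π q (ro π q' r) =
      ∑ q1, if tW q1 q' = q then (tq (Tq π q') q1 * cW π q1 q') • lc π q1 r else 0 := by
  conv_lhs => rw [← sum_lc π r]
  rw [map_sum, map_sum]
  refine Finset.sum_congr rfl fun q1 _ => ?_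
  rw [ro_wq, map_smul, lm_ro π q _ (lc_mem π q1 r)]
  split_ifs
  · rfl
  · rw [smul_zero]

/-- **the differential in the coordinates**: `dM (o_q' r) = ∑ q1, (o_q' w_q1) (lc q1 (D r))` -/
theorem lm_D (π : Par K) (m : MM π) (q : Wb) :
    lm π q (dMM π m) = ∑ q', ∑ q1, if tW q1 q' = q then
      (tq (Tq π q') q1 * cW π q1 q') • lc π q1 (Der580.D π (lm π q' m)) else 0 := by
  conv_lhs => rw [← sum_lm π m]
  rw [map_sum, map_sum]
  refine Finset.sum_congr rfl fun q' _ => ?_
  rw [dMM_ro, lm_ro_gen]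

/-- **the right action in the coordinates** -/
theorem lm_right (π : Par K) (m : MM π) (s : R π) (q : Wb) :
    lm π q (MulOpposite.op s • m) = ∑ q', ∑ q1, if tW q1 q' = q then
      (tq (Tq π q') q1 * cW π q1 q') • lc π q1 (lm π q' m * s) else 0 := by
  conv_lhs => rw [← sum_lm π m]
  rw [Finset.smul_sum, map_sum]
  refine Finset.sum_congr rfl fun q' _ => ?_
  rw [op_smul_ro, lm_ro_gen]

/-! ### degrees -/

theorem ro_mem (π : Par K) (s : ℕ) {P A C C' : ℤ} {r : R π} (q : Wb)
    (hr : r ∈ pcZ π (P + 1) A C') (hC : C' = C - s + wC q.word) : ro π q r ∈ pcM π s P A C :=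
  mem_pcM π s q (tau_pcZ π (Tq π q) hr) hC

theorem lc_mem_pcZ (π : Par K) {P A C C' : ℤ} {r : R π} (hr : r ∈ pcZ π P A C) (q : Wb)
    (hC : C' = C - wC q.word) : lc π q r ∈ pcZ π P A C' := by
  subst hC
  rcases pcZ_cases π hr with rfl | ⟨A1, C1, rfl, rfl, h⟩
  · rw [map_zero]; exact Submodule.zero_mem _
  · by_cases hC : wC q.word ≤ C1
    · have := (lc_mem_pc π h q).1 hC
      rw [← pcZ_nat] at this
      rwa [show ((C1 : ℤ) - (wC q.word : ℤ)) = ((C1 - wC q.word : ℕ) : ℤ) by
        rw [Nat.cast_sub hC]]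
    · rw [(lc_mem_pc π h q).2 (by omega)]
      exact Submodule.zero_mem _

/-- degree of the target of `w_q1 · o_q` -/
theorem cW_deg (π : Par K) (q1 q : Wb) :
    cW π q1 q = 0 ∨ wC q.word = wC q1.word + wC (tW q1 q).word := by
  rcases q1 with _ | s | s | _ <;> rcases q with _ | s' | s' | _ <;>
    (try rcases fin2 s with rfl | rfl) <;> (try rcases fin2 s' with rfl | rfl) <;>
    first
    | (left; simp [cW, dk, dt]; done)
    | (right; rfl)

/-- the inverse point of the torus -/
def inv (t : Tor K) : Tor K where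
  a0 := t.a0⁻¹
  a1 := t.a1⁻¹
  b := t.b⁻¹
  h0 := inv_ne_zero t.h0
  h1 := inv_ne_zero t.h1
  hb := inv_ne_zero t.hb

theorem tw_inv (t : Tor K) (a : Gen) : tw t a * tw (inv t) a = 1 := by
  have h0 := t.h0
  have h1 := t.h1
  have hb := t.hb
  cases a <;> simp only [tw, inv, sg] <;> (try split) <;> simp [h0, h1, hb]

theorem tau_inv (π : Par K) (t : Tor K) (r : R π) : tau π t (tau π (inv t) r) = r := by
  have h : (tau π t).comp (tau π (inv t)) = AlgHom.id K (R π) := by
    apply RingQuot.ringQuot_ext'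
    apply FreeAlgebra.hom_ext
    funext a
    show tau π t (tau π (inv t) (X π a)) = X π a
    rw [tau_X, map_smul, tau_X, smul_smul, mul_comm, tw_inv, one_smul]
  exact DFunLike.congr_fun h r

theorem oM_eq_ro (π : Par K) (q : Wb) (t : R π) : oM π q t = ro π q (tau π (inv (Tq π q)) t) := by
  rw [ro_apply, tau_inv]

/-- **the coordinates of a homogeneous element are homogeneous** -/
theorem lm_mem_pcM (π : Par K) (s : ℕ) {P A C C' : ℤ} {m : MM π} (hm : m ∈ pcM π s P A C) (q : Wb)
    (hC : C' = C - s + wC q.word) : lm π q m ∈ pcZ π (P + 1) A C' := by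
  subst hC
  have h : pcM π s P A C ≤ (pcZ π (P + 1) A (C - s + wC q.word)).comap (lm π q) := by
    apply pcM_ind
    intro q' t ht
    show lm π q (oM π q' t) ∈ pcZ π (P + 1) A (C - s + wC q.word)
    rw [oM_eq_ro, lm_ro_gen]
    refine Submodule.sum_mem _ fun q1 _ => ?_
    split_ifs with hq
    · subst hq
      rcases cW_deg π q1 q' with h0 | h0
      · rw [h0, mul_zero, zero_smul]
        exact Submodule.zero_mem _
      · refine Submodule.smul_mem _ _ (lc_mem_pcZ π (tau_pcZ π _ ht) q1 ?_)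
        rw [h0]
        push_cast
        ring
    · exact Submodule.zero_mem _
  exact h hm

/-- pieces of `M` in the coordinates -/
theorem mem_pcM_iff (π : Par K) (s : ℕ) {P A C : ℤ} {m : MM π} :
    m ∈ pcM π s P A C ↔ ∀ q, lm π q m ∈ pcZ π (P + 1) A (C - s + wC q.word) := by
  constructor
  · intro h q
    exact lm_mem_pcM π s h q rfl
  · intro h
    rw [← sum_lm π m]
    exact Submodule.sum_mem _ fun q _ => ro_mem π s q (h q) rfl

end Crest.Agent.R186.C1M605
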