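import Crest.Agent.R186.C1L_808
import Crest.Agent.R186.C1Q_611

/-!
Row 186, half (A), leaf A.C1 (helper808): the instance of 134's `Lay` on 611's pairings and
(c1) from (beta).
-/

set_option autoImplicit false
set_option linter.style.haveILetI false
set_option linter.unusedSectionVars false

noncomputable section

open MulOpposite

namespace Crest.Agent.R186.C1M808

open Crest.Agent.R186.DefsQ830 Crest.Agent.R186.PBW128
open Hat827 Win810 Frame515 Res255 FinV988 SM890 WL221 C1x134 C1L808 C1Q611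

variable {K : Type} [Field K] (π : Par K) (s : ℕ) (hs : 2 ≤ s)

theorem top_of {j : ℕ} (hj : j < 6) {n : (MW π s hs).X}
    (h : ∀ i < 6, j < i → muW π s hs (qj i) n = 0) : Top π s hs (qj j) n := by
  intro q' hq
  rw [jq_qj hj] at hq
  have := h (jq q') (jq_lt q') hq
  rwa [qj_jq] at this

variable {Y : RCells (WR π).dga}

/-- **the layers** -/
def lay (R : RRes Y (DM π s hs)) (R' : RRes (pushR (prHm π) Y) (DtL π s)) (hlo : R'.lo = R.lo)
    (hv : ∀ σ, R'.v σ = qD π s hs (R.v σ)) :
    Lay Y (MW π s hs).toLM (resL (prHm π) (tLW π s).toLM) (selfL (WR π).dga).toGC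
      (selfL (WL π).dga).toGC where
  P := C1Q611.P π s hs R
  P0 := C1Q611.P0 π s R'
  r := 6
  μ j := muW π s hs (qj j)
  ν j := nuW π s hs (qj j)
  lam j := lamW π (qj j)
  rho j := rhoW π (qj j)
  c j := -(wC (qj j).word : ℤ)
  e j := (wC (qj j).word : ℤ)
  hlo j _ := by
    change R'.lo = R.lo + -(wC (qj j).word : ℤ) + (wC (qj j).word : ℤ)
    rw [hlo]
    ring
  μ_mem j _ k n hn := muW_mem π s hs hn (qj j)
  ν_mem j _ k n hn := nuW_mem π s hs hn (qj j)
  zero {k n} _ h := muW_zero fun q => by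
    have := h (jq q) (jq_lt q)
    rwa [qj_jq] at this
  μ_smul j hj k l a n _ _ h := muW_smul (top_of π s hs hj h) a
  μ_d j hj k n _ h := muW_d (top_of π s hs hj h)
  μ_ν j hj k n _ := by
    have := muW_nuW (π := π) (s := s) (hs := hs) (q := qj j) (q' := qj j) le_rfl n
    rwa [if_pos rfl] at this
  μ_ν' j hj i hi hji k n _ := by
    have := muW_nuW (π := π) (s := s) (hs := hs) (q := qj i) (q' := qj j)
      (by rw [jq_qj hi, jq_qj hj]; exact hji.le) n
    rwa [if_neg (fun h => absurd (qj_inj hj hi h) hji.ne)] at this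
  lam_mem j _ k a ha := lamW_mem π ha (qj j)
  rho_mem j _ k z hz := rhoW_mem π hz (qj j)
  sum {k a} _ := sum_rhoW a
  lam_rho j _ k z _ := lamW_rhoW (qj j) z
  lam_d j _ k z _ := by
    have := lamW_d (π := π) (q := qj j) (q' := qj j) le_rfl z
    rwa [if_pos rfl] at this
  lam_d' j hj i hij k z _ := by
    have hi : i < 6 := hij.trans hj
    have := lamW_d (π := π) (q := qj j) (q' := qj i)
      (by rw [jq_qj hi, jq_qj hj]; exact hij.le) z
    rwa [if_neg (fun h => absurd (qj_inj hi hj h) hij.ne)] at this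
  f_rho σ j hj k l n z _ _ h := by
    change dev (MW π s hs).toLM (op (show (WR π).dga.C from rhoW π (qj j) z) • n) (R.v σ) =
      dev (tLW π s).toLM (op (show (WL π).dga.C from z) • muW π s hs (qj j) n) (R'.v σ)
    rw [hv, qD_apply, ← op_rhoW (top_of π s hs hj h) z]

/-- **(c1) from (beta)** -/
theorem c1 (R : RRes Y (DM π s hs)) (R' : RRes (pushR (prHm π) Y) (DtL π s)) (hlo : R'.lo = R.lo)
    (hv : ∀ σ, R'.v σ = qD π s hs (R.v σ)) (hb : Beta π s R') : C1 π s hs R :=
  C1Q611.c1 π s hs R R' (lay π s hs R R' hlo hv) rfl rfl hb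

end Crest.Agent.R186.C1M808
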