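import Crest.Agent.R186.FinV_988
import Crest.Agent.R186.AcIff_492
import Crest.Agent.R186.C1x_134

/-!
Row 186 (A), leaf A.C1, (helper611): adapters between 134's dual-free form `Pa.Ex` and 492's cone form
`CE` with 988's dual `DR`, and transport of `Pa.ExAt` along maps which are bijective on every
homogeneous piece.
-/

set_option autoImplicit false
set_option linter.unusedSectionVars false

open MulOpposite

namespace Crest.Agent.R186.C1P611

open Hat827 Frame515 Res255 C1x134 FinV988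

variable {K : Type} [Field K] {A : DGA K}

/-! ### transport along maps bijective on the pieces -/

/-- a map of complexes bijective on every piece (nothing outside the pieces) -/
structure Iso (S' S : GC K) where
  v : S'.X →ₗ[K] S.X
  mem : ∀ {k : ℤ} {s : S'.X}, s ∈ S'.gr k → v s ∈ S.gr k
  inj : ∀ {k : ℤ} {s : S'.X}, s ∈ S'.gr k → v s = 0 → s = 0
  sur : ∀ {k : ℤ} {s : S.X}, s ∈ S.gr k → ∃ s' ∈ S'.gr k, v s' = s
  d : ∀ {k : ℤ} {s : S'.X}, s ∈ S'.gr k → v (S'.d s) = S.d (v s)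

/-- extension of a functional from a piece -/
theorem Iso.ext {S' S : GC K} (I : Iso S' S) (m : ℤ) (g : Module.Dual K S'.X) :
    ∃ ĝ : Module.Dual K S.X, ∀ s ∈ S'.gr m, ĝ (I.v s) = g s := by
  have hinj : LinearMap.ker (I.v.domRestrict (S'.gr m)) = ⊥ := by
    rw [LinearMap.ker_eq_bot']
    intro s hs
    exact Subtype.ext (I.inj s.2 hs)
  obtain ⟨r, hr⟩ := LinearMap.exists_leftInverse_of_injective _ hinj
  refine ⟨(g.domRestrict (S'.gr m)) ∘ₗ r, fun s hs => ?_⟩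
  have h := LinearMap.congr_fun hr ⟨s, hs⟩
  change g (r (I.v s)).1 = g s
  have h' : r (I.v s) = ⟨s, hs⟩ := h
  rw [h']

/-- the same for left modules -/
structure IsoL (N' N : LM A) extends Iso N'.toGC N.toGC where
  smul : ∀ {k l : ℤ} {a : A.C} {n : N'.X}, a ∈ A.G l → n ∈ N'.gr k → v (a • n) = a • v n

section transport

variable {Y : RCells A} {N' N : LM A} {S' S : GC K} (U : IsoL N' N) (V : Iso S' S)

/-- the map on `Y ⊗ -` -/
noncomputable def IsoL.F (Y : RCells A) : (Y.ι →₀ N'.X) →ₗ[K] (Y.ι →₀ N.X) :=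
  Finsupp.mapRange.linearMap U.v

theorem IsoL.F_apply (x : Y.ι →₀ N'.X) (σ : Y.ι) : U.F Y x σ = U.v (x σ) := rfl

theorem IsoL.F_single (σ : Y.ι) (n : N'.X) :
    U.F Y (Finsupp.single σ n) = Finsupp.single σ (U.v n) :=
  Finsupp.mapRange_single (hf := map_zero _)

theorem IsoL.F_mem {k : ℤ} {x : Y.ι →₀ N'.X} (hx : x ∈ (tY Y N').gr k) :
    U.F Y x ∈ (tY Y N).gr k := by
  intro σ
  refine ⟨U.mem (hx σ).1, ?_⟩
  have h2 : Y.e σ • x σ = x σ := (hx σ).2
  change Y.e σ • U.v (x σ) = U.v (x σ)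
  rw [← U.smul (Y.e_mem σ) (hx σ).1, h2]

theorem IsoL.F_d {k : ℤ} {x : Y.ι →₀ N'.X} (hx : x ∈ (tY Y N').gr k) :
    U.F Y ((tY Y N').d x) = (tY Y N).d (U.F Y x) := by
  refine Finsupp.ext fun τ => ?_
  have e1 : (tY Y N').d x τ = N'.d (x τ) + ∑ σ ∈ x.support, Y.c τ σ • x σ :=
    (twY Y N').dd_apply' x x.support (Finset.Subset.refl _) τ
  have e2 : (tY Y N).d (U.F Y x) τ = N.d (U.F Y x τ) + ∑ σ ∈ x.support, Y.c τ σ • U.F Y x σ :=
    (twY Y N).dd_apply' (U.F Y x) x.support (Finsupp.support_mapRange (hf := map_zero U.v)) τ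
  rw [IsoL.F_apply, e1, e2, map_add, map_sum, IsoL.F_apply, U.d (hx τ).1]
  congr 1
  refine Finset.sum_congr rfl fun σ _ => ?_
  rw [U.smul (Y.c_mem τ σ) (hx σ).1, IsoL.F_apply]

theorem IsoL.F_inj {k : ℤ} {x : Y.ι →₀ N'.X} (hx : x ∈ (tY Y N').gr k) (h : U.F Y x = 0) :
    x = 0 := by
  refine Finsupp.ext fun σ => ?_
  exact U.inj (hx σ).1 (DFunLike.congr_fun h σ)

theorem IsoL.F_sur {k : ℤ} {x : Y.ι →₀ N.X} (hx : x ∈ (tY Y N).gr k) :
    ∃ x' ∈ (tY Y N').gr k, U.F Y x' = x := by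
  classical
  have h := fun σ => U.sur (hx σ).1
  choose f hf1 hf2 using h
  refine ⟨Finsupp.onFinset x.support (fun σ => if σ ∈ x.support then f σ else 0) (fun σ hσ => by
    by_contra h
    exact hσ (if_neg h)), ?_, ?_⟩
  · intro σ
    rw [Finsupp.onFinset_apply]
    split_ifs with h
    · refine ⟨hf1 σ, ?_⟩
      change Y.e σ • f σ = f σ
      have h1 : Y.e σ • f σ ∈ N'.gr (k - Y.s σ) := by
        have := N'.smul_mem (Y.e_mem σ) (hf1 σ)
        rwa [zero_add] at this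
      have h2 : Y.e σ • x σ = x σ := (hx σ).2
      have h3 : U.v (Y.e σ • f σ - f σ) = 0 := by
        rw [map_sub, U.smul (Y.e_mem σ) (hf1 σ), hf2, h2, sub_self]
      exact sub_eq_zero.1 (U.inj (Submodule.sub_mem _ h1 (hf1 σ)) h3)
    · refine ⟨Submodule.zero_mem _, ?_⟩
      exact map_zero _
  · refine Finsupp.ext fun σ => ?_
    rw [IsoL.F_apply, Finsupp.onFinset_apply]
    split_ifs with h
    · exact hf2 σ
    · rw [map_zero]
      exact (Finsupp.notMem_support_iff.1 h).symm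

variable (P : Pa Y N S) (P' : Pa Y N' S') (hlo : P.lo = P'.lo)
  (hf : ∀ (σ : Y.ι) {k l : ℤ} {n : N'.X} {s : S'.X}, n ∈ N'.gr k → s ∈ S'.gr l →
    P.f σ (U.v n) (V.v s) = P'.f σ n s)

include hf in
theorem ev_eq {k l : ℤ} {x : Y.ι →₀ N'.X} {s : S'.X} (hx : x ∈ (tY Y N').gr k) (hs : s ∈ S'.gr l) :
    P.ev (U.F Y x) (V.v s) = P'.ev x s := by
  rw [P.ev_apply' (U.F Y x) (V.v s) x.support (Finsupp.support_mapRange (hf := map_zero U.v)),
    P'.ev_apply' x s x.support (Finset.Subset.refl _)]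
  exact Finset.sum_congr rfl fun σ _ => hf σ (hx σ).1 hs

include hlo hf in
/-- **transport, from the small form to the large form** -/
theorem exAt_of {k : ℤ} (h : P'.ExAt k) : P.ExAt k := by
  intro x g hx hd hg
  obtain ⟨x', hx', rfl⟩ := U.F_sur hx
  have hd' : (tY Y N').d x' = 0 := by
    refine U.F_inj ((tY Y N').d_mem hx') ?_
    rw [U.F_d hx', hd]
  obtain ⟨y, hy, g1, e1, e2⟩ := h x' (g ∘ₗ V.v) hx' hd' (fun s hs => by
    have hs' : V.v s ∈ S.gr (1 - P.lo - k) := by rw [hlo]; exact V.mem hs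
    have := hg _ hs'
    rw [ev_eq U V P P' hf hx' hs, ← V.d hs] at this
    exact this)
  obtain ⟨g2, hg2⟩ := V.ext (-P'.lo - k - 1) g1
  refine ⟨U.F Y y, U.F_mem hy, g2, ?_, ?_⟩
  · rw [← U.F_d hy, e1]
  · intro s hs
    rw [hlo] at hs
    obtain ⟨s', hs', rfl⟩ := V.sur hs
    have := e2 s' hs'
    rw [ev_eq U V P P' hf hy hs', ← V.d hs', hg2 _ (S'.d_mem hs')]
    exact this

include hlo hf in
/-- **transport, from the large form to the small form** -/
theorem exAt_to {k : ℤ} (h : P.ExAt k) : P'.ExAt k := by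
  intro x g hx hd hg
  obtain ⟨g0, hg0⟩ := V.ext (-P'.lo - k) g
  obtain ⟨y, hy, g1, e1, e2⟩ := h (U.F Y x) g0 (U.F_mem hx) (by rw [← U.F_d hx, hd, map_zero])
    (fun s hs => by
      rw [hlo] at hs
      obtain ⟨s', hs', rfl⟩ := V.sur hs
      have hds := S'.d_mem hs'
      rw [show 1 - P'.lo - k - 1 = -P'.lo - k by ring] at hds
      rw [ev_eq U V P P' hf hx hs', ← V.d hs', hg0 _ hds]
      exact hg s' hs')
  obtain ⟨y', hy', rfl⟩ := U.F_sur hy
  refine ⟨y', hy', g1 ∘ₗ V.v, ?_, ?_⟩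
  · have h1 : U.F Y ((tY Y N').d y' - x) = 0 := by
      rw [map_sub, U.F_d hy', e1, sub_self]
    have h2 : (tY Y N').d y' - x ∈ (tY Y N').gr (k - 1) :=
      Submodule.sub_mem _ ((tY Y N').d_mem hy') hx
    exact sub_eq_zero.1 (U.F_inj h2 h1)
  · intro s hs
    have hs' : V.v s ∈ S.gr (-P.lo - k) := by rw [hlo]; exact V.mem hs
    have := e2 _ hs'
    rw [ev_eq U V P P' hf hy' hs, ← V.d hs, hg0 _ hs] at this
    exact this

end transport

/-! ### `Ex` and `CE` -/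

section ce

variable {Y : RCells A} {N : LM A} {B : DGA K} {Z : LM B}

/-- the pairing vanishes off the diagonal -/
def Off (P : Pa Y N Z.toGC) : Prop := ∀ (σ : Y.ι) {k l : ℤ} {n : N.X} {z : Z.X}, n ∈ N.gr k →
  z ∈ Z.gr l → k + l + P.lo + Y.s σ ≠ 0 → P.f σ n z = 0

theorem Off.ev {P : Pa Y N Z.toGC} (h : Off P) {k l : ℤ} {x : Y.ι →₀ N.X} {z : Z.X}
    (hx : x ∈ (tY Y N).gr k) (hz : z ∈ Z.gr l) (hne : k + l + P.lo ≠ 0) : P.ev x z = 0 := by
  rw [P.ev_apply' x z x.support (Finset.Subset.refl _)]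
  refine Finset.sum_eq_zero fun σ _ => ?_
  have h1 : x σ ∈ N.gr (k - Y.s σ) := (hx σ).1
  refine h σ h1 hz ?_
  intro h0
  apply hne
  omega

/-- the evaluation as a map to the dual -/
noncomputable def evD (P : Pa Y N Z.toGC) : (Y.ι →₀ N.X) →ₗ[K] (DR Z).X where
  toFun x := (P.ev x : Z.X →ₗ[K] K)
  map_add' x y := map_add P.ev x y
  map_smul' r x := map_smul P.ev r x

theorem dev_evD (P : Pa Y N Z.toGC) (x : Y.ι →₀ N.X) (z : Z.X) : dev Z z (evD P x) = P.ev x z := rfl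

/-- equality of functionals is tested on the pieces -/
theorem ext_pr (Q : PrL Z) {f g : (DR Z).X} (h : ∀ k z, z ∈ Z.gr k → dev Z z f = dev Z z g) :
    f = g := by
  refine DR_ext fun z => ?_
  have e : ∀ f : (DR Z).X, dev Z z f = ∑ k ∈ Finset.Icc Q.lo Q.hi, dev Z (Q.pr k z) f := by
    intro f
    conv_lhs => rw [← Q.pr_sum z]
    exact map_sum (show Z.X →ₗ[K] K from f) _ _
  rw [e f, e g]
  exact Finset.sum_congr rfl fun k _ => h k _ (Q.pr_mem k z)

/-- a functional cut down to one piece -/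
noncomputable def cut (Q : PrL Z) (m : ℤ) (g : Module.Dual K Z.X) : (DR Z).X :=
  (g ∘ₗ Q.pr m : Z.X →ₗ[K] K)

theorem dev_cut (Q : PrL Z) (m : ℤ) (g : Module.Dual K Z.X) (z : Z.X) :
    dev Z z (cut Q m g) = g (Q.pr m z) := rfl

theorem dev_cut_same (Q : PrL Z) {m : ℤ} (g : Module.Dual K Z.X) {z : Z.X} (hz : z ∈ Z.gr m) :
    dev Z z (cut Q m g) = g z := by rw [dev_cut, Q.pr_same hz]

theorem dev_cut_ne (Q : PrL Z) {m l : ℤ} (g : Module.Dual K Z.X) {z : Z.X} (hz : z ∈ Z.gr l)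
    (h : m ≠ l) : dev Z z (cut Q m g) = 0 := by rw [dev_cut, Q.pr_ne hz h, map_zero]

theorem cut_mem (Q : PrL Z) {m k : ℤ} (h : m = -k) (g : Module.Dual K Z.X) :
    cut Q m g ∈ (DR Z).gr k := by
  intro l z hz hl
  exact dev_cut_ne Q g hz (by omega)

theorem dev_mem {k l : ℤ} {f : (DR Z).X} {z : Z.X} (hf : f ∈ (DR Z).gr k) (hz : z ∈ Z.gr l)
    (h : l ≠ -k) : dev Z z f = 0 := hf l z hz h

/-- **`Ex` gives the cone form** -/
theorem ce_of_ex (P : Pa Y N Z.toGC) (hP : Off P) (Q : PrL Z) {k : ℤ} (h : P.ExAt k) :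
    AcIff492.CE (tY Y N) (DR Z).toGC P.lo k (evD P) := by
  intro x n hx hd hn e
  have ez : ∀ z, P.ev x z + dev Z (Z.d z) n = 0 := fun z => by
    have := congrArg (dev Z z) e
    rw [map_add, map_zero, dev_evD, dev_d] at this
    exact this
  obtain ⟨y, hy, g', e1, e2⟩ := h x (show Z.X →ₗ[K] K from n) hx hd (fun z _ => ez z)
  refine ⟨y, hy, cut Q (-P.lo - k - 1) g', cut_mem Q (by ring) g', e1, ?_⟩
  refine ext_pr Q fun l z hz => ?_
  rw [map_add, dev_evD, dev_d]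
  by_cases hl : l = -P.lo - k
  · subst hl
    rw [dev_cut_same Q g' (Z.d_mem hz)]
    exact e2 z hz
  · rw [dev_mem hn hz (by omega), hP.ev hy hz (by omega), dev_cut_ne Q g' (Z.d_mem hz) (by omega),
      add_zero]

/-- **the cone form gives `Ex`** -/
theorem ex_of_ce (P : Pa Y N Z.toGC) (hP : Off P) (Q : PrL Z) {k : ℤ}
    (h : AcIff492.CE (tY Y N) (DR Z).toGC P.lo k (evD P)) : P.ExAt k := by
  intro x g hx hd hg
  obtain ⟨y, hy, n', hn', e1, e2⟩ := h x (cut Q (-P.lo - k) g) hx hd (cut_mem Q (by ring) g) (by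
    refine ext_pr Q fun l z hz => ?_
    rw [map_add, map_zero, dev_evD, dev_d]
    by_cases hl : l = 1 - P.lo - k
    · subst hl
      have hdz := Z.d_mem hz
      rw [show 1 - P.lo - k - 1 = -P.lo - k by ring] at hdz
      rw [dev_cut_same Q g hdz]
      exact hg z hz
    · rw [hP.ev hx hz (by omega), dev_cut_ne Q g (Z.d_mem hz) (by omega), add_zero])
  refine ⟨y, hy, (show Z.X →ₗ[K] K from n'), e1, fun z hz => ?_⟩
  have := congrArg (dev Z z) e2
  rw [dev_cut_same Q g hz, map_add, dev_evD, dev_d] at this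
  exact this

theorem ex_iff_ce (P : Pa Y N Z.toGC) (hP : Off P) (Q : PrL Z) :
    P.Ex ↔ ∀ k, AcIff492.CE (tY Y N) (DR Z).toGC P.lo k (evD P) :=
  ⟨fun h k => ce_of_ex P hP Q (h k), fun h k => ex_of_ce P hP Q (h k)⟩

end ce

end Crest.Agent.R186.C1P611
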