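import Crest.Agent.R186.AcIff_492
import Crest.Agent.R186.FinV_988

/-!
Row 186, half (A), leaf A.C1 (helper161): maps `Y ⊗ N → D(S)` from a pairing `N × S → M` and an
augmentation `Y → D(M)`; the square `Y ⊗ Γ → D(Γ)` from (c1) and `Y → D(M)`.
-/

set_option autoImplicit false
set_option linter.style.haveILetI false
set_option linter.unusedSectionVars false

open MulOpposite

namespace Crest.Agent.R186.C1161

open Hat827 Hat827.DGA Frame515 Res255 FinV988 AcIff492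

variable {K : Type} [Field K]

/-- the dual complex -/
noncomputable def DC (S : GC K) : GC K where
  X := S.X →ₗ[K] K
  gr := fun k =>
    { carrier := {f | ∀ l z, z ∈ S.gr l → l ≠ -k → f z = 0}
      add_mem' := fun {f g} hf hg l z hz hl => by
        rw [LinearMap.add_apply, hf l z hz hl, hg l z hz hl, add_zero]
      zero_mem' := fun l z _ _ => rfl
      smul_mem' := fun r f hf l z hz hl => by
        rw [LinearMap.smul_apply, hf l z hz hl, smul_zero] }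
  d :=
    { toFun := fun f => f ∘ₗ S.d
      map_add' := fun f g => rfl
      map_smul' := fun r f => rfl }
  d_mem := by
    intro k f hf l z hz hl
    exact hf (l - 1) (S.d z) (S.d_mem hz) (by omega)
  d_d := by
    intro f
    ext z
    change f (S.d (S.d z)) = 0
    rw [S.d_d, map_zero]

theorem DC_DR {A : DGA K} (Z : LM A) : DC Z.toGC = (DR Z).toGC := rfl

theorem DC_mem {S : GC K} {k : ℤ} {f : S.X →ₗ[K] K} :
    f ∈ (DC S).gr k ↔ ∀ l z, z ∈ S.gr l → l ≠ -k → f z = 0 := Iff.rfl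

theorem DC_d {S : GC K} (f : S.X →ₗ[K] K) (z : S.X) :
    (show S.X →ₗ[K] K from (DC S).d f) z = f (S.d z) := rfl

/-- a pairing `N × S → M`, left linear -/
structure Pg {A : DGA K} (N : LM A) (S : GC K) (M : LM A) where
  b : N.X →ₗ[K] S.X →ₗ[K] M.X
  b_l : ∀ (a : A.C) (n : N.X) (s : S.X), b (a • n) s = a • b n s
  b_d : ∀ (n : N.X) (s : S.X), M.d (b n s) = b (N.d n) s + b n (S.d s)
  b_mem : ∀ {k l : ℤ} {n : N.X} {s : S.X}, n ∈ N.gr k → s ∈ S.gr l → b n s ∈ M.gr (k + l)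

section Phi

variable {A : DGA K} {N : LM A} {S : GC K} {M : LM A} {Y : RCells A} (P : Pg N S M)
  (R : RAug Y (DR M))

/-- the value of the augmentation as a functional -/
def vf (R : RAug Y (DR M)) (σ : Y.ι) : M.X →ₗ[K] K := R.v σ

theorem vf_mem (R : RAug Y (DR M)) (σ : Y.ι) (l : ℤ) (z : M.X) (hz : z ∈ M.gr l)
    (h : l ≠ -(R.lo + Y.s σ)) : vf R σ z = 0 := R.v_mem σ l z hz h

theorem vf_e (R : RAug Y (DR M)) (σ : Y.ι) (z : M.X) : vf R σ (Y.e σ • z) = vf R σ z :=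
  LinearMap.congr_fun (R.v_e σ) z

theorem vf_d (R : RAug Y (DR M)) (σ : Y.ι) (z : M.X) :
    vf R σ (M.d z) = ∑ τ ∈ Y.F (Y.s σ), vf R τ (Y.c τ σ • z) := by
  have h := congrArg (fun f => dev M z f) (R.v_d σ)
  simp only [map_sum] at h
  exact h

/-- the map `Y ⊗ N → D(S)` -/
noncomputable def Phi : (Y.ι →₀ N.X) →ₗ[K] (DC S).X :=
  Finsupp.lsum K fun σ =>
    { toFun := fun n => (show (DC S).X from (vf R σ) ∘ₗ P.b n)
      map_add' := fun n n' => by
        rw [map_add, LinearMap.comp_add]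
        rfl
      map_smul' := fun r n => by
        rw [map_smul, LinearMap.comp_smul]
        rfl }

theorem Phi_single (σ : Y.ι) (n : N.X) : Phi P R (Finsupp.single σ n) =
    (show (DC S).X from (vf R σ) ∘ₗ P.b n) := by
  simp only [Phi, Finsupp.lsum_single]
  rfl

/-- evaluation -/
def ev (s : S.X) : (DC S).X →ₗ[K] K where
  toFun f := (show S.X →ₗ[K] K from f) s
  map_add' _ _ := rfl
  map_smul' _ _ := rfl

theorem DC_ext {f g : (DC S).X} (h : ∀ s, ev s f = ev s g) : f = g := LinearMap.ext h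

theorem ev_single (σ : Y.ι) (n : N.X) (s : S.X) :
    ev s (Phi P R (Finsupp.single σ n)) = vf R σ (P.b n s) := by
  rw [Phi_single]
  rfl

theorem ev_Phi (x : Y.ι →₀ N.X) (s : S.X) :
    ev s (Phi P R x) = x.sum fun σ n => vf R σ (P.b n s) := by
  induction x using Finsupp.induction_linear with
  | zero => simp
  | add f g hf hg =>
    rw [map_add, map_add, hf, hg, Finsupp.sum_add_index']
    · intro σ; simp
    · intro σ a b; simp
  | single σ a => rw [ev_single, Finsupp.sum_single_index (by simp)]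

theorem Phi_d (x : Y.ι →₀ N.X) : Phi P R ((tY Y N).d x) = (DC S).d (Phi P R x) := by
  have key : Phi P R ∘ₗ (tY Y N).d = (DC S).d ∘ₗ Phi P R := by
    refine Finsupp.lhom_ext fun σ n => ?_
    refine DC_ext fun s => ?_
    rw [LinearMap.comp_apply, LinearMap.comp_apply]
    change ev s (Phi P R ((twY Y N).dd (Finsupp.single σ n))) =
      ev (S.d s) (Phi P R (Finsupp.single σ n))
    rw [Tw.dd_single, map_add, map_add, map_sum, map_sum, ev_single, ev_single]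
    have h1 : ∀ τ, ev s (Phi P R (Finsupp.single τ ((twY Y N).m σ τ n))) =
        vf R τ (Y.c τ σ • P.b n s) := by
      intro τ
      rw [ev_single]
      change vf R τ (P.b (Y.c τ σ • n) s) = _
      rw [P.b_l]
    rw [Finset.sum_congr rfl fun τ _ => h1 τ]
    change vf R σ (P.b (N.d n) s) + ∑ τ ∈ Y.F (Y.s σ), vf R τ (Y.c τ σ • P.b n s) = _
    rw [← vf_d, P.b_d, map_add, ← add_assoc]
    have h2 : vf R σ (P.b (N.d n) s) + vf R σ (P.b (N.d n) s) = 0 := by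
      have : P.b (N.d n) s + P.b (N.d n) s = 0 := by
        have h3 : P.b (N.d n) s = (1 : A.C) • P.b (N.d n) s := (one_smul _ _).symm
        rw [h3, ← add_smul, A.two, zero_smul]
      rw [← map_add, this, map_zero]
    rw [h2, zero_add]
  exact LinearMap.congr_fun key x

theorem Phi_mem {k : ℤ} {x : Y.ι →₀ N.X} (hx : x ∈ (tY Y N).gr k) :
    Phi P R x ∈ (DC S).gr (R.lo + k) := by
  intro l s hs hl
  change ev s (Phi P R x) = 0
  rw [ev_Phi]
  refine Finset.sum_eq_zero fun σ _ => ?_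
  have h1 : x σ ∈ N.gr (k - Y.s σ) := (hx σ).1
  exact vf_mem R σ _ _ (P.b_mem h1 hs) (by omega)

end Phi

/-! ### maps of families -/

section mr

variable {A : DGA K} {N N' : LM A} (Y : RCells A)

/-- apply a linear map to the entries -/
noncomputable def mr (Y : RCells A) {V V' : Type} [AddCommGroup V] [Module K V] [AddCommGroup V']
    [Module K V'] (f : V →ₗ[K] V') : (Y.ι →₀ V) →ₗ[K] (Y.ι →₀ V') :=
  Finsupp.mapRange.linearMap f

theorem mr_apply {V V' : Type} [AddCommGroup V] [Module K V] [AddCommGroup V'] [Module K V']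
    (f : V →ₗ[K] V') (x : Y.ι →₀ V) (σ : Y.ι) : mr Y f x σ = f (x σ) := rfl

theorem mr_single {V V' : Type} [AddCommGroup V] [Module K V] [AddCommGroup V'] [Module K V']
    (f : V →ₗ[K] V') (σ : Y.ι) (v : V) :
    mr Y f (Finsupp.single σ v) = Finsupp.single σ (f v) := by
  rw [mr, Finsupp.mapRange.linearMap_apply, Finsupp.mapRange_single]

theorem mr_d (f : N.X →ₗ[K] N'.X) (hl : ∀ (a : A.C) (n : N.X), f (a • n) = a • f n)
    (hd : ∀ n, f (N.d n) = N'.d (f n)) (x : Y.ι →₀ N.X) :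
    mr Y f ((tY Y N).d x) = (tY Y N').d (mr Y f x) := by
  have key : mr Y f ∘ₗ (twY Y N).dd = (twY Y N').dd ∘ₗ mr Y f := by
    refine Finsupp.lhom_ext fun σ n => ?_
    rw [LinearMap.comp_apply, LinearMap.comp_apply, mr_single, Tw.dd_single, Tw.dd_single, map_add,
      map_sum, mr_single, hd]
    congr 1
    refine Finset.sum_congr rfl fun τ _ => ?_
    rw [mr_single]
    congr 1
    exact hl _ _
  exact LinearMap.congr_fun key x

theorem mr_mem (f : N.X →ₗ[K] N'.X) (hl : ∀ (a : A.C) (n : N.X), f (a • n) = a • f n)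
    (hm : ∀ {k : ℤ} {n : N.X}, n ∈ N.gr k → f n ∈ N'.gr k) {k : ℤ} {x : Y.ι →₀ N.X}
    (hx : x ∈ (tY Y N).gr k) : mr Y f x ∈ (tY Y N').gr k := fun σ => by
  refine ⟨hm (hx σ).1, ?_⟩
  have h : Y.e σ • x σ = x σ := (hx σ).2
  change Y.e σ • f (x σ) = f (x σ)
  rw [← hl, h]

end mr

/-! ### the square -/

section sq

variable {A B : DGA K}

/-- split square-zero extension `A = B ⊕ M` -/
structure SqZ (h : Hm B A) (q : Hm A B) (M : BM B B) where
  j : M.X →ₗ[K] A.C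
  pr : A.C →ₗ[K] M.X
  j_mem : ∀ {k : ℤ} {m : M.X}, m ∈ M.gr k → j m ∈ A.G k
  pr_mem : ∀ {k : ℤ} {a : A.C}, a ∈ A.G k → pr a ∈ M.gr k
  pr_j : ∀ m, pr (j m) = m
  pr_h : ∀ b, pr (h.f b) = 0
  q_j : ∀ m, q.f (j m) = 0
  q_h : ∀ b, q.f (h.f b) = b
  dec : ∀ a, a = h.f (q.f a) + j (pr a)
  j_d : ∀ m, A.D (j m) = j (M.d m)
  j_l : ∀ (b : B.C) (m : M.X), h.f b * j m = j (b • m)
  j_r : ∀ (m : M.X) (a : A.C), j m * a = j (op (q.f a) • m)

namespace SqZ

variable {h : Hm B A} {q : Hm A B} {M : BM B B} (Z : SqZ h q M)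

theorem pr_l (b : B.C) (a : A.C) : Z.pr (h.f b * a) = b • Z.pr a := by
  conv_lhs => rw [Z.dec a]
  rw [mul_add, ← map_mul, Z.j_l, map_add, Z.pr_h, Z.pr_j, zero_add]

theorem pr_D (a : A.C) : Z.pr (A.D a) = M.d (Z.pr a) := by
  conv_lhs => rw [Z.dec a]
  rw [map_add, ← h.D, Z.j_d, map_add, Z.pr_h, Z.pr_j, zero_add]

/-- right action as a bilinear map -/
def b1 (M : BM B B) : M.X →ₗ[K] B.C →ₗ[K] M.X :=
  LinearMap.mk₂ K (fun (m : M.X) (b : B.C) => (op b : B.Cᵐᵒᵖ) • m)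
    (fun m m' b => smul_add _ _ _) (fun r m b => (rmul M.toRM b).map_smul r m)
    (fun m b b' => by rw [op_add, add_smul]) (fun r m b => by rw [op_smul, smul_assoc])

theorem b1_apply (M : BM B B) (m : M.X) (b : B.C) : b1 M m b = (op b : B.Cᵐᵒᵖ) • m := rfl

/-- the pairing `M × B → M` -/
def P1 (M : BM B B) : Pg M.toLM (selfL B).toGC M.toLM where
  b := b1 M
  b_l a n s := (smul_comm a (op (show B.C from s) : B.Cᵐᵒᵖ) n).symm
  b_d n s := by
    change M.d ((op (show B.C from s) : B.Cᵐᵒᵖ) • n) =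
      (op (show B.C from s) : B.Cᵐᵒᵖ) • M.d n + (op (B.D (show B.C from s)) : B.Cᵐᵒᵖ) • n
    rw [M.leibR, add_comm]
  b_mem {k l n s} hn hs := by
    have := M.smul_memR hs hn
    rwa [add_comm] at this

/-- the pairing `Γ × Γ → M`, bilinear map -/
def b2 : A.C →ₗ[K] A.C →ₗ[K] M.X :=
  LinearMap.mk₂ K (fun (a : A.C) (a' : A.C) => Z.pr (a * a'))
    (fun a a' b => by rw [add_mul, map_add]) (fun r a b => by rw [smul_mul_assoc, map_smul])
    (fun a b b' => by rw [mul_add, map_add]) (fun r a b => by rw [mul_smul_comm, map_smul])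

theorem b2_apply (a a' : A.C) : Z.b2 a a' = Z.pr (a * a') := rfl

/-- the pairing `Γ × Γ → M` -/
def P2 : Pg (resL h (selfL A)) (selfL A).toGC M.toLM where
  b := Z.b2
  b_l b n s := by
    change Z.pr (h.f b * (show A.C from n) * (show A.C from s)) =
      b • Z.pr ((show A.C from n) * (show A.C from s))
    rw [mul_assoc, Z.pr_l]
  b_d n s := by
    change M.d (Z.pr ((show A.C from n) * (show A.C from s))) =
      Z.pr (A.D (show A.C from n) * (show A.C from s)) +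
        Z.pr ((show A.C from n) * A.D (show A.C from s))
    rw [← Z.pr_D, A.D_mul, map_add]
  b_mem hn hs := Z.pr_mem (A.mul_mem hn hs)

variable {Y : RCells B} (R : RAug Y (DR M.toLM))

/-- `Y ⊗ M → D(B)` -/
noncomputable def phi (M : BM B B) {Y : RCells B} (R : RAug Y (DR M.toLM)) :
    (Y.ι →₀ M.X) →ₗ[K] (DR (selfL B)).X := Phi (P1 M) R

/-- `Y ⊗ Γ → D(Γ)` -/
noncomputable def alpha : (Y.ι →₀ A.C) →ₗ[K] (DR (selfL A)).X := Phi Z.P2 R

theorem phi_single (σ : Y.ι) (m : M.X) (b : B.C) :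
    (show B.C →ₗ[K] K from phi M R (Finsupp.single σ m)) b = vf R σ ((op b : B.Cᵐᵒᵖ) • m) :=
  ev_single (P1 M) R σ m b

theorem alpha_single (σ : Y.ι) (a b : A.C) :
    (show A.C →ₗ[K] K from alpha Z R (Finsupp.single σ a)) b = vf R σ (Z.pr (a * b)) :=
  ev_single Z.P2 R σ a b

theorem phi_d (x : Y.ι →₀ M.X) : phi M R ((tY Y M.toLM).d x) = (DR (selfL B)).d (phi M R x) :=
  Phi_d (P1 M) R x

theorem phi_mem {k : ℤ} {x : Y.ι →₀ M.X} (hx : x ∈ (tY Y M.toLM).gr k) :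
    phi M R x ∈ (DR (selfL B)).gr (R.lo + k) := Phi_mem (P1 M) R hx

theorem alpha_d (x : Y.ι →₀ A.C) : alpha Z R ((tY Y (resL h (selfL A))).d x) =
    (DR (selfL A)).d (alpha Z R x) := Phi_d Z.P2 R x

theorem alpha_mem {k : ℤ} {x : Y.ι →₀ A.C} (hx : x ∈ (tY Y (resL h (selfL A))).gr k) :
    alpha Z R x ∈ (DR (selfL A)).gr (R.lo + k) := Phi_mem Z.P2 R hx

theorem dec_mr (x : Y.ι →₀ A.C) :
    x = mr Y h.f.toLinearMap (mr Y q.f.toLinearMap x) + mr Y Z.j (mr Y Z.pr x) :=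
  Finsupp.ext fun σ => Z.dec (x σ)

end SqZ

/-! ### plain types -/

section plain

variable {h : Hm B A} {q : Hm A B} {M : BM B B}

/-- differential of `Y ⊗ Γ` -/
noncomputable def dA (Y : RCells B) (h : Hm B A) : (Y.ι →₀ A.C) →ₗ[K] (Y.ι →₀ A.C) :=
  (tY Y (resL h (selfL A))).d

/-- differential of `Y ⊗ L''` -/
noncomputable def dB (Y : RCells B) : (Y.ι →₀ B.C) →ₗ[K] (Y.ι →₀ B.C) := (tY Y (selfL B)).d

/-- differential of `Y ⊗ M` -/
noncomputable def dM (Y : RCells B) (M : BM B B) : (Y.ι →₀ M.X) →ₗ[K] (Y.ι →₀ M.X) :=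
  (tY Y M.toLM).d

/-- pieces of `Y ⊗ Γ` -/
noncomputable def gA (Y : RCells B) (h : Hm B A) (k : ℤ) : Submodule K (Y.ι →₀ A.C) :=
  (tY Y (resL h (selfL A))).gr k

/-- pieces of `Y ⊗ L''` -/
noncomputable def gB (Y : RCells B) (k : ℤ) : Submodule K (Y.ι →₀ B.C) := (tY Y (selfL B)).gr k

/-- pieces of `Y ⊗ M` -/
noncomputable def gM (Y : RCells B) (M : BM B B) (k : ℤ) : Submodule K (Y.ι →₀ M.X) := (tY Y M.toLM).gr k

variable {Y : RCells B}

theorem dA_mem {k : ℤ} {x : Y.ι →₀ A.C} (hx : x ∈ gA Y h k) : dA Y h x ∈ gA Y h (k - 1) :=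
  (tY Y (resL h (selfL A))).d_mem hx

theorem dA_dA (x : Y.ι →₀ A.C) : dA Y h (dA Y h x) = 0 := (tY Y (resL h (selfL A))).d_d x

theorem q_dA (Z : SqZ h q M) (x : Y.ι →₀ A.C) :
    mr Y q.f.toLinearMap (dA Y h x) = dB Y (mr Y q.f.toLinearMap x) :=
  mr_d (N := resL h (selfL A)) (N' := selfL B) Y q.f.toLinearMap (fun b a => by
    change q.f (h.f b * (show A.C from a)) = b * q.f a
    rw [map_mul, Z.q_h]) (fun a => q.D a) x

theorem q_gA (Z : SqZ h q M) {k : ℤ} {x : Y.ι →₀ A.C} (hx : x ∈ gA Y h k) :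
    mr Y q.f.toLinearMap x ∈ gB Y k :=
  mr_mem (N := resL h (selfL A)) (N' := selfL B) Y q.f.toLinearMap (fun b a => by
    change q.f (h.f b * (show A.C from a)) = b * q.f a
    rw [map_mul, Z.q_h]) (fun hm => q.mem hm) hx

theorem h_dB (x : Y.ι →₀ B.C) :
    mr Y h.f.toLinearMap (dB Y x) = dA Y h (mr Y h.f.toLinearMap x) :=
  mr_d (N := selfL B) (N' := resL h (selfL A)) Y h.f.toLinearMap (fun b a => by
    change h.f (b * (show B.C from a)) = h.f b * h.f a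
    rw [map_mul]) (fun a => h.D a) x

theorem h_gB {k : ℤ} {x : Y.ι →₀ B.C} (hx : x ∈ gB Y k) :
    mr Y h.f.toLinearMap x ∈ gA Y h k :=
  mr_mem (N := selfL B) (N' := resL h (selfL A)) Y h.f.toLinearMap (fun b a => by
    change h.f (b * (show B.C from a)) = h.f b * h.f a
    rw [map_mul]) (fun hm => h.mem hm) hx

theorem p_dA (Z : SqZ h q M) (x : Y.ι →₀ A.C) : mr Y Z.pr (dA Y h x) = dM Y M (mr Y Z.pr x) :=
  mr_d (N := resL h (selfL A)) (N' := M.toLM) Y Z.pr (fun b a => Z.pr_l b a)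
    (fun a => Z.pr_D a) x

theorem p_gA (Z : SqZ h q M) {k : ℤ} {x : Y.ι →₀ A.C} (hx : x ∈ gA Y h k) :
    mr Y Z.pr x ∈ gM Y M k :=
  mr_mem (N := resL h (selfL A)) (N' := M.toLM) Y Z.pr (fun b a => Z.pr_l b a)
    (fun hm => Z.pr_mem hm) hx

theorem j_dM (Z : SqZ h q M) (x : Y.ι →₀ M.X) : mr Y Z.j (dM Y M x) = dA Y h (mr Y Z.j x) :=
  mr_d (N := M.toLM) (N' := resL h (selfL A)) Y Z.j (fun b m => (Z.j_l b m).symm)
    (fun m => (Z.j_d m).symm) x

theorem j_gM (Z : SqZ h q M) {k : ℤ} {x : Y.ι →₀ M.X} (hx : x ∈ gM Y M k) :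
    mr Y Z.j x ∈ gA Y h k :=
  mr_mem (N := M.toLM) (N' := resL h (selfL A)) Y Z.j (fun b m => (Z.j_l b m).symm)
    (fun hm => Z.j_mem hm) hx

/-- `alpha` with plain types -/
noncomputable def aF (Z : SqZ h q M) (R : RAug Y (DR M.toLM)) :
    (Y.ι →₀ A.C) →ₗ[K] (A.C →ₗ[K] K) := SqZ.alpha Z R

/-- `phi` with plain types -/
noncomputable def pF (M : BM B B) (R : RAug Y (DR M.toLM)) :
    (Y.ι →₀ M.X) →ₗ[K] (B.C →ₗ[K] K) := SqZ.phi M R

/-- the augmentation with plain types -/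
noncomputable def uF (M : BM B B) (R : RAug Y (DR M.toLM)) :
    (Y.ι →₀ B.C) →ₗ[K] (M.X →ₗ[K] K) := augR Y (DR M.toLM) R.v

theorem aF_single (Z : SqZ h q M) (R : RAug Y (DR M.toLM)) (σ : Y.ι) (a b : A.C) :
    aF Z R (Finsupp.single σ a) b = vf R σ (Z.pr (a * b)) := SqZ.alpha_single Z R σ a b

theorem pF_single (R : RAug Y (DR M.toLM)) (σ : Y.ι) (m : M.X) (b : B.C) :
    pF M R (Finsupp.single σ m) b = vf R σ ((op b : B.Cᵐᵒᵖ) • m) := SqZ.phi_single R σ m b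

theorem uF_single (R : RAug Y (DR M.toLM)) (σ : Y.ι) (m : M.X) (b : B.C) :
    uF M R (Finsupp.single σ b) m = vf R σ (b • m) :=
  congrArg (fun f => dev M.toLM m f) (augR_single Y (DR M.toLM) R.v σ b)

theorem aF_j (Z : SqZ h q M) (R : RAug Y (DR M.toLM)) (x : Y.ι →₀ M.X) (a : A.C) :
    aF Z R (mr Y Z.j x) a = pF M R x (q.f a) := by
  have key : (LinearMap.applyₗ a) ∘ₗ aF Z R ∘ₗ mr Y Z.j =
      (LinearMap.applyₗ (q.f a)) ∘ₗ pF M R := by
    refine Finsupp.lhom_ext fun σ m => ?_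
    change aF Z R (mr Y Z.j (Finsupp.single σ m)) a = pF M R (Finsupp.single σ m) (q.f a)
    rw [mr_single, aF_single, pF_single, Z.j_r, Z.pr_j]
  exact LinearMap.congr_fun key x

theorem aF_ev_j (Z : SqZ h q M) (R : RAug Y (DR M.toLM)) (x : Y.ι →₀ A.C) (m : M.X) :
    aF Z R x (Z.j m) = uF M R (mr Y q.f.toLinearMap x) m := by
  have key : (LinearMap.applyₗ (Z.j m)) ∘ₗ aF Z R =
      (LinearMap.applyₗ m) ∘ₗ uF M R ∘ₗ mr Y q.f.toLinearMap := by
    refine Finsupp.lhom_ext fun σ a => ?_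
    change aF Z R (Finsupp.single σ a) (Z.j m) =
      uF M R (mr Y q.f.toLinearMap (Finsupp.single σ a)) m
    rw [mr_single, aF_single, uF_single]
    have h1 : Z.pr (a * Z.j m) = q.f a • m := by
      conv_lhs => rw [Z.dec a]
      rw [add_mul, Z.j_l, Z.j_r, Z.q_j, op_zero, zero_smul, map_zero, add_zero, Z.pr_j]
    rw [h1]
    rfl
  exact LinearMap.congr_fun key x

theorem aF_d (Z : SqZ h q M) (R : RAug Y (DR M.toLM)) (x : Y.ι →₀ A.C) (a : A.C) :
    aF Z R (dA Y h x) a = aF Z R x (A.D a) :=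
  LinearMap.congr_fun (SqZ.alpha_d (Z := Z) R x) a

/-- functionals of degree `k` -/
def dg (S : GC K) (k : ℤ) (f : S.X →ₗ[K] K) : Prop := ∀ l z, z ∈ S.gr l → l ≠ -k → f z = 0

/-- **`Y ⊗ Γ → D(Γ)` has acyclic cone** (plain form) -/
theorem ce_plain (Z : SqZ h q M) (R : RRes Y (DR M.toLM)) (k : ℤ)
    (hc : ∀ (x : Y.ι →₀ M.X) (n : B.C →ₗ[K] K), x ∈ gM Y M (k - 1) → dM Y M x = 0 →
      (∀ l z, z ∈ B.G l → l ≠ -(R.lo + k) → n z = 0) →
      (∀ b, pF M R.toRAug x b + n (B.D b) = 0) →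
      ∃ y ∈ gM Y M k, ∃ n' : B.C →ₗ[K] K, (∀ l z, z ∈ B.G l → l ≠ -(R.lo + k + 1) → n' z = 0) ∧
        dM Y M y = x ∧ ∀ b, n b = pF M R.toRAug y b + n' (B.D b))
    (x : Y.ι →₀ A.C) (n : A.C →ₗ[K] K) (hx : x ∈ gA Y h (k - 1)) (hdx : dA Y h x = 0)
    (hn : ∀ l z, z ∈ A.G l → l ≠ -(R.lo + k) → n z = 0)
    (hxn : ∀ a, aF Z R.toRAug x a + n (A.D a) = 0) :
    ∃ y ∈ gA Y h k, ∃ n' : A.C →ₗ[K] K, (∀ l z, z ∈ A.G l → l ≠ -(R.lo + k + 1) → n' z = 0) ∧
      dA Y h y = x ∧ ∀ a, n a = aF Z R.toRAug y a + n' (A.D a) := by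
  obtain ⟨yb, hyb, nb', hnb', e1, e2⟩ := R.ex k (mr Y q.f.toLinearMap x) (n ∘ₗ Z.j) (q_gA Z hx)
    (by
      change dB Y (mr Y q.f.toLinearMap x) = 0
      rw [← q_dA Z, hdx, map_zero])
    (fun l m hm hl => hn l (Z.j m) (Z.j_mem hm) hl)
    (by
      refine DR_ext fun m => ?_
      change uF M R.toRAug (mr Y q.f.toLinearMap x) m + n (Z.j (M.d m)) = 0
      rw [← aF_ev_j, ← Z.j_d]
      exact hxn _)
  change dB Y yb = _ at e1
  replace e2 : ∀ m, n (Z.j m) = uF M R.toRAug yb m + (show M.X →ₗ[K] K from nb') (M.d m) :=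
    fun m => congrArg (fun f => dev M.toLM m f) e2
  replace hnb' : ∀ l m, m ∈ M.gr l → l ≠ -(R.lo + k + 1) → (show M.X →ₗ[K] K from nb') m = 0 :=
    hnb'
  revert e2 hnb'
  generalize (show M.X →ₗ[K] K from nb') = nb
  intro e2 hnb
  -- correction
  have hy1m : mr Y h.f.toLinearMap yb ∈ gA Y h k := h_gB hyb
  have hqy1 : mr Y q.f.toLinearMap (mr Y h.f.toLinearMap yb) = yb := Finsupp.ext fun σ => Z.q_h _
  generalize mr Y h.f.toLinearMap yb = y1 at hy1m hqy1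
  have hx1m : x - dA Y h y1 ∈ gA Y h (k - 1) := Submodule.sub_mem _ hx (dA_mem hy1m)
  have hqx1 : mr Y q.f.toLinearMap (x - dA Y h y1) = 0 := by
    rw [map_sub, q_dA Z, hqy1, e1, sub_self]
  have hjx' : mr Y Z.j (mr Y Z.pr (x - dA Y h y1)) = x - dA Y h y1 := by
    conv_rhs => rw [Z.dec_mr (x - dA Y h y1)]
    rw [hqx1, map_zero, zero_add]
  have hx'd : dM Y M (mr Y Z.pr (x - dA Y h y1)) = 0 := by
    rw [← p_dA Z, map_sub, hdx, dA_dA, sub_self, map_zero]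
  let n1 : A.C →ₗ[K] K := nb ∘ₗ Z.pr
  have hn1 : ∀ l z, z ∈ A.G l → l ≠ -(R.lo + k + 1) → n1 z = 0 := fun l a ha hl =>
    hnb l _ (Z.pr_mem ha) hl
  let n2 : A.C →ₗ[K] K := n - aF Z R.toRAug y1 - n1 ∘ₗ A.D
  have hn2a : ∀ a, n2 a = n a - aF Z R.toRAug y1 a - n1 (A.D a) := fun _ => rfl
  have hn2 : ∀ l z, z ∈ A.G l → l ≠ -(R.lo + k) → n2 z = 0 := by
    intro l z hz hl
    have h1 : aF Z R.toRAug y1 z = 0 := SqZ.alpha_mem (Z := Z) R.toRAug hy1m l z hz hl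
    rw [hn2a, hn l z hz hl, h1, hn1 (l - 1) _ (A.D_mem hz) (by omega)]
    ring
  have hn2j : ∀ m, n2 (Z.j m) = 0 := by
    intro m
    rw [hn2a, e2, aF_ev_j, hqy1, Z.j_d]
    change _ - _ - nb (Z.pr (Z.j (M.d m))) = 0
    rw [Z.pr_j]
    ring
  have hn2q : ∀ a, n2 a = n2 (h.f (q.f a)) := by
    intro a
    conv_lhs => rw [Z.dec a]
    rw [map_add, hn2j, add_zero]
  have two : ∀ (f : A.C →ₗ[K] K) (c : A.C), f c + f c = 0 := fun f c => by
    rw [← map_add, A.two, map_zero]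
  obtain ⟨y', hy', n4, hn4, e10, e11⟩ := hc (mr Y Z.pr (x - dA Y h y1)) (n2 ∘ₗ h.f.toLinearMap)
    (p_gA Z hx1m) hx'd (fun l b hb hl => hn2 l (h.f b) (h.mem hb) hl) (by
      intro b
      have e5 := aF_j Z R.toRAug (mr Y Z.pr (x - dA Y h y1)) (h.f b)
      rw [Z.q_h, hjx', map_sub, LinearMap.sub_apply, aF_d] at e5
      rw [← e5]
      change _ + n2 (h.f (B.D b)) = 0
      rw [h.D, hn2a, A.D_D, map_zero]
      have h1 := hxn (h.f b)
      have h2 := two (aF Z R.toRAug y1) (A.D (h.f b))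
      linear_combination h1 - h2)
  refine ⟨y1 + mr Y Z.j y', Submodule.add_mem _ hy1m (j_gM Z hy'), n1 + n4 ∘ₗ q.f.toLinearMap,
    ?_, ?_, ?_⟩
  · intro l z hz hl
    rw [LinearMap.add_apply, hn1 l z hz hl, zero_add]
    exact hn4 l _ (q.mem hz) hl
  · rw [map_add, ← j_dM Z, e10, hjx']
    abel
  · intro a
    have e12 : n2 a = pF M R.toRAug y' (q.f a) + n4 (B.D (q.f a)) := (hn2q a).trans (e11 (q.f a))
    rw [hn2a] at e12
    rw [map_add, LinearMap.add_apply, LinearMap.add_apply, aF_j]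
    change _ = _ + (_ + n4 (q.f (A.D a)))
    rw [q.D]
    linear_combination e12

/-- **`Y ⊗ Γ → D(Γ)` has acyclic cone** -/
theorem alpha_ce (Z : SqZ h q M) (R : RRes Y (DR M.toLM))
    (hc : ∀ k : ℤ, CE (tY Y M.toLM) (DR (selfL B)).toGC R.lo k (SqZ.phi M R.toRAug)) (k : ℤ) :
    CE (tY Y (resL h (selfL A))) (DR (selfL A)).toGC R.lo k (SqZ.alpha Z R.toRAug) := by
  intro x n hx hdx hn hxn
  obtain ⟨y, hy, n', hn', e1, e2⟩ := ce_plain Z R k (fun x n hx hdx hn hxn => by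
    obtain ⟨y, hy, n', hn', e1, e2⟩ := hc k x n hx hdx hn (DR_ext fun b => hxn b)
    exact ⟨y, hy, n', hn', e1, fun b => congrArg (fun f => dev (selfL B) b f) e2⟩) x n hx hdx hn
    (fun a => congrArg (fun f => dev (selfL A) a f) hxn)
  exact ⟨y, hy, n', hn', e1, DR_ext fun a => e2 a⟩

end plain

end sq

end Crest.Agent.R186.C1161
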