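import Crest.Agent.R186.TB3_143
import Crest.Agent.R186.Res_255

/-!
Row 186, half (A), leaf A.C1 (helper605): pairing calculus.

* `fiveR, fiveM, fiveL` : five lemma for quasi-isomorphisms on short exact sequences.
* `DK P` : the graded dual of a complex (functionals on the pieces, no junk), `DKmap`, `SES.dual`.
* `Pr X P` : pairings of complexes, `Pr.hom : GCHom X (DK P)`, five lemma for pairings.
-/

set_option autoImplicit false
set_option linter.unusedSectionVars false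

open MulOpposite

namespace Crest.Agent.R186.C1a605

open Hat827 Frame515 TB143 Res255

variable {K : Type} [Field K]

/-! ### five lemma -/

section five

variable {X Y W X' Y' W' : GC K}

/-- the sequence of cones -/
def coneSES (S : SES X Y W) (S' : SES X' Y' W') (f : GCHom X X') (g : GCHom Y Y') (h : GCHom W W')
    (hi : ∀ x : X.X, g.f (S.i.f x) = S'.i.f (f.f x))
    (hp : ∀ y : Y.X, h.f (S.p.f y) = S'.p.f (g.f y)) : SES (cone f) (cone g) (cone h) where
  i :=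
    { f := S.i.f.prodMap S'.i.f
      f_mem := by
        rintro k ⟨x, y⟩ hx
        exact ⟨S.i.f_mem hx.1, S'.i.f_mem hx.2⟩
      f_d := by
        rintro ⟨x, y⟩
        refine Prod.ext ?_ ?_
        · change S.i.f (-X.d x) = -Y.d (S.i.f x)
          rw [map_neg, S.i.f_d]
        change S'.i.f (f.f x + X'.d y) = g.f (S.i.f x) + Y'.d (S'.i.f y)
        rw [map_add, hi, S'.i.f_d] }
  p :=
    { f := S.p.f.prodMap S'.p.f
      f_mem := by
        rintro k ⟨x, y⟩ hx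
        exact ⟨S.p.f_mem hx.1, S'.p.f_mem hx.2⟩
      f_d := by
        rintro ⟨x, y⟩
        refine Prod.ext ?_ ?_
        · change S.p.f (-Y.d x) = -W.d (S.p.f x)
          rw [map_neg, S.p.f_d]
        change S'.p.f (g.f x + Y'.d y) = h.f (S.p.f x) + W'.d (S'.p.f y)
        rw [map_add, hp, S'.p.f_d] }
  zero := by
    rintro k ⟨x, y⟩ hx
    exact Prod.ext (S.zero hx.1) (S'.zero hx.2)
  inj := by
    rintro k ⟨x, y⟩ hx h0
    exact Prod.ext (S.inj hx.1 (congrArg Prod.fst h0)) (S'.inj hx.2 (congrArg Prod.snd h0))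
  ex := by
    rintro k ⟨x, y⟩ hx h0
    obtain ⟨u, hu, hu'⟩ := S.ex hx.1 (congrArg Prod.fst h0)
    obtain ⟨v, hv, hv'⟩ := S'.ex hx.2 (congrArg Prod.snd h0)
    exact ⟨(u, v), ⟨hu, hv⟩, Prod.ext hu' hv'⟩
  sur := by
    rintro k ⟨x, y⟩ hx
    obtain ⟨u, hu, hu'⟩ := S.sur hx.1
    obtain ⟨v, hv, hv'⟩ := S'.sur hx.2
    exact ⟨(u, v), ⟨hu, hv⟩, Prod.ext hu' hv'⟩

variable (S : SES X Y W) (S' : SES X' Y' W') (f : GCHom X X') (g : GCHom Y Y') (h : GCHom W W')
    (hi : ∀ x : X.X, g.f (S.i.f x) = S'.i.f (f.f x))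
    (hp : ∀ y : Y.X, h.f (S.p.f y) = S'.p.f (g.f y))

include S S' hi hp

/-- **five lemma** -/
theorem fiveR (qf : QI f) (qg : QI g) : QI h :=
  ac_cone.1 ((coneSES S S' f g h hi hp).ac_right (ac_cone.2 qg) (ac_cone.2 qf))

theorem fiveM (qf : QI f) (qh : QI h) : QI g :=
  ac_cone.1 ((coneSES S S' f g h hi hp).ac_mid (ac_cone.2 qf) (ac_cone.2 qh))

theorem fiveL (qg : QI g) (qh : QI h) : QI f :=
  ac_cone.1 ((coneSES S S' f g h hi hp).ac_left (ac_cone.2 qg) (ac_cone.2 qh))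

end five

/-! ### the graded dual -/

/-- the differential on pieces -/
def dr (P : GC K) (l : ℤ) : P.gr l →ₗ[K] P.gr (l - 1) := P.d.restrict fun _ h => P.d_mem h

@[simp] theorem dr_val (P : GC K) (l : ℤ) (x : P.gr l) : (dr P l x).1 = P.d x.1 := rfl

/-- **the graded dual** -/
def DK (P : GC K) : GC K where
  X := ∀ k : ℤ, (P.gr k →ₗ[K] K)
  gr k :=
    { carrier := {φ | ∀ l : ℤ, l ≠ -k → φ l = 0}
      add_mem' := fun {a b} ha hb l hl => by rw [Pi.add_apply, ha l hl, hb l hl, add_zero]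
      zero_mem' := fun l _ => rfl
      smul_mem' := fun c a ha l hl => by rw [Pi.smul_apply, ha l hl, smul_zero] }
  d :=
    { toFun := fun φ l => (φ (l - 1)) ∘ₗ (dr P l)
      map_add' := fun a b => by
        funext l
        exact LinearMap.add_comp _ _ _
      map_smul' := fun c a => by
        funext l
        exact LinearMap.smul_comp _ _ _ }
  d_mem := by
    intro k φ hφ l hl
    change (φ (l - 1)) ∘ₗ (dr P l) = 0
    rw [hφ (l - 1) (by omega), LinearMap.zero_comp]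
  d_d := by
    intro φ
    funext l
    ext x
    change φ (l - 1 - 1) (dr P (l - 1) (dr P l x)) = 0
    have : dr P (l - 1) (dr P l x) = 0 := Subtype.ext (P.d_d x.1)
    rw [this, map_zero]

theorem DK_mem {P : GC K} {k : ℤ} {φ : (DK P).X} :
    φ ∈ (DK P).gr k ↔ ∀ l : ℤ, l ≠ -k → (φ : ∀ k : ℤ, (P.gr k →ₗ[K] K)) l = 0 := Iff.rfl

/-- evaluation -/
def DK.ev {P : GC K} (φ : (DK P).X) {l : ℤ} (x : P.X) (h : x ∈ P.gr l) : K :=
  (φ : ∀ k : ℤ, (P.gr k →ₗ[K] K)) l ⟨x, h⟩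

theorem DK.ext' {P : GC K} {φ ψ : (DK P).X} (h : ∀ (l : ℤ) (x : P.X) (hx : x ∈ P.gr l),
    DK.ev φ x hx = DK.ev ψ x hx) : φ = ψ := by
  change (φ : ∀ k : ℤ, (P.gr k →ₗ[K] K)) = ψ
  funext l
  ext x
  exact h l x.1 x.2

theorem DK.ev_d {P : GC K} (φ : (DK P).X) {l : ℤ} {x : P.X} (h : x ∈ P.gr l) :
    DK.ev ((DK P).d φ) x h = DK.ev φ (P.d x) (P.d_mem h) := rfl

/-- a functional on one piece -/
def DK.one {P : GC K} (m : ℤ) (ψ : P.gr m →ₗ[K] K) : (DK P).X := fun l =>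
  if h : l = m then ψ ∘ₗ (LinearEquiv.ofEq (P.gr l) (P.gr m) (by rw [h])).toLinearMap else 0

theorem DK.one_ev {P : GC K} (m : ℤ) (ψ : P.gr m →ₗ[K] K) {x : P.X} (h : x ∈ P.gr m) :
    DK.ev (DK.one m ψ) x h = ψ ⟨x, h⟩ := by
  change (if h : m = m then ψ ∘ₗ (LinearEquiv.ofEq (P.gr m) (P.gr m) (by rw [h])).toLinearMap
    else 0 : P.gr m →ₗ[K] K) ⟨x, h⟩ = _
  rw [dif_pos rfl]
  rfl

theorem DK.one_ne {P : GC K} {m : ℤ} (ψ : P.gr m →ₗ[K] K) {l : ℤ} (hl : l ≠ m) :
    (DK.one m ψ : ∀ k : ℤ, (P.gr k →ₗ[K] K)) l = 0 := dif_neg hl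

/-- contravariance -/
def DKmap {P Q : GC K} (f : GCHom P Q) : GCHom (DK Q) (DK P) where
  f :=
    { toFun := fun φ l => (φ l) ∘ₗ (f.f.restrict fun _ h => f.f_mem h)
      map_add' := fun a b => by
        funext l
        exact LinearMap.add_comp _ _ _
      map_smul' := fun c a => by
        funext l
        exact LinearMap.smul_comp _ _ _ }
  f_mem := by
    intro k φ hφ l hl
    change (φ l) ∘ₗ _ = 0
    rw [hφ l hl, LinearMap.zero_comp]
  f_d := by
    intro φ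
    refine DK.ext' fun l x hx => ?_
    change φ (l - 1) _ = φ (l - 1) _
    congr 1
    exact Subtype.ext (f.f_d x).symm

theorem DKmap_ev {P Q : GC K} (f : GCHom P Q) (φ : (DK Q).X) {l : ℤ} {x : P.X} (h : x ∈ P.gr l) :
    DK.ev ((DKmap f).f φ) x h = DK.ev φ (f.f x) (f.f_mem h) := rfl

theorem DK.ev_congr {P : GC K} (φ : (DK P).X) {l : ℤ} {x y : P.X} (h : x ∈ P.gr l) (h' : y ∈ P.gr l)
    (e : x = y) : DK.ev φ x h = DK.ev φ y h' := by
  subst e
  rfl

/-- **the dual sequence** -/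
def dualSES {X Y W : GC K} (S : SES X Y W) : SES (DK W) (DK Y) (DK X) where
  i := DKmap S.p
  p := DKmap S.i
  zero := by
    intro k φ _
    refine DK.ext' fun l x hx => ?_
    change φ l ⟨S.p.f (S.i.f x), _⟩ = 0
    have : (⟨S.p.f (S.i.f x), S.p.f_mem (S.i.f_mem hx)⟩ : W.gr l) = 0 := Subtype.ext (S.zero hx)
    rw [this, map_zero]
  inj := by
    intro k φ _ h0
    refine DK.ext' fun l x hx => ?_
    obtain ⟨y, hy, rfl⟩ := S.sur hx
    have := congrArg (fun ψ : (DK Y).X => DK.ev ψ y hy) h0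
    exact this
  ex := by
    intro k φ hφ h0
    -- the functional descends
    have hk : ∀ y : Y.gr (-k), S.p.f y.1 = 0 → φ (-k) y = 0 := by
      intro y hy
      obtain ⟨x, hx, hxy⟩ := S.ex y.2 hy
      have h1 : DK.ev ((DKmap S.i).f φ) x hx = 0 := by rw [h0]; rfl
      have h2 : (⟨S.i.f x, S.i.f_mem hx⟩ : Y.gr (-k)) = y := Subtype.ext hxy
      rw [← h2]
      exact h1
    let p' : Y.gr (-k) →ₗ[K] W.gr (-k) := S.p.f.restrict fun _ h => S.p.f_mem h
    have hsur : Function.Surjective p' := by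
      rintro ⟨z, hz⟩
      obtain ⟨y, hy, hyz⟩ := S.sur hz
      exact ⟨⟨y, hy⟩, Subtype.ext hyz⟩
    obtain ⟨s, hs⟩ := p'.exists_rightInverse_of_surjective (LinearMap.range_eq_top.2 hsur)
    let ψ0 : W.gr (-k) →ₗ[K] K := (φ (-k)) ∘ₗ s
    have hψ0 : ∀ y : Y.gr (-k), ψ0 (p' y) = φ (-k) y := by
      intro y
      have h1 : S.p.f ((s (p' y)) - y).1 = 0 := by
        have := congrArg Subtype.val (LinearMap.congr_fun hs (p' y))
        change S.p.f ((s (p' y)).1) = S.p.f y.1 at this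
        rw [Submodule.coe_sub, map_sub, this, sub_self]
      have h2 := hk _ h1
      rw [map_sub, sub_eq_zero] at h2
      exact h2
    refine ⟨DK.one (-k) ψ0, fun l hl => DK.one_ne ψ0 hl, ?_⟩
    refine DK.ext' fun l y hy => ?_
    by_cases h : l = -k
    · subst h
      rw [DKmap_ev, DK.one_ev]
      exact hψ0 ⟨y, hy⟩
    · change (DK.one (-k) ψ0 : ∀ k : ℤ, (W.gr k →ₗ[K] K)) l _ = φ l _
      rw [DK.one_ne ψ0 h, hφ l h]
      rfl
  sur := by
    intro k φ hφ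
    let i' : X.gr (-k) →ₗ[K] Y.gr (-k) := S.i.f.restrict fun _ h => S.i.f_mem h
    have hinj : LinearMap.ker i' = ⊥ := by
      rw [LinearMap.ker_eq_bot']
      intro x hx
      exact Subtype.ext (S.inj x.2 (congrArg Subtype.val hx))
    obtain ⟨s, hs⟩ := i'.exists_leftInverse_of_injective hinj
    let ψ0 : Y.gr (-k) →ₗ[K] K := (φ (-k)) ∘ₗ s
    refine ⟨DK.one (-k) ψ0, fun l hl => DK.one_ne ψ0 hl, ?_⟩
    refine DK.ext' fun l x hx => ?_
    by_cases h : l = -k
    · subst h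
      rw [DKmap_ev, DK.one_ev]
      exact congrArg (φ (-k)) (LinearMap.congr_fun hs ⟨x, hx⟩)
    · change (DK.one (-k) ψ0 : ∀ k : ℤ, (Y.gr k →ₗ[K] K)) l _ = φ l _
      rw [DK.one_ne ψ0 h, hφ l h]
      rfl

/-! ### pairings -/

/-- a pairing of complexes -/
structure Pr (X P : GC K) where
  b : X.X →ₗ[K] P.X →ₗ[K] K
  off : ∀ {k l : ℤ} {x : X.X} {p : P.X}, x ∈ X.gr k → p ∈ P.gr l → l ≠ -k → b x p = 0
  adj : ∀ {l : ℤ} (x : X.X) {p : P.X}, p ∈ P.gr l → b (X.d x) p = b x (P.d p)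

/-- the associated map -/
def Pr.hom {X P : GC K} (B : Pr X P) : GCHom X (DK P) where
  f :=
    { toFun := fun x l => (B.b x) ∘ₗ (P.gr l).subtype
      map_add' := fun x y => by
        funext l
        rw [map_add]
        exact LinearMap.add_comp _ _ _
      map_smul' := fun c x => by
        funext l
        rw [map_smul]
        exact LinearMap.smul_comp _ _ _ }
  f_mem := by
    intro k x hx l hl
    ext p
    exact B.off hx p.2 hl
  f_d := by
    intro x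
    refine DK.ext' fun l p hp => ?_
    exact B.adj x hp

theorem Pr.hom_ev {X P : GC K} (B : Pr X P) (x : X.X) {l : ℤ} {p : P.X} (hp : p ∈ P.gr l) :
    DK.ev (B.hom.f x) p hp = B.b x p := rfl

section prfive

variable {X1 X2 X3 P1 P2 P3 : GC K} (S : SES X1 X2 X3) (T : SES P3 P2 P1)
  (B1 : Pr X1 P1) (B2 : Pr X2 P2) (B3 : Pr X3 P3)
  (h12 : ∀ {l : ℤ} (x : X1.X) {p : P2.X}, p ∈ P2.gr l → B2.b (S.i.f x) p = B1.b x (T.p.f p))
  (h23 : ∀ {l : ℤ} (y : X2.X) {p : P3.X}, p ∈ P3.gr l → B3.b (S.p.f y) p = B2.b y (T.i.f p))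

include S T h12 h23

theorem Pr.fiveR (q1 : QI B1.hom) (q2 : QI B2.hom) : QI B3.hom := by
  refine C1a605.fiveR S (dualSES T) B1.hom B2.hom B3.hom (fun x => ?_) (fun y => ?_) q1 q2
  · exact DK.ext' fun l p hp => h12 x hp
  · exact DK.ext' fun l p hp => h23 y hp

theorem Pr.fiveM (q1 : QI B1.hom) (q3 : QI B3.hom) : QI B2.hom := by
  refine C1a605.fiveM S (dualSES T) B1.hom B2.hom B3.hom (fun x => ?_) (fun y => ?_) q1 q3
  · exact DK.ext' fun l p hp => h12 x hp
  · exact DK.ext' fun l p hp => h23 y hp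

theorem Pr.fiveL (q2 : QI B2.hom) (q3 : QI B3.hom) : QI B1.hom := by
  refine C1a605.fiveL S (dualSES T) B1.hom B2.hom B3.hom (fun x => ?_) (fun y => ?_) q2 q3
  · exact DK.ext' fun l p hp => h12 x hp
  · exact DK.ext' fun l p hp => h23 y hp

end prfive

end Crest.Agent.R186.C1a605
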