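import Crest.Agent.R186.C1a_605
import Crest.Agent.R186.Core_890
import Crest.Agent.R186.AcIff_492
import Crest.Agent.R186.WL_221
import Crest.Agent.R186.GrP_44

/-!
Row 186, half (A), leaf A.C1 (helper605), part (beta), file 1: abstract tools.

* `shG lo X` : shift of a complex; `ce_of_qi`, `qi_of_ce` : 492's `CE` and quasi-isomorphisms.
* `qi_parts`, `qi_of_parts` : quasi-isomorphisms and finite direct sums.
* `prY` : the pairing of `Y ⊗ N` with `P` given by an augmentation `Y → D(M)` and `N × P → M`.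
-/

set_option autoImplicit false
set_option linter.unusedSectionVars false

noncomputable section

open MulOpposite

namespace Crest.Agent.R186.C1b605

open Hat827 Frame515 TB143 Res255 C1a605 FinV988

variable {K : Type} [Field K]

/-! ### shifts -/

/-- shift -/
@[reducible] def shG (lo : ℤ) (X : GC K) : GC K where
  X := X.X
  gr k := X.gr (k - lo)
  d := X.d
  d_mem {k x} h := by
    have := X.d_mem h
    rwa [show k - lo - 1 = k - 1 - lo by ring] at this
  d_d := X.d_d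

def shH (lo : ℤ) {X Y : GC K} (f : GCHom X Y) : GCHom (shG lo X) (shG lo Y) where
  f := f.f
  f_mem h := f.f_mem h
  f_d := f.f_d

theorem shH_qi (lo : ℤ) {X Y : GC K} {f : GCHom X Y} (h : QI f) : QI (shH lo f) where
  surj k y hy hd := by
    obtain ⟨x, hx, hxd, z, hz, e⟩ := h.surj (k - lo) y hy hd
    exact ⟨x, hx, hxd, z, gr_cast (X := Y) hz (by ring), e⟩
  inj k x hx hd hz := by
    obtain ⟨z, hz, e⟩ := hz
    obtain ⟨u, hu, e'⟩ := h.inj (k - lo) x hx hd ⟨z, gr_cast (X := Y) hz (by ring), e⟩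
    exact ⟨u, gr_cast (X := X) hu (by ring), e'⟩

def shSES (lo : ℤ) {X Y W : GC K} (S : SES X Y W) : SES (shG lo X) (shG lo Y) (shG lo W) where
  i := shH lo S.i
  p := shH lo S.p
  zero h := S.zero h
  inj h := S.inj h
  ex h := S.ex h
  sur h := S.sur h

theorem qi_of_ce {X Y : GC K} {lo : ℤ} {f : GCHom (shG lo X) Y}
    (h : ∀ k, AcIff492.CE X Y lo k f.f) : QI f where
  surj k y hy hd := by
    obtain ⟨x, hx, n', hn', e1, e2⟩ := h (k - lo) 0 y (Submodule.zero_mem _) (map_zero _)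
      (gr_cast hy (by ring)) (by rw [map_zero, zero_add]; exact hd)
    exact ⟨x, hx, e1, n', gr_cast hn' (by ring), e2⟩
  inj k x hx hd := by
    rintro ⟨z, hz, e⟩
    obtain ⟨y, hy, n', hn', e1, e2⟩ := h (k - lo + 1) x (-z) (gr_cast (X := X) hx (by ring)) hd
      (Submodule.neg_mem _ (gr_cast (X := Y) hz (by ring))) (by
        rw [map_neg]
        change f.f x + -Y.d z = 0
        rw [e, add_neg_cancel])
    exact ⟨y, gr_cast (X := X) hy (by ring), e1.symm⟩

theorem ce_of_qi {X Y : GC K} {lo : ℤ} {f : GCHom (shG lo X) Y} (two : ∀ x : X.X, x + x = 0)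
    (h : QI f) (k : ℤ) : AcIff492.CE X Y lo k f.f := by
  intro x n hx hd hn e
  obtain ⟨u, hu, eu⟩ := h.inj (lo + k - 1) x (gr_cast (X := X) hx (by ring)) hd
    ⟨-n, gr_cast (X := Y) (Submodule.neg_mem _ hn) (by ring), by
      rw [map_neg]
      exact eq_neg_of_add_eq_zero_left e⟩
  have hu' : u ∈ X.gr k := gr_cast (X := X) hu (by ring)
  have hfu : f.f u ∈ Y.gr (lo + k) := f.f_mem (k := lo + k) (gr_cast (X := X) hu' (by ring))
  obtain ⟨y, hy, hyd, z, hz, e2⟩ := h.surj (lo + k) (n + f.f u) (Submodule.add_mem _ hn hfu) (by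
    rw [map_add, ← f.f_d]
    change Y.d n + f.f (X.d u) = 0
    rw [← eu, add_comm]
    exact e)
  refine ⟨y - u, Submodule.sub_mem _ (gr_cast (X := X) hy (by ring)) hu', z, hz, ?_, ?_⟩
  · have h1 : X.d (y - u) = X.d y - X.d u := map_sub _ _ _
    have h2 : X.d y = 0 := hyd
    have h3 : x = X.d u := eu
    rw [h1, h2, zero_sub, ← h3]
    exact neg_eq_of_add_eq_zero_left (two x)
  · rw [map_sub, sub_add_eq_add_sub, ← e2, add_sub_cancel_right]

/-! ### finite direct sums -/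

section parts

variable {J : Type} {X D : GC K} {Xj Dj : J → GC K} (f : GCHom X D) (fj : ∀ j, GCHom (Xj j) (Dj j))
  (i : ∀ j, GCHom (Xj j) X) (r : ∀ j, GCHom X (Xj j)) (I : ∀ j, GCHom (Dj j) D)
  (R : ∀ j, GCHom D (Dj j))

theorem qi_parts (hI : ∀ j x, f.f ((i j).f x) = (I j).f ((fj j).f x))
    (hR : ∀ j x, (R j).f (f.f x) = (fj j).f ((r j).f x))
    (ri : ∀ j x, (r j).f ((i j).f x) = x) (RI : ∀ j y, (R j).f ((I j).f y) = y)
    (h : QI f) (j : J) : QI (fj j) where
  surj k y hy hd := by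
    obtain ⟨x, hx, hxd, z, hz, e⟩ := h.surj k ((I j).f y) ((I j).f_mem hy) (by
      rw [← (I j).f_d, hd, map_zero])
    refine ⟨(r j).f x, (r j).f_mem hx, by rw [← (r j).f_d, hxd, map_zero], (R j).f z,
      (R j).f_mem hz, ?_⟩
    rw [← RI j y, e, map_add, hR, (R j).f_d]
  inj k x hx hd := by
    rintro ⟨z, hz, e⟩
    obtain ⟨u, hu, e'⟩ := h.inj k ((i j).f x) ((i j).f_mem hx) (by
      rw [← (i j).f_d, hd, map_zero]) ⟨(I j).f z, (I j).f_mem hz, by rw [hI, e, (I j).f_d]⟩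
    exact ⟨(r j).f u, (r j).f_mem hu, by rw [← (r j).f_d, ← e', ri]⟩

theorem qi_of_parts [Fintype J] (hI : ∀ j x, f.f ((i j).f x) = (I j).f ((fj j).f x))
    (hR : ∀ j x, (R j).f (f.f x) = (fj j).f ((r j).f x))
    (ir : ∀ x, ∑ j, (i j).f ((r j).f x) = x) (IR : ∀ y, ∑ j, (I j).f ((R j).f y) = y)
    (h : ∀ j, QI (fj j)) : QI f where
  surj k y hy hd := by
    have h1 : ∀ j, ∃ x ∈ (Xj j).gr k, (Xj j).d x = 0 ∧ ∃ z ∈ (Dj j).gr (k + 1),
        (R j).f y = (fj j).f x + (Dj j).d z := fun j =>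
      (h j).surj k ((R j).f y) ((R j).f_mem hy) (by rw [← (R j).f_d, hd, map_zero])
    choose x hx hxd z hz e using h1
    refine ⟨∑ j, (i j).f (x j), Submodule.sum_mem _ fun j _ => (i j).f_mem (hx j), ?_,
      ∑ j, (I j).f (z j), Submodule.sum_mem _ fun j _ => (I j).f_mem (hz j), ?_⟩
    · rw [map_sum]
      refine Finset.sum_eq_zero fun j _ => ?_
      rw [← (i j).f_d, hxd, map_zero]
    · rw [← IR y, map_sum, map_sum, ← Finset.sum_add_distrib]
      refine Finset.sum_congr rfl fun j _ => ?_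
      rw [e, map_add, hI, (I j).f_d]
  inj k x hx hd := by
    rintro ⟨z, hz, e⟩
    have h1 : ∀ j, ∃ u ∈ (Xj j).gr (k + 1), (r j).f x = (Xj j).d u := fun j =>
      (h j).inj k ((r j).f x) ((r j).f_mem hx) (by rw [← (r j).f_d, hd, map_zero])
        ⟨(R j).f z, (R j).f_mem hz, by rw [← hR, e, (R j).f_d]⟩
    choose u hu eu using h1
    refine ⟨∑ j, (i j).f (u j), Submodule.sum_mem _ fun j _ => (i j).f_mem (hu j), ?_⟩
    rw [map_sum, ← ir x]
    refine Finset.sum_congr rfl fun j _ => ?_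
    rw [eu, (i j).f_d]

end parts

/-! ### functoriality of `DK` -/

theorem DKmap_comp {P Q S : GC K} (f : GCHom P Q) (g : GCHom Q S) (φ : (DK S).X) :
    (DKmap f).f ((DKmap g).f φ) = (DKmap (TB143.comp g f)).f φ := rfl

theorem DKmap_eq_self {P : GC K} (f : GCHom P P) (h : ∀ {l : ℤ} {x : P.X}, x ∈ P.gr l → f.f x = x)
    (φ : (DK P).X) : (DKmap f).f φ = φ := by
  refine DK.ext' fun l x hx => ?_
  rw [DKmap_ev]
  exact DK.ev_congr φ _ _ (h hx)

/-! ### `DR` against `DK` -/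

/-- restriction of functionals to the pieces -/
def rDK {A : DGA K} (Z : LM A) : GCHom (DR Z).toGC (DK Z.toGC) where
  f :=
    { toFun := fun φ l => (show Z.X →ₗ[K] K from φ) ∘ₗ (Z.gr l).subtype
      map_add' := fun a b => by
        funext l
        exact LinearMap.add_comp _ _ _
      map_smul' := fun c a => by
        funext l
        exact LinearMap.smul_comp _ _ _ }
  f_mem := by
    intro k φ hφ l hl
    have hφ' : ∀ l z, z ∈ Z.gr l → l ≠ -k → (show Z.X →ₗ[K] K from φ) z = 0 := hφ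
    refine LinearMap.ext fun z => ?_
    exact hφ' l z.1 z.2 hl
  f_d φ := rfl

theorem rDK_ev {A : DGA K} {Z : LM A} (φ : (DR Z).X) {l : ℤ} {x : Z.X} (h : x ∈ Z.gr l) :
    DK.ev ((rDK Z).f φ) x h = dev Z x φ := rfl

theorem rDK_qi {A : DGA K} {Z : LM A} (P : PrL Z) : QI (rDK Z) := by
  refine QI.of_bij ?_ ?_
  · intro k φ hφ h0
    refine DR_ext fun z => ?_
    have h1 : (show Z.X →ₗ[K] K from φ) z = 0 := by
      rw [← P.pr_sum z, map_sum]
      refine Finset.sum_eq_zero fun j _ => ?_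
      exact congrArg (fun ψ : (DK Z.toGC).X => DK.ev ψ (P.pr j z) (P.pr_mem j z)) h0
    exact h1
  · intro k ψ hψ
    refine ⟨(show Z.X →ₗ[K] K from (ψ (-k)) ∘ₗ ((P.pr (-k)).codRestrict _ (P.pr_mem (-k)))), ?_, ?_⟩
    · intro l z hz hl
      change ψ (-k) ⟨P.pr (-k) z, _⟩ = 0
      have : (⟨P.pr (-k) z, P.pr_mem (-k) z⟩ : Z.gr (-k)) = 0 :=
        Subtype.ext (P.pr_ne hz (Ne.symm hl))
      rw [this, map_zero]
    · refine DK.ext' fun l x hx => ?_
      change ψ (-k) ⟨P.pr (-k) x, _⟩ = ψ l ⟨x, hx⟩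
      by_cases hl : l = -k
      · subst hl
        congr 1
        exact Subtype.ext (P.pr_same hx)
      · rw [hψ l hl]
        have : (⟨P.pr (-k) x, P.pr_mem (-k) x⟩ : Z.gr (-k)) = 0 :=
          Subtype.ext (P.pr_ne hx (Ne.symm hl))
        rw [this, map_zero]
        rfl

/-! ### pairings from augmentations -/

section prY

variable {A : DGA K} {Y : RCells A} {M : LM A} (R : RAug Y (DR M)) (N : LM A) (P : GC K)
  (μ : N.X →ₗ[K] P.X →ₗ[K] M.X) (h1 : ∀ (a : A.C) (n : N.X) (p : P.X), μ (a • n) p = a • μ n p)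
  (h2 : ∀ (n : N.X) (p : P.X), M.d (μ n p) = μ (N.d n) p + μ n (P.d p))
  (h3 : ∀ {k l : ℤ} {n : N.X} {p : P.X}, n ∈ N.gr k → p ∈ P.gr l → μ n p ∈ M.gr (k + l))

/-- the functional `v σ` -/
def vF (σ : Y.ι) : M.X →ₗ[K] K := R.v σ

/-- the bilinear form -/
def prB : (Y.ι →₀ N.X) →ₗ[K] P.X →ₗ[K] K := Finsupp.lsum K fun σ => μ.compr₂ (vF R σ)

theorem prB_single (σ : Y.ι) (n : N.X) (p : P.X) :
    prB R N P μ (Finsupp.single σ n) p = vF R σ (μ n p) := by
  rw [prB, Finsupp.lsum_single]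
  rfl

theorem prB_apply (x : Y.ι →₀ N.X) (p : P.X) :
    prB R N P μ x p = x.sum fun σ n => vF R σ (μ n p) := by
  rw [prB, Finsupp.lsum_apply, Finsupp.sum, LinearMap.sum_apply]
  rfl

theorem vF_d (σ : Y.ι) (m : M.X) :
    vF R σ (M.d m) = ∑ τ ∈ Y.F (Y.s σ), vF R τ (Y.c τ σ • m) := by
  have h := congrArg (fun φ : (DR M).X => dev M m φ) (R.v_d σ)
  change vF R σ (M.d m) = dev M m (∑ τ ∈ Y.F (Y.s σ), op (Y.c τ σ) • R.v τ) at h
  rw [h, map_sum]
  rfl

include h1 h2 in
theorem prB_adj (x : Y.ι →₀ N.X) (p : P.X) :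
    prB R N P μ ((tY Y N).d x) p = prB R N P μ x (P.d p) := by
  have key : ∀ (σ : Y.ι) (n : N.X), prB R N P μ ((tY Y N).d (Finsupp.single σ n)) p =
      prB R N P μ (Finsupp.single σ n) (P.d p) := by
    intro σ n
    have e : (tY Y N).d (Finsupp.single σ n) = Finsupp.single σ (N.d n) +
        ∑ τ ∈ Y.F (Y.s σ), Finsupp.single τ (Y.c τ σ • n) := (twY Y N).dd_single σ n
    rw [e, map_add, map_sum, LinearMap.add_apply, LinearMap.sum_apply, prB_single, prB_single]
    simp only [prB_single, h1]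
    rw [← vF_d, ← map_add, h2, ← add_assoc, TB143.LM.two M, zero_add]
  induction x using Finsupp.induction_linear with
  | zero => simp
  | add x y hx hy =>
    rw [map_add, map_add, map_add, LinearMap.add_apply, LinearMap.add_apply, hx, hy]
  | single σ n => exact key σ n

/-- **the pairing of `Y ⊗ N` with `P`** -/
def prY : Pr (shG R.lo (tY Y N)) P where
  b := prB R N P μ
  off := by
    intro k l x p hx hp hl
    rw [prB_apply]
    refine Finset.sum_eq_zero fun σ _ => ?_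
    have hv : ∀ l z, z ∈ M.gr l → l ≠ -(R.lo + Y.s σ) → vF R σ z = 0 := R.v_mem σ
    have hxσ : x σ ∈ N.gr (k - R.lo - Y.s σ) := (hx σ).1
    exact hv _ _ (h3 hxσ hp) (by omega)
  adj := by
    intro l x p hp
    exact prB_adj R N P μ h1 h2 x p

theorem prY_single (σ : Y.ι) (n : N.X) (p : P.X) :
    (prY R N P μ h1 h2 h3).b (Finsupp.single σ n) p = vF R σ (μ n p) := prB_single R N P μ σ n p

end prY

/-! ### the resolution property -/

/-- the augmentation as a map of complexes -/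
def augH {A : DGA K} {Y : RCells A} {G : RM A} (R : RAug Y G)
    (hm : ∀ {k : ℤ} {x : Y.ι →₀ A.C}, x ∈ (tY Y (selfL A)).gr k → augR Y G R.v x ∈ G.gr (R.lo + k))
    (hd : ∀ x : Y.ι →₀ A.C, augR Y G R.v ((tY Y (selfL A)).d x) = G.d (augR Y G R.v x)) :
    GCHom (shG R.lo (tY Y (selfL A))) G.toGC where
  f := augR Y G R.v
  f_mem {k x} hx := gr_cast (X := G.toGC) (hm (k := k - R.lo) hx) (by ring)
  f_d := hd

end Crest.Agent.R186.C1b605
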