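import Crest.Agent.R186.C1b_328
import Crest.Agent.R186.C1Q_611
import Crest.Agent.R186.KOSZ_296
import Crest.Agent.R186.KosJ_374

/-!
Row 186 (A), leaf A.C1 (helper328): the Koszul data `Kz` of `tL` and `(beta)`, 611's literal `Beta`.
-/

set_option autoImplicit false
set_option linter.unusedSectionVars false
set_option linter.style.haveILetI false

noncomputable section

open MulOpposite

namespace Crest.Agent.R186.C1c328

open Hat827 Hat827.DGA Frame515 Res255 C1x134 FinV988 C1P611 C1b328 C1Q611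
open DefsQ830 PBW128 Der580 Win810 WL221 C2b44 C2b362 KOS296 Kos374 Core890 SM890 WBM163

variable {K : Type} [Field K] (π : Par K)

/-! ### Koszul in `R'` -/

theorem mem_pz {P A C : ℤ} {r : RL π} : r ∈ pcL π P A C ↔ r.1 ∈ pz π P A C := by
  rw [mem_pcL, pcZ_eq_pz]

/-- `x_c` in `R'` -/
def xL (c : Fin 2) : RL π := ⟨X π (.x c), kill_x π c⟩

theorem xL_val (c : Fin 2) : (xL π c : R π) = X π (.x c) := rfl

theorem xL_mem (c : Fin 2) : xL π c ∈ pcL π 1 0 0 := by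
  rw [mem_pcL]
  change X π (.x c) ∈ pcZ π 1 0 0
  rw [pcZ_of π ⟨le_rfl, le_rfl⟩]
  have := PBW128.X_mem_pc π (.x c)
  exact this

theorem xL_D (c : Fin 2) : DL π (xL π c) = 0 := by
  rw [DL_apply, xL_val]
  have : D π (X π (.x c)) = 0 := by
    rcases fin2 c with rfl | rfl <;> simp [D_X, dGen]
  rw [this, map_zero]

theorem xL_comm : xL π 1 * xL π 0 = xL π 0 * xL π 1 := Subtype.ext (rxx π).symm

variable {π}

theorem rinj (c : Fin 2) {a : RL π} (h : a * xL π c = 0) : a = 0 :=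
  Subtype.ext (xr_inj π c (congrArg Subtype.val h))

theorem linj (c : Fin 2) {a : RL π} (h : xL π c * a = 0) : a = 0 :=
  Subtype.ext (xl_inj π c (congrArg Subtype.val h))

theorem twoL (a : RL π) : a + a = 0 := (WL π).two a

theorem eq_of_add {a b : RL π} (h : a + b = 0) : a = b := by
  rw [← add_zero a, ← twoL b, ← add_assoc, h, zero_add]

theorem rker {P A C : ℤ} {a b : RL π} (ha : a ∈ pcL π P A C) (h : b * xL π 0 + a * xL π 1 = 0) :
    ∃ c ∈ pcL π (P - 1) A C, a = c * xL π 0 ∧ b = c * xL π 1 := by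
  obtain ⟨c, hc, hk, e1, e2⟩ := kr_ker π ((mem_pz π).1 ha) a.2
    (congrArg Subtype.val (eq_of_add h)).symm
  exact ⟨⟨c, hk⟩, (mem_pz π).2 hc, Subtype.ext e1, Subtype.ext e2⟩

theorem rsur {P A C : ℤ} (hP : 1 ≤ P) {r : RL π} (hr : r ∈ pcL π P A C) :
    ∃ a ∈ pcL π (P - 1) A C, ∃ b ∈ pcL π (P - 1) A C, r = a * xL π 0 + b * xL π 1 := by
  obtain ⟨a, ha, b, hb, hka, hkb, e⟩ := kr_sur π hP ((mem_pz π).1 hr) r.2
  exact ⟨⟨a, hka⟩, (mem_pz π).2 ha, ⟨b, hkb⟩, (mem_pz π).2 hb, Subtype.ext e⟩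

theorem lker {P A C : ℤ} {a b : RL π} (ha : a ∈ pcL π P A C) (h : xL π 1 * a + xL π 0 * b = 0) :
    ∃ c ∈ pcL π (P - 1) A C, a = xL π 0 * c ∧ b = xL π 1 * c := by
  obtain ⟨c, hc, e1, e2⟩ := xl_kerZ π ((mem_pz π).1 ha)
    (congrArg Subtype.val (eq_of_add h))
  refine ⟨prL π c, prL_mem ((pcZ_eq_pz π _ _ _).symm ▸ hc), Subtype.ext ?_, Subtype.ext ?_⟩
  · have := congrArg (kill π) e1
    rwa [map_mul, kill_x, kill_val] at this
  · have := congrArg (kill π) e2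
    rwa [map_mul, kill_x, kill_val] at this

theorem lsur {P A C : ℤ} (hP : 1 ≤ P) {r : RL π} (hr : r ∈ pcL π P A C) :
    ∃ a ∈ pcL π (P - 1) A C, ∃ b ∈ pcL π (P - 1) A C, r = xL π 0 * a + xL π 1 * b := by
  obtain ⟨a, ha, b, hb, e⟩ := xl_surZ π hP ((mem_pz π).1 hr)
  refine ⟨prL π a, prL_mem ((pcZ_eq_pz π _ _ _).symm ▸ ha), prL π b,
    prL_mem ((pcZ_eq_pz π _ _ _).symm ▸ hb), Subtype.ext ?_⟩
  have := congrArg (kill π) e
  rwa [map_add, map_mul, map_mul, kill_x, kill_x, kill_val] at this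

/-! ### matrices -/

/-- matrices -/
abbrev Mx (π : Par K) : Type := Ob → Ob → RL π

/-- the product -/
def mu (f g : Mx π) : Mx π := fun i j => ∑ l, f i l * g l j

/-- band matrices -/
def bd (p q : Fin 2) (y : RL π) : Mx π := fun i j => if i.1 = p ∧ j.1 = q ∧ i.2 = j.2 then y else 0

theorem mu_bd (f : Mx π) (p q : Fin 2) (y : RL π) (i j : Ob) :
    mu f (bd p q y) i j = if j.1 = q then f i (p, j.2) * y else 0 := by
  unfold mu
  rw [Finset.sum_eq_single (p, j.2)]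
  · unfold bd
    by_cases h : j.1 = q
    · rw [if_pos ⟨rfl, h, rfl⟩, if_pos h]
    · rw [if_neg (fun h' => h h'.2.1), if_neg h, mul_zero]
  · intro l _ hl
    unfold bd
    rw [if_neg, mul_zero]
    rintro ⟨h1, h2, h3⟩
    exact hl (Prod.ext h1 h3)
  · intro h
    exact absurd (Finset.mem_univ _) h

theorem bd_mu (f : Mx π) (p q : Fin 2) (y : RL π) (i j : Ob) :
    mu (bd p q y) f i j = if i.1 = p then y * f (q, i.2) j else 0 := by
  unfold mu
  rw [Finset.sum_eq_single (q, i.2)]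
  · unfold bd
    by_cases h : i.1 = p
    · rw [if_pos ⟨h, rfl, rfl⟩, if_pos h]
    · rw [if_neg (fun h' => h h'.1), if_neg h, zero_mul]
  · intro l _ hl
    unfold bd
    rw [if_neg, zero_mul]
    rintro ⟨h1, h2, h3⟩
    exact hl (Prod.ext h2 h3.symm)
  · intro h
    exact absurd (Finset.mem_univ _) h

/-- degrees in `L` -/
def gA (k : ℤ) (f : Mx π) : Prop :=
  ∀ i j : Ob, f i j ∈ pcL π ((i.1.val : ℤ) - j.1.val) ((i.2.val : ℤ) - j.2.val) k

/-- degrees in `tL` -/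
def gT (s : ℕ) (k : ℤ) (f : Mx π) : Prop :=
  ∀ i j : Ob, f i j ∈ pcL π ((i.1.val : ℤ) - j.1.val + 1) ((i.2.val : ℤ) - j.2.val) (k - s)

/-- columns -/
def col (q : Fin 2) (g : Ob → Fin 4 → RL π) : Mx π := fun i j => if j.1 = q then g i j.2 else 0

/-- rows -/
def row (p : Fin 2) (g : Fin 4 → Ob → RL π) : Mx π := fun i j => if i.1 = p then g i.2 j else 0

theorem col_fix (q : Fin 2) (g : Ob → Fin 4 → RL π) : mu (col q g) (bd q q 1) = col q g := by
  funext i j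
  rw [mu_bd]
  unfold col
  by_cases h : j.1 = q
  · rw [if_pos h, if_pos h, if_pos rfl, mul_one]
  · rw [if_neg h, if_neg h]

theorem row_fix (p : Fin 2) (g : Fin 4 → Ob → RL π) : mu (bd p p 1) (row p g) = row p g := by
  funext i j
  rw [bd_mu]
  unfold row
  by_cases h : i.1 = p
  · rw [if_pos h, if_pos h, if_pos rfl, one_mul]
  · rw [if_neg h, if_neg h]

theorem fix_col {q : Fin 2} {f : Mx π} (h : mu f (bd q q 1) = f) {i j : Ob} (hj : j.1 ≠ q) :
    f i j = 0 := by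
  rw [← h, mu_bd, if_neg hj]

theorem fix_row {p : Fin 2} {f : Mx π} (h : mu (bd p p 1) f = f) {i j : Ob} (hi : i.1 ≠ p) :
    f i j = 0 := by
  rw [← h, bd_mu, if_neg hi]

theorem ob_eq {j : Ob} {q : Fin 2} (h : j.1 = q) : (q, j.2) = j := Prod.ext h.symm rfl


/-! ### the Koszul statements for matrices -/

theorem v1 : ((1 : Fin 2).val : ℤ) = 1 := rfl
theorem v0 : ((0 : Fin 2).val : ℤ) = 0 := rfl

theorem ne01 {a : Fin 2} (h : a ≠ 0) : a = 1 := by
  rcases fin2 a with rfl | rfl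
  · exact absurd rfl h
  · rfl

theorem ne10 {a : Fin 2} (h : a ≠ 1) : a = 0 := by
  rcases fin2 a with rfl | rfl
  · rfl
  · exact absurd rfl h

theorem z10 : ¬ ((1 : Fin 2) = 0) := by decide
theorem z01 : ¬ ((0 : Fin 2) = 1) := by decide

theorem gcast {P P' A A' C C' : ℤ} {r : RL π} (h : r ∈ pcL π P A C) (hP : P = P') (hA : A = A')
    (hC : C = C') : r ∈ pcL π P' A' C' := by
  subst hP hA hC
  exact h

theorem gA_col {k : ℤ} {q : Fin 2} {g : Ob → Fin 4 → RL π}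
    (h : ∀ (i : Ob) (b : Fin 4), g i b ∈ pcL π ((i.1.val : ℤ) - q.val) ((i.2.val : ℤ) - b.val) k) :
    gA k (col q g) := by
  intro i j
  unfold col
  by_cases hj : j.1 = q
  · rw [if_pos hj, hj]
    exact h i j.2
  · rw [if_neg hj]
    exact Submodule.zero_mem _

theorem gA_row {k : ℤ} {p : Fin 2} {g : Fin 4 → Ob → RL π}
    (h : ∀ (b : Fin 4) (j : Ob), g b j ∈ pcL π ((p.val : ℤ) - j.1.val) ((b.val : ℤ) - j.2.val) k) :
    gA k (row p g) := by
  intro i j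
  unfold row
  by_cases hi : i.1 = p
  · rw [if_pos hi, hi]
    exact h i.2 j
  · rw [if_neg hi]
    exact Submodule.zero_mem _

theorem gT_row {s : ℕ} {k : ℤ} {p : Fin 2} {g : Fin 4 → Ob → RL π}
    (h : ∀ (b : Fin 4) (j : Ob),
      g b j ∈ pcL π ((p.val : ℤ) - j.1.val + 1) ((b.val : ℤ) - j.2.val) (k - s)) :
    gT s k (row p g) := by
  intro i j
  unfold row
  by_cases hi : i.1 = p
  · rw [if_pos hi, hi]
    exact h i.2 j
  · rw [if_neg hi]
    exact Submodule.zero_mem _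

theorem cI' {z : Mx π} (h1 : mu z (bd 1 1 1) = z) (h : mu z (bd 1 0 (xL π 1)) = 0) : z = 0 := by
  funext i j
  by_cases hj : j.1 = 1
  · have h2 := congrFun (congrFun h i) (0, j.2)
    rw [mu_bd, if_pos rfl, ob_eq hj] at h2
    exact rinj 1 h2
  · exact fix_col h1 hj

theorem cE' {k : ℤ} {u0 u1 : Mx π} (g1 : gA k u1)
    (h0 : mu u0 (bd 0 0 1) = u0) (h1 : mu u1 (bd 0 0 1) = u1)
    (h : mu u0 (bd 0 0 (xL π 0)) + mu u1 (bd 0 0 (xL π 1)) = 0) :
    ∃ z : Mx π, gA k z ∧ mu z (bd 1 1 1) = z ∧ u0 = mu z (bd 1 0 (xL π 1)) ∧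
      u1 = mu z (bd 1 0 (xL π 0)) := by
  have key : ∀ (i : Ob) (b : Fin 4), ∃ c ∈ pcL π ((i.1.val : ℤ) - (1 : Fin 2).val)
      ((i.2.val : ℤ) - b.val) k, u1 i (0, b) = c * xL π 0 ∧ u0 i (0, b) = c * xL π 1 := by
    intro i b
    have h2 := congrFun (congrFun h i) (0, b)
    change mu u0 (bd 0 0 (xL π 0)) i (0, b) + mu u1 (bd 0 0 (xL π 1)) i (0, b) = 0 at h2
    rw [mu_bd, mu_bd, if_pos rfl, if_pos rfl] at h2
    obtain ⟨c, hc, e1, e2⟩ := rker (g1 i (0, b)) h2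
    refine ⟨c, gcast hc ?_ rfl rfl, e1, e2⟩
    rw [v1]
    change (i.1.val : ℤ) - ((0 : Fin 2).val : ℤ) - 1 = _
    rw [v0]
    ring
  choose c hc e1 e2 using key
  refine ⟨col 1 c, gA_col hc, col_fix 1 c, ?_, ?_⟩
  · funext i j
    rw [mu_bd]
    by_cases hj : j.1 = 0
    · rw [if_pos hj]
      unfold col
      rw [if_pos rfl, ← e2, ob_eq hj]
    · rw [if_neg hj, fix_col h0 hj]
  · funext i j
    rw [mu_bd]
    by_cases hj : j.1 = 0
    · rw [if_pos hj]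
      unfold col
      rw [if_pos rfl, ← e1, ob_eq hj]
    · rw [if_neg hj, fix_col h1 hj]

theorem cS' {s : ℕ} {k : ℤ} {x : Mx π} (g : gT s (k + s) x) (h : mu x (bd 0 0 1) = x) :
    ∃ u0 u1 : Mx π, gA k u0 ∧ gA k u1 ∧ mu u0 (bd 0 0 1) = u0 ∧ mu u1 (bd 0 0 1) = u1 ∧
      x = mu u0 (bd 0 0 (xL π 0)) + mu u1 (bd 0 0 (xL π 1)) := by
  have key : ∀ (i : Ob) (b : Fin 4), ∃ a c : RL π,
      a ∈ pcL π ((i.1.val : ℤ) - (0 : Fin 2).val) ((i.2.val : ℤ) - b.val) k ∧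
      c ∈ pcL π ((i.1.val : ℤ) - (0 : Fin 2).val) ((i.2.val : ℤ) - b.val) k ∧
      x i (0, b) = a * xL π 0 + c * xL π 1 := by
    intro i b
    obtain ⟨a, ha, c, hc, e⟩ := rsur (P := (i.1.val : ℤ) - (0 : Fin 2).val + 1) (by
      rw [v0]
      omega) (g i (0, b))
    exact ⟨a, c, gcast ha (by ring) rfl (by ring), gcast hc (by ring) rfl (by ring), e⟩
  choose a c ha hc e using key
  refine ⟨col 0 a, col 0 c, gA_col ha, gA_col hc, col_fix 0 a, col_fix 0 c, ?_⟩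
  funext i j
  change x i j = mu (col 0 a) (bd 0 0 (xL π 0)) i j + mu (col 0 c) (bd 0 0 (xL π 1)) i j
  rw [mu_bd, mu_bd]
  by_cases hj : j.1 = 0
  · rw [if_pos hj, if_pos hj]
    unfold col
    rw [if_pos rfl, if_pos rfl, ← e, ob_eq hj]
  · rw [if_neg hj, if_neg hj, fix_col h hj, add_zero]

theorem rI' {r : Mx π} (h1 : mu (bd 0 0 1) r = r) (h : mu (bd 0 0 (xL π 0)) r = 0) : r = 0 := by
  funext i j
  by_cases hi : i.1 = 0
  · have h2 := congrFun (congrFun h i) j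
    rw [bd_mu, if_pos hi, ob_eq hi] at h2
    exact linj 0 h2
  · exact fix_row h1 hi

theorem rE' {s : ℕ} {m : ℤ} {w0 w1 : Mx π} (g0 : gT s m w0)
    (h0 : mu (bd 0 0 1) w0 = w0) (h1 : mu (bd 0 0 1) w1 = w1)
    (h : mu (bd 1 0 (xL π 1)) w0 + mu (bd 1 0 (xL π 0)) w1 = 0) :
    ∃ r : Mx π, gA (m - s) r ∧ mu (bd 0 0 1) r = r ∧ w0 = mu (bd 0 0 (xL π 0)) r ∧
      w1 = mu (bd 0 0 (xL π 1)) r := by
  have key : ∀ (b : Fin 4) (j : Ob), ∃ c ∈ pcL π (((0 : Fin 2).val : ℤ) - j.1.val)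
      ((b.val : ℤ) - j.2.val) (m - s), w0 (0, b) j = xL π 0 * c ∧ w1 (0, b) j = xL π 1 * c := by
    intro b j
    have h2 := congrFun (congrFun h (1, b)) j
    change mu (bd 1 0 (xL π 1)) w0 (1, b) j + mu (bd 1 0 (xL π 0)) w1 (1, b) j = 0 at h2
    rw [bd_mu, bd_mu, if_pos rfl, if_pos rfl] at h2
    obtain ⟨c, hc, e1, e2⟩ := lker (g0 (0, b) j) h2
    exact ⟨c, gcast hc (by ring) rfl rfl, e1, e2⟩
  choose c hc e1 e2 using key
  refine ⟨row 0 c, gA_row hc, row_fix 0 c, ?_, ?_⟩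
  · funext i j
    rw [bd_mu]
    by_cases hi : i.1 = 0
    · rw [if_pos hi]
      unfold row
      rw [if_pos rfl, ← e1, ob_eq hi]
    · rw [if_neg hi, fix_row h0 hi]
  · funext i j
    rw [bd_mu]
    by_cases hi : i.1 = 0
    · rw [if_pos hi]
      unfold row
      rw [if_pos rfl, ← e2, ob_eq hi]
    · rw [if_neg hi, fix_row h1 hi]

theorem rS' {s : ℕ} {m : ℤ} {w : Mx π} (g : gT s m w) (h : mu (bd 1 1 1) w = w) :
    ∃ w0 w1 : Mx π, gT s m w0 ∧ gT s m w1 ∧ mu (bd 0 0 1) w0 = w0 ∧ mu (bd 0 0 1) w1 = w1 ∧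
      w = mu (bd 1 0 (xL π 1)) w0 + mu (bd 1 0 (xL π 0)) w1 := by
  have key : ∀ (b : Fin 4) (j : Ob), ∃ a c : RL π,
      a ∈ pcL π (((0 : Fin 2).val : ℤ) - j.1.val + 1) ((b.val : ℤ) - j.2.val) (m - s) ∧
      c ∈ pcL π (((0 : Fin 2).val : ℤ) - j.1.val + 1) ((b.val : ℤ) - j.2.val) (m - s) ∧
      w (1, b) j = xL π 0 * a + xL π 1 * c := by
    intro b j
    have hj : j.1.val < 2 := j.1.isLt
    obtain ⟨a, ha, c, hc, e⟩ := lsur (P := ((1 : Fin 2).val : ℤ) - j.1.val + 1) (by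
      rw [v1]
      omega) (g (1, b) j)
    refine ⟨a, c, gcast ha ?_ rfl rfl, gcast hc ?_ rfl rfl, e⟩
    · rw [v1, v0]
      ring
    · rw [v1, v0]
      ring
  choose a c ha hc e using key
  refine ⟨row 0 c, row 0 a, gT_row hc, gT_row ha, row_fix 0 c, row_fix 0 a, ?_⟩
  funext i j
  change w i j = mu (bd 1 0 (xL π 1)) (row 0 c) i j + mu (bd 1 0 (xL π 0)) (row 0 a) i j
  rw [bd_mu, bd_mu]
  by_cases hi : i.1 = 1
  · rw [if_pos hi, if_pos hi]
    unfold row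
    rw [if_pos rfl, if_pos rfl, add_comm, ← e, ob_eq hi]
  · rw [if_neg hi, if_neg hi, fix_row h hi, add_zero]

theorem uX' {s : ℕ} {k : ℤ} {x : Mx π} (g : gT s (k + s) x) (h : mu x (bd 1 1 1) = x) :
    ∃ u : Mx π, gA k u ∧ mu u (bd 0 0 1) = u ∧ x = mu u (bd 0 1 1) := by
  refine ⟨col 0 fun i b => x i (1, b), gA_col fun i b => ?_, col_fix 0 _, ?_⟩
  · refine gcast (g i (1, b)) ?_ rfl (by ring)
    change (i.1.val : ℤ) - ((1 : Fin 2).val : ℤ) + 1 = _
    rw [v1, v0]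
    ring
  · funext i j
    rw [mu_bd]
    by_cases hj : j.1 = 1
    · rw [if_pos hj]
      unfold col
      rw [if_pos rfl, mul_one]
      exact congrArg (x i) (ob_eq hj).symm
    · rw [if_neg hj, fix_col h hj]

theorem uI' {u : Mx π} (h1 : mu u (bd 0 0 1) = u) (h : mu u (bd 0 1 1) = 0) : u = 0 := by
  funext i j
  by_cases hj : j.1 = 0
  · have h2 := congrFun (congrFun h i) (1, j.2)
    rw [mu_bd, if_pos rfl, ob_eq hj, mul_one] at h2
    exact h2
  · exact fix_col h1 hj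

theorem uW' {s : ℕ} {m : ℤ} {w : Mx π} (g : gT s m w) (h : mu (bd 0 0 1) w = w) :
    ∃ r : Mx π, gA (m - s) r ∧ mu (bd 1 1 1) r = r ∧ w = mu (bd 0 1 1) r := by
  refine ⟨row 1 fun b j => w (0, b) j, gA_row fun b j => ?_, row_fix 1 _, ?_⟩
  · refine gcast (g (0, b) j) ?_ rfl rfl
    change ((0 : Fin 2).val : ℤ) - (j.1.val : ℤ) + 1 = _
    rw [v1, v0]
    ring
  · funext i j
    rw [bd_mu]
    by_cases hi : i.1 = 0
    · rw [if_pos hi]
      unfold row
      rw [if_pos rfl, one_mul]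
      exact congrFun (congrArg w (ob_eq hi).symm) j
    · rw [if_neg hi, fix_row h hi]

theorem uJ' {r : Mx π} (h1 : mu (bd 1 1 1) r = r) (h : mu (bd 0 1 1) r = 0) : r = 0 := by
  funext i j
  by_cases hi : i.1 = 1
  · have h2 := congrFun (congrFun h (0, i.2)) j
    rw [bd_mu, if_pos rfl, one_mul] at h2
    change r (1, i.2) j = 0 at h2
    rwa [ob_eq hi] at h2
  · exact fix_row h1 hi

theorem bd_bd (p q r : Fin 2) (y z : RL π) : mu (bd p q y) (bd q r z) = bd p r (y * z) := by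
  funext i j
  rw [bd_mu]
  unfold bd
  by_cases h1 : i.1 = p
  · rw [if_pos h1]
    by_cases h2 : j.1 = r ∧ i.2 = j.2
    · rw [if_pos ⟨rfl, h2⟩, if_pos ⟨h1, h2⟩]
    · rw [if_neg (fun h => h2 h.2), if_neg (fun h => h2 h.2), mul_zero]
  · rw [if_neg h1, if_neg (fun h => h1 h.1)]

theorem gA_bd (p q : Fin 2) {y : RL π} {k : ℤ} (h : y ∈ pcL π ((p.val : ℤ) - q.val) 0 k) :
    gA k (bd p q y) := by
  intro i j
  unfold bd
  by_cases h1 : i.1 = p ∧ j.1 = q ∧ i.2 = j.2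
  · rw [if_pos h1, h1.1, h1.2.1, h1.2.2]
    exact gcast h rfl (by ring) rfl
  · rw [if_neg h1]
    exact Submodule.zero_mem _

theorem gT_bd (s : ℕ) (p q : Fin 2) {y : RL π} (h : y ∈ pcL π ((p.val : ℤ) - q.val + 1) 0 0) :
    gT s s (bd p q y) := by
  intro i j
  unfold bd
  by_cases h1 : i.1 = p ∧ j.1 = q ∧ i.2 = j.2
  · rw [if_pos h1, h1.1, h1.2.1, h1.2.2]
    exact gcast h rfl (by ring) (by ring)
  · rw [if_neg h1]
    exact Submodule.zero_mem _

theorem bd_add : bd 0 0 (1 : RL π) + bd 1 1 1 = fun i j => if i = j then 1 else 0 := by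
  funext i j
  change bd 0 0 (1 : RL π) i j + bd 1 1 1 i j = _
  unfold bd
  by_cases h : i = j
  · subst h
    rw [if_pos rfl]
    rcases fin2 i.1 with h1 | h1
    · rw [if_pos ⟨h1, h1, rfl⟩, if_neg (fun h => z01 (h1.symm.trans h.1)), add_zero]
    · rw [if_neg (fun h => z10 (h1.symm.trans h.1)), if_pos ⟨h1, h1, rfl⟩, zero_add]
  · rw [if_neg h, if_neg, if_neg, add_zero]
    · rintro ⟨h1, h2, h3⟩
      exact h (Prod.ext (h1.trans h2.symm) h3)
    · rintro ⟨h1, h2, h3⟩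
      exact h (Prod.ext (h1.trans h2.symm) h3)


/-! ### the instance -/

section inst

variable (s : ℕ)

/-- entries of elements of `L` -/
def cA (z : (WL π).dga.C) : Mx π := fun i j => (show (WL π).Win from z).1 i j

/-- entries of elements of `tL` -/
def cT {s : ℕ} (z : (tLW π s).X) : Mx π := fun i j => (show Xs (tLT π s) from z).1 i j

theorem cA_ext {a b : (WL π).dga.C} (h : cA a = cA b) : a = b :=
  Subtype.ext (Matrix.ext fun i j => congrFun (congrFun h i) j)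

theorem cT_ext {a b : (tLW π s).X} (h : cT a = cT b) : a = b :=
  Subtype.ext (funext fun i => funext fun j => congrFun (congrFun h i) j)

theorem cA_mul (a b : (WL π).dga.C) : cA (a * b) = mu (cA a) (cA b) := by
  funext i j
  exact Matrix.mul_apply

theorem cT_smul (a : (WL π).dga.C) (z : (tLW π s).X) : cT (a • z) = mu (cA a) (cT z) := rfl

theorem cT_op (a : (WL π).dga.C) (z : (tLW π s).X) : cT (op a • z) = mu (cT z) (cA a) := rfl

theorem cA_add (a b : (WL π).dga.C) : cA (a + b) = cA a + cA b := rfl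
theorem cT_add (a b : (tLW π s).X) : cT (a + b) = cT a + cT b := rfl
theorem cA_zero : cA (0 : (WL π).dga.C) = 0 := rfl
theorem cT_zero : cT (0 : (tLW π s).X) = 0 := rfl

theorem cA_one : cA (1 : (WL π).dga.C) = fun i j => if i = j then 1 else 0 := by
  funext i j
  exact Matrix.one_apply

/-- elements of `L` from entries -/
def mA {k : ℤ} (f : Mx π) (h : gA k f) : (WL π).dga.C :=
  (⟨Matrix.of f, fun i j => WD.q_le (w := WL π) i j k (h i j)⟩ : (WL π).Win)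

theorem cA_mA {k : ℤ} (f : Mx π) (h : gA k f) : cA (mA f h) = f := rfl

theorem mA_mem {k : ℤ} (f : Mx π) (h : gA k f) : mA f h ∈ (WL π).dga.G k := h

theorem gA_of {k : ℤ} {z : (WL π).dga.C} (h : z ∈ (WL π).dga.G k) : gA k (cA z) := h

/-- elements of `tL` from entries -/
def mT {k : ℤ} (f : Mx π) (h : gT s k f) : (tLW π s).X :=
  (⟨f, fun i j => q_le_E (tLT π s) i j k ((le_of_eq (q_tLT π s i j k).symm) (h i j))⟩ :
    Xs (tLT π s))

theorem cT_mT {k : ℤ} (f : Mx π) (h : gT s k f) : cT (mT s f h) = f := rfl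

theorem mT_mem {k : ℤ} (f : Mx π) (h : gT s k f) : mT s f h ∈ (tLW π s).gr k := mem_grtL.2 h

theorem gT_of {k : ℤ} {z : (tLW π s).X} (h : z ∈ (tLW π s).gr k) : gT s k (cT z) :=
  mem_grtL.1 h

theorem d_mT {k : ℤ} (p q : Fin 2) {y : RL π} (h : gT s k (bd p q y)) (hy : DL π y = 0) :
    (tLW π s).d (mT s (bd p q y) h) = 0 := by
  refine cT_ext s ?_
  funext i j
  change DL π (bd p q y i j) = 0
  unfold bd
  by_cases h1 : i.1 = p ∧ j.1 = q ∧ i.2 = j.2
  · rw [if_pos h1, hy]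
  · rw [if_neg h1, map_zero]

theorem DL_one : DL π (1 : RL π) = 0 := by
  have h := DL_mul (1 : RL π) 1
  rw [mul_one, mul_one, one_mul] at h
  have h2 : DL π (1 : RL π) + DL π 1 = DL π 1 + 0 := by rw [add_zero]; exact h.symm
  exact add_left_cancel h2

theorem one0 : gA 0 (bd 0 0 (1 : RL π)) := gA_bd 0 0 (gcast pcL_one (by ring) rfl rfl)
theorem one1 : gA 0 (bd 1 1 (1 : RL π)) := gA_bd 1 1 (gcast pcL_one (by ring) rfl rfl)
theorem x10 (c : Fin 2) : gA 0 (bd 1 0 (xL π c)) := gA_bd 1 0 (gcast (xL_mem π c) (by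
  rw [v1, v0]
  ring) rfl rfl)
theorem t00 (c : Fin 2) : gT s s (bd 0 0 (xL π c)) := gT_bd s 0 0 (gcast (xL_mem π c) (by
  ring) rfl rfl)
theorem u01 : gT s s (bd 0 1 (1 : RL π)) := gT_bd s 0 1 (gcast pcL_one (by
  rw [v1, v0]
  ring) rfl rfl)

variable (π)

/-- **the Koszul data of `tL`** -/
def kz : Kz (WL π).dga (tLW π s) where
  s := s
  E0 := mA _ one0
  E1 := mA _ one1
  E0_mem := mA_mem _ one0
  E1_mem := mA_mem _ one1
  E00 := cA_ext (by rw [cA_mul, cA_mA, bd_bd, mul_one])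
  E11 := cA_ext (by rw [cA_mul, cA_mA, bd_bd, mul_one])
  E_add := cA_ext (by rw [cA_add, cA_mA, cA_mA, bd_add, cA_one])
  X0 := mA _ (x10 0)
  X1 := mA _ (x10 1)
  X0_mem := mA_mem _ (x10 0)
  X1_mem := mA_mem _ (x10 1)
  E1X0 := cA_ext (by rw [cA_mul, cA_mA, cA_mA, bd_bd, one_mul])
  E1X1 := cA_ext (by rw [cA_mul, cA_mA, cA_mA, bd_bd, one_mul])
  X0E0 := cA_ext (by rw [cA_mul, cA_mA, cA_mA, bd_bd, mul_one])
  X1E0 := cA_ext (by rw [cA_mul, cA_mA, cA_mA, bd_bd, mul_one])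
  T0 := mT s _ (t00 s 0)
  T1 := mT s _ (t00 s 1)
  T0_mem := mT_mem s _ (t00 s 0)
  T1_mem := mT_mem s _ (t00 s 1)
  dT0 := d_mT s 0 0 _ (xL_D π 0)
  dT1 := d_mT s 0 0 _ (xL_D π 1)
  E0T0 := cT_ext s (by rw [cT_smul, cA_mA, cT_mT, bd_bd, one_mul])
  E0T1 := cT_ext s (by rw [cT_smul, cA_mA, cT_mT, bd_bd, one_mul])
  T0E0 := cT_ext s (by rw [cT_op, cA_mA, cT_mT, bd_bd, mul_one])
  T1E0 := cT_ext s (by rw [cT_op, cA_mA, cT_mT, bd_bd, mul_one])
  U := mT s _ (u01 s)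
  U_mem := mT_mem s _ (u01 s)
  dU := d_mT s 0 1 _ DL_one
  E0U := cT_ext s (by rw [cT_smul, cA_mA, cT_mT, bd_bd, one_mul])
  UE1 := cT_ext s (by rw [cT_op, cA_mA, cT_mT, bd_bd, mul_one])
  comm := cT_ext s (by
    rw [cT_add, cT_smul, cT_smul, cA_mA, cA_mA, cT_mT, cT_mT, bd_bd, bd_bd, xL_comm, cT_zero]
    funext i j
    exact twoL _)
  cI {k z} hz h1 h := cA_ext (cI' (by
    have := congrArg cA h1
    rwa [cA_mul, cA_mA] at this) (by
    have := congrArg cA h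
    rwa [cA_mul, cA_mA] at this))
  cE {k u0 u1} g0 g1 h0 h1 h := by
    obtain ⟨z, hz, e1, e2, e3⟩ := cE' (gA_of g1)
      (show mu (cA u0) (bd 0 0 1) = cA u0 by
        have := congrArg cA h0
        rwa [cA_mul, cA_mA] at this)
      (show mu (cA u1) (bd 0 0 1) = cA u1 by
        have := congrArg cA h1
        rwa [cA_mul, cA_mA] at this)
      (by
        have := congrArg cT h
        rwa [cT_add, cT_smul, cT_smul, cT_mT, cT_mT, cT_zero] at this)
    refine ⟨mA z hz, mA_mem z hz, cA_ext ?_, cA_ext ?_, cA_ext ?_⟩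
    · rw [cA_mul, cA_mA, cA_mA, e1]
    · rw [cA_mul, cA_mA, cA_mA, e2]
    · rw [cA_mul, cA_mA, cA_mA, e3]
  cS {k x} g h := by
    obtain ⟨u0, u1, g0, g1, e0, e1, e⟩ := cS' (s := s) (k := k) (gT_of s g)
      (show mu (cT x) (bd 0 0 1) = cT x by
        have := congrArg cT h
        rwa [cT_op, cA_mA] at this)
    refine ⟨mA u0 g0, mA_mem u0 g0, mA u1 g1, mA_mem u1 g1, cA_ext ?_, cA_ext ?_, cT_ext s ?_⟩
    · rw [cA_mul, cA_mA, cA_mA, e0]
    · rw [cA_mul, cA_mA, cA_mA, e1]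
    · rw [cT_add, cT_smul, cT_smul, cA_mA, cA_mA, cT_mT, cT_mT, e]
  rI {k r} g h1 h := cA_ext (rI' (by
    have := congrArg cA h1
    rwa [cA_mul, cA_mA] at this) (by
    have := congrArg cT h
    rwa [cT_op, cT_mT, cT_zero] at this))
  rE {m w0 w1} g0 g1 h0 h1 h := by
    obtain ⟨r, hr, e1, e2, e3⟩ := rE' (gT_of s g0)
      (show mu (bd 0 0 1) (cT w0) = cT w0 by
        have := congrArg cT h0
        rwa [cT_smul, cA_mA] at this)
      (show mu (bd 0 0 1) (cT w1) = cT w1 by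
        have := congrArg cT h1
        rwa [cT_smul, cA_mA] at this)
      (by
        have := congrArg cT h
        rwa [cT_add, cT_smul, cT_smul, cA_mA, cA_mA, cT_zero] at this)
    refine ⟨mA r hr, mA_mem r hr, cA_ext ?_, cT_ext s ?_, cT_ext s ?_⟩
    · rw [cA_mul, cA_mA, cA_mA, e1]
    · rw [cT_op, cT_mT, cA_mA, e2]
    · rw [cT_op, cT_mT, cA_mA, e3]
  rS {m w} g h := by
    obtain ⟨w0, w1, g0, g1, e0, e1, e⟩ := rS' (gT_of s g)
      (show mu (bd 1 1 1) (cT w) = cT w by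
        have := congrArg cT h
        rwa [cT_smul, cA_mA] at this)
    refine ⟨mT s w0 g0, mT_mem s w0 g0, mT s w1 g1, mT_mem s w1 g1, cT_ext s ?_, cT_ext s ?_,
      cT_ext s ?_⟩
    · rw [cT_smul, cA_mA, cT_mT, e0]
    · rw [cT_smul, cA_mA, cT_mT, e1]
    · rw [cT_add, cT_smul, cT_smul, cA_mA, cA_mA, cT_mT, cT_mT, e]
  uX {k x} g h := by
    obtain ⟨u, gu, e1, e2⟩ := uX' (s := s) (k := k) (gT_of s g)
      (show mu (cT x) (bd 1 1 1) = cT x by
        have := congrArg cT h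
        rwa [cT_op, cA_mA] at this)
    refine ⟨mA u gu, mA_mem u gu, cA_ext ?_, cT_ext s ?_⟩
    · rw [cA_mul, cA_mA, cA_mA, e1]
    · rw [cT_smul, cA_mA, cT_mT, e2]
  uI {k u} g h1 h := cA_ext (uI' (by
    have := congrArg cA h1
    rwa [cA_mul, cA_mA] at this) (by
    have := congrArg cT h
    rwa [cT_smul, cT_mT, cT_zero] at this))
  uW {m w} g h := by
    obtain ⟨r, gr, e1, e2⟩ := uW' (gT_of s g)
      (show mu (bd 0 0 1) (cT w) = cT w by
        have := congrArg cT h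
        rwa [cT_smul, cA_mA] at this)
    refine ⟨mA r gr, mA_mem r gr, cA_ext ?_, cT_ext s ?_⟩
    · rw [cA_mul, cA_mA, cA_mA, e1]
    · rw [cT_op, cT_mT, cA_mA, e2]
  uJ {k r} g h1 h := cA_ext (uJ' (by
    have := congrArg cA h1
    rwa [cA_mul, cA_mA] at this) (by
    have := congrArg cT h
    rwa [cT_op, cT_mT, cT_zero] at this))

end inst

/-! ### `(beta)` -/

section fin

variable (π) (s : ℕ) {Y : RCells (WL π).dga} (R : RRes Y (DtL π s))

/-- the functionals -/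
def fn : Fn Y (tLW π s) where
  lo := R.lo
  v σ := vf (tLW π s) R.toRAug σ
  v_d σ x := by
    have h := congrArg (dev (tLW π s).toLM x) (R.v_d σ)
    rw [dev_d, map_sum] at h
    exact h

end fin

end Crest.Agent.R186.C1c328
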