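import Crest.Agent.R186.TLW_890
import Crest.Agent.R186.C1b_328
import Crest.Agent.R186.KosJ_374

/-!
Row 186 (A), leaf A.C1 (helper580): the instance `Kz (WL π).dga (tLW π s)` of helper328's Koszul
data (right Koszul columns and left Koszul rows of `x_0, x_1` over the window of `R'`).
-/

set_option autoImplicit false
set_option linter.style.haveILetI false
set_option linter.unusedSectionVars false

noncomputable section

open MulOpposite

namespace Crest.Agent.R186.C1c580

open Hat827 Win810 Win810.WD Frame515 WBM163 FinV988 Core890 SExt44 DefsQ830 WL221 GrP44 C2b44 SM890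
open C1b328

variable {K : Type} [Field K] {π : Par K}

/-! ### entries -/

/-- `x_c` in `R'` -/
def xL (π : Par K) (c : Fin 2) : RL π := ⟨X π (.x c), kill_x π c⟩

theorem xL_mem (c : Fin 2) : xL π c ∈ pcL π 1 0 0 := by
  show X π (.x c) ∈ pcZ π 1 0 0
  have := PBW128.X_mem_pc π (.x c)
  rw [← pcZ_nat] at this
  exact this

theorem pcL_two (a : RL π) : a + a = 0 := Subtype.ext (Der580.add_self π a.1)

theorem neg_eq' (a : R π) : -a = a := by
  rw [neg_eq_iff_add_eq_zero]
  exact Der580.add_self π a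

theorem rinj (c : Fin 2) {a : RL π} (h : a * xL π c = 0) : a = 0 :=
  Subtype.ext (KOS296.xr_inj π c (congrArg Subtype.val h))

theorem rker {P A C : ℤ} {a b : RL π} (hb : b ∈ pcL π P A C) (h : a * xL π 0 + b * xL π 1 = 0) :
    ∃ z ∈ pcL π (P - 1) A C, a = z * xL π 1 ∧ b = z * xL π 0 := by
  have hb' : b.1 ∈ C2b362.pz π P A C := by
    rw [← KOS296.pcZ_eq_pz]
    exact hb
  obtain ⟨e, he, e1, e2⟩ := KOS296.xr_kerZ' π hb' (congrArg Subtype.val h)
  have hk : kill π e = e := by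
    have h3 := congrArg (kill π) e2
    rw [map_mul, kill_x, kill_val] at h3
    have h4 : (kill π e - e) * X π (.x 0) = 0 := by rw [sub_mul, ← h3, ← e2, sub_self]
    exact sub_eq_zero.1 (KOS296.xr_inj π 0 h4)
  refine ⟨⟨e, hk⟩, ?_, Subtype.ext ?_, Subtype.ext e2⟩
  · rw [← KOS296.pcZ_eq_pz] at he
    exact he
  · rw [neg_eq'] at e1
    exact e1

theorem rsur {P A C : ℤ} (hP : 1 ≤ P) {x : RL π} (hx : x ∈ pcL π P A C) :
    ∃ a ∈ pcL π (P - 1) A C, ∃ b ∈ pcL π (P - 1) A C, x = a * xL π 0 + b * xL π 1 := by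
  have hx' : x.1 ∈ C2b362.pz π P A C := by
    rw [← KOS296.pcZ_eq_pz]
    exact hx
  obtain ⟨a, ha, b, hb, ka, kb, h⟩ := KOS296.kr_sur π hP hx' x.2
  rw [← KOS296.pcZ_eq_pz] at ha hb
  exact ⟨⟨a, ka⟩, ha, ⟨b, kb⟩, hb, Subtype.ext h⟩

theorem linj (c : Fin 2) {r : RL π} (h : xL π c * r = 0) : r = 0 := by
  have h1 : X π (.x c) * r.1 ∈ C2b362.J π := by
    have : X π (.x c) * r.1 = 0 := congrArg Subtype.val h
    rw [this]
    rw [KOS296.mem_J_iff_kill, map_zero]
  have h2 := Kos374.jl_inj π c h1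
  rw [KOS296.mem_J_iff_kill, kill_val] at h2
  exact Subtype.ext h2

theorem lker {P A C : ℤ} {a b : RL π} (ha : a ∈ pcL π P A C) (h : xL π 1 * a + xL π 0 * b = 0) :
    ∃ r ∈ pcL π (P - 1) A C, a = xL π 0 * r ∧ b = xL π 1 * r := by
  have ha' : a.1 ∈ C2b362.pz π P A C := by
    rw [← KOS296.pcZ_eq_pz]
    exact ha
  have h' : X π (.x 1) * a.1 = X π (.x 0) * b.1 := by
    have h1 : X π (.x 1) * a.1 + X π (.x 0) * b.1 = 0 := congrArg Subtype.val h
    rw [← neg_eq' (X π (.x 0) * b.1)]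
    exact eq_neg_of_add_eq_zero_left h1
  obtain ⟨c, hc, e1, e2⟩ := Kos374.xl_kerZ π ha' h'
  refine ⟨prL π c, ?_, Subtype.ext ?_, Subtype.ext ?_⟩
  · rw [← KOS296.pcZ_eq_pz] at hc
    exact prL_mem hc
  · have := congrArg (kill π) e1
    rw [map_mul, kill_x, kill_val] at this
    exact this
  · have := congrArg (kill π) e2
    rw [map_mul, kill_x, kill_val] at this
    exact this

theorem lsur {P A C : ℤ} (hP : 1 ≤ P) {x : RL π} (hx : x ∈ pcL π P A C) :
    ∃ a ∈ pcL π (P - 1) A C, ∃ b ∈ pcL π (P - 1) A C, x = xL π 1 * a + xL π 0 * b := by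
  have hx' : x.1 ∈ C2b362.pz π P A C := by
    rw [← KOS296.pcZ_eq_pz]
    exact hx
  obtain ⟨a, ha, b, hb, h⟩ := Kos374.xl_surZ π hP hx'
  rw [← KOS296.pcZ_eq_pz] at ha hb
  refine ⟨prL π b, prL_mem hb, prL π a, prL_mem ha, Subtype.ext ?_⟩
  have := congrArg (kill π) h
  rw [map_add, map_mul, map_mul, kill_x, kill_x, kill_val] at this
  rw [this, add_comm]
  rfl

/-! ### block matrices -/

/-- the matrix with entry `c` at `((p, b), (q, b))` -/
def F (p q : Fin 2) (c : RL π) (i j : DefsQ830.Ob) : RL π :=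
  if i.1 = p ∧ j.1 = q ∧ i.2 = j.2 then c else 0

theorem sum_r (z : DefsQ830.Ob → RL π) (p q : Fin 2) (c : RL π) (j : DefsQ830.Ob) :
    ∑ l, z l * F p q c l j = if j.1 = q then z (p, j.2) * c else 0 := by
  rw [Finset.sum_eq_single (p, j.2)]
  · unfold F
    by_cases h : j.1 = q
    · rw [if_pos ⟨rfl, h, rfl⟩, if_pos h]
    · rw [if_neg (fun h' => h h'.2.1), if_neg h, mul_zero]
  · intro l _ hl
    unfold F
    rw [if_neg, mul_zero]
    rintro ⟨h1, _, h2⟩
    exact hl (Prod.ext h1 h2)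
  · intro h
    exact absurd (Finset.mem_univ _) h

theorem sum_l (z : DefsQ830.Ob → RL π) (p q : Fin 2) (c : RL π) (i : DefsQ830.Ob) :
    ∑ l, F p q c i l * z l = if i.1 = p then c * z (q, i.2) else 0 := by
  rw [Finset.sum_eq_single (q, i.2)]
  · unfold F
    by_cases h : i.1 = p
    · rw [if_pos ⟨h, rfl, rfl⟩, if_pos h]
    · rw [if_neg (fun h' => h h'.1), if_neg h, zero_mul]
  · intro l _ hl
    unfold F
    rw [if_neg, zero_mul]
    rintro ⟨_, h1, h2⟩
    exact hl (Prod.ext h1 h2.symm)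
  · intro h
    exact absurd (Finset.mem_univ _) h

theorem pc_cast {P A C P' A' C' : ℤ} {x : RL π} (h : x ∈ pcL π P A C) (h1 : P = P') (h2 : A = A')
    (h3 : C = C') : x ∈ pcL π P' A' C' := by
  subst h1 h2 h3
  exact h

/-- position in the window -/
theorem hP (i : DefsQ830.Ob) : (WL π).P i = (i.1.val : ℤ) := rfl
theorem hA (i : DefsQ830.Ob) : (WL π).A i = (i.2.val : ℤ) := rfl

/-- pieces of `R'` on the window -/
abbrev Q (π : Par K) (k : ℤ) (i j : DefsQ830.Ob) : Submodule K (RL π) :=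
  pcL π ((i.1.val : ℤ) - j.1.val) ((i.2.val : ℤ) - j.2.val) k

/-- pieces of `tL` on the window -/
abbrev QT (π : Par K) (k : ℤ) (i j : DefsQ830.Ob) : Submodule K (RL π) :=
  pcL π ((i.1.val : ℤ) - j.1.val + 1) ((i.2.val : ℤ) - j.2.val) k

/-- a homogeneous element of the window algebra -/
def mA (π : Par K) (k : ℤ) (f : DefsQ830.Ob → DefsQ830.Ob → RL π)
    (h : ∀ i j, f i j ∈ Q π k i j) :
    (WL π).dga.C :=
  (⟨Matrix.of f, fun i j => q_le (w := WL π) i j k (h i j)⟩ : (WL π).Win)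

theorem mA_mem {k : ℤ} {f : DefsQ830.Ob → DefsQ830.Ob → RL π}
    (h : ∀ i j, f i j ∈ Q π k i j) :
    mA π k f h ∈ (WL π).dga.G k := mem_G.2 fun i j => h i j

/-- entries of an element of the window algebra -/
def en (z : (WL π).dga.C) (i j : DefsQ830.Ob) : RL π := (z : (WL π).Win).1 i j

theorem en_mA {k : ℤ} {f : DefsQ830.Ob → DefsQ830.Ob → RL π}
    (h : ∀ i j, f i j ∈ Q π k i j)
    (i j : DefsQ830.Ob) : en (mA π k f h) i j = f i j := rfl

theorem en_ext {z z' : (WL π).dga.C} (h : ∀ i j, en z i j = en z' i j) : z = z' :=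
  Subtype.ext (Matrix.ext h)

theorem en_mem {k : ℤ} {z : (WL π).dga.C} (h : z ∈ (WL π).dga.G k) (i j : DefsQ830.Ob) :
    en z i j ∈ Q π k i j := h i j

theorem en_mul (z z' : (WL π).dga.C) (i j : DefsQ830.Ob) :
    en (z * z') i j = ∑ l, en z i l * en z' l j := rfl

theorem en_add (z z' : (WL π).dga.C) (i j : DefsQ830.Ob) :
    en (z + z') i j = en z i j + en z' i j := rfl

theorem en_zero (i j : DefsQ830.Ob) : en (0 : (WL π).dga.C) i j = 0 := rfl

theorem en_one (i j : DefsQ830.Ob) : en (1 : (WL π).dga.C) i j = if i = j then 1 else 0 := by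
  change (1 : Matrix DefsQ830.Ob DefsQ830.Ob (RL π)) i j = _
  exact Matrix.one_apply

variable {s : ℕ}

/-- entries of an element of `tL` -/
def eT (z : (tLW π s).X) (i j : DefsQ830.Ob) : RL π := z.1 i j

theorem eT_ext {z z' : (tLW π s).X} (h : ∀ i j, eT z i j = eT z' i j) : z = z' :=
  Subtype.ext (funext fun i => funext fun j => h i j)

theorem eT_mem {k : ℤ} {z : (tLW π s).X} : z ∈ (tLW π s).gr k ↔ ∀ i j, eT z i j ∈
    QT π (k - s) i j := mem_grtL

/-- a homogeneous element of `tL` -/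
def mT (π : Par K) (s : ℕ) (k : ℤ) (f : DefsQ830.Ob → DefsQ830.Ob → RL π)
    (h : ∀ i j, f i j ∈ QT π (k - s) i j) :
    (tLW π s).X :=
  ⟨f, fun i j => q_le_E (tLT π s) i j k ((le_of_eq (q_tLT π s i j k).symm) (h i j))⟩

theorem mT_mem {k : ℤ} {f : DefsQ830.Ob → DefsQ830.Ob → RL π}
    (h : ∀ i j, f i j ∈ QT π (k - s) i j) :
    mT π s k f h ∈ (tLW π s).gr k := eT_mem.2 h

theorem eT_mT {k : ℤ} {f : DefsQ830.Ob → DefsQ830.Ob → RL π}
    (h : ∀ i j, f i j ∈ QT π (k - s) i j)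
    (i j : DefsQ830.Ob) : eT (mT π s k f h) i j = f i j := rfl

theorem eT_add (z z' : (tLW π s).X) (i j : DefsQ830.Ob) : eT (z + z') i j = eT z i j + eT z' i j := rfl
theorem eT_zero (i j : DefsQ830.Ob) : eT (0 : (tLW π s).X) i j = 0 := rfl

theorem eT_smul (a : (WL π).dga.C) (z : (tLW π s).X) (i j : DefsQ830.Ob) :
    eT (a • z) i j = ∑ l, en a i l * eT z l j := (tLT π s).smul_apply a z.1 i j

theorem eT_op (a : (WL π).dga.C) (z : (tLW π s).X) (i j : DefsQ830.Ob) :
    eT (op a • z) i j = ∑ l, eT z i l * en a l j := (tLT π s).op_smul_apply a z.1 i j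

theorem eT_d (z : (tLW π s).X) (i j : DefsQ830.Ob) : eT ((tLW π s).d z) i j = WL221.DL π (eT z i j) :=
  rfl

/-! ### the elements -/

theorem F_A (p q : Fin 2) {c : RL π} (h : c ∈ pcL π ((p.val : ℤ) - q.val) 0 0) (i j : DefsQ830.Ob) :
    F p q c i j ∈ Q π 0 i j := by
  unfold F
  split_ifs with h1
  · obtain ⟨h1, h2, h3⟩ := h1
    exact pc_cast h (by rw [h1, h2]) (by rw [h3, sub_self]) rfl
  · exact Submodule.zero_mem _

theorem F_T (p q : Fin 2) {c : RL π} (h : c ∈ pcL π ((p.val : ℤ) - q.val + 1) 0 0)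
    (i j : DefsQ830.Ob) :
    F p q c i j ∈ QT π ((s : ℤ) - s) i j := by
  unfold F
  split_ifs with h1
  · obtain ⟨h1, h2, h3⟩ := h1
    exact pc_cast h (by rw [h1, h2]) (by rw [h3, sub_self]) (sub_self _).symm
  · exact Submodule.zero_mem _

theorem one_mem' : (1 : RL π) ∈ pcL π 0 0 0 := pcL_one

/-- idempotents -/
def EE (π : Par K) (p : Fin 2) : (WL π).dga.C :=
  mA π 0 (F p p 1) (F_A p p (pc_cast one_mem' (sub_self _).symm rfl rfl))

/-- `x_c` -/
def XX (π : Par K) (c : Fin 2) : (WL π).dga.C := mA π 0 (F 1 0 (xL π c)) (F_A 1 0 (xL_mem c))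

/-- `x_c` in `tL` -/
def TT (π : Par K) (s : ℕ) (c : Fin 2) : (tLW π s).X := mT π s s (F 0 0 (xL π c)) (F_T 0 0 (xL_mem c))

/-- `1` in `tL` -/
def UU (π : Par K) (s : ℕ) : (tLW π s).X := mT π s s (F 0 1 1) (F_T 0 1 one_mem')

theorem en_EE (p : Fin 2) (i j : DefsQ830.Ob) : en (EE π p) i j = F p p 1 i j := rfl
theorem en_XX (c : Fin 2) (i j : DefsQ830.Ob) : en (XX π c) i j = F 1 0 (xL π c) i j := rfl
theorem eT_TT (c : Fin 2) (i j : DefsQ830.Ob) : eT (TT π s c) i j = F 0 0 (xL π c) i j := rfl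
theorem eT_UU (i j : DefsQ830.Ob) : eT (UU π s) i j = F 0 1 1 i j := rfl

theorem eta (i : DefsQ830.Ob) {p : Fin 2} (h : i.1 = p) : (p, i.2) = i := Prod.ext h.symm rfl

theorem mul_EE (z : (WL π).dga.C) (p : Fin 2) (i j : DefsQ830.Ob) :
    en (z * EE π p) i j = if j.1 = p then en z i j else 0 := by
  rw [en_mul]
  simp only [en_EE]
  rw [sum_r]
  split_ifs with h
  · rw [mul_one, eta j h]
  · rfl

theorem EE_mul (z : (WL π).dga.C) (p : Fin 2) (i j : DefsQ830.Ob) :
    en (EE π p * z) i j = if i.1 = p then en z i j else 0 := by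
  rw [en_mul]
  simp only [en_EE]
  rw [sum_l (fun l => en z l j)]
  split_ifs with h
  · rw [one_mul, eta i h]
  · rfl

theorem EE_smul (z : (tLW π s).X) (p : Fin 2) (i j : DefsQ830.Ob) :
    eT (EE π p • z) i j = if i.1 = p then eT z i j else 0 := by
  rw [eT_smul]
  simp only [en_EE]
  rw [sum_l (fun l => eT z l j)]
  split_ifs with h
  · rw [one_mul, eta i h]
  · rfl

theorem op_EE (z : (tLW π s).X) (p : Fin 2) (i j : DefsQ830.Ob) :
    eT (op (EE π p) • z) i j = if j.1 = p then eT z i j else 0 := by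
  rw [eT_op]
  simp only [en_EE]
  rw [sum_r]
  split_ifs with h
  · rw [mul_one, eta j h]
  · rfl

theorem mul_XX (z : (WL π).dga.C) (c : Fin 2) (i j : DefsQ830.Ob) :
    en (z * XX π c) i j = if j.1 = 0 then en z i (1, j.2) * xL π c else 0 := by
  rw [en_mul]
  simp only [en_XX]
  rw [sum_r]

theorem XX_smul (z : (tLW π s).X) (c : Fin 2) (i j : DefsQ830.Ob) :
    eT (XX π c • z) i j = if i.1 = 1 then xL π c * eT z (0, i.2) j else 0 := by
  rw [eT_smul]
  simp only [en_XX]
  rw [sum_l (fun l => eT z l j)]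

theorem smul_TT (z : (WL π).dga.C) (c : Fin 2) (i j : DefsQ830.Ob) :
    eT (z • TT π s c) i j = if j.1 = 0 then en z i (0, j.2) * xL π c else 0 := by
  rw [eT_smul]
  simp only [eT_TT]
  rw [sum_r]

theorem op_TT (z : (WL π).dga.C) (c : Fin 2) (i j : DefsQ830.Ob) :
    eT (op z • TT π s c) i j = if i.1 = 0 then xL π c * en z (0, i.2) j else 0 := by
  rw [eT_op]
  simp only [eT_TT]
  rw [sum_l (fun l => en z l j)]

theorem smul_UU (z : (WL π).dga.C) (i j : DefsQ830.Ob) :
    eT (z • UU π s) i j = if j.1 = 1 then en z i (0, j.2) else 0 := by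
  rw [eT_smul]
  simp only [eT_UU]
  rw [sum_r]
  simp only [mul_one]

theorem op_UU (z : (WL π).dga.C) (i j : DefsQ830.Ob) :
    eT (op z • UU π s) i j = if i.1 = 0 then en z (1, i.2) j else 0 := by
  rw [eT_op]
  simp only [eT_UU]
  rw [sum_l (fun l => en z l j)]
  simp only [one_mul]

/-! ### supports -/

theorem colA {z : (WL π).dga.C} {p : Fin 2} : z * EE π p = z ↔ ∀ i j, j.1 ≠ p → en z i j = 0 := by
  constructor
  · intro h i j hj
    rw [← h, mul_EE, if_neg hj]
  · intro h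
    refine en_ext fun i j => ?_
    rw [mul_EE]
    split_ifs with hj
    · rfl
    · exact (h i j hj).symm

theorem rowA {z : (WL π).dga.C} {p : Fin 2} : EE π p * z = z ↔ ∀ i j, i.1 ≠ p → en z i j = 0 := by
  constructor
  · intro h i j hj
    rw [← h, EE_mul, if_neg hj]
  · intro h
    refine en_ext fun i j => ?_
    rw [EE_mul]
    split_ifs with hj
    · rfl
    · exact (h i j hj).symm

theorem rowT {z : (tLW π s).X} {p : Fin 2} : EE π p • z = z ↔ ∀ i j, i.1 ≠ p → eT z i j = 0 := by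
  constructor
  · intro h i j hj
    rw [← h, EE_smul, if_neg hj]
  · intro h
    refine eT_ext fun i j => ?_
    rw [EE_smul]
    split_ifs with hj
    · rfl
    · exact (h i j hj).symm

theorem colT {z : (tLW π s).X} {p : Fin 2} :
    op (EE π p) • z = z ↔ ∀ i j, j.1 ≠ p → eT z i j = 0 := by
  constructor
  · intro h i j hj
    rw [← h, op_EE, if_neg hj]
  · intro h
    refine eT_ext fun i j => ?_
    rw [op_EE]
    split_ifs with hj
    · rfl
    · exact (h i j hj).symm

theorem F_ne1 {p q : Fin 2} {c : RL π} {i j : DefsQ830.Ob} (h : i.1 ≠ p) : F p q c i j = 0 :=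
  if_neg fun h' => h h'.1

theorem F_ne2 {p q : Fin 2} {c : RL π} {i j : DefsQ830.Ob} (h : j.1 ≠ q) : F p q c i j = 0 :=
  if_neg fun h' => h h'.2.1

theorem F_d {p q : Fin 2} {c : RL π} (hc : WL221.DL π c = 0) (i j : DefsQ830.Ob) :
    WL221.DL π (F p q c i j) = 0 := by
  unfold F
  split_ifs
  · exact hc
  · exact map_zero _

theorem ne01 {i : DefsQ830.Ob} (h : i.1 ≠ 0) : i.1 = 1 := by
  have := i.1.2
  apply Fin.ext
  have h2 : i.1.val ≠ 0 := fun h' => h (Fin.ext h')
  show i.1.val = 1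
  omega

theorem DL_xL (c : Fin 2) : WL221.DL π (xL π c) = 0 := by
  rw [DL_apply]
  have h : Der580.D π (xL π c).1 = 0 := by
    show Der580.D π (X π (.x c)) = 0
    rw [Der580.D_X]
    simp [dGen]
  rw [h, map_zero]

theorem DL_one : WL221.DL π (1 : RL π) = 0 := by
  have h := DL_mul (π := π) 1 1
  rw [mul_one, one_mul, mul_one] at h
  rw [h]
  exact pcL_two _

theorem xx_comm : xL π 1 * xL π 0 = xL π 0 * xL π 1 := Subtype.ext (Der580.r_xx π)

/-- **the instance** -/
def kz (π : Par K) (s : ℕ) : Kz (WL π).dga (tLW π s) where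
  s := s
  E0 := EE π 0
  E1 := EE π 1
  E0_mem := mA_mem _
  E1_mem := mA_mem _
  E00 := colA.2 fun i j h => F_ne2 h
  E11 := colA.2 fun i j h => F_ne2 h
  E_add := en_ext fun i j => by
    rw [en_add, en_one, en_EE, en_EE]
    unfold F
    by_cases h : i = j
    · subst h
      rw [if_pos rfl]
      by_cases h0 : i.1 = 0
      · rw [if_pos ⟨h0, h0, rfl⟩, if_neg, add_zero]
        rintro ⟨h1, _⟩
        rw [h0] at h1
        exact absurd h1 (by decide)
      · rw [if_neg (fun h' => h0 h'.1), if_pos ⟨ne01 h0, ne01 h0, rfl⟩, zero_add]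
    · rw [if_neg h, if_neg, if_neg, add_zero]
      · rintro ⟨h1, h2, h3⟩
        exact h (Prod.ext (h1.trans h2.symm) h3)
      · rintro ⟨h1, h2, h3⟩
        exact h (Prod.ext (h1.trans h2.symm) h3)
  X0 := XX π 0
  X1 := XX π 1
  X0_mem := mA_mem _
  X1_mem := mA_mem _
  E1X0 := rowA.2 fun i j h => F_ne1 h
  E1X1 := rowA.2 fun i j h => F_ne1 h
  X0E0 := colA.2 fun i j h => F_ne2 h
  X1E0 := colA.2 fun i j h => F_ne2 h
  T0 := TT π s 0
  T1 := TT π s 1
  T0_mem := mT_mem _
  T1_mem := mT_mem _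
  dT0 := eT_ext fun i j => F_d (DL_xL 0) i j
  dT1 := eT_ext fun i j => F_d (DL_xL 1) i j
  E0T0 := rowT.2 fun i j h => F_ne1 h
  E0T1 := rowT.2 fun i j h => F_ne1 h
  T0E0 := colT.2 fun i j h => F_ne2 h
  T1E0 := colT.2 fun i j h => F_ne2 h
  U := UU π s
  U_mem := mT_mem _
  dU := eT_ext fun i j => F_d DL_one i j
  E0U := rowT.2 fun i j h => F_ne1 h
  UE1 := colT.2 fun i j h => F_ne2 h
  comm := eT_ext fun i j => by
    rw [eT_add, XX_smul, XX_smul, eT_zero]
    split_ifs with h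
    · rw [eT_TT, eT_TT]
      unfold F
      split_ifs with h1
      · rw [xx_comm]
        exact pcL_two _
      · rw [mul_zero, mul_zero, add_zero]
    · exact add_zero _
  cI := by
    intro k z hz hz1 h
    refine en_ext fun i j => ?_
    rw [en_zero]
    by_cases hj : j.1 = 1
    · have h1 : en (z * XX π 1) i (0, j.2) = 0 := by rw [h, en_zero]
      rw [mul_XX, if_pos rfl] at h1
      have := rinj 1 h1
      rwa [eta j hj] at this
    · exact colA.1 hz1 i j hj
  cE := by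
    intro k u0 u1 hu0 hu1 h0 h1 h
    have key : ∀ (i : DefsQ830.Ob) (b : Fin 4), ∃ z ∈ pcL π ((i.1.val : ℤ) - 1)
        ((i.2.val : ℤ) - b.val) k, en u0 i (0, b) = z * xL π 1 ∧ en u1 i (0, b) = z * xL π 0 := by
      intro i b
      have h2 : eT (u0 • TT π s 0 + u1 • TT π s 1) i (0, b) = 0 := by rw [h, eT_zero]
      rw [eT_add, smul_TT, smul_TT, if_pos rfl, if_pos rfl] at h2
      obtain ⟨z, hz, e1, e2⟩ := rker (en_mem hu1 i (0, b)) h2
      exact ⟨z, pc_cast hz (by simp) rfl rfl, e1, e2⟩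
    choose f hf f1 f2 using key
    refine ⟨mA π k (fun i j => if j.1 = 1 then f i j.2 else 0) (fun i j => ?_), mA_mem _,
      colA.2 fun i j hj => if_neg hj, en_ext fun i j => ?_, en_ext fun i j => ?_⟩
    · split_ifs with hj
      · exact pc_cast (hf i j.2) (by rw [hj]; simp) rfl rfl
      · exact Submodule.zero_mem _
    · rw [mul_XX, en_mA]
      by_cases hj : j.1 = 0
      · rw [if_pos hj, if_pos rfl, ← f1, eta j hj]
      · rw [if_neg hj]
        exact colA.1 h0 i j hj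
    · rw [mul_XX, en_mA]
      by_cases hj : j.1 = 0
      · rw [if_pos hj, if_pos rfl, ← f2, eta j hj]
      · rw [if_neg hj]
        exact colA.1 h1 i j hj
  cS := by
    intro k x hx hx0
    have key : ∀ (i : DefsQ830.Ob) (b : Fin 4), ∃ a a' : RL π,
        a ∈ pcL π (i.1.val : ℤ) ((i.2.val : ℤ) - b.val) k ∧
        a' ∈ pcL π (i.1.val : ℤ) ((i.2.val : ℤ) - b.val) k ∧
        eT x i (0, b) = a * xL π 0 + a' * xL π 1 := by
      intro i b
      obtain ⟨a, ha, a', ha', h⟩ := rsur (π := π) (by simp) (eT_mem.1 hx i (0, b))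
      exact ⟨a, a', pc_cast ha (by simp) rfl (by ring), pc_cast ha' (by simp) rfl (by ring), h⟩
    choose f f' hf hf' hff using key
    refine ⟨mA π k (fun i j => if j.1 = 0 then f i j.2 else 0) (fun i j => ?_), mA_mem _,
      mA π k (fun i j => if j.1 = 0 then f' i j.2 else 0) (fun i j => ?_), mA_mem _,
      colA.2 fun i j hj => if_neg hj, colA.2 fun i j hj => if_neg hj, eT_ext fun i j => ?_⟩
    · split_ifs with hj
      · exact pc_cast (hf i j.2) (by rw [hj]; simp) rfl rfl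
      · exact Submodule.zero_mem _
    · split_ifs with hj
      · exact pc_cast (hf' i j.2) (by rw [hj]; simp) rfl rfl
      · exact Submodule.zero_mem _
    · rw [eT_add, smul_TT, smul_TT]
      by_cases hj : j.1 = 0
      · rw [if_pos hj, if_pos hj, en_mA, en_mA, if_pos rfl, if_pos rfl, ← hff, eta j hj]
      · rw [if_neg hj, if_neg hj, add_zero]
        exact colT.1 hx0 i j hj
  rI := by
    intro k r hr hr0 h
    refine en_ext fun i j => ?_
    rw [en_zero]
    by_cases hi : i.1 = 0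
    · have h1 : eT (op r • TT π s 0) i j = 0 := by rw [h, eT_zero]
      rw [op_TT, if_pos hi] at h1
      have := linj 0 h1
      rwa [eta i hi] at this
    · exact rowA.1 hr0 i j hi
  rE := by
    intro m w0 w1 hw0 hw1 h0 h1 h
    have key : ∀ (b : Fin 4) (j : DefsQ830.Ob), ∃ z ∈ pcL π (0 - (j.1.val : ℤ))
        ((b.val : ℤ) - j.2.val) (m - s), eT w0 (0, b) j = xL π 0 * z ∧ eT w1 (0, b) j = xL π 1 * z := by
      intro b j
      have h2 : eT (XX π 1 • w0 + XX π 0 • w1) (1, b) j = 0 := by rw [h, eT_zero]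
      rw [eT_add, XX_smul, XX_smul, if_pos rfl, if_pos rfl] at h2
      obtain ⟨z, hz, e1, e2⟩ := lker (eT_mem.1 hw0 (0, b) j) h2
      exact ⟨z, pc_cast hz (by simp) rfl rfl, e1, e2⟩
    choose f hf f1 f2 using key
    refine ⟨mA π (m - s) (fun i j => if i.1 = 0 then f i.2 j else 0) (fun i j => ?_), mA_mem _,
      rowA.2 fun i j hj => if_neg hj, eT_ext fun i j => ?_, eT_ext fun i j => ?_⟩
    · split_ifs with hj
      · exact pc_cast (hf i.2 j) (by rw [hj]; simp) rfl rfl
      · exact Submodule.zero_mem _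
    · rw [op_TT, en_mA]
      by_cases hj : i.1 = 0
      · rw [if_pos hj, if_pos rfl, ← f1, eta i hj]
      · rw [if_neg hj]
        exact rowT.1 h0 i j hj
    · rw [op_TT, en_mA]
      by_cases hj : i.1 = 0
      · rw [if_pos hj, if_pos rfl, ← f2, eta i hj]
      · rw [if_neg hj]
        exact rowT.1 h1 i j hj
  rS := by
    intro m w hw hw1
    have key : ∀ (b : Fin 4) (j : DefsQ830.Ob), ∃ a a' : RL π,
        a ∈ pcL π (0 - (j.1.val : ℤ) + 1) ((b.val : ℤ) - j.2.val) (m - s) ∧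
        a' ∈ pcL π (0 - (j.1.val : ℤ) + 1) ((b.val : ℤ) - j.2.val) (m - s) ∧
        eT w (1, b) j = xL π 1 * a + xL π 0 * a' := by
      intro b j
      have hj : (j.1.val : ℤ) ≤ 1 := by have := j.1.2; omega
      obtain ⟨a, ha, a', ha', h⟩ := lsur (π := π) (by simp; omega) (eT_mem.1 hw (1, b) j)
      exact ⟨a, a', pc_cast ha (by simp; ring) rfl rfl, pc_cast ha' (by simp; ring) rfl rfl, h⟩
    choose f f' hf hf' hff using key
    refine ⟨mT π s m (fun i j => if i.1 = 0 then f i.2 j else 0) (fun i j => ?_), mT_mem _,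
      mT π s m (fun i j => if i.1 = 0 then f' i.2 j else 0) (fun i j => ?_), mT_mem _,
      rowT.2 fun i j hj => if_neg hj, rowT.2 fun i j hj => if_neg hj, eT_ext fun i j => ?_⟩
    · split_ifs with hj
      · exact pc_cast (hf i.2 j) (by rw [hj]; simp) rfl rfl
      · exact Submodule.zero_mem _
    · split_ifs with hj
      · exact pc_cast (hf' i.2 j) (by rw [hj]; simp) rfl rfl
      · exact Submodule.zero_mem _
    · rw [eT_add, XX_smul, XX_smul]
      by_cases hj : i.1 = 1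
      · rw [if_pos hj, if_pos hj, eT_mT, eT_mT, if_pos rfl, if_pos rfl, ← hff, eta i hj]
      · rw [if_neg hj, if_neg hj, add_zero]
        exact rowT.1 hw1 i j hj
  uX := by
    intro k x hx hx1
    refine ⟨mA π k (fun i j => if j.1 = 0 then eT x i (1, j.2) else 0) (fun i j => ?_), mA_mem _,
      colA.2 fun i j hj => if_neg hj, eT_ext fun i j => ?_⟩
    · split_ifs with hj
      · exact pc_cast (eT_mem.1 hx i (1, j.2)) (by rw [hj]; simp) rfl (by ring)
      · exact Submodule.zero_mem _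
    · rw [smul_UU]
      by_cases hj : j.1 = 1
      · rw [if_pos hj, en_mA, if_pos rfl, eta j hj]
      · rw [if_neg hj]
        exact colT.1 hx1 i j hj
  uI := by
    intro k u hu hu0 h
    refine en_ext fun i j => ?_
    rw [en_zero]
    by_cases hj : j.1 = 0
    · have h1 : eT (u • UU π s) i (1, j.2) = 0 := by rw [h, eT_zero]
      rw [smul_UU, if_pos rfl] at h1
      rwa [eta j hj] at h1
    · exact colA.1 hu0 i j hj
  uW := by
    intro m w hw hw0
    refine ⟨mA π (m - s) (fun i j => if i.1 = 1 then eT w (0, i.2) j else 0) (fun i j => ?_), mA_mem _,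
      rowA.2 fun i j hj => if_neg hj, eT_ext fun i j => ?_⟩
    · split_ifs with hj
      · exact pc_cast (eT_mem.1 hw (0, i.2) j) (by rw [hj]; simp; ring) rfl rfl
      · exact Submodule.zero_mem _
    · rw [op_UU]
      by_cases hj : i.1 = 0
      · rw [if_pos hj, en_mA, if_pos rfl, eta i hj]
      · rw [if_neg hj]
        exact rowT.1 hw0 i j hj
  uJ := by
    intro k r hr hr1 h
    refine en_ext fun i j => ?_
    rw [en_zero]
    by_cases hi : i.1 = 1
    · have h1 : eT (op r • UU π s) (0, i.2) j = 0 := by rw [h, eT_zero]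
      rw [op_UU, if_pos rfl] at h1
      rwa [eta i hi] at h1
    · exact rowA.1 hr1 i j hi

end Crest.Agent.R186.C1c580
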