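import Crest.Agent.R186.C1b_605
import Crest.Agent.R186.TLW_890

/-!
Row 186, half (A), leaf A.C1 (helper605), part (beta), file 2: columns and rows over `L`, their
pairing into `tL`, decomposition of the squares.
-/

set_option autoImplicit false
set_option linter.unusedSectionVars false

noncomputable section

open MulOpposite

namespace Crest.Agent.R186.C1c605

open Hat827 Win810 Frame515 TB143 Res255 C1a605 C1b605 FinV988 Core890 SM890 WL221 GrP44

variable {K : Type} [Field K]

/-! ### the dual with functionals on the whole carrier -/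

/-- functionals on the whole carrier -/
def DG (P : GC K) : GC K where
  X := P.X →ₗ[K] K
  gr k :=
    { carrier := {f | ∀ l z, z ∈ P.gr l → l ≠ -k → f z = 0}
      add_mem' := fun {f g} hf hg l z hz hl => by
        rw [LinearMap.add_apply, hf l z hz hl, hg l z hz hl, add_zero]
      zero_mem' := fun l z _ _ => rfl
      smul_mem' := fun r f hf l z hz hl => by
        rw [LinearMap.smul_apply, hf l z hz hl, smul_zero] }
  d :=
    { toFun := fun f => f ∘ₗ P.d
      map_add' := fun f g => rfl
      map_smul' := fun r f => rfl }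
  d_mem := by
    intro k f hf l z hz hl
    exact hf (l - 1) (P.d z) (P.d_mem hz) (by omega)
  d_d := by
    intro f
    ext z
    change f (P.d (P.d z)) = 0
    rw [P.d_d, map_zero]

theorem DR_toGC {A : DGA K} (Z : LM A) : (DR Z).toGC = DG Z.toGC := rfl

/-- contravariance -/
def DGmap {P Q : GC K} (f : GCHom P Q) : GCHom (DG Q) (DG P) where
  f :=
    { toFun := fun φ => (show Q.X →ₗ[K] K from φ) ∘ₗ f.f
      map_add' := fun _ _ => rfl
      map_smul' := fun _ _ => rfl }
  f_mem := by
    intro k φ hφ l z hz hl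
    exact hφ l (f.f z) (f.f_mem hz) hl
  f_d φ := by
    refine LinearMap.ext fun z => ?_
    exact congrArg (show Q.X →ₗ[K] K from φ) (f.f_d z).symm

theorem DGmap_apply {P Q : GC K} (f : GCHom P Q) (φ : Q.X →ₗ[K] K) (z : P.X) :
    (show P.X →ₗ[K] K from (DGmap f).f φ) z = φ (f.f z) := rfl

/-- projections of a complex -/
structure PG (P : GC K) where
  pr : ℤ → P.X →ₗ[K] P.X
  mem : ∀ (k : ℤ) (z : P.X), pr k z ∈ P.gr k
  same : ∀ {k : ℤ} {z : P.X}, z ∈ P.gr k → pr k z = z
  ne : ∀ {k l : ℤ} {z : P.X}, z ∈ P.gr l → k ≠ l → pr k z = 0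
  span : ∀ z : P.X, z ∈ ⨆ k, P.gr k

/-- restriction of functionals to the pieces -/
def rG (P : GC K) : GCHom (DG P) (DK P) where
  f :=
    { toFun := fun φ l => (show P.X →ₗ[K] K from φ) ∘ₗ (P.gr l).subtype
      map_add' := fun a b => by
        funext l
        exact LinearMap.add_comp _ _ _
      map_smul' := fun c a => by
        funext l
        exact LinearMap.smul_comp _ _ _ }
  f_mem := by
    intro k φ hφ l hl
    have hφ' : ∀ l z, z ∈ P.gr l → l ≠ -k → (show P.X →ₗ[K] K from φ) z = 0 := hφ
    refine LinearMap.ext fun z => ?_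
    exact hφ' l z.1 z.2 hl
  f_d φ := rfl

theorem rG_qi {P : GC K} (G : PG P) : QI (rG P) := by
  refine QI.of_bij ?_ ?_
  · intro k φ _ h0
    change P.X →ₗ[K] K at φ
    have h1 : (⨆ k, P.gr k) ≤ LinearMap.ker φ := by
      refine iSup_le fun l x hx => ?_
      exact congrArg (fun ψ : (DK P).X => DK.ev ψ x hx) h0
    exact LinearMap.ext fun z => h1 (G.span z)
  · intro k ψ hψ
    refine ⟨(show P.X →ₗ[K] K from (ψ (-k)) ∘ₗ ((G.pr (-k)).codRestrict _ (G.mem (-k)))), ?_, ?_⟩
    · intro l z hz hl
      change ψ (-k) ⟨G.pr (-k) z, _⟩ = 0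
      have : (⟨G.pr (-k) z, G.mem (-k) z⟩ : P.gr (-k)) = 0 :=
        Subtype.ext (G.ne hz (Ne.symm hl))
      rw [this, map_zero]
    · refine DK.ext' fun l x hx => ?_
      change ψ (-k) ⟨G.pr (-k) x, _⟩ = ψ l ⟨x, hx⟩
      by_cases hl : l = -k
      · subst hl
        congr 1
        exact Subtype.ext (G.same hx)
      · rw [hψ l hl]
        have : (⟨G.pr (-k) x, G.mem (-k) x⟩ : P.gr (-k)) = 0 :=
          Subtype.ext (G.ne hx (Ne.symm hl))
        rw [this, map_zero]
        rfl

/-- a pairing as a map to `DG` -/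
def Pr.homG {X P : GC K} (B : Pr X P) (adj : ∀ x p, B.b (X.d x) p = B.b x (P.d p)) :
    GCHom X (DG P) where
  f := B.b
  f_mem hx _ _ hz hl := B.off hx hz hl
  f_d x := LinearMap.ext fun p => adj x p

theorem homG_iff {X P : GC K} (B : Pr X P) (adj) (G : PG P) : QI (Pr.homG B adj) ↔ QI B.hom := by
  have h := QI.comp_iff_left (f := Pr.homG B adj) (rG_qi G)
  exact h.symm

/-! ### regrading -/

theorem qi_regrade {X D X' D' : GC K} (s : ℤ) (f : GCHom X D) (f' : GCHom X' D')
    (u : X'.X ≃ₗ[K] X.X) (v : D'.X ≃ₗ[K] D.X) (hu : ∀ k x, x ∈ X'.gr k ↔ u x ∈ X.gr (k + s))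
    (hv : ∀ k y, y ∈ D'.gr k ↔ v y ∈ D.gr (k + s)) (ud : ∀ x, u (X'.d x) = X.d (u x))
    (vd : ∀ y, v (D'.d y) = D.d (v y)) (hf : ∀ x, v (f'.f x) = f.f (u x)) (h : QI f) : QI f' where
  surj k y hy hd := by
    obtain ⟨x, hx, hxd, z, hz, e⟩ := h.surj (k + s) (v y) ((hv k y).1 hy) (by rw [← vd, hd, map_zero])
    refine ⟨u.symm x, (hu _ _).2 (by rwa [u.apply_symm_apply]), ?_, v.symm z,
      (hv _ _).2 (by rw [v.apply_symm_apply]; exact gr_cast hz (by ring)), ?_⟩
    · apply u.injective
      rw [ud, u.apply_symm_apply, hxd, map_zero]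
    · apply v.injective
      rw [map_add, hf, vd, u.apply_symm_apply, v.apply_symm_apply, e]
  inj k x hx hd := by
    rintro ⟨z, hz, e⟩
    obtain ⟨w, hw, e'⟩ := h.inj (k + s) (u x) ((hu k x).1 hx) (by rw [← ud, hd, map_zero])
      ⟨v z, gr_cast ((hv _ _).1 hz) (by ring), by rw [← hf, e, vd]⟩
    refine ⟨u.symm w, (hu _ _).2 (by rw [u.apply_symm_apply]; exact gr_cast hw (by ring)), ?_⟩
    apply u.injective
    rw [ud, u.apply_symm_apply, e']

/-! ### columns and rows over a window algebra -/

section cols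

open Win810.WD WBM163

variable (w : WD K)

/-- carrier of the column at `(p, a)` -/
def cX (p a : ℤ) : Submodule K (w.Ob → w.S) where
  carrier := {m | ∀ i : w.Ob, m i ∈ ⨆ k : ℤ, w.pc (w.P i - p) (w.A i - a) k}
  add_mem' ha hb i := Submodule.add_mem _ (ha i) (hb i)
  zero_mem' _ := Submodule.zero_mem _
  smul_mem' c _ ha i := Submodule.smul_mem _ c (ha i)

/-- carrier of the row at `(p, a)` -/
def rX (p a : ℤ) : Submodule K (w.Ob → w.S) where
  carrier := {m | ∀ j : w.Ob, m j ∈ ⨆ k : ℤ, w.pc (p - w.P j) (a - w.A j) k}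
  add_mem' ha hb i := Submodule.add_mem _ (ha i) (hb i)
  zero_mem' _ := Submodule.zero_mem _
  smul_mem' c _ ha i := Submodule.smul_mem _ c (ha i)

variable {w}

/-- products of sums of pieces -/
theorem mul_isup {f g : ℤ → Submodule K w.S} {H : Submodule K w.S}
    (h : ∀ k l x y, x ∈ f k → y ∈ g l → x * y ∈ H) {x y : w.S} (hx : x ∈ ⨆ k, f k)
    (hy : y ∈ ⨆ k, g k) : x * y ∈ H := by
  have h1 : (⨆ k, f k) ≤ H.comap (LinearMap.mulRight K y) := by
    refine iSup_le fun k x hx => ?_
    have h2 : (⨆ l, g l) ≤ H.comap (LinearMap.mulLeft K x) :=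
      iSup_le fun l y hy => h k l x y hx hy
    exact h2 hy
  exact h1 hx

theorem cX_smul {p a : ℤ} (x : w.Win) {m : w.Ob → w.S} (hm : m ∈ cX w p a) :
    (fun i : w.Ob => ∑ l : w.Ob, x.1 i l * m l) ∈ cX w p a := by
  intro i
  refine Submodule.sum_mem _ fun l _ => ?_
  refine mul_isup (f := fun k => w.q i l k)
    (g := fun k => w.pc (w.P l - p) (w.A l - a) k) ?_ (x.2 i l) (hm l)
  intro k k' y z hy hz
  have h := w.mul_mem hy hz
  refine Submodule.mem_iSup_of_mem (k + k') ?_
  rwa [show w.P i - w.P l + (w.P l - p) = w.P i - p by ring,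
    show w.A i - w.A l + (w.A l - a) = w.A i - a by ring] at h

instance (p a : ℤ) : Module w.Win (cX w p a) where
  smul x m := ⟨fun i => ∑ l : w.Ob, x.1 i l * m.1 l, cX_smul x m.2⟩
  one_smul m := by
    apply Subtype.ext
    funext i
    change ∑ l, ((1 : Matrix w.Ob w.Ob w.S) i l) * (m.1 l) = m.1 i
    rw [Finset.sum_eq_single i]
    · rw [Matrix.one_apply_eq, one_mul]
    · intro l _ hl
      rw [Matrix.one_apply_ne (Ne.symm hl), zero_mul]
    · intro h
      exact absurd (Finset.mem_univ _) h
  mul_smul x y m := by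
    apply Subtype.ext
    funext i
    change ∑ l, (x.1 * y.1) i l * (m.1 l) = ∑ l, x.1 i l * ∑ l', y.1 l l' * (m.1 l')
    simp only [Matrix.mul_apply, Finset.sum_mul, Finset.mul_sum]
    rw [Finset.sum_comm]
    refine Finset.sum_congr rfl fun l _ => Finset.sum_congr rfl fun l' _ => ?_
    exact mul_assoc _ _ _
  smul_zero x := by
    apply Subtype.ext
    funext i
    change ∑ l, x.1 i l * 0 = 0
    simp
  smul_add x m m' := by
    apply Subtype.ext
    funext i
    change ∑ l, x.1 i l * (m.1 l + m'.1 l) = _ + _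
    simp only [mul_add, Finset.sum_add_distrib]
    rfl
  add_smul x y m := by
    apply Subtype.ext
    funext i
    change ∑ l, (x.1 i l + y.1 i l) * (m.1 l) = _
    simp only [add_mul, Finset.sum_add_distrib]
    rfl
  zero_smul m := by
    apply Subtype.ext
    funext i
    change ∑ l, (0 : w.S) * (m.1 l) = 0
    simp

theorem cX_smul_apply {p a : ℤ} (x : w.Win) (m : cX w p a) (i : w.Ob) :
    (x • m).1 i = ∑ l : w.Ob, x.1 i l * m.1 l := rfl

instance (p a : ℤ) : IsScalarTower K w.Win (cX w p a) where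
  smul_assoc c x m := by
    apply Subtype.ext
    funext i
    change ∑ l, (c • x.1 i l) * (m.1 l) = c • ∑ l, x.1 i l * (m.1 l)
    simp only [smul_mul_assoc, Finset.smul_sum]

variable (w)

/-- **the column at `(p, a)`**, degrees shifted by `c` -/
def col (p a c : ℤ) : LM w.dga where
  X := cX w p a
  gr k :=
    { carrier := {m | ∀ i : w.Ob, m.1 i ∈ w.pc (w.P i - p) (w.A i - a) (k - c)}
      add_mem' := fun ha hb i => Submodule.add_mem _ (ha i) (hb i)
      zero_mem' := fun _ => Submodule.zero_mem _
      smul_mem' := fun c _ ha i => Submodule.smul_mem _ c (ha i) }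
  d :=
    { toFun := fun m => (⟨fun i => w.D (m.1 i), fun i => by
        have h : (⨆ k : ℤ, w.pc (w.P i - p) (w.A i - a) k) ≤
            (⨆ k : ℤ, w.pc (w.P i - p) (w.A i - a) k).comap w.D :=
          iSup_le fun k x hx => Submodule.mem_iSup_of_mem (k - 1) (w.D_mem hx)
        exact h (m.2 i)⟩ : cX w p a)
      map_add' := fun m n => by
        apply Subtype.ext
        funext i
        exact map_add w.D _ _
      map_smul' := fun c m => by
        apply Subtype.ext
        funext i
        exact map_smul w.D _ _ }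
  d_mem := by
    intro k x hx i
    have h := w.D_mem (hx i)
    rwa [show k - c - 1 = k - 1 - c by ring] at h
  d_d := by
    intro m
    apply Subtype.ext
    funext i
    exact w.D_D _
  act := (inferInstance : Module w.Win (cX w p a))
  tower := (inferInstance : IsScalarTower K w.Win (cX w p a))
  smul_mem := by
    intro k l x m hx hm i
    refine Submodule.sum_mem _ fun j _ => ?_
    have h := w.mul_mem (hx i j) (hm j)
    rwa [show w.P i - w.P j + (w.P j - p) = w.P i - p by ring,
      show w.A i - w.A j + (w.A j - a) = w.A i - a by ring,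
      show k + (l - c) = k + l - c by ring] at h
  leib := by
    intro x m
    apply Subtype.ext
    funext i
    change w.D (∑ l, x.1 i l * (m.1 l)) =
      ∑ l, w.D (x.1 i l) * (m.1 l) + ∑ l, x.1 i l * w.D (m.1 l)
    rw [map_sum, ← Finset.sum_add_distrib]
    exact Finset.sum_congr rfl fun l _ => w.D_mul _ _

/-- **the row at `(p, a)`**, degrees shifted by `c` -/
def row (p a c : ℤ) : GC K where
  X := rX w p a
  gr k :=
    { carrier := {m | ∀ j : w.Ob, m.1 j ∈ w.pc (p - w.P j) (a - w.A j) (k - c)}
      add_mem' := fun ha hb i => Submodule.add_mem _ (ha i) (hb i)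
      zero_mem' := fun _ => Submodule.zero_mem _
      smul_mem' := fun c _ ha i => Submodule.smul_mem _ c (ha i) }
  d :=
    { toFun := fun m => (⟨fun i => w.D (m.1 i), fun i => by
        have h : (⨆ k : ℤ, w.pc (p - w.P i) (a - w.A i) k) ≤
            (⨆ k : ℤ, w.pc (p - w.P i) (a - w.A i) k).comap w.D :=
          iSup_le fun k x hx => Submodule.mem_iSup_of_mem (k - 1) (w.D_mem hx)
        exact h (m.2 i)⟩ : rX w p a)
      map_add' := fun m n => by
        apply Subtype.ext
        funext i
        exact map_add w.D _ _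
      map_smul' := fun c m => by
        apply Subtype.ext
        funext i
        exact map_smul w.D _ _ }
  d_mem := by
    intro k x hx i
    have h := w.D_mem (hx i)
    rwa [show k - c - 1 = k - 1 - c by ring] at h
  d_d := by
    intro m
    apply Subtype.ext
    funext i
    exact w.D_D _

variable {w}

/-- one entry -/
def sgR {p a : ℤ} (j : w.Ob) (x : w.S) (hx : x ∈ ⨆ k : ℤ, w.pc (p - w.P j) (a - w.A j) k) :
    rX w p a :=
  ⟨Pi.single j x, fun j' => by
    by_cases h : j' = j
    · subst h
      rw [Pi.single_eq_same]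
      exact hx
    · rw [Pi.single_eq_of_ne h]
      exact Submodule.zero_mem _⟩

theorem sgR_mem {p a c : ℤ} (j : w.Ob) (x : w.S)
    (hx : x ∈ ⨆ k : ℤ, w.pc (p - w.P j) (a - w.A j) k) :
    (show (row w p a c).X from sgR j x hx) ∈ ⨆ k, (row w p a c).gr k := by
  induction hx using Submodule.iSup_induction' with
  | mem k x hx =>
    refine Submodule.mem_iSup_of_mem (k + c) ?_
    intro j'
    change (Pi.single j x : w.Ob → w.S) j' ∈ w.pc (p - w.P j') (a - w.A j') (k + c - c)
    by_cases h : j' = j
    · subst h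
      rw [Pi.single_eq_same, show k + c - c = k by ring]
      exact hx
    · rw [Pi.single_eq_of_ne h]
      exact Submodule.zero_mem _
  | zero =>
    have : sgR (p := p) (a := a) j (0 : w.S) (Submodule.zero_mem _) = 0 :=
      Subtype.ext (Pi.single_zero j)
    rw [this]
    exact (⨆ k, (row w p a c).gr k).zero_mem
  | add x y hx hy h1 h2 =>
    have : sgR (p := p) (a := a) j (x + y) (Submodule.add_mem _ hx hy) = sgR j x hx + sgR j y hy := by
      apply Subtype.ext
      change (Pi.single j (x + y) : w.Ob → w.S) = Pi.single j x + Pi.single j y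
      exact Pi.single_add (f := fun _ => w.S) j x y
    rw [this]
    exact (⨆ k, (row w p a c).gr k).add_mem h1 h2

/-- projections of the rows -/
def rowG (sp : SP w) (p a c : ℤ) : PG (row w p a c) where
  pr k :=
    { toFun := fun m => (⟨fun j => sp.pr (p - w.P j) (a - w.A j) (k - c) (m.1 j),
        fun j => Submodule.mem_iSup_of_mem (k - c) (sp.mem _ _ _ _)⟩ : rX w p a)
      map_add' := fun m n => by
        apply Subtype.ext
        funext j
        exact map_add (sp.pr _ _ _) _ _
      map_smul' := fun r m => by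
        apply Subtype.ext
        funext j
        exact map_smul (sp.pr _ _ _) _ _ }
  mem k m j := sp.mem _ _ _ _
  same {k m} hm := by
    apply Subtype.ext
    funext j
    exact sp.same _ _ _ _ (hm j)
  ne {k l m} hm hkl := by
    apply Subtype.ext
    funext j
    exact sp.ne _ _ _ _ _ (by omega) (hm j)
  span m := by
    have h2 : m = ∑ j : w.Ob, sgR (p := p) (a := a) j (m.1 j) (m.2 j) := by
      apply Subtype.ext
      rw [AddSubmonoidClass.coe_finsetSum]
      exact (Finset.univ_sum_single m.1).symm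
    rw [h2]
    exact Submodule.sum_mem _ fun j _ => sgR_mem j (m.1 j) (m.2 j)

end cols

end Crest.Agent.R186.C1c605
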