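import Crest.Agent.R186.C1c_605

/-!
Row 186, half (A), leaf A.C1 (helper605), part (beta), file 3: squares, their columns and rows, the
pairings, decomposition of the quasi-isomorphisms.
-/

set_option autoImplicit false
set_option linter.unusedSectionVars false

noncomputable section

open MulOpposite

namespace Crest.Agent.R186.C1d605

open Hat827 Win810 Win810.WD Frame515 TB143 Res255 C1a605 C1b605 C1c605 FinV988 Core890 WBM163 GrP44

variable {K : Type} [Field K]

/-- `w.S` with the degrees of `R' · o_1` (890's `tLT`, any window data) -/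
def sqT (w : WD K) (s : ℕ) : TB w w where
  B := w.S
  l := Algebra.lsmul K K w.S
  r := Algebra.lsmul K K w.S
  comm a b x := by
    change a • (b • x) = b • (a • x)
    rw [smul_comm]
  p P A C := w.pc (P + 1) A (C - s)
  lm {P A C P' A' C' a x} ha hx := by
    have h := w.mul_mem ha hx
    change a * x ∈ w.pc (P + P' + 1) (A + A') (C + C' - s)
    rwa [show P + (P' + 1) = P + P' + 1 by ring, show C + (C' - s) = C + C' - s by ring] at h
  rm {P A C P' A' C' x b} hx hb := by
    have h := w.mul_mem hx hb
    change x * b ∈ w.pc (P + P' + 1) (A + A') (C + C' - s)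
    rwa [show P + 1 + P' = P + P' + 1 by ring, show C - s + C' = C + C' - s by ring] at h
  d := w.D
  d_mem {P A C x} hx := by
    have h := w.D_mem hx
    rwa [show C - (s : ℤ) - 1 = C - 1 - s by ring] at h
  d_d := w.D_D
  leibl a x := w.D_mul a x
  leibr b x := by
    change w.D (x * b) = x * w.D b + w.D x * b
    rw [w.D_mul, add_comm]
  p0 := 0
  a0 := 0

theorem tLT_eq (π : DefsQ830.Par K) (s : ℕ) : SM890.tLT π s = sqT (WL221.WL π) s := rfl

variable (w : WD K) (s : ℕ)

theorem q_sqT (i j : w.Ob) (k : ℤ) :
    (sqT w s).q i j k = w.pc (w.P i - w.P j + 1) (w.A i - w.A j) (k - s) := by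
  change w.pc (w.P i - w.P j + 0 + 1) (w.A i - w.A j + 0) (k - s) = _
  rw [add_zero, add_zero]

theorem E_sqT (i j : w.Ob) :
    Core890.E (sqT w s) i j = ⨆ k : ℤ, w.pc (w.P i - w.P j + 1) (w.A i - w.A j) k := by
  unfold Core890.E
  simp only [q_sqT]
  exact (Equiv.subRight (s : ℤ)).iSup_comp
    (g := fun k : ℤ => w.pc (w.P i - w.P j + 1) (w.A i - w.A j) k)

/-- the square -/
abbrev sq : BM w.dga w.dga := winS (sqT w s)

/-- element of the square -/
def mkS (m : w.Ob → w.Ob → w.S)
    (h : ∀ i j, m i j ∈ ⨆ k : ℤ, w.pc (w.P i - w.P j + 1) (w.A i - w.A j) k) : (sq w s).X :=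
  (⟨m, fun i j => (le_of_eq (E_sqT w s i j).symm) (h i j)⟩ : Xs (sqT w s))

variable {w s}

theorem mem_gr_sq {k : ℤ} {m : (sq w s).X} : m ∈ (sq w s).gr k ↔
    ∀ i j, m.1 i j ∈ w.pc (w.P i - w.P j + 1) (w.A i - w.A j) (k - s) := by
  constructor
  · intro h i j
    exact (le_of_eq (q_sqT w s i j k)) (h i j)
  · intro h i j
    exact (le_of_eq (q_sqT w s i j k).symm) (h i j)

theorem sq_ent (m : (sq w s).X) (i j : w.Ob) :
    m.1 i j ∈ ⨆ k : ℤ, w.pc (w.P i - w.P j + 1) (w.A i - w.A j) k :=
  (le_of_eq (E_sqT w s i j)) (m.2 i j)

theorem sq_ext {m n : (sq w s).X} (h : ∀ i j, m.1 i j = n.1 i j) : m = n :=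
  Subtype.ext (funext fun i => funext fun j => h i j)

theorem sq_smul (x : w.dga.C) (m : (sq w s).X) (i j : w.Ob) :
    (x • m).1 i j = ∑ l, (show w.Win from x).1 i l * (show w.S from m.1 l j) := rfl

theorem sq_op_smul (x : w.dga.C) (m : (sq w s).X) (i j : w.Ob) :
    (op x • m).1 i j = ∑ l, (show w.S from m.1 i l) * (show w.Win from x).1 l j := rfl

theorem sq_d (m : (sq w s).X) (i j : w.Ob) : ((sq w s).d m).1 i j = w.D (m.1 i j) := rfl

/-! ### the pairing of columns and rows -/

/-- columns times rows -/
def mc {p p' a c c' : ℤ} (hp : p' = p + 1) :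
    (col w p a c).X →ₗ[K] (row w p' a c').X →ₗ[K] (sq w s).X :=
  LinearMap.mk₂ K (fun n m => mkS w s (fun i j => n.1 i * m.1 j) (fun i j => by
      refine mul_isup (f := fun k => w.pc (w.P i - p) (w.A i - a) k)
        (g := fun k => w.pc (p' - w.P j) (a - w.A j) k) ?_ (n.2 i) (m.2 j)
      intro k l x y hx hy
      have h := w.mul_mem hx hy
      refine Submodule.mem_iSup_of_mem (k + l) ?_
      rwa [show w.P i - p + (p' - w.P j) = w.P i - w.P j + 1 by rw [hp]; ring,
        show w.A i - a + (a - w.A j) = w.A i - w.A j by ring] at h))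
    (fun n n' m => sq_ext fun i j => add_mul (n.1 i) (n'.1 i) (m.1 j))
    (fun c n m => sq_ext fun i j => smul_mul_assoc c (n.1 i) (m.1 j))
    (fun n m m' => sq_ext fun i j => mul_add (n.1 i) (m.1 j) (m'.1 j))
    (fun c n m => sq_ext fun i j => mul_smul_comm c (n.1 i) (m.1 j))

theorem mc_apply {p p' a c c' : ℤ} (hp : p' = p + 1) (n : (col w p a c).X) (m : (row w p' a c').X)
    (i j : w.Ob) : (mc (s := s) hp n m).1 i j = n.1 i * m.1 j := rfl

theorem mc_h1 {p p' a c c' : ℤ} (hp : p' = p + 1) (x : w.dga.C) (n : (col w p a c).X)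
    (m : (row w p' a c').X) : mc (s := s) hp (x • n) m = x • mc (s := s) hp n m := by
  refine sq_ext fun i j => ?_
  rw [sq_smul]
  change (∑ l, (show w.Win from x).1 i l * n.1 l) * m.1 j = _
  rw [Finset.sum_mul]
  exact Finset.sum_congr rfl fun l _ => mul_assoc _ _ _

theorem mc_h2 {p p' a c c' : ℤ} (hp : p' = p + 1) (n : (col w p a c).X)
    (m : (row w p' a c').X) : (sq w s).toLM.d (mc (s := s) hp n m) =
      mc (s := s) hp ((col w p a c).d n) m + mc (s := s) hp n ((row w p' a c').d m) :=
  sq_ext fun i j => w.D_mul _ _

theorem mc_h3 {p p' a c c' : ℤ} (hp : p' = p + 1) (hc : c + c' = s) {k l : ℤ}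
    {n : (col w p a c).X} {m : (row w p' a c').X} (hn : n ∈ (col w p a c).gr k)
    (hm : m ∈ (row w p' a c').gr l) : mc (s := s) hp n m ∈ (sq w s).toLM.gr (k + l) := by
  refine mem_gr_sq.2 fun i j => ?_
  have h := w.mul_mem (hn i) (hm j)
  rwa [show w.P i - p + (p' - w.P j) = w.P i - w.P j + 1 by rw [hp]; ring,
    show w.A i - a + (a - w.A j) = w.A i - w.A j by ring,
    show k - c + (l - c') = k + l - s by rw [← hc]; ring] at h

/-- the pairing of `Y ⊗ column` with the row -/
def prC {Y : RCells w.dga} (R : RAug Y (DR (sq w s).toLM)) (p p' a c c' : ℤ) (hp : p' = p + 1)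
    (hc : c + c' = s) : Pr (shG R.lo (tY Y (col w p a c))) (row w p' a c') :=
  prY R (col w p a c) (row w p' a c') (mc hp) (mc_h1 hp) (mc_h2 hp) (mc_h3 hp hc)

theorem prC_adj {Y : RCells w.dga} (R : RAug Y (DR (sq w s).toLM)) (p p' a c c' : ℤ)
    (hp : p' = p + 1) (hc : c + c' = s) (x) (m) :
    (prC R p p' a c c' hp hc).b ((shG R.lo (tY Y (col w p a c))).d x) m =
      (prC R p p' a c c' hp hc).b x ((row w p' a c').d m) :=
  prB_adj R (col w p a c) (row w p' a c') (mc hp) (mc_h1 hp) (mc_h2 hp) x m

/-- **the property (beta) for one column** -/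
def Good {Y : RCells w.dga} (R : RAug Y (DR (sq w s).toLM)) (p p' a c c' : ℤ) (hp : p' = p + 1)
    (hc : c + c' = s) : Prop :=
  QI (Pr.homG (prC R p p' a c c' hp hc) (prC_adj R p p' a c c' hp hc))

/-- functoriality of the form -/
theorem prB_map {A : DGA K} {Y : RCells A} {M : LM A} (R : RAug Y (DR M)) {N N' : LM A}
    {P P' : GC K} (μ : N.X →ₗ[K] P.X →ₗ[K] M.X) (μ' : N'.X →ₗ[K] P'.X →ₗ[K] M.X)
    (φ : LMHom N N') (ρ : P'.X →ₗ[K] P.X) (h : ∀ n p, μ' (φ.f n) p = μ n (ρ p))
    (x : Y.ι →₀ N.X) (p : P'.X) :
    prB R N' P' μ' ((tYmap Y φ).f x) p = prB R N P μ x (ρ p) := by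
  induction x using Finsupp.induction_linear with
  | zero => simp
  | add x y hx hy =>
    rw [map_add, map_add, map_add, LinearMap.add_apply, LinearMap.add_apply, hx, hy]
  | single σ n =>
    rw [tYmap_single, prB_single, prB_single, h]

/-! ### columns and rows of the square and of the algebra -/

section maps

variable (w s)

/-- column of the square -/
def sCo (j : w.Ob) (p : ℤ) (hp : p = w.P j - 1) : LMHom (sq w s).toLM (col w p (w.A j) s) where
  f :=
    { toFun := fun m => (⟨fun i => m.1 i j, fun i => by
        have h := sq_ent m i j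
        rwa [show w.P i - w.P j + 1 = w.P i - p by rw [hp]; ring] at h⟩ : cX w p (w.A j))
      map_add' := fun _ _ => rfl
      map_smul' := fun _ _ => rfl }
  f_mem := by
    intro k m hm i
    have h := mem_gr_sq.1 hm i j
    rwa [show w.P i - w.P j + 1 = w.P i - p by rw [hp]; ring] at h
  f_d _ := rfl
  smul _ _ := rfl

/-- a column as a square -/
def sCi (j : w.Ob) (p : ℤ) (hp : p = w.P j - 1) : LMHom (col w p (w.A j) s) (sq w s).toLM where
  f :=
    { toFun := fun n => mkS w s (fun i j' => if j = j' then n.1 i else 0) (fun i j' => by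
        by_cases h : j = j'
        · subst h
          rw [if_pos rfl, show w.P i - w.P j + 1 = w.P i - p by rw [hp]; ring]
          exact n.2 i
        · rw [if_neg h]
          exact Submodule.zero_mem _)
      map_add' := fun m n => sq_ext fun i j' => by
        change (if j = j' then m.1 i + n.1 i else 0) = (if j = j' then m.1 i else 0) +
          (if j = j' then n.1 i else 0)
        split_ifs
        · rfl
        · rw [add_zero]
      map_smul' := fun c m => sq_ext fun i j' => by
        change (if j = j' then c • m.1 i else 0) = c • (if j = j' then m.1 i else 0)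
        split_ifs
        · rfl
        · rw [smul_zero] }
  f_mem := by
    intro k n hn
    refine mem_gr_sq.2 fun i j' => ?_
    change (if j = j' then n.1 i else 0) ∈ _
    by_cases h : j = j'
    · subst h
      rw [if_pos rfl, show w.P i - w.P j + 1 = w.P i - p by rw [hp]; ring]
      exact hn i
    · rw [if_neg h]
      exact Submodule.zero_mem _
  f_d n := sq_ext fun i j' => by
    change (if j = j' then w.D (n.1 i) else 0) = w.D (if j = j' then n.1 i else 0)
    split_ifs
    · rfl
    · rw [map_zero]
  smul x n := sq_ext fun i j' => by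
    rw [sq_smul]
    change (if j = j' then ∑ l, (show w.Win from x).1 i l * n.1 l else 0) =
      ∑ l, (show w.Win from x).1 i l * (if j = j' then n.1 l else 0)
    split_ifs
    · rfl
    · simp

/-- row of the square -/
def sRo (i : w.Ob) (p : ℤ) (hp : p = w.P i + 1) : GCHom (sq w s).toGC (row w p (w.A i) s) where
  f :=
    { toFun := fun m => (⟨fun j => m.1 i j, fun j => by
        have h := sq_ent m i j
        rwa [show w.P i - w.P j + 1 = p - w.P j by rw [hp]; ring] at h⟩ : rX w p (w.A i))
      map_add' := fun _ _ => rfl
      map_smul' := fun _ _ => rfl }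
  f_mem := by
    intro k m hm j
    have h := mem_gr_sq.1 hm i j
    rwa [show w.P i - w.P j + 1 = p - w.P j by rw [hp]; ring] at h
  f_d _ := rfl

/-- a row as a square -/
def sRi (i : w.Ob) (p : ℤ) (hp : p = w.P i + 1) : GCHom (row w p (w.A i) s) (sq w s).toGC where
  f :=
    { toFun := fun n => mkS w s (fun i' j => if i = i' then n.1 j else 0) (fun i' j => by
        by_cases h : i = i'
        · subst h
          rw [if_pos rfl, show w.P i - w.P j + 1 = p - w.P j by rw [hp]; ring]
          exact n.2 j
        · rw [if_neg h]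
          exact Submodule.zero_mem _)
      map_add' := fun m n => sq_ext fun i' j => by
        change (if i = i' then m.1 j + n.1 j else 0) = (if i = i' then m.1 j else 0) +
          (if i = i' then n.1 j else 0)
        split_ifs
        · rfl
        · rw [add_zero]
      map_smul' := fun c m => sq_ext fun i' j => by
        change (if i = i' then c • m.1 j else 0) = c • (if i = i' then m.1 j else 0)
        split_ifs
        · rfl
        · rw [smul_zero] }
  f_mem := by
    intro k n hn
    refine mem_gr_sq.2 fun i' j => ?_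
    change (if i = i' then n.1 j else 0) ∈ _
    by_cases h : i = i'
    · subst h
      rw [if_pos rfl, show w.P i - w.P j + 1 = p - w.P j by rw [hp]; ring]
      exact hn j
    · rw [if_neg h]
      exact Submodule.zero_mem _
  f_d n := sq_ext fun i' j => by
    change (if i = i' then w.D (n.1 j) else 0) = w.D (if i = i' then n.1 j else 0)
    split_ifs
    · rfl
    · rw [map_zero]

/-- element of the algebra -/
def mkA (m : w.Ob → w.Ob → w.S) (h : ∀ i j, m i j ∈ w.E i j) : w.dga.C :=
  (⟨Matrix.of m, fun i j => h i j⟩ : w.Win)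

/-- column of the algebra -/
def aCo (j : w.Ob) (p : ℤ) (hp : p = w.P j) : LMHom (selfL w.dga) (col w p (w.A j) 0) where
  f :=
    { toFun := fun m => (⟨fun i => (show w.Win from m).1 i j, fun i => by
        have h : (show w.Win from m).1 i j ∈ w.E i j := (show w.Win from m).2 i j
        subst hp
        exact h⟩ : cX w p (w.A j))
      map_add' := fun _ _ => rfl
      map_smul' := fun _ _ => rfl }
  f_mem := by
    intro k m hm i
    have h : (show w.Win from m).1 i j ∈ w.q i j k := hm i j
    subst hp
    change (show w.Win from m).1 i j ∈ w.pc (w.P i - w.P j) (w.A i - w.A j) (k - 0)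
    rw [sub_zero]
    exact h
  f_d _ := rfl
  smul x m := by
    apply Subtype.ext
    funext i
    exact Matrix.mul_apply

/-- a column as an element of the algebra -/
def aCi (j : w.Ob) (p : ℤ) (hp : p = w.P j) : LMHom (col w p (w.A j) 0) (selfL w.dga) where
  f :=
    { toFun := fun n => mkA w (fun i j' => if j = j' then n.1 i else 0) (fun i j' => by
        by_cases h : j = j'
        · subst h
          rw [if_pos rfl]
          have h2 := n.2 i
          subst hp
          exact h2
        · rw [if_neg h]
          exact Submodule.zero_mem _)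
      map_add' := fun m n => by
        apply Subtype.ext
        funext i j'
        change (if j = j' then m.1 i + n.1 i else 0) = (if j = j' then m.1 i else 0) +
          (if j = j' then n.1 i else 0)
        split_ifs
        · rfl
        · rw [add_zero]
      map_smul' := fun c m => by
        apply Subtype.ext
        funext i j'
        change (if j = j' then c • m.1 i else 0) = c • (if j = j' then m.1 i else 0)
        split_ifs
        · rfl
        · rw [smul_zero] }
  f_mem := by
    intro k n hn i j'
    change (if j = j' then n.1 i else 0) ∈ w.q i j' k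
    by_cases h : j = j'
    · subst h
      rw [if_pos rfl]
      have h2 := hn i
      rw [sub_zero] at h2
      subst hp
      exact h2
    · rw [if_neg h]
      exact Submodule.zero_mem _
  f_d n := by
    apply Subtype.ext
    funext i j'
    change (if j = j' then w.D (n.1 i) else 0) = w.D (if j = j' then n.1 i else 0)
    split_ifs
    · rfl
    · rw [map_zero]
  smul x n := by
    apply Subtype.ext
    funext i j'
    refine Eq.trans ?_ Matrix.mul_apply.symm
    change (if j = j' then ∑ l, (show w.Win from x).1 i l * n.1 l else 0) =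
      ∑ l, (show w.Win from x).1 i l * (if j = j' then n.1 l else 0)
    split_ifs
    · rfl
    · simp

/-- row of the algebra -/
def aRo (i : w.Ob) (p : ℤ) (hp : p = w.P i) : GCHom (selfL w.dga).toGC (row w p (w.A i) 0) where
  f :=
    { toFun := fun m => (⟨fun j => (show w.Win from m).1 i j, fun j => by
        have h : (show w.Win from m).1 i j ∈ w.E i j := (show w.Win from m).2 i j
        subst hp
        exact h⟩ : rX w p (w.A i))
      map_add' := fun _ _ => rfl
      map_smul' := fun _ _ => rfl }
  f_mem := by
    intro k m hm j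
    have h : (show w.Win from m).1 i j ∈ w.q i j k := hm i j
    subst hp
    change (show w.Win from m).1 i j ∈ w.pc (w.P i - w.P j) (w.A i - w.A j) (k - 0)
    rw [sub_zero]
    exact h
  f_d _ := rfl

/-- a row as an element of the algebra -/
def aRi (i : w.Ob) (p : ℤ) (hp : p = w.P i) : GCHom (row w p (w.A i) 0) (selfL w.dga).toGC where
  f :=
    { toFun := fun n => mkA w (fun i' j => if i = i' then n.1 j else 0) (fun i' j => by
        by_cases h : i = i'
        · subst h
          rw [if_pos rfl]
          have h2 := n.2 j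
          subst hp
          exact h2
        · rw [if_neg h]
          exact Submodule.zero_mem _)
      map_add' := fun m n => by
        apply Subtype.ext
        funext i' j
        change (if i = i' then m.1 j + n.1 j else 0) = (if i = i' then m.1 j else 0) +
          (if i = i' then n.1 j else 0)
        split_ifs
        · rfl
        · rw [add_zero]
      map_smul' := fun c m => by
        apply Subtype.ext
        funext i' j
        change (if i = i' then c • m.1 j else 0) = c • (if i = i' then m.1 j else 0)
        split_ifs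
        · rfl
        · rw [smul_zero] }
  f_mem := by
    intro k n hn i' j
    change (if i = i' then n.1 j else 0) ∈ w.q i' j k
    by_cases h : i = i'
    · subst h
      rw [if_pos rfl]
      have h2 := hn j
      rw [sub_zero] at h2
      subst hp
      exact h2
    · rw [if_neg h]
      exact Submodule.zero_mem _
  f_d n := by
    apply Subtype.ext
    funext i' j
    change (if i = i' then w.D (n.1 j) else 0) = w.D (if i = i' then n.1 j else 0)
    split_ifs
    · rfl
    · rw [map_zero]

end maps

end Crest.Agent.R186.C1d605
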