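import Crest.Agent.R186.C1d_605
import Crest.Agent.R186.C1Q_611

/-!
Row 186, half (A), leaf A.C1 (helper605), part (beta), file 4: the resolution property gives `Good`
for the columns of the algebra; `Good` for the columns of the square gives (beta).
-/

set_option autoImplicit false
set_option linter.unusedSectionVars false

noncomputable section

open MulOpposite

namespace Crest.Agent.R186.C1e605

open Hat827 Win810 Frame515 TB143 Res255 C1a605 C1b605 C1c605 C1d605 FinV988 Core890 WBM163 GrP44
  C1Q611

variable {K : Type} [Field K]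

/-! ### the regular pairing -/

section reg

variable {A : DGA K} (M : LM A)

/-- the action as a bilinear map -/
def mu0 : A.C →ₗ[K] M.X →ₗ[K] M.X :=
  LinearMap.mk₂ K (fun (a : A.C) (m : M.X) => a • m) (fun a b m => add_smul a b m)
    (fun c a m => smul_assoc c a m) (fun a m n => smul_add a m n)
    (fun c a m => (lmul M a).map_smul c m)

/-- the action as a bilinear map -/
def mu1 : (selfL A).X →ₗ[K] M.X →ₗ[K] M.X := mu0 M

theorem mu1_apply (a : A.C) (m : M.X) : mu1 M a m = a • m := rfl

variable {Y : RCells A} {M} (R : RAug Y (DR M))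

/-- the pairing of `Y ⊗ A` with `M` -/
def prA : Pr (shG R.lo (tY Y (selfL A))) M.toGC :=
  prY R (selfL A) M.toGC (mu1 M) (fun a n p => mul_smul a (show A.C from n) p)
    (fun n p => M.leib (show A.C from n) p) (fun hn hp => M.smul_mem hn hp)

theorem prA_adj (x) (m : M.X) :
    (prA R).b ((shG R.lo (tY Y (selfL A))).d x) m = (prA R).b x (M.d m) :=
  prB_adj R (selfL A) M.toGC (mu1 M) (fun a n p => mul_smul a (show A.C from n) p)
    (fun n p => M.leib (show A.C from n) p) x m

theorem prA_eq (x : Y.ι →₀ A.C) (m : M.X) :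
    (prA R).b x m = dev M m (augR Y (DR M) R.v x) := by
  induction x using Finsupp.induction_linear with
  | zero =>
    rw [map_zero, map_zero]
    exact LinearMap.congr_fun (map_zero (prA R).b) m
  | add x y hx hy =>
    rw [map_add, map_add, ← hx, ← hy]
    exact LinearMap.congr_fun (map_add (prA R).b x y) m
  | single σ a =>
    rw [augR_single]
    exact prB_single R (selfL A) M.toGC (mu1 M) σ a m

theorem prA_qi (R : RRes Y (DR M)) : QI (Pr.homG (prA R.toRAug) (prA_adj R.toRAug)) := by
  refine qi_of_ce (lo := R.lo) (X := tY Y (selfL A)) (Y := DG M.toGC) (fun k => ?_)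
  intro x n hx hd hn e
  have e' : augR Y (DR M) R.v x + (DR M).d n = 0 := by
    refine DR_ext fun z => ?_
    refine (map_add (dev M z) _ _).trans ?_
    refine (congrArg (· + dev M z ((DR M).d n)) (prA_eq R.toRAug x z).symm).trans ?_
    exact LinearMap.congr_fun e z
  obtain ⟨y, hy, n', hn', e1, e2⟩ := R.ex k x n hx hd hn e'
  refine ⟨y, hy, n', hn', e1, ?_⟩
  refine LinearMap.ext fun z => ?_
  refine (congrArg (dev M z) e2).trans ?_
  refine (map_add (dev M z) _ _).trans ?_
  exact congrArg (· + dev M z ((DR M).d n')) (prA_eq R.toRAug y z).symm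

end reg

/-! ### columns of the algebra -/

section one

variable {w : WD K} {s : ℕ} {Y : RCells w.dga}

/-- **`Good` for the columns of the algebra** -/
theorem good_of_res (R : RRes Y (DR (sq w s).toLM)) (j : w.Ob) :
    Good R.toRAug (w.P j) (w.P j + 1) (w.A j) 0 s rfl (zero_add _) := by
  refine qi_parts (Pr.homG (prA R.toRAug) (prA_adj R.toRAug))
    (fun j : w.Ob => Pr.homG (prC R.toRAug (w.P j) (w.P j + 1) (w.A j) 0 s rfl (zero_add _))
      (prC_adj R.toRAug (w.P j) (w.P j + 1) (w.A j) 0 s rfl (zero_add _)))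
    (fun j => shH R.lo (tYmap Y (aCi w j (w.P j) rfl)))
    (fun j => shH R.lo (tYmap Y (aCo w j (w.P j) rfl)))
    (fun j => DGmap (sRo w s j (w.P j + 1) rfl)) (fun j => DGmap (sRi w s j (w.P j + 1) rfl))
    ?_ ?_ ?_ ?_ (prA_qi R) j
  · intro j x
    refine LinearMap.ext fun m => ?_
    refine prB_map R.toRAug (N := col w (w.P j) (w.A j) 0) (N' := selfL w.dga)
      (P := row w (w.P j + 1) (w.A j) s) (P' := (sq w s).toGC) (mc rfl) (mu1 (sq w s).toLM)
      (aCi w j (w.P j) rfl) (sRo w s j (w.P j + 1) rfl).f (fun n p => ?_) x m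
    refine sq_ext fun i k => ?_
    change ∑ l, (if j = l then n.1 i else 0) * (show w.S from p.1 l k) =
      n.1 i * (show w.S from p.1 j k)
    rw [Finset.sum_eq_single j]
    · rw [if_pos rfl]
    · intro l _ hl
      rw [if_neg (Ne.symm hl), zero_mul]
    · intro h
      exact absurd (Finset.mem_univ _) h
  · intro j x
    refine LinearMap.ext fun m => ?_
    refine (prB_map R.toRAug (N := selfL w.dga) (N' := col w (w.P j) (w.A j) 0)
      (P := (sq w s).toGC) (P' := row w (w.P j + 1) (w.A j) s) (mu1 (sq w s).toLM) (mc rfl)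
      (aCo w j (w.P j) rfl) (sRi w s j (w.P j + 1) rfl).f (fun n p => ?_) x m).symm
    refine sq_ext fun i k => ?_
    change (show w.Win from n).1 i j * p.1 k =
      ∑ l, (show w.Win from n).1 i l * (if j = l then p.1 k else 0)
    rw [Finset.sum_eq_single j]
    · rw [if_pos rfl]
    · intro l _ hl
      rw [if_neg (Ne.symm hl), mul_zero]
    · intro h
      exact absurd (Finset.mem_univ _) h
  · intro j x
    refine Finsupp.ext fun τ => ?_
    refine (tYmap_apply Y (aCo w j (w.P j) rfl) _ τ).trans ?_
    refine (congrArg _ (tYmap_apply Y (aCi w j (w.P j) rfl) x τ)).trans ?_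
    apply Subtype.ext
    funext i
    exact if_pos rfl
  · intro j φ
    refine LinearMap.ext fun m => ?_
    refine congrArg (show (row w (w.P j + 1) (w.A j) s).X →ₗ[K] K from φ) ?_
    apply Subtype.ext
    funext i
    exact if_pos rfl

end one

/-! ### from the columns of the square to (beta) -/

section three

variable {w : WD K} {s : ℕ} {Y : RCells w.dga} (R : RAug Y (DR (sq w s).toLM))

/-- the pairing of `Y ⊗ tL` with `L` -/
def prS : Pr (shG R.lo (tY Y (sq w s).toLM)) (selfL w.dga).toGC :=
  prY R (sq w s).toLM (selfL w.dga).toGC (rb (sq w s))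
    (fun a n p => (smul_comm a (op (show w.dga.C from p)) n).symm)
    (fun n p => by
      refine ((sq w s).leibR (show w.dga.C from p) n).trans ?_
      rw [add_comm]
      rfl)
    (fun {k l} {n} {p} hn hp => by
      have h := (sq w s).smul_memR hp hn
      rw [add_comm] at h
      exact h)

theorem prS_adj (x) (m) :
    (prS R).b ((shG R.lo (tY Y (sq w s).toLM)).d x) m = (prS R).b x ((selfL w.dga).d m) :=
  prB_adj R (sq w s).toLM (selfL w.dga).toGC (rb (sq w s))
    (fun a n p => (smul_comm a (op (show w.dga.C from p)) n).symm)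
    (fun n p => by
      refine ((sq w s).leibR (show w.dga.C from p) n).trans ?_
      rw [add_comm]
      rfl) x m

/-- **(beta) from the columns** -/
theorem beta_of_good (h : ∀ j : w.Ob, Good R (w.P j - 1) (w.P j) (w.A j) s 0
    (by ring) (add_zero _)) : QI (Pr.homG (prS R) (prS_adj R)) := by
  refine qi_of_parts (Pr.homG (prS R) (prS_adj R))
    (fun j : w.Ob => Pr.homG (prC R (w.P j - 1) (w.P j) (w.A j) s 0 (by ring) (add_zero _))
      (prC_adj R (w.P j - 1) (w.P j) (w.A j) s 0 (by ring) (add_zero _)))
    (fun j => shH R.lo (tYmap Y (sCi w s j (w.P j - 1) rfl)))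
    (fun j => shH R.lo (tYmap Y (sCo w s j (w.P j - 1) rfl)))
    (fun j => DGmap (aRo w j (w.P j) rfl)) (fun j => DGmap (aRi w j (w.P j) rfl))
    ?_ ?_ ?_ ?_ h
  · intro j x
    refine LinearMap.ext fun m => ?_
    refine prB_map R (N := col w (w.P j - 1) (w.A j) s) (N' := (sq w s).toLM)
      (P := row w (w.P j) (w.A j) 0) (P' := (selfL w.dga).toGC) (mc (by ring)) (rb (sq w s))
      (sCi w s j (w.P j - 1) rfl) (aRo w j (w.P j) rfl).f (fun n p => ?_) x m
    refine sq_ext fun i k => ?_
    change ∑ l, (if j = l then n.1 i else 0) * (show w.Win from p).1 l k =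
      n.1 i * (show w.Win from p).1 j k
    rw [Finset.sum_eq_single j]
    · rw [if_pos rfl]
    · intro l _ hl
      rw [if_neg (Ne.symm hl), zero_mul]
    · intro h
      exact absurd (Finset.mem_univ _) h
  · intro j x
    refine LinearMap.ext fun m => ?_
    refine (prB_map R (N := (sq w s).toLM) (N' := col w (w.P j - 1) (w.A j) s)
      (P := (selfL w.dga).toGC) (P' := row w (w.P j) (w.A j) 0) (rb (sq w s)) (mc (by ring))
      (sCo w s j (w.P j - 1) rfl) (aRi w j (w.P j) rfl).f (fun n p => ?_) x m).symm
    refine sq_ext fun i k => ?_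
    change (show w.S from n.1 i j) * p.1 k =
      ∑ l, (show w.S from n.1 i l) * (if j = l then p.1 k else 0)
    rw [Finset.sum_eq_single j]
    · rw [if_pos rfl]
    · intro l _ hl
      rw [if_neg (Ne.symm hl), mul_zero]
    · intro h
      exact absurd (Finset.mem_univ _) h
  · intro x
    refine Finsupp.ext fun τ => ?_
    rw [Finset.sum_apply']
    have e : ∀ j : w.Ob, ((shH R.lo (tYmap Y (sCi w s j (w.P j - 1) rfl))).f
        ((shH R.lo (tYmap Y (sCo w s j (w.P j - 1) rfl))).f x) : Y.ι →₀ (sq w s).X) τ =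
        (sCi w s j (w.P j - 1) rfl).f ((sCo w s j (w.P j - 1) rfl).f (x τ)) := fun j =>
      (tYmap_apply Y (sCi w s j (w.P j - 1) rfl) _ τ).trans
        (congrArg _ (tYmap_apply Y (sCo w s j (w.P j - 1) rfl) x τ))
    refine (Finset.sum_congr rfl fun j _ => e j).trans ?_
    refine sq_ext fun i k => ?_
    refine (coe_sumS (T := sqT w s) _ _ i k).trans ?_
    change ∑ j : w.Ob, (if j = k then (show w.S from (x τ).1 i j) else 0) = (x τ).1 i k
    rw [Finset.sum_ite_eq' Finset.univ k, if_pos (Finset.mem_univ _)]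
  · intro φ
    refine LinearMap.ext fun m => ?_
    refine (LinearMap.sum_apply (Finset.univ) (fun j : w.Ob =>
      (show (selfL w.dga).X →ₗ[K] K from (DGmap (aRo w j (w.P j) rfl)).f
        ((DGmap (aRi w j (w.P j) rfl)).f φ))) m).trans ?_
    refine (map_sum (show (selfL w.dga).X →ₗ[K] K from φ)
      (fun j : w.Ob => (aRi w j (w.P j) rfl).f ((aRo w j (w.P j) rfl).f m)) Finset.univ).symm.trans ?_
    refine congrArg (show (selfL w.dga).X →ₗ[K] K from φ) ?_
    apply Subtype.ext
    funext i k
    refine (GCells.sum_apply _ _ i k).trans ?_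
    change ∑ j : w.Ob, (if j = i then (show w.Win from m).1 j k else 0) = (show w.Win from m).1 i k
    rw [Finset.sum_ite_eq' Finset.univ i, if_pos (Finset.mem_univ _)]

end three

end Crest.Agent.R186.C1e605
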