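import Crest.Agent.R186.C1e_605
import Crest.Agent.R186.KzE_890

/-!
Row 186, half (A), leaf A.C1 (helper605), part (beta), file 5: the Koszul five lemma and **(beta)**.
-/

set_option autoImplicit false
set_option linter.unusedSectionVars false

noncomputable section

open MulOpposite

namespace Crest.Agent.R186.C1f605

open Hat827 Win810 Frame515 TB143 Res255 C1a605 C1b605 C1c605 C1d605 C1e605 FinV988 Core890 WBM163
  GrP44 C1Q611 KzE890 WL221 SM890

variable {K : Type} [Field K]

/-! ### direct sums -/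

section prod

variable {A : DGA K}

/-- direct sum of left modules -/
def pL (N N' : LM A) : LM A where
  X := N.X × N'.X
  gr k := (N.gr k).prod (N'.gr k)
  d := N.d.prodMap N'.d
  d_mem h := ⟨N.d_mem h.1, N'.d_mem h.2⟩
  d_d x := Prod.ext (N.d_d x.1) (N'.d_d x.2)
  smul_mem ha hx := ⟨N.smul_mem ha hx.1, N'.smul_mem ha hx.2⟩
  leib a x := Prod.ext (N.leib a x.1) (N'.leib a x.2)

/-- direct sum of complexes -/
def pG (P P' : GC K) : GC K where
  X := P.X × P'.X
  gr k := (P.gr k).prod (P'.gr k)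
  d := P.d.prodMap P'.d
  d_mem h := ⟨P.d_mem h.1, P'.d_mem h.2⟩
  d_d x := Prod.ext (P.d_d x.1) (P'.d_d x.2)

/-- the split sequence of modules -/
def pLses (N N' : LM A) : LSES N (pL N N') N' where
  i :=
    { f := LinearMap.inl K N.X N'.X
      f_mem := fun h => ⟨h, Submodule.zero_mem _⟩
      f_d := fun x => Prod.ext rfl (map_zero N'.d).symm }
  p :=
    { f := LinearMap.snd K N.X N'.X
      f_mem := fun h => h.2
      f_d := fun x => rfl }
  zero _ := rfl
  inj _ h := congrArg Prod.fst h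
  ex {k y} hy h := ⟨y.1, hy.1, Prod.ext rfl h.symm⟩
  sur {k z} hz := ⟨(0, z), ⟨Submodule.zero_mem _, hz⟩, rfl⟩
  smul_i a x := Prod.ext rfl (smul_zero a).symm
  smul_p a x := rfl

/-- the split sequence of complexes, the other way -/
def pGses (P P' : GC K) : SES P' (pG P P') P where
  i :=
    { f := LinearMap.inr K P.X P'.X
      f_mem := fun h => ⟨Submodule.zero_mem _, h⟩
      f_d := fun x => Prod.ext (map_zero P.d).symm rfl }
  p :=
    { f := LinearMap.fst K P.X P'.X
      f_mem := fun h => h.1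
      f_d := fun x => rfl }
  zero _ := rfl
  inj _ h := congrArg Prod.snd h
  ex {k y} hy h := ⟨y.2, hy.2, Prod.ext h.symm rfl⟩
  sur {k z} hz := ⟨(z, 0), ⟨hz, Submodule.zero_mem _⟩, rfl⟩

variable {Y : RCells A} {M : LM A} (R : RAug Y (DR M)) {N N' : LM A} {P P' : GC K}
  (μ : N.X →ₗ[K] P.X →ₗ[K] M.X) (h1 : ∀ (a : A.C) (n : N.X) (p : P.X), μ (a • n) p = a • μ n p)
  (h2 : ∀ (n : N.X) (p : P.X), M.d (μ n p) = μ (N.d n) p + μ n (P.d p))
  (h3 : ∀ {k l : ℤ} {n : N.X} {p : P.X}, n ∈ N.gr k → p ∈ P.gr l → μ n p ∈ M.gr (k + l))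
  (μ' : N'.X →ₗ[K] P'.X →ₗ[K] M.X)
  (h1' : ∀ (a : A.C) (n : N'.X) (p : P'.X), μ' (a • n) p = a • μ' n p)
  (h2' : ∀ (n : N'.X) (p : P'.X), M.d (μ' n p) = μ' (N'.d n) p + μ' n (P'.d p))
  (h3' : ∀ {k l : ℤ} {n : N'.X} {p : P'.X}, n ∈ N'.gr k → p ∈ P'.gr l → μ' n p ∈ M.gr (k + l))

/-- the sum of two bilinear maps -/
def pmu : (pL N N').X →ₗ[K] (pG P P').X →ₗ[K] M.X :=
  ((μ.compl₂ (LinearMap.fst K P.X P'.X)) ∘ₗ LinearMap.fst K N.X N'.X) +
    ((μ'.compl₂ (LinearMap.snd K P.X P'.X)) ∘ₗ LinearMap.snd K N.X N'.X)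

theorem pmu_apply (n : N.X) (n' : N'.X) (p : P.X) (p' : P'.X) :
    pmu μ μ' ((n, n') : N.X × N'.X) ((p, p') : P.X × P'.X) = μ n p + μ' n' p' := rfl

/-- the pairing of the direct sums -/
def prP : Pr (shG R.lo (tY Y (pL N N'))) (pG P P') :=
  prY R (pL N N') (pG P P') (pmu μ μ')
    (fun a n p => by
      change μ (a • n.1) p.1 + μ' (a • n.2) p.2 = a • (μ n.1 p.1 + μ' n.2 p.2)
      rw [h1, h1', smul_add])
    (fun n p => by
      change M.d (μ n.1 p.1 + μ' n.2 p.2) = (μ (N.d n.1) p.1 + μ' (N'.d n.2) p.2) +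
        (μ n.1 (P.d p.1) + μ' n.2 (P'.d p.2))
      rw [map_add, h2, h2']
      abel)
    (fun hn hp => Submodule.add_mem _ (h3 hn.1 hp.1) (h3' hn.2 hp.2))

theorem prP_qi (q1 : QI (prY R N P μ h1 h2 h3).hom) (q2 : QI (prY R N' P' μ' h1' h2' h3').hom) :
    QI (prP R μ h1 h2 h3 μ' h1' h2' h3').hom := by
  refine Pr.fiveM (shSES R.lo (tYses Y (pLses N N'))) (pGses P P') (prY R N P μ h1 h2 h3)
    (prP R μ h1 h2 h3 μ' h1' h2' h3') (prY R N' P' μ' h1' h2' h3') ?_ ?_ q1 q2
  · intro l x p _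
    refine prB_map R (N := N) (N' := pL N N') (P := P) (P' := pG P P') μ (pmu μ μ')
      ⟨(pLses N N').i, (pLses N N').smul_i⟩ (pGses P P').p.f (fun n p => ?_) x p
    change μ n p.1 + μ' 0 p.2 = μ n p.1
    rw [map_zero, LinearMap.zero_apply, add_zero]
  · intro l x p _
    refine prB_map R (N := pL N N') (N' := N') (P := pG P P') (P' := P') (pmu μ μ') μ'
      ⟨(pLses N N').p, (pLses N N').smul_p⟩ (pGses P P').i.f (fun n p => ?_) x p
    change μ' n.2 p = μ n.1 0 + μ' n.2 p
    rw [map_zero, zero_add]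

end prod

/-! ### the Koszul sequences -/

section koszul

variable (π : DefsQ830.Par K)

theorem P_nonneg (i : (WL π).Ob) : 0 ≤ (WL π).P i := Int.natCast_nonneg _

theorem P_le (i : (WL π).Ob) : (WL π).P i ≤ 1 := by
  have h : (show DefsQ830.Ob from i).1.val < 2 := (show DefsQ830.Ob from i).1.2
  have e : (WL π).P i = ((show DefsQ830.Ob from i).1.val : ℤ) := rfl
  omega

/-- right multiplication on columns -/
def cR (p p' a c : ℤ) (hp : p' = p - 1) (e : Fin 2) : LMHom (col (WL π) p a c) (col (WL π) p' a c) where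
  f :=
    { toFun := fun n => (⟨fun i => n.1 i * xL π e, fun i => by
        have h : (⨆ k : ℤ, (WL π).pc ((WL π).P i - p) ((WL π).A i - a) k) ≤
            (⨆ k : ℤ, (WL π).pc ((WL π).P i - p') ((WL π).A i - a) k).comap
              (LinearMap.mulRight K (xL π e)) := by
          refine iSup_le fun k x hx => ?_
          have h := (WL π).mul_mem hx (xL_mem π e)
          refine Submodule.mem_iSup_of_mem k ?_
          change x * xL π e ∈ _
          rwa [show (WL π).P i - p + 1 = (WL π).P i - p' by rw [hp]; ring, add_zero, add_zero] at h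
        exact h (n.2 i)⟩ : cX (WL π) p' a)
      map_add' := fun m n => by
        apply Subtype.ext
        funext i
        exact add_mul (m.1 i) (n.1 i) (xL π e)
      map_smul' := fun r m => by
        apply Subtype.ext
        funext i
        exact smul_mul_assoc r (m.1 i) (xL π e) }
  f_mem := by
    intro k n hn i
    have h := (WL π).mul_mem (hn i) (xL_mem π e)
    rwa [show (WL π).P i - p + 1 = (WL π).P i - p' by rw [hp]; ring, add_zero, add_zero] at h
  f_d n := by
    apply Subtype.ext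
    funext i
    change (WL π).D (n.1 i) * xL π e = (WL π).D (n.1 i * xL π e)
    rw [(WL π).D_mul, xL_D, mul_zero, add_zero]
  smul x n := by
    apply Subtype.ext
    funext i
    change (∑ l, (show (WL π).Win from x).1 i l * n.1 l) * xL π e =
      ∑ l, (show (WL π).Win from x).1 i l * (n.1 l * xL π e)
    rw [Finset.sum_mul]
    exact Finset.sum_congr rfl fun l _ => mul_assoc _ _ _

/-- left multiplication on rows -/
def rL (p p' a c : ℤ) (hp : p' = p + 1) (e : Fin 2) : GCHom (row (WL π) p a c) (row (WL π) p' a c) where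
  f :=
    { toFun := fun n => (⟨fun i => xL π e * n.1 i, fun i => by
        have h : (⨆ k : ℤ, (WL π).pc (p - (WL π).P i) (a - (WL π).A i) k) ≤
            (⨆ k : ℤ, (WL π).pc (p' - (WL π).P i) (a - (WL π).A i) k).comap
              (LinearMap.mulLeft K (xL π e)) := by
          refine iSup_le fun k x hx => ?_
          have h := (WL π).mul_mem (xL_mem π e) hx
          refine Submodule.mem_iSup_of_mem k ?_
          change xL π e * x ∈ _
          rwa [show 1 + (p - (WL π).P i) = p' - (WL π).P i by rw [hp]; ring, zero_add, zero_add] at h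
        exact h (n.2 i)⟩ : rX (WL π) p' a)
      map_add' := fun m n => by
        apply Subtype.ext
        funext i
        exact mul_add (xL π e) (m.1 i) (n.1 i)
      map_smul' := fun r m => by
        apply Subtype.ext
        funext i
        exact mul_smul_comm r (xL π e) (m.1 i) }
  f_mem := by
    intro k n hn i
    have h := (WL π).mul_mem (xL_mem π e) (hn i)
    rwa [show 1 + (p - (WL π).P i) = p' - (WL π).P i by rw [hp]; ring, zero_add, zero_add] at h
  f_d n := by
    apply Subtype.ext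
    funext i
    change xL π e * (WL π).D (n.1 i) = (WL π).D (xL π e * n.1 i)
    rw [(WL π).D_mul, xL_D, zero_mul, zero_add]

variable (a c : ℤ)

/-- **the Koszul sequence of columns** -/
def kC : LSES (col (WL π) 1 a c) (pL (col (WL π) 0 a c) (col (WL π) 0 a c)) (col (WL π) (-1) a c) where
  i :=
    { f := (cR π 1 0 a c (by ring) 1).f.prod (cR π 1 0 a c (by ring) 0).f
      f_mem := fun h => ⟨(cR π 1 0 a c (by ring) 1).f_mem h, (cR π 1 0 a c (by ring) 0).f_mem h⟩
      f_d := fun x => Prod.ext ((cR π 1 0 a c (by ring) 1).f_d x) ((cR π 1 0 a c (by ring) 0).f_d x) }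
  p :=
    { f := (cR π 0 (-1) a c (by ring) 0).f.coprod (cR π 0 (-1) a c (by ring) 1).f
      f_mem := fun h => Submodule.add_mem _ ((cR π 0 (-1) a c (by ring) 0).f_mem h.1)
        ((cR π 0 (-1) a c (by ring) 1).f_mem h.2)
      f_d := fun x => by
        change (cR π 0 (-1) a c (by ring) 0).f ((col (WL π) 0 a c).d x.1) +
          (cR π 0 (-1) a c (by ring) 1).f ((col (WL π) 0 a c).d x.2) =
          (col (WL π) (-1) a c).d ((cR π 0 (-1) a c (by ring) 0).f x.1 +
            (cR π 0 (-1) a c (by ring) 1).f x.2)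
        rw [map_add, (cR π 0 (-1) a c (by ring) 0).f_d, (cR π 0 (-1) a c (by ring) 1).f_d] }
  zero := by
    intro k x _
    apply Subtype.ext
    funext i
    change x.1 i * xL π 1 * xL π 0 + x.1 i * xL π 0 * xL π 1 = 0
    rw [mul_assoc, mul_assoc, xx]
    exact (WL π).two _
  inj := by
    intro k x _ h
    apply Subtype.ext
    funext i
    have h2 := congrFun (congrArg Subtype.val (congrArg Prod.fst h)) i
    exact rinj π 1 h2
  ex := by
    rintro k ⟨m, m'⟩ ⟨hm, hm'⟩ h
    have h2 : ∀ i, m.1 i * xL π 0 + m'.1 i * xL π 1 = 0 := fun i =>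
      congrFun (congrArg Subtype.val h) i
    have h3 := fun i => rker π (hm' i) (h2 i)
    choose n hn e1 e2 using h3
    have hn' : ∀ i, n i ∈ (WL π).pc ((WL π).P i - 1) ((WL π).A i - a) (k - c) := fun i => by
      have := hn i
      rwa [sub_zero] at this
    refine ⟨(⟨n, fun i => Submodule.mem_iSup_of_mem (k - c) (hn' i)⟩ : cX (WL π) 1 a), hn', ?_⟩
    refine Prod.ext ?_ ?_
    · apply Subtype.ext
      funext i
      exact (e1 i).symm
    · apply Subtype.ext
      funext i
      exact (e2 i).symm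
  sur := by
    intro k z hz
    have h3 := fun i => rsur π (P := (WL π).P i - (-1)) (by have := P_nonneg π i; omega) (hz i)
    choose m hm m' hm' e using h3
    have h1 : ∀ i, m i ∈ (WL π).pc ((WL π).P i - 0) ((WL π).A i - a) (k - c) := fun i => by
      have := hm i
      rwa [show (WL π).P i - (-1) - 1 = (WL π).P i - 0 by ring] at this
    have h2 : ∀ i, m' i ∈ (WL π).pc ((WL π).P i - 0) ((WL π).A i - a) (k - c) := fun i => by
      have := hm' i
      rwa [show (WL π).P i - (-1) - 1 = (WL π).P i - 0 by ring] at this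
    refine ⟨((⟨m, fun i => Submodule.mem_iSup_of_mem (k - c) (h1 i)⟩ : cX (WL π) 0 a),
      (⟨m', fun i => Submodule.mem_iSup_of_mem (k - c) (h2 i)⟩ : cX (WL π) 0 a)), ⟨h1, h2⟩, ?_⟩
    apply Subtype.ext
    funext i
    exact (e i).symm
  smul_i x n := Prod.ext ((cR π 1 0 a c (by ring) 1).smul x n) ((cR π 1 0 a c (by ring) 0).smul x n)
  smul_p x n := by
    change (cR π 0 (-1) a c (by ring) 0).f (x • n.1) + (cR π 0 (-1) a c (by ring) 1).f (x • n.2) =
      x • ((cR π 0 (-1) a c (by ring) 0).f n.1 + (cR π 0 (-1) a c (by ring) 1).f n.2)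
    rw [(cR π 0 (-1) a c (by ring) 0).smul, (cR π 0 (-1) a c (by ring) 1).smul, smul_add]

/-- **the Koszul sequence of rows** -/
def kR : SES (row (WL π) 0 a c) (pG (row (WL π) 1 a c) (row (WL π) 1 a c)) (row (WL π) 2 a c) where
  i :=
    { f := (rL π 0 1 a c (by ring) 0).f.prod (rL π 0 1 a c (by ring) 1).f
      f_mem := fun h => ⟨(rL π 0 1 a c (by ring) 0).f_mem h, (rL π 0 1 a c (by ring) 1).f_mem h⟩
      f_d := fun x => Prod.ext ((rL π 0 1 a c (by ring) 0).f_d x) ((rL π 0 1 a c (by ring) 1).f_d x) }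
  p :=
    { f := (rL π 1 2 a c (by ring) 1).f.coprod (rL π 1 2 a c (by ring) 0).f
      f_mem := fun h => Submodule.add_mem _ ((rL π 1 2 a c (by ring) 1).f_mem h.1)
        ((rL π 1 2 a c (by ring) 0).f_mem h.2)
      f_d := fun x => by
        change (rL π 1 2 a c (by ring) 1).f ((row (WL π) 1 a c).d x.1) +
          (rL π 1 2 a c (by ring) 0).f ((row (WL π) 1 a c).d x.2) =
          (row (WL π) 2 a c).d ((rL π 1 2 a c (by ring) 1).f x.1 + (rL π 1 2 a c (by ring) 0).f x.2)
        rw [map_add, (rL π 1 2 a c (by ring) 1).f_d, (rL π 1 2 a c (by ring) 0).f_d] }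
  zero := by
    intro k x _
    apply Subtype.ext
    funext i
    change xL π 1 * (xL π 0 * x.1 i) + xL π 0 * (xL π 1 * x.1 i) = 0
    rw [← mul_assoc, ← mul_assoc, xx]
    exact (WL π).two _
  inj := by
    intro k x _ h
    apply Subtype.ext
    funext i
    have h2 := congrFun (congrArg Subtype.val (congrArg Prod.fst h)) i
    exact linj π 0 h2
  ex := by
    rintro k ⟨m, m'⟩ ⟨hm, hm'⟩ h
    have h2 : ∀ i, xL π 1 * m.1 i + xL π 0 * m'.1 i = 0 := fun i =>
      congrFun (congrArg Subtype.val h) i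
    have h3 := fun i => lker π (hm i) (h2 i)
    choose n hn e1 e2 using h3
    have hn' : ∀ i, n i ∈ (WL π).pc (0 - (WL π).P i) (a - (WL π).A i) (k - c) := fun i => by
      have := hn i
      rwa [show (1 : ℤ) - (WL π).P i - 1 = 0 - (WL π).P i by ring] at this
    refine ⟨(⟨n, fun i => Submodule.mem_iSup_of_mem (k - c) (hn' i)⟩ : rX (WL π) 0 a), hn', ?_⟩
    refine Prod.ext ?_ ?_
    · apply Subtype.ext
      funext i
      exact (e1 i).symm
    · apply Subtype.ext
      funext i
      exact (e2 i).symm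
  sur := by
    intro k z hz
    have h3 := fun i => lsur π (P := 2 - (WL π).P i) (by have := P_le π i; omega) (hz i)
    choose m hm m' hm' e using h3
    have h1 : ∀ i, m i ∈ (WL π).pc (1 - (WL π).P i) (a - (WL π).A i) (k - c) := fun i => by
      have := hm i
      rwa [show (2 : ℤ) - (WL π).P i - 1 = 1 - (WL π).P i by ring] at this
    have h2 : ∀ i, m' i ∈ (WL π).pc (1 - (WL π).P i) (a - (WL π).A i) (k - c) := fun i => by
      have := hm' i
      rwa [show (2 : ℤ) - (WL π).P i - 1 = 1 - (WL π).P i by ring] at this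
    refine ⟨((⟨m, fun i => Submodule.mem_iSup_of_mem (k - c) (h1 i)⟩ : rX (WL π) 1 a),
      (⟨m', fun i => Submodule.mem_iSup_of_mem (k - c) (h2 i)⟩ : rX (WL π) 1 a)), ⟨h1, h2⟩, ?_⟩
    apply Subtype.ext
    funext i
    exact (e i).symm

variable {π} {s : ℕ} {Y : RCells (WL π).dga} (R : RAug Y (DR (sq (WL π) s).toLM))

/-- **the Koszul step** -/
theorem good_koszul {c c' : ℤ} (hc : c + c' = s)
    (g1 : Good R 1 2 a c c' (by ring) hc) (g0 : Good R 0 1 a c c' (by ring) hc) :
    Good R (-1) 0 a c c' (by ring) hc := by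
  have q1 : QI (prC R 1 2 a c c' (by ring) hc).hom := (homG_iff _ _ (rowG (spL π) 2 a c')).1 g1
  have q0 : QI (prC R 0 1 a c c' (by ring) hc).hom := (homG_iff _ _ (rowG (spL π) 1 a c')).1 g0
  refine (homG_iff _ _ (rowG (spL π) 0 a c')).2 ?_
  have q2 := prP_qi R (mc (p := 0) (p' := 1) (by ring)) (mc_h1 (by ring)) (mc_h2 (by ring))
    (mc_h3 (by ring) hc) (mc (p := 0) (p' := 1) (by ring)) (mc_h1 (by ring)) (mc_h2 (by ring))
    (mc_h3 (by ring) hc) q0 q0
  refine Pr.fiveR (shSES R.lo (tYses Y (kC π a c))) (kR π a c')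
    (prC R 1 2 a c c' (by ring) hc) (prP R (mc (p := 0) (p' := 1) (by ring)) (mc_h1 (by ring))
      (mc_h2 (by ring)) (mc_h3 (by ring) hc) (mc (p := 0) (p' := 1) (by ring)) (mc_h1 (by ring))
      (mc_h2 (by ring)) (mc_h3 (by ring) hc)) (prC R (-1) 0 a c c' (by ring) hc) ?_ ?_ q1 q2
  · intro l x p _
    refine prB_map R (N := col (WL π) 1 a c) (N' := pL (col (WL π) 0 a c) (col (WL π) 0 a c))
      (P := row (WL π) 2 a c') (P' := pG (row (WL π) 1 a c') (row (WL π) 1 a c'))
      (mc (by ring)) (pmu (mc (by ring)) (mc (by ring)))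
      ⟨(kC π a c).i, (kC π a c).smul_i⟩ (kR π a c').p.f (fun n p => ?_) x p
    refine sq_ext fun i j => ?_
    change n.1 i * xL π 1 * p.1.1 j + n.1 i * xL π 0 * p.2.1 j =
      n.1 i * (xL π 1 * p.1.1 j + xL π 0 * p.2.1 j)
    rw [mul_add, mul_assoc, mul_assoc]
  · intro l x p _
    refine prB_map R (N := pL (col (WL π) 0 a c) (col (WL π) 0 a c)) (N' := col (WL π) (-1) a c)
      (P := pG (row (WL π) 1 a c') (row (WL π) 1 a c')) (P' := row (WL π) 0 a c')
      (pmu (mc (by ring)) (mc (by ring))) (mc (by ring))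
      ⟨(kC π a c).p, (kC π a c).smul_p⟩ (kR π a c').i.f (fun n p => ?_) x p
    refine sq_ext fun i j => ?_
    change (n.1.1 i * xL π 0 + n.2.1 i * xL π 1) * p.1 j =
      n.1.1 i * (xL π 0 * p.1 j) + n.2.1 i * (xL π 1 * p.1 j)
    rw [add_mul, mul_assoc, mul_assoc]

end koszul

/-! ### regrading -/

section regrade

variable {w : WD K} {s : ℕ} {Y : RCells w.dga} (R : RAug Y (DR (sq w s).toLM))

theorem good_regrade {p p' a c c' d d' : ℤ} {hp : p' = p + 1} {hc : c + c' = s}
    (hd : d + d' = s) (h : Good R p p' a c c' hp hc) : Good R p p' a d d' hp hd := by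
  refine qi_regrade (c - d) (Pr.homG (prC R p p' a c c' hp hc) (prC_adj R p p' a c c' hp hc))
    (Pr.homG (prC R p p' a d d' hp hd) (prC_adj R p p' a d d' hp hd))
    (LinearEquiv.refl K (Y.ι →₀ cX w p a)) (LinearEquiv.refl K (rX w p' a →ₗ[K] K))
    ?_ ?_ (fun x => ?_) (fun y => rfl) (fun x => ?_) h
  · intro k x
    constructor
    · intro hx σ
      refine ⟨fun i => ?_, (hx σ).2⟩
      have h1 : (x σ).1 i ∈ w.pc (w.P i - p) (w.A i - a) (k - R.lo - Y.s σ - d) := (hx σ).1 i
      change (x σ).1 i ∈ w.pc (w.P i - p) (w.A i - a) (k + (c - d) - R.lo - Y.s σ - c)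
      rwa [show k + (c - d) - R.lo - Y.s σ - c = k - R.lo - Y.s σ - d by ring]
    · intro hx σ
      refine ⟨fun i => ?_, (hx σ).2⟩
      have h1 : (x σ).1 i ∈ w.pc (w.P i - p) (w.A i - a) (k + (c - d) - R.lo - Y.s σ - c) :=
        (hx σ).1 i
      change (x σ).1 i ∈ w.pc (w.P i - p) (w.A i - a) (k - R.lo - Y.s σ - d)
      rwa [show k + (c - d) - R.lo - Y.s σ - c = k - R.lo - Y.s σ - d by ring] at h1
  · intro k φ
    constructor
    · intro hφ l z hz hl
      refine hφ (l - c' + d') z (fun j => ?_) (by omega)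
      have h1 : z.1 j ∈ w.pc (p' - w.P j) (a - w.A j) (l - c') := hz j
      rwa [show l - c' + d' - d' = l - c' by ring]
    · intro hφ l z hz hl
      refine hφ (l - d' + c') z (fun j => ?_) (by omega)
      have h1 : z.1 j ∈ w.pc (p' - w.P j) (a - w.A j) (l - d') := hz j
      rwa [show l - d' + c' - c' = l - d' by ring]
  · rfl
  · rfl

theorem Good.cast {p p' a c c' q q' b : ℤ} {hp : p' = p + 1} {hc : c + c' = s}
    (h : Good R p p' a c c' hp hc) (e1 : p = q) (e2 : p' = q') (e3 : a = b) (hq : q' = q + 1) :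
    Good R q q' b c c' hq hc := by
  subst e1 e2 e3
  exact h

end regrade

/-! ### (beta) -/

section beta

variable {π : DefsQ830.Par K} {s : ℕ} {Y : RCells (WL π).dga}

/-- `Good` at all columns of `tL` -/
theorem good_all (R : RRes Y (DR (sq (WL π) s).toLM)) (j : (WL π).Ob) :
    Good R.toRAug ((WL π).P j - 1) ((WL π).P j) ((WL π).A j) s 0 (by ring) (add_zero _) := by
  have hb : ∀ b : Fin 4, Good R.toRAug 0 1 (b.val : ℤ) 0 s (by ring) (zero_add _) := fun b =>
    Good.cast R.toRAug (good_of_res R ((0, b) : DefsQ830.Ob)) rfl rfl rfl (by ring)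
  have hb1 : ∀ b : Fin 4, Good R.toRAug 1 2 (b.val : ℤ) 0 s (by ring) (zero_add _) := fun b =>
    Good.cast R.toRAug (good_of_res R ((1, b) : DefsQ830.Ob)) rfl rfl rfl (by ring)
  have hbm : ∀ b : Fin 4, Good R.toRAug (-1) 0 (b.val : ℤ) 0 s (by ring) (zero_add _) := fun b =>
    good_koszul (b.val : ℤ) R.toRAug (zero_add _) (hb1 b) (hb b)
  obtain ⟨i, b⟩ : DefsQ830.Ob := j
  have hi : i = 0 ∨ i = 1 := by
    revert i
    decide
  rcases hi with rfl | rfl
  · exact Good.cast R.toRAug (good_regrade R.toRAug (add_zero _) (hbm b)) rfl rfl rfl (by ring)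
  · exact Good.cast R.toRAug (good_regrade R.toRAug (add_zero _) (hb b)) rfl rfl rfl (by ring)

/-- **(beta), as a quasi-isomorphism** -/
theorem beta_qi (R : RRes Y (DR (sq (WL π) s).toLM)) :
    QI (Pr.homG (prS R.toRAug) (prS_adj R.toRAug)) := beta_of_good R.toRAug (good_all R)

/-- **(beta)** -/
theorem beta (R : RRes Y (DtL π s)) (k : ℤ) :
    AcIff492.CE (tY Y (tLW π s).toLM) (DR (selfL (WL π).dga)).toGC R.lo k
      (C1P611.evD (Z := selfL (WL π).dga) (paOf (tLW π s) R.toRAug)) := by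
  have h := ce_of_qi (X := tY Y (tLW π s).toLM) (Y := (DR (selfL (WL π).dga)).toGC) (lo := R.lo)
    (fun x => by
      refine Finsupp.ext fun σ => ?_
      exact TB143.LM.two (tLW π s).toLM (x σ)) (beta_qi (s := s) R) k
  exact h

/-- **(beta) in 611's form** -/
theorem beta_all {Y' : RCells (WR π).dga} (R' : RRes (pushR (prHm π) Y') (DtL π s)) :
    C1Q611.Beta π s R' := fun k => beta R' k

end beta

end Crest.Agent.R186.C1f605

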