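import Crest.Agent.R186.GrP_44

/-!
# Row 186 (A) (helper44): trivial extensions of window data

`BD w` : a tri-graded dg bimodule over `w.S`; `BD.ext : WD K` = the window data of the square zero
extension `w.S ⊕ M`, with the inclusion and the projection of the window algebras, and `SP`.
-/

set_option autoImplicit false
set_option linter.style.haveILetI false

noncomputable section

namespace Crest.Agent.R186.SExt44

open Crest.Agent.R186 Hat827 Win810 GrP44

variable {K : Type} [Field K]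

/-- tri-graded dg bimodule over the tri-graded dg algebra of a window -/
structure BD (w : WD K) where
  M : Type
  [grp : AddCommGroup M]
  [mod : Module K M]
  lM : w.S →ₐ[K] Module.End K M
  rM : w.S →ₗ[K] Module.End K M
  rM_one : ∀ m : M, rM 1 m = m
  rM_mul : ∀ (a b : w.S) (m : M), rM (a * b) m = rM b (rM a m)
  comm : ∀ (a b : w.S) (m : M), lM a (rM b m) = rM b (lM a m)
  DM : M →ₗ[K] M
  DM_l : ∀ (a : w.S) (m : M), DM (lM a m) = lM (w.D a) m + lM a (DM m)
  DM_r : ∀ (a : w.S) (m : M), DM (rM a m) = rM a (DM m) + rM (w.D a) m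
  DM_DM : ∀ m : M, DM (DM m) = 0
  pcM : ℤ → ℤ → ℤ → Submodule K M
  lM_mem : ∀ {P A C P' A' C' : ℤ} {a : w.S} {m : M}, a ∈ w.pc P A C → m ∈ pcM P' A' C' →
    lM a m ∈ pcM (P + P') (A + A') (C + C')
  rM_mem : ∀ {P A C P' A' C' : ℤ} {m : M} {a : w.S}, m ∈ pcM P A C → a ∈ w.pc P' A' C' →
    rM a m ∈ pcM (P + P') (A + A') (C + C')
  DM_mem : ∀ {P A C : ℤ} {m : M}, m ∈ pcM P A C → DM m ∈ pcM P A (C - 1)
  NM : ℕ
  neg : ∀ (i j : w.Ob) (C : ℤ), C < 0 → pcM (w.P i - w.P j) (w.A i - w.A j) C = ⊥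
  big : ∀ (i j : w.Ob) (C : ℤ), (NM : ℤ) < C → pcM (w.P i - w.P j) (w.A i - w.A j) C = ⊥
  fin : ∀ (i j : w.Ob) (C : ℤ), Module.Finite K (pcM (w.P i - w.P j) (w.A i - w.A j) C)

attribute [instance] BD.grp BD.mod

variable {w : WD K} (B : BD w)

namespace BD

theorem dbl (m : B.M) : m + m = 0 := by
  have h : B.lM (1 + 1) m = 0 := by rw [w.two, map_zero]; rfl
  rwa [map_add, map_one] at h

/-- the carrier -/
def Car : Type := w.S × B.M

instance : AddCommGroup B.Car := inferInstanceAs (AddCommGroup (w.S × B.M))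
instance : Module K B.Car := inferInstanceAs (Module K (w.S × B.M))

@[ext] theorem Car.ext {x y : B.Car} (h1 : x.1 = y.1) (h2 : x.2 = y.2) : x = y := Prod.ext h1 h2

@[simp] theorem add_fst (x y : B.Car) : (x + y).1 = x.1 + y.1 := rfl
@[simp] theorem add_snd (x y : B.Car) : (x + y).2 = x.2 + y.2 := rfl
@[simp] theorem zero_fst : (0 : B.Car).1 = 0 := rfl
@[simp] theorem zero_snd : (0 : B.Car).2 = 0 := rfl
@[simp] theorem smul_fst (r : K) (x : B.Car) : (r • x).1 = r • x.1 := rfl
@[simp] theorem smul_snd (r : K) (x : B.Car) : (r • x).2 = r • x.2 := rfl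

/-- elements -/
def el (a : w.S) (m : B.M) : B.Car := (a, m)

@[simp] theorem el_fst (a : w.S) (m : B.M) : (B.el a m).1 = a := rfl
@[simp] theorem el_snd (a : w.S) (m : B.M) : (B.el a m).2 = m := rfl

instance : Mul B.Car := ⟨fun x y => B.el (x.1 * y.1) (B.lM x.1 y.2 + B.rM y.1 x.2)⟩
instance : One B.Car := ⟨B.el 1 0⟩

@[simp] theorem mul_fst (x y : B.Car) : (x * y).1 = x.1 * y.1 := rfl
@[simp] theorem mul_snd (x y : B.Car) : (x * y).2 = B.lM x.1 y.2 + B.rM y.1 x.2 := rfl
@[simp] theorem one_fst : (1 : B.Car).1 = 1 := rfl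
@[simp] theorem one_snd : (1 : B.Car).2 = 0 := rfl

instance : Ring B.Car where
  __ := (inferInstance : AddCommGroup B.Car)
  mul := (· * ·)
  one := 1
  left_distrib x y z := by
    apply Car.ext
    · simp [mul_add]
    · simp only [mul_snd, add_fst, add_snd, map_add, LinearMap.add_apply]; abel
  right_distrib x y z := by
    apply Car.ext
    · simp [add_mul]
    · simp only [mul_snd, add_fst, add_snd, map_add, LinearMap.add_apply]; abel
  zero_mul x := by
    apply Car.ext
    · simp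
    · simp
  mul_zero x := by
    apply Car.ext
    · simp
    · simp
  mul_assoc x y z := by
    apply Car.ext
    · simp [mul_assoc]
    · simp only [mul_snd, mul_fst, map_add, map_mul, Module.End.mul_apply, B.rM_mul, B.comm]
      abel
  one_mul x := by
    apply Car.ext
    · simp
    · simp [B.rM_one]
  mul_one x := by
    apply Car.ext
    · simp
    · simp [B.rM_one]

instance : Algebra K B.Car := Algebra.ofModule
  (fun r x y => by
    apply Car.ext
    · simp
    · simp [smul_add])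
  (fun r x y => by
    apply Car.ext
    · simp
    · simp [smul_add])

/-- the pieces -/
def pcS (P A C : ℤ) : Submodule K B.Car := (w.pc P A C).prod (B.pcM P A C)

theorem mem_pcS {P A C : ℤ} {x : B.Car} : x ∈ B.pcS P A C ↔ x.1 ∈ w.pc P A C ∧ x.2 ∈ B.pcM P A C :=
  Iff.rfl

/-- the differential -/
def DS : B.Car →ₗ[K] B.Car where
  toFun x := B.el (w.D x.1) (B.DM x.2)
  map_add' x y := by
    apply Car.ext
    · exact map_add w.D _ _
    · exact map_add B.DM _ _
  map_smul' r x := by
    apply Car.ext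
    · exact map_smul w.D _ _
    · exact map_smul B.DM _ _

@[simp] theorem DS_fst (x : B.Car) : (B.DS x).1 = w.D x.1 := rfl
@[simp] theorem DS_snd (x : B.Car) : (B.DS x).2 = B.DM x.2 := rfl

/-- **the window data of the square zero extension** -/
def ext : WD K where
  S := B.Car
  two x := by
    apply Car.ext
    · exact w.two _
    · exact B.dbl _
  pc := B.pcS
  one_mem := ⟨w.one_mem, Submodule.zero_mem _⟩
  mul_mem {P A C P' A' C' x y} hx hy := by
    refine ⟨w.mul_mem hx.1 hy.1, Submodule.add_mem _ (B.lM_mem hx.1 hy.2) ?_⟩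
    exact B.rM_mem hx.2 hy.1
  D := B.DS
  D_mul x y := by
    apply Car.ext
    · simp [w.D_mul]
    · simp only [DS_snd, mul_snd, map_add, B.DM_l, B.DM_r, add_snd, DS_fst]; abel
  D_D x := by
    apply Car.ext
    · simp [w.D_D]
    · simp [B.DM_DM]
  D_mem hx := ⟨w.D_mem hx.1, B.DM_mem hx.2⟩
  Ob := w.Ob
  P := w.P
  A := w.A
  N := w.N + B.NM
  neg i j C hC := by
    rw [eq_bot_iff]
    rintro x ⟨h1, h2⟩
    change x.1 ∈ w.pc (w.P i - w.P j) (w.A i - w.A j) C at h1
    change x.2 ∈ B.pcM (w.P i - w.P j) (w.A i - w.A j) C at h2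
    rw [w.neg i j C hC] at h1
    rw [B.neg i j C hC] at h2
    rw [Submodule.mem_bot]
    exact Car.ext B ((Submodule.mem_bot K).1 h1) ((Submodule.mem_bot K).1 h2)
  big i j C hC := by
    push_cast at hC
    rw [eq_bot_iff]
    rintro x ⟨h1, h2⟩
    change x.1 ∈ w.pc (w.P i - w.P j) (w.A i - w.A j) C at h1
    change x.2 ∈ B.pcM (w.P i - w.P j) (w.A i - w.A j) C at h2
    rw [w.big i j C (by omega)] at h1
    rw [B.big i j C (by omega)] at h2
    rw [Submodule.mem_bot]
    exact Car.ext B ((Submodule.mem_bot K).1 h1) ((Submodule.mem_bot K).1 h2)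
  fin i j C := by
    have h1 := w.fin i j C
    have h2 := B.fin i j C
    rw [Module.Finite.iff_fg] at h1 h2
    exact Module.Finite.iff_fg.2 (h1.prod h2)

/-! ### the two algebra maps -/

/-- `a ↦ (a, 0)` -/
def inl : w.S →ₐ[K] B.ext.S :=
  AlgHom.ofLinearMap
    { toFun := fun a => B.el a 0
      map_add' := fun a b => by
        apply Car.ext
        · rfl
        · exact (add_zero _).symm
      map_smul' := fun r a => by
        apply Car.ext
        · rfl
        · exact (smul_zero _).symm } rfl (fun a b => by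
      apply Car.ext
      · rfl
      · change (0 : B.M) = B.lM a 0 + B.rM b 0
        rw [map_zero, map_zero, add_zero])

/-- `(a, m) ↦ a` -/
def fst : B.ext.S →ₐ[K] w.S :=
  AlgHom.ofLinearMap
    { toFun := fun x => x.1
      map_add' := fun _ _ => rfl
      map_smul' := fun _ _ => rfl } rfl (fun _ _ => rfl)

/-- `m ↦ (0, m)` -/
def inr : B.M →ₗ[K] B.ext.S where
  toFun m := B.el 0 m
  map_add' a b := by
    apply Car.ext
    · exact (add_zero _).symm
    · rfl
  map_smul' r a := by
    apply Car.ext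
    · exact (smul_zero _).symm
    · rfl

@[simp] theorem fst_inl (a : w.S) : B.fst (B.inl a) = a := rfl
@[simp] theorem fst_inr (m : B.M) : B.fst (B.inr m) = 0 := rfl

theorem eq_inl_inr (x : B.ext.S) : x = B.inl (B.fst x) + B.inr x.2 := by
  apply Car.ext
  · exact (add_zero _).symm
  · exact (zero_add _).symm

theorem inl_mem {P A C : ℤ} {a : w.S} (h : a ∈ w.pc P A C) : B.inl a ∈ B.ext.pc P A C :=
  ⟨h, Submodule.zero_mem _⟩

theorem inr_mem {P A C : ℤ} {m : B.M} (h : m ∈ B.pcM P A C) : B.inr m ∈ B.ext.pc P A C :=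
  ⟨Submodule.zero_mem _, h⟩

theorem fst_mem {P A C : ℤ} {x : B.ext.S} (h : x ∈ B.ext.pc P A C) : B.fst x ∈ w.pc P A C := h.1

theorem snd_mem {P A C : ℤ} {x : B.ext.S} (h : x ∈ B.ext.pc P A C) : x.2 ∈ B.pcM P A C := h.2

theorem D_inl (a : w.S) : B.ext.D (B.inl a) = B.inl (w.D a) := by
  apply Car.ext
  · rfl
  · exact map_zero B.DM

theorem D_inr (m : B.M) : B.ext.D (B.inr m) = B.inr (B.DM m) := by
  apply Car.ext
  · exact map_zero w.D
  · rfl

theorem fst_D (x : B.ext.S) : B.fst (B.ext.D x) = w.D (B.fst x) := rfl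

theorem inl_mul_inr (a : w.S) (m : B.M) : B.inl a * B.inr m = B.inr (B.lM a m) := by
  apply Car.ext
  · exact mul_zero _
  · change B.lM a m + B.rM 0 (0 : B.M) = B.lM a m
    rw [map_zero]
    exact add_zero _

theorem inr_mul_inl (m : B.M) (a : w.S) : B.inr m * B.inl a = B.inr (B.rM a m) := by
  apply Car.ext
  · exact zero_mul _
  · change B.lM 0 (0 : B.M) + B.rM a m = B.rM a m
    rw [map_zero, zero_add]

theorem inr_mul_inr (m n : B.M) : B.inr m * B.inr n = 0 := by
  apply Car.ext
  · exact zero_mul _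
  · change B.lM 0 n + B.rM 0 m = 0
    rw [map_zero, map_zero]
    exact add_zero _

/-- the inclusion of window algebras `L'' → Γ` -/
def inlW : w.Win →ₐ[K] B.ext.Win :=
  AlgHom.codRestrict (S := B.ext.Win) ((AlgHom.mapMatrix (m := w.Ob) B.inl).comp w.Win.val)
    fun m i j => by
      have h : w.E i j ≤ (B.ext.E i j).comap B.inl.toLinearMap :=
        iSup_le fun C a ha => WD.q_le (w := B.ext) i j C (B.inl_mem ha)
      exact h (m.2 i j)

theorem inlW_apply (m : w.Win) (i j : w.Ob) : (B.inlW m).1 i j = B.inl (m.1 i j) := rfl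

/-- the projection of window algebras `Γ → L''` -/
def fstW : B.ext.Win →ₐ[K] w.Win :=
  AlgHom.codRestrict (S := w.Win) ((AlgHom.mapMatrix (m := w.Ob) B.fst).comp B.ext.Win.val)
    fun m i j => by
      have h : B.ext.E i j ≤ (w.E i j).comap B.fst.toLinearMap :=
        iSup_le fun C a ha => WD.q_le (w := w) i j C (B.fst_mem ha)
      exact h (m.2 i j)

theorem fstW_apply (m : B.ext.Win) (i j : w.Ob) : (B.fstW m).1 i j = B.fst (m.1 i j) := rfl

theorem fstW_inlW (m : w.Win) : B.fstW (B.inlW m) = m := by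
  apply Subtype.ext
  ext i j
  rfl

theorem inlW_mem {k : ℤ} {m : w.Win} (h : m ∈ w.G k) : B.inlW m ∈ B.ext.G k :=
  fun i j => B.inl_mem (h i j)

theorem fstW_mem {k : ℤ} {m : B.ext.Win} (h : m ∈ B.ext.G k) : B.fstW m ∈ w.G k :=
  fun i j => B.fst_mem (h i j)

theorem inlW_D (m : w.Win) : B.inlW (w.DW m) = B.ext.DW (B.inlW m) := by
  apply Subtype.ext
  ext i j
  exact (B.D_inl _).symm

theorem fstW_D (m : B.ext.Win) : B.fstW (B.ext.DW m) = w.DW (B.fstW m) := by
  apply Subtype.ext
  ext i j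
  rfl

/-- projections of the extension -/
def sp (p : SP w) (pr : ℤ → ℤ → ℤ → B.M →ₗ[K] B.M)
    (mem : ∀ (P A C : ℤ) (m : B.M), pr P A C m ∈ B.pcM P A C)
    (same : ∀ (P A C : ℤ) (m : B.M), m ∈ B.pcM P A C → pr P A C m = m)
    (ne : ∀ (P A C C' : ℤ) (m : B.M), C ≠ C' → m ∈ B.pcM P A C' → pr P A C m = 0) : SP B.ext where
  pr P A C :=
    { toFun := fun x => B.el (p.pr P A C x.1) (pr P A C x.2)
      map_add' := fun x y => by
        apply Car.ext
        · exact map_add (p.pr P A C) _ _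
        · exact map_add (pr P A C) _ _
      map_smul' := fun r x => by
        apply Car.ext
        · exact map_smul (p.pr P A C) _ _
        · exact map_smul (pr P A C) _ _ }
  mem P A C x := ⟨p.mem _ _ _ _, mem _ _ _ _⟩
  same P A C x hx := Car.ext B (p.same _ _ _ _ hx.1) (same _ _ _ _ hx.2)
  ne P A C C' x hC hx := Car.ext B (p.ne _ _ _ _ _ hC hx.1) (ne _ _ _ _ _ hC hx.2)

end BD

end Crest.Agent.R186.SExt44
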