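import Crest.Agent.R186.SM_890
import Crest.Agent.R186.SExt_44
import Crest.Agent.R186.Res_255

/-!
Row 186, half (A) (helper890), part 6:
* `bdM π s hs : SExt44.BD (WR π)` = the bimodule `M` in 44's form, `Gm π s hs := (bdM ..).ext.dga`;
* `spM : SP (bdM ..).ext`, `grM : GrP Gm` (directness);
* `HmI : Hm (WR π).dga Gm`, `HmP : Hm Gm (WR π).dga` (255's homomorphisms);
* facts about `o_1` (`soc`): killed by `W` on both sides, `kill`.
-/

set_option autoImplicit false
set_option linter.unusedSimpArgs false

noncomputable section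

namespace Crest.Agent.R186.SM890

open DefsQ830 DefsQ830.Gen PBW128 Win810 GrP44

variable {K : Type} [Field K]

/-! ### coordinates of the pieces of `M` -/

/-- degrees of a basis element of `M` -/
def mP (ν : Ix) : ℤ := dPx ν - 1
def mC (s : ℕ) (ν : Ix) : ℤ :=
  (((ν.2.2.2.1.map (fun l => l.toGen.dC)).sum : ℕ) : ℤ) - wC ν.2.2.2.2.word + s

/-- index set of a piece -/
def mI (s : ℕ) (P A C : ℤ) : Set Ix := {ν | mP ν = P ∧ (dAx ν : ℤ) = A ∧ mC s ν = C}

theorem cW_deg (π : Par K) (q1 q : Wb) :
    cW π q1 q = 0 ∨ wC (tW q1 q).word + wC q1.word = wC q.word := by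
  have h10 : (1 : Fin 2) ≠ 0 := by decide
  have h01 : (0 : Fin 2) ≠ 1 := by decide
  rcases q1 with _ | s | s | _ <;> rcases q with _ | s' | s' | _ <;>
    (try rcases fin2 s with rfl | rfl) <;> (try rcases fin2 s' with rfl | rfl) <;>
    first
    | (left; simp [cW, dk, dt, h10, h01]; done)
    | (right; simp [tW, dt, Wb.word, wC, dC, h10, h01]; done)

theorem oM_nf (π : Par K) (i j k : ℕ) (w : List E) (q1 q : Wb) :
    oM π q (nf π (i, j, k, w, q1)) = (cW π q1 q • bv K i j k w (tW q1 q) : N K) := by
  rw [oM_apply, nf_eq, repM_nf]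

theorem pcZ_ind (π : Par K) {V : Type*} [AddCommGroup V] [Module K V] {φ : R π →ₗ[K] V}
    {T : Submodule K V} {P A C : ℤ}
    (h : ∀ i j k w q, dPx (i, j, k, w, q) = P → (dAx (i, j, k, w, q) : ℤ) = A →
      (dCx (i, j, k, w, q) : ℤ) = C → φ (nf π (i, j, k, w, q)) ∈ T) {r : R π}
    (hr : r ∈ pcZ π P A C) : φ r ∈ T := by
  rcases pcZ_cases π hr with rfl | ⟨A', C', rfl, rfl, hr'⟩
  · rw [map_zero]; exact Submodule.zero_mem _
  · rw [mem_pc_iff] at hr'
    have h2 : NS K P A' C' ≤ T.comap (φ ∘ₗ Psi π) := by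
      rw [NS, Finsupp.supported_eq_span_single, Submodule.span_le]
      rintro _ ⟨⟨i, j, k, w, q⟩, ⟨h1, h2, h3⟩, rfl⟩
      show φ (Psi π (Finsupp.single (i, j, k, w, q) 1)) ∈ T
      have e : Psi π (Finsupp.single (i, j, k, w, q) 1) = nf π (i, j, k, w, q) := by
        simp [Psi]
      rw [e]
      exact h i j k w q h1 (by rw [h2]) (by rw [h3])
    have h3 := h2 hr'
    rw [Submodule.mem_comap, LinearMap.comp_apply, Psi_ev] at h3
    exact h3

theorem pcM_supported (π : Par K) (s : ℕ) (P A C : ℤ) :
    pcM π s P A C = (Finsupp.supported K K (mI s P A C) : Submodule K (N K)) := by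
  apply le_antisymm
  · apply pcM_ind
    intro q t ht
    refine pcZ_ind π (φ := oM π q) (T := (Finsupp.supported K K (mI s P A C) : Submodule K (N K)))
      (fun i j k w q1 h1 h2 h3 => ?_) ht
    rw [oM_nf]
    rcases cW_deg π q1 q with h0 | h0
    · rw [h0, zero_smul]
      exact Submodule.zero_mem _
    · refine Submodule.smul_mem _ _ ?_
      apply Finsupp.single_mem_supported
      refine ⟨?_, ?_, ?_⟩
      · have : mP (i, j, k, w, tW q1 q) = dPx (i, j, k, w, q1) - 1 := rfl
        omega
      · have : dAx (i, j, k, w, tW q1 q) = dAx (i, j, k, w, q1) := rfl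
        omega
      · have e1 : mC s (i, j, k, w, tW q1 q) =
            (((w.map (fun l => l.toGen.dC)).sum : ℕ) : ℤ) - wC (tW q1 q).word + s := rfl
        have e2 : (dCx (i, j, k, w, q1) : ℤ) =
            (((w.map (fun l => l.toGen.dC)).sum : ℕ) : ℤ) + wC q1.word := by
          simp [dCx]
        omega
  · have key : Submodule.span K ((fun i : Ix => Finsupp.single i (1 : K)) '' mI s P A C) ≤
        (show Submodule K (N K) from pcM π s P A C) := ?_
    · rw [Finsupp.supported_eq_span_single]
      exact key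
    rw [Submodule.span_le]
    rintro _ ⟨⟨i, j, k, w, q⟩, ⟨h1, h2, h3⟩, rfl⟩
    have e : (Finsupp.single (i, j, k, w, q) (1 : K) : N K) = oM π q (nf1 π i j k w) := by
      rw [oM_apply, repM_nf1]
      rfl
    show (Finsupp.single (i, j, k, w, q) (1 : K) : N K) ∈ pcM π s P A C
    rw [e]
    refine mem_pcM π s q (C' := (((w.map (fun l => l.toGen.dC)).sum : ℕ) : ℤ)) ?_ ?_
    · have h4 := nf_mem_pc π (i, j, k, w, .one)
      have e2 : dCx (i, j, k, w, .one) = (w.map (fun l => l.toGen.dC)).sum := by
        simp [dCx, Wb.word, wC]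
      have e3 : dPx (i, j, k, w, .one) = P + 1 := by
        have : mP (i, j, k, w, q) = dPx (i, j, k, w, .one) - 1 := rfl
        omega
      have e4 : (dAx (i, j, k, w, .one) : ℤ) = A := h2
      rw [e2, e3] at h4
      rw [← e4, pcZ_nat]
      exact h4
    · have : mC s (i, j, k, w, q) = (((w.map (fun l => l.toGen.dC)).sum : ℕ) : ℤ) - wC q.word + s := rfl
      omega

open Classical in
/-- projection onto a piece of `M` -/
def prM (K : Type) [Field K] (s : ℕ) (P A C : ℤ) : N K →ₗ[K] N K :=
  Finsupp.linearCombination K (fun ν : Ix => if ν ∈ mI s P A C then Finsupp.single ν 1 else 0)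

open Classical in
theorem prM_single (s : ℕ) (P A C : ℤ) (ν : Ix) :
    prM K s P A C (Finsupp.single ν 1) = if ν ∈ mI s P A C then Finsupp.single ν 1 else 0 := by
  simp [prM]

theorem prM_mem (s : ℕ) (P A C : ℤ) (n : N K) :
    prM K s P A C n ∈ Finsupp.supported K K (mI s P A C) := by
  classical
  have h : (⊤ : Submodule K (N K)) ≤ (Finsupp.supported K K (mI s P A C)).comap (prM K s P A C) := by
    rw [← Finsupp.supported_univ, Finsupp.supported_eq_span_single, Submodule.span_le]
    rintro _ ⟨ν, -, rfl⟩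
    show prM K s P A C (Finsupp.single ν 1) ∈ Finsupp.supported K K (mI s P A C)
    rw [prM_single]
    split_ifs with h
    · exact Finsupp.single_mem_supported _ _ h
    · exact Submodule.zero_mem _
  exact h (Submodule.mem_top (x := n))

theorem prM_same (s : ℕ) (P A C : ℤ) (n : N K) (hn : n ∈ Finsupp.supported K K (mI s P A C)) :
    prM K s P A C n = n := by
  classical
  have h : Finsupp.supported K K (mI s P A C) ≤
      LinearMap.ker (prM K s P A C - LinearMap.id) := by
    rw [Finsupp.supported_eq_span_single, Submodule.span_le]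
    rintro _ ⟨ν, hν, rfl⟩
    show prM K s P A C (Finsupp.single ν 1) - Finsupp.single ν 1 = 0
    rw [prM_single, if_pos hν, sub_self]
  have := h hn
  rw [LinearMap.mem_ker, LinearMap.sub_apply, sub_eq_zero] at this
  exact this

theorem prM_ne (s : ℕ) (P A C C' : ℤ) (n : N K) (hC : C ≠ C')
    (hn : n ∈ Finsupp.supported K K (mI s P A C')) : prM K s P A C n = 0 := by
  classical
  have h : Finsupp.supported K K (mI s P A C') ≤ LinearMap.ker (prM K s P A C) := by
    rw [Finsupp.supported_eq_span_single, Submodule.span_le]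
    rintro _ ⟨ν, hν, rfl⟩
    show prM K s P A C (Finsupp.single ν 1) = 0
    rw [prM_single, if_neg]
    rintro ⟨_, _, h3⟩
    exact hC (h3.symm.trans hν.2.2)
  exact h hn

/-! ### 44's form -/

/-- **the bimodule `M` over the window data of `R''`** -/
def bdM (π : Par K) (s : ℕ) (hs : 2 ≤ s) : SExt44.BD (WR π) where
  M := MM π
  lM := repM π
  rM := rho π
  rM_one m := rho_one π m
  rM_mul a b m := rho_mul π a b m
  comm a b m := rho_comm π b a m
  DM := dMM π
  DM_l a m := dM_left π a m
  DM_r a m := dM_right π a m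
  DM_DM m := dM_dM π m
  pcM := pcM π s
  lM_mem h1 h2 := pcM_left π s h1 h2
  rM_mem h1 h2 := pcM_right π s h1 h2
  DM_mem h := pcM_D π s h
  NM := 8 + s
  neg i j C hC := by
    apply pcM_bot
    intro q
    have := wC_word_le q
    exact pcZ_neg π (Or.inr (by omega))
  big i j C hC := by
    have hi := i.2.2
    have hj := j.2.2
    push_cast at hC
    apply pcM_bot
    intro q
    apply pcZ_big
    have e : (WR π).A i - (WR π).A j = (i.2.val : ℤ) - (j.2.val : ℤ) := rfl
    rw [e]
    omega
  fin i j C := finM π s _ _ _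

/-- **the strict dg algebra `Gamma`** (window of `R'' (+) M`) -/
def Gm (π : Par K) (s : ℕ) (hs : 2 ≤ s) : Hat827.DGA K := (bdM π s hs).ext.dga

/-- projections of the pieces -/
def spM (π : Par K) (s : ℕ) (hs : 2 ≤ s) : SP (bdM π s hs).ext :=
  (bdM π s hs).sp (spR π) (prM K s)
    (fun P A C m => by
      show prM K s P A C m ∈ pcM π s P A C
      rw [pcM_supported]
      exact prM_mem s P A C m)
    (fun P A C m hm => by
      have hm' : m ∈ pcM π s P A C := hm
      rw [pcM_supported] at hm'
      exact prM_same s P A C m hm')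
    (fun P A C C' m hC hm => by
      have hm' : m ∈ pcM π s P A C' := hm
      rw [pcM_supported] at hm'
      exact prM_ne s P A C C' m hC hm')

/-- **the grading of `Gamma` is direct** -/
def grM (π : Par K) (s : ℕ) (hs : 2 ≤ s) : GrP (Gm π s hs) := (spM π s hs).win

/-- inclusion `L'' → Gamma` -/
def HmI (π : Par K) (s : ℕ) (hs : 2 ≤ s) : Res255.Hm (WR π).dga (Gm π s hs) where
  f := (bdM π s hs).inlW
  mem h := (bdM π s hs).inlW_mem h
  D a := (bdM π s hs).inlW_D a

/-- projection `Gamma → L''` -/
def HmP (π : Par K) (s : ℕ) (hs : 2 ≤ s) : Res255.Hm (Gm π s hs) (WR π).dga where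
  f := (bdM π s hs).fstW
  mem h := (bdM π s hs).fstW_mem h
  D a := (bdM π s hs).fstW_D a

theorem HmP_HmI (π : Par K) (s : ℕ) (hs : 2 ≤ s) (a : (WR π).dga.C) :
    (HmP π s hs).f ((HmI π s hs).f a) = a := (bdM π s hs).fstW_inlW a

/-! ### `o_1` -/

theorem tau_one_eq (π : Par K) (r : R π) : tau π (Tq π .one) r = r := by
  have h : tau π (Tq π .one) = AlgHom.id K (R π) := by
    apply RingQuot.ringQuot_ext'
    apply FreeAlgebra.hom_ext
    funext a
    show tau π (Tq π .one) (X π a) = X π a
    rw [tau_X]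
    have : tw (Tq π .one) a = 1 := by
      cases a <;> simp only [tw, Tq, nq, bq, pow_zero, inv_one, sg] <;> (try split) <;> rfl
    rw [this, one_smul]
  rw [h, AlgHom.id_apply]

/-- `r ↦ r · o_1` -/
abbrev soc (π : Par K) : R π →ₗ[K] MM π := oM π .one

theorem soc_left (π : Par K) (r a : R π) : repM π r (soc π a) = soc π (r * a) :=
  smul_oM π .one r a

theorem soc_right (π : Par K) (r a : R π) : rho π r (soc π a) = soc π (a * r) := by
  have := op_smul_oM π .one r a
  rw [tau_one_eq] at this
  exact this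

theorem soc_D (π : Par K) (a : R π) : dMM π (soc π a) = soc π (Der580.D π a) := dMM_oM π .one a

/-- `W` acts by zero on `o_1` -/
theorem soc_W (π : Par K) (r : R π) (a : Y) : soc π (r * X π a.toGen) = 0 := by
  show repM π (r * X π a.toGen) (oo K .one) = 0
  rw [map_mul, Module.End.mul_apply, repM_Y, oo, opD_bv]
  have : dk π a .one = 0 := by
    rcases a with t | t <;> rcases fin2 t with rfl | rfl <;> rfl
  rw [this, mul_zero, zero_smul, map_zero]

theorem soc_kill (π : Par K) (r : R π) : soc π (C2b44.kill π r) = soc π r := by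
  have h : ∀ s : R π, soc π (s * C2b44.kill π r) = soc π (s * r) := by
    refine PBW128.R_ind π
      (P := fun r => ∀ s : R π, soc π (s * C2b44.kill π r) = soc π (s * r)) ?_ ?_ ?_ ?_ r
    · intro c s
      rw [AlgHom.commutes]
    · intro a s
      cases a with
      | y t => rw [C2b44.kill_y, mul_zero, map_zero]; exact (soc_W π s (.y t)).symm
      | yb t => rw [C2b44.kill_yb, mul_zero, map_zero]; exact (soc_W π s (.yb t)).symm
      | _ => simp
    · intro a b ha hb s
      rw [map_mul (C2b44.kill π), ← mul_assoc, hb, ← mul_assoc]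
      -- move `b` out: `soc (s * kill a * b) = soc (s * a * b)` by right linearity
      have e1 : soc π (s * C2b44.kill π a * b) = rho π b (soc π (s * C2b44.kill π a)) :=
        (soc_right π b _).symm
      have e2 : soc π (s * a * b) = rho π b (soc π (s * a)) := (soc_right π b _).symm
      rw [e1, e2, ha]
    · intro a b ha hb s
      rw [map_add, mul_add, map_add, ha, hb, mul_add, map_add]
  have := h 1
  rwa [one_mul, one_mul] at this

end Crest.Agent.R186.SM890
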