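import Crest.Agent.R186.C2W_655
import Crest.Agent.R186.SMp_890
import Crest.Agent.R186.WLF_296

/-!
Row 186 (A), leaf (c1) (helper154), entries: the components `muE q : M → R'` of `M = ⊕_q R' · o_q`
against the left normal form `R'' = ⊕_q wq q * R'`.
-/

set_option autoImplicit false
set_option linter.unusedSimpArgs false

noncomputable section

namespace Crest.Agent.R186.C1N154

open Crest.Agent.R186.DefsQ830 Crest.Agent.R186.PBW128 Crest.Agent.R186.SM890
open Crest.Agent.R186.WL221 Crest.Agent.R186.C2b44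
open Crest.Agent.R186.WLF296 (lev lq)

variable {K : Type} [Field K] (π : Par K)

/-- linear order on the six letters -/
def ix : Wb → ℕ
  | .one => 0
  | .y s => 1 + s.1
  | .yb s => 3 + s.1
  | .pi => 5

/-- the six letters -/
def le : ℕ → Wb
  | 0 => .one
  | 1 => .y 0
  | 2 => .y 1
  | 3 => .yb 0
  | 4 => .yb 1
  | _ => .pi

theorem ix_le {j : ℕ} (hj : j < 6) : ix (le j) = j := by
  have : j = 0 ∨ j = 1 ∨ j = 2 ∨ j = 3 ∨ j = 4 ∨ j = 5 := by omega
  rcases this with rfl | rfl | rfl | rfl | rfl | rfl <;> rfl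

theorem le_ix (q : Wb) : le (ix q) = q := by
  cases q with
  | one => rfl
  | y s => rcases fin2 s with rfl | rfl <;> rfl
  | yb s => rcases fin2 s with rfl | rfl <;> rfl
  | pi => rfl

theorem ix_lt (q : Wb) : ix q < 6 := by
  cases q with
  | one => simp [ix]
  | y s => have := s.2; simp only [ix]; omega
  | yb s => have := s.2; simp only [ix]; omega
  | pi => simp [ix]

theorem ix_inj {q q' : Wb} (h : ix q = ix q') : q = q' := by
  rw [← le_ix q, h, le_ix]

theorem lev_mono {q q' : Wb} (h : ix q ≤ ix q') : lev q ≤ lev q' := by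
  rcases q with _ | s | s | _ <;> rcases q' with _ | s' | s' | _ <;>
    simp only [ix, lev] at * <;> omega

theorem sum_ix {V : Type*} [AddCommMonoid V] (f : Wb → V) :
    ∑ q, f q = ∑ j ∈ Finset.range 6, f (le j) := by
  rw [C2W655.sum_Wb]
  simp only [Finset.sum_range_succ, Finset.sum_range_zero, zero_add, le]

/-- the table -/
theorem tab6 (w q q' : Wb) (h : ix q' ≤ ix q) (hd : C1R808.dk2 π w q' ≠ 0)
    (ht : C1R808.dt2 w q' = q) : w = .one ∧ q' = q := by
  cases w with
  | one => exact ⟨rfl, ht⟩
  | y s =>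
    exfalso
    subst ht
    rcases fin2 s with rfl | rfl <;> rcases q' with _ | s' | s' | _ <;>
      (try rcases fin2 s' with rfl | rfl) <;>
      simp [C1R808.dk2, C1R808.dt2, dk, dt, ix] at hd h
  | yb s =>
    exfalso
    subst ht
    rcases fin2 s with rfl | rfl <;> rcases q' with _ | s' | s' | _ <;>
      (try rcases fin2 s' with rfl | rfl) <;>
      simp [C1R808.dk2, C1R808.dt2, dk, dt, ix] at hd h
  | pi =>
    exfalso
    subst ht
    rcases q' with _ | s' | s' | _ <;> (try rcases fin2 s' with rfl | rfl) <;>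
      simp [C1R808.dk2, C1R808.dt2, dk, dt, ix] at hd h

/-- the diagonal table -/
theorem tab7 (q q' : Wb) (h : ix q' ≤ ix q) :
    C1R808.dk2 π q q' = if q' = q then 1 else 0 := by
  rcases q with _ | s | s | _ <;> rcases q' with _ | s' | s' | _ <;>
    (try rcases fin2 s with rfl | rfl) <;> (try rcases fin2 s' with rfl | rfl) <;>
    simp [C1R808.dk2, dk, ix] at h ⊢

theorem dt_self (q : Wb) : C1R808.dt2 q q = .one := by
  rcases q with _ | s | s | _ <;> (try rcases fin2 s with rfl | rfl) <;>
    simp [C1R808.dt2, dt]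

/-- the components of `M` in `R''` -/
def mcM (q : Wb) : MM π →ₗ[K] R π := (C1R808.mc π q : N K →ₗ[K] R π)

/-- **the components of `M`** in `R'` -/
def muE (q : Wb) : MM π →ₗ[K] RL π := (prL π).toLinearMap ∘ₗ mcM π q

variable {π}

theorem val_Z0 (z : RL π) : z.1 ∈ C1R808.Z0 π := by
  have h : kill π z.1 = z.1 := z.2
  rw [← h, C2W655.kill_eq_zc]
  exact C1R808.zc_mem π _ _

theorem kill_Z0 {r : R π} (h : r ∈ C1R808.Z0 π) : kill π r = r := by
  rw [C2W655.kill_eq_zc, C1R808.zc_Z0 π .one h, if_pos rfl]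

theorem muE_val (q : Wb) (m : MM π) : (muE π q m).1 = mcM π q m :=
  kill_Z0 (C1R808.mc_mem π q m)

theorem sum_muE (m : MM π) : ∑ q, oM π q (muE π q m).1 = m := by
  simp only [muE_val]
  exact C1R808.mc_sum π m

/-- components of `r · o_q'` up to the level of `q'` -/
theorem muE_oM (q q' : Wb) (h : ix q' ≤ ix q) (r : R π) :
    muE π q (oM π q' r) = if q' = q then prL π r else 0 := by
  have e : (C1R808.mc π q) (repM π r (oo K q')) = if q' = q then C1R808.zc π .one r else 0 := by
    rw [C1R808.repM_eq, map_sum, Finset.sum_eq_single .one]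
    · rw [map_smul, C1R808.mc_repM π q _ (C1R808.zc_mem π _ r)]
      change (1 : K) • (if q' = q then _ else _) = _
      rw [one_smul]
    · intro w _ hw
      rw [map_smul, C1R808.mc_repM π q _ (C1R808.zc_mem π _ r)]
      by_cases hd : C1R808.dk2 π w q' = 0
      · rw [hd, zero_smul]
      by_cases ht : C1R808.dt2 w q' = q
      · exact absurd (tab6 π w q q' h hd ht).1 hw
      · rw [if_neg ht, smul_zero]
    · intro h; exact absurd (Finset.mem_univ _) h
  change prL π ((C1R808.mc π q) (repM π r (oo K q'))) = _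
  rw [e]
  split_ifs
  · rw [← C2W655.kill_eq_zc, prL_kill]
  · exact map_zero _

theorem muE_oM' (q q' : Wb) (z : RL π) :
    muE π q (oM π q' z.1) = if q' = q then z else 0 := by
  change prL π ((C1R808.mc π q) (repM π z.1 (oo K q'))) = _
  rw [C1R808.mc_repM π q q' (val_Z0 z)]
  split_ifs
  · exact prL_inL z
  · exact map_zero _

theorem eq_zero_of_muE {m : MM π} (h : ∀ q, muE π q m = 0) : m = 0 := by
  rw [← sum_muE m]
  refine Finset.sum_eq_zero fun q _ => ?_
  rw [h q]
  exact map_zero _

/-- left action on the leading component -/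
theorem muE_rep (q : Wb) (a : R π) {m : MM π} (h : ∀ q', ix q < ix q' → muE π q' m = 0) :
    muE π q (repM π a m : MM π) = prL π a * muE π q m := by
  have e : (repM π a m : MM π) = ∑ q', oM π q' (a * (muE π q' m).1) := by
    conv_lhs => rw [← sum_muE m]
    refine (map_sum (repM π a) _ _).trans ?_
    exact Finset.sum_congr rfl fun q' _ => smul_oM π q' a _
  rw [e, map_sum, Finset.sum_eq_single q]
  · rw [muE_oM q q le_rfl, if_pos rfl, map_mul, prL_inL]
  · intro q' _ hq
    by_cases hi : ix q' ≤ ix q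
    · rw [muE_oM q q' hi, if_neg hq]
    · rw [h q' (by omega)]
      change muE π q (oM π q' (a * 0)) = 0
      rw [mul_zero, map_zero, map_zero]
  · intro h; exact absurd (Finset.mem_univ _) h

/-- differential on the leading component -/
theorem muE_D (q : Wb) {m : MM π} (h : ∀ q', ix q < ix q' → muE π q' m = 0) :
    muE π q (dMM π m) = DL π (muE π q m) := by
  have e : dMM π m = ∑ q', oM π q' (Der580.D π (muE π q' m).1) := by
    conv_lhs => rw [← sum_muE m]
    rw [map_sum]
    exact Finset.sum_congr rfl fun q' _ => dMM_oM π q' _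
  rw [e, map_sum, Finset.sum_eq_single q]
  · rw [muE_oM q q le_rfl, if_pos rfl, DL_apply]
  · intro q' _ hq
    by_cases hi : ix q' ≤ ix q
    · rw [muE_oM q q' hi, if_neg hq]
    · rw [h q' (by omega)]
      change muE π q (oM π q' (Der580.D π 0)) = 0
      rw [map_zero, map_zero, map_zero]
  · intro h; exact absurd (Finset.mem_univ _) h

/-- degrees -/
theorem wC_lev_tab (w q q' : Wb) (hd : C1R808.dk2 π w q' ≠ 0) (ht : C1R808.dt2 w q' = q) :
    wC w.word + wC q.word = wC q'.word := by
  subst ht
  rcases w with _ | s | s | _ <;> rcases q' with _ | s' | s' | _ <;>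
    (try rcases fin2 s with rfl | rfl) <;> (try rcases fin2 s' with rfl | rfl) <;>
    simp [C1R808.dk2, C1R808.dt2, dk, dt, Wb.word, wC, Gen.dC] at hd ⊢

theorem muE_mem (s : ℕ) (q : Wb) {P A C : ℤ} {m : MM π} (hm : m ∈ pcM π s P A C) :
    muE π q m ∈ pcL π (P + 1) A (C - s + wC q.word) := by
  refine pcM_ind π s (Q := (pcL π (P + 1) A (C - s + wC q.word)).comap (muE π q)) ?_ hm
  intro q' t ht
  change prL π ((C1R808.mc π q) (repM π t (oo K q'))) ∈ pcL π (P + 1) A (C - s + wC q.word)
  refine prL_mem ?_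
  rw [C1R808.repM_eq, map_sum]
  refine Submodule.sum_mem _ fun w _ => ?_
  rw [map_smul, C1R808.mc_repM π q _ (C1R808.zc_mem π _ t)]
  by_cases hd : C1R808.dk2 π w q' = 0
  · rw [hd, zero_smul]; exact Submodule.zero_mem _
  refine Submodule.smul_mem _ _ ?_
  split_ifs with h
  · have h1 := wC_lev_tab w q q' hd h
    have h2 := C1R808.zc_pcZ π w ht
    have e : (C - s + wC q'.word : ℤ) - wC w.word = C - s + wC q.word := by
      rw [← h1]; push_cast; ring
    rwa [e] at h2
  · exact Submodule.zero_mem _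

theorem oM_mem (s : ℕ) (q : Wb) {P A C : ℤ} {z : RL π}
    (hz : z ∈ pcL π (P + 1) A (C - s + wC q.word)) : oM π q z.1 ∈ pcM π s P A C :=
  mem_pcM π s q hz (by ring)

/-! ### the right action of `wq` -/

variable (π)

/-- `tau (Tq q) (wq q) = sg q • wq q` -/
def sgq (t : Tor K) : Wb → K
  | .one => 1
  | .y s => tw t (.y s)
  | .yb s => tw t (.yb s)
  | .pi => tw t (.y 0) * tw t (.y 1)

theorem tau_wq (t : Tor K) (q : Wb) : tau π t (wq π q) = sgq t q • wq π q := by
  cases q with
  | one => rw [wq_one, map_one]; simp [sgq]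
  | y s => rw [wq_y, tau_X]; rfl
  | yb s => rw [wq_yb, tau_X]; rfl
  | pi => rw [wq_pi, map_mul, tau_X, tau_X, smul_mul_smul_comm]; rfl

/-- the unit of the layer `q` -/
def ct (q : Wb) : K := sgq (Tq π q) q

theorem ct_ne (q : Wb) : ct π q ≠ 0 := by
  cases q with
  | one => exact one_ne_zero
  | y s => exact SM890.tw_ne (Tq π (.y s)) (.y s)
  | yb s => exact SM890.tw_ne (Tq π (.yb s)) (.yb s)
  | pi => exact mul_ne_zero (SM890.tw_ne (Tq π .pi) (.y 0)) (SM890.tw_ne (Tq π .pi) (.y 1))

variable {π}

theorem rho_wq (q : Wb) {m : MM π} (h : ∀ q', ix q < ix q' → muE π q' m = 0) (x : R π) :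
    (rho π (wq π q * x) m : MM π) = ct π q • soc π ((muE π q m).1 * x) := by
  have e : (rho π (wq π q) m : MM π) = ct π q • soc π (muE π q m).1 := by
    conv_lhs => rw [← sum_muE m]
    refine (map_sum (rho π (wq π q)) _ _).trans ?_
    rw [Finset.sum_eq_single q]
    · refine (op_smul_oM π q (wq π q) _).trans ?_
      rw [tau_wq, mul_smul_comm, map_smul]
      change _ • repM π ((muE π q m).1 * wq π q) (oo K q) = _
      rw [map_mul, Module.End.mul_apply, C1R808.repM_wq, tab7 π q q le_rfl, if_pos rfl, one_smul,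
        dt_self]
      rfl
    · intro q' _ hq
      by_cases hi : ix q' ≤ ix q
      · refine (op_smul_oM π q' (wq π q) _).trans ?_
        rw [tau_wq, mul_smul_comm, map_smul]
        change _ • repM π ((muE π q' m).1 * wq π q) (oo K q') = _
        rw [map_mul, Module.End.mul_apply, C1R808.repM_wq, tab7 π q q' hi, if_neg hq, zero_smul,
          map_zero]
        exact smul_zero _
      · rw [h q' (by omega)]
        change rho π (wq π q) (oM π q' 0) = _
        rw [map_zero]
        exact map_zero (rho π (wq π q))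
    · intro h; exact absurd (Finset.mem_univ _) h
  refine (rho_mul π (wq π q) x m).trans ?_
  refine (congrArg (rho π x) e).trans ?_
  refine (map_smul (rho π x) _ _).trans ?_
  exact congrArg (fun y : MM π => ct π q • y) (soc_right π x _)

end Crest.Agent.R186.C1N154
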