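import Crest.Agent.R186.C1x_134
import Crest.Agent.R186.KOSM_296
import Crest.Agent.R186.C1M_605
import Crest.Agent.R186.SMp_890
import Crest.Agent.R186.WBM_163
import Crest.Agent.R186.MW_890
import Crest.Agent.R186.C2W_655

/-!
Row 186 (A) (helper134), leaf A.C1, step (2): the socle layers of `M` against the `W`-layers of
`R''`, six letters in the order `1 < y0 < y1 < yb0 < yb1 < π`.
-/

set_option autoImplicit false
set_option linter.unusedSectionVars false

noncomputable section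

namespace Crest.Agent.R186.C1y134

open Crest.Agent.R186.DefsQ830 Crest.Agent.R186.PBW128
open Crest.Agent.R186.C2b362 (pz)
open Crest.Agent.R186.C2b44 (kill kill_mem kill_kill)
open Crest.Agent.R186.KOS296 (pcZ_eq_pz)
open Crest.Agent.R186.WLF296 (lq ext_nf kill_nf' kill_lq sum_lq lq_wq lq_wq_mul lq_mem lev D_wq)
open Crest.Agent.R186.KOSM296 (cM cN_bv oM_nf kill_cM sum_cM eq_zero_of_cM cM_mem)
open Crest.Agent.R186.SM890 (MM oM pcM cW tW Tq tau op_smul_oM smul_oM mem_pcM dMM dMM_oM soc_kill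
  soc tau_one_eq)
open Crest.Agent.R186.C1M605 (tq tq_ne tau_wq)
open Win810 WBM163 WL221 Frame515 C1x134

variable {K : Type} [Field K] (π : Par K)

/-- the linear order of the six letters -/
def rk : Wb → ℕ
  | .one => 0
  | .y s => 1 + s.val
  | .yb s => 3 + s.val
  | .pi => 5

/-- enumeration of the six letters -/
def qs : ℕ → Wb
  | 0 => .one
  | 1 => .y 0
  | 2 => .y 1
  | 3 => .yb 0
  | 4 => .yb 1
  | _ => .pi

theorem rk_qs {j : ℕ} (hj : j < 6) : rk (qs j) = j := by
  interval_cases j <;> rfl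

theorem qs_rk (q : Wb) : qs (rk q) = q := by
  rcases q with _ | s | s | _
  · rfl
  · fin_cases s <;> rfl
  · fin_cases s <;> rfl
  · rfl

theorem rk_lt (q : Wb) : rk q < 6 := by
  rcases q with _ | s | s | _ <;> simp only [rk] <;> omega

theorem sum_qs {M : Type*} [AddCommMonoid M] (F : Wb → M) :
    ∑ q, F q = ∑ j ∈ Finset.range 6, F (qs j) := by
  refine (Finset.sum_bij' (fun j _ => qs j) (fun q _ => rk q) ?_ ?_ ?_ ?_ ?_).symm
  · intro j _; exact Finset.mem_univ _
  · intro q _; exact Finset.mem_range.2 (rk_lt q)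
  · intro j hj; exact rk_qs (Finset.mem_range.1 hj)
  · intro q _; exact qs_rk q
  · intro j _; rfl

theorem lev_le {q q' : Wb} (h : rk q ≤ rk q') : lev q ≤ lev q' := by
  revert h
  rcases q with _ | s | s | _ <;> rcases q' with _ | s' | s' | _ <;>
    simp only [rk, lev] <;> omega

/-- the table: the left action lowers the order -/
theorem tab (q1 q' q : Wb) (h1 : q1 ≠ .one) (h : rk q' ≤ rk q) :
    cW π q1 q' = 0 ∨ tW q1 q' ≠ q := by
  have h10 : (1 : Fin 2) ≠ 0 := by decide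
  have h01 : (0 : Fin 2) ≠ 1 := by decide
  by_cases hc : cW π q1 q' = 0
  · exact Or.inl hc
  · right
    rintro rfl
    revert h hc
    rcases q1 with _ | s | s | _ <;> rcases q' with _ | s' | s' | _ <;>
      (try rcases fin2 s with rfl | rfl) <;> (try rcases fin2 s' with rfl | rfl) <;>
      simp [SM890.cW, SM890.dk, SM890.dt, SM890.tW, rk, h10, h01] at h1 ⊢

/-- `w_q · o_q' = 0` for `q'` before `q` -/
theorem cW_lt {q q' : Wb} (h : rk q' < rk q) : cW π q q' = 0 := by
  have h10 : (1 : Fin 2) ≠ 0 := by decide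
  have h01 : (0 : Fin 2) ≠ 1 := by decide
  revert h
  rcases q with _ | s | s | _ <;> rcases q' with _ | s' | s' | _ <;>
    (try rcases fin2 s with rfl | rfl) <;> (try rcases fin2 s' with rfl | rfl) <;>
    simp [SM890.cW, SM890.dk, SM890.dt, SM890.tW, rk, h10, h01]

theorem cW_self (q : Wb) : cW π q q ≠ 0 ∧ tW q q = .one := by
  have h10 : (1 : Fin 2) ≠ 0 := by decide
  have h01 : (0 : Fin 2) ≠ 1 := by decide
  rcases q with _ | s | s | _ <;>
    (try rcases fin2 s with rfl | rfl) <;>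
    simp [SM890.cW, SM890.dk, SM890.dt, SM890.tW, h10, h01]

/-- (A1) -/
theorem cM_oM_le {q q' : Wb} (h : rk q' ≤ rk q) (u : R π) :
    cM π q (oM π q' u) = if q' = q then kill π u else 0 := by
  have key : cM π q ∘ₗ oM π q' = if q' = q then (kill π).toLinearMap else 0 := by
    refine LinearMap.ext fun u => ?_
    refine (ext_nf π (φ := cM π q ∘ₗ oM π q')
      (ψ := if q' = q then (kill π).toLinearMap else 0) ?_ u)
    intro i j k w q1
    rw [LinearMap.comp_apply, oM_nf]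
    show KOSM296.cN π q (cW π q1 q' • (bv K i j k w (tW q1 q') : N K)) = _
    rw [map_smul, cN_bv]
    by_cases h1 : q1 = .one
    · subst h1
      have e2 : cW π .one q' = 1 := rfl
      have e3 : tW .one q' = q' := rfl
      rw [e2, e3, one_smul]
      by_cases h2 : q' = q
      · rw [if_pos h2, if_pos h2]
        show _ = kill π _
        rw [kill_nf', if_pos rfl]
      · rw [if_neg h2, if_neg h2]; rfl
    · have e4 : (if q' = q then (kill π).toLinearMap else 0) (nf π (i, j, k, w, q1)) = 0 := by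
        by_cases h2 : q' = q
        · rw [if_pos h2]
          show kill π _ = 0
          rw [kill_nf', if_neg h1]
        · rw [if_neg h2]; rfl
      rw [e4]
      rcases tab π q1 q' q h1 h with h3 | h3
      · rw [h3, zero_smul]
      · rw [if_neg h3, smul_zero]
  have := LinearMap.congr_fun key u
  rw [LinearMap.comp_apply] at this
  rw [this]
  split_ifs <;> rfl

/-- vanishing of the coordinates after `q` -/
def Up (q : Wb) (m : MM π) : Prop := ∀ q', rk q < rk q' → cM π q' m = 0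

variable {π}

theorem rk_inj {q q' : Wb} (h : rk q = rk q') : q = q' := by
  rw [← qs_rk q, ← qs_rk q', h]

/-- (A2) -/
theorem cM_smul_le {q : Wb} {m : MM π} (hm : Up π q m) (r : R π) :
    cM π q (r • m) = kill π (r * cM π q m) := by
  have e : r • m = ∑ q', oM π q' (r * cM π q' m) := by
    conv_lhs => rw [sum_cM π m]
    rw [Finset.smul_sum]
    exact Finset.sum_congr rfl fun q' _ => smul_oM π q' r _
  rw [e, map_sum, Finset.sum_eq_single q]
  · rw [cM_oM_le π le_rfl, if_pos rfl]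
  · intro q' _ h
    by_cases h1 : rk q' ≤ rk q
    · rw [cM_oM_le π h1, if_neg h]
    · rw [hm q' (by omega), mul_zero, map_zero, map_zero]
  · intro h; exact absurd (Finset.mem_univ _) h

/-- (A3) -/
theorem cM_D_le {q : Wb} {m : MM π} (hm : Up π q m) :
    cM π q (dMM π m) = kill π (Der580.D π (cM π q m)) := by
  have e : dMM π m = ∑ q', oM π q' (Der580.D π (cM π q' m)) := by
    conv_lhs => rw [sum_cM π m]
    rw [map_sum]
    exact Finset.sum_congr rfl fun q' _ => dMM_oM π q' _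
  rw [e, map_sum, Finset.sum_eq_single q]
  · rw [cM_oM_le π le_rfl, if_pos rfl]
  · intro q' _ h
    by_cases h1 : rk q' ≤ rk q
    · rw [cM_oM_le π h1, if_neg h]
    · rw [hm q' (by omega), map_zero, map_zero, map_zero]
  · intro h; exact absurd (Finset.mem_univ _) h

variable (π)

/-- the unit -/
def kap (q : Wb) : K := tq (Tq π q) q * cW π q q

theorem kap_ne (q : Wb) : kap π q ≠ 0 := mul_ne_zero (tq_ne _ q) (cW_self π q).1

theorem oM_wq (q q' : Wb) (r : R π) :
    oM π q' (r * wq π q) = cW π q q' • oM π (tW q q') r := by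
  show SM890.repM π (r * wq π q) (SM890.oo K q') = _
  rw [map_mul, Module.End.mul_apply, SM890.repM_wq, map_smul]
  rfl

theorem op_wq_oM (q q' : Wb) (s r : R π) :
    MulOpposite.op (wq π q * s) • oM π q' r =
      (tq (Tq π q') q * cW π q q') • (MulOpposite.op s • oM π (tW q q') r) := by
  have e1 : MulOpposite.op (wq π q * s) = MulOpposite.op s * MulOpposite.op (wq π q) := rfl
  rw [e1, mul_smul, op_smul_oM, tau_wq, mul_smul_comm, map_smul, oM_wq, smul_smul, smul_comm]

variable {π}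

/-- (A4) -/
theorem op_wq {q : Wb} {m : MM π} (hm : Up π q m) (s : R π) :
    MulOpposite.op (wq π q * s) • m = kap π q • soc π (cM π q m * s) := by
  conv_lhs => rw [sum_cM π m]
  rw [Finset.smul_sum, Finset.sum_eq_single q]
  · rw [op_wq_oM, (cW_self π q).2]
    congr 1
    rw [op_smul_oM, tau_one_eq]
  · intro q' _ h
    by_cases h1 : rk q' ≤ rk q
    · have h2 : rk q' < rk q := lt_of_le_of_ne h1 fun h3 => h (rk_inj h3)
      rw [op_wq_oM, cW_lt π h2, mul_zero, zero_smul]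
    · rw [hm q' (by omega), map_zero, smul_zero]
  · intro h; exact absurd (Finset.mem_univ _) h

/-- (A5) -/
theorem lq_D {q q' : Wb} (h : rk q ≤ rk q') (s : R π) :
    lq π q (Der580.D π (wq π q' * s)) = if q = q' then kill π (Der580.D π s) else 0 := by
  rw [Der580.D_mul, D_wq, zero_mul, zero_add, lq_wq_mul π q' q _ (lev_le h)]

/-! ### generic pairings -/

section gen

open Hat827 Hat827.DGA Res255 MulOpposite

variable {A B : DGA K} {Y : RCells A}

/-- `(m, a) ↦ φ (m a)` -/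
def bM (M : BM A A) (φ : M.X →ₗ[K] K) : M.X →ₗ[K] A.C →ₗ[K] K :=
  LinearMap.mk₂ K (fun m a => φ (op a • m))
    (fun m m' a => by rw [smul_add, map_add])
    (fun c m a => by
      rw [← map_smul]
      congr 1
      exact (rmul M.toRM a).map_smul c m)
    (fun m a a' => by rw [op_add, add_smul, map_add])
    (fun c m a => by rw [op_smul, smul_assoc, map_smul])

theorem bM_apply (M : BM A A) (φ : M.X →ₗ[K] K) (m : M.X) (a : A.C) :
    bM M φ m a = φ (op a • m) := rfl

/-- `(m, a) ↦ v σ (m a)` -/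
def paM (M : BM A A) (lo : ℤ) (v : Y.ι → M.X →ₗ[K] K)
    (v_d : ∀ σ m, v σ (M.d m) = ∑ τ ∈ Y.F (Y.s σ), v τ (Y.c τ σ • m)) :
    Pa Y M.toLM (selfL A).toGC where
  lo := lo
  f σ := bM M (v σ)
  f_d := by
    intro σ k l m a _ _
    change M.X at m
    change A.C at a
    change v σ (op a • M.d m) + v σ (op (A.D a) • m) = ∑ τ ∈ Y.F (Y.s σ), v τ (op a • Y.c τ σ • m)
    rw [add_comm, ← map_add, ← M.leibR, v_d]
    refine Finset.sum_congr rfl fun τ _ => ?_
    rw [smul_comm]

/-- the same pairing over `B`, pulled back to `A` -/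
def pa0 (pr : Hm A B) (M : BM A A) (T : BM B B) (i : T.X →ₗ[K] M.X)
    (i_d : ∀ z, i (T.d z) = M.d (i z)) (i_smul : ∀ (a : A.C) z, i (pr.f a • z) = a • i z) (lo : ℤ)
    (v : Y.ι → M.X →ₗ[K] K)
    (v_d : ∀ σ m, v σ (M.d m) = ∑ τ ∈ Y.F (Y.s σ), v τ (Y.c τ σ • m)) :
    Pa Y (resL pr T.toLM) (selfL B).toGC where
  lo := lo
  f σ := bM T (v σ ∘ₗ i)
  f_d := by
    intro σ k l z a _ _
    change T.X at z
    change B.C at a
    change v σ (i (op a • T.d z)) + v σ (i (op (B.D a) • z)) =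
      ∑ τ ∈ Y.F (Y.s σ), v τ (i (op a • pr.f (Y.c τ σ) • z))
    rw [add_comm, ← map_add, ← map_add, ← T.leibR, i_d, v_d]
    refine Finset.sum_congr rfl fun τ _ => ?_
    rw [← i_smul, smul_comm]

end gen

/-! ### the windows -/

section win

open Hat827 Hat827.DGA Res255 MulOpposite Core890 SM890 C2W655

variable (π)

/-- `tL` as a bimodule over `L` -/
abbrev tT (π : DefsQ830.Par K) : TB (WL π) (WL π) := (TB.self (WL π)).shift 1 0

/-- `tL` -/
abbrev tLS (π : DefsQ830.Par K) : BM (WL π).dga (WL π).dga := winS (tT π)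

theorem q_tT (i j : DefsQ830.Ob) (k : ℤ) : (tT π).q i j k =
    pcL π ((i.1.val : ℤ) - (j.1.val : ℤ) + 1) ((i.2.val : ℤ) - (j.2.val : ℤ)) k := by
  change pcL π ((i.1.val : ℤ) - (j.1.val : ℤ) + (0 + 1)) ((i.2.val : ℤ) - (j.2.val : ℤ) + (0 + 0)) k
    = _
  rw [zero_add, add_zero, add_zero]

variable (s : ℕ) (hs : 2 ≤ s)

theorem q_tM (i j : DefsQ830.Ob) (k : ℤ) : (tbOf (bdM π s hs)).q i j k =
    pcM π s ((i.1.val : ℤ) - (j.1.val : ℤ)) ((i.2.val : ℤ) - (j.2.val : ℤ)) k :=
  q_tbOf (bdM π s hs) i j k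

/-- `prL ∘ cM q` -/
def cL (q : Wb) : MM π →ₗ[K] RL π := (prL π).toLinearMap ∘ₗ cM π q

/-- `oM q` on `R'` -/
def oL (q : Wb) : RL π →ₗ[K] MM π := oM π q ∘ₗ (RL π).val.toLinearMap

/-- `κ • prL ∘ lq q` -/
def lL (q : Wb) : R π →ₗ[K] RL π := kap π q • ((prL π).toLinearMap ∘ₗ lq π q)

/-- `κ⁻¹ • w_q *` -/
def rL (q : Wb) : RL π →ₗ[K] R π :=
  (kap π q)⁻¹ • (LinearMap.mulLeft K (wq π q) ∘ₗ (RL π).val.toLinearMap)

variable {π}

theorem cL_val (q : Wb) (m : MM π) : (cL π q m).1 = cM π q m := by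
  show kill π (cM π q m) = _
  rw [kill_cM]

theorem oL_apply (q : Wb) (z : RL π) : oL π q z = oM π q z.1 := rfl

theorem lL_apply (q : Wb) (r : R π) : lL π q r = kap π q • prL π (lq π q r) := rfl

theorem lL_val (q : Wb) (r : R π) : (lL π q r).1 = kap π q • lq π q r := by
  show kap π q • kill π (lq π q r) = _
  rw [kill_lq]

theorem rL_apply (q : Wb) (z : RL π) : rL π q z = (kap π q)⁻¹ • (wq π q * z.1) := rfl

theorem cL_mem (q : Wb) {P A C : ℤ} {m : MM π} (hm : m ∈ pcM π s P A C) :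
    cL π q m ∈ pcL π (P + 1) A (C + (wC q.word - s)) := by
  rw [mem_pcL, cL_val, pcZ_eq_pz]
  have := cM_mem π s hm q
  rwa [show C - (s : ℤ) + wC q.word = C + (wC q.word - s) by ring] at this

theorem oL_mem (q : Wb) {P A C : ℤ} {z : RL π} (hz : z ∈ pcL π (P + 1) A C) :
    oL π q z ∈ pcM π s P A (C + (s - wC q.word)) :=
  mem_pcM π s q hz (by ring)

theorem wq_pcZ (q : Wb) : wq π q ∈ pcZ π 0 0 (wC q.word) := by
  have h := C2b44.nf_mem_pcZ π (0, 0, 0, [], q) (P := 0) (A := 0) (C := (wC q.word : ℤ))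
    (by simp [dPx]) (by simp [dAx]) (by simp [dCx])
  simpa [nf, we, wd] using h

theorem lL_mem (q : Wb) {P A C : ℤ} {r : R π} (hr : r ∈ pcZ π P A C) :
    lL π q r ∈ pcL π P A (C + (-(wC q.word : ℤ))) := by
  rw [lL_apply]
  refine Submodule.smul_mem _ _ (prL_mem ?_)
  rw [pcZ_eq_pz] at hr ⊢
  have := lq_mem π hr q
  rwa [show C - (wC q.word : ℤ) = C + (-(wC q.word : ℤ)) by ring] at this

theorem rL_mem (q : Wb) {P A C : ℤ} {z : RL π} (hz : z ∈ pcL π P A C) :
    rL π q z ∈ pcZ π P A (C + wC q.word) := by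
  rw [rL_apply]
  refine Submodule.smul_mem _ _ ?_
  have := pcZ_mul π (wq_pcZ (π := π) q) hz
  rwa [zero_add, zero_add, add_comm] at this

variable (π)

theorem iSup_map {U V : Type} [AddCommGroup U] [Module K U] [AddCommGroup V] [Module K V]
    (f : U →ₗ[K] V) (F : ℤ → Submodule K U) (G : ℤ → Submodule K V) (c : ℤ)
    (h : ∀ k x, x ∈ F k → f x ∈ G (k + c)) {x : U} (hx : x ∈ ⨆ k, F k) : f x ∈ ⨆ k, G k := by
  have h1 : (⨆ k, F k) ≤ (⨆ k, G k).comap f :=
    iSup_le fun k x hx => (le_iSup G (k + c)) (h k x hx)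
  exact h1 hx

/-- pieces of `M` -/
def pM (i j : DefsQ830.Ob) (k : ℤ) : Submodule K (MM π) :=
  pcM π s ((i.1.val : ℤ) - (j.1.val : ℤ)) ((i.2.val : ℤ) - (j.2.val : ℤ)) k

/-- pieces of `tL` -/
def pT (i j : DefsQ830.Ob) (k : ℤ) : Submodule K (RL π) :=
  pcL π ((i.1.val : ℤ) - (j.1.val : ℤ) + 1) ((i.2.val : ℤ) - (j.2.val : ℤ)) k

/-- entries of `M` -/
def EM (i j : DefsQ830.Ob) : Submodule K (MM π) := ⨆ k : ℤ, pM π s i j k

/-- entries of `tL` -/
def ET (i j : DefsQ830.Ob) : Submodule K (RL π) := ⨆ k : ℤ, pT π i j k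

theorem cL_ET (q : Wb) (i j : DefsQ830.Ob) {x : MM π} (hx : x ∈ EM π s i j) :
    cL π q x ∈ ET π i j := by
  have h1 : EM π s i j ≤ (ET π i j).comap (cL π q) :=
    iSup_le fun k x hx => (le_iSup (pT π i j) (k + ((wC q.word : ℤ) - s))) (cL_mem s q hx)
  exact h1 hx

theorem oL_EM (q : Wb) (i j : DefsQ830.Ob) {x : RL π} (hx : x ∈ ET π i j) :
    oL π q x ∈ EM π s i j := by
  have h1 : ET π i j ≤ (EM π s i j).comap (oL π q) :=
    iSup_le fun k x hx => (le_iSup (pM π s i j) (k + ((s : ℤ) - wC q.word))) (oL_mem s q hx)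
  exact h1 hx

theorem E_tM (i j : DefsQ830.Ob) : (Core890.E (tbOf (bdM π s hs)) i j : Submodule K (MM π)) =
    EM π s i j := iSup_congr fun k => q_tM π s hs i j k

theorem E_tT (i j : DefsQ830.Ob) : (Core890.E (tT π) i j : Submodule K (RL π)) = ET π i j :=
  iSup_congr fun k => q_tT π i j k

/-- entries of `M` -/
def eM (m : (MW π s hs).X) (i j : DefsQ830.Ob) : MM π := m.1 i j

/-- entries of `tL` -/
def eT (z : (tLS π).X) (i j : DefsQ830.Ob) : RL π := z.1 i j

theorem eM_mem (m : (MW π s hs).X) (i j : DefsQ830.Ob) : eM π s hs m i j ∈ EM π s i j := by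
  rw [← E_tM π s hs i j]
  exact m.2 i j

theorem eT_mem (z : (tLS π).X) (i j : DefsQ830.Ob) : eT π z i j ∈ ET π i j := by
  rw [← E_tT π i j]
  exact z.2 i j

theorem cL_E (q : Wb) (m : (MW π s hs).X) (i j : DefsQ830.Ob) :
    cL π q (eM π s hs m i j) ∈ (Core890.E (tT π) i j : Submodule K (RL π)) := by
  rw [E_tT]
  exact cL_ET π s q i j (eM_mem π s hs m i j)

theorem oL_E (q : Wb) (z : (tLS π).X) (i j : DefsQ830.Ob) :
    oL π q (eT π z i j) ∈ (Core890.E (tbOf (bdM π s hs)) i j : Submodule K (MM π)) := by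
  rw [E_tM]
  exact oL_EM π s q i j (eT_mem π z i j)

/-- window form of `cL` -/
def μW (q : Wb) : (MW π s hs).X →ₗ[K] (tLS π).X where
  toFun m := (⟨fun i j => cL π q (eM π s hs m i j), cL_E π s hs q m⟩ : Xs (tT π))
  map_add' a b := by
    apply Subtype.ext
    funext i j
    exact map_add (cL π q) _ _
  map_smul' c a := by
    apply Subtype.ext
    funext i j
    exact map_smul (cL π q) _ _

/-- window form of `oL` -/
def νW (q : Wb) : (tLS π).X →ₗ[K] (MW π s hs).X where
  toFun z := (⟨fun i j => oL π q (eT π z i j), oL_E π s hs q z⟩ : Xs (tbOf (bdM π s hs)))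
  map_add' a b := by
    apply Subtype.ext
    funext i j
    exact map_add (oL π q) _ _
  map_smul' c a := by
    apply Subtype.ext
    funext i j
    exact map_smul (oL π q) _ _

variable {s hs} in
theorem eM_ext {m n : (MW π s hs).X} (h : ∀ i j, eM π s hs m i j = eM π s hs n i j) : m = n :=
  Subtype.ext (funext fun i => funext fun j => h i j)

theorem eT_ext {m n : (tLS π).X} (h : ∀ i j, eT π m i j = eT π n i j) : m = n :=
  Subtype.ext (funext fun i => funext fun j => h i j)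

theorem eT_μW (q : Wb) (m : (MW π s hs).X) (i j : DefsQ830.Ob) :
    eT π (μW π s hs q m) i j = cL π q (eM π s hs m i j) := rfl

theorem eM_νW (q : Wb) (z : (tLS π).X) (i j : DefsQ830.Ob) :
    eM π s hs (νW π s hs q z) i j = oL π q (eT π z i j) := rfl

theorem sumXs {w w' : WD K} (T : TB w w') {ι : Type} (F : Finset ι) (f : ι → Xs T) (i : w.Ob)
    (j : w'.Ob) : (∑ a ∈ F, f a).1 i j = ∑ a ∈ F, (f a).1 i j := coe_sumS F f i j

theorem eM_smul (a : (WR π).Win) (m : (MW π s hs).X) (i j : DefsQ830.Ob) :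
    eM π s hs ((show (WR π).dga.C from a) • m) i j =
      ∑ l : DefsQ830.Ob, (show R π from a.1 i l) • eM π s hs m l j := rfl

theorem eM_op_smul (a : (WR π).Win) (m : (MW π s hs).X) (i j : DefsQ830.Ob) :
    eM π s hs (op (show (WR π).dga.C from a) • m) i j =
      ∑ l : DefsQ830.Ob, op (show R π from a.1 l j) • eM π s hs m i l := rfl

theorem eT_smul (a : (WL π).Win) (m : (tLS π).X) (i j : DefsQ830.Ob) :
    eT π ((show (WL π).dga.C from a) • m) i j =
      ∑ l : DefsQ830.Ob, (show RL π from a.1 i l) * eT π m l j := rfl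

theorem eT_op_smul (a : (WL π).Win) (m : (tLS π).X) (i j : DefsQ830.Ob) :
    eT π (op (show (WL π).dga.C from a) • m) i j =
      ∑ l : DefsQ830.Ob, eT π m i l * (show RL π from a.1 l j) := rfl

theorem eM_d (m : (MW π s hs).X) (i j : DefsQ830.Ob) :
    eM π s hs ((MW π s hs).d m) i j = dMM π (eM π s hs m i j) := rfl

theorem eT_d (m : (tLS π).X) (i j : DefsQ830.Ob) :
    eT π ((tLS π).d m) i j = DL π (eT π m i j) := rfl

theorem eM_gr {k : ℤ} {m : (MW π s hs).X} : m ∈ (MW π s hs).gr k ↔ ∀ i j : DefsQ830.Ob,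
    eM π s hs m i j ∈ pM π s i j k :=
  mem_grM (bdM π s hs)

theorem eT_gr {k : ℤ} {m : (tLS π).X} : m ∈ (tLS π).gr k ↔ ∀ i j : DefsQ830.Ob,
    eT π m i j ∈ pT π i j k := by
  have e : ∀ i j : DefsQ830.Ob, ((tT π).q i j k : Submodule K (RL π)) = pT π i j k :=
    fun i j => q_tT π i j k
  constructor
  · intro h i j
    rw [← e i j]
    exact h i j
  · intro h i j
    have h1 : eT π m i j ∈ ((tT π).q i j k : Submodule K (RL π)) := by
      rw [e i j]
      exact h i j
    exact h1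

theorem E_le {w v : WD K} (f : w.S →ₗ[K] v.S) (c : ℤ) (i j : w.Ob) (i' j' : v.Ob)
    (h : ∀ k x, x ∈ w.q i j k → f x ∈ v.q i' j' (k + c)) {x : w.S} (hx : x ∈ w.E i j) :
    f x ∈ v.E i' j' := by
  have h1 : w.E i j ≤ (v.E i' j').comap f :=
    iSup_le fun k x hx => WD.q_le i' j' (k + c) (h k x hx)
  exact h1 hx

/-- window form of `lL` -/
def lamW (q : Wb) : (WR π).Win →ₗ[K] (WL π).Win where
  toFun a := ⟨Matrix.of fun i j => lL π q (a.1 i j), fun i j =>
    E_le (w := WR π) (v := WL π) (lL π q) (-(wC q.word : ℤ)) i j i j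
      (fun k x hx => lL_mem q hx) (a.2 i j)⟩
  map_add' a b := by
    apply Subtype.ext
    ext i j : 2
    exact map_add (lL π q) _ _
  map_smul' c a := by
    apply Subtype.ext
    ext i j : 2
    exact map_smul (lL π q) _ _

/-- window form of `rL` -/
def rhoW (q : Wb) : (WL π).Win →ₗ[K] (WR π).Win where
  toFun a := ⟨Matrix.of fun i j => rL π q (a.1 i j), fun i j =>
    E_le (w := WL π) (v := WR π) (rL π q) (wC q.word : ℤ) i j i j
      (fun k x hx => rL_mem q hx) (a.2 i j)⟩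
  map_add' a b := by
    apply Subtype.ext
    ext i j : 2
    exact map_add (rL π q) _ _
  map_smul' c a := by
    apply Subtype.ext
    ext i j : 2
    exact map_smul (rL π q) _ _

/-! ### the instance -/

theorem eM_zero (i j : DefsQ830.Ob) : eM π s hs 0 i j = 0 := rfl
theorem eT_zero (i j : DefsQ830.Ob) : eT π 0 i j = 0 := rfl

variable {π s hs}

theorem up_of {j : ℕ} (hj : j < 6) {m : (MW π s hs).X}
    (h : ∀ i < 6, j < i → μW π s hs (qs i) m = 0) (a b : DefsQ830.Ob) :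
    Up π (qs j) (eM π s hs m a b) := by
  intro q' hq'
  rw [rk_qs hj] at hq'
  have h1 := h (rk q') (rk_lt q') hq'
  rw [qs_rk] at h1
  have h2 := congrArg (fun z => eT π z a b) h1
  have h3 : cL π q' (eM π s hs m a b) = 0 := h2
  rw [← cL_val, h3]
  rfl

variable (π s hs)

theorem soc_d (z : (tLS π).X) : νW π s hs .one ((tLS π).d z) = (MW π s hs).d (νW π s hs .one z) := by
  refine eM_ext π fun i j => ?_
  rw [eM_νW, eT_d, eM_d, eM_νW, oL_apply, oL_apply, dMM_oM, DL_val]
  exact soc_kill π _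

theorem soc_smul (a : (WR π).dga.C) (z : (tLS π).X) :
    νW π s hs .one ((prHm π).f a • z) = a • νW π s hs .one z := by
  refine eM_ext π fun i j => ?_
  have e1 := eT_smul π (prW π a) z i j
  have e2 := eM_smul π s hs a (νW π s hs .one z) i j
  have e3 : eM π s hs (νW π s hs .one ((prHm π).f a • z)) i j =
      oL π .one (eT π ((prHm π).f a • z) i j) := rfl
  rw [e3]
  refine Eq.trans ?_ e2.symm
  refine (congrArg (oL π .one) e1).trans ?_
  rw [map_sum]
  refine Finset.sum_congr rfl fun l _ => ?_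
  rw [oL_apply, eM_νW, oL_apply, smul_oM]
  have e4 : ((show RL π from (prW π a).1 i l) * eT π z l j : RL π).1 =
      kill π ((show R π from (show (WR π).Win from a).1 i l) * (eT π z l j).1) := by
    rw [map_mul, kill_val]
    rfl
  rw [e4]
  exact soc_kill π _

theorem μ_smul {q : Wb} (a : (WR π).dga.C) {m : (MW π s hs).X}
    (hm : ∀ i j, Up π q (eM π s hs m i j)) :
    μW π s hs q (a • m) = (prHm π).f a • μW π s hs q m := by
  refine eT_ext π fun i j => ?_
  have e1 := eT_smul π (prW π a) (μW π s hs q m) i j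
  have e2 := eM_smul π s hs a m i j
  rw [eT_μW]
  refine Eq.trans ?_ e1.symm
  rw [e2, map_sum]
  refine Finset.sum_congr rfl fun l _ => ?_
  apply Subtype.ext
  rw [cL_val, cM_smul_le (hm l j), map_mul, kill_cM, eT_μW]
  have e4 : ((show RL π from (prW π a).1 i l) * cL π q (eM π s hs m l j) : RL π).1 =
      kill π (show R π from (show (WR π).Win from a).1 i l) * (cL π q (eM π s hs m l j)).1 := rfl
  rw [e4, cL_val]

theorem μ_d {q : Wb} {m : (MW π s hs).X} (hm : ∀ i j, Up π q (eM π s hs m i j)) :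
    μW π s hs q ((MW π s hs).d m) = (tLS π).d (μW π s hs q m) := by
  refine eT_ext π fun i j => ?_
  rw [eT_μW, eM_d, eT_d, eT_μW]
  apply Subtype.ext
  rw [cL_val, cM_D_le (hm i j), DL_val, cL_val]

theorem μ_mem {q : Wb} {k : ℤ} {m : (MW π s hs).X} (hm : m ∈ (MW π s hs).gr k) :
    μW π s hs q m ∈ (tLS π).gr (k - (s - wC q.word)) := by
  rw [eT_gr]
  intro i j
  rw [eT_μW]
  have := cL_mem s q ((eM_gr π s hs).1 hm i j)
  rwa [show k + ((wC q.word : ℤ) - s) = k - (s - wC q.word) by ring] at this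

theorem ν_mem {q : Wb} {k : ℤ} {z : (tLS π).X} (hz : z ∈ (tLS π).gr k) :
    νW π s hs q z ∈ (MW π s hs).gr (k + (s - wC q.word)) := by
  rw [eM_gr]
  intro i j
  rw [eM_νW]
  exact oL_mem s q ((eT_gr π).1 hz i j)

theorem μ_ν (q : Wb) (z : (tLS π).X) : μW π s hs q (νW π s hs q z) = z := by
  refine eT_ext π fun i j => ?_
  rw [eT_μW, eM_νW]
  apply Subtype.ext
  rw [cL_val, oL_apply, KOSM296.cM_oM π q q (kill_val _), if_pos rfl]

theorem μ_ν' {q q' : Wb} (h : q' ≠ q) (z : (tLS π).X) : μW π s hs q (νW π s hs q' z) = 0 := by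
  refine eT_ext π fun i j => ?_
  rw [eT_μW, eM_νW, eT_zero]
  apply Subtype.ext
  rw [cL_val, oL_apply, KOSM296.cM_oM π q q' (kill_val _), if_neg h]
  rfl

theorem μ_zero {m : (MW π s hs).X} (h : ∀ j < 6, μW π s hs (qs j) m = 0) : m = 0 := by
  refine eM_ext π fun i j => ?_
  rw [eM_zero]
  refine eq_zero_of_cM π fun q => ?_
  have h1 := h (rk q) (rk_lt q)
  rw [qs_rk] at h1
  have h2 : cL π q (eM π s hs m i j) = 0 := congrArg (fun z => eT π z i j) h1
  rw [← cL_val, h2]
  rfl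

/-- entries of `R''` -/
def eR (a : (WR π).dga.C) (i j : DefsQ830.Ob) : R π := (show (WR π).Win from a).1 i j

/-- entries of `L` -/
def eL (a : (WL π).dga.C) (i j : DefsQ830.Ob) : RL π := (show (WL π).Win from a).1 i j

theorem eR_ext {a b : (WR π).dga.C} (h : ∀ i j, eR π a i j = eR π b i j) : a = b := by
  apply Subtype.ext
  ext i j : 2
  exact h i j

theorem eL_ext {a b : (WL π).dga.C} (h : ∀ i j, eL π a i j = eL π b i j) : a = b := by
  apply Subtype.ext
  ext i j : 2
  exact h i j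

theorem eR_gr {k : ℤ} {a : (WR π).dga.C} : a ∈ (WR π).dga.G k ↔ ∀ i j : DefsQ830.Ob,
    eR π a i j ∈ pcZ π ((i.1.val : ℤ) - (j.1.val : ℤ)) ((i.2.val : ℤ) - (j.2.val : ℤ)) k := Iff.rfl

theorem eL_gr {k : ℤ} {a : (WL π).dga.C} : a ∈ (WL π).dga.G k ↔ ∀ i j : DefsQ830.Ob,
    eL π a i j ∈ pcL π ((i.1.val : ℤ) - (j.1.val : ℤ)) ((i.2.val : ℤ) - (j.2.val : ℤ)) k := Iff.rfl

/-- `lamW` on the algebra -/
def lamC (q : Wb) : (WR π).dga.C →ₗ[K] (WL π).dga.C := lamW π q

/-- `rhoW` on the algebra -/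
def rhoC (q : Wb) : (WL π).dga.C →ₗ[K] (WR π).dga.C := rhoW π q

theorem eL_lamC (q : Wb) (a : (WR π).dga.C) (i j : DefsQ830.Ob) :
    eL π (lamC π q a) i j = lL π q (eR π a i j) := rfl

theorem eR_rhoC (q : Wb) (a : (WL π).dga.C) (i j : DefsQ830.Ob) :
    eR π (rhoC π q a) i j = rL π q (eL π a i j) := rfl

theorem eR_D (a : (WR π).dga.C) (i j : DefsQ830.Ob) :
    eR π ((WR π).dga.D a) i j = Der580.D π (eR π a i j) := rfl

theorem eL_D (a : (WL π).dga.C) (i j : DefsQ830.Ob) :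
    eL π ((WL π).dga.D a) i j = DL π (eL π a i j) := rfl

theorem eR_sum (F : Finset ℕ) (f : ℕ → (WR π).dga.C) (i j : DefsQ830.Ob) :
    eR π (∑ t ∈ F, f t) i j = ∑ t ∈ F, eR π (f t) i j := by
  classical
  induction F using Finset.induction_on with
  | empty => rfl
  | insert a F ha ih =>
    rw [Finset.sum_insert ha, Finset.sum_insert ha, ← ih]
    rfl

theorem lam_mem {q : Wb} {k : ℤ} {a : (WR π).dga.C} (ha : a ∈ (WR π).dga.G k) :
    lamC π q a ∈ (WL π).dga.G (k - wC q.word) := by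
  rw [eL_gr]
  intro i j
  rw [eL_lamC]
  have := lL_mem q ((eR_gr π).1 ha i j)
  rwa [← sub_eq_add_neg] at this

theorem rho_mem {q : Wb} {k : ℤ} {a : (WL π).dga.C} (ha : a ∈ (WL π).dga.G k) :
    rhoC π q a ∈ (WR π).dga.G (k + wC q.word) := by
  rw [eR_gr]
  intro i j
  rw [eR_rhoC]
  exact rL_mem q ((eL_gr π).1 ha i j)

theorem rL_lL (q : Wb) (r : R π) : rL π q (lL π q r) = wq π q * lq π q r := by
  rw [rL_apply, lL_val, mul_smul_comm, smul_smul, inv_mul_cancel₀ (kap_ne π q), one_smul]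

theorem sum_lam (a : (WR π).dga.C) :
    a = ∑ j ∈ Finset.range 6, rhoC π (qs j) (lamC π (qs j) a) := by
  refine eR_ext π fun i j => ?_
  rw [eR_sum]
  conv_lhs => rw [sum_lq π (eR π a i j), sum_qs]
  refine Finset.sum_congr rfl fun t _ => ?_
  rw [eR_rhoC, eL_lamC, rL_lL]

theorem lL_rL (q : Wb) (z : RL π) : lL π q (rL π q z) = z := by
  apply Subtype.ext
  rw [lL_val, rL_apply, map_smul, lq_wq π q q (kill_val z), if_pos rfl, smul_smul,
    mul_inv_cancel₀ (kap_ne π q), one_smul]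

theorem lam_rho (q : Wb) (a : (WL π).dga.C) : lamC π q (rhoC π q a) = a := by
  refine eL_ext π fun i j => ?_
  rw [eL_lamC, eR_rhoC, lL_rL]

theorem lam_d (q : Wb) (a : (WL π).dga.C) :
    lamC π q ((WR π).dga.D (rhoC π q a)) = (WL π).dga.D a := by
  refine eL_ext π fun i j => ?_
  rw [eL_lamC, eR_D, eR_rhoC, eL_D]
  apply Subtype.ext
  rw [lL_val, rL_apply, map_smul, map_smul, lq_D le_rfl, if_pos rfl, smul_smul,
    mul_inv_cancel₀ (kap_ne π q), one_smul, DL_val]

theorem lam_d' {q q' : Wb} (h : rk q < rk q') (a : (WL π).dga.C) :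
    lamC π q ((WR π).dga.D (rhoC π q' a)) = 0 := by
  refine eL_ext π fun i j => ?_
  rw [eL_lamC, eR_D, eR_rhoC]
  apply Subtype.ext
  have hne : q ≠ q' := fun e => by rw [e] at h; exact lt_irrefl _ h
  rw [lL_val, rL_apply, map_smul, map_smul, lq_D h.le, if_neg hne, smul_zero, smul_zero]
  rfl

/-- the pairing on a layer -/
theorem op_rho {q : Wb} {m : (MW π s hs).X} (hm : ∀ i j, Up π q (eM π s hs m i j))
    (a : (WL π).dga.C) : op (rhoC π q a) • m = νW π s hs .one (op a • μW π s hs q m) := by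
  refine eM_ext π fun i j => ?_
  have e1 := eM_op_smul π s hs (rhoC π q a) m i j
  have e2 := eT_op_smul π a (μW π s hs q m) i j
  rw [eM_νW]
  refine e1.trans ?_
  refine Eq.trans ?_ (congrArg (oL π .one) e2).symm
  rw [map_sum]
  refine Finset.sum_congr rfl fun l _ => ?_
  have e3 : (show R π from (show (WR π).Win from rhoC π q a).1 l j) = rL π q (eL π a l j) := rfl
  have e4 : op (rL π q (eL π a l j)) • eM π s hs m i l =
      soc π (cM π q (eM π s hs m i l) * (eL π a l j).1) := by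
    rw [rL_apply, op_smul, smul_assoc, op_wq (hm i l), smul_smul, inv_mul_cancel₀ (kap_ne π q),
      one_smul]
  rw [e3, e4, eT_μW, oL_apply]
  have e5 : (cL π q (eM π s hs m i l) * (show RL π from (show (WL π).Win from a).1 l j) : RL π).1 =
      (cL π q (eM π s hs m i l)).1 * (eL π a l j).1 := rfl
  rw [e5, cL_val]

variable {Y : RCells (WR π).dga} (lo : ℤ) (v : Y.ι → (MW π s hs).X →ₗ[K] K)
  (v_d : ∀ σ m, v σ ((MW π s hs).d m) = ∑ τ ∈ Y.F (Y.s σ), v τ (Y.c τ σ • m))

/-- the pairing of (c1) : `(y ⊗ m, a) ↦ φ_y (m a)` -/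
def P1 : Pa Y (MW π s hs).toLM (selfL (WR π).dga).toGC := paM (MW π s hs) lo v v_d

/-- the pairing of (beta) : `(y ⊗ z, l) ↦ φ_y ((z l) o_1)` -/
def P0 : Pa Y (resL (prHm π) (tLS π).toLM) (selfL (WL π).dga).toGC :=
  pa0 (prHm π) (MW π s hs) (tLS π) (νW π s hs .one) (soc_d π s hs) (soc_smul π s hs) (lo + s) v v_d

/-- **the layers** -/
def lay : Lay Y (MW π s hs).toLM (resL (prHm π) (tLS π).toLM) (selfL (WR π).dga).toGC
    (selfL (WL π).dga).toGC where
  P := P1 π s hs lo v v_d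
  P0 := P0 π s hs lo v v_d
  r := 6
  μ j := μW π s hs (qs j)
  ν j := νW π s hs (qs j)
  lam j := lamC π (qs j)
  rho j := rhoC π (qs j)
  c j := (s : ℤ) - wC (qs j).word
  e j := wC (qs j).word
  hlo j _ := by
    change lo + s = lo + ((s : ℤ) - wC (qs j).word) + wC (qs j).word
    ring
  μ_mem j _ k n hn := μ_mem π s hs hn
  ν_mem j _ k n hn := ν_mem π s hs hn
  zero {k n} _ h := μ_zero π s hs h
  μ_smul j hj k l a n _ _ h := μ_smul π s hs a (up_of hj h)
  μ_d j hj k n _ h := μ_d π s hs (up_of hj h)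
  μ_ν j _ k n _ := μ_ν π s hs (qs j) n
  μ_ν' j hj i hi hji k n _ := μ_ν' π s hs (fun e => by
    have := congrArg rk e
    rw [rk_qs hj, rk_qs hi] at this
    omega) n
  lam_mem j _ k n hn := lam_mem π hn
  rho_mem j _ k n hn := rho_mem π hn
  sum {k a} _ := sum_lam π a
  lam_rho j _ k a _ := lam_rho π (qs j) a
  lam_d j _ k a _ := lam_d π (qs j) a
  lam_d' j hj i hij k a _ := lam_d' π (by rw [rk_qs hj, rk_qs (by omega)]; exact hij) a
  f_rho σ j hj k l n a _ _ h :=
    congrArg (v σ) (op_rho π s hs (up_of hj h) (show (WL π).dga.C from a))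

/-- **(c1) from (beta)** -/
theorem c1_of_beta (h : (P0 π s hs lo v v_d).Ex) : (P1 π s hs lo v v_d).Ex :=
  (lay π s hs lo v v_d).ex π.two h

end win

end Crest.Agent.R186.C1y134
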