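import Crest.Agent.R186.C2H_307
import Crest.Agent.R186.C2b_44

/-!
# Row 186, half (A), leaf (c2) (helper307), part 3: the complex `Cell → M ⊗ Q`, degrees
-/

set_option autoImplicit false

noncomputable section

namespace Crest.Agent.R186.C2M307

open Crest.Agent.R186.DefsQ830 Crest.Agent.R186.PBW128 Crest.Agent.R186.SM890
open Crest.Agent.R186.Win810
open Crest.Agent.R186.Cells221 (Cell cdeg cP)
open Crest.Agent.R186.C2b44 (kill c0)
open Crest.Agent.R186.Loc261 (Lt li rel Qc Qg)
open Crest.Agent.R186.VQ735 (lp MQ SC SC_apply MQ_apply dg Bt bq qd HT coef A2 yl Q Dl Cm DA)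
open Crest.Agent.R186.KosQ307 (dq eps tot_dq dq_ne dq_xx dq_xx' dq_xa dq_xb dq_sc dq_mem dq_one
  eps_one eps_mul eps_sc eps_Qc sum4)
open TensorProduct

variable {K : Type} [Field K] (π : Par K)

/-- action of `R'' ⊗ End Q` on `M ⊗ Q` -/
def act2 : A2 π →ₐ[K] Module.End K (NQ π) :=
  (Module.endTensorEndAlgHom (R := K) (S := K) (A := K) (M := N K) (N := Q π)).comp
    (Algebra.TensorProduct.map (repM π) (AlgHom.id K _))

theorem act2_tmul (r : R π) (T : Module.End K (Q π)) (m : N K) (u : Q π) :
    act2 π (r ⊗ₜ T) (m ⊗ₜ u) = repM π r m ⊗ₜ T u := by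
  rfl

/-- `dM ⊗ 1` -/
def DN : NQ π →ₗ[K] NQ π := LinearMap.rTensor _ (dM π)

@[simp] theorem DN_tmul (m : N K) (u : Q π) : DN π (m ⊗ₜ u) = dM π m ⊗ₜ u := rfl

theorem DN_DN (t : NQ π) : DN π (DN π t) = 0 := by
  induction t using TensorProduct.induction_on with
  | zero => simp
  | tmul m u => rw [DN_tmul, DN_tmul, dM_dM, TensorProduct.zero_tmul]
  | add a b ha hb => rw [map_add, map_add, ha, hb, add_zero]

theorem DN_act (a : A2 π) (t : NQ π) :
    DN π (act2 π a t) = act2 π (DA π a) t + act2 π a (DN π t) := by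
  induction t using TensorProduct.induction_on with
  | zero => simp
  | add t t' h h' => simp only [map_add, h, h']; abel
  | tmul m u =>
    induction a using TensorProduct.induction_on with
    | zero => simp
    | add a b ha hb =>
      simp only [map_add, LinearMap.add_apply, ha, hb]; abel
    | tmul r T =>
      rw [act2_tmul, DN_tmul, DN_tmul, VQ735.DA_tmul, act2_tmul, act2_tmul, dM_left,
        TensorProduct.add_tmul]

theorem act2_th (t : NQ π) : act2 π (VQ735.th π) t = tht π t := by
  induction t using TensorProduct.induction_on with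
  | zero => simp
  | add t t' h h' => simp only [map_add, h, h']
  | tmul m u =>
    rw [VQ735.th, map_sum, LinearMap.sum_apply, tht, LinearMap.sum_apply]
    refine Finset.sum_congr rfl fun g _ => ?_
    rw [act2_tmul, yl_eq, repM_Y]
    rfl

/-- the complex -/
abbrev ME : Type := Cell → NQ π

/-- the differential -/
def dE : ME π →ₗ[K] ME π where
  toFun φ c := DN π (φ c) + ∑ c', act2 π (Cm π c c') (φ c')
  map_add' φ ψ := by
    funext c
    simp only [Pi.add_apply, map_add, Finset.sum_add_distrib]
    abel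
  map_smul' r φ := by
    funext c
    simp only [Pi.smul_apply, map_smul, RingHom.id_apply, smul_add, Finset.smul_sum]

theorem dE_apply (φ : ME π) (c : Cell) :
    dE π φ c = DN π (φ c) + ∑ c', act2 π (Cm π c c') (φ c') := rfl

theorem dE_dE (φ : ME π) : dE π (dE π φ) = 0 := by
  funext c
  rw [dE_apply, dE_apply, map_add, DN_DN, zero_add, map_sum]
  simp only [dE_apply, DN_act, map_add, map_sum]
  rw [Finset.sum_add_distrib, Finset.sum_add_distrib]
  have h : ∑ c', act2 π (DA π (Cm π c c')) (φ c')
      + ∑ c', ∑ c'', act2 π (Cm π c c') (act2 π (Cm π c' c'') (φ c'')) = 0 := by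
    rw [Finset.sum_comm (γ := Cell), ← Finset.sum_add_distrib]
    refine Finset.sum_eq_zero fun c'' _ => ?_
    have h1 := congrArg (fun a => act2 π a (φ c'')) (VQ735.Cm_mc π c c'')
    simp only [map_add, map_sum, map_mul, map_zero, LinearMap.add_apply, LinearMap.sum_apply,
      Module.End.mul_apply, LinearMap.zero_apply] at h1
    exact h1
  calc _ = (∑ c', act2 π (DA π (Cm π c c')) (φ c')
      + ∑ c', ∑ c'', act2 π (Cm π c c') (act2 π (Cm π c' c'') (φ c'')))
      + (∑ c', act2 π (Cm π c c') (DN π (φ c')) + ∑ c', act2 π (Cm π c c') (DN π (φ c'))) := by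
        abel
    _ = 0 := by rw [h, self, add_zero]

/-! ### the target -/

/-- the value of `p1`, as an element of `R'` -/
def ro : N K →ₗ[K] R π :=
  Finsupp.linearCombination K (fun ν : Ix =>
    if ν.2.2.2.2 = .one then nf1 π ν.1 ν.2.1 ν.2.2.1 ν.2.2.2.1 else 0)

@[simp] theorem ro_bv (i j k : ℕ) (w : List E) (q : Wb) :
    ro π (bv K i j k w q) = if q = .one then nf1 π i j k w else 0 := by
  simp [ro, bv]

/-- `P` -/
def PQ : NQ π →ₗ[K] R π :=
  TensorProduct.lift ((LinearMap.lsmul K (R π)).flip.compl₁₂ (ro π) (eps (lp π)))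

@[simp] theorem PQ_tmul (m : N K) (u : Q π) : PQ π (m ⊗ₜ u) = eps (lp π) u • ro π m := rfl

/-- `r ↦ r o_1 ⊗ 1` -/
def iq : R π →ₗ[K] NQ π :=
  ((TensorProduct.mk K (N K) (Q π)).flip 1) ∘ₗ (evM π (oo K .one))

theorem iq_apply (r : R π) : iq π r = repM π r (oo K .one) ⊗ₜ (1 : Q π) := rfl

theorem kill_nf1 (i j k : ℕ) (w : List E) : kill π (nf1 π i j k w) = nf1 π i j k w := by
  rw [nf1, C2b44.kill_nf, if_pos rfl]

theorem kill_nfq (i j k : ℕ) (w : List E) (q : Wb) :
    kill π (nf1 π i j k w * wq π q) = if q = .one then nf1 π i j k w else 0 := by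
  rw [← nf_eq, C2b44.kill_nf]
  split_ifs with h
  · rw [show q = .one from h]; rfl
  · rfl

/-- `r o_1` only depends on `kill r` -/
theorem rep_one (r : R π) : repM π r (oo K .one) = repM π (kill π r) (oo K .one) := by
  have h : evM π (oo K .one) = (evM π (oo K .one)) ∘ₗ (kill π).toLinearMap := by
    apply nf_ext π
    intro i j k w q
    show repM π (nf1 π i j k w * wq π q) (oo K .one) =
      repM π (kill π (nf1 π i j k w * wq π q)) (oo K .one)
    rw [kill_nfq, repM_nf]
    cases q with
    | one => rw [if_pos rfl, repM_nf1]; simp [cW, tW]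
    | y s => rw [if_neg (by simp)]; simp [cW, dk]
    | yb s => rw [if_neg (by simp)]; simp [cW, dk]
    | pi => rw [if_neg (by simp)]; simp [cW, dk]
  exact LinearMap.congr_fun h r

theorem ro_rep (r : R π) : ro π (repM π r (oo K .one)) = kill π r := by
  have h : (ro π) ∘ₗ (evM π (oo K .one)) = (kill π).toLinearMap := by
    apply nf_ext π
    intro i j k w q
    show ro π (repM π (nf1 π i j k w * wq π q) (oo K .one)) = kill π (nf1 π i j k w * wq π q)
    rw [kill_nfq, repM_nf, map_smul]
    cases q with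
    | one => rw [if_pos rfl]; simp [cW, tW]
    | y s => rw [if_neg (by simp)]; simp [cW, dk]
    | yb s => rw [if_neg (by simp)]; simp [cW, dk]
    | pi => rw [if_neg (by simp)]; simp [cW, dk]
  exact LinearMap.congr_fun h r

theorem PQ_iq (r : R π) : PQ π (iq π r) = kill π r := by
  rw [iq_apply, PQ_tmul, eps_one, one_smul, ro_rep]

theorem iq_kill (r : R π) : iq π (kill π r) = iq π r := by
  rw [iq_apply, iq_apply, ← rep_one]

theorem kill_ro (m : N K) : kill π (ro π m) = ro π m := by
  have h : (kill π).toLinearMap ∘ₗ (ro π) = ro π := by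
    apply ext_bv
    intro i j k w q
    show kill π (ro π (bv K i j k w q)) = ro π (bv K i j k w q)
    rw [ro_bv]
    split_ifs
    · exact kill_nf1 π i j k w
    · exact map_zero _
  exact LinearMap.congr_fun h m

theorem kill_PQ (t : NQ π) : kill π (PQ π t) = PQ π t := by
  induction t using TensorProduct.induction_on with
  | zero => simp
  | add a b ha hb => rw [map_add, map_add, ha, hb]
  | tmul m u => rw [PQ_tmul, map_smul, kill_ro]

theorem iq_PQ (t : NQ π) : iq π (PQ π t) = pp π t := by
  have h : (iq π) ∘ₗ (PQ π) = pp π := by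
    apply TensorProduct.ext
    apply ext_bv
    intro i j k w q
    apply LinearMap.ext
    intro u
    show iq π (PQ π (bv K i j k w q ⊗ₜ u)) = pp π (bv K i j k w q ⊗ₜ u)
    rw [PQ_tmul, ro_bv, pp, TensorProduct.map_tmul, p1_bv, EP_apply]
    split_ifs with h
    · rw [map_smul, iq_apply, repM_nf1, TensorProduct.tmul_smul]
    · rw [smul_zero, map_zero, TensorProduct.zero_tmul]
  exact LinearMap.congr_fun h t

theorem hh_iq (r : R π) : hh π (iq π r) = 0 := by
  rw [iq_apply, hh_tmul]
  simp only [dQ_apply, dq_one, map_zero, TensorProduct.tmul_zero, add_zero]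

theorem PQ_tht (t : NQ π) : PQ π (tht π t) = 0 := by
  induction t using TensorProduct.induction_on with
  | zero => simp
  | add a b ha hb => rw [map_add, map_add, ha, hb, add_zero]
  | tmul m u =>
    rw [tht_tmul]
    simp only [map_add, PQ_tmul, MQ_apply, eps_mul, zero_smul, add_zero]

theorem DN_iq (r : R π) : DN π (iq π r) = iq π (Der580.D π r) := by
  rw [iq_apply, iq_apply, DN_tmul, dM_repM]

theorem iq_zero {r : R π} (h : kill π r = 0) : iq π r = 0 := by
  rw [← iq_kill, h, map_zero]

theorem tht_iq (r : R π) : tht π (iq π r) = 0 := by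
  rw [iq_apply, tht_tmul]
  have h : ∀ a : Y, opD π a (repM π r (oo K .one)) = 0 := by
    intro a
    rw [← repM_Y, repM_repM, rep_one, map_mul]
    have : kill π (X π a.toGen) = 0 := by cases a <;> simp [Y.toGen]
    rw [this, zero_mul, map_zero, LinearMap.zero_apply]
  simp only [h, TensorProduct.zero_tmul, add_zero]

theorem SC_1 (s : Lt → K) : SC π s (1 : Q π) = 1 := by
  rw [SC_apply, map_one]

theorem EQ_1 (g : Lt) : VQ735.EQ π g (1 : Q π) = 0 := by
  rw [VQ735.EQ_apply, map_one, Loc261.D_one, smul_zero]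

theorem act_iq (a r : R π) : act2 π (Dl π a) (iq π r) = iq π (a * r) := by
  revert r
  refine PBW128.R_ind π (P := fun a => ∀ r, act2 π (Dl π a) (iq π r) = iq π (a * r)) ?_ ?_ ?_ ?_ a
  · intro c r
    rw [AlgHom.commutes, AlgHom.commutes, Module.algebraMap_end_apply, ← Algebra.smul_def, map_smul]
  · intro a r
    rw [VQ735.Dl_X]
    have hd : ∀ (z : R π) (s : Lt → K), act2 π (z ⊗ₜ SC π s) (iq π r) = iq π (z * r) := by
      intro z s
      rw [iq_apply, iq_apply, act2_tmul, SC_1, repM_repM]
    have he : ∀ (z : R π) (g : Lt), act2 π (z ⊗ₜ VQ735.EQ π g) (iq π r) = 0 := by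
      intro z g
      rw [iq_apply, act2_tmul, EQ_1, TensorProduct.tmul_zero]
    have h1 : ∀ (z : R π), act2 π (z ⊗ₜ 1) (iq π r) = iq π (z * r) := by
      intro z
      rw [← VQ735.SC_one]; exact hd z _
    have h0 : ∀ a : Gen, kill π (X π a) = 0 → act2 π 0 (iq π r) = iq π (X π a * r) := by
      intro a ha
      rw [map_zero, LinearMap.zero_apply, iq_zero]
      rw [map_mul, ha, zero_mul]
    cases a with
    | x i => exact hd _ _
    | h => exact h1 _
    | d j => exact hd _ _
    | f => exact h1 _
    | z j => exact hd _ _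
    | zc => exact h1 _
    | u s =>
      rw [VQ735.dl, map_add, LinearMap.add_apply, he, add_zero]; exact hd _ _
    | e j => exact hd _ _
    | gj j => exact hd _ _
    | gc => exact h1 _
    | v s =>
      rw [VQ735.dl, map_add, LinearMap.add_apply, he, add_zero]; exact hd _ _
    | y s => exact h0 (.y s) (by simp)
    | yb s => exact h0 (.yb s) (by simp)
  · intro a b ha hb r
    rw [map_mul, map_mul, Module.End.mul_apply, hb, ha, mul_assoc]
  · intro a b ha hb r
    rw [map_add, map_add, LinearMap.add_apply, ha, hb, add_mul, map_add]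

/-- the matrix of the cells is the one of 44 -/
theorem Cm_eq (c c' : Cell) : Cm π c c' = Dl π (c0 π c c') + if c = c' then VQ735.th π else 0 := by
  rcases c with _ | l
  · rcases c' with _ | l'
    · simp [Cm, c0]
    · simp [Cm, c0]
  · rcases c' with _ | l'
    · simp [Cm, c0]
    · simp [Cm, c0]

end Crest.Agent.R186.C2M307
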