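import Crest.Agent.R186.C2G_307

/-!
# Row 186, half (A), leaf (c2) (helper307), part 5: degrees on `M ⊗ Q`, the step, exactness
-/

set_option autoImplicit false

noncomputable section

namespace Crest.Agent.R186.C2M307

open Crest.Agent.R186.DefsQ830 Crest.Agent.R186.PBW128 Crest.Agent.R186.SM890
open Crest.Agent.R186.Win810
open Crest.Agent.R186.Cells221 (Cell cdeg cP)
open Crest.Agent.R186.C2b44 (kill c0)
open Crest.Agent.R186.Loc261 (Lt li rel Qc Qg)
open Crest.Agent.R186.VQ735 (lp MQ SC SC_apply MQ_apply dg Bt qd HT coef A2 yl Q Dl Cm DA cAd G2 pz)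
open Crest.Agent.R186.KosQ307 (dq eps tot_dq dq_ne dq_xx dq_xx' dq_xa dq_xb dq_sc dq_mem dq_one
  eps_one eps_mul eps_sc eps_Qc sum4)
open TensorProduct

variable {K : Type} [Field K] (π : Par K)

/-! ### homogeneous elements of `Q` -/

/-- elements of degree `k` -/
def Qd (k : ℤ) : Submodule K (Q π) where
  carrier := {u | ∀ q : Bt π, (qd q : ℤ) ≠ k → (VQ735.bq π).repr u q = 0}
  add_mem' ha hb q h := by rw [map_add, Finsupp.add_apply, ha q h, hb q h, add_zero]
  zero_mem' q _ := by rw [map_zero]; rfl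
  smul_mem' c u hu q h := by rw [map_smul, Finsupp.smul_apply, hu q h, smul_zero]

theorem bq_Qd (q : Bt π) : VQ735.bq π q ∈ Qd π (qd q) := by
  intro q' h
  rw [Module.Basis.repr_self, Finsupp.single_apply, if_neg]
  rintro rfl
  exact h rfl

theorem Qd_ind {k : ℤ} {T : Submodule K (Q π)} (h : ∀ q : Bt π, (qd q : ℤ) = k → VQ735.bq π q ∈ T) :
    Qd π k ≤ T := by
  intro u hu
  rw [← (VQ735.bq π).linearCombination_repr u, Finsupp.linearCombination_apply, Finsupp.sum]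
  refine Submodule.sum_mem _ fun q hq => Submodule.smul_mem _ _ (h q ?_)
  by_contra h1
  exact (Finsupp.mem_support_iff.1 hq) (hu q h1)

theorem HT_Qd {k k' : ℤ} {T : Module.End K (Q π)} (hT : T ∈ HT π k) {u : Q π} (hu : u ∈ Qd π k') :
    T u ∈ Qd π (k' + k) := by
  have h : Qd π k' ≤ (Qd π (k' + k)).comap T := by
    apply Qd_ind
    intro q hq q' hq'
    have := hT q' q (by rw [hq]; exact hq')
    exact this
  exact h hu

theorem one_Qd : (1 : Q π) ∈ Qd π 0 := by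
  intro q h
  have h1 : (1 : Q π) ∈ Qc (lp π) 0 := Loc261.wp_mem (lp π) []
  refine VQ735.repr_ne π h1 ?_
  intro h2
  apply h
  have : qd q = VQ735.md q.1 := rfl
  rw [this, h2]
  rfl

theorem HT_dQ (g : Lt) : dQ π g ∈ HT π (-(dg g : ℤ)) := by
  intro q q' h
  show (VQ735.bq π).repr (dQ π g (VQ735.bq π q')) q = 0
  rw [dQ_apply]
  have h1 := dq_mem (lp π) g (VQ735.bq_mem π q')
  unfold Qg at h1
  split_ifs at h1 with hg
  · refine VQ735.repr_ne π (VQ735.sc_mem π _ h1) ?_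
    intro h2
    apply h
    have h3 : qd q' = dg g + qd q := by
      show VQ735.md q'.1 = dg g + VQ735.md q.1
      rw [h2, ← VQ735.md_cons, Multiset.cons_erase hg]
    rw [h3]; push_cast; ring
  · have h2 : dq (lp π) g (VQ735.bq π q') = 0 := h1
    rw [h2, map_zero, map_zero, Finsupp.zero_apply]

theorem eps_Qd {k : ℤ} (hk : k ≠ 0) {u : Q π} (hu : u ∈ Qd π k) : eps (lp π) u = 0 := by
  have h : Qd π k ≤ LinearMap.ker (eps (lp π)) := by
    apply Qd_ind
    intro q hq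
    rw [LinearMap.mem_ker]
    refine eps_Qc (lp π) ?_ (VQ735.bq_mem π q)
    intro h0
    apply hk
    rw [← hq]
    have : qd q = VQ735.md q.1 := rfl
    rw [this, h0]
    rfl
  exact h hu

/-! ### homogeneous elements of `M` -/

/-- pieces of `M` -/
def pM (s : ℕ) (P A C : ℤ) : Submodule K (N K) :=
  Submodule.span K {m | ∃ i j k w q, dPx (i, j, k, w, .one) = P + 1 ∧
    (dAx (i, j, k, w, .one) : ℤ) = A ∧ (cw w : ℤ) = C - s + wC q.word ∧ m = bv K i j k w q}

theorem pM_bv {s : ℕ} {P A C : ℤ} {i j k : ℕ} {w : List E} {q : Wb}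
    (h1 : dPx (i, j, k, w, .one) = P + 1) (h2 : (dAx (i, j, k, w, .one) : ℤ) = A)
    (h3 : (cw w : ℤ) = C - s + wC q.word) : bv K i j k w q ∈ pM (K := K) s P A C :=
  Submodule.subset_span ⟨i, j, k, w, q, h1, h2, h3, rfl⟩

theorem pM_rep {s : ℕ} {P A C C' : ℤ} {r : R π} (q : Wb) (hr : r ∈ pcZ π (P + 1) A C')
    (hC : C' = C - s + wC q.word) : repM π r (oo K q) ∈ pM (K := K) s P A C := by
  subst hC
  have h : pcZ π (P + 1) A (C - s + wC q.word) ≤ (pM (K := K) s P A C).comap (evM π (oo K q)) := by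
    apply pcZ_ind
    intro i j k w q1 h1 h2 h3
    rw [Submodule.mem_comap, evM_apply, repM_nf]
    rcases cW_deg π q1 q with h0 | h0
    · rw [h0, zero_smul]; exact Submodule.zero_mem _
    · refine Submodule.smul_mem _ _ (pM_bv h1 h2 ?_)
      rw [dCx_eq] at h3
      push_cast at h3
      rw [h0] at h3
      push_cast at h3
      linarith
  exact h hr

theorem pM_le (s : ℕ) (P A C : ℤ) : (pcM π s P A C : Submodule K (N K)) = pM s P A C := by
  apply le_antisymm
  · exact pcM_ind π s (Q := (pM (K := K) s P A C : Submodule K (MM π)))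
      fun q t ht => pM_rep π q ht rfl
  · refine Submodule.span_le.2 ?_
    rintro _ ⟨i, j, k, w, q, h1, h2, h3, rfl⟩
    have h := mem_pcM π s (P := P) (A := A) (C := C) q (nf1_mem π h1 h2 h3) rfl
    rw [oM_apply, repM_nf1] at h
    exact h

theorem opS_pM (g : Lt) {s : ℕ} {P A C : ℤ} {m : N K} (hm : m ∈ pM (K := K) s P A C) :
    opS π g m ∈ pM (K := K) s P A (C + 1 - dg g) := by
  have h : pM (K := K) s P A C ≤ (pM (K := K) s P A (C + 1 - dg g)).comap (opS π g) := by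
    refine Submodule.span_le.2 ?_
    rintro _ ⟨i, j, k, w, q, h1, h2, h3, rfl⟩
    rw [SetLike.mem_coe, Submodule.mem_comap, opS_bv]
    have key : sk K g q = 0 ∨ wC (st g q).word + 1 = wC q.word + dg g := by
      rcases g <;> rcases q with _ | t | t | _ <;> (try rcases fin2 t with rfl | rfl) <;>
        first
        | (left; simp [sk]; done)
        | (right; simp [st, yw, yy, Wb.word, wC, Gen.dC, dg]; done)
    rcases key with h0 | h0
    · rw [h0, mul_zero, zero_smul]; exact Submodule.zero_mem _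
    · refine Submodule.smul_mem _ _ (pM_bv h1 h2 ?_)
      have h4 : ((wC (st g q).word : ℕ) : ℤ) + 1 = wC q.word + dg g := by exact_mod_cast h0
      linarith
  exact h hm

theorem act_pM {s : ℕ} {P A C P' A' C' : ℤ} {r : R π} (hr : r ∈ pcZ π P A C) {m : N K}
    (hm : m ∈ pM (K := K) s P' A' C') : repM π r m ∈ pM (K := K) s (P + P') (A + A') (C + C') := by
  have h : pM (K := K) s P' A' C' ≤
      (pM (K := K) s (P + P') (A + A') (C + C')).comap (repM π r) := by
    refine Submodule.span_le.2 ?_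
    rintro _ ⟨i, j, k, w, q, h1, h2, h3, rfl⟩
    rw [SetLike.mem_coe, Submodule.mem_comap, ← repM_nf1 π, repM_repM]
    have h4 := pcZ_mul π hr (nf1_mem π h1 h2 h3)
    rw [show P + (P' + 1) = P + P' + 1 by ring] at h4
    exact pM_rep π q h4 (by ring)
  exact h hm

theorem dM_pM {s : ℕ} {P A C : ℤ} {m : N K} (hm : m ∈ pM (K := K) s P A C) :
    dM π m ∈ pM (K := K) s P A (C - 1) := by
  have h : pM (K := K) s P A C ≤ (pM (K := K) s P A (C - 1)).comap (dM π) := by
    refine Submodule.span_le.2 ?_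
    rintro _ ⟨i, j, k, w, q, h1, h2, h3, rfl⟩
    rw [SetLike.mem_coe, Submodule.mem_comap, dM_bv]
    exact pM_rep π q (pcZ_D π (nf1_mem π h1 h2 h3)) (by ring)
  exact h hm

theorem ro_pM {s : ℕ} {P A C : ℤ} {m : N K} (hm : m ∈ pM (K := K) s P A C) :
    ro π m ∈ pcZ π (P + 1) A (C - s) := by
  have h : pM (K := K) s P A C ≤ (pcZ π (P + 1) A (C - s)).comap (ro π) := by
    refine Submodule.span_le.2 ?_
    rintro _ ⟨i, j, k, w, q, h1, h2, h3, rfl⟩
    rw [SetLike.mem_coe, Submodule.mem_comap, ro_bv]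
    split_ifs with hq
    · subst hq
      refine nf1_mem π h1 h2 ?_
      rw [h3]; simp [Wb.word, wC]
    · exact Submodule.zero_mem _
  exact h hm

/-! ### homogeneous elements of `M ⊗ Q` -/

/-- pieces of `M ⊗ Q` -/
def GQ (s : ℕ) (P A C : ℤ) : Submodule K (NQ π) :=
  Submodule.span K {t | ∃ (k : ℤ) (m : N K) (u : Q π), m ∈ pM (K := K) s P A (C + k) ∧
    u ∈ Qd π k ∧ t = m ⊗ₜ u}

theorem tmul_GQ {s : ℕ} {P A C C' k : ℤ} {m : N K} {u : Q π} (hm : m ∈ pM (K := K) s P A C')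
    (hu : u ∈ Qd π k) (h : C' = C + k) : m ⊗ₜ u ∈ GQ π s P A C :=
  Submodule.subset_span ⟨k, m, u, h ▸ hm, hu, rfl⟩

theorem GQ_map {V : Type*} [AddCommMonoid V] [Module K V] {s : ℕ} {P A C : ℤ} {T : Submodule K V}
    (f : NQ π →ₗ[K] V) (h : ∀ (k : ℤ) (m : N K) (u : Q π), m ∈ pM (K := K) s P A (C + k) →
      u ∈ Qd π k → f (m ⊗ₜ u) ∈ T) {t : NQ π} (ht : t ∈ GQ π s P A C) : f t ∈ T := by
  have h1 : GQ π s P A C ≤ T.comap f := by
    refine Submodule.span_le.2 ?_
    rintro _ ⟨k, m, u, h1, h2, rfl⟩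
    exact h k m u h1 h2
  exact h1 ht

theorem DN_GQ {s : ℕ} {P A C : ℤ} {t : NQ π} (ht : t ∈ GQ π s P A C) :
    DN π t ∈ GQ π s P A (C - 1) :=
  GQ_map π (T := GQ π s P A (C - 1)) (DN π)
    (fun k m u hm hu => tmul_GQ π (k := k) (dM_pM π hm) hu (by ring)) ht

theorem hh_GQ {s : ℕ} {P A C : ℤ} {t : NQ π} (ht : t ∈ GQ π s P A C) :
    hh π t ∈ GQ π s P A (C + 1) := by
  refine GQ_map π (T := GQ π s P A (C + 1)) (hh π) (fun k m u hm hu => ?_) ht
  rw [hh_tmul]
  have key : ∀ g, opS π g m ⊗ₜ[K] dQ π g u ∈ GQ π s P A (C + 1) := fun g =>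
    tmul_GQ π (opS_pM π g hm) (HT_Qd π (HT_dQ π g) hu) (by ring)
  exact Submodule.add_mem _ (Submodule.add_mem _ (Submodule.add_mem _ (key _) (key _)) (key _))
    (key _)

theorem pz_pcZ {P A C : ℤ} : pz π P A C ≤ pcZ π P A C := by
  refine Submodule.span_le.2 ?_
  rintro _ ⟨w, h1, h2, h3, rfl⟩
  rw [← h1, ← h2, ← h3, SetLike.mem_coe, pcZ_nat]
  exact Submodule.subset_span ⟨w, rfl, rfl, rfl, rfl⟩

theorem act_GQ {s : ℕ} {P A C P' A' C' : ℤ} {a : A2 π} (ha : a ∈ G2 π P A C) {t : NQ π}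
    (ht : t ∈ GQ π s P' A' C') : act2 π a t ∈ GQ π s (P + P') (A + A') (C + C') := by
  have h : G2 π P A C ≤ (GQ π s (P + P') (A + A') (C + C')).comap
      ((LinearMap.applyₗ t) ∘ₗ (act2 π).toLinearMap) := by
    refine Submodule.span_le.2 ?_
    rintro _ ⟨k, z, T, rfl, h1, h2⟩
    show act2 π (z ⊗ₜ T) t ∈ GQ π s (P + P') (A + A') (C + C')
    refine GQ_map π (T := GQ π s (P + P') (A + A') (C + C')) (act2 π (z ⊗ₜ T))
      (fun k' m u hm hu => ?_) ht
    rw [act2_tmul]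
    exact tmul_GQ π (act_pM π (pz_pcZ π h2) hm) (HT_Qd π h1 hu) (by ring)
  exact h ha

theorem PQ_GQ {s : ℕ} {P A C : ℤ} {t : NQ π} (ht : t ∈ GQ π s P A C) :
    PQ π t ∈ pcZ π (P + 1) A (C - s) := by
  refine GQ_map π (T := pcZ π (P + 1) A (C - s)) (PQ π) (fun k m u hm hu => ?_) ht
  rw [PQ_tmul]
  by_cases hk : k = 0
  · subst hk
    rw [add_zero] at hm
    exact Submodule.smul_mem _ _ (ro_pM π hm)
  · rw [eps_Qd π hk hu, zero_smul]; exact Submodule.zero_mem _

theorem iq_GQ {s : ℕ} {P A C : ℤ} {r : R π} (hr : r ∈ pcZ π (P + 1) A (C - s)) :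
    iq π r ∈ GQ π s P A C := by
  refine tmul_GQ π (C' := C) (k := 0) (pM_rep π .one hr ?_) (one_Qd π) (by ring)
  simp [Wb.word, wC]

end Crest.Agent.R186.C2M307
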