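import Crest.Agent.R186.C2q_667
import Crest.Agent.R186.C2b_44
import Crest.Agent.R186.Bas_735

/-!
# Row 186, half (A), leaf C2a (helper667), part 2: the Koszul complex `R'' ⊗ Q^* = Hom (Q, R'')`

* `cw q : R'' → R''` : coefficient of the basis element `wq q` of `W`;
* `tx x v = Σ_g x (MQ g v) * y_g`;
* `kos` : exactness of `tx`.
-/

set_option autoImplicit false

noncomputable section

namespace Crest.Agent.R186.C2a667

open Crest.Agent.R186.DefsQ830
open Crest.Agent.R186.PBW128 (Ix N Wb Y bv nf nf_mul_Y wq wkr wtr dPx dAx dCx Psi ev ev_nf Psi_bv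
  wq_one wq_y wq_yb wq_pi)
open Crest.Agent.R186.Win810 Crest.Agent.R186.C2q667
open Crest.Agent.R186.C2b44 (kill kill_nf map_pcZ nf_mem_pcZ kill_mem kill_kill)
open Crest.Agent.R186.VQ735 (lp Q MQ EQ SC yl sumL MQ_MQ A2 DA th Cm Dl pz)
open Crest.Agent.R186.Loc261 (Lt li wp wp_nil ext_wp)

variable {K : Type} [Field K] (π : Par K)

/-! ### coefficients with respect to `W` -/

/-- coefficient of `q` in coordinates -/
def cwN (q : Wb) : N K →ₗ[K] N K :=
  Finsupp.linearCombination K (fun ν : Ix =>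
    if ν.2.2.2.2 = q then bv K ν.1 ν.2.1 ν.2.2.1 ν.2.2.2.1 .one else 0)

theorem cwN_bv (q : Wb) (i j k : ℕ) (w : List PBW128.E) (q' : Wb) :
    cwN q (bv K i j k w q') = if q' = q then bv K i j k w .one else 0 := by
  simp [cwN, bv]

/-- the coefficient of `wq q` -/
def cw (q : Wb) : R π →ₗ[K] R π := (Psi π) ∘ₗ (cwN q) ∘ₗ (ev π)

theorem cw_nf (q : Wb) (i j k : ℕ) (w : List PBW128.E) (q' : Wb) :
    cw π q (nf π (i, j, k, w, q')) = if q' = q then nf π (i, j, k, w, .one) else 0 := by
  rw [cw, LinearMap.comp_apply, LinearMap.comp_apply, ev_nf, cwN_bv]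
  split_ifs
  · exact Psi_bv π _ _ _ _ _
  · exact map_zero _

theorem ext_nf {M : Type*} [AddCommGroup M] [Module K M] {f g : R π →ₗ[K] M}
    (h : ∀ i j k w q, f (nf π (i, j, k, w, q)) = g (nf π (i, j, k, w, q))) : f = g := by
  refine (PBW128.basis π).ext ?_
  rintro ⟨i, j, k, w, q⟩
  rw [PBW128.basis_apply]
  exact h i j k w q

theorem sumW {M : Type*} [AddCommMonoid M] (F : Wb → M) :
    ∑ q, F q = F .one + F (.y 0) + F (.y 1) + F (.yb 0) + F (.yb 1) + F .pi := by
  have h : (Finset.univ : Finset Wb) = {.one, .y 0, .y 1, .yb 0, .yb 1, .pi} := by decide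
  rw [h, Finset.sum_insert (by decide), Finset.sum_insert (by decide),
    Finset.sum_insert (by decide), Finset.sum_insert (by decide), Finset.sum_insert (by decide),
    Finset.sum_singleton]
  simp only [add_assoc]

theorem nf_one_mul (i j k : ℕ) (w : List PBW128.E) (q : Wb) :
    nf π (i, j, k, w, .one) * wq π q = nf π (i, j, k, w, q) := by
  simp only [nf, wq_one, mul_one]

theorem cw_sum (r : R π) : r = ∑ q, cw π q r * wq π q := by
  have : (LinearMap.id : R π →ₗ[K] R π) =
      ∑ q, (LinearMap.mulRight K (wq π q)) ∘ₗ (cw π q) := by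
    apply ext_nf
    intro i j k w q
    simp only [LinearMap.id_apply, LinearMap.sum_apply, LinearMap.comp_apply,
      LinearMap.mulRight_apply, cw_nf]
    rw [Finset.sum_eq_single q]
    · rw [if_pos rfl, nf_one_mul]
    · intro q' _ hq
      rw [if_neg (Ne.symm hq), zero_mul]
    · intro h; exact absurd (Finset.mem_univ _) h
  have h := LinearMap.congr_fun this r
  simpa only [LinearMap.id_apply, LinearMap.sum_apply, LinearMap.comp_apply,
      LinearMap.mulRight_apply] using h

theorem kill_eq (r : R π) : kill π r = cw π .one r := by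
  have : (kill π).toLinearMap = cw π .one := by
    apply ext_nf
    intro i j k w q
    rw [AlgHom.toLinearMap_apply, kill_nf, cw_nf]
    by_cases h : q = .one
    · subst h; simp
    · simp [h]
  exact LinearMap.congr_fun this r

theorem cw_cw (q : Wb) (r : R π) : cw π .one (cw π q r) = cw π q r := by
  have : (cw π .one) ∘ₗ (cw π q) = cw π q := by
    apply ext_nf
    intro i j k w q'
    rw [LinearMap.comp_apply, cw_nf]
    split_ifs
    · rw [cw_nf, if_pos rfl]
    · rw [map_zero]
  exact LinearMap.congr_fun this r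

/-- the `Y`-letter of a letter of `Q` -/
def ly : Lt → Y
  | .x => .y 0 | .a => .yb 0 | .x' => .y 1 | .b => .yb 1
/-- the `W`-basis element of a letter of `Q` -/
def wl : Lt → Wb
  | .x => .y 0 | .a => .yb 0 | .x' => .y 1 | .b => .yb 1

theorem yl_ly (g : Lt) : yl π g = X π (ly g).toGen := by cases g <;> rfl
theorem wq_wl (g : Lt) : wq π (wl g) = yl π g := by
  cases g
  · exact wq_y π 0
  · exact wq_yb π 0
  · exact wq_y π 1
  · exact wq_yb π 1

theorem nf_mul_yl (i j k : ℕ) (w : List PBW128.E) (q : Wb) (g : Lt) :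
    nf π (i, j, k, w, q) * yl π g = wkr π q (ly g) • nf π (i, j, k, w, wtr q (ly g)) := by
  rw [yl_ly, nf_mul_Y]

theorem cw_one_mul_yl (g : Lt) (r : R π) : cw π .one (r * yl π g) = 0 := by
  have : (cw π .one) ∘ₗ (LinearMap.mulRight K (yl π g)) = 0 := by
    apply ext_nf
    intro i j k w q
    rw [LinearMap.comp_apply, LinearMap.mulRight_apply, nf_mul_yl, map_smul, cw_nf, if_neg,
      smul_zero, LinearMap.zero_apply]
    cases q <;> cases g <;> simp [wtr, ly]
  exact LinearMap.congr_fun this r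

theorem cw_wl_mul_yl (g g' : Lt) (r : R π) :
    cw π (wl g') (r * yl π g) = if g = g' then cw π .one r else 0 := by
  have : (cw π (wl g')) ∘ₗ (LinearMap.mulRight K (yl π g)) = if g = g' then cw π .one else 0 := by
    apply ext_nf
    intro i j k w q
    rw [LinearMap.comp_apply, LinearMap.mulRight_apply, nf_mul_yl, map_smul, cw_nf]
    by_cases hq : q = .one
    · subst hq
      by_cases h : g = g'
      · subst h
        rw [if_pos rfl, cw_nf, if_pos rfl, if_pos (by cases g <;> rfl)]
        have : wkr π .one (ly g) = 1 := by cases g <;> rfl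
        rw [this, one_smul]
      · rw [if_neg h, if_neg, smul_zero, LinearMap.zero_apply]
        revert h
        cases g <;> cases g' <;> simp [wtr, ly, wl]
    · rw [if_neg (by cases q <;> cases g <;> cases g' <;> simp_all [wtr, wl]), smul_zero]
      split_ifs
      · rw [cw_nf, if_neg hq]
      · rw [LinearMap.zero_apply]
  have h := LinearMap.congr_fun this r
  rw [LinearMap.comp_apply, LinearMap.mulRight_apply] at h
  rw [h]
  split_ifs <;> rfl

theorem cw_pi_mul_yl (g : Lt) (r : R π) :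
    cw π .pi (r * yl π g) = (if g = .x' then cw π (wl .x) r else 0) +
      (if g = .x then π.p • cw π (wl .x') r else 0) := by
  have : (cw π .pi) ∘ₗ (LinearMap.mulRight K (yl π g)) = (if g = .x' then cw π (wl .x) else 0) +
      (if g = .x then π.p • cw π (wl .x') else 0) := by
    apply ext_nf
    intro i j k w q
    rw [LinearMap.comp_apply, LinearMap.mulRight_apply, nf_mul_yl, map_smul, cw_nf,
      LinearMap.add_apply]
    rcases q with _ | s | s | _
    · cases g <;> simp [wtr, ly, wl, cw_nf]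
    · fin_cases s <;> cases g <;> simp [wtr, ly, wl, cw_nf, wkr]
    · cases g <;> simp [wtr, wl, cw_nf, wkr]
    · cases g <;> simp [wtr, wl, cw_nf, wkr]
  have h := LinearMap.congr_fun this r
  rw [LinearMap.comp_apply, LinearMap.mulRight_apply, LinearMap.add_apply] at h
  rw [h]
  split_ifs <;> rfl

/-! ### gradings -/

theorem pcZ_eq_pz (P A C : ℤ) : pcZ π P A C = pz π P A C := by
  by_cases hA : 0 ≤ A
  · by_cases hC : 0 ≤ C
    · obtain ⟨a, rfl⟩ := Int.eq_ofNat_of_zero_le hA
      obtain ⟨c, rfl⟩ := Int.eq_ofNat_of_zero_le hC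
      rw [pcZ_nat, VQ735.pz_eq_pc]
    · rw [VQ735.pz_neg π (by omega), pcZ_neg π (by omega)]
  · rw [VQ735.pz_negA π (by omega), pcZ_neg π (by omega)]

theorem cw_pz (q : Wb) {P A C : ℤ} {r : R π} (hr : r ∈ pz π P A C) :
    cw π q r ∈ pz π P A (C - wC q.word) := by
  rw [← pcZ_eq_pz] at hr ⊢
  refine map_pcZ π (φ := (Psi π) ∘ₗ (cwN q)) ?_ hr
  intro i j k w q' h1 h2 h3
  rw [LinearMap.comp_apply, cwN_bv]
  split_ifs with h
  · subst h
    rw [Psi_bv]
    refine nf_mem_pcZ π _ h1 h2 ?_
    rw [← h3]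
    simp [dCx, Wb.word, wC]
  · rw [map_zero]; exact Submodule.zero_mem _

theorem wC_wl (g : Lt) : (wC (wl g).word : ℤ) = qd g - 1 := by cases g <;> rfl

/-- homogeneous maps `Q → R''` -/
def Hg (P A C : ℤ) : Submodule K (Q π →ₗ[K] R π) where
  carrier := {x | ∀ w : List Lt, x (wp (lp π) w) ∈ pz π P A (C - qs w)}
  add_mem' ha hb w := Submodule.add_mem _ (ha w) (hb w)
  zero_mem' _ := Submodule.zero_mem _
  smul_mem' c _ ha w := Submodule.smul_mem _ c (ha w)

theorem Hg_Qd {P A C k : ℤ} {x : Q π →ₗ[K] R π} (hx : x ∈ Hg π P A C) {u : Q π}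
    (hu : u ∈ Qd (lp π) k) : x u ∈ pz π P A (C - k) := by
  have : Qd (lp π) k ≤ (pz π P A (C - k)).comap x := by
    refine Qd_le (lp π) ?_
    intro w hw
    rw [← hw]
    exact hx w
  exact this hu

theorem Hg_cast {P A C P' A' C' : ℤ} {x : Q π →ₗ[K] R π} (hx : x ∈ Hg π P A C) (h1 : P = P')
    (h2 : A = A') (h3 : C = C') : x ∈ Hg π P' A' C' := by subst h1 h2 h3; exact hx

theorem Hg_neg {P A C : ℤ} (hC : C < 0) {x : Q π →ₗ[K] R π} (hx : x ∈ Hg π P A C) : x = 0 := by
  apply ext_wp
  intro w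
  have h := hx w
  rw [VQ735.pz_neg π (by omega)] at h
  exact h

/-! ### the Koszul differential -/

/-- `θ` -/
def tx (x : Q π →ₗ[K] R π) : Q π →ₗ[K] R π :=
  ∑ g, (LinearMap.mulRight K (yl π g)) ∘ₗ x ∘ₗ (MQ π g)

theorem tx_apply (x : Q π →ₗ[K] R π) (v : Q π) : tx π x v = ∑ g, x (MQ π g v) * yl π g := by
  simp only [tx, LinearMap.sum_apply, LinearMap.comp_apply, LinearMap.mulRight_apply]

theorem y0_mul_yl (g : Lt) : X π (.y 0) * yl π g = if g = .x' then wq π .pi else 0 := by
  cases g
  · exact PBW128.ryy π 0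
  · exact PBW128.ryyb π 0 0
  · rw [if_pos rfl, wq_pi]; rfl
  · exact PBW128.ryyb π 0 1

theorem neg_eq (u v : R π) (h : u + v = 0) : u = v := by
  calc u = u + (v + v) := by rw [Der580.add_self, add_zero]
    _ = (u + v) + v := by rw [add_assoc]
    _ = v := by rw [h, zero_add]

/-- **exactness of the Koszul differential** -/
theorem kos {P A C : ℤ} {x : Q π →ₗ[K] R π} (hx : x ∈ Hg π P A C) (h : tx π x = 0)
    (h1 : kill π (x 1) = 0) : ∃ y ∈ Hg π P A (C + 1), kill π (y 1) = 0 ∧ tx π y = x := by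
  have hv : ∀ v, ∑ g, x (MQ π g v) * yl π g = 0 := fun v => by
    rw [← tx_apply, h]; rfl
  -- the coefficient at `1`
  have z1 : (cw π .one) ∘ₗ x = 0 := by
    apply ext_MQ π
    · rw [LinearMap.comp_apply, ← kill_eq, h1]
    · intro g v
      have e := congrArg (cw π (wl g)) (hv v)
      rw [map_sum, map_zero] at e
      simp only [cw_wl_mul_yl] at e
      rw [Finset.sum_ite_eq' Finset.univ g, if_pos (Finset.mem_univ _)] at e
      exact e
  -- the relation
  have z2 : ∀ v, cw π (wl .x) (x (MQ π .x' v)) + π.p • cw π (wl .x') (x (MQ π .x v)) = 0 := by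
    intro v
    have e := congrArg (cw π .pi) (hv v)
    rw [map_sum, map_zero] at e
    simp only [cw_pi_mul_yl] at e
    rw [sumL] at e
    rw [add_comm]
    simpa using e
  obtain ⟨y1, hy1, hy10⟩ := exists_of_comp π (fun g => (cw π (wl g)) ∘ₗ x) z2
  let y1' : Q π →ₗ[K] R π := (cw π .one) ∘ₗ y1
  have hy1' : ∀ g v, y1' (MQ π g v) = cw π (wl g) (x v) := fun g v => by
    show cw π .one (y1 (MQ π g v)) = _
    rw [hy1, LinearMap.comp_apply, cw_cw]
  let y2 : Q π →ₗ[K] R π := (cw π .pi) ∘ₗ x ∘ₗ (LM π)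
  have hy2 : ∀ v, y2 (MQ π .x' v) = cw π .pi (x v) := fun v => by
    show cw π .pi (x (LM π (MQ π .x' v))) = _
    rw [LM_MQ]
  refine ⟨y1' + (LinearMap.mulRight K (X π (.y 0))) ∘ₗ y2, ?_, ?_, ?_⟩
  · refine Submodule.add_mem _ ?_ ?_
    · intro w
      cases w with
      | nil =>
        rw [wp_nil]
        show cw π .one (y1 1) ∈ _
        rw [hy10, map_zero]
        exact Submodule.zero_mem _
      | cons g w =>
        obtain ⟨c, -, e⟩ := wp_MQ π g w
        rw [e, map_smul, hy1']
        refine Submodule.smul_mem _ _ ?_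
        refine VQ735.pz_cast π (cw_pz π _ (hx w)) rfl rfl ?_
        rw [wC_wl, qs_cons]; push_cast; ring
    · intro w
      show cw π .pi (x (LM π (wp (lp π) w))) * X π (.y 0) ∈ _
      have e1 := Hg_Qd π hx (LM_Qd π (wp_Qd (lp π) w))
      have e2 := VQ735.pz_mul π (cw_pz π .pi e1) (VQ735.X_pz π (.y 0))
      refine VQ735.pz_cast π e2 ?_ ?_ ?_
      · simp [Gen.dP]
      · simp [Gen.dA]
      · simp [Gen.dC, Wb.word, wC]; ring
  · rw [LinearMap.add_apply, map_add]
    show kill π (cw π .one (y1 1)) + kill π (y2 1 * X π (.y 0)) = 0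
    rw [map_mul, hy10, map_zero, map_zero, zero_add, C2b44.kill_y, mul_zero]
  · apply LinearMap.ext
    intro v
    rw [tx_apply]
    have e : ∀ g, (y1' + (LinearMap.mulRight K (X π (.y 0))) ∘ₗ y2) (MQ π g v) * yl π g =
        cw π (wl g) (x v) * wq π (wl g) + (if g = .x' then cw π .pi (x v) * wq π .pi else 0) := by
      intro g
      rw [LinearMap.add_apply, add_mul, hy1', wq_wl, LinearMap.comp_apply,
        LinearMap.mulRight_apply, mul_assoc, y0_mul_yl]
      by_cases hg : g = .x'
      · subst hg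
        rw [if_pos rfl, if_pos rfl, hy2]
      · rw [if_neg hg, if_neg hg, mul_zero]
    rw [Finset.sum_congr rfl (fun g _ => e g), Finset.sum_add_distrib,
      Finset.sum_ite_eq' Finset.univ Lt.x', if_pos (Finset.mem_univ _)]
    conv_rhs => rw [cw_sum π (x v)]
    have e0 : cw π .one (x v) = 0 := LinearMap.congr_fun z1 v
    rw [sumW, e0, zero_mul, zero_add, sumL]
    simp only [wl]
    abel

end Crest.Agent.R186.C2a667
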