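import Crest.Agent.R186.DKd_457
import Crest.Agent.R186.C2a_667

/-!
# Row 186, half (A), leaf A.C2 (helper457), part 5: `(c2)` in terms of `pcM`, `pcZ`, `oM`, `kill`
-/

set_option autoImplicit false

noncomputable section

namespace Crest.Agent.R186.DKos457

open Crest.Agent.R186.DefsQ830 Crest.Agent.R186.VQ735 Crest.Agent.R186.Cells221
open Crest.Agent.R186.PBW128 (Wb Y E N Ix bv dPx dAx opX0 opX1 opH opL ext_bv A0 A1 Psi nf)
open Crest.Agent.R186.SM890 (repM oo dM opM opD dt dk nf1 MM oM dMM pcM)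
open Crest.Agent.R186.Win810 (pcZ)
open Crest.Agent.R186.C2b44 (kill)

variable {K : Type} [Field K] (π : Par K)

theorem pcM_le (s : ℕ) {P A C : ℤ} {m : MM π} (hm : m ∈ pcM π s P A C) :
    (m : N K) ∈ MP K (P + 1) A (C - s) := by
  have h : pcM π s P A C ≤ (show Submodule K (MM π) from MP K (P + 1) A (C - s)) := by
    apply SM890.pcM_ind
    intro q t ht
    rw [C2a667.pcZ_eq_pz] at ht
    exact MP_cast (repM_MP π ht (oo_MP (K := K) q)) (by ring) (by ring) (by ring)
  exact h hm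

theorem le_pcM (s : ℕ) {P A C : ℤ} {m : N K} (hm : m ∈ MP K (P + 1) A (C - s)) :
    (show MM π from m) ∈ pcM π s P A C := by
  have h : MP K (P + 1) A (C - s) ≤ (show Submodule K (N K) from pcM π s P A C) := by
    rw [MP, Sp, Finsupp.supported_eq_span_single, Submodule.span_le]
    rintro _ ⟨⟨i, j, k, w, q⟩, ⟨h1, h2, h3⟩, rfl⟩
    have e : (Finsupp.single (i, j, k, w, q) 1 : N K) = oM π q (nf1 π i j k w) := by
      rw [SM890.oM_apply, SM890.repM_nf1]
      rfl
    show (Finsupp.single (i, j, k, w, q) 1 : N K) ∈ pcM π s P A C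
    rw [e]
    refine SM890.mem_pcM π s q (C' := C - s + wC q.word) ?_ rfl
    rw [C2a667.pcZ_eq_pz]
    refine pz_cast π (nf1_pz π i j k w) h1 h2 ?_
    have h4 : (cR (i, j, k, w, q) : ℤ) - wC q.word = C - s := h3
    have h5 : cR (i, j, k, w, q) = cR (i, j, k, w, .one) := rfl
    rw [← h5]
    linarith
  exact h hm

/-- on the `o_1`-row the left action is left multiplication followed by `kill` -/
theorem Psi_repM (r : R π) {n : N K} (hn : n ∈ O1 K) :
    Psi π (repM π r n) = kill π (r * Psi π n) := by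
  have hk : ∀ m : N K, m ∈ O1 K → kill π (Psi π m) = Psi π m := by
    intro m hm
    have h : (kill π).toLinearMap (Psi π m) - Psi π m = 0 := by
      have h2 : ((kill π).toLinearMap ∘ₗ Psi π - Psi π) m ∈ (⊥ : Submodule K (R π)) := by
        have h3 : O1 K ≤ (⊥ : Submodule K (R π)).comap ((kill π).toLinearMap ∘ₗ Psi π - Psi π) := by
          rw [O1, Sp, Finsupp.supported_eq_span_single, Submodule.span_le]
          rintro _ ⟨⟨i, j, k, w, q⟩, h1, rfl⟩
          have h1' : q = .one := h1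
          show (kill π) (Psi π (bv K i j k w q)) - Psi π (bv K i j k w q) = 0
          rw [PBW128.Psi_bv, C2b44.kill_nf, if_pos h1', sub_self]
        exact h3 hm
      exact h2
    exact sub_eq_zero.1 h
  induction r using PBW128.R_ind π generalizing n with
  | h1 c =>
    rw [AlgHom.commutes]
    show Psi π (c • n) = _
    rw [map_smul, ← Algebra.smul_def, map_smul, hk n hn]
  | h2 a =>
    rw [SM890.repM_X, map_mul, hk n hn]
    cases a with
    | y s => rw [C2b44.kill_y, zero_mul]; show Psi π (opD π (.y s) n) = 0; rw [opD_O1 π (.y s) hn, map_zero]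
    | yb s => rw [C2b44.kill_yb, zero_mul]; show Psi π (opD π (.yb s) n) = 0; rw [opD_O1 π (.yb s) hn, map_zero]
    | x i => rw [C2b44.kill_x]; exact PBW128.Psi_op π (.x i) n
    | h => rw [C2b44.kill_h]; exact PBW128.Psi_op π .h n
    | d j => rw [C2b44.kill_d]; exact PBW128.Psi_op π (.d j) n
    | f => rw [C2b44.kill_f]; exact PBW128.Psi_op π .f n
    | z j => rw [C2b44.kill_z]; exact PBW128.Psi_op π (.z j) n
    | zc => rw [C2b44.kill_zc]; exact PBW128.Psi_op π .zc n
    | u s => rw [C2b44.kill_u]; exact PBW128.Psi_op π (.u s) n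
    | e j => rw [C2b44.kill_e]; exact PBW128.Psi_op π (.e j) n
    | gj j => rw [C2b44.kill_gj]; exact PBW128.Psi_op π (.gj j) n
    | gc => rw [C2b44.kill_gc]; exact PBW128.Psi_op π .gc n
    | v s => rw [C2b44.kill_v]; exact PBW128.Psi_op π (.v s) n
  | h3 a b ha hb =>
    rw [map_mul, Module.End.mul_apply, ha (repM_O1 π b hn), hb hn, map_mul, C2b44.kill_kill,
      ← map_mul, mul_assoc]
  | h4 a b ha hb => rw [map_add, LinearMap.add_apply, map_add, ha hn, hb hn, add_mul, map_add]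

theorem kill_Psi {m : N K} (hm : m ∈ O1 K) : kill π (Psi π m) = Psi π m := by
  have h := Psi_repM π 1 hm
  rw [map_one, one_mul] at h
  exact h.symm

theorem oo_O1 : oo K .one ∈ O1 K := bv_mem rfl

theorem Psi_oM (r : R π) : Psi π (oM π .one r) = kill π r := by
  have h := Psi_repM π r (oo_O1 (K := K))
  have h1 : Psi π (oo K .one) = 1 := PBW128.Psi_one π
  rw [h1, mul_one] at h
  exact h

theorem oM_O1 (r : R π) : (oM π .one r : N K) ∈ O1 K := repM_O1 π r oo_O1

theorem oM_kill (r : R π) : oM π .one (kill π r) = oM π .one r := repM_kill π r oo_O1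

theorem oM_Psi {m : N K} (hm : m ∈ O1 K) : (oM π .one (Psi π m) : N K) = m := by
  have h3 : O1 K ≤ (⊥ : Submodule K (N K)).comap
      ((show R π →ₗ[K] N K from oM π .one) ∘ₗ Psi π - LinearMap.id) := by
    rw [O1, Sp, Finsupp.supported_eq_span_single, Submodule.span_le]
    rintro _ ⟨⟨i, j, k, w, q⟩, h1, rfl⟩
    have h1' : q = .one := h1
    subst h1'
    show repM π (Psi π (bv K i j k w .one)) (oo K .one) - bv K i j k w .one = 0
    rw [PBW128.Psi_bv]
    have : repM π (nf π (i, j, k, w, .one)) (oo K .one) = bv K i j k w .one :=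
      SM890.repM_nf1 π i j k w .one
    rw [this, sub_self]
  exact sub_eq_zero.1 (h3 hm)

theorem Psi_pcZ {m : N K} {P A C : ℤ} (hm : m ∈ O1 K) (hm' : m ∈ MP K P A C) :
    Psi π m ∈ pcZ π P A C := by
  have h : m ∈ Sp K ({ν : Ix | ν.2.2.2.2 = .one} ∩ {ν | dPx ν = P ∧ (dAx ν : ℤ) = A ∧ eC ν = C}) :=
    fun ν hν => ⟨hm hν, hm' hν⟩
  have h3 : Sp K ({ν : Ix | ν.2.2.2.2 = .one} ∩ {ν | dPx ν = P ∧ (dAx ν : ℤ) = A ∧ eC ν = C}) ≤
      (pcZ π P A C).comap (Psi π) := by
    rw [Sp, Finsupp.supported_eq_span_single, Submodule.span_le]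
    rintro _ ⟨⟨i, j, k, w, q⟩, ⟨h0, h1, h2, h3⟩, rfl⟩
    have h0' : q = .one := h0
    subst h0'
    show Psi π (bv K i j k w .one) ∈ pcZ π P A C
    rw [PBW128.Psi_bv, C2a667.pcZ_eq_pz]
    refine pz_cast π (nf1_pz π i j k w) h1 h2 ?_
    rw [← h3]
    show _ = (cR (i, j, k, w, .one) : ℤ) - wC PBW128.Wb.one.word
    have : (wC PBW128.Wb.one.word : ℤ) = 0 := rfl
    rw [this, sub_zero]
  exact h3 h

theorem oM_MP {r : R π} {P A C : ℤ} (hr : r ∈ pcZ π P A C) : (oM π .one r : N K) ∈ MP K P A C := by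
  rw [C2a667.pcZ_eq_pz] at hr
  refine MP_cast (repM_MP π hr (oo_MP (K := K) .one)) (by ring) (by ring) ?_
  have : (wC PBW128.Wb.one.word : ℤ) = 0 := rfl
  rw [this]
  ring

/-! ### 307's literal -/

/-- `Hom^p(X'', M)` -/
def HomP (s : ℕ) (P0 A0 p : ℤ) (φ : Io π → MM π) : Prop :=
  ∀ σ : Io π, φ σ ∈ pcM π s (P0 + cP σ.1) (A0 + cAd σ.1) (sI σ - p)

/-- its differential -/
def dE (φ : Io π → MM π) (σ : Io π) : MM π :=
  dMM π (φ σ) + ∑ τ ∈ FI π (sI σ), cI π σ τ • φ τ

/-- `H^p` -/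
def HP (s : ℕ) (P0 A0 p : ℤ) (η : Cell → R π) : Prop :=
  ∀ c, η c ∈ pcZ π (P0 + cP c + 1) (A0 + cAd c) (cdeg c - p - s) ∧ kill π (η c) = η c

/-- its differential -/
def dH (η : Cell → R π) (c : Cell) : R π :=
  kill π (Der580.D π (η c) + ∑ c', kap π c c' * η c')

/-- the embedding -/
def io (η : Cell → R π) (σ : Io π) : MM π := e1 π σ.2 • oM π .one (η σ.1)

theorem dE_eq (φ : Io π → MM π) : dE π φ = dI π φ := rfl

theorem dL_oM (η : Cell → R π) (c : Cell) :
    dL π (fun c => repM π (η c) (oo K .one)) c = repM π (dH π η c) (oo K .one) := by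
  rw [dH, repM_kill π _ oo_O1, map_add, map_sum, LinearMap.add_apply, LinearMap.sum_apply, dL,
    SM890.dM_repM]
  congr 1
  refine Finset.sum_congr rfl fun c' _ => ?_
  rw [map_mul]
  rfl

/-- **`(c2)`** -/
theorem c2_cone (s : ℕ) (P0 A0 p : ℤ) (η : Cell → R π) (φ : Io π → MM π)
    (hη : ∀ c, kill π (η c) = η c) (hφ : HomP π s P0 A0 p φ) (h : ∀ σ, dE π φ σ = io π η σ) :
    ∃ (η' : Cell → R π) (φ' : Io π → MM π), HP π s P0 A0 p η' ∧ HomP π s P0 A0 (p - 1) φ' ∧
      (∀ c, η c = dH π η' c) ∧ ∀ σ, φ σ = dE π φ' σ + io π η' σ := by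
  have hφ' : Hom π (P0 + 1) A0 (-p - s) φ := by
    intro σ
    exact MP_cast (pcM_le π s (hφ σ)) (by ring) rfl (by ring)
  obtain ⟨ψ, ζ, h1, h2, h3⟩ := acyc π hφ' (fun c => oM π .one (η c)) (fun c => oM_O1 π _) h
  have hζ : ∀ c, (oM π .one (Psi π (ζ c)) : N K) = ζ c := fun c => oM_Psi π (h2 c).1
  have h4 : ∀ σ, φ σ = dE π ψ σ + io π (fun c => Psi π (ζ c)) σ := by
    intro σ
    have h5 : io π (fun c => Psi π (ζ c)) σ = (e1 π σ.2 • ζ σ.1 : N K) := by
      show (e1 π σ.2 • (show N K from oM π .one (Psi π (ζ σ.1))) : N K) = _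
      rw [hζ]
    rw [h5]
    exact h3 σ
  refine ⟨fun c => Psi π (ζ c), ψ, fun c => ⟨?_, kill_Psi π (h2 c).1⟩, fun σ => ?_, fun c => ?_, h4⟩
  · have h5 := Psi_pcZ π (h2 c).1 (h2 c).2
    have e1' : P0 + 1 + cP c = P0 + cP c + 1 := by ring
    have e2' : -p - (s : ℤ) + cdeg c = cdeg c - p - s := by ring
    rw [e1', e2'] at h5
    exact h5
  · apply le_pcM π s
    exact MP_cast (h1 σ) (by ring) rfl (by ring)
  · -- `η = dH η'`
    have h5 : (oM π .one (η c) : N K) = dL π ζ c := by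
      apply e1_cancel π
      intro q
      have h6 := h (c, q)
      have h7 : dE π φ (c, q) = dI π φ (c, q) := rfl
      rw [← dI_e1 π (fun c => (h2 c).1) (c, q)]
      have h8 : φ = fun σ => dI π ψ σ + e1 π σ.2 • ζ σ.1 := funext h3
      have h9 : dI π φ (c, q) = dI π (fun τ => e1 π τ.2 • ζ τ.1) (c, q) := by
        conv_lhs => rw [h8]
        have h10 := dI_add π (dI π ψ) (fun σ => e1 π σ.2 • ζ σ.1) (c, q)
        have h11 : dI π (dI π ψ) (c, q) = 0 := dI_dI π ψ (c, q)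
        rw [h11, zero_add] at h10
        exact h10
      rw [← h9, ← h7, h6]
      rfl
    have h6 : dL π ζ c = (oM π .one (dH π (fun c => Psi π (ζ c)) c) : N K) := by
      refine Eq.trans ?_ (dL_oM π (fun c => Psi π (ζ c)) c)
      congr 1
      funext c
      exact (hζ c).symm
    have h7 := congrArg (Psi π) (h5.trans h6)
    rw [Psi_oM, Psi_oM, hη, dH, C2b44.kill_kill] at h7
    exact h7

end Crest.Agent.R186.DKos457
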