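import Crest.Agent.R186.C2W_735
import Crest.Agent.R186.DKe_457

/-!
Row 186 (A) (helper735): `Cone π s` from helper457's `c2_cone`; `C2s`, `C2t` of 187 over the
concrete objects without hypotheses.
-/

set_option autoImplicit false

noncomputable section

namespace Crest.Agent.R186.C2E735

open DefsQ830 C2W735 DJ187
open Crest.Agent.R186.Cells221 (Cell)

variable {K : Type} [Field K] (π : Par K) (s : ℕ)

theorem kap_eq (c c' : Cell) : DKos457.kap π c c' = C2b44.c0 π c c' := by
  rcases c with _ | c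
  · rfl
  · rcases c' with _ | c' <;> rfl

theorem dH_eq (η : Cell → R π) (c : Cell) : DKos457.dH π η c = dE π η c := by
  unfold DKos457.dH dE
  congr 2

/-- **(c2), elementwise** -/
theorem cone : Cone π s := by
  intro P0 A0 p η φ h1 h2 _ h4
  obtain ⟨η', φ', a1, a2, a3, a4⟩ := DKos457.c2_cone π s P0 A0 p η φ (fun c => (h1 c).2) h2 h4
  refine ⟨η', φ', a1, a2, fun c => ?_, fun σ => ?_⟩
  · rw [a3 c, dH_eq]
  · exact (a4 σ).trans (add_comm _ _)

/-- **(c2), onto, over the windows** -/
theorem c2s' (h5 : 5 ≤ s) :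
    C2s (prM π s (KHc302.two_le h5)) (EE π s h5).toIn (Y := Y2 π) (pj π s h5) :=
  c2s π s h5 (cone π s)

/-- **(c2), injective, over the windows** -/
theorem c2t' (h5 : 5 ≤ s) :
    C2t (prM π s (KHc302.two_le h5)) (EE π s h5).toIn (Y := Y2 π) (pj π s h5) :=
  c2t π s h5 (cone π s)

end Crest.Agent.R186.C2E735
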