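import Crest.Agent.R186.C2E_307

/-!
# Row 186, half (A), leaf (c2) (helper307), part 6: exactness of the cone
-/

set_option autoImplicit false

noncomputable section

namespace Crest.Agent.R186.C2M307

open Crest.Agent.R186.DefsQ830 Crest.Agent.R186.PBW128 Crest.Agent.R186.SM890
open Crest.Agent.R186.Win810
open Crest.Agent.R186.Cells221 (Cell cdeg cP)
open Crest.Agent.R186.C2b44 (kill c0)
open Crest.Agent.R186.VQ735 (lp Bt qd A2 yl Q Dl Cm DA cAd G2 pz)
open TensorProduct

variable {K : Type} [Field K] (π : Par K)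

/-- the differential of `H` -/
def dH : (Cell → R π) →ₗ[K] (Cell → R π) where
  toFun η c := kill π (Der580.D π (η c) + ∑ c', c0 π c c' * η c')
  map_add' η θ := by
    funext c
    simp only [Pi.add_apply, map_add, mul_add, Finset.sum_add_distrib]
    abel
  map_smul' r η := by
    funext c
    simp only [Pi.smul_apply, map_smul, RingHom.id_apply, mul_smul_comm, ← Finset.smul_sum,
      ← smul_add]

theorem dH_apply (η : Cell → R π) (c : Cell) :
    dH π η c = kill π (Der580.D π (η c) + ∑ c', c0 π c c' * η c') := rfl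

theorem rself (r : R π) : r + r = 0 := by
  rw [← two_smul K, π.two, zero_smul]

theorem kself (r : Cell → R π) : r + r = 0 := by
  rw [← two_smul K, π.two, zero_smul]

theorem mself (r : ME π) : r + r = 0 := by
  rw [← two_smul K, π.two, zero_smul]

theorem dH_dH (η : Cell → R π) : dH π (dH π η) = 0 := by
  funext c
  rw [dH_apply]
  have e1 : ∀ r : R π, kill π (Der580.D π (kill π r)) = kill π (Der580.D π r) := C2b44.kill_D π
  have e2 : ∀ a r : R π, kill π (a * kill π r) = kill π (a * r) := fun a r => by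
    rw [map_mul, map_mul, C2b44.kill_kill]
  rw [map_add, map_sum]
  simp only [dH_apply, e1, e2]
  rw [← map_sum, ← map_add, map_add (Der580.D π), Der580.D_D, zero_add, map_sum]
  simp only [Der580.D_mul, mul_add, Finset.mul_sum]
  rw [Finset.sum_add_distrib, Finset.sum_add_distrib]
  have e3 : kill π (∑ c', Der580.D π (c0 π c c') * η c' + ∑ c', ∑ c'', c0 π c c' * (c0 π c' c'' * η c''))
      = 0 := by
    rw [Finset.sum_comm (γ := Cell), ← Finset.sum_add_distrib, map_sum]
    refine Finset.sum_eq_zero fun c'' _ => ?_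
    have h := C2b44.c0_mc π c c''
    have h2 : Der580.D π (c0 π c c'') * η c'' + ∑ c', c0 π c c' * (c0 π c' c'' * η c'')
        = (Der580.D π (c0 π c c'') + ∑ c', c0 π c c' * c0 π c' c'') * η c'' := by
      rw [add_mul, Finset.sum_mul]
      simp only [mul_assoc]
    rw [h2, map_mul, h, zero_mul]
  have e4 : ∀ a b d : R π, a + b + (b + d) = a + d := fun a b d => by
    calc a + b + (b + d) = a + d + (b + b) := by abel
      _ = a + d := by rw [rself, add_zero]
  rw [e4, e3]
  rfl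

theorem dE_split (φ : ME π) (c : Cell) :
    dE π φ c = DN π (φ c) + ∑ c', act2 π (Dl π (c0 π c c')) (φ c') + tht π (φ c) := by
  rw [dE_apply, add_assoc]
  congr 1
  have h : ∀ c', act2 π (Cm π c c') (φ c') = act2 π (Dl π (c0 π c c')) (φ c')
      + if c = c' then tht π (φ c') else 0 := by
    intro c'
    rw [Cm_eq, map_add, LinearMap.add_apply]
    congr 1
    split_ifs with h
    · exact act2_th π _
    · rw [map_zero]; rfl
  simp only [h]
  rw [Finset.sum_add_distrib, Finset.sum_ite_eq, if_pos (Finset.mem_univ _)]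

/-- `η ↦ η o_1` -/
def io (η : Cell → R π) : ME π := fun c => iq π (η c)

theorem io_add (η θ : Cell → R π) : io π (η + θ) = io π η + io π θ := by
  funext c; exact map_add _ _ _

theorem dE_io (η : Cell → R π) : dE π (io π η) = io π (dH π η) := by
  funext c
  rw [dE_split]
  show DN π (iq π (η c)) + ∑ c', act2 π (Dl π (c0 π c c')) (iq π (η c')) + tht π (iq π (η c))
    = iq π (dH π η c)
  simp only [act_iq]
  rw [DN_iq, tht_iq, add_zero, dH_apply, iq_kill, map_add, map_sum]

section degrees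

variable (s : ℕ) (P0 A0 : ℤ)

/-- homogeneous elements of `H` -/
def HG (p : ℤ) (η : Cell → R π) : Prop :=
  ∀ c, η c ∈ pcZ π (P0 + cP c + 1) (A0 + cAd c) (cdeg c - p - s) ∧ kill π (η c) = η c

/-- homogeneous elements of `Hom(X'', M)` -/
def EG (p : ℤ) (φ : ME π) : Prop :=
  ∀ c, φ c ∈ GQ π s (P0 + cP c) (A0 + cAd c) (cdeg c - p)

/-- the filtration -/
def FK (k : ℤ) (η : Cell → R π) (φ : ME π) : Prop :=
  ∀ c, iq π (η c) ∈ NFQ π (cdeg c - k) ∧ φ c ∈ NFQ π (cdeg c - k)

variable {s P0 A0}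

theorem HG_add {p : ℤ} {η θ : Cell → R π} (h : HG π s P0 A0 p η) (h' : HG π s P0 A0 p θ) :
    HG π s P0 A0 p (η + θ) := fun c =>
  ⟨Submodule.add_mem _ (h c).1 (h' c).1, by rw [Pi.add_apply, map_add, (h c).2, (h' c).2]⟩

theorem EG_add {p : ℤ} {η θ : ME π} (h : EG π s P0 A0 p η) (h' : EG π s P0 A0 p θ) :
    EG π s P0 A0 p (η + θ) := fun c => Submodule.add_mem _ (h c) (h' c)

theorem HG_dH {p : ℤ} {η : Cell → R π} (h : HG π s P0 A0 p η) :
    HG π s P0 A0 (p + 1) (dH π η) := by
  intro c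
  refine ⟨?_, by rw [dH_apply, C2b44.kill_kill]⟩
  rw [dH_apply]
  refine C2b44.kill_mem π (Submodule.add_mem _ ?_ (Submodule.sum_mem _ fun c' _ => ?_))
  · have := pcZ_D π (h c).1
    rwa [show (cdeg c : ℤ) - p - s - 1 = cdeg c - (p + 1) - s by ring] at this
  · have := pcZ_mul π (c0_mem π c c') (h c').1
    rwa [show cP c - cP c' + (P0 + cP c' + 1) = P0 + cP c + 1 by ring,
      show (cAd c : ℤ) - cAd c' + (A0 + cAd c') = A0 + cAd c by ring,
      show (cdeg c : ℤ) - cdeg c' - 1 + (cdeg c' - p - s) = cdeg c - (p + 1) - s by ring] at this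

theorem EG_dE {p : ℤ} {φ : ME π} (h : EG π s P0 A0 p φ) : EG π s P0 A0 (p + 1) (dE π φ) := by
  intro c
  rw [dE_apply]
  refine Submodule.add_mem _ ?_ (Submodule.sum_mem _ fun c' _ => ?_)
  · have := DN_GQ π (h c)
    rwa [show (cdeg c : ℤ) - p - 1 = cdeg c - (p + 1) by ring] at this
  · have := act_GQ π (VQ735.Cm_G2 π c c') (h c')
    rwa [show cP c - cP c' + (P0 + cP c') = P0 + cP c by ring,
      show (cAd c : ℤ) - cAd c' + (A0 + cAd c') = A0 + cAd c by ring,
      show (cdeg c : ℤ) - cdeg c' - 1 + (cdeg c' - p) = cdeg c - (p + 1) by ring] at this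

theorem EG_io {p : ℤ} {η : Cell → R π} (h : HG π s P0 A0 p η) : EG π s P0 A0 p (io π η) :=
  fun c => iq_GQ π (h c).1

theorem HG_PQ {p : ℤ} {φ : ME π} (h : EG π s P0 A0 p φ) :
    HG π s P0 A0 p (fun c => PQ π (φ c)) :=
  fun c => ⟨PQ_GQ π (h c), kill_PQ π _⟩

theorem EG_hh {p : ℤ} {φ : ME π} (h : EG π s P0 A0 p φ) :
    EG π s P0 A0 (p - 1) (fun c => hh π (φ c)) := fun c => by
  have := hh_GQ π (h c)
  rwa [show (cdeg c : ℤ) - p + 1 = cdeg c - (p - 1) by ring] at this

end degrees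

theorem FK_step {k : ℤ} {η : Cell → R π} {φ : ME π} (hk : ∀ c, kill π (η c) = η c)
    (h : FK π k η φ) (hd : dE π φ = io π η) :
    FK π (k + 1) (η + dH π (fun c => PQ π (φ c)))
      (φ + (dE π (fun c => hh π (φ c)) + io π (fun c => PQ π (φ c)))) := by
  have h1 : ∀ c, NFQ π (cdeg c - k - 1) = NFQ π (cdeg c - (k + 1)) := fun c => by
    congr 1; ring
  -- `DN`, `act` raise the filtration
  have hDN : ∀ (ψ : ME π), (∀ c, ψ c ∈ NFQ π (cdeg c - k)) → ∀ c,
      DN π (ψ c) + ∑ c', act2 π (Dl π (c0 π c c')) (ψ c') ∈ NFQ π (cdeg c - (k + 1)) := by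
    intro ψ hψ c
    refine Submodule.add_mem _ ?_ (Submodule.sum_mem _ fun c' _ => actc_NFQ π c c' (hψ c'))
    rw [← h1]
    exact DN_NFQ π (hψ c)
  have hφ : ∀ c, φ c ∈ NFQ π (cdeg c - k) := fun c => (h c).2
  intro c
  have hdc : DN π (φ c) + ∑ c', act2 π (Dl π (c0 π c c')) (φ c') + tht π (φ c) = iq π (η c) := by
    rw [← dE_split]; exact congrFun hd c
  constructor
  · -- first component
    have e1 : iq π (η c) = pp π (DN π (φ c) + ∑ c', act2 π (Dl π (c0 π c c')) (φ c')) := by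
      have h2 : iq π (PQ π (DN π (φ c) + ∑ c', act2 π (Dl π (c0 π c c')) (φ c')
          + tht π (φ c))) = iq π (PQ π (iq π (η c))) := by rw [hdc]
      rw [map_add (PQ π), PQ_tht, add_zero, iq_PQ, PQ_iq, iq_kill] at h2
      exact h2.symm
    have e2 : iq π (dH π (fun c => PQ π (φ c)) c) =
        DN π (pp π (φ c)) + ∑ c', act2 π (Dl π (c0 π c c')) (pp π (φ c')) := by
      have h3 := congrFun (dE_io π (fun c => PQ π (φ c))) c
      rw [dE_split] at h3
      have h4 : tht π (io π (fun c => PQ π (φ c)) c) = 0 := tht_iq π _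
      rw [h4, add_zero] at h3
      have h5 : ∀ c', io π (fun c => PQ π (φ c)) c' = pp π (φ c') := fun c' => iq_PQ π _
      simp only [h5] at h3
      exact h3.symm
    show iq π (η c + dH π (fun c => PQ π (φ c)) c) ∈ NFQ π (cdeg c - (k + 1))
    rw [map_add, e1, e2]
    exact Submodule.add_mem _ (pp_NFQ π (hDN φ hφ c))
      (hDN (fun c => pp π (φ c)) (fun c => pp_NFQ π (hφ c)) c)
  · -- second component
    show φ c + (dE π (fun c => hh π (φ c)) c + iq π (PQ π (φ c))) ∈ NFQ π (cdeg c - (k + 1))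
    rw [dE_split, iq_PQ]
    have e1 : hh π (tht π (φ c)) =
        hh π (DN π (φ c) + ∑ c', act2 π (Dl π (c0 π c c')) (φ c')) := by
      have h2 := congrArg (hh π) hdc
      rw [map_add (hh π), hh_iq] at h2
      have h3 := self π (hh π (tht π (φ c)))
      calc hh π (tht π (φ c)) = 0 + hh π (tht π (φ c)) := (zero_add _).symm
        _ = hh π (DN π (φ c) + ∑ c', act2 π (Dl π (c0 π c c')) (φ c'))
            + (hh π (tht π (φ c)) + hh π (tht π (φ c))) := by rw [← h2, add_assoc]
        _ = _ := by rw [h3, add_zero]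
    have e2 := homotopy π (φ c)
    have e3 : φ c + (DN π (hh π (φ c)) + ∑ c', act2 π (Dl π (c0 π c c')) (hh π (φ c'))
        + tht π (hh π (φ c)) + pp π (φ c)) = hh π (tht π (φ c)) +
        (DN π (hh π (φ c)) + ∑ c', act2 π (Dl π (c0 π c c')) (hh π (φ c'))) := by
      have h3 := self π (tht π (hh π (φ c)) + pp π (φ c))
      calc _ = (tht π (hh π (φ c)) + hh π (tht π (φ c)) + pp π (φ c)) +
            (DN π (hh π (φ c)) + ∑ c', act2 π (Dl π (c0 π c c')) (hh π (φ c'))
            + tht π (hh π (φ c)) + pp π (φ c)) := by rw [e2]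
        _ = (hh π (tht π (φ c)) + (DN π (hh π (φ c)) +
            ∑ c', act2 π (Dl π (c0 π c c')) (hh π (φ c')))) +
            ((tht π (hh π (φ c)) + pp π (φ c)) + (tht π (hh π (φ c)) + pp π (φ c))) := by abel
        _ = _ := by rw [h3, add_zero]
    rw [e3, e1]
    exact Submodule.add_mem _ (hh_NFQ π (hDN φ hφ c))
      (hDN (fun c => hh π (φ c)) (fun c => hh_NFQ π (hφ c)) c)

theorem cdeg_le (c : Cell) : cdeg c ≤ 5 := by
  rcases c with _ | l
  · simp [cdeg]
  · cases l <;> simp [cdeg] <;> omega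

variable {s : ℕ} {P0 A0 : ℤ}

theorem exact_aux (n : ℕ) : ∀ (k : ℤ), k + n = 6 → ∀ (p : ℤ) (η : Cell → R π) (φ : ME π),
    HG π s P0 A0 (p + 1) η → EG π s P0 A0 p φ → FK π k η φ → dH π η = 0 → dE π φ = io π η →
    ∃ (η' : Cell → R π) (φ' : ME π), HG π s P0 A0 p η' ∧ EG π s P0 A0 (p - 1) φ' ∧
      η = dH π η' ∧ φ = dE π φ' + io π η' := by
  induction n with
  | zero =>
    intro k hk p η φ hη hφ hF _ _
    have h0 : ∀ c, NFQ π (cdeg c - k) = ⊥ := fun c => NFQ_neg π (by
      have := cdeg_le c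
      push_cast at hk
      omega)
    refine ⟨0, 0, fun c => ⟨Submodule.zero_mem _, map_zero _⟩, fun c => Submodule.zero_mem _, ?_, ?_⟩
    · rw [map_zero]
      funext c
      have h1 := (hF c).1
      rw [h0, Submodule.mem_bot] at h1
      rw [← (hη c).2, ← PQ_iq, h1, map_zero]
      rfl
    · rw [map_zero]
      funext c
      have h1 := (hF c).2
      rw [h0, Submodule.mem_bot] at h1
      rw [h1]
      show 0 = 0 + iq π 0
      rw [map_zero, add_zero]
  | succ n ih =>
    intro k hk p η φ hη hφ hF h1 h2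
    have hs := FK_step π (fun c => (hη c).2) hF h2
    obtain ⟨η', φ', a1, a2, a3, a4⟩ := ih (k + 1) (by push_cast at hk; push_cast; omega) p _ _
      (HG_add π hη (HG_dH π (HG_PQ π hφ)))
      (EG_add π hφ (EG_add π (by
        have := EG_dE π (EG_hh π hφ)
        rwa [show p - 1 + 1 = p by ring] at this) (EG_io π (HG_PQ π hφ)))) hs
      (by rw [map_add, h1, dH_dH, add_zero])
      (by rw [map_add, map_add, dE_dE, zero_add, h2, dE_io, ← io_add])
    refine ⟨η' + (fun c => PQ π (φ c)), φ' + (fun c => hh π (φ c)), HG_add π a1 (HG_PQ π hφ),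
      EG_add π a2 (EG_hh π hφ), ?_, ?_⟩
    · rw [map_add, ← a3, add_assoc, kself, add_zero]
    · rw [map_add, io_add]
      have e := mself π (dE π (fun c => hh π (φ c)) + io π (fun c => PQ π (φ c)))
      calc φ = φ + ((dE π (fun c => hh π (φ c)) + io π (fun c => PQ π (φ c)))
            + (dE π (fun c => hh π (φ c)) + io π (fun c => PQ π (φ c)))) := by rw [e, add_zero]
        _ = (φ + (dE π (fun c => hh π (φ c)) + io π (fun c => PQ π (φ c))))
            + (dE π (fun c => hh π (φ c)) + io π (fun c => PQ π (φ c))) := by abel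
        _ = _ := by rw [a4]; abel

/-- **the cone of `H → Hom(X'', M)` is exact** -/
theorem exact_ME {p : ℤ} {η : Cell → R π} {φ : ME π}
    (hη : HG π s P0 A0 (p + 1) η) (hφ : EG π s P0 A0 p φ) (h1 : dH π η = 0)
    (h2 : dE π φ = io π η) :
    ∃ (η' : Cell → R π) (φ' : ME π), HG π s P0 A0 p η' ∧ EG π s P0 A0 (p - 1) φ' ∧
      η = dH π η' ∧ φ = dE π φ' + io π η' := by
  have hex : ∀ c : Cell, ∃ n : ℕ, iq π (η c) ∈ NFQ π n ∧ φ c ∈ NFQ π n := by
    intro c
    obtain ⟨n, hn⟩ := NFQ_exists π (iq π (η c))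
    obtain ⟨n', hn'⟩ := NFQ_exists π (φ c)
    exact ⟨n + n', NFQ_mono π (by push_cast; omega) hn, NFQ_mono π (by push_cast; omega) hn'⟩
  choose f hf using hex
  have hb : ∀ c, f c ≤ ∑ c', f c' := fun c =>
    Finset.single_le_sum (f := f) (fun _ _ => Nat.zero_le _) (Finset.mem_univ c)
  refine exact_aux π (6 + ∑ c', f c') (-((∑ c', f c' : ℕ) : ℤ)) (by push_cast; ring) p η φ hη hφ
    ?_ h1 h2
  intro c
  have h3 := hb c
  exact ⟨NFQ_mono π (by omega) (hf c).1, NFQ_mono π (by omega) (hf c).2⟩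

end Crest.Agent.R186.C2M307
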