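import Crest.Agent.R186.C2D_307

/-!
# Row 186, half (A), leaf (c2) (helper307), part 4: filtration and degrees on `M ⊗ Q`
-/

set_option autoImplicit false

noncomputable section

namespace Crest.Agent.R186.C2M307

open Crest.Agent.R186.DefsQ830 Crest.Agent.R186.PBW128 Crest.Agent.R186.SM890
open Crest.Agent.R186.Win810
open Crest.Agent.R186.Cells221 (Cell cdeg cP)
open Crest.Agent.R186.C2b44 (kill c0)
open Crest.Agent.R186.Loc261 (Lt li rel Qc Qg)
open Crest.Agent.R186.VQ735 (lp MQ SC SC_apply MQ_apply dg Bt bq qd HT coef A2 yl Q Dl Cm DA cAd)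
open Crest.Agent.R186.KosQ307 (dq eps tot_dq dq_ne dq_xx dq_xx' dq_xa dq_xb dq_sc dq_mem dq_one
  eps_one eps_mul eps_sc eps_Qc sum4)
open TensorProduct

variable {K : Type} [Field K] (π : Par K)

/-! ### the pieces -/

theorem pcZ_ind {P A C : ℤ} {T : Submodule K (R π)}
    (h : ∀ i j k w q, dPx (i, j, k, w, q) = P → (dAx (i, j, k, w, q) : ℤ) = A →
      (dCx (i, j, k, w, q) : ℤ) = C → nf1 π i j k w * wq π q ∈ T) : pcZ π P A C ≤ T := by
  intro r hr
  rcases pcZ_cases π hr with rfl | ⟨A1, C1, rfl, rfl, h1⟩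
  · exact Submodule.zero_mem _
  · rw [mem_pc_span] at h1
    refine (Submodule.span_le.2 ?_) h1
    rintro _ ⟨⟨i, j, k, w, q⟩, ⟨h2, h3, h4⟩, rfl⟩
    rw [SetLike.mem_coe, nf_eq]
    exact h i j k w q h2 (by rw [h3]) (by rw [h4])

/-- `C`-degree of the `R'`-part -/
def cw (w : List E) : ℕ := (w.map (fun l => l.toGen.dC)).sum

theorem dCx_eq (i j k : ℕ) (w : List E) (q : Wb) : dCx (i, j, k, w, q) = cw w + wC q.word := rfl

theorem dPx_q (i j k : ℕ) (w : List E) (q q' : Wb) : dPx (i, j, k, w, q) = dPx (i, j, k, w, q') := rfl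
theorem dAx_q (i j k : ℕ) (w : List E) (q q' : Wb) : dAx (i, j, k, w, q) = dAx (i, j, k, w, q') := rfl

theorem nf1_mem {i j k : ℕ} {w : List E} {P A C : ℤ} (h1 : dPx (i, j, k, w, .one) = P)
    (h2 : (dAx (i, j, k, w, .one) : ℤ) = A) (h3 : (cw w : ℤ) = C) : nf1 π i j k w ∈ pcZ π P A C := by
  refine C2b44.nf_mem_pcZ π _ h1 h2 ?_
  rw [dCx_eq, ← h3]
  simp [Wb.word, wC]

theorem cW_deg (q1 q : Wb) : cW π q1 q = 0 ∨ wC q.word = wC (tW q1 q).word + wC q1.word := by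
  have h10 : (1 : Fin 2) ≠ 0 := by decide
  have h01 : (0 : Fin 2) ≠ 1 := by decide
  rcases q1 with _ | s | s | _ <;> rcases q with _ | s' | s' | _ <;>
    (try rcases fin2 s with rfl | rfl) <;> (try rcases fin2 s' with rfl | rfl) <;>
    first
    | (left; simp [cW, dk, dt, h10, h01]; done)
    | (right; simp [tW, dt, h10, h01, Wb.word, wC, Gen.dC]; done)

/-- filtration of `M` by the degree of the `R'`-part -/
def NF (K : Type) [Field K] (n : ℤ) : Submodule K (N K) :=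
  Submodule.span K {m | ∃ i j k w q, (cw w : ℤ) ≤ n ∧ m = bv K i j k w q}

theorem bv_NF {i j k : ℕ} {w : List E} {q : Wb} {n : ℤ} (h : (cw w : ℤ) ≤ n) :
    bv K i j k w q ∈ NF K n := Submodule.subset_span ⟨i, j, k, w, q, h, rfl⟩

theorem NF_neg {n : ℤ} (h : n < 0) : NF K n = ⊥ := by
  rw [NF, Submodule.span_eq_bot]
  rintro _ ⟨i, j, k, w, q, h1, rfl⟩
  exfalso; omega

theorem NF_mono {n n' : ℤ} (h : n ≤ n') : NF K n ≤ NF K n' := by
  refine Submodule.span_le.2 ?_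
  rintro _ ⟨i, j, k, w, q, h1, rfl⟩
  exact bv_NF (h1.trans h)

theorem rep_NF {P A C : ℤ} {r : R π} (hr : r ∈ pcZ π P A C) (q : Wb) :
    repM π r (oo K q) ∈ NF K C := by
  have h : pcZ π P A C ≤ (NF K C).comap (evM π (oo K q)) := by
    apply pcZ_ind
    intro i j k w q1 _ _ h3
    rw [Submodule.mem_comap, evM_apply, repM_nf]
    refine Submodule.smul_mem _ _ (bv_NF ?_)
    rw [dCx_eq] at h3
    push_cast at h3
    omega
  exact h hr

theorem act_NF {P A C n : ℤ} {r : R π} (hr : r ∈ pcZ π P A C) {m : N K} (hm : m ∈ NF K n) :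
    repM π r m ∈ NF K (n + C) := by
  have h : NF K n ≤ (NF K (n + C)).comap (repM π r) := by
    refine Submodule.span_le.2 ?_
    rintro _ ⟨i, j, k, w, q, h1, rfl⟩
    rw [SetLike.mem_coe, Submodule.mem_comap, ← repM_nf1 π, repM_repM]
    refine NF_mono (n := C + cw w) (by omega) (rep_NF π (pcZ_mul π hr (nf1_mem π rfl rfl rfl)) q)
  exact h hm

theorem dM_NF {n : ℤ} {m : N K} (hm : m ∈ NF K n) : dM π m ∈ NF K (n - 1) := by
  have h : NF K n ≤ (NF K (n - 1)).comap (dM π) := by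
    refine Submodule.span_le.2 ?_
    rintro _ ⟨i, j, k, w, q, h1, rfl⟩
    rw [SetLike.mem_coe, Submodule.mem_comap, dM_bv]
    refine NF_mono (n := cw w - 1) (by omega) (rep_NF π (pcZ_D π (nf1_mem π rfl rfl rfl)) q)
  exact h hm

theorem opS_NF (g : Lt) {n : ℤ} {m : N K} (hm : m ∈ NF K n) : opS π g m ∈ NF K n := by
  have h : NF K n ≤ (NF K n).comap (opS π g) := by
    refine Submodule.span_le.2 ?_
    rintro _ ⟨i, j, k, w, q, h1, rfl⟩
    rw [SetLike.mem_coe, Submodule.mem_comap, opS_bv]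
    exact Submodule.smul_mem _ _ (bv_NF h1)
  exact h hm

theorem p1_NF {n : ℤ} {m : N K} (hm : m ∈ NF K n) : p1 m ∈ NF K n := by
  have h : NF K n ≤ (NF K n).comap (p1 : N K →ₗ[K] N K) := by
    refine Submodule.span_le.2 ?_
    rintro _ ⟨i, j, k, w, q, h1, rfl⟩
    rw [SetLike.mem_coe, Submodule.mem_comap, p1_bv]
    split_ifs
    · exact bv_NF h1
    · exact Submodule.zero_mem _
  exact h hm

/-- filtration of `M ⊗ Q` -/
def NFQ (n : ℤ) : Submodule K (NQ π) :=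
  Submodule.span K {t | ∃ (m : N K) (u : Q π), m ∈ NF K n ∧ t = m ⊗ₜ u}

theorem tmul_NFQ {n : ℤ} {m : N K} (hm : m ∈ NF K n) (u : Q π) : m ⊗ₜ u ∈ NFQ π n :=
  Submodule.subset_span ⟨m, u, hm, rfl⟩

theorem NFQ_neg {n : ℤ} (h : n < 0) : NFQ π n = ⊥ := by
  rw [NFQ, Submodule.span_eq_bot]
  rintro _ ⟨m, u, h1, rfl⟩
  rw [NF_neg h] at h1
  rw [(Submodule.mem_bot K).1 h1, TensorProduct.zero_tmul]

theorem NFQ_mono {n n' : ℤ} (h : n ≤ n') : NFQ π n ≤ NFQ π n' := by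
  refine Submodule.span_le.2 ?_
  rintro _ ⟨m, u, h1, rfl⟩
  exact tmul_NFQ π (NF_mono h h1) u

theorem NFQ_map {n n' : ℤ} (f : NQ π →ₗ[K] NQ π)
    (h : ∀ (m : N K) (u : Q π), m ∈ NF K n → f (m ⊗ₜ u) ∈ NFQ π n') {t : NQ π}
    (ht : t ∈ NFQ π n) : f t ∈ NFQ π n' := by
  have h1 : NFQ π n ≤ (NFQ π n').comap f := by
    refine Submodule.span_le.2 ?_
    rintro _ ⟨m, u, h1, rfl⟩
    exact h m u h1
  exact h1 ht

theorem NF_exists (m : N K) : ∃ n : ℕ, m ∈ NF K n := by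
  induction m using Finsupp.induction_linear with
  | zero => exact ⟨0, Submodule.zero_mem _⟩
  | add a b ha hb =>
    obtain ⟨n, hn⟩ := ha
    obtain ⟨n', hn'⟩ := hb
    exact ⟨n + n', Submodule.add_mem _ (NF_mono (by push_cast; omega) hn)
      (NF_mono (by push_cast; omega) hn')⟩
  | single ν r =>
    obtain ⟨i, j, k, w, q⟩ := ν
    refine ⟨cw w, ?_⟩
    have : (Finsupp.single (i, j, k, w, q) r : N K) = r • bv K i j k w q := by
      simp [bv]
    rw [this]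
    exact Submodule.smul_mem _ _ (bv_NF le_rfl)

theorem NFQ_exists (t : NQ π) : ∃ n : ℕ, t ∈ NFQ π n := by
  induction t using TensorProduct.induction_on with
  | zero => exact ⟨0, Submodule.zero_mem _⟩
  | tmul m u =>
    obtain ⟨n, hn⟩ := NF_exists m
    exact ⟨n, tmul_NFQ π hn u⟩
  | add a b ha hb =>
    obtain ⟨n, hn⟩ := ha
    obtain ⟨n', hn'⟩ := hb
    exact ⟨n + n', Submodule.add_mem _ (NFQ_mono π (by push_cast; omega) hn)
      (NFQ_mono π (by push_cast; omega) hn')⟩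

theorem DN_NFQ {n : ℤ} {t : NQ π} (ht : t ∈ NFQ π n) : DN π t ∈ NFQ π (n - 1) :=
  NFQ_map π _ (fun m u hm => tmul_NFQ π (dM_NF π hm) u) ht

theorem hh_NFQ {n : ℤ} {t : NQ π} (ht : t ∈ NFQ π n) : hh π t ∈ NFQ π n := by
  refine NFQ_map π _ (fun m u hm => ?_) ht
  rw [hh_tmul]
  exact Submodule.add_mem _ (Submodule.add_mem _ (Submodule.add_mem _
    (tmul_NFQ π (opS_NF π _ hm) _) (tmul_NFQ π (opS_NF π _ hm) _))
    (tmul_NFQ π (opS_NF π _ hm) _)) (tmul_NFQ π (opS_NF π _ hm) _)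

theorem pp_NFQ {n : ℤ} {t : NQ π} (ht : t ∈ NFQ π n) : pp π t ∈ NFQ π n :=
  NFQ_map π _ (fun m u hm => tmul_NFQ π (p1_NF hm) _) ht

/-- `R'' ⊗ End Q`, filtration by the degree of the first factor -/
def LE (n : ℤ) : Submodule K (A2 π) :=
  Submodule.span K {t | ∃ (P A C : ℤ) (z : R π) (T : Module.End K (Q π)), C ≤ n ∧ z ∈ pcZ π P A C ∧
    t = z ⊗ₜ T}

theorem tmul_LE {P A C n : ℤ} {z : R π} (hz : z ∈ pcZ π P A C) (h : C ≤ n)
    (T : Module.End K (Q π)) : z ⊗ₜ T ∈ LE π n :=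
  Submodule.subset_span ⟨P, A, C, z, T, h, hz, rfl⟩

theorem LE_mul {n n' : ℤ} {a b : A2 π} (ha : a ∈ LE π n) (hb : b ∈ LE π n') :
    a * b ∈ LE π (n + n') := by
  have h : LE π n * LE π n' ≤ LE π (n + n') := by
    rw [LE, LE, Submodule.span_mul_span]
    refine Submodule.span_le.2 ?_
    rintro _ ⟨_, ⟨P, A, C, z, T, h1, h2, rfl⟩, _, ⟨P', A', C', z', T', h1', h2', rfl⟩, rfl⟩
    show z ⊗ₜ T * z' ⊗ₜ T' ∈ LE π (n + n')
    rw [Algebra.TensorProduct.tmul_mul_tmul]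
    exact tmul_LE π (pcZ_mul π h2 h2') (by omega) _
  exact h (Submodule.mul_mem_mul ha hb)

theorem X_pcZ (a : Gen) : X π a ∈ pcZ π a.dP a.dA a.dC := by
  rw [pcZ_nat]; exact X_mem_pc π a

theorem hR_pcZ (s : Fin 2) : Cells221.hR π s ∈ pcZ π 0 ((1 + s.val : ℕ) : ℤ) ((0 : ℕ) : ℤ) := by
  rw [pcZ_nat]; exact Cells221.hR_mem π s

theorem tR_pcZ : Cells221.tR π ∈ pcZ π 0 ((1 : ℕ) : ℤ) ((0 : ℕ) : ℤ) := by
  rw [pcZ_nat]; exact Cells221.tR_mem π

theorem dl_LE (a : Gen) : VQ735.dl π a ∈ LE π a.dC := by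
  cases a with
  | u s =>
    exact Submodule.add_mem _ (tmul_LE π (X_pcZ π (.u s)) le_rfl _)
      (tmul_LE π (hR_pcZ π s) (Int.natCast_nonneg _) _)
  | v s =>
    exact Submodule.add_mem _ (tmul_LE π (X_pcZ π (.v s)) le_rfl _)
      (tmul_LE π (pcZ_mul π (hR_pcZ π s) (tR_pcZ π)) (by push_cast; exact Int.natCast_nonneg _) _)
  | y s => exact Submodule.zero_mem _
  | yb s => exact Submodule.zero_mem _
  | _ => exact tmul_LE π (X_pcZ π _) le_rfl _

theorem Dl_LE {P A C : ℤ} {r : R π} (hr : r ∈ pcZ π P A C) : Dl π r ∈ LE π C := by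
  rcases pcZ_cases π hr with rfl | ⟨A1, C1, rfl, rfl, h1⟩
  · rw [map_zero]; exact Submodule.zero_mem _
  · have h : pc π P A1 C1 ≤ (LE π C1).comap (Dl π).toLinearMap := by
      rw [pc, Submodule.span_le]
      rintro _ ⟨w, h4, h5, h3, rfl⟩
      show Dl π (wd π w) ∈ LE π C1
      rw [← h3]
      clear h3 h4 h5 h1 hr
      induction w with
      | nil =>
        rw [show wd π [] = 1 from rfl, map_one]
        exact tmul_LE π (pcZ_one π) (by simp [wC]) 1
      | cons a w ih =>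
        have e1 : wd π (a :: w) = X π a * wd π w := by simp [wd]
        rw [e1, map_mul, VQ735.Dl_X]
        have := LE_mul π (dl_LE π a) ih
        have e2 : ((wC (a :: w) : ℕ) : ℤ) = a.dC + wC w := by simp [wC]
        rw [e2]
        exact this
    exact h h1

theorem act_LE {n n' : ℤ} {a : A2 π} (ha : a ∈ LE π n') {t : NQ π} (ht : t ∈ NFQ π n) :
    act2 π a t ∈ NFQ π (n + n') := by
  have h : LE π n' ≤ (NFQ π (n + n')).comap ((LinearMap.applyₗ t) ∘ₗ (act2 π).toLinearMap) := by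
    refine Submodule.span_le.2 ?_
    rintro _ ⟨P, A, C, z, T, h1, h2, rfl⟩
    show act2 π (z ⊗ₜ T) t ∈ NFQ π (n + n')
    refine NFQ_map π _ (fun m u hm => ?_) ht
    rw [act2_tmul]
    exact tmul_NFQ π (NF_mono (by omega) (act_NF π h2 hm)) _
  exact h ha

/-- degrees of the cell matrix -/
theorem c0_mem (c c' : Cell) : c0 π c c' ∈ pcZ π (cP c - cP c') (cAd c - cAd c')
    ((cdeg c : ℤ) - cdeg c' - 1) := by
  rcases c with _ | l
  · exact Submodule.zero_mem _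
  · rcases c' with _ | l'
    · have h := X_pcZ π l.toGen
      show X π l.toGen ∈ _
      rw [VQ735.cP_some, VQ735.cdeg_some]
      simp only [cAd, cP, cdeg]
      rw [show l.toGen.dP - 0 = l.toGen.dP by ring,
        show ((l.toGen.dA : ℕ) : ℤ) - ((0 : ℕ) : ℤ) = l.toGen.dA by push_cast; ring,
        show (((l.toGen.dC + 1 : ℕ) : ℕ) : ℤ) - ((0 : ℕ) : ℤ) - 1 = l.toGen.dC by push_cast; ring]
      exact h
    · show Cells221.cf π l l' ∈ _
      rcases Cells221.cf_mem π l l' with h | ⟨A, C, hA, hC, h⟩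
      · rw [h]; exact Submodule.zero_mem _
      · rw [← pcZ_nat] at h
        rw [VQ735.cP_some, VQ735.cP_some, VQ735.cdeg_some, VQ735.cdeg_some]
        simp only [cAd]
        rw [show (((l.toGen.dA : ℕ) : ℤ)) - ((l'.toGen.dA : ℕ) : ℤ) = A by rw [hA]; push_cast; ring,
          show (((l.toGen.dC + 1 : ℕ) : ℕ) : ℤ) - ((l'.toGen.dC + 1 : ℕ) : ℤ) - 1 = C by
            rw [hC]; push_cast; ring]
        exact h

theorem actc_NFQ (c c' : Cell) {n : ℤ} {t : NQ π} (ht : t ∈ NFQ π (cdeg c' - n)) :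
    act2 π (Dl π (c0 π c c')) t ∈ NFQ π (cdeg c - (n + 1)) := by
  have := act_LE π (Dl_LE π (c0_mem π c c')) ht
  rwa [show (cdeg c' : ℤ) - n + ((cdeg c : ℤ) - cdeg c' - 1) = cdeg c - (n + 1) by ring] at this

end Crest.Agent.R186.C2M307
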