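import Crest.Agent.R186.SMb_890
import Crest.Agent.R186.WinR_810

/-!
Row 186, half (A) (helper890), part 5: the strict tri-graded dg algebra `S = R'' (+) M`,
`M = (R'' (x)_W DW) kappa`, `kappa : (P, A, C) = (-1, 0, s)`, as `TrivSqZeroExt (R π) (MM π)`, and
its window data `WS π s : Win810.WD K` (`2 ≤ s`).
-/

set_option autoImplicit false
set_option linter.unusedSimpArgs false

noncomputable section

namespace Crest.Agent.R186.SM890

open DefsQ830 DefsQ830.Gen PBW128 Win810

variable {K : Type} [Field K]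

/-- the bimodule `M_0` -/
def MM (_π : Par K) : Type := N K

instance (π : Par K) : AddCommGroup (MM π) := inferInstanceAs (AddCommGroup (N K))
instance (π : Par K) : Module K (MM π) := inferInstanceAs (Module K (N K))

instance instL (π : Par K) : Module (R π) (MM π) where
  smul r m := repM π r m
  one_smul m := by
    show repM π 1 m = m
    rw [map_one]; rfl
  mul_smul r s m := by
    show repM π (r * s) m = repM π r (repM π s m)
    rw [repM_repM]
  smul_zero r := map_zero (repM π r)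
  smul_add r m n := map_add (repM π r) m n
  add_smul r s m := by
    show repM π (r + s) m = repM π r m + repM π s m
    rw [map_add]; rfl
  zero_smul m := by
    show repM π 0 m = 0
    rw [map_zero]; rfl

instance instR (π : Par K) : Module (R π)ᵐᵒᵖ (MM π) where
  smul r m := rho π r.unop m
  one_smul m := rho_one π m
  mul_smul r s m := rho_mul π s.unop r.unop m
  smul_zero r := map_zero (rho π r.unop)
  smul_add r m n := map_add (rho π r.unop) m n
  add_smul r s m := by
    show rho π (r.unop + s.unop) m = rho π r.unop m + rho π s.unop m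
    rw [map_add]; rfl
  zero_smul m := by
    show rho π 0 m = 0
    rw [map_zero]; rfl

theorem smul_def (π : Par K) (r : R π) (m : MM π) : r • m = repM π r m := rfl
theorem op_smul_def (π : Par K) (r : R π) (m : MM π) : MulOpposite.op r • m = rho π r m := rfl

instance (π : Par K) : SMulCommClass (R π) (R π)ᵐᵒᵖ (MM π) where
  smul_comm r s m := rho_comm π s.unop r m

instance (π : Par K) : IsScalarTower K (R π) (MM π) where
  smul_assoc c r m := by
    show repM π (c • r) m = c • repM π r m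
    rw [map_smul]; rfl

instance (π : Par K) : IsScalarTower K (R π)ᵐᵒᵖ (MM π) where
  smul_assoc c r m := by
    show rho π (c • r.unop) m = c • rho π r.unop m
    rw [map_smul]; rfl

/-- **the algebra `S = R'' (+) M`** -/
abbrev SA (π : Par K) : Type := TrivSqZeroExt (R π) (MM π)

theorem MM_two (π : Par K) (m : MM π) : m + m = 0 := by
  have h1 : m + m = (2 : K) • m := by rw [two_smul]
  rw [h1, π.two, zero_smul]

/-- the differential of `M` -/
def dMM (π : Par K) : MM π →ₗ[K] MM π := dM π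

/-- the differential of `S` -/
def DS (π : Par K) : SA π →ₗ[K] SA π where
  toFun x := (Der580.D π x.fst, dMM π x.snd)
  map_add' x y := by
    apply TrivSqZeroExt.ext
    · exact map_add (Der580.D π) _ _
    · exact map_add (dMM π) _ _
  map_smul' c x := by
    apply TrivSqZeroExt.ext
    · exact map_smul (Der580.D π) _ _
    · exact map_smul (dMM π) _ _

theorem DS_fst (π : Par K) (x : SA π) : (DS π x).fst = Der580.D π x.fst := rfl
theorem DS_snd (π : Par K) (x : SA π) : (DS π x).snd = dMM π x.snd := rfl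

theorem dMM_left (π : Par K) (r : R π) (m : MM π) :
    dMM π (r • m) = Der580.D π r • m + r • dMM π m := dM_left π r m

theorem dMM_right (π : Par K) (r : R π) (m : MM π) :
    dMM π (MulOpposite.op r • m) = MulOpposite.op r • dMM π m + MulOpposite.op (Der580.D π r) • m :=
  dM_right π r m

theorem DS_mul (π : Par K) (x y : SA π) : DS π (x * y) = DS π x * y + x * DS π y := by
  apply TrivSqZeroExt.ext
  · rw [DS_fst, TrivSqZeroExt.fst_mul, Der580.D_mul, TrivSqZeroExt.fst_add,
      TrivSqZeroExt.fst_mul, TrivSqZeroExt.fst_mul, DS_fst, DS_fst]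
  · rw [DS_snd, TrivSqZeroExt.snd_mul, map_add, dMM_left, dMM_right, TrivSqZeroExt.snd_add,
      TrivSqZeroExt.snd_mul, TrivSqZeroExt.snd_mul, DS_fst, DS_fst, DS_snd, DS_snd]
    abel

theorem DS_DS (π : Par K) (x : SA π) : DS π (DS π x) = 0 := by
  apply TrivSqZeroExt.ext
  · exact Der580.D_D π _
  · exact dM_dM π _

/-! ### degrees -/

theorem tau_wd (π : Par K) (t : Tor K) (w : List Gen) :
    tau π t (wd π w) = (w.map (tw t)).prod • wd π w := by
  induction w with
  | nil => simp [wd]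
  | cons a w ih =>
    have e : wd π (a :: w) = X π a * wd π w := by simp [wd]
    rw [e, map_mul, ih, tau_X, smul_mul_assoc, mul_smul_comm, smul_smul, List.map_cons,
      List.prod_cons]

theorem tau_pc (π : Par K) (t : Tor K) {P : ℤ} {A C : ℕ} {r : R π} (hr : r ∈ pc π P A C) :
    tau π t r ∈ pc π P A C := by
  have h : pc π P A C ≤ (pc π P A C).comap (tau π t).toLinearMap := by
    apply Submodule.span_le.2
    rintro a ⟨w, h1, h2, h3, rfl⟩
    show tau π t (wd π w) ∈ pc π P A C
    rw [tau_wd]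
    exact Submodule.smul_mem _ _ (Submodule.subset_span ⟨w, h1, h2, h3, rfl⟩)
  exact h hr

theorem tau_pcZ (π : Par K) (t : Tor K) {P A C : ℤ} {r : R π} (hr : r ∈ pcZ π P A C) :
    tau π t r ∈ pcZ π P A C := by
  rcases pcZ_cases π hr with rfl | ⟨A1, C1, rfl, rfl, h⟩
  · rw [map_zero]; exact Submodule.zero_mem _
  · rw [pcZ_nat]
    exact tau_pc π t h

theorem pcZ_big (π : Par K) {P A C : ℤ} (h : 2 * A + 2 < C) : pcZ π P A C = ⊥ := by
  by_cases h1 : 0 ≤ A ∧ 0 ≤ C
  · rw [pcZ_of π h1]
    apply pc_big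
    omega
  · exact pcZ_neg π (by omega)

/-- `s ↦ s · o_q` -/
def oM (π : Par K) (q : Wb) : R π →ₗ[K] MM π := evM π (oo K q)

theorem oM_apply (π : Par K) (q : Wb) (r : R π) : oM π q r = repM π r (oo K q) := rfl

theorem smul_oM (π : Par K) (q : Wb) (r t : R π) : r • oM π q t = oM π q (r * t) :=
  repM_repM π r t _

theorem op_smul_oM (π : Par K) (q : Wb) (r t : R π) :
    MulOpposite.op r • oM π q t = oM π q (t * tau π (Tq π q) r) := rho_repM π t r q

theorem dMM_oM (π : Par K) (q : Wb) (t : R π) : dMM π (oM π q t) = oM π q (Der580.D π t) :=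
  dM_repM π t q

/-- pieces of `M`, `kappa` of degree `(-1, 0, s)` -/
def pcM (π : Par K) (s : ℕ) (P A C : ℤ) : Submodule K (MM π) :=
  ⨆ q : Wb, (pcZ π (P + 1) A (C - s + wC q.word)).map (oM π q)

theorem mem_pcM (π : Par K) (s : ℕ) {P A C C' : ℤ} {t : R π} (q : Wb) (ht : t ∈ pcZ π (P + 1) A C')
    (hC : C' = C - s + wC q.word) : oM π q t ∈ pcM π s P A C := by
  subst hC
  exact Submodule.mem_iSup_of_mem q (Submodule.mem_map_of_mem ht)

theorem pcM_ind (π : Par K) (s : ℕ) {P A C : ℤ} {Q : Submodule K (MM π)}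
    (h : ∀ (q : Wb) (t : R π), t ∈ pcZ π (P + 1) A (C - s + wC q.word) → oM π q t ∈ Q) :
    pcM π s P A C ≤ Q := by
  refine iSup_le fun q => ?_
  rintro _ ⟨t, ht, rfl⟩
  exact h q t ht

theorem pcM_left (π : Par K) (s : ℕ) {P A C P' A' C' : ℤ} {r : R π} {m : MM π}
    (hr : r ∈ pcZ π P A C) (hm : m ∈ pcM π s P' A' C') :
    r • m ∈ pcM π s (P + P') (A + A') (C + C') := by
  have h : pcM π s P' A' C' ≤ (pcM π s (P + P') (A + A') (C + C')).comap
      ((Module.toModuleEnd K (S := R π) (MM π)) r) := by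
    apply pcM_ind
    intro q t ht
    show r • oM π q t ∈ pcM π s (P + P') (A + A') (C + C')
    rw [smul_oM]
    refine mem_pcM π s q (C' := C + (C' - s + wC q.word)) ?_ (by ring)
    have := pcZ_mul π hr ht
    rwa [show P + (P' + 1) = P + P' + 1 by ring] at this
  exact h hm

theorem pcM_right (π : Par K) (s : ℕ) {P A C P' A' C' : ℤ} {r : R π} {m : MM π}
    (hm : m ∈ pcM π s P A C) (hr : r ∈ pcZ π P' A' C') :
    MulOpposite.op r • m ∈ pcM π s (P + P') (A + A') (C + C') := by
  have h : pcM π s P A C ≤ (pcM π s (P + P') (A + A') (C + C')).comap (rho π r) := by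
    apply pcM_ind
    intro q t ht
    show MulOpposite.op r • oM π q t ∈ pcM π s (P + P') (A + A') (C + C')
    rw [op_smul_oM]
    refine mem_pcM π s q (C' := C - s + wC q.word + C') ?_ (by ring)
    have := pcZ_mul π ht (tau_pcZ π (Tq π q) hr)
    rwa [show P + 1 + P' = P + P' + 1 by ring] at this
  exact h hm

theorem pcM_D (π : Par K) (s : ℕ) {P A C : ℤ} {m : MM π} (hm : m ∈ pcM π s P A C) :
    dMM π m ∈ pcM π s P A (C - 1) := by
  have h : pcM π s P A C ≤ (pcM π s P A (C - 1)).comap (dMM π) := by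
    apply pcM_ind
    intro q t ht
    show dMM π (oM π q t) ∈ pcM π s P A (C - 1)
    rw [dMM_oM]
    exact mem_pcM π s q (pcZ_D π ht) (by ring)
  exact h hm

theorem pcM_bot (π : Par K) (s : ℕ) {P A C : ℤ}
    (h : ∀ q : Wb, pcZ π (P + 1) A (C - s + wC q.word) = ⊥) : pcM π s P A C = ⊥ := by
  rw [eq_bot_iff]
  apply pcM_ind
  intro q t ht
  rw [h q] at ht
  rw [(Submodule.mem_bot K).1 ht, map_zero]
  exact Submodule.zero_mem _

instance finM (π : Par K) (s : ℕ) (P A C : ℤ) : Module.Finite K (pcM π s P A C) := by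
  unfold pcM
  infer_instance

/-- pieces of `S` -/
def pcS (π : Par K) (s : ℕ) (P A C : ℤ) : Submodule K (SA π) where
  carrier := {x | x.fst ∈ pcZ π P A C ∧ x.snd ∈ pcM π s P A C}
  add_mem' := by
    rintro x y ⟨h1, h2⟩ ⟨h3, h4⟩
    exact ⟨Submodule.add_mem _ h1 h3, Submodule.add_mem _ h2 h4⟩
  zero_mem' := ⟨Submodule.zero_mem _, Submodule.zero_mem _⟩
  smul_mem' := by
    rintro c x ⟨h1, h2⟩
    exact ⟨Submodule.smul_mem _ c h1, Submodule.smul_mem _ c h2⟩

theorem mem_pcS (π : Par K) (s : ℕ) {P A C : ℤ} {x : SA π} :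
    x ∈ pcS π s P A C ↔ x.fst ∈ pcZ π P A C ∧ x.snd ∈ pcM π s P A C := Iff.rfl

theorem inl_mem (π : Par K) (s : ℕ) {P A C : ℤ} {r : R π} (h : r ∈ pcZ π P A C) :
    (TrivSqZeroExt.inl r : SA π) ∈ pcS π s P A C := ⟨h, Submodule.zero_mem _⟩

theorem inr_mem (π : Par K) (s : ℕ) {P A C : ℤ} {m : MM π} (h : m ∈ pcM π s P A C) :
    (TrivSqZeroExt.inr m : SA π) ∈ pcS π s P A C := ⟨Submodule.zero_mem _, h⟩

theorem pcS_mul (π : Par K) (s : ℕ) {P A C P' A' C' : ℤ} {x y : SA π} (hx : x ∈ pcS π s P A C)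
    (hy : y ∈ pcS π s P' A' C') : x * y ∈ pcS π s (P + P') (A + A') (C + C') := by
  refine ⟨?_, ?_⟩
  · rw [TrivSqZeroExt.fst_mul]
    exact pcZ_mul π hx.1 hy.1
  · rw [TrivSqZeroExt.snd_mul]
    exact Submodule.add_mem _ (pcM_left π s hx.1 hy.2) (pcM_right π s hx.2 hy.1)

theorem pcS_bot (π : Par K) (s : ℕ) {P A C : ℤ} (h1 : pcZ π P A C = ⊥) (h2 : pcM π s P A C = ⊥) :
    pcS π s P A C = ⊥ := by
  rw [eq_bot_iff]
  rintro x ⟨hx, hy⟩
  rw [h1] at hx
  rw [h2] at hy
  rw [Submodule.mem_bot]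
  exact TrivSqZeroExt.ext ((Submodule.mem_bot K).1 hx) ((Submodule.mem_bot K).1 hy)

/-- `K`-linear inclusions -/
def inlK (π : Par K) : R π →ₗ[K] SA π where
  toFun r := TrivSqZeroExt.inl r
  map_add' a b := TrivSqZeroExt.inl_add _ a b
  map_smul' c a := TrivSqZeroExt.inl_smul _ c a

def inrK (π : Par K) : MM π →ₗ[K] SA π where
  toFun m := TrivSqZeroExt.inr m
  map_add' a b := TrivSqZeroExt.inr_add _ a b
  map_smul' c a := TrivSqZeroExt.inr_smul _ c a

theorem pcS_eq (π : Par K) (s : ℕ) (P A C : ℤ) :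
    pcS π s P A C = (pcZ π P A C).map (inlK π) ⊔ (pcM π s P A C).map (inrK π) := by
  apply le_antisymm
  · rintro x ⟨h1, h2⟩
    have : x = inlK π x.fst + inrK π x.snd := (TrivSqZeroExt.inl_fst_add_inr_snd_eq x).symm
    rw [this]
    exact Submodule.add_mem_sup (Submodule.mem_map_of_mem h1) (Submodule.mem_map_of_mem h2)
  · apply sup_le
    · rintro _ ⟨r, hr, rfl⟩
      exact inl_mem π s hr
    · rintro _ ⟨m, hm, rfl⟩
      exact inr_mem π s hm

instance finS (π : Par K) (s : ℕ) (P A C : ℤ) : Module.Finite K (pcS π s P A C) := by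
  rw [pcS_eq]
  infer_instance

/-- **window data of `S = R'' (+) M`**, `kappa` in degree `-s`, `2 ≤ s` -/
def WS (π : Par K) (s : ℕ) (hs : 2 ≤ s) : WD K where
  S := SA π
  two x := TrivSqZeroExt.ext (Der580.add_self π _) (MM_two π _)
  pc := pcS π s
  one_mem := ⟨pcZ_one π, Submodule.zero_mem _⟩
  mul_mem := pcS_mul π s
  D := DS π
  D_mul := DS_mul π
  D_D := DS_DS π
  D_mem h := ⟨pcZ_D π h.1, pcM_D π s h.2⟩
  Ob := DefsQ830.Ob
  P o := (o.1.val : ℤ)
  A o := (o.2.val : ℤ)
  N := 8 + s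
  neg i j C hC := by
    apply pcS_bot
    · exact pcZ_neg π (Or.inr hC)
    · apply pcM_bot
      intro q
      have := wC_word_le q
      exact pcZ_neg π (Or.inr (by omega))
  big i j C hC := by
    have hi := i.2.2
    have hj := j.2.2
    push_cast at hC
    apply pcS_bot
    · apply pcZ_big
      omega
    · apply pcM_bot
      intro q
      apply pcZ_big
      omega
  fin i j C := inferInstance

/-- the strict dg algebra `Gamma` -/
def Gam (π : Par K) (s : ℕ) (hs : 2 ≤ s) : Hat827.DGA K := (WS π s hs).dga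

end Crest.Agent.R186.SM890
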