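import Crest.Agent.R186.KosQ_307
import Crest.Agent.R186.SM_890

/-!
# Row 186, half (A), leaf (c2) (helper307), part 2: the homotopy on `M ⊗ Q`

`N K ⊗ Q`, `N K` = 890's model of `M = R'' ⊗_W DW` (`bv i j k w q = x^i x'^j h^k w · o_q`).
`tht` = action of `θ = Σ y_g ⊗ m_g`, `hh = Σ opS g ⊗ dQ g`, `tht hh + hh tht + pp = 1`.
-/

set_option autoImplicit false

noncomputable section

namespace Crest.Agent.R186.C2M307

open Crest.Agent.R186.DefsQ830 Crest.Agent.R186.PBW128 Crest.Agent.R186.SM890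
open Crest.Agent.R186.Loc261 (Lt li rel Qc Qg)
open Crest.Agent.R186.VQ735 (lp MQ SC SC_apply MQ_apply dg Bt bq qd HT coef A2 th yl Q)
open Crest.Agent.R186.KosQ307 (dq eps tot_dq dq_ne dq_xx dq_xx' dq_xa dq_xb dq_sc dq_mem dq_one
  eps_one eps_mul eps_sc eps_Qc sum4)
open TensorProduct

variable {K : Type} [Field K] (π : Par K)

/-! ### operators on `Q` -/

/-- twisted first letter quotient -/
def dQ (g : Lt) : Module.End K (Q π) :=
  SC π (fun l => ((lp π).chi l g)⁻¹) * dq (lp π) g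

theorem dQ_apply (g : Lt) (u : Q π) :
    dQ π g u = Loc261.sc (lp π) (fun l => ((lp π).chi l g)⁻¹) (dq (lp π) g u) := rfl

/-- the constant term -/
def EP : Module.End K (Q π) := (LinearMap.toSpanSingleton K (Q π) 1) ∘ₗ (eps (lp π))

theorem EP_apply (u : Q π) : EP π u = eps (lp π) u • (1 : Q π) := rfl

theorem sc_inv (s : Lt → K) (hs : ∀ l, s l ≠ 0) (u : Q π) :
    Loc261.sc (lp π) s (Loc261.sc (lp π) (fun l => (s l)⁻¹) u) = u := by
  rw [Loc261.sc_sc]
  have h : (fun l => s l * (s l)⁻¹) = fun _ => (1 : K) := by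
    funext l; exact mul_inv_cancel₀ (hs l)
  rw [h]
  have := LinearMap.congr_fun (VQ735.SC_one π) u
  exact this

theorem sc_inv' (s : Lt → K) (hs : ∀ l, s l ≠ 0) (u : Q π) :
    Loc261.sc (lp π) (fun l => (s l)⁻¹) (Loc261.sc (lp π) s u) = u := by
  rw [Loc261.sc_comm]
  exact sc_inv π s hs u

theorem MQ_dQ (g : Lt) (u : Q π) : MQ π g (dQ π g u) = li (lp π) g * dq (lp π) g u := by
  rw [MQ_apply, dQ_apply, sc_inv π _ (fun l => (lp π).chi_ne l g)]

theorem sum_MQ_dQ (u : Q π) : ∑ g, MQ π g (dQ π g u) = u - EP π u := by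
  simp only [MQ_dQ, tot_dq, EP_apply]

theorem dQ_MQ_ne {l : Lt} (hl : l ≠ .x) (g : Lt) (u : Q π) :
    dQ π g (MQ π l u) = if l = g then u else 0 := by
  rw [dQ_apply, MQ_apply, dq_ne (lp π) hl]
  by_cases h : l = g
  · subst h
    rw [if_pos rfl, if_pos rfl, sc_inv' π _ (fun l' => (lp π).chi_ne l' l)]
  · rw [if_neg h, if_neg h, map_zero]

theorem dQ_MQ_xx (u : Q π) : dQ π .x (MQ π .x u) = u - MQ π .x' (dQ π .x' u) := by
  rw [MQ_dQ, dQ_apply, MQ_apply, dq_xx, map_sub, sc_inv' π _ (fun l' => (lp π).chi_ne l' .x),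
    map_mul, Loc261.sc_li, dq_sc, map_smul, sc_inv' π _ (fun l' => (lp π).chi_ne l' .x),
    smul_mul_smul_comm, inv_mul_cancel₀ ((lp π).chi_ne .x' .x), one_smul]

theorem dQ_MQ_xx' (u : Q π) : dQ π .x' (MQ π .x u) = π.p • MQ π .x (dQ π .x' u) := by
  rw [MQ_apply, MQ_apply, dQ_apply, dQ_apply, dq_xx', dq_sc, mul_smul_comm, map_smul, map_smul,
    map_mul, Loc261.sc_li, Loc261.sc_comm, smul_mul_assoc, smul_smul, smul_smul]
  congr 1
  have p0 := π.p0
  have e1 : (lp π).p = π.p := rfl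
  rw [Loc261.Par.chi_x_x', Loc261.Par.chi_x'_x, e1]
  field_simp

theorem dQ_MQ_xa (u : Q π) : dQ π .a (MQ π .x u) = 0 := by
  rw [MQ_apply, dQ_apply, dq_xa, map_zero]

theorem dQ_MQ_xb (u : Q π) : dQ π .b (MQ π .x u) = 0 := by
  rw [MQ_apply, dQ_apply, dq_xb, map_zero]

theorem EP_MQ (g : Lt) (u : Q π) : EP π (MQ π g u) = 0 := by
  rw [EP_apply, MQ_apply, eps_mul, zero_smul]

theorem dQ_EP (g : Lt) (u : Q π) : dQ π g (EP π u) = 0 := by
  rw [EP_apply, map_smul, dQ_apply, dq_one, map_zero, smul_zero]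

/-! ### operators on `M` -/

/-- the letter of `W` -/
def yy : Lt → Y
  | .x => .y 0
  | .a => .yb 0
  | .x' => .y 1
  | .b => .yb 1

theorem yl_eq (g : Lt) : yl π g = X π (yy g).toGen := by cases g <;> rfl

/-- target of the inverse of `y_g` -/
def st : Lt → Wb → Wb
  | g, .one => yw (yy g)
  | .x', .y 0 => .pi
  | _, _ => .one

/-- coefficient of the inverse of `y_g` -/
def sk (K : Type) [Field K] : Lt → Wb → K
  | _, .one => 1
  | .x', .y 0 => 1
  | _, _ => 0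

theorem ch_ne0 (a : Y) : Par.ch π a ≠ 0 := by
  cases a with
  | y s => exact π.p0
  | yb s =>
    show (if s = 0 then π.q1 else π.q2) ≠ 0
    split_ifs
    · exact π.q10
    · exact π.q20

theorem sg_ne0 {c : K} (hc : c ≠ 0) (s : Fin 2) : sg c s ≠ 0 := by
  unfold sg
  split_ifs
  · exact hc
  · exact inv_ne_zero hc

theorem chi_ne0 (a : Y) (l : E) : chi π a l ≠ 0 := by
  cases l with
  | d j => exact VQ735.c_ne π j
  | f => exact one_ne_zero
  | z j => exact VQ735.cz_ne π j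
  | zc => exact one_ne_zero
  | u t => exact sg_ne0 (ch_ne0 π a) t
  | e j => exact VQ735.c_ne π j
  | gj j => exact VQ735.cz_ne π j
  | gc => exact one_ne_zero
  | v t => exact sg_ne0 (ch_ne0 π a) t

theorem scn (a : Y) (i j : ℕ) (w : List E) : sc π a i j w ≠ 0 := by
  unfold sc
  refine mul_ne_zero (mul_ne_zero (pow_ne_zero _ (inv_ne_zero (VQ735.c_ne π 0)))
    (pow_ne_zero _ (inv_ne_zero (VQ735.c_ne π 1)))) ?_
  refine List.prod_ne_zero ?_
  intro h
  obtain ⟨l, _, h⟩ := List.mem_map.1 h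
  exact chi_ne0 π a l h

/-- the inverse of `y_g` -/
def opS (g : Lt) : N K →ₗ[K] N K :=
  Finsupp.linearCombination K (fun ν : Ix =>
    ((sc π (yy g) ν.1 ν.2.1 ν.2.2.2.1)⁻¹ * sk K g ν.2.2.2.2) •
      bv K ν.1 ν.2.1 ν.2.2.1 ν.2.2.2.1 (st g ν.2.2.2.2))

@[simp] theorem opS_bv (g : Lt) (i j k : ℕ) (w : List E) (q : Wb) :
    opS π g (bv K i j k w q) = ((sc π (yy g) i j w)⁻¹ * sk K g q) • bv K i j k w (st g q) := by
  simp [opS, bv]

/-- the `o_1`-part -/
def p1 : N K →ₗ[K] N K :=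
  Finsupp.linearCombination K (fun ν : Ix =>
    if ν.2.2.2.2 = .one then bv K ν.1 ν.2.1 ν.2.2.1 ν.2.2.2.1 .one else 0)

@[simp] theorem p1_bv (i j k : ℕ) (w : List E) (q : Wb) :
    (p1 : N K →ₗ[K] N K) (bv K i j k w q) = if q = .one then bv K i j k w .one else 0 := by
  simp [p1, bv]

/-- the space -/
abbrev NQ : Type := N K ⊗[K] Q π

/-- `θ` -/
def tht : NQ π →ₗ[K] NQ π := ∑ g, TensorProduct.map (opD π (yy g)) (MQ π g)

/-- the homotopy -/
def hh : NQ π →ₗ[K] NQ π := ∑ g, TensorProduct.map (opS π g) (dQ π g)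

/-- the projection -/
def pp : NQ π →ₗ[K] NQ π := TensorProduct.map p1 (EP π)

theorem tht_tmul (m : N K) (u : Q π) : tht π (m ⊗ₜ u) = opD π (.y 0) m ⊗ₜ MQ π .x u
    + opD π (.yb 0) m ⊗ₜ MQ π .a u + opD π (.y 1) m ⊗ₜ MQ π .x' u
    + opD π (.yb 1) m ⊗ₜ MQ π .b u := by
  rw [tht, LinearMap.sum_apply, sum4]
  rfl

theorem hh_tmul (m : N K) (u : Q π) : hh π (m ⊗ₜ u) = opS π .x m ⊗ₜ dQ π .x u
    + opS π .a m ⊗ₜ dQ π .a u + opS π .x' m ⊗ₜ dQ π .x' u + opS π .b m ⊗ₜ dQ π .b u := by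
  rw [hh, LinearMap.sum_apply, sum4]
  rfl

theorem self (t : NQ π) : t + t = 0 := by
  rw [← two_smul K, π.two, zero_smul]

theorem hom_one (i j k : ℕ) (w : List E) (u : Q π) :
    tht π (hh π (bv K i j k w .one ⊗ₜ u)) + hh π (tht π (bv K i j k w .one ⊗ₜ u))
      + pp π (bv K i j k w .one ⊗ₜ u) = bv K i j k w .one ⊗ₜ u := by
  have h := sum_MQ_dQ π u
  rw [sum4] at h
  have h10 : (1 : Fin 2) ≠ 0 := by decide
  have h01 : (0 : Fin 2) ≠ 1 := by decide
  have s0 := scn π (.y 0) i j w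
  have s1 := scn π (.y 1) i j w
  have s2 := scn π (.yb 0) i j w
  have s3 := scn π (.yb 1) i j w
  rw [hh_tmul, tht_tmul, pp, TensorProduct.map_tmul, p1_bv, if_pos rfl]
  simp only [opS_bv, opD_bv, map_smul, map_add, tht_tmul, sk, st, yy, yw, dk, dt, mul_one,
    mul_zero, zero_smul, TensorProduct.zero_tmul, TensorProduct.smul_tmul', smul_smul, add_zero,
    zero_add, if_true, h10, h01, if_false, smul_zero, map_zero, inv_mul_cancel₀ s0,
    inv_mul_cancel₀ s1, inv_mul_cancel₀ s2, inv_mul_cancel₀ s3, one_smul, smul_add]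
  rw [← TensorProduct.tmul_add, ← TensorProduct.tmul_add, ← TensorProduct.tmul_add, h,
    ← TensorProduct.tmul_add, sub_add_cancel]

theorem dQa (u : Q π) (g : Lt) : dQ π g (MQ π .a u) = if Lt.a = g then u else 0 :=
  dQ_MQ_ne π (by decide) g u
theorem dQb (u : Q π) (g : Lt) : dQ π g (MQ π .b u) = if Lt.b = g then u else 0 :=
  dQ_MQ_ne π (by decide) g u
theorem dQx' (u : Q π) (g : Lt) : dQ π g (MQ π .x' u) = if Lt.x' = g then u else 0 :=
  dQ_MQ_ne π (by decide) g u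

theorem hom_ne (i j k : ℕ) (w : List E) (u : Q π) (q : Wb) (hq : q ≠ .one) (hx : q ≠ .y 0) :
    tht π (hh π (bv K i j k w q ⊗ₜ u)) + hh π (tht π (bv K i j k w q ⊗ₜ u))
      + pp π (bv K i j k w q ⊗ₜ u) = bv K i j k w q ⊗ₜ u := by
  have h10 : (1 : Fin 2) ≠ 0 := by decide
  have h01 : (0 : Fin 2) ≠ 1 := by decide
  have s0 := scn π (.y 0) i j w
  have s1 := scn π (.y 1) i j w
  have s2 := scn π (.yb 0) i j w
  have s3 := scn π (.yb 1) i j w
  rcases q with _ | s | s | _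
  · exact absurd rfl hq
  · rcases fin2 s with rfl | rfl
    · exact absurd rfl hx
    · rw [hh_tmul, tht_tmul, pp, TensorProduct.map_tmul, p1_bv, if_neg hq]
      simp [hh_tmul, sk, st, yy, yw, dk, dt, dQx', TensorProduct.smul_tmul', smul_smul, s1, h10, h01]
  · rcases fin2 s with rfl | rfl
    · rw [hh_tmul, tht_tmul, pp, TensorProduct.map_tmul, p1_bv, if_neg hq]
      simp [hh_tmul, sk, st, yy, yw, dk, dt, dQa, TensorProduct.smul_tmul', smul_smul, s2, h10, h01]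
    · rw [hh_tmul, tht_tmul, pp, TensorProduct.map_tmul, p1_bv, if_neg hq]
      simp [hh_tmul, sk, st, yy, yw, dk, dt, dQb, TensorProduct.smul_tmul', smul_smul, s3, h10, h01]
  · rw [hh_tmul, tht_tmul, pp, TensorProduct.map_tmul, p1_bv, if_neg hq]
    simp [hh_tmul, sk, st, yy, yw, dk, dt, dQx', TensorProduct.smul_tmul', smul_smul, s1, h10, h01]

theorem hom_x (i j k : ℕ) (w : List E) (u : Q π) :
    tht π (hh π (bv K i j k w (.y 0) ⊗ₜ u)) + hh π (tht π (bv K i j k w (.y 0) ⊗ₜ u))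
      + pp π (bv K i j k w (.y 0) ⊗ₜ u) = bv K i j k w (.y 0) ⊗ₜ u := by
  have h10 : (1 : Fin 2) ≠ 0 := by decide
  have h01 : (0 : Fin 2) ≠ 1 := by decide
  have s0 := scn π (.y 0) i j w
  have s1 := scn π (.y 1) i j w
  have hs : sc π (.y 1) i j w = sc π (.y 0) i j w := rfl
  rw [hh_tmul, tht_tmul, pp, TensorProduct.map_tmul, p1_bv, if_neg (by decide)]
  simp only [opS_bv, opD_bv, map_smul, map_add, tht_tmul, hh_tmul, sk, st, yy, yw, dk, dt, mul_one,
    mul_zero, zero_smul, TensorProduct.zero_tmul, TensorProduct.smul_tmul', smul_smul, add_zero,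
    zero_add, if_true, h10, h01, if_false, smul_zero, map_zero, hs, inv_mul_cancel₀ s0,
    mul_inv_cancel₀ s0, one_smul, smul_add, dQ_MQ_xx, dQ_MQ_xx', dQ_MQ_xa, dQ_MQ_xb,
    TensorProduct.tmul_zero, TensorProduct.tmul_smul, TensorProduct.tmul_sub]
  rw [← mul_assoc, inv_mul_cancel₀ s0, one_mul]
  generalize (π.p • bv K i j k w (Wb.y 1)) ⊗ₜ[K] (MQ π Lt.x) ((dQ π Lt.x') u) = A
  generalize bv K i j k w (Wb.y 0) ⊗ₜ[K] (MQ π Lt.x') ((dQ π Lt.x') u) = B
  generalize bv K i j k w (Wb.y 0) ⊗ₜ[K] u = C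
  calc A + B + (C - B + A) = C + (A + A) := by abel
    _ = C := by rw [self, add_zero]

theorem homotopy (t : NQ π) : tht π (hh π t) + hh π (tht π t) + pp π t = t := by
  have key : tht π ∘ₗ hh π + hh π ∘ₗ tht π + pp π = LinearMap.id := by
    apply TensorProduct.ext
    apply ext_bv
    intro i j k w q
    apply LinearMap.ext
    intro u
    show tht π (hh π (bv K i j k w q ⊗ₜ u)) + hh π (tht π (bv K i j k w q ⊗ₜ u))
      + pp π (bv K i j k w q ⊗ₜ u) = bv K i j k w q ⊗ₜ u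
    by_cases h1 : q = .one
    · subst h1; exact hom_one π i j k w u
    by_cases h2 : q = .y 0
    · subst h2; exact hom_x π i j k w u
    exact hom_ne π i j k w u q h1 h2
  exact LinearMap.congr_fun key t

end Crest.Agent.R186.C2M307
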