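import Crest.Agent.R186.WL2_221

/-!
# Row 186, half (A) (helper221): the sixteen cells over `R'` (`RL π`)

`cL`, `cL_mem`, `cL_mc`, `bdL`; `exRL`, `exR0L`, `genL` : the sixteen cells resolve `V_{-1}` over
`RL π` (44's C2b through `prL`); `oc`, `KKc π : GLC (WL π)`, `KKres : (KKc π).Res (VWL (hr π) (-1))`.
-/

set_option autoImplicit false
set_option linter.style.haveILetI false

noncomputable section

namespace Crest.Agent.R186.WL221

open Crest.Agent.R186.DefsQ830 Crest.Agent.R186.PBW128 Crest.Agent.R186.Der580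
open Crest.Agent.R186.Win810 Crest.Agent.R186.C2b44 Crest.Agent.R186.Cells221
open Crest.Agent.R186.VOp220 Crest.Agent.R186.Vmod220

variable {K : Type} [Field K] (π : Par K)

theorem c0_mem (σ τ : Cell) :
    c0 π σ τ ∈ pcZ π (cP σ - cP τ) (cA σ - cA τ) ((cdeg σ : ℤ) - cdeg τ - 1) := by
  cases σ with
  | none => exact Submodule.zero_mem _
  | some l =>
    cases τ with
    | none =>
      have h := PBW128.X_mem_pc π l.toGen
      have e1 : cP (some l) - cP none = l.toGen.dP := by rw [cP_some]; simp [cP]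
      have e2 : cA (some l) - cA none = ((l.toGen.dA : ℕ) : ℤ) := by simp [cA]
      have e3 : ((cdeg (some l) : ℕ) : ℤ) - (cdeg none : ℕ) - 1 = ((l.toGen.dC : ℕ) : ℤ) := by
        rw [cdeg_some]; simp [cdeg]
      rw [e1, e2, e3, pcZ_nat]
      exact h
    | some l' =>
      rcases cf_mem π l l' with h | ⟨A, C, h1, h2, h3⟩
      · rw [show c0 π (some l) (some l') = cf π l l' from rfl, h]
        exact Submodule.zero_mem _
      · have e1 : cP (some l) - cP (some l') = l.toGen.dP - l'.toGen.dP := by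
          rw [cP_some, cP_some]
        have e2 : cA (some l) - cA (some l') = ((A : ℕ) : ℤ) := by
          simp only [cA]; omega
        have e3 : ((cdeg (some l) : ℕ) : ℤ) - (cdeg (some l') : ℕ) - 1 = ((C : ℕ) : ℤ) := by
          rw [cdeg_some, cdeg_some]; omega
        rw [e1, e2, e3, pcZ_nat]
        exact h3

/-- the matrix of the sixteen cells over `R'` -/
def cL (σ τ : Cell) : RL π := prL π (c0 π σ τ)

theorem cL_mem (σ τ : Cell) :
    cL π σ τ ∈ pcL π (cP σ - cP τ) (cA σ - cA τ) ((cdeg σ : ℤ) - cdeg τ - 1) :=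
  prL_mem (c0_mem π σ τ)

theorem cL_zero {σ τ : Cell} (h : cdeg σ ≤ cdeg τ) : cL π σ τ = 0 := by
  have h1 := cL_mem π σ τ
  rw [pcL_neg (Or.inr (by omega))] at h1
  exact (Submodule.mem_bot K).1 h1

theorem cL_mc (σ τ : Cell) : DL π (cL π σ τ) + ∑ ρ, cL π σ ρ * cL π ρ τ = 0 := by
  have h := c0_mc π σ τ
  rw [← prL_eq_zero, map_add, map_sum] at h
  rw [cL, DL_prL]
  simp only [map_mul] at h
  exact h

/-- boundary of a row vector of cells over `R'` -/
def bdL (x : Cell → RL π) (τ : Cell) : RL π := DL π (x τ) + ∑ σ, x σ * cL π σ τ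

theorem prL_bd (x : Cell → R π) (τ : Cell) : prL π (bd π x τ) = bdL π (fun σ => prL π (x σ)) τ := by
  rw [bd, bdL, map_add, map_sum, DL_prL]
  simp only [map_mul]
  rfl

theorem bdL_val (x : Cell → RL π) (τ : Cell) : kill π (bd π (fun σ => (x σ).1) τ) = (bdL π x τ).1 := by
  have h := congrArg Subtype.val (prL_bd π (fun σ => (x σ).1) τ)
  rw [prL_val] at h
  rw [h]
  congr 2
  funext σ
  exact prL_inL _

theorem bdL_zero {x : Cell → RL π} {τ : Cell} (h : bdL π x τ = 0) :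
    kill π (bd π (fun σ => (x σ).1) τ) = 0 := by
  rw [bdL_val, h]
  rfl

theorem eq_bdL {x : Cell → RL π} {y : Cell → R π} {τ : Cell}
    (h : kill π ((x τ).1 - bd π y τ) = 0) : x τ = bdL π (fun σ => prL π (y σ)) τ := by
  rw [← prL_eq_zero, map_sub, prL_inL, prL_bd] at h
  exact sub_eq_zero.1 h

/-- **C2b over `R'`, exR** -/
theorem exRL {P A M : ℤ} (hM : 0 < M) (x : Cell → RL π)
    (hm : ∀ σ, x σ ∈ pcL π (P - cP σ) (A - cA σ) (M - cdeg σ))
    (hx : ∀ τ, DL π (x τ) + ∑ σ, x σ * cL π σ τ = 0) :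
    ∃ y : Cell → RL π, y none = 0 ∧
      (∀ σ, y σ ∈ pcL π (P - cP σ) (A - cA σ) (M + 1 - cdeg σ)) ∧
      ∀ τ, x τ = DL π (y τ) + ∑ σ, y σ * cL π σ τ := by
  obtain ⟨y, h0, h1, h2⟩ := exR_mod π hM (fun σ => (x σ).1) (fun σ => hm σ)
    (fun τ => bdL_zero π (hx τ))
  refine ⟨fun σ => prL π (y σ), by simp only [h0, map_zero], fun σ => prL_mem (h1 σ), fun τ => ?_⟩
  exact eq_bdL π (h2 τ)

/-- **C2b over `R'`, exR0** -/
theorem exR0L {P A : ℤ} (hP : P ≤ 0) (x : Cell → RL π)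
    (hm : ∀ σ, x σ ∈ pcL π (P - cP σ) (A - cA σ) (-(cdeg σ : ℤ)))
    (h0 : Vmod220.rep π (x none).1 (v0 K) = 0) :
    ∃ y : Cell → RL π, y none = 0 ∧
      (∀ σ, y σ ∈ pcL π (P - cP σ) (A - cA σ) (1 - cdeg σ)) ∧
      ∀ τ, x τ = DL π (y τ) + ∑ σ, y σ * cL π σ τ := by
  obtain ⟨y, h0, h1, h2⟩ := exR0_mod π hP (fun σ => (x σ).1) (fun σ => hm σ) h0
  refine ⟨fun σ => prL π (y σ), by simp only [h0, map_zero], fun σ => prL_mem (h1 σ), fun τ => ?_⟩
  exact eq_bdL π (h2 τ)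

/-- **C2b over `R'`, gen** -/
theorem genL {P A : ℤ} (hA : 0 ≤ A) (hP : P ≤ 0) {u : Pol K} (hu : u ∈ hom K P) :
    ∃ r : RL π, r ∈ pcL π P A 0 ∧ Vmod220.rep π r.1 (v0 K) = u := by
  obtain ⟨r, h1, h2⟩ := gen_mod π hA hP hu
  exact ⟨prL π r, prL_mem h1, by rw [prL_val, rep_kill, h2]⟩

/-! ### the window -/

/-- positions of the cells -/
def oc : Cell → DefsQ830.Ob
  | none => (1, 0)
  | some (.d _) => (0, 1)
  | some .f => (1, 1)
  | some (.z _) => (0, 2)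
  | some .zc => (1, 2)
  | some (.u s) => (1, ⟨1 + s.val, by omega⟩)
  | some (.e _) => (0, 2)
  | some (.gj _) => (0, 3)
  | some .gc => (1, 3)
  | some (.v s) => (1, ⟨2 + s.val, by omega⟩)

theorem oc_P (σ : Cell) : (((oc σ).1.val : ℕ) : ℤ) = 1 + cP σ := by
  cases σ with
  | none => simp [oc, cP]
  | some l => cases l <;> simp [oc, cP]

theorem oc_A (σ : Cell) : (((oc σ).2.val : ℕ) : ℤ) = cA σ := by
  cases σ with
  | none => simp [oc, cA]
  | some l => cases l <;> simp [oc, cA, Gen.dA, E.toGen]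

theorem cdeg_le (σ : Cell) : cdeg σ ≤ 5 := by
  cases σ with
  | none => simp [cdeg]
  | some l => cases l <;> simp [cdeg] <;> omega

variable {π} in
theorem q_oc {i : DefsQ830.Ob} {σ : Cell} {C : ℤ} {r : RL π} :
    r ∈ (WL π).q i (oc σ) C ↔
      r ∈ pcL π (((i.1.val : ℕ) : ℤ) - 1 - cP σ) (((i.2.val : ℕ) : ℤ) - cA σ) C := by
  change r ∈ pcL π (((i.1.val : ℕ) : ℤ) - (((oc σ).1.val : ℕ) : ℤ))
    (((i.2.val : ℕ) : ℤ) - (((oc σ).2.val : ℕ) : ℤ)) C ↔ _
  rw [oc_P, oc_A, sub_add_eq_sub_sub]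

theorem cL_mem_q (σ τ : Cell) : cL π σ τ ∈ (WL π).q (oc σ) (oc τ) ((cdeg σ : ℤ) - cdeg τ - 1) := by
  rw [q_oc, oc_P, oc_A, show 1 + cP σ - 1 - cP τ = cP σ - cP τ by ring]
  exact cL_mem π σ τ

/-- cells of degree at most `m` -/
def FC (m : ℕ) : Finset Cell := Finset.univ.filter fun σ => cdeg σ ≤ m

theorem mem_FC (m : ℕ) (σ : Cell) : σ ∈ FC m ↔ cdeg σ ≤ m := by simp [FC]

variable {π} in
theorem sum_FC_left {M : Type*} [AddCommMonoid M] {m : ℕ} (f : Cell → M)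
    (h : ∀ σ, m < cdeg σ → f σ = 0) : ∑ σ ∈ FC m, f σ = ∑ σ, f σ := by
  refine Finset.sum_subset (Finset.subset_univ _) fun σ _ hσ => h σ ?_
  rw [mem_FC] at hσ
  omega

/-- **the sixteen cells over `L`** -/
def KKc : GLC (WL π) where
  ι := Cell
  s := cdeg
  F := FC
  mem_F := mem_FC
  o := oc
  c := cL π
  c_mem := cL_mem_q π
  mc σ τ := by
    change DL π (cL π σ τ) + ∑ ρ ∈ FC (cdeg σ), cL π σ ρ * cL π ρ τ = 0
    rw [sum_FC_left (fun ρ => cL π σ ρ * cL π ρ τ)]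
    · exact cL_mc π σ τ
    · intro ρ h
      rw [cL_zero π (by omega), zero_mul]

theorem FC0 : FC 0 = {none} := by
  ext τ
  rw [mem_FC, Finset.mem_singleton]
  cases τ with
  | none => simp [cdeg]
  | some l => rw [cdeg_some]; simp

theorem KK_exR (m : ℕ) (i : DefsQ830.Ob) (x : Cell → RL π)
    (hx : ∀ σ, x σ ∈ (WL π).q i (oc σ) ((m : ℤ) + 1 - cdeg σ))
    (hc : ∀ τ, DL π (x τ) + ∑ σ ∈ FC (m + 1), x σ * cL π σ τ = 0) :
    ∃ y : Cell → RL π, (∀ σ, y σ ∈ (WL π).q i (oc σ) ((m : ℤ) + 2 - cdeg σ)) ∧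
      ∀ τ, x τ = DL π (y τ) + ∑ σ ∈ FC (m + 2), y σ * cL π σ τ := by
  obtain ⟨y, h0, h1, h2⟩ := exRL π (P := ((i.1.val : ℕ) : ℤ) - 1) (A := ((i.2.val : ℕ) : ℤ))
    (M := (m : ℤ) + 1) (by omega) x (fun σ => q_oc.1 (hx σ)) (fun τ => by
      rw [← hc τ, sum_FC_left (fun σ => x σ * cL π σ τ)]
      intro σ hσ
      have h3 := q_oc.1 (hx σ)
      rw [pcL_neg (Or.inr (by omega))] at h3
      rw [(Submodule.mem_bot K).1 h3, zero_mul])
  refine ⟨y, fun σ => q_oc.2 ?_, fun τ => ?_⟩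
  · rw [show (m : ℤ) + 2 - (cdeg σ : ℤ) = (m : ℤ) + 1 + 1 - cdeg σ by ring]
    exact h1 σ
  · rw [sum_FC_left (fun σ => y σ * cL π σ τ)]
    · exact h2 τ
    intro σ hσ
    have h3 := h1 σ
    rw [pcL_neg (Or.inr (by omega))] at h3
    rw [(Submodule.mem_bot K).1 h3, zero_mul]

theorem KK_exR0 (i : DefsQ830.Ob) (x : Cell → RL π)
    (hx : ∀ σ, x σ ∈ (WL π).q i (oc σ) (-(cdeg σ : ℤ)))
    (hc : Vmod220.rep π (x none).1 (v0 K) = 0) :
    ∃ y : Cell → RL π, (∀ σ, y σ ∈ (WL π).q i (oc σ) (1 - (cdeg σ : ℤ))) ∧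
      ∀ τ, x τ = DL π (y τ) + ∑ σ ∈ FC 1, y σ * cL π σ τ := by
  obtain ⟨y, h0, h1, h2⟩ := exR0L π (P := ((i.1.val : ℕ) : ℤ) - 1) (A := ((i.2.val : ℕ) : ℤ))
    (by have := i.1.2; omega) x (fun σ => q_oc.1 (hx σ)) hc
  refine ⟨y, fun σ => q_oc.2 (h1 σ), fun τ => ?_⟩
  rw [sum_FC_left (fun σ => y σ * cL π σ τ)]
  · exact h2 τ
  intro σ hσ
  have h3 := h1 σ
  rw [pcL_neg (Or.inr (by omega))] at h3
  rw [(Submodule.mem_bot K).1 h3, zero_mul]

theorem KK_gen (i : DefsQ830.Ob) {u : Pol K} (hu : u ∈ hom K (-1 + ((i.1.val : ℕ) : ℤ))) :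
    ∃ x : Cell → RL π, (∀ σ, x σ ∈ (WL π).q i (oc σ) (-(cdeg σ : ℤ))) ∧
      Vmod220.rep π (x none).1 (v0 K) = u := by
  have hu' : u ∈ hom K (((i.1.val : ℕ) : ℤ) - 1) := by
    rwa [show ((i.1.val : ℕ) : ℤ) - 1 = -1 + ((i.1.val : ℕ) : ℤ) by ring]
  obtain ⟨r, h1, h2⟩ := genL π (P := ((i.1.val : ℕ) : ℤ) - 1) (A := ((i.2.val : ℕ) : ℤ))
    (by omega) (by have := i.1.2; omega) hu'
  have key : ∀ σ : Cell, (if σ = none then r else 0 : RL π) ∈
      pcL π (((i.1.val : ℕ) : ℤ) - 1 - cP σ) (((i.2.val : ℕ) : ℤ) - cA σ) (-(cdeg σ : ℤ)) := by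
    intro σ
    cases σ with
    | none =>
      rw [if_pos rfl]
      simpa [cP, cA, cdeg] using h1
    | some l =>
      rw [if_neg (by simp)]
      exact Submodule.zero_mem _
  refine ⟨fun σ => if σ = none then r else 0, fun σ => q_oc.2 (key σ), ?_⟩
  simp only [if_pos]
  exact h2

/-- the augmentation on the cells -/
def vKK (σ : Cell) : Pol K := if σ = none then v0 K else 0

/-- **the sixteen cells resolve `V_{-1}` over `L`** -/
def KKres : (KKc π).Res (VWL (hr π) (-1)) where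
  v := vKK (K := K)
  v_mem σ := by
    change Cell at σ
    cases σ with
    | none =>
      change vKK (K := K) none ∈ hom K (-1 + ((((1 : Fin 2)).val : ℕ) : ℤ))
      rw [vKK, if_pos rfl]
      exact mon_mem (by simp)
    | some l =>
      change vKK (K := K) (some l) ∈ hom K _
      rw [vKK, if_neg (by simp)]
      exact Submodule.zero_mem _
  v_zero σ hσ := by
    change Cell at σ
    cases σ with
    | none => exact absurd rfl hσ
    | some l => exact if_neg (by simp)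
  v_aug σ hσ := by
    change ∑ τ ∈ FC 0, Vmod220.rep π (cL π σ τ).1 (vKK (K := K) τ) = 0
    rw [FC0, Finset.sum_singleton]
    rw [show (cL π σ none).1 = kill π (c0 π σ none) from rfl, rep_kill, vKK, if_pos rfl]
    change Cell at σ
    cases σ with
    | none => exact absurd hσ (by simp [KKc, cdeg])
    | some l => exact rep_E_v0 π l
  exR m i x hx hc := KK_exR π m i x hx hc
  exR0 i x hx hc := by
    refine KK_exR0 π i x hx ?_
    have hc' : ∑ σ ∈ FC 0, (VWL (hr π) (-1)).rho (x σ) (vKK (K := K) σ) = 0 := hc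
    rw [FC0, Finset.sum_singleton] at hc'
    exact hc'
  gen i u hu := by
    obtain ⟨x, h1, h2⟩ := KK_gen π i hu
    refine ⟨x, h1, ?_⟩
    change ∑ σ ∈ FC 0, (VWL (hr π) (-1)).rho (x σ) (vKK (K := K) σ) = u
    rw [FC0, Finset.sum_singleton]
    exact h2

end Crest.Agent.R186.WL221
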