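import Crest.Agent.R186.VQ_735

/-!
# Row 186, half (A), leaf C2a (helper667), part 1: the local algebra `Q`

* `presR` : right presentation of the augmentation ideal of `Q`;
* `LD` : left division by `x'` (`LD (x' u) = u`), homogeneous;
* `exists_of_comp` : linear maps on `Q` with given compositions with the `MQ g`;
* `lenP n` : projection on words of length `n`.
-/

set_option autoImplicit false

namespace Crest.Agent.R186.C2q667

open Crest.Agent.R186.Loc261 Crest.Agent.R186.VQ735

section local_algebra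

variable {K : Type} [Field K] (P : Loc261.Par K)

/-- the swap of `x` and `x'` -/
def sw : Lt → Lt
  | .x => .x' | .x' => .x | .a => .a | .b => .b

theorem sw_sw (g : Lt) : sw (sw g) = g := by cases g <;> rfl

/-- reversal of words together with the swap -/
noncomputable def revA : Q P →ₐ[K] (Q P)ᵐᵒᵖ :=
  lft P (fun l => MulOpposite.op (li P (sw l))) (by
    rw [← MulOpposite.op_mul, ← MulOpposite.op_mul, ← MulOpposite.op_smul]
    exact congrArg MulOpposite.op (rel P))

noncomputable def rev : Q P →ₗ[K] Q P :=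
  (MulOpposite.opLinearEquiv K).symm.toLinearMap ∘ₗ (revA P).toLinearMap

theorem rev_apply (u : Q P) : rev P u = (revA P u).unop := rfl

theorem rev_mul (u v : Q P) : rev P (u * v) = rev P v * rev P u := by
  rw [rev_apply, map_mul, MulOpposite.unop_mul]; rfl

theorem rev_one : rev P 1 = 1 := by rw [rev_apply, map_one]; rfl

theorem rev_li (g : Lt) : rev P (li P g) = li P (sw g) := by
  rw [rev_apply, revA, lft_li, MulOpposite.unop_op]

theorem rev_rev (u : Q P) : rev P (rev P u) = u := by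
  induction u using Q_ind P with
  | one => rw [rev_one, rev_one]
  | add u v hu hv => rw [map_add, map_add, hu, hv]
  | smul r u hu => rw [map_smul, map_smul, hu]
  | mul g u hu =>
    rw [rev_mul, rev_mul, hu, rev_li, rev_li, sw_sw]

theorem sumL' {M : Type*} [AddCommMonoid M] (F : Lt → M) : ∑ g, F g = F .x + F .a + F .x' + F .b :=
  sumL F

/-- **right presentation** -/
theorem presR (b : Lt → Q P) (h : ∑ g, li P g * b g = 0) :
    ∃ y, b .x = li P .x' * y ∧ b .x' = -(P.p⁻¹ • (li P .x * y)) ∧ b .a = 0 ∧ b .b = 0 := by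
  have h1 : ∑ g, rev P (b (sw g)) * li P g = 0 := by
    have h2 := congrArg (rev P) h
    rw [map_zero, map_sum] at h2
    simp only [rev_mul, rev_li] at h2
    rw [sumL'] at h2 ⊢
    simp only [sw] at h2 ⊢
    rw [← h2]
    abel
  obtain ⟨y, hy⟩ := pres P _ h1
  have e : ∀ g, b g = rev P (nu P y (sw g)) := fun g => by
    have := congrFun hy (sw g)
    simp only [sw_sw] at this
    rw [← this, rev_rev]
  refine ⟨rev P y, ?_, ?_, ?_, ?_⟩
  · rw [e, show sw .x = .x' from rfl, nu_x', rev_mul, rev_li]; rfl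
  · rw [e, show sw .x' = .x from rfl, nu_x, map_neg, map_smul, rev_mul, rev_li]; rfl
  · rw [e, show sw .a = .a from rfl, nu_a, map_zero]
  · rw [e, show sw .b = .b from rfl, nu_b, map_zero]

/-! ### left division by `x'` -/

noncomputable def UL (l : Lt) : Module.End K (Q P × Q P) :=
  LinearMap.prod
    (match l with
      | .x' => LinearMap.snd K _ _
      | .x => P.p⁻¹ • (LinearMap.mulLeft K (li P .x)).comp (LinearMap.fst K _ _)
      | .a => 0
      | .b => 0)
    ((LinearMap.mulLeft K (li P l)).comp (LinearMap.snd K _ _))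

theorem UL_snd (l : Lt) (t : Q P × Q P) : (UL P l t).2 = li P l * t.2 := rfl
theorem UL_x' (t : Q P × Q P) : (UL P .x' t).1 = t.2 := rfl
theorem UL_x (t : Q P × Q P) : (UL P .x t).1 = P.p⁻¹ • (li P .x * t.1) := rfl
theorem UL_a (t : Q P × Q P) : (UL P .a t).1 = 0 := rfl
theorem UL_b (t : Q P × Q P) : (UL P .b t).1 = 0 := rfl

noncomputable def Lh : Q P →ₐ[K] Module.End K (Q P × Q P) :=
  lft P (UL P) (by
    apply LinearMap.ext
    intro t
    refine Prod.ext ?_ ?_
    · rw [Module.End.mul_apply, LinearMap.smul_apply, Module.End.mul_apply, Prod.smul_fst, UL_x,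
        UL_x', UL_x', UL_snd]
    · rw [Module.End.mul_apply, LinearMap.smul_apply, Module.End.mul_apply, Prod.smul_snd, UL_snd,
        UL_snd, UL_snd, UL_snd, ← mul_assoc, ← mul_assoc, rel, smul_mul_assoc])

/-- left division by `x'` -/
noncomputable def LD : Q P →ₗ[K] Q P :=
  (LinearMap.fst K (Q P) (Q P)).comp
    ((LinearMap.applyₗ ((0 : Q P), (1 : Q P))).comp (Lh P).toLinearMap)

theorem LD_apply (u : Q P) : LD P u = (Lh P u (0, 1)).1 := rfl

theorem Lh_mul (l : Lt) (u : Q P) : Lh P (li P l * u) (0, 1) = UL P l (Lh P u (0, 1)) := by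
  rw [map_mul, Module.End.mul_apply]
  simp [Lh]

theorem Lh_snd (u : Q P) : (Lh P u (0, 1)).2 = u := by
  induction u using Q_ind P with
  | one => simp
  | add u v hu hv => simp [hu, hv]
  | smul r u hu => simp [hu]
  | mul l u hu => rw [Lh_mul, UL_snd, hu]

theorem LD_one : LD P 1 = 0 := by simp [LD_apply]

theorem LD_x' (u : Q P) : LD P (li P .x' * u) = u := by
  rw [LD_apply, Lh_mul, UL_x', Lh_snd]

theorem LD_x (u : Q P) : LD P (li P .x * u) = P.p⁻¹ • (li P .x * LD P u) := by
  rw [LD_apply, Lh_mul, UL_x]; rfl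

theorem LD_a (u : Q P) : LD P (li P .a * u) = 0 := by
  rw [LD_apply, Lh_mul, UL_a]

theorem LD_b (u : Q P) : LD P (li P .b * u) = 0 := by
  rw [LD_apply, Lh_mul, UL_b]

/-! ### grading by degree and by length -/

/-- degree of the letters -/
def qd : Lt → ℕ
  | .x => 1 | .a => 2 | .x' => 2 | .b => 3

theorem qd_pos (g : Lt) : 1 ≤ qd g := by cases g <;> decide

def qs (w : List Lt) : ℕ := (w.map qd).sum

@[simp] theorem qs_nil : qs [] = 0 := rfl
@[simp] theorem qs_cons (g : Lt) (w : List Lt) : qs (g :: w) = qd g + qs w := rfl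

theorem len_le (w : List Lt) : w.length ≤ qs w := by
  induction w with
  | nil => simp
  | cons g w ih =>
    have := qd_pos g
    simp only [List.length_cons, qs_cons]; omega

/-- the part of degree `k` -/
noncomputable def Qd (k : ℤ) : Submodule K (Q P) :=
  Submodule.span K {u | ∃ w : List Lt, (qs w : ℤ) = k ∧ wp P w = u}

theorem wp_Qd (w : List Lt) : wp P w ∈ Qd P (qs w : ℤ) := Submodule.subset_span ⟨w, rfl, rfl⟩

theorem Qd_le {k : ℤ} {N : Submodule K (Q P)} (h : ∀ w : List Lt, (qs w : ℤ) = k → wp P w ∈ N) :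
    Qd P k ≤ N := by
  unfold Qd
  rw [Submodule.span_le]
  rintro u ⟨w, hw, rfl⟩
  exact h w hw

theorem li_Qd (g : Lt) {k : ℤ} {u : Q P} (hu : u ∈ Qd P k) : li P g * u ∈ Qd P (k + qd g) := by
  have : Qd P k ≤ (Qd P (k + qd g)).comap (LinearMap.mulLeft K (li P g)) := by
    refine Qd_le P ?_
    intro w hw
    have := wp_Qd P (g :: w)
    rw [wp_cons, qs_cons] at this
    rw [← hw]
    rw [show ((qs w : ℤ) + qd g) = ((qd g + qs w : ℕ) : ℤ) by push_cast; ring]
    exact this
  exact this hu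

theorem sc_Qd (s : Lt → K) {k : ℤ} {u : Q P} (hu : u ∈ Qd P k) : sc P s u ∈ Qd P k := by
  have : Qd P k ≤ (Qd P k).comap (sc P s).toLinearMap := by
    refine Qd_le P ?_
    intro w hw
    show sc P s (wp P w) ∈ Qd P k
    rw [sc_wp]
    refine Submodule.smul_mem _ _ ?_
    rw [← hw]
    exact wp_Qd P w
  exact this hu

theorem LD_wp (w : List Lt) : LD P (wp P w) ∈ Qd P ((qs w : ℤ) - 2) := by
  induction w with
  | nil => rw [wp_nil, LD_one]; exact Submodule.zero_mem _
  | cons g w ih =>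
    rw [wp_cons]
    cases g with
    | x =>
      rw [LD_x]
      refine Submodule.smul_mem _ _ ?_
      have h2 := li_Qd P .x ih
      have e : (qs w : ℤ) - 2 + (qd .x : ℤ) = (qs (.x :: w) : ℤ) - 2 := by
        rw [qs_cons]; push_cast; ring
      rwa [e] at h2
    | x' =>
      rw [LD_x']
      have e : (qs w : ℤ) = (qs (.x' :: w) : ℤ) - 2 := by
        rw [qs_cons]; push_cast; simp [qd]
      rw [← e]
      exact wp_Qd P w
    | a => rw [LD_a]; exact Submodule.zero_mem _
    | b => rw [LD_b]; exact Submodule.zero_mem _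

theorem LD_Qd {k : ℤ} {u : Q P} (hu : u ∈ Qd P k) : LD P u ∈ Qd P (k - 2) := by
  have : Qd P k ≤ (Qd P (k - 2)).comap (LD P) := by
    refine Qd_le P ?_
    intro w hw
    have h := LD_wp P w
    rw [hw] at h
    exact h
  exact this hu

/-- length grading -/
noncomputable def grn : Q P →ₐ[K] AddMonoidAlgebra (Q P) ℕ :=
  lft P (fun l => AddMonoidAlgebra.single 1 (li P l)) (by
    rw [AddMonoidAlgebra.single_mul_single, AddMonoidAlgebra.single_mul_single, rel,
      AddMonoidAlgebra.smul_single])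

theorem grn_wp (w : List Lt) : grn P (wp P w) = AddMonoidAlgebra.single w.length (wp P w) := by
  induction w with
  | nil => simp [AddMonoidAlgebra.one_def]
  | cons l w ih =>
    rw [wp_cons, map_mul, ih]
    simp [grn, AddMonoidAlgebra.single_mul_single, add_comm]

/-- projection on length `n` -/
noncomputable def lenP (n : ℕ) : Q P →ₗ[K] Q P where
  toFun u := (grn P u).coeff n
  map_add' u v := by simp
  map_smul' r u := by simp

theorem lenP_wp (n : ℕ) (w : List Lt) : lenP P n (wp P w) = if w.length = n then wp P w else 0 := by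
  show (grn P (wp P w)).coeff n = _
  rw [grn_wp]
  simp [Finsupp.single_apply]

/-- augmentation -/
noncomputable def aug : Q P →ₐ[K] K := lft P (fun _ => (0 : K)) (by simp)

theorem aug_li (g : Lt) (u : Q P) : aug P (li P g * u) = 0 := by
  rw [map_mul, aug, lft_li, zero_mul]

end local_algebra

section rescaled

variable {K : Type} [Field K] (π : DefsQ830.Par K)

theorem SC_inj (s : Lt → K) (hs : ∀ l, s l ≠ 0) : Function.Injective (SC π s) := by
  have h : SC π (fun l => (s l)⁻¹) * SC π s = 1 := by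
    rw [SC_mul, ← SC_one]
    congr 1
    funext l
    exact inv_mul_cancel₀ (hs l)
  intro u v huv
  have := congrArg (SC π (fun l => (s l)⁻¹)) huv
  rw [← Module.End.mul_apply, ← Module.End.mul_apply, h] at this
  exact this

theorem SC_surj (s : Lt → K) (hs : ∀ l, s l ≠ 0) (v : Q (lp π)) : ∃ u, SC π s u = v := by
  have h : SC π s * SC π (fun l => (s l)⁻¹) = 1 := by
    rw [SC_mul, ← SC_one]
    congr 1
    funext l
    exact mul_inv_cancel₀ (hs l)
  exact ⟨SC π (fun l => (s l)⁻¹) v, by rw [← Module.End.mul_apply, h]; rfl⟩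

theorem MQ_eq (g : Lt) (u : Q (lp π)) :
    MQ π g u = li (lp π) g * SC π (fun l => (lp π).chi l g) u := rfl

/-- homogeneous left division by `MQ x'` -/
noncomputable def LM : Q (lp π) →ₗ[K] Q (lp π) :=
  (SC π (fun l => ((lp π).chi l .x')⁻¹)).comp (LD (lp π))

theorem LM_MQ (u : Q (lp π)) : LM π (MQ π .x' u) = u := by
  show SC π (fun l => ((lp π).chi l .x')⁻¹) (LD (lp π) (MQ π .x' u)) = u
  rw [MQ_eq, LD_x', ← Module.End.mul_apply, SC_mul]
  rw [SC_congr π (t := fun _ => 1) (fun l => inv_mul_cancel₀ ((lp π).chi_ne l .x')), SC_one]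
  rfl

theorem MQ_x'_inj : Function.Injective (MQ π .x') := fun u v h => by
  rw [← LM_MQ π u, h, LM_MQ]

theorem LM_Qd {k : ℤ} {u : Q (lp π)} (hu : u ∈ Qd (lp π) k) : LM π u ∈ Qd (lp π) (k - 2) :=
  sc_Qd (lp π) _ (LD_Qd (lp π) hu)

theorem MQ_Qd (g : Lt) {k : ℤ} {u : Q (lp π)} (hu : u ∈ Qd (lp π) k) :
    MQ π g u ∈ Qd (lp π) (k + qd g) := li_Qd (lp π) g (sc_Qd (lp π) _ hu)

theorem aug_MQ (g : Lt) (u : Q (lp π)) : aug (lp π) (MQ π g u) = 0 := aug_li _ _ _

/-- a nonempty word is a multiple of `MQ g (shorter word)` -/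
theorem wp_MQ (g : Lt) (w : List Lt) : ∃ c : K, c ≠ 0 ∧ wp (lp π) (g :: w) = c • MQ π g (wp (lp π) w) := by
  refine ⟨((w.map (fun l => (lp π).chi l g)).prod)⁻¹, ?_, ?_⟩
  · apply inv_ne_zero
    intro h
    rw [List.prod_eq_zero_iff] at h
    obtain ⟨l, -, hl⟩ := List.mem_map.1 h
    exact (lp π).chi_ne l g hl
  · rw [MQ_eq, SC_apply, sc_wp, mul_smul_comm, smul_smul, inv_mul_cancel₀, one_smul, wp_cons]
    intro h
    rw [List.prod_eq_zero_iff] at h
    obtain ⟨l, -, hl⟩ := List.mem_map.1 h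
    exact (lp π).chi_ne l g hl

/-- a map vanishing on `1` and on all `MQ g v` vanishes -/
theorem ext_MQ {M : Type*} [AddCommGroup M] [Module K M] {f : Q (lp π) →ₗ[K] M}
    (h1 : f 1 = 0) (h : ∀ g v, f (MQ π g v) = 0) : f = 0 := by
  apply ext_wp
  intro w
  cases w with
  | nil => rw [wp_nil, h1, LinearMap.zero_apply]
  | cons g w =>
    obtain ⟨c, -, e⟩ := wp_MQ π g w
    rw [e, map_smul, h, smul_zero, LinearMap.zero_apply]

/-- the kernel of `(b_g) ↦ Σ MQ g b_g` -/
theorem ker_MQ (b : Lt → Q (lp π)) (h : ∑ g, MQ π g (b g) = 0) :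
    ∃ v, b .x = MQ π .x' v ∧ b .x' = π.p • MQ π .x v ∧ b .a = 0 ∧ b .b = 0 := by
  have h0 : ∑ g, li (lp π) g * SC π (fun l => (lp π).chi l g) (b g) = 0 := h
  obtain ⟨y, h1, -, h3, h4⟩ := presR (lp π) _ h0
  have ha : b .a = 0 := SC_inj π _ (fun l => (lp π).chi_ne l .a) (by rw [h3, map_zero])
  have hb : b .b = 0 := SC_inj π _ (fun l => (lp π).chi_ne l .b) (by rw [h4, map_zero])
  -- `b x` is in the range of `MQ x'`
  obtain ⟨v, hv⟩ : ∃ v, b .x = MQ π .x' v := by
    obtain ⟨y1, hy1⟩ := SC_surj π (fun l => (lp π).chi l .x) (fun l => (lp π).chi_ne l .x) y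
    obtain ⟨y2, hy2⟩ := SC_surj π (fun l => (lp π).chi l .x') (fun l => (lp π).chi_ne l .x') y1
    refine ⟨((lp π).chi .x' .x)⁻¹ • y2, ?_⟩
    apply SC_inj π (fun l => (lp π).chi l .x) (fun l => (lp π).chi_ne l .x)
    show SC π _ (b .x) = _
    rw [h1, map_smul, map_smul, MQ_eq, hy2, SC_apply, map_mul, sc_li, smul_mul_assoc, smul_smul,
      inv_mul_cancel₀ ((lp π).chi_ne _ _), one_smul, ← hy1, SC_apply]
  refine ⟨v, hv, ?_, ha, hb⟩
  apply MQ_x'_inj π
  rw [sumL, ha, hb, map_zero, map_zero, add_zero, add_zero, hv] at h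
  have h5 : MQ π .x (MQ π .x' v) = π.p • MQ π .x' (MQ π .x v) := by
    have := LinearMap.congr_fun (MQ_MQ π) v
    exact this
  rw [h5] at h
  rw [map_smul]
  have h6 : ∀ u v : Q (lp π), u + v = 0 → v = u := fun u v h => by
    have h7 : u + u = 0 := by rw [← two_smul K, π.two, zero_smul]
    calc v = (u + u) + v := by rw [h7, zero_add]
      _ = u + (u + v) := by abel
      _ = u := by rw [h, add_zero]
  exact h6 _ _ h

/-- **linear maps on `Q` with prescribed compositions with the `MQ g`** -/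
theorem exists_of_comp {M : Type*} [AddCommGroup M] [Module K M] (X : Lt → Q (lp π) →ₗ[K] M)
    (h : ∀ v, X .x (MQ π .x' v) + π.p • X .x' (MQ π .x v) = 0) :
    ∃ y : Q (lp π) →ₗ[K] M, (∀ g v, y (MQ π g v) = X g v) ∧ y 1 = 0 := by
  let Φ : (Lt → Q (lp π)) →ₗ[K] Q (lp π) := ∑ g, (MQ π g).comp (LinearMap.proj g)
  let Ψ : (Lt → Q (lp π)) →ₗ[K] M := ∑ g, (X g).comp (LinearMap.proj g)
  have hΦ : ∀ b, Φ b = ∑ g, MQ π g (b g) := fun b => by
    simp only [Φ, LinearMap.sum_apply, LinearMap.comp_apply, LinearMap.proj_apply]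
  have hΨ : ∀ b, Ψ b = ∑ g, X g (b g) := fun b => by
    simp only [Ψ, LinearMap.sum_apply, LinearMap.comp_apply, LinearMap.proj_apply]
  have hk : LinearMap.ker Φ ≤ LinearMap.ker Ψ := by
    intro b hb
    rw [LinearMap.mem_ker, hΦ] at hb
    obtain ⟨v, h1, h2, h3, h4⟩ := ker_MQ π b hb
    rw [LinearMap.mem_ker, hΨ, sumL, h1, h2, h3, h4, map_zero, map_zero, add_zero, add_zero,
      map_smul]
    exact h v
  let y1 : LinearMap.range Φ →ₗ[K] M :=
    ((LinearMap.ker Φ).liftQ Ψ hk).comp (Φ.quotKerEquivRange.symm.toLinearMap)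
  obtain ⟨y, hy⟩ := LinearMap.exists_extend y1
  have hyΦ : ∀ b, y (Φ b) = Ψ b := by
    intro b
    have e1 : y (Φ b) = y1 ⟨Φ b, b, rfl⟩ := by
      rw [← hy]; rfl
    rw [e1]
    show ((LinearMap.ker Φ).liftQ Ψ hk) (Φ.quotKerEquivRange.symm ⟨Φ b, b, rfl⟩) = _
    have e2 : Φ.quotKerEquivRange.symm ⟨Φ b, b, rfl⟩ = (LinearMap.ker Φ).mkQ b := by
      rw [LinearEquiv.symm_apply_eq]
      rfl
    rw [e2]
    exact (LinearMap.ker Φ).liftQ_apply Ψ b
  have hyM : ∀ g v, y (MQ π g v) = X g v := by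
    intro g v
    have e := hyΦ (Pi.single g v)
    rw [hΦ, hΨ] at e
    rw [Finset.sum_eq_single g, Finset.sum_eq_single g] at e
    · simpa using e
    · intro g' _ hg; rw [Pi.single_eq_of_ne hg, map_zero]
    · intro hg; exact absurd (Finset.mem_univ _) hg
    · intro g' _ hg; rw [Pi.single_eq_of_ne hg, map_zero]
    · intro hg; exact absurd (Finset.mem_univ _) hg
  refine ⟨y - (LinearMap.toSpanSingleton K M (y 1)).comp (aug (lp π)).toLinearMap, ?_, ?_⟩
  · intro g v
    rw [LinearMap.sub_apply, LinearMap.comp_apply, AlgHom.toLinearMap_apply, aug_MQ, map_zero,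
      sub_zero, hyM]
  · rw [LinearMap.sub_apply, LinearMap.comp_apply, AlgHom.toLinearMap_apply, map_one (aug (lp π)),
      LinearMap.toSpanSingleton_apply, one_smul, sub_self]

end rescaled

end Crest.Agent.R186.C2q667
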