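import Crest.Agent.R186.Bas_735

/-!
# Row 186, half (A), leaf QB (helper735): the bimodule `R'' ⊗ Q^*` at the level of `R''`
-/

set_option autoImplicit false

namespace Crest.Agent.R186.VQ735

open Crest.Agent.R186.VOp220 Crest.Agent.R186.DefsQ830 Crest.Agent.R186.Vmod220
open Crest.Agent.R186.Cells221 Crest.Agent.R186.Der580
open Crest.Agent.R186.PBW128 (E)
open Crest.Agent.R186.Loc261 (Lt li sc Q_ind wt Qc Qg prj)
open TensorProduct

variable {K : Type} [Field K] (π : Par K)

/-! ### triangularity of the right action -/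

theorem cA_diag_ne (r : R π) (s : Lt → K) {q q' : Bt π} (h : q ≠ q') :
    cA π q q' (r ⊗ₜ SC π s) = 0 := by
  rw [cA_tmul, coef_SC, if_neg h, zero_smul]

theorem cA_diag (r : R π) (s : Lt → K) (q : Bt π) :
    cA π q q (r ⊗ₜ SC π s) = pw s q.1 • r := by
  rw [cA_tmul, coef_SC, if_pos rfl]

theorem cA_E_zero (r : R π) (g : Lt) {q q' : Bt π} (h : ln q' ≤ ln q) :
    cA π q q' (r ⊗ₜ EQ π g) = 0 := by
  rw [cA_tmul, coef_EQ_ne, zero_smul]
  intro h1
  unfold ln at h
  rw [h1, Multiset.card_cons] at h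
  omega

theorem pw_const (c : K) (m : Multiset Lt) : pw (fun _ => c) m = c ^ m.card := by
  simp [pw]

/-- the character of a letter at a content -/
noncomputable def ch (m : Multiset Lt) : Gen → K
  | .x i => (π.c i)⁻¹ ^ m.card
  | .h => 1
  | .d j => π.c j ^ m.card
  | .f => 1
  | .z j => π.cz j ^ m.card
  | .zc => 1
  | .u s => pw (fun l => sg ((lp π).c l) s) m
  | .e j => π.c j ^ m.card
  | .gj j => π.cz j ^ m.card
  | .gc => 1
  | .v s => pw (fun l => sg ((lp π).c l) s) m
  | .y _ => 0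
  | .yb _ => 0

theorem one_eq : (1 : Module.End K (Q π)) = SC π (fun _ => 1) := (SC_one π).symm

theorem cA_dl_lt (a : Gen) {q q' : Bt π} (h : ln q' < ln q) : cA π q q' (dl π a) = 0 := by
  have hne : q ≠ q' := by rintro rfl; exact lt_irrefl _ h
  cases a <;> simp only [dl, scl, CH, one_eq, map_add, map_zero, cA_diag_ne π _ _ hne,
    cA_E_zero π _ _ h.le, add_zero]

theorem cA_dl_ne (a : Gen) {q q' : Bt π} (h : ln q' = ln q) (hne : q ≠ q') :
    cA π q q' (dl π a) = 0 := by
  cases a <;> simp only [dl, scl, CH, one_eq, map_add, map_zero, cA_diag_ne π _ _ hne,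
    cA_E_zero π _ _ h.le, add_zero]

theorem cA_dl_diag (a : Gen) (q : Bt π) : cA π q q (dl π a) = ch π q.1 a • X π a := by
  cases a <;> simp only [dl, scl, CH, one_eq, map_add, map_zero, cA_diag, cA_E_zero π _ _ le_rfl,
    add_zero, ch, pw_const, one_pow, zero_smul]

/-- all triangularity facts at once -/
theorem cA_Dl_tri (r : R π) : (∀ q q' : Bt π, ln q' < ln q → cA π q q' (Dl π r) = 0) ∧
    (∀ q q' : Bt π, ln q' = ln q → q ≠ q' → cA π q q' (Dl π r) = 0) ∧
    (∀ q q' : Bt π, q.1 = q'.1 → cA π q q (Dl π r) = cA π q' q' (Dl π r)) := by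
  induction r using R_ind π with
  | hc c =>
    have e : Dl π (algebraMap K (R π) c) = algebraMap K (R π) c ⊗ₜ SC π (fun _ => 1) := by
      rw [AlgHom.commutes, SC_one]; rfl
    refine ⟨fun q q' h => ?_, fun q q' _ h => ?_, fun q q' h => ?_⟩
    · rw [e, cA_diag_ne]; rintro rfl; exact lt_irrefl _ h
    · rw [e, cA_diag_ne π _ _ h]
    · rw [e, cA_diag, cA_diag, h]
  | hX a =>
    rw [Dl_X]
    exact ⟨fun q q' h => cA_dl_lt π a h, fun q q' h h' => cA_dl_ne π a h h',
      fun q q' h => by rw [cA_dl_diag, cA_dl_diag, h]⟩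
  | ha a b ha hb =>
    rw [map_add]
    refine ⟨fun q q' h => ?_, fun q q' h h' => ?_, fun q q' h => ?_⟩
    · rw [map_add, ha.1 q q' h, hb.1 q q' h, add_zero]
    · rw [map_add, ha.2.1 q q' h h', hb.2.1 q q' h h', add_zero]
    · rw [map_add, map_add, ha.2.2 q q' h, hb.2.2 q q' h]
  | hm a b ha hb =>
    rw [map_mul]
    have key : ∀ q q' : Bt π, ln q' ≤ ln q → q ≠ q' → cA π q q' (Dl π a * Dl π b) = 0 := by
      intro q q' h hne
      obtain ⟨S0, hS⟩ := cA_mul_right π q' (Dl π b)
      rw [hS S0 (Finset.Subset.refl _)]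
      apply Finset.sum_eq_zero
      intro q'' _
      rcases lt_trichotomy (ln q'') (ln q) with h1 | h1 | h1
      · rw [ha.1 q q'' h1, zero_mul]
      · by_cases h2 : q = q''
        · subst h2
          rcases h.lt_or_eq with h3 | h3
          · rw [hb.1 q q' h3, mul_zero]
          · rw [hb.2.1 q q' h3 hne, mul_zero]
        · rw [ha.2.1 q q'' h1 h2, zero_mul]
      · rw [hb.1 q'' q' (by omega), mul_zero]
    have key2 : ∀ q : Bt π, cA π q q (Dl π a * Dl π b) = cA π q q (Dl π a) * cA π q q (Dl π b) := by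
      intro q
      obtain ⟨S0, hS⟩ := cA_mul_right π q (Dl π b)
      rw [hS (insert q S0) (Finset.subset_insert _ _), Finset.sum_eq_single q]
      · intro q'' _ h2
        rcases lt_trichotomy (ln q'') (ln q) with h1 | h1 | h1
        · rw [ha.1 q q'' h1, zero_mul]
        · rw [ha.2.1 q q'' h1 (Ne.symm h2), zero_mul]
        · rw [hb.1 q'' q h1, mul_zero]
      · intro h; exact absurd (Finset.mem_insert_self _ _) h
    refine ⟨fun q q' h => key q q' h.le (by rintro rfl; exact lt_irrefl _ h),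
      fun q q' h h' => key q q' h.le h', fun q q' h => ?_⟩
    rw [key2, key2, ha.2.2 q q' h, hb.2.2 q q' h]

theorem cA_Dl_lt (r : R π) {q q' : Bt π} (h : ln q' < ln q) : cA π q q' (Dl π r) = 0 :=
  (cA_Dl_tri π r).1 q q' h

theorem cA_Dl_ne (r : R π) {q q' : Bt π} (h : ln q' = ln q) (hne : q ≠ q') :
    cA π q q' (Dl π r) = 0 := (cA_Dl_tri π r).2.1 q q' h hne

/-- the twist of `R''` at a basis element: kills the `W`-letters, multiplies the others by `ch` -/
noncomputable def tw (q : Bt π) : R π →ₐ[K] R π where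
  toFun r := cA π q q (Dl π r)
  map_zero' := by rw [map_zero, map_zero]
  map_add' a b := by rw [map_add, map_add]
  commutes' c := by
    have e : Dl π (algebraMap K (R π) c) = algebraMap K (R π) c ⊗ₜ SC π (fun _ => 1) := by
      rw [AlgHom.commutes, SC_one]; rfl
    rw [e, cA_diag, pw_const, one_pow, one_smul]
  map_one' := by
    rw [map_one]
    show cA π q q ((1 : R π) ⊗ₜ 1) = 1
    rw [one_eq, cA_diag, pw_const, one_pow, one_smul]
  map_mul' a b := by
    obtain ⟨S0, hS⟩ := cA_mul_right π q (Dl π b)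
    rw [map_mul, hS (insert q S0) (Finset.subset_insert _ _), Finset.sum_eq_single q]
    · intro q'' _ h2
      rcases lt_trichotomy (ln q'') (ln q) with h1 | h1 | h1
      · rw [cA_Dl_lt π a h1, zero_mul]
      · rw [cA_Dl_ne π a h1 (Ne.symm h2), zero_mul]
      · rw [cA_Dl_lt π b h1, mul_zero]
    · intro h; exact absurd (Finset.mem_insert_self _ _) h

theorem tw_apply (q : Bt π) (r : R π) : tw π q r = cA π q q (Dl π r) := rfl

@[simp] theorem tw_X (q : Bt π) (a : Gen) : tw π q (X π a) = ch π q.1 a • X π a := by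
  rw [tw_apply, Dl_X, cA_dl_diag]

theorem tw_content {q q' : Bt π} (h : q.1 = q'.1) (r : R π) : tw π q r = tw π q' r :=
  (cA_Dl_tri π r).2.2 q q' h

/-- `θ` raises the word length by one -/
theorem cA_th_ne {q q' : Bt π} (h : ln q ≠ ln q' + 1) : cA π q q' (th π) = 0 := by
  rw [th, map_sum]
  apply Finset.sum_eq_zero
  intro g _
  rw [cA_tmul, coef_MQ_ne, zero_smul]
  intro h1
  apply h
  unfold ln
  rw [h1, Multiset.card_cons]

/-- the entries of `θ` are combinations of the `W`-letters -/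
theorem cA_th (q q' : Bt π) : cA π q q' (th π) = ∑ g, coef π q q' (MQ π g) • yl π g := by
  rw [th, map_sum]; rfl

end Crest.Agent.R186.VQ735
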