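import Crest.Agent.R186.C2c_354
import Crest.Agent.R186.C2b_44
import Crest.Agent.R186.QB_735
import Crest.Agent.R186.C2q_667
import Crest.Agent.R186.SemiFree_515

/-!
# Row 186, half (A), leaf C2x (helper354): `X''` over `L''` = window of `R''`

`XR π : XC (WR π)` = the cells `Cell × Bt π` of 735 (`cI`, `FI`) as an instance of `C2c_354`;
everything except `HA` (C2a) is proved: `hB`, `hB0`, `hG`.
-/

set_option autoImplicit false

noncomputable section

namespace Crest.Agent.R186.C2x354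

open Crest.Agent.R186.DefsQ830 Crest.Agent.R186.Cells221 Crest.Agent.R186.Win810
open Crest.Agent.R186.C2c354
open Crest.Agent.R186.PBW128 (E)
open Crest.Agent.R186.C2b44 (kill c0 bd v0 kill_cf kill_E kill_D_zero)
open Crest.Agent.R186.VQ735 (Bt Io qd ln sI cI FI mem_FI md Cm Dl th tw yl lp)
open Crest.Agent.R186.Loc261 (Lt)

variable {K : Type} [Field K] (π : Par K)

/-- positions of the sixteen cells in the window -/
def oc : Cell → DefsQ830.Ob
  | none => (1, 0)
  | some (.d _) => (0, 1)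
  | some .f => (1, 1)
  | some (.z _) => (0, 2)
  | some .zc => (1, 2)
  | some (.u s) => (1, ⟨1 + s.val, by omega⟩)
  | some (.e _) => (0, 2)
  | some (.gj _) => (0, 3)
  | some .gc => (1, 3)
  | some (.v s) => (1, ⟨2 + s.val, by omega⟩)

theorem oc_fst (c : Cell) : (((oc c).1.val : ℕ) : ℤ) = 1 + cP c := by
  rcases c with _ | c
  · rfl
  · cases c <;> rfl

theorem oc_snd (c : Cell) : (((oc c).2.val : ℕ) : ℤ) = C2b44.cA c := by
  rcases c with _ | c
  · rfl
  · cases c <;> rfl

theorem cAd_eq (c : Cell) : ((VQ735.cAd c : ℕ) : ℤ) = C2b44.cA c := by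
  rcases c with _ | c
  · rfl
  · rfl

theorem pz_pcZ (P A C : ℤ) : VQ735.pz π P A C = pcZ π P A C := by
  by_cases hA : 0 ≤ A
  · by_cases hC : 0 ≤ C
    · obtain ⟨a, rfl⟩ : ∃ a : ℕ, A = a := ⟨A.toNat, by omega⟩
      obtain ⟨c, rfl⟩ : ∃ c : ℕ, C = c := ⟨C.toNat, by omega⟩
      rw [VQ735.pz_eq_pc, pcZ_nat]
    · rw [VQ735.pz_neg π (by omega), pcZ_neg π (by omega)]
  · rw [VQ735.pz_negA π (by omega), pcZ_neg π (by omega)]

/-! ### the basis element of degree zero -/

theorem one_ne : (1 : VQ735.Q π) ≠ 0 := by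
  intro h
  have := congrArg (C2q667.aug (lp π)) h
  rw [map_one, map_zero] at this
  exact one_ne_zero this

theorem Qc_zero : Loc261.Qc (lp π) 0 = Submodule.span K {(1 : VQ735.Q π)} := by
  unfold Loc261.Qc
  congr 1
  ext u
  simp only [Set.mem_ofPred_eq, Set.mem_singleton_iff]
  constructor
  · rintro ⟨w, hw, rfl⟩
    rw [Multiset.coe_eq_zero] at hw
    subst hw
    rfl
  · rintro rfl
    exact ⟨[], rfl, rfl⟩

theorem finrank_zero : Module.finrank K (Loc261.Qc (lp π) 0) = 1 := by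
  rw [Qc_zero]
  exact finrank_span_singleton (one_ne π)

/-- the basis element of content zero -/
def eo : Bt π := ⟨0, ⟨0, by rw [finrank_zero]; exact Nat.one_pos⟩⟩

theorem content_eq {b : Bt π} (h : b.1 = 0) : b = eo π := by
  obtain ⟨m, i⟩ := b
  have h' : m = 0 := h
  subst h'
  unfold eo
  congr 1
  apply Fin.ext
  have h1 := i.2
  have h2 := finrank_zero π
  show i.val = 0
  omega

theorem qd_zero (b : Bt π) : qd b = 0 ↔ b = eo π := by
  constructor
  · intro h
    apply content_eq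
    have h1 := VQ735.card_le_md b.1
    unfold qd at h
    rw [h] at h1
    exact Multiset.card_eq_zero.1 (Nat.le_zero.1 h1)
  · rintro rfl
    simp [qd, eo, md]

theorem ln_eo : ln (eo π) = 0 := by simp [ln, eo]

theorem ln_pos {b : Bt π} (h : b ≠ eo π) : 0 < ln b := by
  rw [Nat.pos_iff_ne_zero]
  intro h0
  exact h (content_eq π (Multiset.card_eq_zero.1 h0))

/-! ### the twist at `eo` is `kill` -/

theorem ch_zero (a : Gen) : VQ735.ch π 0 a • X π a = C2b44.kg π a := by
  cases a <;> simp [VQ735.ch, C2b44.kg, VQ735.pw]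

theorem tw_eo (r : R π) : tw π (eo π) r = kill π r := by
  have h : tw π (eo π) = kill π := by
    apply RingQuot.ringQuot_ext'
    apply FreeAlgebra.hom_ext
    funext a
    show tw π (eo π) (X π a) = kill π (X π a)
    rw [VQ735.tw_X, C2b44.kill_X]
    exact ch_zero π a
  rw [h]

theorem cA_th_eo : VQ735.cA π (eo π) (eo π) (th π) = 0 :=
  VQ735.cA_th_ne π (by rw [ln_eo]; omega)

theorem kill_yl (g : Lt) : kill π (yl π g) = 0 := by
  cases g
  · exact C2b44.kill_y π 0
  · exact C2b44.kill_yb π 0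
  · exact C2b44.kill_y π 1
  · exact C2b44.kill_yb π 1

theorem kill_th (q q' : Bt π) : kill π (VQ735.cA π q q' (th π)) = 0 := by
  rw [VQ735.cA_th, map_sum]
  refine Finset.sum_eq_zero fun g _ => ?_
  rw [map_smul, kill_yl, smul_zero]

theorem kill_cI_e (a a' : Cell) : kill π (cI π (a, eo π) (a', eo π) - c0 π a a') = 0 := by
  unfold cI
  rcases a with _ | l
  · rcases a' with _ | l'
    · show kill π (VQ735.cA π (eo π) (eo π) (th π) - 0) = 0
      rw [cA_th_eo, sub_zero, map_zero]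
    · show kill π (VQ735.cA π (eo π) (eo π) 0 - 0) = 0
      rw [map_zero, sub_zero, map_zero]
  · rcases a' with _ | l'
    · show kill π (tw π (eo π) (X π l.toGen) - X π l.toGen) = 0
      rw [tw_eo, map_sub, C2b44.kill_kill, sub_self]
    · show kill π (VQ735.cA π (eo π) (eo π) (Dl π (cf π l l') + if l = l' then th π else 0)
        - cf π l l') = 0
      have h1 : VQ735.cA π (eo π) (eo π) (if l = l' then th π else 0) = 0 := by
        split_ifs
        · exact cA_th_eo π
        · exact map_zero _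
      rw [map_add, h1, add_zero, ← VQ735.tw_apply, tw_eo, map_sub, C2b44.kill_kill, sub_self]

theorem kill_cI_ne (a a' : Cell) {b : Bt π} (hb : b ≠ eo π) :
    kill π (cI π (a, b) (a', eo π)) = 0 := by
  have hl : ln (eo π) < ln b := by rw [ln_eo]; exact ln_pos π hb
  unfold cI
  rcases a with _ | l
  · rcases a' with _ | l'
    · exact kill_th π _ _
    · show kill π (VQ735.cA π b (eo π) 0) = 0
      rw [map_zero, map_zero]
  · rcases a' with _ | l'
    · show kill π (VQ735.cA π b (eo π) (Dl π (X π l.toGen))) = 0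
      rw [VQ735.cA_Dl_lt π _ hl, map_zero]
    · show kill π (VQ735.cA π b (eo π) (Dl π (cf π l l') + if l = l' then th π else 0)) = 0
      rw [map_add, VQ735.cA_Dl_lt π _ hl, zero_add]
      split_ifs
      · exact kill_th π _ _
      · rw [map_zero, map_zero]

theorem cf_self (l : E) : cf π l l = 0 := by cases l <;> rfl

theorem cf_tri {l l' : E} (h : l.toGen.dC ≤ l'.toGen.dC) : cf π l l' = 0 := by
  rcases cf_mem π l l' with h0 | ⟨A, C, _, hC, _⟩
  · exact h0
  · omega

theorem cI_diag (a : Cell) (b b' : Bt π) : cI π (a, b) (a, b') = VQ735.cA π b b' (th π) := by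
  unfold cI
  rcases a with _ | l
  · rfl
  · show VQ735.cA π b b' (Dl π (cf π l l) + if l = l then th π else 0) = _
    rw [cf_self, map_zero, zero_add, if_pos rfl]

theorem cI_tri {a a' : Cell} (b b' : Bt π) (hne : a ≠ a') (h : cdeg a ≤ cdeg a') :
    cI π (a, b) (a', b') = 0 := by
  unfold cI
  rcases a with _ | l
  · rcases a' with _ | l'
    · exact absurd rfl hne
    · exact map_zero _
  · rcases a' with _ | l'
    · rw [C2b44.cdeg_some] at h
      have : cdeg none = 0 := rfl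
      omega
    · show VQ735.cA π b b' (Dl π (cf π l l') + if l = l' then th π else 0) = 0
      rw [C2b44.cdeg_some, C2b44.cdeg_some] at h
      rw [cf_tri π (by omega), map_zero, zero_add, if_neg (fun h' => hne (by rw [h'])), map_zero]

/-- the ideal of the `W`-letters -/
def J : Submodule K (R π) := LinearMap.ker (kill π).toLinearMap

theorem mem_J {r : R π} : r ∈ J π ↔ kill π r = 0 := Iff.rfl

/-- pieces of the window in the position of a cell -/
theorem q_eq (i : DefsQ830.Ob) (c : Cell) (C : ℤ) : (WR π).q i (oc c) C =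
    pcZ π (((i.1.val : ℕ) : ℤ) - 1 - cP c) (((i.2.val : ℕ) : ℤ) - C2b44.cA c) C := by
  show pcZ π (((i.1.val : ℕ) : ℤ) - (((oc c).1.val : ℕ) : ℤ))
    (((i.2.val : ℕ) : ℤ) - (((oc c).2.val : ℕ) : ℤ)) C = _
  rw [oc_fst, oc_snd]
  congr 1
  ring

theorem mem_q (i : DefsQ830.Ob) (c : Cell) (C : ℤ) (r : (WR π).S) : r ∈ (WR π).q i (oc c) C ↔
    (show R π from r) ∈ pcZ π (((i.1.val : ℕ) : ℤ) - 1 - cP c)
      (((i.2.val : ℕ) : ℤ) - C2b44.cA c) C :=
  SetLike.ext_iff.1 (q_eq π i c C) r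

/-- **`X''` over the window of `R''`** -/
def XR : XC (WR π) where
  κ := Cell
  β := Bt π
  e := eo π
  cd := cdeg
  oc := oc
  qd := qd
  qd_e := qd_zero π
  F := FI π
  mem_F m σ := mem_FI π
  th b b' := VQ735.cA π b b' (th π)
  cc := c0 π
  c := cI π
  c_mem σ τ := by
    have h := VQ735.cI_pz π σ τ
    rw [pz_pcZ, cAd_eq, cAd_eq] at h
    rw [q_eq, oc_fst, oc_snd]
    have e1 : 1 + cP σ.1 - 1 - cP τ.1 = cP σ.1 - cP τ.1 := by ring
    rw [e1]
    exact h
  mc σ τ := VQ735.cI_mc π σ τ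
  c_diag a b b' := cI_diag π a b b'
  c_tri a a' b b' h1 h2 := cI_tri π b b' h1 h2
  J := J π
  J_left := fun s _ hj => C2b44.kill_mul_zero_left π hj s
  J_right := fun s hj => C2b44.kill_mul_zero_right π hj s
  J_D := fun hj => kill_D_zero π hj
  c_e a a' := kill_cI_e π a a'
  c_J a a' b hb := kill_cI_ne π a a' hb

/-- C2b in positive degrees -/
theorem hB : (XR π).HB := by
  intro m i x hx hd
  change Cell → R π at x
  have hx' : ∀ σ, x σ ∈ pcZ π (((i.1.val : ℕ) : ℤ) - 1 - cP σ) (((i.2.val : ℕ) : ℤ) - C2b44.cA σ)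
      ((m : ℤ) + 1 - cdeg σ) := fun σ => (mem_q π i σ _ (x σ)).1 (hx σ)
  obtain ⟨y, _, h1, h2⟩ := C2b44.exR_mod π (by omega : (0 : ℤ) < (m : ℤ) + 1) x hx' hd
  refine ⟨y, fun a => ?_, h2⟩
  have := h1 a
  rw [show (m : ℤ) + 1 + 1 - (cdeg a : ℤ) = m + 2 - cdeg a by ring] at this
  exact (mem_q π i a _ (y a)).2 this

/-- values of the cells in `V_{-1}` -/
def vc (K : Type) [Field K] : Cell → VOp220.Pol K
  | none => v0 K
  | some _ => 0

theorem vc_zero (a : Cell) (h : cdeg a ≠ 0) : vc K a = 0 := by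
  rcases a with _ | l
  · exact absurd rfl h
  · rfl

theorem sum_vc (x : Cell → R π) :
    ∑ a, Vmod220.rep π (x a) (vc K a) = Vmod220.rep π (x none) (v0 K) := by
  rw [Fintype.sum_option]
  simp [vc]

/-- C2b in degree zero -/
theorem hB0 : (XR π).HB0 (M := VR π (-1)) (vc K) := by
  intro i x hx hv
  change Cell → R π at x
  have hx' : ∀ σ, x σ ∈ pcZ π (((i.1.val : ℕ) : ℤ) - 1 - cP σ) (((i.2.val : ℕ) : ℤ) - C2b44.cA σ)
      (-(cdeg σ : ℤ)) := fun σ => (mem_q π i σ _ (x σ)).1 (hx σ)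
  have hv' : Vmod220.rep π (x none) (v0 K) = 0 := by
    rw [← sum_vc]
    exact hv
  have hP : ((i.1.val : ℕ) : ℤ) - 1 ≤ 0 := by
    have := i.1.2
    omega
  obtain ⟨y, _, h1, h2⟩ := C2b44.exR0_mod π hP x hx' hv'
  exact ⟨y, fun a => (mem_q π i a _ (y a)).2 (h1 a), h2⟩

/-- C2b, generation -/
theorem hG : (XR π).HG (M := VR π (-1)) (vc K) := by
  intro i u hu
  have hP : ((i.1.val : ℕ) : ℤ) - 1 ≤ 0 := by
    have := i.1.2
    omega
  have hu' : u ∈ VOp220.hom K (((i.1.val : ℕ) : ℤ) - 1) := by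
    have h : u ∈ VOp220.hom K (-1 + ((i.1.val : ℕ) : ℤ)) := hu
    rwa [show (-1 : ℤ) + ((i.1.val : ℕ) : ℤ) = ((i.1.val : ℕ) : ℤ) - 1 by ring] at h
  obtain ⟨r, h1, h2⟩ := C2b44.gen_mod π (A := ((i.2.val : ℕ) : ℤ)) (by omega) hP hu'
  refine ⟨fun a => match a with | none => r | some _ => 0, fun a => ?_, ?_⟩
  · rcases a with _ | l
    · refine (mem_q π i none _ r).2 ?_
      have e1 : ((i.1.val : ℕ) : ℤ) - 1 - cP none = ((i.1.val : ℕ) : ℤ) - 1 := by
        simp [cP]
      have e2 : ((i.2.val : ℕ) : ℤ) - C2b44.cA none = ((i.2.val : ℕ) : ℤ) := by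
        simp [C2b44.cA]
      rw [e1, e2]
      exact h1
    · exact Submodule.zero_mem _
  · have := sum_vc π (fun a => match a with | none => r | some _ => 0)
    exact this.trans h2

/-- the augmentation kills the boundaries -/
theorem aug_cI (σ : Io π) : Vmod220.rep π (cI π σ (none, eo π)) (v0 K) = 0 := by
  rw [← C2b44.rep_kill]
  obtain ⟨a, b⟩ := σ
  by_cases hb : b = eo π
  · subst hb
    have h := kill_cI_e π a none
    rw [map_sub, sub_eq_zero] at h
    rw [h]
    rcases a with _ | l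
    · show Vmod220.rep π (kill π 0) (v0 K) = 0
      rw [map_zero, map_zero]; rfl
    · show Vmod220.rep π (kill π (X π l.toGen)) (v0 K) = 0
      rw [kill_E]
      exact C2b44.rep_E_v0 π l
  · rw [kill_cI_ne π a none hb, map_zero]; rfl

theorem vc_mem (a : Cell) : vc K a ∈ (VR π (-1)).W (oc a) := by
  rcases a with _ | l
  · show v0 K ∈ VOp220.hom K (-1 + ((((1 : Fin 2)).val : ℕ) : ℤ))
    exact VOp220.mon_mem (by norm_num)
  · exact Submodule.zero_mem _

end Crest.Agent.R186.C2x354
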