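import Crest.Agent.R186.C2F_307
import Crest.Agent.R186.C2x_354

/-!
# Row 186, half (A), leaf (c2) (helper307), part 7: the statement on functions `Io π → M`

`Hom^p(X'', M)` = functions `φ : Io π → MM π`, `φ σ` of degree `sI σ - p`;
`dI φ σ = dMM (φ σ) + Σ_τ cI σ τ • φ τ`; `iI η σ = [σ.2 = eo] (η σ.1) o_1`.
`c2_cone`: the cone of `iI : H → Hom(X'', M)` is exact; `c2_surj`, `c2_inj`.
-/

set_option autoImplicit false

noncomputable section

namespace Crest.Agent.R186.C2M307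

open Crest.Agent.R186.DefsQ830 Crest.Agent.R186.PBW128 Crest.Agent.R186.SM890
open Crest.Agent.R186.Win810
open Crest.Agent.R186.Cells221 (Cell cdeg cP)
open Crest.Agent.R186.C2b44 (kill c0)
open Crest.Agent.R186.VQ735 (lp Bt qd A2 yl Q Dl Cm DA cAd G2 pz Io sI cI FI mem_FI Bq mem_Bq)
open Crest.Agent.R186.C2x354 (eo)
open TensorProduct

variable {K : Type} [Field K] (π : Par K)

/-- coordinates -/
def kE : NQ π ≃ₗ[K] (Bt π →₀ N K) := TensorProduct.equivFinsuppOfBasisRight (VQ735.bq π)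

/-- the coordinate `q` -/
def kq (q : Bt π) : NQ π →ₗ[K] N K := (Finsupp.lapply q) ∘ₗ (kE π).toLinearMap

theorem kq_tmul (q : Bt π) (m : N K) (u : Q π) :
    kq π q (m ⊗ₜ u) = (VQ735.bq π).repr u q • m :=
  TensorProduct.equivFinsuppOfBasisRight_apply_tmul_apply (VQ735.bq π) m u q

theorem kq_ext {t t' : NQ π} (h : ∀ q, kq π q t = kq π q t') : t = t' := by
  apply (kE π).injective
  ext1 q
  exact h q

theorem kq_bq (q q' : Bt π) (m : N K) :
    kq π q (m ⊗ₜ VQ735.bq π q') = if q' = q then m else 0 := by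
  rw [kq_tmul, Module.Basis.repr_self, Finsupp.single_apply]
  split_ifs
  · rw [one_smul]
  · rw [zero_smul]

/-- the element with given coordinates -/
def tS (S : Finset (Bt π)) (f : Bt π → N K) : NQ π := ∑ q ∈ S, f q ⊗ₜ VQ735.bq π q

theorem kq_tS (S : Finset (Bt π)) (f : Bt π → N K) (q : Bt π) :
    kq π q (tS π S f) = if q ∈ S then f q else 0 := by
  rw [tS, map_sum]
  simp only [kq_bq]
  rw [Finset.sum_ite_eq' S q f]

theorem exists_S (t : NQ π) : ∃ S : Finset (Bt π), ∀ q, q ∉ S → kq π q t = 0 :=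
  ⟨(kE π t).support, fun _ h => Finsupp.notMem_support_iff.1 h⟩

theorem eq_tS (t : NQ π) (S : Finset (Bt π)) (h : ∀ q, q ∉ S → kq π q t = 0) :
    t = tS π S (fun q => kq π q t) := by
  apply kq_ext
  intro q
  rw [kq_tS]
  split_ifs with hq
  · rfl
  · exact h q hq

theorem kq_act_bq (q q' : Bt π) (a : A2 π) (m : N K) :
    kq π q (act2 π a (m ⊗ₜ VQ735.bq π q')) = repM π (VQ735.cA π q q' a) m := by
  induction a using TensorProduct.induction_on with
  | zero => simp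
  | add a b ha hb => simp only [map_add, LinearMap.add_apply, ha, hb]
  | tmul r T =>
    rw [act2_tmul, kq_tmul, VQ735.cA_tmul, map_smul]
    rfl

theorem kq_act (q : Bt π) (a : A2 π) (t : NQ π) (S : Finset (Bt π))
    (hS : ∀ q', q' ∉ S → VQ735.cA π q q' a = 0) :
    kq π q (act2 π a t) = ∑ q' ∈ S, repM π (VQ735.cA π q q' a) (kq π q' t) := by
  obtain ⟨S', hS'⟩ := exists_S π t
  have h1 := eq_tS π t (S ∪ S') (fun q' h => hS' q' fun h' => h (Finset.mem_union_right _ h'))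
  conv_lhs => rw [h1]
  rw [tS, map_sum, map_sum]
  simp only [kq_act_bq]
  symm
  refine Finset.sum_subset Finset.subset_union_left ?_
  intro q' _ hq'
  rw [hS q' hq', map_zero, LinearMap.zero_apply]

theorem kq_DN (q : Bt π) (t : NQ π) : kq π q (DN π t) = dM π (kq π q t) := by
  induction t using TensorProduct.induction_on with
  | zero => simp
  | add a b ha hb => simp only [map_add, ha, hb]
  | tmul m u => rw [DN_tmul, kq_tmul, kq_tmul, map_smul]

/-! ### functions on the cells -/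

/-- the differential of `Hom(X'', M)` -/
def dI (φ : Io π → MM π) (σ : Io π) : MM π :=
  dMM π (φ σ) + ∑ τ ∈ FI π (sI σ), cI π σ τ • φ τ

/-- coordinates -/
def toI (φ : ME π) (σ : Io π) : MM π := kq π σ.2 (φ σ.1)

theorem toI_dE (φ : ME π) : toI π (dE π φ) = dI π (toI π φ) := by
  funext σ
  have h1 : dI π (toI π φ) σ = dM π (kq π σ.2 (φ σ.1)) +
      ∑ τ ∈ FI π (sI σ), repM π (cI π σ τ) (kq π τ.2 (φ τ.1)) := rfl
  rw [h1, VQ735.sum_FI π σ (fun τ => repM π (cI π σ τ) (kq π τ.2 (φ τ.1)))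
    (fun τ h => by rw [VQ735.cI_zero π h, map_zero, LinearMap.zero_apply])]
  show kq π σ.2 (dE π φ σ.1) = _
  rw [dE_apply, map_add, kq_DN, map_sum]
  congr 1
  refine Finset.sum_congr rfl fun c' _ => ?_
  refine kq_act π σ.2 _ _ (Bq π (sI σ)) (fun q' hq' => ?_)
  rw [mem_Bq] at hq'
  have h2 : cI π σ (c', q') = 0 := by
    apply VQ735.cI_zero
    simp only [sI] at hq' ⊢
    omega
  exact h2

theorem toI_add (φ ψ : ME π) (σ : Io π) : toI π (φ + ψ) σ = toI π φ σ + toI π ψ σ :=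
  map_add (kq π σ.2) (φ σ.1) (ψ σ.1)

/-- the element of the tensor form -/
def ofI (n : ℕ) (φ : Io π → MM π) : ME π := fun c => tS π (Bq π n) (fun q => φ (c, q))

theorem toI_ofI (n : ℕ) (φ : Io π → MM π) (h : ∀ σ : Io π, n < qd σ.2 → φ σ = 0) :
    toI π (ofI π n φ) = φ := by
  funext σ
  refine (kq_tS π (Bq π n) (fun q => (φ (σ.1, q) : N K)) σ.2).trans ?_
  by_cases hq : σ.2 ∈ Bq π n
  · exact if_pos hq
  · refine (if_neg hq).trans ?_
    rw [mem_Bq, not_le] at hq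
    exact (h σ hq).symm

variable {s : ℕ} {P0 A0 : ℤ}

theorem EG_ofI (n : ℕ) {p : ℤ} {φ : Io π → MM π}
    (h : ∀ σ, φ σ ∈ pcM π s (P0 + cP σ.1) (A0 + cAd σ.1) ((sI σ : ℤ) - p)) :
    EG π s P0 A0 p (ofI π n φ) := by
  intro c
  refine Submodule.sum_mem _ fun q _ => ?_
  have h1 : (φ (c, q) : N K) ∈ pM (K := K) s (P0 + cP c) (A0 + cAd c) ((sI (c, q) : ℤ) - p) := by
    rw [← pM_le π]
    exact h (c, q)
  refine tmul_GQ π h1 (bq_Qd π q) ?_
  simp only [sI]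
  push_cast
  ring

theorem toI_mem {p : ℤ} {φ : ME π} (h : EG π s P0 A0 p φ) (σ : Io π) :
    toI π φ σ ∈ pcM π s (P0 + cP σ.1) (A0 + cAd σ.1) ((sI σ : ℤ) - p) := by
  have h1 : kq π σ.2 (φ σ.1) ∈ pM (K := K) s (P0 + cP σ.1) (A0 + cAd σ.1) ((sI σ : ℤ) - p) := by
    refine GQ_map π (T := pM (K := K) s (P0 + cP σ.1) (A0 + cAd σ.1) ((sI σ : ℤ) - p))
      (kq π σ.2) (fun k m u hm hu => ?_) (h σ.1)
    rw [kq_tmul]
    by_cases hk : (qd σ.2 : ℤ) = k
    · refine Submodule.smul_mem _ _ ?_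
      have e : (sI σ : ℤ) - p = cdeg σ.1 - p + k := by
        simp only [sI]; push_cast; rw [← hk]; ring
      rw [e]
      exact hm
    · rw [hu σ.2 hk, zero_smul]; exact Submodule.zero_mem _
  rw [← pM_le π] at h1
  exact h1

/-- `M` vanishes in high degrees -/
theorem pcM_high {P A C : ℤ} (h : 2 * A + 2 + s < C) : pcM π s P A C = ⊥ := by
  apply pcM_bot
  intro q
  apply pcZ_big
  have : (0 : ℤ) ≤ wC q.word := Int.natCast_nonneg _
  linarith

/-- the map `H → Hom(X'', M)` -/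
def iI (η : Cell → R π) (σ : Io π) : MM π := if σ.2 = eo π then oM π .one (η σ.1) else 0

/-- the coefficient of `1` -/
def la : K := (VQ735.bq π).repr 1 (eo π)

theorem repr_one (q : Bt π) : (VQ735.bq π).repr 1 q = if q = eo π then la π else 0 := by
  split_ifs with h
  · rw [h]; rfl
  · refine VQ735.repr_ne π (m := 0) (Loc261.wp_mem (lp π) []) ?_
    intro h1
    exact h (C2x354.content_eq π h1)

theorem la_ne : la π ≠ 0 := by
  intro h
  have h1 : (VQ735.bq π).repr (1 : Q π) = 0 := by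
    ext q
    rw [repr_one, h]
    simp
  have h2 : (1 : Q π) = 0 := (VQ735.bq π).repr.map_eq_zero_iff.1 h1
  have h3 := KosQ307.eps_one (lp π)
  rw [h2, map_zero] at h3
  exact zero_ne_one h3

theorem toI_io (η : Cell → R π) (σ : Io π) : toI π (io π η) σ = la π • iI π η σ := by
  show kq π σ.2 (iq π (η σ.1)) = _
  rw [iq_apply, kq_tmul, repr_one, iI]
  split_ifs
  · rfl
  · rw [zero_smul, smul_zero]; rfl

theorem cone_aux {p : ℤ} {η : Cell → R π} {φ : Io π → MM π}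
    (hη : HG π s P0 A0 (p + 1) η)
    (hφ : ∀ σ, φ σ ∈ pcM π s (P0 + cP σ.1) (A0 + cAd σ.1) ((sI σ : ℤ) - p))
    (h1 : dH π η = 0) (h2 : ∀ σ, dI π φ σ = iI π η σ) :
    ∃ (η' : Cell → R π) (φ' : Io π → MM π), HG π s P0 A0 p η' ∧
      (∀ σ, φ' σ ∈ pcM π s (P0 + cP σ.1) (A0 + cAd σ.1) ((sI σ : ℤ) - (p - 1))) ∧
      η = dH π η' ∧ ∀ σ, φ σ = dI π φ' σ + iI π η' σ := by
  have hl := la_ne π
  -- bound of the support
  obtain ⟨n, hn⟩ : ∃ n : ℕ, ∀ σ : Io π, n < qd σ.2 → φ σ = 0 := by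
    obtain ⟨a, ha⟩ : ∃ a : ℕ, ∀ c : Cell, (cAd c : ℤ) ≤ a := by
      refine ⟨∑ c, cAd c, fun c => ?_⟩
      exact_mod_cast Finset.single_le_sum (f := cAd) (fun _ _ => Nat.zero_le _) (Finset.mem_univ c)
    refine ⟨(2 * (A0 + a) + 2 + s + p).toNat, fun σ hσ => ?_⟩
    have h3 := hφ σ
    rw [pcM_high, Submodule.mem_bot] at h3
    · exact h3
    · have h4 := ha σ.1
      have h5 : (sI σ : ℤ) = cdeg σ.1 + qd σ.2 := by simp [sI]
      omega
  have hη' : HG π s P0 A0 (p + 1) ((la π)⁻¹ • η) := fun c =>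
    ⟨Submodule.smul_mem _ _ (hη c).1, by rw [Pi.smul_apply, map_smul, (hη c).2]⟩
  have hcyc : dE π (ofI π n φ) = io π ((la π)⁻¹ • η) := by
    funext c
    apply kq_ext
    intro q
    have h3 := congrFun (toI_dE π (ofI π n φ)) (c, q)
    rw [toI_ofI π n φ hn, h2] at h3
    have h4 := toI_io π ((la π)⁻¹ • η) (c, q)
    have h5 : iI π ((la π)⁻¹ • η) (c, q) = (la π)⁻¹ • iI π η (c, q) := by
      unfold iI
      split_ifs
      · exact (oM π .one).map_smul _ _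
      · exact (smul_zero _).symm
    rw [h5, smul_smul, mul_inv_cancel₀ hl, one_smul] at h4
    exact h3.trans h4.symm
  obtain ⟨η1, φ1, a1, a2, a3, a4⟩ := exact_ME π hη' (EG_ofI π n hφ)
    (by rw [map_smul, h1, smul_zero]) hcyc
  refine ⟨la π • η1, toI π φ1, fun c => ⟨Submodule.smul_mem _ _ (a1 c).1, by
    rw [Pi.smul_apply, map_smul, (a1 c).2]⟩, toI_mem π a2, ?_, fun σ => ?_⟩
  · rw [map_smul, ← a3, smul_smul, mul_inv_cancel₀ hl, one_smul]
  · have h3 := congrFun (congrArg (toI π) a4) σ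
    rw [toI_ofI π n φ hn, toI_add, toI_dE, toI_io] at h3
    rw [h3]
    congr 1
    unfold iI
    split_ifs
    · exact ((oM π .one).map_smul (la π) (η1 σ.1)).symm
    · exact smul_zero _

/-- **(c2): the cone of `H → Hom(X'', M)` is exact** -/
theorem c2_cone {p : ℤ} {η : Cell → R π} {φ : Io π → MM π}
    (hη : ∀ c, η c ∈ pcZ π (P0 + cP c + 1) (A0 + cAd c) ((cdeg c : ℤ) - (p + 1) - s))
    (hk : ∀ c, kill π (η c) = η c)
    (hφ : ∀ σ, φ σ ∈ pcM π s (P0 + cP σ.1) (A0 + cAd σ.1) ((sI σ : ℤ) - p))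
    (h1 : ∀ c, kill π (Der580.D π (η c) + ∑ c', c0 π c c' * η c') = 0)
    (h2 : ∀ σ, dMM π (φ σ) + ∑ τ ∈ FI π (sI σ), cI π σ τ • φ τ =
      if σ.2 = eo π then oM π .one (η σ.1) else 0) :
    ∃ (η' : Cell → R π) (φ' : Io π → MM π),
      (∀ c, η' c ∈ pcZ π (P0 + cP c + 1) (A0 + cAd c) ((cdeg c : ℤ) - p - s)) ∧
      (∀ c, kill π (η' c) = η' c) ∧
      (∀ σ, φ' σ ∈ pcM π s (P0 + cP σ.1) (A0 + cAd σ.1) ((sI σ : ℤ) - p + 1)) ∧
      (∀ c, η c = kill π (Der580.D π (η' c) + ∑ c', c0 π c c' * η' c')) ∧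
      ∀ σ, φ σ = dMM π (φ' σ) + ∑ τ ∈ FI π (sI σ), cI π σ τ • φ' τ +
        if σ.2 = eo π then oM π .one (η' σ.1) else 0 := by
  obtain ⟨η', φ', a1, a2, a3, a4⟩ := cone_aux π (s := s) (P0 := P0) (A0 := A0) (p := p)
    (fun c => ⟨hη c, hk c⟩) hφ (funext h1) h2
  refine ⟨η', φ', fun c => (a1 c).1, fun c => (a1 c).2, fun σ => ?_, congrFun a3, a4⟩
  have := a2 σ
  rwa [show (sI σ : ℤ) - (p - 1) = sI σ - p + 1 by ring] at this

/-- surjectivity on classes -/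
theorem c2_surj {p : ℤ} {φ : Io π → MM π}
    (hφ : ∀ σ, φ σ ∈ pcM π s (P0 + cP σ.1) (A0 + cAd σ.1) ((sI σ : ℤ) - p))
    (h2 : ∀ σ, dMM π (φ σ) + ∑ τ ∈ FI π (sI σ), cI π σ τ • φ τ = 0) :
    ∃ (η' : Cell → R π) (φ' : Io π → MM π),
      (∀ c, η' c ∈ pcZ π (P0 + cP c + 1) (A0 + cAd c) ((cdeg c : ℤ) - p - s)) ∧
      (∀ c, kill π (η' c) = η' c) ∧
      (∀ σ, φ' σ ∈ pcM π s (P0 + cP σ.1) (A0 + cAd σ.1) ((sI σ : ℤ) - p + 1)) ∧
      (∀ c, kill π (Der580.D π (η' c) + ∑ c', c0 π c c' * η' c') = 0) ∧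
      ∀ σ, φ σ = dMM π (φ' σ) + ∑ τ ∈ FI π (sI σ), cI π σ τ • φ' τ +
        if σ.2 = eo π then oM π .one (η' σ.1) else 0 := by
  obtain ⟨η', φ', a1, a2, a3, a4, a5⟩ := c2_cone π (s := s) (P0 := P0) (A0 := A0) (p := p)
    (η := 0) (fun c => Submodule.zero_mem _) (fun c => map_zero _) hφ
    (fun c => by simp) (fun σ => by rw [h2]; split_ifs <;> simp)
  exact ⟨η', φ', a1, a2, a3, fun c => (a4 c).symm, a5⟩

end Crest.Agent.R186.C2M307
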