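import Crest.Agent.R186.WLF_296
import Crest.Agent.R186.SMp_890

/-!
Row 186, half (A) (helper982), for helper306's road: the RIGHT-FORM coordinates of 890's bimodule
`M`, `m = Σ_q o_q · lM q m` with `lM q m ∈ R' = range kill`, and the socle filtration
`FM 0 = M ⊇ FM 1 ⊇ FM 2 ⊇ FM 3 = 0` by sub-bimodules.
-/

set_option autoImplicit false

noncomputable section

namespace Crest.Agent.R186.WLM982

open Crest.Agent.R186.DefsQ830 Crest.Agent.R186.PBW128 Crest.Agent.R186.SM890
open Crest.Agent.R186.C2b362 (pz J)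
open Crest.Agent.R186.C2b44 (kill kill_mem kill_x kill_h kill_kill kill_nf kill_D)
open Crest.Agent.R186.WLF296 (lq lev)
open Crest.Agent.R186.Cells221 (tR)

variable {K : Type} [Field K] (π : Par K)

/-! ### inverse torus points -/

/-- inverse of a torus point -/
def tinv (t : Tor K) : Tor K :=
  ⟨t.a0⁻¹, t.a1⁻¹, t.b⁻¹, inv_ne_zero t.h0, inv_ne_zero t.h1, inv_ne_zero t.hb⟩

theorem tw_tinv (t : Tor K) (a : Gen) : tw (tinv t) a = (tw t a)⁻¹ := by
  cases a <;> simp only [tw, tinv, sg, inv_one] <;> split_ifs <;> rfl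

theorem hom_ext {A : Type*} [Semiring A] [Algebra K A] {φ ψ : R π →ₐ[K] A}
    (h : ∀ a, φ (X π a) = ψ (X π a)) : φ = ψ := by
  apply RingQuot.ringQuot_ext'
  apply FreeAlgebra.hom_ext
  funext a
  exact h a

theorem tau_tinv (t : Tor K) (r : R π) : tau π (tinv t) (tau π t r) = r := by
  have h : (tau π (tinv t)).comp (tau π t) = AlgHom.id K (R π) := by
    apply hom_ext π
    intro a
    show tau π (tinv t) (tau π t (X π a)) = X π a
    rw [tau_X, map_smul, tau_X, smul_smul, tw_tinv, mul_inv_cancel₀ (tw_ne t a), one_smul]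
  exact DFunLike.congr_fun h r

theorem tau_tinv' (t : Tor K) (r : R π) : tau π t (tau π (tinv t) r) = r := by
  have h : (tau π t).comp (tau π (tinv t)) = AlgHom.id K (R π) := by
    apply hom_ext π
    intro a
    show tau π t (tau π (tinv t) (X π a)) = X π a
    rw [tau_X, map_smul, tau_X, smul_smul, tw_tinv, inv_mul_cancel₀ (tw_ne t a), one_smul]
  exact DFunLike.congr_fun h r

theorem kill_tau (t : Tor K) (r : R π) : kill π (tau π t r) = tau π t (kill π r) := by
  have h : (kill π).comp (tau π t) = (tau π t).comp (kill π) := by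
    apply hom_ext π
    intro a
    show kill π (tau π t (X π a)) = tau π t (kill π (X π a))
    rw [tau_X, map_smul]
    cases a with
    | y s => rw [C2b44.kill_y, smul_zero, map_zero]
    | yb s => rw [C2b44.kill_yb, smul_zero, map_zero]
    | _ => simp
  exact DFunLike.congr_fun h r

theorem tau_h (t : Tor K) : tau π t (X π .h) = X π .h := by rw [tau_X]; simp [tw]

theorem tau_tR (t : Tor K) : tau π t (tR π) = tR π := by
  have h0 := t.h0
  have h1 := t.h1
  simp only [tR, map_add, map_smul, map_mul, tau_X, tw, if_true, if_neg (show ¬ ((1 : Fin 2) = 0) by decide),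
    one_smul, smul_mul_assoc, mul_smul_comm, smul_smul]
  rw [mul_inv_cancel₀ h0, mul_inv_cancel₀ h1, one_smul, one_smul]

/-! ### left-form coordinates -/

/-- the `q`-component, coordinates -/
def cN (K : Type) [Field K] (q : Wb) : N K →ₗ[K] N K :=
  Finsupp.linearCombination K (fun ν : Ix =>
    if ν.2.2.2.2 = q then bv K ν.1 ν.2.1 ν.2.2.1 ν.2.2.2.1 .one else 0)

theorem cN_bv (q : Wb) (i j k : ℕ) (w : List E) (q' : Wb) : cN K q (bv K i j k w q') =
    if q' = q then bv K i j k w .one else 0 := by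
  simp [cN, bv]

/-- left-form coordinates: `m = Σ_q (cM q m) o_q` -/
def cM (q : Wb) : MM π →ₗ[K] R π := Psi π ∘ₗ cN K q

theorem cM_bv (q : Wb) (i j k : ℕ) (w : List E) (q' : Wb) :
    cM π q (bv K i j k w q' : N K) = if q' = q then nf π (i, j, k, w, .one) else 0 := by
  show Psi π (cN K q _) = _
  rw [cN_bv]
  split_ifs
  · rw [Psi_bv]
  · rw [map_zero]

theorem kill_cM (q : Wb) (m : MM π) : kill π (cM π q m) = cM π q m := by
  have h : (kill π).toLinearMap ∘ₗ cM π q = cM π q := by
    apply ext_bv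
    intro i j k w q'
    show kill π (cM π q _) = cM π q _
    rw [cM_bv]
    split_ifs
    · rw [WLF296.kill_nf', if_pos rfl]
    · rw [map_zero]
  exact LinearMap.congr_fun h m

theorem sum_cM (m : MM π) : m = ∑ q, oM π q (cM π q m) := by
  have h : (LinearMap.id : N K →ₗ[K] N K) =
      ∑ q, evM π (oo K q) ∘ₗ (Psi π ∘ₗ cN K q) := by
    apply ext_bv
    intro i j k w q'
    rw [LinearMap.id_apply, LinearMap.sum_apply, Finset.sum_eq_single q']
    · rw [LinearMap.comp_apply, LinearMap.comp_apply, cN_bv, if_pos rfl, Psi_bv, evM_apply]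
      exact (repM_nf1 π i j k w q').symm
    · intro q _ hq
      rw [LinearMap.comp_apply, LinearMap.comp_apply, cN_bv, if_neg (Ne.symm hq), map_zero,
        map_zero]
    · intro h; exact absurd (Finset.mem_univ _) h
  have key : ∀ n : N K, n = ∑ q, evM π (oo K q) (Psi π (cN K q n)) := by
    intro n
    have := LinearMap.congr_fun h n
    rw [LinearMap.id_apply, LinearMap.sum_apply] at this
    exact this
  exact key m

theorem cM_oM_kill (q q' : Wb) (r : R π) :
    cM π q' (oM π q (kill π r)) = if q' = q then kill π r else 0 := by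
  have key : ∀ i j k w, cM π q' (oM π q (nf π (i, j, k, w, .one))) =
      if q' = q then nf π (i, j, k, w, .one) else 0 := by
    intro i j k w
    have e : oM π q (nf π (i, j, k, w, .one)) = (bv K i j k w q : N K) := repM_nf1 π i j k w q
    rw [e, cM_bv]
    by_cases h : q' = q
    · rw [if_pos h, if_pos h.symm]
    · rw [if_neg h, if_neg (Ne.symm h)]
  by_cases hq : q' = q
  · rw [if_pos hq]
    refine WLF296.ext_nf π (φ := cM π q' ∘ₗ oM π q ∘ₗ (kill π).toLinearMap)
      (ψ := (kill π).toLinearMap) ?_ r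
    intro i j k w q0
    show cM π q' (oM π q (kill π _)) = kill π _
    rw [WLF296.kill_nf']
    split_ifs with h
    · subst h; rw [key, if_pos hq]
    · rw [map_zero, map_zero]
  · rw [if_neg hq]
    refine WLF296.ext_nf π (φ := cM π q' ∘ₗ oM π q ∘ₗ (kill π).toLinearMap)
      (ψ := (0 : R π →ₗ[K] R π)) ?_ r
    intro i j k w q0
    show cM π q' (oM π q (kill π _)) = 0
    rw [WLF296.kill_nf']
    split_ifs with h
    · subst h; rw [key, if_neg hq]
    · rw [map_zero, map_zero]

theorem cM_mem (s : ℕ) {P A C : ℤ} {m : MM π} (hm : m ∈ pcM π s P A C) (q : Wb) :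
    cM π q m ∈ pz π (P + 1) A (C - s + wC q.word) := by
  rw [pcM_supported] at hm
  have h2 : (Finsupp.supported K K (mI s P A C) : Submodule K (N K)) ≤
      (pz π (P + 1) A (C - s + wC q.word)).comap (Psi π ∘ₗ cN K q) := by
    rw [Finsupp.supported_eq_span_single, Submodule.span_le]
    rintro _ ⟨⟨i, j, k, w, q'⟩, ⟨h1, h2, h3⟩, rfl⟩
    show cM π q (bv K i j k w q' : N K) ∈ pz π (P + 1) A (C - s + wC q.word)
    rw [cM_bv]
    split_ifs with h
    · subst h
      rw [← KOS296.pcZ_eq_pz]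
      have h4 := nf_mem_pc π (i, j, k, w, .one)
      rw [← Win810.pcZ_nat] at h4
      have e1 : dPx (i, j, k, w, .one) = P + 1 := by
        have : mP (i, j, k, w, q') = dPx (i, j, k, w, .one) - 1 := rfl
        omega
      have e2 : (dAx (i, j, k, w, .one) : ℤ) = A := h2
      have e3 : (dCx (i, j, k, w, .one) : ℤ) = C - s + wC q'.word := by
        have e4 : dCx (i, j, k, w, .one) = (w.map (fun l => l.toGen.dC)).sum := by
          simp [dCx, Wb.word, wC]
        have : mC s (i, j, k, w, q') = (((w.map (fun l => l.toGen.dC)).sum : ℕ) : ℤ) - wC q'.word + s := rfl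
        rw [e4]
        omega
      rw [e1, e2, e3] at h4
      exact h4
    · exact Submodule.zero_mem _
  exact h2 hm

/-! ### right-form coordinates -/

/-- `r ↦ o_q · r` -/
def ro (q : Wb) : R π →ₗ[K] MM π := oM π q ∘ₗ (tau π (Tq π q)).toLinearMap

theorem ro_apply (q : Wb) (r : R π) : ro π q r = oM π q (tau π (Tq π q) r) := rfl

theorem ro_eq (q : Wb) (r : R π) : ro π q r = MulOpposite.op r • oM π q 1 := by
  rw [op_smul_oM, one_mul]; rfl

theorem op_ro (q : Wb) (r s : R π) : MulOpposite.op s • ro π q r = ro π q (r * s) := by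
  rw [ro_apply, op_smul_oM, ← map_mul]; rfl

theorem smul_ro (q : Wb) (r s : R π) : tau π (Tq π q) s • ro π q r = ro π q (s * r) := by
  rw [ro_apply, smul_oM, ← map_mul]; rfl

theorem dMM_ro (q : Wb) (r : R π) : dMM π (ro π q r) = ro π q (Der580.D π r) := by
  rw [ro_apply, dMM_oM, ← tau_D]; rfl

/-- right-form coordinates: `m = Σ_q o_q (lM q m)` -/
def lM (q : Wb) : MM π →ₗ[K] R π := (tau π (tinv (Tq π q))).toLinearMap ∘ₗ cM π q

theorem lM_apply (q : Wb) (m : MM π) : lM π q m = tau π (tinv (Tq π q)) (cM π q m) := rfl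

theorem kill_lM (q : Wb) (m : MM π) : kill π (lM π q m) = lM π q m := by
  rw [lM_apply, kill_tau, kill_cM]

/-- **right normal form of `M`** -/
theorem sum_lM (m : MM π) : m = ∑ q, ro π q (lM π q m) := by
  conv_lhs => rw [sum_cM π m]
  refine Finset.sum_congr rfl fun q _ => ?_
  rw [ro_apply, lM_apply, tau_tinv']

theorem eq_zero_of_lM {m : MM π} (h : ∀ q, lM π q m = 0) : m = 0 := by
  rw [sum_lM π m]
  exact Finset.sum_eq_zero fun q _ => by rw [h q, map_zero]

theorem lM_ro_kill (q q' : Wb) (r : R π) :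
    lM π q' (ro π q (kill π r)) = if q' = q then kill π r else 0 := by
  rw [lM_apply, ro_apply, ← kill_tau, cM_oM_kill]
  by_cases h : q' = q
  · subst h
    rw [if_pos rfl, if_pos rfl, kill_tau, tau_tinv]
  · rw [if_neg h, if_neg h, map_zero]

theorem lM_ro_of (q q' : Wb) {r : R π} (hr : kill π r = r) :
    lM π q' (ro π q r) = if q' = q then r else 0 := by
  have := lM_ro_kill π q q' r
  rwa [hr] at this

/-- uniqueness of the right normal form -/
theorem lM_sum (s : Wb → R π) (hs : ∀ q, kill π (s q) = s q) (q' : Wb) :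
    lM π q' (∑ q, ro π q (s q)) = s q' := by
  rw [map_sum, Finset.sum_eq_single q']
  · rw [lM_ro_of π q' q' (hs q'), if_pos rfl]
  · intro q _ hq
    rw [lM_ro_of π q q' (hs q), if_neg (Ne.symm hq)]
  · intro h; exact absurd (Finset.mem_univ _) h

theorem tau_pz (t : Tor K) {P A C : ℤ} {r : R π} (hr : r ∈ pz π P A C) :
    tau π t r ∈ pz π P A C := by
  rw [← KOS296.pcZ_eq_pz] at hr ⊢
  exact tau_pcZ π t hr

/-- degrees -/
theorem lM_mem (s : ℕ) {P A C : ℤ} {m : MM π} (hm : m ∈ pcM π s P A C) (q : Wb) :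
    lM π q m ∈ pz π (P + 1) A (C - s + wC q.word) :=
  tau_pz π _ (cM_mem π s hm q)

theorem ro_mem (s : ℕ) {P A C : ℤ} {r : R π} (q : Wb)
    (hr : r ∈ pz π (P + 1) A (C - s + wC q.word)) : ro π q r ∈ pcM π s P A C := by
  refine mem_pcM π s q (C' := C - s + wC q.word) ?_ rfl
  rw [KOS296.pcZ_eq_pz]
  exact tau_pz π _ hr

/-! ### levels -/

/-- socle level -/
def levM : Wb → ℕ
  | .one => 2
  | .y _ => 1
  | .yb _ => 1
  | .pi => 0

theorem levM_le (q : Wb) : levM q ≤ 2 := by cases q <;> simp [levM]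

theorem cW_lev (q1 q : Wb) : q1 = .one ∨ cW π q1 q = 0 ∨ levM q < levM (tW q1 q) := by
  have h10 : (1 : Fin 2) ≠ 0 := by decide
  have h01 : (0 : Fin 2) ≠ 1 := by decide
  rcases q1 with _ | s | s | _ <;> rcases q with _ | s' | s' | _ <;>
    (try rcases fin2 s with rfl | rfl) <;> (try rcases fin2 s' with rfl | rfl) <;>
    first
    | exact Or.inl rfl
    | (right; left; simp [cW, dk, dt, h10, h01]; done)
    | (right; right; simp [tW, dt, levM]; done)

theorem tau_wq (t : Tor K) (q : Wb) : ∃ c : K, c ≠ 0 ∧ tau π t (wq π q) = c • wq π q := by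
  cases q with
  | one => exact ⟨1, one_ne_zero, by rw [wq_one, map_one, one_smul]⟩
  | y s => exact ⟨tw t (.y s), tw_ne t _, by rw [wq_y, tau_X]⟩
  | yb s => exact ⟨tw t (.yb s), tw_ne t _, by rw [wq_yb, tau_X]⟩
  | pi =>
    refine ⟨tw t (.y 0) * tw t (.y 1), mul_ne_zero (tw_ne t _) (tw_ne t _), ?_⟩
    rw [wq_pi, map_mul, tau_X, tau_X, smul_mul_smul_comm]

/-- `o_q · (w r)` -/
theorem ro_wq (q1 q : Wb) (r : R π) :
    ∃ c : K, ro π q (wq π q1 * r) = (c * cW π q1 q) • ro π (tW q1 q) r := by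
  obtain ⟨c, _, hc⟩ := tau_wq π (Tq π q) q1
  refine ⟨c, ?_⟩
  rw [ro_apply, map_mul, hc, smul_mul_assoc, map_smul]
  have : oM π q (wq π q1 * tau π (Tq π q) r) = cW π q1 q • ro π (tW q1 q) r := P2 π r q1 q
  rw [this, smul_smul]

/-- leading part: components of level `≤ levM q` of `o_q · r` -/
theorem lM_ro (q q' : Wb) (r : R π) (h : levM q' ≤ levM q) :
    lM π q' (ro π q r) = if q' = q then kill π r else 0 := by
  have e : ro π q r = ∑ q₁, ro π q (wq π q₁ * lq π q₁ r) := by
    conv_lhs => rw [WLF296.sum_lq π r]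
    rw [map_sum]
  rw [e, map_sum, Finset.sum_eq_single .one]
  · rw [wq_one, one_mul, WLF296.lq_one, lM_ro_kill]
  · intro q₁ _ h1
    obtain ⟨c, hc⟩ := ro_wq π q₁ q (lq π q₁ r)
    rw [hc, map_smul, lM_ro_of π _ q' (WLF296.kill_lq π q₁ r)]
    rcases cW_lev π q₁ q with h2 | h2 | h2
    · exact absurd h2 h1
    · rw [h2, mul_zero, zero_smul]
    · rw [if_neg, smul_zero]
      rintro rfl
      omega
  · intro h; exact absurd (Finset.mem_univ _) h

/-- the socle filtration -/
def FM (n : ℕ) : Submodule K (MM π) where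
  carrier := {m | ∀ q, levM q < n → lM π q m = 0}
  add_mem' ha hb q hq := by rw [map_add, ha q hq, hb q hq, add_zero]
  zero_mem' q _ := map_zero _
  smul_mem' c r hr q hq := by rw [map_smul, hr q hq, smul_zero]

variable {π}

theorem mem_FM {n : ℕ} {m : MM π} : m ∈ FM π n ↔ ∀ q, levM q < n → lM π q m = 0 := Iff.rfl

theorem mem_FM_zero (m : MM π) : m ∈ FM π 0 := fun q hq => absurd hq (Nat.not_lt_zero _)

theorem FM_three {m : MM π} (h : m ∈ FM π 3) : m = 0 := by
  apply eq_zero_of_lM π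
  intro q
  exact h q (lt_of_le_of_lt (levM_le q) (by norm_num))

theorem FM_anti {m n : ℕ} (h : m ≤ n) {r : MM π} (hr : r ∈ FM π n) : r ∈ FM π m :=
  fun q hq => hr q (lt_of_lt_of_le hq h)

/-- components of `m * s`, for `m` in the filtration -/
theorem lM_op_of_mem {n : ℕ} {m : MM π} (hm : m ∈ FM π n) (s : R π) (q : Wb) (hq : levM q ≤ n) :
    lM π q (MulOpposite.op s • m) = lM π q m * kill π s := by
  have e : MulOpposite.op s • m = ∑ q₁, ro π q₁ (lM π q₁ m * s) := by
    conv_lhs => rw [sum_lM π m]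
    rw [Finset.smul_sum]
    exact Finset.sum_congr rfl fun q₁ _ => op_ro π q₁ _ s
  rw [e, map_sum, Finset.sum_eq_single q]
  · rw [lM_ro π q q _ le_rfl, if_pos rfl, map_mul, kill_lM]
  · intro q₁ _ h1
    by_cases h2 : levM q₁ < n
    · rw [hm q₁ h2, zero_mul, map_zero, map_zero]
    · rw [lM_ro π q₁ q _ (by omega), if_neg (Ne.symm h1)]
  · intro h; exact absurd (Finset.mem_univ _) h

/-- components of `d m` -/
theorem lM_D_of_mem {n : ℕ} {m : MM π} (hm : m ∈ FM π n) (q : Wb) (hq : levM q ≤ n) :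
    lM π q (dMM π m) = kill π (Der580.D π (lM π q m)) := by
  have e : dMM π m = ∑ q₁, ro π q₁ (Der580.D π (lM π q₁ m)) := by
    conv_lhs => rw [sum_lM π m]
    rw [map_sum]
    exact Finset.sum_congr rfl fun q₁ _ => dMM_ro π q₁ _
  rw [e, map_sum, Finset.sum_eq_single q]
  · rw [lM_ro π q q _ le_rfl, if_pos rfl]
  · intro q₁ _ h1
    by_cases h2 : levM q₁ < n
    · rw [hm q₁ h2, map_zero, map_zero, map_zero]
    · rw [lM_ro π q₁ q _ (by omega), if_neg (Ne.symm h1)]
  · intro h; exact absurd (Finset.mem_univ _) h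

theorem FM_right {n : ℕ} {m : MM π} (hm : m ∈ FM π n) (s : R π) : MulOpposite.op s • m ∈ FM π n := by
  intro q hq
  rw [lM_op_of_mem hm s q hq.le, hm q hq, zero_mul]

theorem FM_D {n : ℕ} {m : MM π} (hm : m ∈ FM π n) : dMM π m ∈ FM π n := by
  intro q hq
  rw [lM_D_of_mem hm q hq.le, hm q hq, map_zero, map_zero]

theorem ro_mem_FM (q : Wb) (r : R π) : ro π q r ∈ FM π (levM q) := by
  intro q' hq'
  rw [lM_ro π q q' r hq'.le, if_neg]
  rintro rfl
  exact lt_irrefl _ hq'

variable (π)

/-! ### left multiplication -/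

/-- left multiplication by an element of `R'` -/
theorem lM_left {s : R π} (hs : kill π s = s) (q : Wb) (m : MM π) :
    lM π q (s • m) = tau π (tinv (Tq π q)) s * lM π q m := by
  have e : s • m = ∑ q₁, ro π q₁ (tau π (tinv (Tq π q₁)) s * lM π q₁ m) := by
    conv_lhs => rw [sum_lM π m]
    rw [Finset.smul_sum]
    refine Finset.sum_congr rfl fun q₁ _ => ?_
    rw [← smul_ro, tau_tinv']
  rw [e, lM_sum π _ (fun q₁ => by rw [map_mul, kill_lM, kill_tau, hs])]

theorem lM_h (q : Wb) (m : MM π) : lM π q (X π .h • m) = X π .h * lM π q m := by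
  rw [lM_left π (kill_h π), tau_h]

theorem lM_t (q : Wb) (m : MM π) : lM π q (tR π • m) = tR π * lM π q m := by
  rw [lM_left π (C2b44.kill_tR π), tau_tR]

theorem lM_x (c : Fin 2) (q : Wb) (m : MM π) :
    lM π q (X π (.x c) • m) = (tw (Tq π q) (.x c))⁻¹ • (X π (.x c) * lM π q m) := by
  rw [lM_left π (kill_x π c), tau_X, tw_tinv, smul_mul_assoc]

/-- the letters of `W` from the left -/
theorem Y_ro (a : Y) (q : Wb) (r : R π) :
    ∃ c : K, X π a.toGen • ro π q r = (c * cW π (yw a) q) • ro π (tW (yw a) q) r := by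
  obtain ⟨c, hc⟩ := ro_wq π (yw a) q r
  obtain ⟨c', hc0, hc'⟩ := tau_wq π (Tq π q) (yw a)
  refine ⟨c'⁻¹ * c, ?_⟩
  have e1 : X π a.toGen = c'⁻¹ • tau π (Tq π q) (wq π (yw a)) := by
    rw [hc', smul_smul, inv_mul_cancel₀ hc0, one_smul, wq_yw]
  rw [e1, smul_assoc, smul_ro, hc, smul_smul, mul_assoc]

theorem FM_Y (a : Y) {n : ℕ} {m : MM π} (hm : m ∈ FM π n) : X π a.toGen • m ∈ FM π (n + 1) := by
  have e : X π a.toGen • m = ∑ q₁, X π a.toGen • ro π q₁ (lM π q₁ m) := by
    conv_lhs => rw [sum_lM π m]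
    rw [Finset.smul_sum]
  rw [e]
  refine Submodule.sum_mem _ fun q₁ _ => ?_
  by_cases h2 : levM q₁ < n
  · rw [hm q₁ h2, map_zero, smul_zero]; exact Submodule.zero_mem _
  · obtain ⟨c, hc⟩ := Y_ro π a q₁ (lM π q₁ m)
    rw [hc]
    rcases cW_lev π (yw a) q₁ with h | h | h
    · cases a <;> simp [yw] at h
    · rw [h, mul_zero, zero_smul]; exact Submodule.zero_mem _
    · exact Submodule.smul_mem _ _ (FM_anti (by omega) (ro_mem_FM _ _))

/-- **the socle filtration is stable under left multiplication** -/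
theorem FM_left {n : ℕ} (r : R π) : ∀ {m : MM π}, m ∈ FM π n → r • m ∈ FM π n := by
  refine PBW128.R_ind π (P := fun r => ∀ {m : MM π}, m ∈ FM π n → r • m ∈ FM π n) ?_ ?_ ?_ ?_ r
  · intro c m hm
    have : algebraMap K (R π) c • m = c • m := by
      rw [Algebra.algebraMap_eq_smul_one, smul_assoc, one_smul]
    rw [this]
    exact Submodule.smul_mem _ _ hm
  · intro a m hm
    have key : kill π (X π a) = X π a → X π a • m ∈ FM π n := by
      intro h q hq
      rw [lM_left π h, hm q hq, mul_zero]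
    cases a with
    | y s => exact FM_anti (Nat.le_succ n) (FM_Y π (.y s) hm)
    | yb s => exact FM_anti (Nat.le_succ n) (FM_Y π (.yb s) hm)
    | _ => exact key (by simp)
  · intro a b ha hb m hm
    rw [mul_smul]
    exact ha (hb hm)
  · intro a b ha hb m hm
    rw [add_smul]
    exact Submodule.add_mem _ (ha hm) (hb hm)

end Crest.Agent.R186.WLM982
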