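import Crest.Agent.R186.C2W_655
import Crest.Agent.R186.WLM_982

/-!
Row 186, half (A), leaf A.C1 (helper655): (c2''), the left `W`-structure of helper890's bimodule
`M` in helper982's coordinates `m = ∑ q, ro q (lM q m)`:

`X a • ro q r = dk a q • ro (dt a q) r`, `wq pi • m = ro one (lM pi m)`, and the operators
`sM a`, `uM a` with `m = ∑ a, sM a (X a • m) + ro one (lM one m)`,
`X a • m = uM a (wq pi • m) + ro one (lM (yq a) m)`.
-/

set_option autoImplicit false
set_option linter.style.haveILetI false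
set_option linter.unusedSectionVars false

noncomputable section

open MulOpposite

namespace Crest.Agent.R186.C2M655

open Crest.Agent.R186.DefsQ830 Crest.Agent.R186.PBW128 Crest.Agent.R186.SM890
open Crest.Agent.R186.C2b362 (pz)
open Crest.Agent.R186.C2b44 (kill kill_kill)
open Crest.Agent.R186.WLM982
open Crest.Agent.R186.C2W655 (yq dy dpi dpi_eq wC_y wC_yb sum_Wb sum_Y wq_yq yq_inj yq_ne_one
  yq_ne_pi)

variable {K : Type} [Field K] (π : Par K)

theorem oM_one (q : Wb) : oM π q 1 = (oo K q : N K) := by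
  change repM π 1 (oo K q) = oo K q
  rw [map_one, Module.End.one_apply]

theorem smul_oo (a : Y) (q : Wb) :
    X π a.toGen • oM π q 1 = dk π a q • oM π (dt a q) 1 := by
  rw [oM_one, oM_one]
  change repM π (X π a.toGen) (oo K q) = dk π a q • oo K (dt a q)
  rw [repM_Y, oo, opD_bv, sc_nil, one_mul]
  rfl

/-- left action of a `W`-letter -/
theorem Y_ro (a : Y) (q : Wb) (r : R π) :
    X π a.toGen • ro π q r = dk π a q • ro π (dt a q) r := by
  rw [ro_eq, smul_comm, smul_oo, ro_eq, smul_comm]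

/-- left action of `pi` -/
theorem pi_ro (q : Wb) (r : R π) :
    wq π .pi • ro π q r = if q = .pi then ro π .one r else 0 := by
  rw [wq_pi, mul_smul]
  have h1 : X π (.y 1) • ro π q r = dk π (.y 1) q • ro π (dt (.y 1) q) r := Y_ro π (.y 1) q r
  have h0 : ∀ q, X π (.y 0) • ro π q r = dk π (.y 0) q • ro π (dt (.y 0) q) r :=
    fun q => Y_ro π (.y 0) q r
  rw [h1, smul_comm, h0]
  cases q with
  | one => simp [dk]
  | y s => rcases fin2 s with rfl | rfl <;> simp [dk, dt]
  | yb s => simp [dk]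
  | pi => simp [dk, dt]

/-- the second part of `X a • m` -/
def eM' (a : Y) (m : MM π) : MM π :=
  match a with
  | .y s => if s = 0 then π.p • ro π (.y 1) (lM π .pi m) else ro π (.y 0) (lM π .pi m)
  | .yb _ => 0

theorem Y_m (a : Y) (m : MM π) :
    X π a.toGen • m = ro π .one (lM π (yq a) m) + eM' π a m := by
  conv_lhs => rw [sum_lM π m]
  rw [Finset.smul_sum, sum_Wb]
  simp only [Y_ro]
  cases a with
  | y s =>
    rcases fin2 s with rfl | rfl
    · simp [dk, dt, yq, eM']
    · simp [dk, dt, yq, eM']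
  | yb s =>
    rcases fin2 s with rfl | rfl
    · simp [dk, dt, yq, eM']
    · simp [dk, dt, yq, eM']

theorem pi_m (m : MM π) : wq π .pi • m = ro π .one (lM π .pi m) := by
  conv_lhs => rw [sum_lM π m]
  rw [Finset.smul_sum, sum_Wb]
  simp [pi_ro]

theorem lM_ro' (q q' : Wb) (q0 : Wb) (m : MM π) :
    lM π q' (ro π q (lM π q0 m)) = if q' = q then lM π q0 m else 0 :=
  lM_ro_of π q q' (kill_lM π q0 m)

theorem lM_one_Y (a : Y) (m : MM π) : lM π .one (X π a.toGen • m) = lM π (yq a) m := by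
  rw [Y_m, map_add, lM_ro', if_pos rfl]
  cases a with
  | y s =>
    rcases fin2 s with rfl | rfl
    · simp [eM', lM_ro']
    · simp [eM', lM_ro']
  | yb s => simp [eM']

theorem lM_y0_y1 (m : MM π) : lM π (.y 0) (X π (Y.y 1).toGen • m) = lM π .pi m := by
  rw [Y_m, map_add, lM_ro', if_neg (by simp)]
  simp [eM', lM_ro']

/-- the operators `s_a` -/
def sM : Y → MM π →ₗ[K] MM π
  | .y s => if s = 0 then ro π (.y 0) ∘ₗ lM π .one else
      ro π (.y 1) ∘ₗ lM π .one + ro π .pi ∘ₗ lM π (.y 0)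
  | .yb s => ro π (.yb s) ∘ₗ lM π .one

/-- the operators `u_a` -/
def uM : Y → MM π →ₗ[K] MM π
  | .y s => if s = 0 then π.p • (ro π (.y 1) ∘ₗ lM π .one) else ro π (.y 0) ∘ₗ lM π .one
  | .yb _ => 0

/-- **(c1)** -/
theorem sum_sM (m : MM π) : m = ∑ a, sM π a (X π a.toGen • m) + ro π .one (lM π .one m) := by
  rw [sum_Y]
  have e0 : sM π (.y 0) (X π (Y.y 0).toGen • m) = ro π (.y 0) (lM π (.y 0) m) := by
    simp only [sM, if_true, LinearMap.comp_apply, lM_one_Y]; rfl
  have e1 : sM π (.y 1) (X π (Y.y 1).toGen • m) =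
      ro π (.y 1) (lM π (.y 1) m) + ro π .pi (lM π .pi m) := by
    simp only [sM, show ((1 : Fin 2) = 0) = False from by simp, if_false, LinearMap.add_apply,
      LinearMap.comp_apply, lM_one_Y, lM_y0_y1]; rfl
  have e2 : ∀ s, sM π (.yb s) (X π (Y.yb s).toGen • m) = ro π (.yb s) (lM π (.yb s) m) := by
    intro s
    simp only [sM, LinearMap.comp_apply, lM_one_Y]; rfl
  rw [e0, e1, e2, e2]
  conv_lhs => rw [sum_lM π m, sum_Wb]
  abel

/-- **(c2)** -/
theorem Y_uM (a : Y) (m : MM π) :
    X π a.toGen • m = uM π a (wq π .pi • m) + ro π .one (lM π (yq a) m) := by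
  rw [Y_m, pi_m, add_comm]
  congr 1
  cases a with
  | y s =>
    rcases fin2 s with rfl | rfl
    · simp [eM', uM, lM_ro']
    · simp [eM', uM, lM_ro']
  | yb s => simp [eM', uM]

/-- **(c4)** -/
theorem Y_ro_yq (a b : Y) (r : R π) :
    X π b.toGen • ro π (yq a) r = if b = a then ro π .one r else 0 := by
  rw [Y_ro]
  cases a with
  | y s =>
    cases b with
    | y t =>
      rcases fin2 s with rfl | rfl <;> rcases fin2 t with rfl | rfl <;> simp [dk, dt, yq]
    | yb t => simp [dk, yq]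
  | yb s =>
    cases b with
    | y t => rcases fin2 t with rfl | rfl <;> simp [dk, yq]
    | yb t =>
      rcases fin2 s with rfl | rfl <;> rcases fin2 t with rfl | rfl <;> simp [dk, dt, yq]

theorem pi_ro_yq (a : Y) (r : R π) : wq π .pi • ro π (yq a) r = 0 := by
  rw [pi_ro, if_neg (yq_ne_pi a)]

theorem pi_ro_pi (r : R π) : wq π .pi • ro π .pi r = ro π .one r := by
  rw [pi_ro, if_pos rfl]

/-! ### degrees -/

variable (s : ℕ)

theorem wC_one : wC (Wb.one).word = 0 := by simp [wC, Wb.word]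

theorem wC_yq (a : Y) : wC (yq a).word = dy a := by
  cases a with
  | y s => exact wC_y s
  | yb s => exact wC_yb s

theorem rolM_mem (q q' : Wb) {P A C C' : ℤ} {m : MM π} (hm : m ∈ pcM π s P A C)
    (h : C' = C + wC q'.word - wC q.word) : ro π q (lM π q' m) ∈ pcM π s P A C' := by
  refine ro_mem π s q ?_
  have h2 := lM_mem π s hm q'
  rwa [show C - s + (wC q'.word : ℤ) = C' - s + wC q.word by rw [h]; ring] at h2

theorem sM_mem (a : Y) {P A C : ℤ} {m : MM π} (hm : m ∈ pcM π s P A C) :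
    sM π a m ∈ pcM π s P A (C - dy a) := by
  cases a with
  | y t =>
    rcases fin2 t with rfl | rfl
    · exact rolM_mem π s (.y 0) .one hm (by rw [wC_y, wC_one]; push_cast; ring)
    · refine Submodule.add_mem _ (rolM_mem π s (.y 1) .one hm (by
        rw [wC_y, wC_one]; push_cast; ring)) (rolM_mem π s .pi (.y 0) hm ?_)
      rw [wC_y, show wC Wb.pi.word = dy (.y 0) + dy (.y 1) from dpi_eq]
      push_cast; ring
  | yb t => exact rolM_mem π s (.yb t) .one hm (by rw [wC_yb, wC_one]; push_cast; ring)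

theorem uM_mem (a : Y) {P A C : ℤ} {m : MM π} (hm : m ∈ pcM π s P A C) :
    uM π a m ∈ pcM π s P A (C + dy a - dpi) := by
  cases a with
  | y t =>
    rcases fin2 t with rfl | rfl
    · refine Submodule.smul_mem _ _ (rolM_mem π s (.y 1) .one hm ?_)
      rw [wC_y, wC_one, dpi_eq]
      push_cast; ring
    · refine rolM_mem π s (.y 0) .one hm ?_
      rw [wC_y, wC_one, dpi_eq]
      push_cast; ring
  | yb t => exact Submodule.zero_mem _

end Crest.Agent.R186.C2M655
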