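import Crest.Agent.R186.DJ_187

/-!
Row 186 (A), leaf DJ (helper187), part 2: existence of the lift `X'' → X` and of the homotopy.
-/

set_option autoImplicit false
set_option linter.unusedSectionVars false

open Matrix

namespace Crest.Agent.R186.DJ187

open Hat827 ConeHyp462 Adapt186 Frame515 Res255

/-- recursive choice along a level function -/
theorem exists_rec {ι E : Type} [Zero E] (s : ι → ℕ) (R : ι → (ι → E) → E → Prop)
    (hR : ∀ k φ φ' u, (∀ j, s j < s k → φ j = φ' j) → R k φ u → R k φ' u)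
    (hex : ∀ k φ, (∀ j, s j < s k → R j φ (φ j)) → ∃ u, R k φ u) :
    ∃ φ : ι → E, ∀ k, R k φ (φ k) := by
  classical
  let ext : (k : ι) → ((j : ι) → s j < s k → E) → ι → E :=
    fun k r j => if hj : s j < s k then r j hj else 0
  let F : (k : ι) → ((j : ι) → s j < s k → E) → E :=
    fun k r => if hu : ∃ u, R k (ext k r) u then Classical.choose hu else 0
  let wf : WellFounded (fun j k : ι => s j < s k) := InvImage.wf s Nat.lt_wfRel.wf
  let φ : ι → E := wf.fix F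
  have hφ : ∀ k, φ k = F k (fun j _ => φ j) := fun k => wf.fix_eq F k
  refine ⟨φ, ?_⟩
  have key : ∀ n k, s k = n → R k φ (φ k) := by
    intro n
    induction n using Nat.strong_induction_on with
    | _ n ih =>
      intro k hk
      have h0 : ∀ j, s j < s k → R j φ (φ j) := fun j hj => ih (s j) (by omega) j rfl
      have hext : ∀ j, s j < s k → ext k (fun j _ => φ j) j = φ j := by
        intro j hj
        simp only [ext, dif_pos hj]
      have h1 : ∃ u, R k (ext k (fun j _ => φ j)) u := by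
        obtain ⟨u, hu⟩ := hex k φ h0
        exact ⟨u, hR k φ _ u (fun j hj => (hext j hj).symm) hu⟩
      have h2 : R k (ext k (fun j _ => φ j)) (φ k) := by
        rw [hφ k]
        have h3 : F k (fun j _ => φ j) = Classical.choose h1 := by
          simp only [F, dif_pos h1]
        rw [h3]
        exact Classical.choose_spec h1
      exact hR k _ φ _ hext h2
  exact fun k => key (s k) k rfl

variable {K : Type} [Field K] {A B : DGA K} {h : Hm B A} {X : PCells A} {Y : LCells B}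

variable (h X Y) in
/-- augmentation of `X''` to `V` -/
structure AugV where
  v : Y.ι → X.V
  v_e : ∀ k, h.f (Y.e k) • v k = v k
  v_aug : ∀ k, Y.s k = 1 → ∑ j ∈ Y.F (Y.s k), h.f (Y.c k j) • v j = 0
  v_zero : ∀ k, Y.s k ≠ 0 → v k = 0

theorem Yc_zero {k j : Y.ι} (hs : Y.s k ≤ Y.s j) : Y.c k j = 0 :=
  DGA.neg (Y.c_mem k j) (by omega)

theorem A_De {k : Y.ι} : A.D (h.f (Y.e k)) = 0 := by
  rw [← h.D, DGA.D_neg (Y.e_mem k) (by omega), map_zero]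

/-- the condition on `φ k` -/
def RL (w : AugV h X Y) (k : Y.ι) (φ : Y.ι → X.ι → A.C) (u : X.ι → A.C) : Prop :=
  (∀ σ, u σ ∈ A.G ((Y.s k : ℤ) - X.s σ)) ∧ (∀ σ, u σ * X.e σ = u σ) ∧
  (∀ σ, h.f (Y.e k) * u σ = u σ) ∧
  (∀ τ, A.D (u τ) + ∑ σ ∈ X.F (Y.s k), u σ * X.c σ τ =
    ∑ j ∈ Y.F (Y.s k), h.f (Y.c k j) * φ j τ) ∧
  (Y.s k = 0 → ∑ σ ∈ X.F 0, u σ • X.v σ = w.v k)

theorem smul_sum_v (a : A.C) (x : X.ι → A.C) :
    ∑ σ ∈ X.F 0, (a * x σ * X.e σ) • X.v σ = a • ∑ σ ∈ X.F 0, x σ • X.v σ := by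
  rw [Finset.smul_sum]
  refine Finset.sum_congr rfl fun σ _ => ?_
  rw [mul_smul, X.v_e, mul_smul]

/-- the cycle to be killed -/
theorem cyc {w : AugV h X Y} {k : Y.ι} {φ : Y.ι → X.ι → A.C}
    (hφ : ∀ j, Y.s j < Y.s k → RL w j φ (φ j)) {m : ℕ} (hm : Y.s k ≤ m + 1) (τ : X.ι) :
    A.D (∑ j ∈ Y.F (Y.s k), h.f (Y.c k j) * φ j τ) +
      ∑ σ ∈ X.F m, (∑ j ∈ Y.F (Y.s k), h.f (Y.c k j) * φ j σ) * X.c σ τ = 0 := by
  -- restrict the sums over `j` to smaller levels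
  have h1 : A.D (∑ j ∈ Y.F (Y.s k), h.f (Y.c k j) * φ j τ) =
      ∑ j ∈ Y.F (Y.s k), (h.f (B.D (Y.c k j)) * φ j τ +
        h.f (Y.c k j) * (∑ l ∈ Y.F (Y.s k), h.f (Y.c j l) * φ l τ +
          ∑ σ ∈ X.F m, φ j σ * X.c σ τ)) := by
    rw [map_sum]
    refine Finset.sum_congr rfl fun j hj => ?_
    rw [Y.mem_F] at hj
    rw [A.D_mul, h.D]
    congr 1
    by_cases hlt : Y.s j < Y.s k
    · obtain ⟨g1, -, -, g4, -⟩ := hφ j hlt
      have e1 : ∑ l ∈ Y.F (Y.s k), h.f (Y.c j l) * φ l τ =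
          ∑ l ∈ Y.F (Y.s j), h.f (Y.c j l) * φ l τ := by
        symm
        refine Finset.sum_subset (YF_mono hj) ?_
        intro l _ h3
        rw [Y.mem_F] at h3
        rw [Yc_zero (by omega), map_zero, zero_mul]
      have e2 : ∑ σ ∈ X.F m, φ j σ * X.c σ τ = ∑ σ ∈ X.F (Y.s j), φ j σ * X.c σ τ := by
        symm
        refine Finset.sum_subset (F_mono (by omega)) ?_
        intro σ _ h3
        rw [X.mem_F] at h3
        rw [DGA.neg (g1 σ) (by omega), zero_mul]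
      rw [e1, e2, ← g4 τ]
      have h4 := A.two (∑ σ ∈ X.F (Y.s j), φ j σ * X.c σ τ)
      rw [add_assoc, h4, add_zero]
    · rw [Yc_zero (by omega), map_zero, zero_mul, zero_mul]
  have h2 : ∑ j ∈ Y.F (Y.s k), h.f (B.D (Y.c k j)) * φ j τ =
      ∑ j ∈ Y.F (Y.s k), h.f (Y.c k j) * ∑ l ∈ Y.F (Y.s k), h.f (Y.c j l) * φ l τ := by
    have e1 : ∀ j, h.f (B.D (Y.c k j)) = ∑ l ∈ Y.F (Y.s k), h.f (Y.c k l) * h.f (Y.c l j) := by
      intro j
      have e2 := Y.mc k j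
      have e3 : B.D (Y.c k j) = ∑ l ∈ Y.F (Y.s k), Y.c k l * Y.c l j := by
        have e4 := B.two (∑ l ∈ Y.F (Y.s k), Y.c k l * Y.c l j)
        calc B.D (Y.c k j) = B.D (Y.c k j) + (∑ l ∈ Y.F (Y.s k), Y.c k l * Y.c l j +
              ∑ l ∈ Y.F (Y.s k), Y.c k l * Y.c l j) := by rw [e4, add_zero]
          _ = (B.D (Y.c k j) + ∑ l ∈ Y.F (Y.s k), Y.c k l * Y.c l j) +
              ∑ l ∈ Y.F (Y.s k), Y.c k l * Y.c l j := by abel
          _ = _ := by rw [e2, zero_add]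
      rw [e3, map_sum]
      simp only [map_mul]
    simp only [e1, Finset.sum_mul, Finset.mul_sum]
    rw [Finset.sum_comm]
    refine Finset.sum_congr rfl fun l _ => Finset.sum_congr rfl fun j _ => ?_
    rw [mul_assoc]
  have h3 : ∑ σ ∈ X.F m, (∑ j ∈ Y.F (Y.s k), h.f (Y.c k j) * φ j σ) * X.c σ τ =
      ∑ j ∈ Y.F (Y.s k), h.f (Y.c k j) * ∑ σ ∈ X.F m, φ j σ * X.c σ τ := by
    simp only [Finset.sum_mul, Finset.mul_sum]
    rw [Finset.sum_comm]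
    refine Finset.sum_congr rfl fun j _ => Finset.sum_congr rfl fun σ _ => ?_
    rw [mul_assoc]
  rw [h1, h3]
  simp only [mul_add, Finset.sum_add_distrib]
  rw [h2]
  set u := ∑ j ∈ Y.F (Y.s k), h.f (Y.c k j) * ∑ l ∈ Y.F (Y.s k), h.f (Y.c j l) * φ l τ
  set v := ∑ j ∈ Y.F (Y.s k), h.f (Y.c k j) * ∑ σ ∈ X.F m, φ j σ * X.c σ τ
  calc u + (u + v) + v = (u + u) + (v + v) := by abel
    _ = 0 := by rw [A.two, A.two, add_zero]

theorem step (w : AugV h X Y) (k : Y.ι) (φ : Y.ι → X.ι → A.C)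
    (hφ : ∀ j, Y.s j < Y.s k → RL w j φ (φ j)) : ∃ u, RL w k φ u := by
  have hxm : ∀ σ, ∑ j ∈ Y.F (Y.s k), h.f (Y.c k j) * φ j σ ∈ A.G ((Y.s k : ℤ) - 1 - X.s σ) := by
    intro σ
    refine Submodule.sum_mem _ fun j hj => ?_
    rw [Y.mem_F] at hj
    by_cases hlt : Y.s j < Y.s k
    · have e := A.mul_mem (h.mem (Y.c_mem k j)) ((hφ j hlt).1 σ)
      rwa [show (Y.s k : ℤ) - Y.s j - 1 + (Y.s j - X.s σ) = Y.s k - 1 - X.s σ by ring] at e
    · rw [Yc_zero (by omega), map_zero, zero_mul]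
      exact Submodule.zero_mem _
  have hxe : ∀ σ, (∑ j ∈ Y.F (Y.s k), h.f (Y.c k j) * φ j σ) * X.e σ =
      ∑ j ∈ Y.F (Y.s k), h.f (Y.c k j) * φ j σ := by
    intro σ
    rw [Finset.sum_mul]
    refine Finset.sum_congr rfl fun j hj => ?_
    rw [Y.mem_F] at hj
    by_cases hlt : Y.s j < Y.s k
    · rw [mul_assoc, (hφ j hlt).2.1 σ]
    · rw [Yc_zero (by omega), map_zero, zero_mul, zero_mul]
  have hxl : ∀ σ, h.f (Y.e k) * (∑ j ∈ Y.F (Y.s k), h.f (Y.c k j) * φ j σ) =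
      ∑ j ∈ Y.F (Y.s k), h.f (Y.c k j) * φ j σ := by
    intro σ
    rw [Finset.mul_sum]
    refine Finset.sum_congr rfl fun j _ => ?_
    rw [← mul_assoc, ← map_mul, Y.c_left]
  -- from a primitive of the cycle
  have fin : ∀ y : X.ι → A.C, (∀ σ, y σ ∈ A.G ((Y.s k : ℤ) - X.s σ)) →
      (∀ σ, y σ * X.e σ = y σ) → (∀ τ, ∑ j ∈ Y.F (Y.s k), h.f (Y.c k j) * φ j τ =
        A.D (y τ) + ∑ σ ∈ X.F (Y.s k), y σ * X.c σ τ) → Y.s k ≠ 0 → ∃ u, RL w k φ u := by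
    intro y y1 y2 y3 hk
    refine ⟨fun σ => h.f (Y.e k) * y σ, fun σ => ?_, fun σ => ?_, fun σ => ?_, fun τ => ?_,
      fun h0 => absurd h0 hk⟩
    · have e := A.mul_mem (h.mem (Y.e_mem k)) (y1 σ)
      rwa [zero_add] at e
    · rw [mul_assoc, y2]
    · rw [← mul_assoc, ← map_mul, Y.e_idem]
    · rw [A.D_mul, A_De, zero_mul, zero_add]
      have e : ∑ σ ∈ X.F (Y.s k), h.f (Y.e k) * y σ * X.c σ τ =
          h.f (Y.e k) * ∑ σ ∈ X.F (Y.s k), y σ * X.c σ τ := by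
        rw [Finset.mul_sum]
        exact Finset.sum_congr rfl fun σ _ => mul_assoc _ _ _
      rw [e, ← mul_add, ← y3, hxl]
  rcases Nat.eq_zero_or_pos (Y.s k) with hk | hk
  · obtain ⟨x, x1, x2⟩ := X.gen (w.v k)
    have hneg : ∀ σ, h.f (Y.e k) * x σ * X.e σ ∈ A.G ((Y.s k : ℤ) - X.s σ) := by
      intro σ
      have e := A.mul_mem (A.mul_mem (h.mem (Y.e_mem k)) (x1 σ)) (X.e_mem σ)
      rw [hk]
      rwa [show (0 : ℤ) + -(X.s σ : ℤ) + 0 = ((0 : ℕ) : ℤ) - X.s σ by simp] at e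
    refine ⟨fun σ => h.f (Y.e k) * x σ * X.e σ, hneg, fun σ => ?_, fun σ => ?_, fun τ => ?_,
      fun _ => ?_⟩
    · rw [mul_assoc, X.e_idem]
    · rw [← mul_assoc, ← mul_assoc, ← map_mul, Y.e_idem]
    · have e0 : A.D (h.f (Y.e k) * x τ * X.e τ) = 0 := DGA.D_neg (hneg τ) (by omega)
      rw [e0, zero_add]
      have e1 : ∑ σ ∈ X.F (Y.s k), h.f (Y.e k) * x σ * X.e σ * X.c σ τ = 0 := by
        refine Finset.sum_eq_zero fun σ hσ => ?_
        rw [X.mem_F] at hσ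
        rw [c_zero (by omega), mul_zero]
      have e2 : ∑ j ∈ Y.F (Y.s k), h.f (Y.c k j) * φ j τ = 0 := by
        refine Finset.sum_eq_zero fun j hj => ?_
        rw [Yc_zero (by omega), map_zero, zero_mul]
      rw [e1, e2]
    · rw [smul_sum_v, x2, w.v_e]
  · obtain ⟨m, hm⟩ : ∃ m, Y.s k = m + 1 := ⟨Y.s k - 1, by omega⟩
    rcases Nat.eq_zero_or_pos m with hm0 | hm0
    · subst hm0
      obtain ⟨y, y1, y2, y3⟩ := X.exR0 (fun τ => ∑ j ∈ Y.F (Y.s k), h.f (Y.c k j) * φ j τ)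
        (fun σ => by
          have e := hxm σ
          rwa [show (Y.s k : ℤ) - 1 - X.s σ = -(X.s σ : ℤ) by rw [hm]; push_cast; ring] at e)
        hxe (by
          have e1 : ∑ σ ∈ X.F 0, (∑ j ∈ Y.F (Y.s k), h.f (Y.c k j) * φ j σ) • X.v σ =
              ∑ j ∈ Y.F (Y.s k), h.f (Y.c k j) • ∑ σ ∈ X.F 0, φ j σ • X.v σ := by
            simp only [Finset.sum_smul, Finset.smul_sum, mul_smul]
            rw [Finset.sum_comm]
          rw [e1, ← w.v_aug k (by omega)]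
          refine Finset.sum_congr rfl fun j hj => ?_
          rw [Y.mem_F] at hj
          by_cases hlt : Y.s j < Y.s k
          · rw [(hφ j hlt).2.2.2.2 (by omega)]
          · rw [Yc_zero (by omega), map_zero, zero_smul, zero_smul])
      refine fin y (fun σ => ?_) y2 (fun τ => ?_) (by omega)
      · have e := y1 σ
        rwa [show (1 : ℤ) - X.s σ = (Y.s k : ℤ) - X.s σ by rw [hm]; push_cast; ring] at e
      · rw [hm]
        rw [hm] at y3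
        exact y3 τ
    · obtain ⟨m', hm'⟩ : ∃ m', m = m' + 1 := ⟨m - 1, by omega⟩
      obtain ⟨y, y1, y2, y3⟩ := X.exR m' (fun τ => ∑ j ∈ Y.F (Y.s k), h.f (Y.c k j) * φ j τ)
        (fun σ => by
          have e := hxm σ
          rwa [show (Y.s k : ℤ) - 1 - X.s σ = (m' : ℤ) + 1 - X.s σ by
            rw [hm, hm']; push_cast; ring] at e)
        hxe (fun τ => cyc hφ (m := m' + 1) (by omega) τ)
      refine fin y (fun σ => ?_) y2 (fun τ => ?_) (by omega)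
      · have e := y1 σ
        rwa [show (m' : ℤ) + 2 - X.s σ = (Y.s k : ℤ) - X.s σ by
          rw [hm, hm']; push_cast; ring] at e
      · have e := y3 τ
        have e' : X.F (m' + 2) = X.F (Y.s k) := by rw [hm, hm']
        rw [e'] at e
        exact e

/-- **existence of the lift** `X'' → X` of `id_V` -/
theorem exists_lift (w : AugV h X Y) :
    ∃ Φ : Lift h X Y, ∀ k, Y.s k = 0 → ∑ σ ∈ X.F 0, Φ.φ k σ • X.v σ = w.v k := by
  obtain ⟨φ, hφ⟩ := exists_rec (E := X.ι → A.C) Y.s (RL w) (by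
    intro k φ φ' u hj ⟨h1, h2, h3, h4, h5⟩
    refine ⟨h1, h2, h3, fun τ => ?_, h5⟩
    rw [h4 τ]
    refine Finset.sum_congr rfl fun j _ => ?_
    by_cases hlt : Y.s j < Y.s k
    · rw [hj j hlt]
    · rw [Yc_zero (by omega), map_zero, zero_mul, zero_mul]) (step w)
  exact ⟨⟨φ, fun k => (hφ k).1, fun k => (hφ k).2.1, fun k => (hφ k).2.2.1,
    fun k => (hφ k).2.2.2.1⟩, fun k => (hφ k).2.2.2.2⟩

/-! ### the homotopy -/

variable (I : In A)

variable (X) in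
/-- the quasi-isomorphism `K → V` -/
structure AV where
  a : I.Y →ₗ[K] X.V
  a_l : ∀ (x : A.C) (y : I.Y), a (I.L x y) = x • a y
  a_ne : ∀ (d : ℤ) (y : I.Y), y ∈ I.gr.G d → d ≠ 0 → a y = 0
  ker : ∀ (d : ℤ) (y : I.Y), y ∈ I.gr.G d → I.dY y = 0 → a y = 0 → ∃ z ∈ I.gr.G (d + 1), I.dY z = y

variable {I}

/-- condition on `θ k` -/
def RH (δ : Y.ι → I.Y) (h : Hm B A) (k : Y.ι) (θ : Y.ι → I.Y) (u : I.Y) : Prop :=
  u ∈ I.gr.G ((Y.s k : ℤ) + 1) ∧ I.L (h.f (Y.e k)) u = u ∧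
  δ k = I.dY u + ∑ j ∈ Y.F (Y.s k), I.L (h.f (Y.c k j)) (θ j)

theorem two_Y (y : I.Y) : y + y = 0 := by
  have h1 : I.L (1 + 1) y = 0 := by rw [A.two, map_zero, LinearMap.zero_apply]
  rwa [map_add, LinearMap.add_apply, I.L_one] at h1

theorem dY_L (a : A.C) (y : I.Y) : I.dY (I.L a y) = I.L (A.D a) y + I.L a (I.dY y) := by
  rw [I.L_D, add_assoc, two_Y, add_zero]

theorem stepH (a : AV X I) (δ : Y.ι → I.Y) (δm : ∀ k, δ k ∈ I.gr.G (Y.s k))
    (δe : ∀ k, I.L (h.f (Y.e k)) (δ k) = δ k)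
    (δd : ∀ k, I.dY (δ k) + ∑ j ∈ Y.F (Y.s k), I.L (h.f (Y.c k j)) (δ j) = 0)
    (δa : ∀ k, Y.s k = 0 → a.a (δ k) = 0) (k : Y.ι) (θ : Y.ι → I.Y)
    (hθ : ∀ j, Y.s j < Y.s k → RH δ h j θ (θ j)) : ∃ u, RH δ h k θ u := by
  have hS : ∑ j ∈ Y.F (Y.s k), I.L (h.f (Y.c k j)) (θ j) ∈ I.gr.G (Y.s k) := by
    refine Submodule.sum_mem _ fun j hj => ?_
    rw [Y.mem_F] at hj
    by_cases hlt : Y.s j < Y.s k
    · have e := I.L_deg (h.mem (Y.c_mem k j)) (hθ j hlt).1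
      rwa [show (Y.s j : ℤ) + 1 + (Y.s k - Y.s j - 1) = Y.s k by ring] at e
    · rw [Yc_zero (by omega), map_zero, map_zero, LinearMap.zero_apply]
      exact Submodule.zero_mem _
  have hd : I.dY (δ k + ∑ j ∈ Y.F (Y.s k), I.L (h.f (Y.c k j)) (θ j)) = 0 := by
    have e1 : I.dY (∑ j ∈ Y.F (Y.s k), I.L (h.f (Y.c k j)) (θ j)) =
        ∑ j ∈ Y.F (Y.s k), (I.L (h.f (B.D (Y.c k j))) (θ j) +
          I.L (h.f (Y.c k j)) (δ j + ∑ l ∈ Y.F (Y.s k), I.L (h.f (Y.c j l)) (θ l))) := by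
      rw [map_sum]
      refine Finset.sum_congr rfl fun j hj => ?_
      rw [Y.mem_F] at hj
      rw [dY_L, h.D]
      congr 1
      by_cases hlt : Y.s j < Y.s k
      · have e2 : ∑ l ∈ Y.F (Y.s k), I.L (h.f (Y.c j l)) (θ l) =
            ∑ l ∈ Y.F (Y.s j), I.L (h.f (Y.c j l)) (θ l) := by
          symm
          refine Finset.sum_subset (YF_mono hj) ?_
          intro l _ h3
          rw [Y.mem_F] at h3
          rw [Yc_zero (by omega), map_zero, map_zero, LinearMap.zero_apply]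
        rw [e2, (hθ j hlt).2.2, add_assoc, two_Y, add_zero]
      · rw [Yc_zero (by omega), map_zero, map_zero, LinearMap.zero_apply, LinearMap.zero_apply]
    have h2 : ∑ j ∈ Y.F (Y.s k), I.L (h.f (B.D (Y.c k j))) (θ j) =
        ∑ j ∈ Y.F (Y.s k), I.L (h.f (Y.c k j))
          (∑ l ∈ Y.F (Y.s k), I.L (h.f (Y.c j l)) (θ l)) := by
      have e1 : ∀ j, h.f (B.D (Y.c k j)) = ∑ l ∈ Y.F (Y.s k), h.f (Y.c k l) * h.f (Y.c l j) := by
        intro j
        have e2 := Y.mc k j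
        have e3 : B.D (Y.c k j) = ∑ l ∈ Y.F (Y.s k), Y.c k l * Y.c l j := by
          have e4 := B.two (∑ l ∈ Y.F (Y.s k), Y.c k l * Y.c l j)
          calc B.D (Y.c k j) = B.D (Y.c k j) + (∑ l ∈ Y.F (Y.s k), Y.c k l * Y.c l j +
                ∑ l ∈ Y.F (Y.s k), Y.c k l * Y.c l j) := by rw [e4, add_zero]
            _ = (B.D (Y.c k j) + ∑ l ∈ Y.F (Y.s k), Y.c k l * Y.c l j) +
                ∑ l ∈ Y.F (Y.s k), Y.c k l * Y.c l j := by abel
            _ = _ := by rw [e2, zero_add]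
        rw [e3, map_sum]
        simp only [map_mul]
      simp only [e1, map_sum, LinearMap.sum_apply, I.L_mul]
      rw [Finset.sum_comm]
    rw [map_add, e1]
    simp only [map_add, Finset.sum_add_distrib]
    rw [h2]
    set u := ∑ j ∈ Y.F (Y.s k), I.L (h.f (Y.c k j))
          (∑ l ∈ Y.F (Y.s k), I.L (h.f (Y.c j l)) (θ l))
    have e3 := δd k
    calc I.dY (δ k) + (u + (∑ j ∈ Y.F (Y.s k), I.L (h.f (Y.c k j)) (δ j) + u)) =
        (I.dY (δ k) + ∑ j ∈ Y.F (Y.s k), I.L (h.f (Y.c k j)) (δ j)) + (u + u) := by abel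
      _ = 0 := by rw [e3, two_Y, add_zero]
  have ha : a.a (δ k + ∑ j ∈ Y.F (Y.s k), I.L (h.f (Y.c k j)) (θ j)) = 0 := by
    rcases Nat.eq_zero_or_pos (Y.s k) with hk | hk
    · rw [map_add, δa k hk, zero_add]
      have e1 : ∑ j ∈ Y.F (Y.s k), I.L (h.f (Y.c k j)) (θ j) = 0 := by
        refine Finset.sum_eq_zero fun j _ => ?_
        rw [Yc_zero (by omega), map_zero, map_zero, LinearMap.zero_apply]
      rw [e1, map_zero]
    · exact a.a_ne _ _ (Submodule.add_mem _ (δm k) hS) (by omega)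
  obtain ⟨z, z1, z2⟩ := a.ker _ _ (Submodule.add_mem _ (δm k) hS) hd ha
  refine ⟨I.L (h.f (Y.e k)) z, ?_, ?_, ?_⟩
  · have e := I.L_deg (h.mem (Y.e_mem k)) z1
    rwa [add_zero] at e
  · rw [← I.L_mul, ← map_mul, Y.e_idem]
  · rw [dY_L, A_De, map_zero, LinearMap.zero_apply, zero_add, z2, map_add, δe]
    have e1 : I.L (h.f (Y.e k)) (∑ j ∈ Y.F (Y.s k), I.L (h.f (Y.c k j)) (θ j)) =
        ∑ j ∈ Y.F (Y.s k), I.L (h.f (Y.c k j)) (θ j) := by
      rw [map_sum]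
      refine Finset.sum_congr rfl fun j _ => ?_
      rw [← I.L_mul, ← map_mul, Y.c_left]
    rw [e1, add_assoc, two_Y, add_zero]

/-- `kt ∘ φ` is a cocycle -/
theorem ktφ_d (Φ : Lift h X Y) {kt : X.ι → I.Y}
    (kt_d : ∀ σ, I.dY (kt σ) + ∑ τ ∈ X.F (X.s σ), I.L (X.c σ τ) (kt τ) = 0) (k : Y.ι) :
    I.dY (ktφ I Φ kt k) + ∑ j ∈ Y.F (Y.s k), I.L (h.f (Y.c k j)) (ktφ I Φ kt j) = 0 := by
  have h0 : ∀ σ, I.dY (kt σ) = ∑ τ ∈ X.F (X.s σ), I.L (X.c σ τ) (kt τ) := by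
    intro σ
    have e := kt_d σ
    have e4 := two_Y (∑ τ ∈ X.F (X.s σ), I.L (X.c σ τ) (kt τ))
    calc I.dY (kt σ) = I.dY (kt σ) + (∑ τ ∈ X.F (X.s σ), I.L (X.c σ τ) (kt τ) +
          ∑ τ ∈ X.F (X.s σ), I.L (X.c σ τ) (kt τ)) := by rw [e4, add_zero]
      _ = (I.dY (kt σ) + ∑ τ ∈ X.F (X.s σ), I.L (X.c σ τ) (kt τ)) +
          ∑ τ ∈ X.F (X.s σ), I.L (X.c σ τ) (kt τ) := by abel
      _ = _ := by rw [e, zero_add]
  have h1 : I.dY (ktφ I Φ kt k) = ∑ τ ∈ X.F (Y.s k), I.L (A.D (Φ.φ k τ)) (kt τ) +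
      ∑ τ ∈ X.F (Y.s k), I.L (∑ σ ∈ X.F (Y.s k), Φ.φ k σ * X.c σ τ) (kt τ) := by
    unfold ktφ
    rw [map_sum]
    simp only [dY_L, Finset.sum_add_distrib, h0]
    congr 1
    simp only [map_sum, LinearMap.sum_apply, I.L_mul]
    rw [Finset.sum_comm]
    refine Finset.sum_congr rfl fun σ hσ => ?_
    rw [X.mem_F] at hσ
    refine Finset.sum_subset (F_mono hσ) ?_
    intro τ _ h3
    rw [X.mem_F] at h3
    rw [c_zero (by omega), map_zero, LinearMap.zero_apply, map_zero]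
  have h2 : ∑ j ∈ Y.F (Y.s k), I.L (h.f (Y.c k j)) (ktφ I Φ kt j) =
      ∑ τ ∈ X.F (Y.s k), I.L (∑ j ∈ Y.F (Y.s k), h.f (Y.c k j) * Φ.φ j τ) (kt τ) := by
    simp only [map_sum, LinearMap.sum_apply, I.L_mul]
    rw [Finset.sum_comm]
    refine Finset.sum_congr rfl fun j hj => ?_
    rw [Y.mem_F] at hj
    unfold ktφ
    rw [map_sum]
    refine Finset.sum_subset (F_mono hj) ?_
    intro τ _ h3
    rw [X.mem_F] at h3
    rw [Φ.φ_zero (by omega), map_zero, LinearMap.zero_apply, map_zero]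
  rw [h1, h2]
  simp only [← Φ.φ_d, map_add, LinearMap.add_apply, Finset.sum_add_distrib]
  exact two_Y _

/-- **existence of the homotopy** `kt ∘ φ ~ π` -/
theorem exists_htp (a : AV X I) (Φ : Lift h X Y) (w : AugV h X Y)
    (hΦ : ∀ k, Y.s k = 0 → ∑ σ ∈ X.F 0, Φ.φ k σ • X.v σ = w.v k) {kt : X.ι → I.Y}
    (kt_deg : ∀ σ, kt σ ∈ I.gr.G (X.s σ))
    (kt_d : ∀ σ, I.dY (kt σ) + ∑ τ ∈ X.F (X.s σ), I.L (X.c σ τ) (kt τ) = 0)
    (kt_a : ∀ σ, X.s σ = 0 → a.a (kt σ) = X.v σ) {π : Y.ι → I.Y}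
    (π_deg : ∀ k, π k ∈ I.gr.G (Y.s k)) (π_e : ∀ k, I.L (h.f (Y.e k)) (π k) = π k)
    (π_d : ∀ k, I.dY (π k) + ∑ j ∈ Y.F (Y.s k), I.L (h.f (Y.c k j)) (π j) = 0)
    (π_a : ∀ k, Y.s k = 0 → a.a (π k) = w.v k) : Nonempty (Htp I Φ kt π) := by
  have g1 : ∀ k, ktφ I Φ kt k ∈ I.gr.G (Y.s k) := by
    intro k
    refine Submodule.sum_mem _ fun σ _ => ?_
    have e := I.L_deg (Φ.φ_mem k σ) (kt_deg σ)
    rwa [show (X.s σ : ℤ) + (Y.s k - X.s σ) = Y.s k by ring] at e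
  have g2 : ∀ k, I.L (h.f (Y.e k)) (ktφ I Φ kt k) = ktφ I Φ kt k := by
    intro k
    unfold ktφ
    rw [map_sum]
    refine Finset.sum_congr rfl fun σ _ => ?_
    rw [← I.L_mul, Φ.φ_l]
  have g3 : ∀ k, Y.s k = 0 → a.a (ktφ I Φ kt k) = w.v k := by
    intro k hk
    rw [← hΦ k hk]
    unfold ktφ
    rw [map_sum, hk]
    refine Finset.sum_congr rfl fun σ hσ => ?_
    rw [X.mem_F] at hσ
    rw [a.a_l, kt_a σ (by omega)]
  have tV : ∀ y : X.V, y + y = 0 := by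
    intro y
    have e : ((1 : A.C) + 1) • y = 0 := by rw [A.two, zero_smul]
    rwa [add_smul, one_smul] at e
  obtain ⟨θ, hθ⟩ := exists_rec (E := I.Y) Y.s (RH (fun k => ktφ I Φ kt k + π k) h) (by
    intro k θ θ' u hj ⟨h1, h2, h3⟩
    refine ⟨h1, h2, ?_⟩
    rw [h3]
    congr 1
    refine Finset.sum_congr rfl fun j _ => ?_
    by_cases hlt : Y.s j < Y.s k
    · rw [hj j hlt]
    · rw [Yc_zero (by omega), map_zero, map_zero, LinearMap.zero_apply, LinearMap.zero_apply])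
    (stepH a _ (fun k => Submodule.add_mem _ (g1 k) (π_deg k))
      (fun k => by rw [map_add, g2, π_e])
      (fun k => by
        have e1 := ktφ_d Φ kt_d k
        have e2 := π_d k
        simp only [map_add, Finset.sum_add_distrib]
        calc _ = (I.dY (ktφ I Φ kt k) +
              ∑ j ∈ Y.F (Y.s k), I.L (h.f (Y.c k j)) (ktφ I Φ kt j)) +
              (I.dY (π k) + ∑ j ∈ Y.F (Y.s k), I.L (h.f (Y.c k j)) (π j)) := by abel
          _ = 0 := by rw [e1, e2, add_zero])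
      (fun k hk => by rw [map_add, g3 k hk, π_a k hk, tV]))
  exact ⟨⟨θ, fun k => (hθ k).1, fun k => (hθ k).2.1, fun k => by
    rw [← (hθ k).2.2, add_left_comm, two_Y (π k), add_zero]⟩⟩

end Crest.Agent.R186.DJ187
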