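import Crest.Agent.R186.KH_186

/-!
Row 186 (A), leaf A.KH (helper302): on 186's `KH186.CE w`, the right dg module `H = Hom_L(KK, L(+1))`,
the evaluation `ev : KK ⊗ H → Γ`, `CE.toIn : Adapt186.In w.dga`, `CE.data : ConeAlg462.Data w.dga`,
`CE.Hrm : RM w.dga`.
-/

set_option autoImplicit false
set_option linter.style.haveILetI false

namespace Crest.Agent.R186.KH186

open Hat827 Win810 Adapt186 Frame515

variable {K : Type} [Field K]

namespace CE

variable {w : WD K} {E : CE w}

/-! ### the right module `H` -/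

variable (E)

/-- `H = Hom_L(KK, L(+1))` -/
def H : Submodule K (E.κ → w.Ob → E.B) where
  carrier := {η | ∀ c j, η c j ∈ E.EB (w.P (E.oc c) - w.P j + 1) (w.A (E.oc c) - w.A j)}
  add_mem' hx hy c j := Submodule.add_mem _ (hx c j) (hy c j)
  zero_mem' _ _ := Submodule.zero_mem _
  smul_mem' r _ hx c j := Submodule.smul_mem _ r (hx c j)

variable {E}

theorem mem_H {η : E.κ → w.Ob → E.B} :
    η ∈ E.H ↔ ∀ c j, η c j ∈ E.EB (w.P (E.oc c) - w.P j + 1) (w.A (E.oc c) - w.A j) := Iff.rfl

instance finH : Module.Finite K E.H := by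
  haveI : ∀ (c : E.κ) (j : w.Ob),
      Module.Finite K (E.EB (w.P (E.oc c) - w.P j + 1) (w.A (E.oc c) - w.A j)) :=
    fun c j => E.finEB _ _ _
  let f : E.H →ₗ[K] (∀ (c : E.κ) (j : w.Ob),
      E.EB (w.P (E.oc c) - w.P j + 1) (w.A (E.oc c) - w.A j)) :=
    { toFun := fun η c j => ⟨η.1 c j, η.2 c j⟩
      map_add' := fun _ _ => rfl
      map_smul' := fun _ _ => rfl }
  refine Module.Finite.of_injective f ?_
  intro a b hab
  apply Subtype.ext
  funext c j
  exact congrArg Subtype.val (congrFun (congrFun hab c) j)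

/-- entries of homogeneous elements of `H` of degree `k` -/
def hH (k : ℤ) (η : E.H) : Prop := ∀ c j, η.1 c j ∈
  E.pb (w.P (E.oc c) - w.P j + 1) (w.A (E.oc c) - w.A j) (k - E.s0 + E.cd c)

/-- the projections of `H` -/
def prH (k : ℤ) : E.H →ₗ[K] E.H where
  toFun η := ⟨fun c j => E.prB (k - E.s0 + E.cd c) (η.1 c j),
    fun c j => E.pb_le _ _ _ (E.prB_EB _ (η.2 c j))⟩
  map_add' x y := by
    apply Subtype.ext
    funext c j
    exact map_add (E.prB _) _ _
  map_smul' r x := by
    apply Subtype.ext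
    funext c j
    exact map_smul (E.prB _) _ _

theorem prH_apply (k : ℤ) (η : E.H) (c : E.κ) (j : w.Ob) :
    (prH k η).1 c j = E.prB (k - E.s0 + E.cd c) (η.1 c j) := rfl

variable (E)

theorem s0_nn (c : E.κ) : 0 ≤ E.s0 := le_trans (by positivity) (E.cd_le c)

/-- the grading of `H` -/
def gs : GS K E.H where
  N := E.Nb + E.s0.toNat
  pr := prH
  pr_pr k η := by
    apply Subtype.ext
    funext c j
    rw [prH_apply, prH_apply]
    exact E.prB_self (E.prB_EB _ (η.2 c j))
  pr_ne k l η h := by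
    apply Subtype.ext
    funext c j
    rw [prH_apply, prH_apply]
    exact E.prB_ne _ (E.prB_EB _ (η.2 c j)) (by omega)
  total η := by
    apply Subtype.ext
    rw [AddSubmonoidClass.coe_finsetSum]
    funext c j
    rw [Finset.sum_apply, Finset.sum_apply]
    have h1 := E.cd_le c
    have h2 := E.s0_nn c
    have h := E.prB_tot (w.P (E.oc c) - w.P j + 1) (E.oc c) j (E.s0 - E.cd c) (by omega)
      (E.Nb + E.s0.toNat) (by push_cast; omega) (η.2 c j)
    conv_rhs => rw [← h]
    refine Finset.sum_congr rfl fun k _ => ?_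
    rw [prH_apply, show ((k : ℕ) : ℤ) - E.s0 + E.cd c = ((k : ℕ) : ℤ) - (E.s0 - E.cd c) by ring]

variable {E}

theorem mem_gs {k : ℤ} {η : E.H} : η ∈ E.gs.G k ↔ hH k η := by
  rw [GS.mem_G]
  constructor
  · intro h c j
    rw [← h]
    exact E.prB_EB _ (η.2 c j)
  · intro h
    apply Subtype.ext
    funext c j
    exact E.prB_self (h c j)

/-- the right action -/
def RH : w.Win →ₗ[K] E.H →ₗ[K] E.H where
  toFun m :=
    { toFun := fun η => ⟨fun c j => ∑ i, η.1 c i * E.p (m.1 i j), by
        intro c j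
        refine Submodule.sum_mem _ fun i _ => ?_
        have h := E.EB_mul (η.2 c i) (E.p_E (m.2 i j))
        rwa [show w.P (E.oc c) - w.P i + 1 + (w.P i - w.P j) = w.P (E.oc c) - w.P j + 1 by ring,
          show w.A (E.oc c) - w.A i + (w.A i - w.A j) = w.A (E.oc c) - w.A j by ring] at h⟩
      map_add' := by
        intro x y
        apply Subtype.ext
        funext c j
        change ∑ i, (x.1 c i + y.1 c i) * E.p (m.1 i j) = _ + _
        rw [← Finset.sum_add_distrib]
        exact Finset.sum_congr rfl fun i _ => add_mul _ _ _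
      map_smul' := by
        intro r x
        apply Subtype.ext
        funext c j
        change ∑ i, (r • x.1 c i) * E.p (m.1 i j) = r • ∑ i, x.1 c i * E.p (m.1 i j)
        rw [Finset.smul_sum]
        exact Finset.sum_congr rfl fun i _ => smul_mul_assoc _ _ _ }
  map_add' a b := by
    apply LinearMap.ext
    intro η
    apply Subtype.ext
    funext c j
    change ∑ i, η.1 c i * E.p (a.1 i j + b.1 i j) =
      ∑ i, η.1 c i * E.p (a.1 i j) + ∑ i, η.1 c i * E.p (b.1 i j)
    rw [← Finset.sum_add_distrib]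
    exact Finset.sum_congr rfl fun i _ => by rw [map_add, mul_add]
  map_smul' r a := by
    apply LinearMap.ext
    intro η
    apply Subtype.ext
    funext c j
    change ∑ i, η.1 c i * E.p (r • a.1 i j) = r • ∑ i, η.1 c i * E.p (a.1 i j)
    rw [Finset.smul_sum]
    exact Finset.sum_congr rfl fun i _ => by rw [map_smul, mul_smul_comm]

@[simp] theorem RH_apply (m : w.Win) (η : E.H) (c : E.κ) (j : w.Ob) :
    (RH m η).1 c j = ∑ i, η.1 c i * E.p (m.1 i j) := rfl

theorem RH_one (η : E.H) : RH (E := E) 1 η = η := by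
  apply Subtype.ext
  funext c j
  rw [RH_apply, Finset.sum_eq_single j]
  · change η.1 c j * E.p ((1 : Matrix w.Ob w.Ob w.S) j j) = _
    rw [Matrix.one_apply_eq, map_one, mul_one]
  · intro i _ hi
    change η.1 c i * E.p ((1 : Matrix w.Ob w.Ob w.S) i j) = _
    rw [Matrix.one_apply_ne hi, map_zero, mul_zero]
  · intro h
    exact absurd (Finset.mem_univ _) h

theorem RH_mul (a b : w.Win) (η : E.H) : RH (a * b) η = RH b (RH a η) := by
  apply Subtype.ext
  funext c j
  rw [RH_apply, RH_apply]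
  simp only [RH_apply]
  change ∑ i, η.1 c i * E.p ((a.1 * b.1) i j) = _
  simp only [Matrix.mul_apply, map_sum, map_mul, Finset.mul_sum, Finset.sum_mul]
  rw [Finset.sum_comm]
  exact Finset.sum_congr rfl fun i _ => Finset.sum_congr rfl fun l _ => by rw [mul_assoc]

theorem RH_deg {m k : ℤ} {a : w.Win} {η : E.H} (ha : a ∈ w.G m) (hη : η ∈ E.gs.G k) :
    RH a η ∈ E.gs.G (k + m) := by
  rw [mem_gs] at hη ⊢
  intro c j
  rw [RH_apply]
  refine Submodule.sum_mem _ fun i _ => ?_
  have h := E.pb_mul (hη c i) (E.p_mem (ha i j))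
  rwa [show w.P (E.oc c) - w.P i + 1 + (w.P i - w.P j) = w.P (E.oc c) - w.P j + 1 by ring,
    show w.A (E.oc c) - w.A i + (w.A i - w.A j) = w.A (E.oc c) - w.A j by ring,
    show k - E.s0 + E.cd c + m = k + m - E.s0 + E.cd c by ring] at h

/-- the differential of `H` -/
def dH : E.H →ₗ[K] E.H where
  toFun η := ⟨fun c j => E.D' (η.1 c j) + ∑ c', E.cc c c' * η.1 c' j, by
    intro c j
    refine Submodule.add_mem _ (E.EB_D (η.2 c j)) (Submodule.sum_mem _ fun c' _ => ?_)
    have h := E.EB_mul (E.pb_le _ _ _ (E.cc_mem c c')) (η.2 c' j)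
    rwa [show w.P (E.oc c) - w.P (E.oc c') + (w.P (E.oc c') - w.P j + 1) =
        w.P (E.oc c) - w.P j + 1 by ring,
      show w.A (E.oc c) - w.A (E.oc c') + (w.A (E.oc c') - w.A j) = w.A (E.oc c) - w.A j by
        ring] at h⟩
  map_add' x y := by
    apply Subtype.ext
    funext c j
    change E.D' (x.1 c j + y.1 c j) + ∑ c', E.cc c c' * (x.1 c' j + y.1 c' j) =
      (E.D' (x.1 c j) + ∑ c', E.cc c c' * x.1 c' j) + (E.D' (y.1 c j) + ∑ c', E.cc c c' * y.1 c' j)
    simp only [map_add, mul_add, Finset.sum_add_distrib]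
    abel
  map_smul' r x := by
    apply Subtype.ext
    funext c j
    change E.D' (r • x.1 c j) + ∑ c', E.cc c c' * (r • x.1 c' j) =
      r • (E.D' (x.1 c j) + ∑ c', E.cc c c' * x.1 c' j)
    simp only [map_smul, mul_smul_comm, ← Finset.smul_sum, smul_add]

@[simp] theorem dH_apply (η : E.H) (c : E.κ) (j : w.Ob) :
    (dH η).1 c j = E.D' (η.1 c j) + ∑ c', E.cc c c' * η.1 c' j := rfl

theorem dH_deg {k : ℤ} {η : E.H} (hη : η ∈ E.gs.G k) : dH η ∈ E.gs.G (k - 1) := by
  rw [mem_gs] at hη ⊢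
  intro c j
  rw [dH_apply]
  refine Submodule.add_mem _ ?_ (Submodule.sum_mem _ fun c' _ => ?_)
  · have h := E.D'_mem (hη c j)
    rwa [show k - E.s0 + E.cd c - 1 = k - 1 - E.s0 + E.cd c by ring] at h
  · have h := E.pb_mul (E.cc_mem c c') (hη c' j)
    rwa [show w.P (E.oc c) - w.P (E.oc c') + (w.P (E.oc c') - w.P j + 1) =
        w.P (E.oc c) - w.P j + 1 by ring,
      show w.A (E.oc c) - w.A (E.oc c') + (w.A (E.oc c') - w.A j) = w.A (E.oc c) - w.A j by
        ring,
      show (E.cd c : ℤ) - E.cd c' - 1 + (k - E.s0 + E.cd c') = k - 1 - E.s0 + E.cd c by ring] at h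

theorem dbl_sum {ι : Type} (s : Finset ι) (f : ι → E.B) : ∑ i ∈ s, f i + ∑ i ∈ s, f i = 0 :=
  E.two _

theorem dH_dH (η : E.H) : dH (dH η) = 0 := by
  apply Subtype.ext
  funext c j
  rw [dH_apply]
  simp only [dH_apply, map_add, map_sum, E.D'_D', E.D'_mul, zero_add, mul_add,
    Finset.sum_add_distrib, Finset.mul_sum]
  have h : ∑ c', E.D' (E.cc c c') * η.1 c' j + ∑ c', ∑ c'', E.cc c c' * (E.cc c' c'' * η.1 c'' j) =
      0 := by
    rw [Finset.sum_comm (f := fun c' c'' => E.cc c c' * (E.cc c' c'' * η.1 c'' j)),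
      ← Finset.sum_add_distrib]
    refine Finset.sum_eq_zero fun c' _ => ?_
    have h1 := congrArg (· * η.1 c' j) (E.mc c c')
    simp only [add_mul, zero_mul, Finset.sum_mul] at h1
    rw [← h1]
    congr 1
    exact Finset.sum_congr rfl fun i _ => by rw [mul_assoc]
  have h2 := E.two (∑ c', E.cc c c' * E.D' (η.1 c' j))
  change _ = (0 : E.B)
  calc _ = (∑ c', E.D' (E.cc c c') * η.1 c' j +
        ∑ c', ∑ c'', E.cc c c' * (E.cc c' c'' * η.1 c'' j)) +
        (∑ c', E.cc c c' * E.D' (η.1 c' j) + ∑ c', E.cc c c' * E.D' (η.1 c' j)) := by abel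
    _ = 0 := by rw [h, h2, add_zero]

theorem RH_D (a : w.Win) (η : E.H) : RH (w.DW a) η = dH (RH a η) + RH a (dH η) := by
  apply Subtype.ext
  funext c j
  change (RH (w.DW a) η).1 c j = (dH (RH a η)).1 c j + (RH a (dH η)).1 c j
  simp only [dH_apply, RH_apply, WD.DW_apply, E.p_D, map_sum, E.D'_mul, add_mul,
    Finset.sum_add_distrib, Finset.sum_mul, Finset.mul_sum, mul_assoc]
  rw [Finset.sum_comm (f := fun c' i => E.cc c c' * (η.1 c' i * E.p (a.1 i j)))]
  have h1 := E.two (∑ i, E.D' (η.1 c i) * E.p (a.1 i j))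
  have h2 := E.two (∑ i, ∑ c', E.cc c c' * (η.1 c' i * E.p (a.1 i j)))
  calc _ = (∑ i, η.1 c i * E.D' (E.p (a.1 i j))) +
        (∑ i, E.D' (η.1 c i) * E.p (a.1 i j) + ∑ i, E.D' (η.1 c i) * E.p (a.1 i j)) +
        (∑ i, ∑ c', E.cc c c' * (η.1 c' i * E.p (a.1 i j)) +
          ∑ i, ∑ c', E.cc c c' * (η.1 c' i * E.p (a.1 i j))) := by rw [h1, h2, add_zero, add_zero]
    _ = _ := by abel

/-! ### the evaluation -/

theorem o_EB {i j : w.Ob} {b : E.B} (hb : b ∈ E.EB (w.P i - w.P j + 1) (w.A i - w.A j)) :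
    E.o b ∈ w.E i j := by
  have key : E.EB (w.P i - w.P j + 1) (w.A i - w.A j) ≤ (w.E i j).comap E.o := by
    refine iSup_le fun C => ?_
    intro x hx
    have h := E.o_mem hx
    rw [show w.P i - w.P j + 1 - 1 = w.P i - w.P j by ring] at h
    exact WD.q_le i j (C + E.s0) h
  exact key hb

/-- the pairing before `o` -/
def pq (x : E.KK) (η : E.H) (i j : w.Ob) : E.B := ∑ c, x.1 i c * η.1 c j

theorem pq_mem (x : E.KK) (η : E.H) (i j : w.Ob) :
    pq x η i j ∈ E.EB (w.P i - w.P j + 1) (w.A i - w.A j) := by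
  refine Submodule.sum_mem _ fun c _ => ?_
  have h := E.EB_mul (x.2 i c) (η.2 c j)
  rwa [show w.P i - w.P (E.oc c) + (w.P (E.oc c) - w.P j + 1) = w.P i - w.P j + 1 by ring,
    show w.A i - w.A (E.oc c) + (w.A (E.oc c) - w.A j) = w.A i - w.A j by ring] at h

/-- the evaluation -/
def evK : E.KK →ₗ[K] E.H →ₗ[K] w.Win :=
  LinearMap.mk₂ K (fun x η => ⟨Matrix.of fun i j => E.o (pq x η i j),
      fun i j => o_EB (pq_mem x η i j)⟩)
    (by
      intro x x' η
      apply Subtype.ext
      ext i j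
      change E.o (pq (x + x') η i j) = E.o (pq x η i j) + E.o (pq x' η i j)
      rw [← map_add]
      congr 1
      unfold pq
      rw [← Finset.sum_add_distrib]
      exact Finset.sum_congr rfl fun c _ => add_mul _ _ _)
    (by
      intro r x η
      apply Subtype.ext
      ext i j
      change E.o (pq (r • x) η i j) = r • E.o (pq x η i j)
      rw [← map_smul]
      congr 1
      unfold pq
      rw [Finset.smul_sum]
      exact Finset.sum_congr rfl fun c _ => smul_mul_assoc _ _ _)
    (by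
      intro x η η'
      apply Subtype.ext
      ext i j
      change E.o (pq x (η + η') i j) = E.o (pq x η i j) + E.o (pq x η' i j)
      rw [← map_add]
      congr 1
      unfold pq
      rw [← Finset.sum_add_distrib]
      exact Finset.sum_congr rfl fun c _ => mul_add _ _ _)
    (by
      intro r x η
      apply Subtype.ext
      ext i j
      change E.o (pq x (r • η) i j) = r • E.o (pq x η i j)
      rw [← map_smul]
      congr 1
      unfold pq
      rw [Finset.smul_sum]
      exact Finset.sum_congr rfl fun c _ => mul_smul_comm _ _ _)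

@[simp] theorem evK_apply (x : E.KK) (η : E.H) (i j : w.Ob) :
    (evK x η).1 i j = E.o (∑ c, x.1 i c * η.1 c j) := rfl

theorem evK_l (a : w.Win) (x : E.KK) (η : E.H) : evK (E.L a x) η = a * evK x η := by
  apply Subtype.ext
  ext i j
  change (evK (E.L a x) η).1 i j = (a.1 * (evK x η).1) i j
  rw [evK_apply, Matrix.mul_apply]
  simp only [evK_apply, E.mul_o, L_apply, Finset.sum_mul, Finset.mul_sum, map_sum, mul_assoc]
  rw [Finset.sum_comm]

theorem evK_r (a : w.Win) (x : E.KK) (η : E.H) : evK x (RH a η) = evK x η * a := by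
  apply Subtype.ext
  ext i j
  change (evK x (RH a η)).1 i j = ((evK x η).1 * a.1) i j
  rw [evK_apply, Matrix.mul_apply]
  simp only [evK_apply, E.o_mul, RH_apply, Finset.sum_mul, Finset.mul_sum, map_sum, mul_assoc]
  rw [Finset.sum_comm]

theorem evK_D (x : E.KK) (η : E.H) : w.DW (evK x η) = evK (E.dY x) η + evK x (dH η) := by
  apply Subtype.ext
  ext i j
  change w.D ((evK x η).1 i j) = (evK (E.dY x) η).1 i j + (evK x (dH η)).1 i j
  rw [evK_apply, evK_apply, evK_apply, E.D_o, ← map_add]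
  congr 1
  simp only [dY_apply, dH_apply, map_sum, E.D'_mul, add_mul, mul_add, Finset.sum_add_distrib,
    Finset.sum_mul, Finset.mul_sum, mul_assoc]
  rw [Finset.sum_comm (f := fun c c' => x.1 i c' * (E.cc c' c * η.1 c j))]
  have h1 := E.two (∑ c, ∑ c', x.1 i c * (E.cc c c' * η.1 c' j))
  calc _ = (∑ c, E.D' (x.1 i c) * η.1 c j + ∑ c, x.1 i c * E.D' (η.1 c j)) +
        (∑ c, ∑ c', x.1 i c * (E.cc c c' * η.1 c' j) +
          ∑ c, ∑ c', x.1 i c * (E.cc c c' * η.1 c' j)) := by rw [h1, add_zero]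
    _ = _ := by abel

theorem evK_deg {k l : ℤ} {x : E.KK} {η : E.H} (hx : x ∈ E.gr.G k) (hη : η ∈ E.gs.G l) :
    evK x η ∈ w.G (k + l) := by
  rw [mem_gr] at hx
  rw [mem_gs] at hη
  intro i j
  rw [evK_apply, map_sum]
  refine Submodule.sum_mem _ fun c _ => ?_
  have h := E.o_mem (E.pb_mul (hx i c) (hη c j))
  rwa [show w.P i - w.P (E.oc c) + (w.P (E.oc c) - w.P j + 1) - 1 = w.P i - w.P j by ring,
    show w.A i - w.A (E.oc c) + (w.A (E.oc c) - w.A j) = w.A i - w.A j by ring,
    show k - (E.cd c : ℤ) + (l - E.s0 + E.cd c) + E.s0 = k + l by ring] at h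

theorem p_ev (x : E.KK) (η : E.H) (i j : w.Ob) : E.p ((evK x η).1 i j) = 0 := by
  rw [evK_apply, E.p_o]

theorem evK_pL (x : E.KK) (η : E.H) (y : E.KK) : E.L (evK x η) y = 0 := by
  apply Subtype.ext
  funext i c
  rw [L_apply]
  exact Finset.sum_eq_zero fun j _ => by rw [p_ev, zero_mul]

theorem evK_pR (x : E.KK) (η : E.H) (η' : E.H) : RH (evK x η) η' = 0 := by
  apply Subtype.ext
  funext c j
  rw [RH_apply]
  exact Finset.sum_eq_zero fun i _ => by rw [p_ev, mul_zero]


/-! ### `H` as a right dg module -/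

open MulOpposite in
instance : SMul (w.Win)ᵐᵒᵖ E.H := ⟨fun m η => RH m.unop η⟩

theorem op_smul_def (m : w.Win) (η : E.H) : MulOpposite.op m • η = RH m η := rfl

instance modH : Module (w.Win)ᵐᵒᵖ E.H where
  one_smul η := RH_one η
  mul_smul a b η := RH_mul b.unop a.unop η
  smul_zero a := map_zero (RH a.unop)
  smul_add a x y := map_add (RH a.unop) x y
  add_smul a b x := by
    change RH (a.unop + b.unop) x = RH a.unop x + RH b.unop x
    rw [map_add, LinearMap.add_apply]
  zero_smul x := by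
    change RH 0 x = 0
    rw [map_zero, LinearMap.zero_apply]

instance towH : IsScalarTower K (w.Win)ᵐᵒᵖ E.H where
  smul_assoc r a x := by
    change RH (r • a.unop) x = r • RH a.unop x
    rw [map_smul, LinearMap.smul_apply]

theorem H_two (y : E.H) : y + y = 0 := by
  apply Subtype.ext
  funext c j
  exact E.two _

theorem dH_RH (a : w.Win) (η : E.H) : dH (RH a η) = RH (w.DW a) η + RH a (dH η) := by
  rw [RH_D, add_assoc, H_two, add_zero]

variable (E)

/-- `H` as a right dg module over the window algebra -/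
noncomputable def Hrm : RM w.dga where
  X := E.H
  gr := E.gs.G
  d := dH
  d_mem := dH_deg
  d_d := dH_dH
  act := inferInstanceAs (Module (w.Win)ᵐᵒᵖ E.H)
  tower := inferInstanceAs (IsScalarTower K (w.Win)ᵐᵒᵖ E.H)
  smul_mem {k l a x} ha hx := by
    have := RH_deg (E := E) (m := k) (k := l) (a := a) (η := x) ha hx
    rw [add_comm] at this
    exact this
  leib a x := dH_RH (E := E) a x

variable {E}

variable (E)

/-- **the input of the adapter** -/
def toIn : In w.dga where
  Y := E.KK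
  Z := E.H
  gr := E.gr
  gs := E.gs
  L := E.L
  L_one := L_one
  L_mul := L_mul
  Rr := RH
  R_one := RH_one
  R_mul := RH_mul
  L_deg := L_deg
  R_deg := RH_deg
  dY := E.dY
  dZ := dH
  dY_deg := dY_deg
  dZ_deg := dH_deg
  dYY := dYY
  dZZ := dH_dH
  L_D := L_D
  R_D := RH_D
  ev := evK
  ev_l := evK_l
  ev_r := evK_r
  ev_D := evK_D
  ev_deg := evK_deg
  pL := evK_pL
  pR := evK_pR

/-- **the cone data over the window algebra** -/
noncomputable def data : ConeAlg462.Data w.dga := E.toIn.data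

end CE

end Crest.Agent.R186.KH186
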