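import Mathlib
import Crest.Prelude.Def_GorProjVanishing
import Crest.Agent.R186.Frame1_234

/-!
Row 186 (helper234): `GorProjVanishingData` is stable under extension of the base field, in the
literal form of S0281.
-/

set_option autoImplicit false
set_option linter.unusedSectionVars false
set_option linter.style.haveILetI false

universe u

open scoped TensorProduct
open CategoryTheory CategoryTheory.Abelian Crest.AlgebraR

namespace Crest.Agent.R186.Frame234

open BC234 Rad234 Shift234 Syz700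

theorem ext_iso_right {C : Type*} [Category C] [Abelian C] [HasExt C] {X Y Y' : C} (e : Y ≅ Y')
    (i : ℕ) (h : Subsingleton (Ext X Y i)) : Subsingleton (Ext X Y' i) := by
  have hz : ∀ x : Ext X Y' i, x = 0 := by
    intro x
    have h1 : x.comp (Ext.mk₀ e.inv) (add_zero i) = 0 := h.elim _ _
    have h2 : (x.comp (Ext.mk₀ e.inv) (add_zero i)).comp (Ext.mk₀ e.hom) (add_zero i) = x := by
      rw [Ext.comp_assoc x (Ext.mk₀ e.inv) (Ext.mk₀ e.hom) (add_zero i) (add_zero 0)
        (by omega), Ext.mk₀_comp_mk₀, e.inv_hom_id, Ext.comp_mk₀_id]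
    rw [← h2, h1, Ext.zero_comp]
  exact ⟨fun a b => by rw [hz a, hz b]⟩

theorem ext_iso_left {C : Type*} [Category C] [Abelian C] [HasExt C] {X X' Y : C} (e : X ≅ X')
    (i : ℕ) (h : Subsingleton (Ext X Y i)) : Subsingleton (Ext X' Y i) := by
  have hz : ∀ x : Ext X' Y i, x = 0 := by
    intro x
    have h1 : (Ext.mk₀ e.hom).comp x (zero_add i) = 0 := h.elim _ _
    have h2 : (Ext.mk₀ e.inv).comp ((Ext.mk₀ e.hom).comp x (zero_add i)) (zero_add i) = x := by
      rw [← Ext.comp_assoc (Ext.mk₀ e.inv) (Ext.mk₀ e.hom) x (add_zero 0) (zero_add i)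
        (by omega), Ext.mk₀_comp_mk₀, e.inv_hom_id, Ext.mk₀_id_comp]
    rw [← h2, h1, Ext.comp_zero]
  exact ⟨fun a b => by rw [hz a, hz b]⟩

variable {k : Type} [Field k] (E : Type u) [Field E] [Algebra k E]
variable {Λ : Type} [Ring Λ] [Algebra k Λ]

theorem gproj_bc (Z : Type) [AddCommGroup Z] [Module k Z] [Module Λ Z] [IsScalarTower k Λ Z]
    (h : IsGorensteinProjective Λ Z) : IsGorensteinProjective (E ⊗[k] Λ) (BC k E Z) := by
  obtain ⟨P, i1, i2, d, hP, hex, hom, ⟨e⟩⟩ := h
  letI i3 : ∀ n, Module k (P n) := fun n => Module.compHom (P n) (algebraMap k Λ)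
  haveI i4 : ∀ n, IsScalarTower k Λ (P n) := fun n => ⟨fun r a x => by
    show (r • a) • x = algebraMap k Λ r • (a • x)
    rw [Algebra.smul_def, mul_smul]⟩
  haveI i5 : ∀ n, Module.Finite Λ (P n) := fun n => (hP n).1
  haveI i6 : ∀ n, Module.Projective Λ (P n) := fun n => (hP n).2
  refine ⟨fun n => BC k E (P n), fun n => inferInstance, fun n => inferInstance,
    fun n => BC234.map E (d n), fun n => ⟨finite_bc E (P n), proj_bc E (P n)⟩,
    fun n => map_exact E (hex n), ?_, ?_⟩
  · intro n g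
    constructor
    · intro hg
      have hg' : g ∘ₗ BC234.map E (d (n + 1)) = 0 := hg
      obtain ⟨f, hf⟩ := BC234.lift (E := E) (N := Λ) (d (n + 1)) (d n)
        (fun g h => (hom n g).1 h)
        ((self (k := k) (Λ := Λ) E).symm.toLinearMap ∘ₗ g)
        (by rw [LinearMap.comp_assoc, hg', LinearMap.comp_zero])
      refine ⟨(self (k := k) (Λ := Λ) E).toLinearMap ∘ₗ f, ?_⟩
      show ((self (k := k) (Λ := Λ) E).toLinearMap ∘ₗ f) ∘ₗ BC234.map E (d n) = g
      rw [LinearMap.comp_assoc, hf]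
      rfl
    · rintro ⟨f, rfl⟩
      show (f ∘ₗ BC234.map E (d n)) ∘ₗ BC234.map E (d (n + 1)) = 0
      rw [LinearMap.comp_assoc, ← map_comp, (hex n).linearMap_comp_eq_zero, map_zero',
        LinearMap.comp_zero]
  · let π : P 0 →ₗ[Λ] Z := e.symm.toLinearMap ∘ₗ (LinearMap.range (d 0)).mkQ
    have hπ : Function.Surjective π :=
      e.symm.surjective.comp (Submodule.mkQ_surjective _)
    have hx : Function.Exact (d 0) π := by
      intro y
      constructor
      · intro hy
        have h1 : (LinearMap.range (d 0)).mkQ y = 0 := by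
          have : e.symm ((LinearMap.range (d 0)).mkQ y) = 0 := hy
          rwa [map_eq_zero_iff _ e.symm.injective] at this
        rw [Submodule.mkQ_apply, Submodule.Quotient.mk_eq_zero] at h1
        exact h1
      · rintro ⟨x, rfl⟩
        have h1 : (LinearMap.range (d 0)).mkQ (d 0 x) = 0 := by
          rw [Submodule.mkQ_apply, Submodule.Quotient.mk_eq_zero]
          exact ⟨x, rfl⟩
        show e.symm ((LinearMap.range (d 0)).mkQ (d 0 x)) = 0
        rw [h1, map_zero]
    have hx' := map_exact (k := k) E hx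
    have hs' := map_surj (k := k) E hπ
    exact ⟨((Submodule.quotEquivOfEq _ _ (LinearMap.exact_iff.1 hx').symm).trans
      (LinearMap.quotKerEquivOfSurjective _ hs')).symm⟩

/-- literal second half of S0281 -/
theorem frame (Z : Type) [AddCommGroup Z] [Module Λ Z] [Module k Z] [IsScalarTower k Λ Z]
    (H : GorProjVanishingData k Λ Z) :
    ∃ (_ : Module (E ⊗[k] Λ) (E ⊗[k] Z)),
      (∀ (a b : E) (r : Λ) (z : Z),
        (a ⊗ₜ[k] r) • (b ⊗ₜ[k] z) = (a * b) ⊗ₜ[k] (r • z)) ∧
      GorProjVanishingData E (E ⊗[k] Λ) (E ⊗[k] Z) := by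
  obtain ⟨h1, h2, h3, h4, h5, h6, h7, h8⟩ := H
  haveI : IsNoetherianRing Λ := isNoetherian_of_tower k (inferInstance : IsNoetherian k Λ)
  refine ⟨(inferInstance : Module (E ⊗[k] Λ) (BC k E Z)), fun a b r z => smul_tm Λ a r b z, ?_⟩
  refine ⟨inferInstance, quot_bc k E h2, jac4_bc k E h2 h3, finite_bc E Z,
    fun h => h5 (proj_descent E Z h), gproj_bc E Z h6, fun i hi => ?_, fun i hi => ?_⟩
  · exact ext_bc E (⟨Z⟩ : FK k Λ) Z h7 i hi
  · exact ext_iso_right ((self (k := k) (Λ := Λ) E).toModuleIso) i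
      (ext_bc E (⟨Z⟩ : FK k Λ) Λ h8 i hi)

/-- S0281 from a single pair over the ground field -/
theorem c0281 (K : Type) [Field K] (Λ : Type) [Ring Λ] [Algebra K Λ] (Z : Type) [AddCommGroup Z]
    [Module Λ Z] [Module K Z] [IsScalarTower K Λ Z] (H : GorProjVanishingData K Λ Z) :
    ∃ (Λ : Type) (_ : Ring Λ) (_ : Algebra K Λ) (Z : Type) (_ : AddCommGroup Z)
      (_ : Module Λ Z) (_ : Module K Z) (_ : IsScalarTower K Λ Z),
      GorProjVanishingData K Λ Z ∧
      ∀ (E : Type u) [Field E] [Algebra K E],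
        ∃ (_ : Module (E ⊗[K] Λ) (E ⊗[K] Z)),
          (∀ (a b : E) (r : Λ) (z : Z),
            (a ⊗ₜ[K] r) • (b ⊗ₜ[K] z) = (a * b) ⊗ₜ[K] (r • z)) ∧
          GorProjVanishingData E (E ⊗[K] Λ) (E ⊗[K] Z) :=
  ⟨Λ, inferInstance, inferInstance, Z, inferInstance, inferInstance, inferInstance,
    inferInstance, H, fun E _ _ => frame E Z H⟩

end Crest.Agent.R186.Frame234
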