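import Mathlib
import Crest.Prelude.Def_GorProjVanishing
import Crest.Agent.R186.Frame2_234

/-!
Row 186 (helper234): padding by a factor ring.
-/

set_option autoImplicit false
set_option linter.unusedSectionVars false
set_option linter.style.haveILetI false

universe u

open scoped TensorProduct
open CategoryTheory CategoryTheory.Abelian Crest.AlgebraR

namespace Crest.Agent.R186.Pad234

open Rad234 Shift234 Syz700 Frame234

section ExtRing

/-- `Ext^i (Z, Λ) = 0` for Gorenstein-projective `Z` -/
noncomputable def gseq {Λ : Type u} [Ring Λ] (P : ℤ → Type u) [∀ n, AddCommGroup (P n)]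
    [∀ n, Module Λ (P n)] (d : ∀ n : ℤ, P (n + 1) →ₗ[Λ] P n)
    (hP : ∀ n, Module.Projective Λ (P n))
    (hex : ∀ n : ℤ, Function.Exact (d (n + 1)) (d n))
    (hom : ∀ n : ℤ, Function.Exact (fun f : P n →ₗ[Λ] Λ => f ∘ₗ d n)
      (fun g : P (n + 1) →ₗ[Λ] Λ => g ∘ₗ d (n + 1))) : SyzSeq (R := Λ) Λ where
  X j := P j ⧸ LinearMap.range (d j)
  P j := P j
  pj j := hP j
  f j := (LinearMap.range (d ((j : ℤ) + 1))).liftQ (d j) (by
    rintro _ ⟨x, rfl⟩
    exact (hex j _).2 ⟨x, rfl⟩)
  g j := (LinearMap.range (d (j : ℤ))).mkQ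
  fi j := by
    rw [← LinearMap.ker_eq_bot]
    apply Submodule.ker_liftQ_eq_bot
    rw [LinearMap.exact_iff.1 (hex j)]
  gs j := Submodule.mkQ_surjective _
  ex j := by
    intro y
    constructor
    · intro hy
      rw [Submodule.mkQ_apply, Submodule.Quotient.mk_eq_zero] at hy
      obtain ⟨x, rfl⟩ := hy
      exact ⟨Submodule.Quotient.mk x, rfl⟩
    · rintro ⟨x, rfl⟩
      obtain ⟨x, rfl⟩ := Submodule.mkQ_surjective _ x
      rw [Submodule.mkQ_apply, Submodule.mkQ_apply, Submodule.Quotient.mk_eq_zero]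
      exact ⟨x, rfl⟩
  lift j φ := by
    obtain ⟨f, hf⟩ := (hom j (φ ∘ₗ (LinearMap.range (d ((j : ℤ) + 1))).mkQ)).1 (by
      show (φ ∘ₗ (LinearMap.range (d ((j : ℤ) + 1))).mkQ) ∘ₗ d ((j : ℤ) + 1) = 0
      rw [LinearMap.comp_assoc, LinearMap.range_mkQ_comp, LinearMap.comp_zero])
    refine ⟨f, ?_⟩
    apply Submodule.linearMap_qext
    exact hf

theorem ext_ring {Λ : Type u} [Ring Λ] (Z : Type u) [AddCommGroup Z] [Module Λ Z]
    (h : IsGorensteinProjective Λ Z) (i : ℕ) (hi : 0 < i) :
    Subsingleton (Ext (ModuleCat.of Λ Z) (ModuleCat.of Λ Λ) i) := by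
  obtain ⟨P, i1, i2, d, hP, hex, hom, ⟨e⟩⟩ := h
  have h1 := (gseq P d (fun n => (hP n).2) hex hom).ext_pos i hi
  exact ext_iso_left e.symm.toModuleIso i h1

end ExtRing

section infl

variable (R B : Type) [Ring R] [Ring B]

/-- inflation of an `R`-module to `R × B` -/
def IM (_B : Type) (M : Type) : Type := M

variable (M : Type) [AddCommGroup M] [Module R M]

instance : AddCommGroup (IM B M) := inferInstanceAs (AddCommGroup M)

instance : Module (R × B) (IM B M) :=
  Module.compHom M (RingHom.fst R B)

variable {R M}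

/-- `IM` on elements -/
def im (x : M) : IM B M := x

variable {B}

/-- `IM⁻¹` on elements -/
def un (x : IM B M) : M := x

theorem smul_im (x : R × B) (m : M) : x • im B m = im B (x.1 • m) := rfl

variable {N : Type} [AddCommGroup N] [Module R N]

/-- maps -/
def imap (B : Type) [Ring B] (f : M →ₗ[R] N) : IM B M →ₗ[R × B] IM B N where
  toFun x := im B (f (un x))
  map_add' x y := map_add f x y
  map_smul' x y := map_smul f x.1 (un y)

/-- maps back -/
def unmap (f : IM B M →ₗ[R × B] IM B N) : M →ₗ[R] N where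
  toFun x := un (f (im B x))
  map_add' x y := map_add f x y
  map_smul' x y := by
    have h := f.map_smul ((x, 0) : R × B) (im B y)
    exact h

theorem imap_unmap (f : IM B M →ₗ[R × B] IM B N) : imap B (unmap f) = f := rfl

theorem unmap_comp {P : Type} [AddCommGroup P] [Module R P] (g : IM B N →ₗ[R × B] IM B P)
    (f : M →ₗ[R] N) : unmap (g ∘ₗ imap B f) = unmap g ∘ₗ f := rfl

variable (R B)

/-- the embedding `IM (R^n) → (R × B)^n` -/
def imi (n : ℕ) : IM B (Fin n → R) →ₗ[R × B] (Fin n → R × B) where
  toFun x := fun i => ((un x) i, 0)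
  map_add' x y := by
    funext i
    exact Prod.ext rfl (add_zero 0).symm
  map_smul' x y := by
    funext i
    exact Prod.ext rfl (mul_zero x.2).symm

/-- the projection -/
def imp (n : ℕ) : (Fin n → R × B) →ₗ[R × B] IM B (Fin n → R) where
  toFun x := im B fun i => (x i).1
  map_add' _ _ := rfl
  map_smul' _ _ := rfl

theorem imp_imi (n : ℕ) : imp R B n ∘ₗ imi R B n = LinearMap.id := rfl

theorem proj_free (n : ℕ) : Module.Projective (R × B) (IM B (Fin n → R)) :=
  Module.Projective.of_split (imi R B n) (imp R B n) (imp_imi R B n)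

variable {R}

theorem finite_im [Module.Finite R M] : Module.Finite (R × B) (IM B M) := by
  obtain ⟨n, f, hf⟩ := Module.Finite.exists_fin' R M
  haveI : Module.Finite (R × B) (IM B (Fin n → R)) :=
    Module.Finite.of_surjective (imp R B n) fun x => ⟨imi R B n x, rfl⟩
  exact Module.Finite.of_surjective (imap B f) hf

theorem proj_im [Module.Finite R M] [Module.Projective R M] :
    Module.Projective (R × B) (IM B M) := by
  obtain ⟨n, f, hf⟩ := Module.Finite.exists_fin' R M
  obtain ⟨h, hh⟩ := Module.projective_lifting_property f LinearMap.id hf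
  haveI := proj_free R B n
  refine Module.Projective.of_split (imap B h) (imap B f) ?_
  ext x
  exact LinearMap.congr_fun hh x

theorem proj_of_im [Module.Finite R M] (h : Module.Projective (R × B) (IM B M)) :
    Module.Projective R M := by
  obtain ⟨n, f, hf⟩ := Module.Finite.exists_fin' R M
  obtain ⟨s, hs⟩ := Module.projective_lifting_property (imap B f) LinearMap.id hf
  refine Module.Projective.of_split (unmap s) f ?_
  ext x
  exact LinearMap.congr_fun hs x

/-- maps to the ring -/
def toRing (f : IM B M →ₗ[R × B] IM B R) : IM B M →ₗ[R × B] (R × B) where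
  toFun x := (un (f x), 0)
  map_add' x y := by
    rw [map_add]
    exact Prod.ext rfl (add_zero 0).symm
  map_smul' x y := by
    rw [map_smul]
    exact Prod.ext rfl (mul_zero x.2).symm

/-- maps from the ring -/
def ofRing (f : IM B M →ₗ[R × B] (R × B)) : IM B M →ₗ[R × B] IM B R where
  toFun x := im B (f x).1
  map_add' x y := by rw [map_add]; rfl
  map_smul' x y := by rw [map_smul]; rfl

theorem toRing_ofRing (f : IM B M →ₗ[R × B] (R × B)) : toRing B (ofRing B f) = f := by
  ext x
  · rfl
  · have h1 : x = ((1, 0) : R × B) • x := by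
      show x = im B ((1 : R) • un x)
      rw [one_smul]
      rfl
    have h2 : (f x).2 = 0 := by
      conv_lhs => rw [h1, map_smul]
      show (0 : B) * (f x).2 = 0
      rw [zero_mul]
    exact h2.symm

theorem gproj_im (Z : Type) [AddCommGroup Z] [Module R Z] (h : IsGorensteinProjective R Z) :
    IsGorensteinProjective (R × B) (IM B Z) := by
  obtain ⟨P, i1, i2, d, hP, hex, hom, ⟨e⟩⟩ := h
  haveI i5 : ∀ n, Module.Finite R (P n) := fun n => (hP n).1
  haveI i6 : ∀ n, Module.Projective R (P n) := fun n => (hP n).2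
  refine ⟨fun n => IM B (P n), fun n => inferInstance, fun n => inferInstance,
    fun n => imap B (d n), fun n => ⟨finite_im B, proj_im B⟩, fun n => hex n, ?_, ?_⟩
  · intro n g
    constructor
    · intro hg
      have hg' : g ∘ₗ imap B (d (n + 1)) = 0 := hg
      have h1 : unmap (ofRing B g) ∘ₗ d (n + 1) = 0 := by
        ext x
        have := LinearMap.congr_fun hg' x
        exact congrArg Prod.fst this
      obtain ⟨f, hf⟩ := (hom n _).1 h1
      refine ⟨toRing B (imap B f), ?_⟩
      show toRing B (imap B f) ∘ₗ imap B (d n) = g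
      rw [← toRing_ofRing B g]
      ext x
      · exact LinearMap.congr_fun hf x
      · rfl
    · rintro ⟨f, rfl⟩
      show (f ∘ₗ imap B (d n)) ∘ₗ imap B (d (n + 1)) = 0
      rw [LinearMap.comp_assoc]
      have : imap B (d n) ∘ₗ imap B (d (n + 1)) = 0 := by
        ext x
        exact LinearMap.congr_fun (hex n).linearMap_comp_eq_zero x
      rw [this, LinearMap.comp_zero]
  · let e1 : IM B Z ≃ₗ[R × B] IM B (P 0 ⧸ LinearMap.range (d 0)) :=
      LinearEquiv.ofBijective (imap B e.toLinearMap) e.bijective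
    let q : IM B (P 0) →ₗ[R × B] IM B (P 0 ⧸ LinearMap.range (d 0)) :=
      imap B (LinearMap.range (d 0)).mkQ
    have hq : Function.Surjective q := by
      intro y
      obtain ⟨x, hx⟩ := Submodule.mkQ_surjective (LinearMap.range (d 0)) (un y)
      exact ⟨im B x, hx⟩
    have hk : LinearMap.ker q = LinearMap.range (imap B (d 0)) := by
      ext x
      exact (Submodule.Quotient.mk_eq_zero (LinearMap.range (d 0)) (x := (un x : P 0)))
    let e2 : (IM B (P 0) ⧸ LinearMap.range (imap B (d 0))) ≃ₗ[R × B]
        IM B (P 0 ⧸ LinearMap.range (d 0)) :=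
      (Submodule.quotEquivOfEq _ _ hk.symm).trans (LinearMap.quotKerEquivOfSurjective q hq)
    exact ⟨e1.trans e2.symm⟩

variable [IsNoetherianRing R]

/-- the inflated syzygy sequence -/
noncomputable def iseq (M : FM R) (N : Type) [AddCommGroup N] [Module R N]
    (h : ∀ i : ℕ, 0 < i → Subsingleton (Ext (ModuleCat.of R M.X) (ModuleCat.of R N) i)) :
    SyzSeq (R := R × B) (IM B N) where
  X j := IM B (Om M j).X
  P j := IM B (Fin (Om M j).n → R)
  pj j := proj_free R B _
  f j := imap B (Om M j).inc
  g j := imap B (Om M j).cov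
  fi j := (Om M j).inc_inj
  gs j := (Om M j).cov_surj
  ex j := by
    intro y
    constructor
    · intro hy
      exact (Om M j).exists_inc y hy
    · rintro ⟨x, rfl⟩
      exact LinearMap.congr_fun (Om M j).cov_inc x
  lift j φ := by
    obtain ⟨f, hf⟩ := lift_Om M N h j (unmap φ)
    refine ⟨imap B f, ?_⟩
    ext x
    exact LinearMap.congr_fun hf x

theorem ext_im (Z : Type) [AddCommGroup Z] [Module R Z] [Module.Finite R Z] (N : Type)
    [AddCommGroup N] [Module R N]
    (h : ∀ i : ℕ, 0 < i → Subsingleton (Ext (ModuleCat.of R Z) (ModuleCat.of R N) i))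
    (i : ℕ) (hi : 0 < i) :
    Subsingleton (Ext (ModuleCat.of (R × B) (IM B Z)) (ModuleCat.of (R × B) (IM B N)) i) :=
  (iseq B (⟨Z⟩ : FM R) N h).ext_pos i hi

end infl

end Crest.Agent.R186.Pad234
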