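import Mathlib
import Crest.Prelude.Def_GorProjVanishing
import Crest.Agent.R186.Pad_234

/-!
Row 186 (helper234): padding to exactly eight simples and `rad^4 ≠ 0`; the literal conclusion of
S0281 from a Gorenstein-projective pair with at most seven simples.
-/

set_option autoImplicit false
set_option linter.unusedSectionVars false
set_option linter.style.haveILetI false

universe u

open scoped TensorProduct
open CategoryTheory CategoryTheory.Abelian Crest.AlgebraR Polynomial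

namespace Crest.Agent.R186.Pad234

open Rad234 Shift234 Syz700 Frame234

section C

variable (k : Type) [Field k]

/-- `k[X]/(X^5)` -/
abbrev C5 : Type := AdjoinRoot ((X : k[X]) ^ 5)

instance : FiniteDimensional k (C5 k) :=
  (monic_X_pow 5).finite_adjoinRoot

/-- augmentation -/
noncomputable def Qc : C5 k →ₐ[k] k :=
  AdjoinRoot.liftAlgHom _ (AlgHom.id k k) 0 (by simp)

theorem Qc_mk (g : k[X]) : Qc k (AdjoinRoot.mk _ g) = g.eval 0 := by
  have h : (Qc k).comp (AdjoinRoot.mkₐ ((X : k[X]) ^ 5)) = Polynomial.aeval (0 : k) := by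
    ext
    simp [Qc]
  have h2 := DFunLike.congr_fun h g
  rw [Polynomial.coe_aeval_eq_eval] at h2
  exact h2

theorem Qc_nil (x : C5 k) (hx : Qc k x = 0) : x ^ 5 = 0 := by
  obtain ⟨g, rfl⟩ := AdjoinRoot.mk_surjective x
  rw [Qc_mk] at hx
  have h1 : (X : k[X]) ∣ g := by
    rw [X_dvd_iff, coeff_zero_eq_eval_zero]
    exact hx
  rw [← map_pow, AdjoinRoot.mk_eq_zero]
  exact pow_dvd_pow_of_dvd h1 5

theorem root_pow : (AdjoinRoot.root ((X : k[X]) ^ 5)) ^ 4 ≠ 0 := by
  rw [← AdjoinRoot.mk_X, ← map_pow, Ne, AdjoinRoot.mk_eq_zero]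
  intro h
  have := Polynomial.natDegree_le_of_dvd h (pow_ne_zero 4 X_ne_zero)
  rw [natDegree_X_pow, natDegree_X_pow] at this
  omega

theorem Qc_root : Qc k (AdjoinRoot.root ((X : k[X]) ^ 5)) = 0 := by
  rw [← AdjoinRoot.mk_X, Qc_mk, eval_X]

end C

section pad

variable {k : Type} [Field k] {R : Type} [Ring R] [Algebra k R] {n : ℕ}

variable (k) in
/-- the padding factor -/
abbrev PF (n : ℕ) : Type := (Fin (7 - n) → k) × C5 k

/-- the components -/
noncomputable def cmp (Q : R →ₐ[k] (Fin n → k)) (i : Fin 8) : (R × PF k n) →ₐ[k] k :=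
  if h : i.val < n then (Pi.evalAlgHom k (fun _ : Fin n => k) ⟨i.val, h⟩).comp
      (Q.comp (AlgHom.fst k R (PF k n)))
  else if h' : i.val < 7 then
    (Pi.evalAlgHom k (fun _ : Fin (7 - n) => k) ⟨i.val - n, by omega⟩).comp
      ((AlgHom.fst k _ (C5 k)).comp (AlgHom.snd k R (PF k n)))
  else (Qc k).comp ((AlgHom.snd k _ (C5 k)).comp (AlgHom.snd k R (PF k n)))

theorem cmp1 (Q : R →ₐ[k] (Fin n → k)) (i : Fin 8) (h : i.val < n) (x : R × PF k n) :
    cmp Q i x = Q x.1 ⟨i.val, h⟩ := by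
  rw [cmp, dif_pos h]
  rfl

theorem cmp2 (Q : R →ₐ[k] (Fin n → k)) (i : Fin 8) (h : ¬ i.val < n) (h' : i.val < 7)
    (x : R × PF k n) : cmp Q i x = x.2.1 ⟨i.val - n, by omega⟩ := by
  rw [cmp, dif_neg h, dif_pos h']
  rfl

theorem cmp3 (Q : R →ₐ[k] (Fin n → k)) (i : Fin 8) (h : ¬ i.val < n) (h' : ¬ i.val < 7)
    (x : R × PF k n) : cmp Q i x = Qc k x.2.2 := by
  rw [cmp, dif_neg h, dif_neg h']
  rfl

/-- the surjection to `k^8` -/
noncomputable def QQ (Q : R →ₐ[k] (Fin n → k)) : (R × PF k n) →ₐ[k] (Fin 8 → k) :=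
  AlgHom.pi (cmp Q)

theorem QQ_apply (Q : R →ₐ[k] (Fin n → k)) (x : R × PF k n) (i : Fin 8) :
    QQ Q x i = cmp Q i x := rfl

theorem QQ_surj (hn : n ≤ 7) (Q : R →ₐ[k] (Fin n → k)) (hs : Function.Surjective Q) :
    Function.Surjective (QQ Q) := by
  intro v
  obtain ⟨x, hx⟩ := hs (fun j => v ⟨j.val, by omega⟩)
  refine ⟨(x, (fun j => v ⟨n + j.val, by omega⟩, algebraMap k _ (v 7))), ?_⟩
  funext i
  rw [QQ_apply]
  by_cases h : i.val < n
  · rw [cmp1 Q i h, hx]
  · by_cases h' : i.val < 7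
    · rw [cmp2 Q i h h']
      show v ⟨n + (i.val - n), _⟩ = v i
      congr 1
      apply Fin.ext
      show n + (i.val - n) = i.val
      omega
    · rw [cmp3 Q i h h']
      show Qc k (algebraMap k _ (v 7)) = v i
      rw [AlgHom.commutes]
      have : i = 7 := by
        apply Fin.ext
        show i.val = 7
        omega
      rw [this]
      rfl

theorem QQ_nil (hn : n ≤ 7) (Q : R →ₐ[k] (Fin n → k)) (hq : ∀ x, Q x = 0 → IsNilpotent x)
    (x : R × PF k n) (hx : QQ Q x = 0) : IsNilpotent x := by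
  have h1 : Q x.1 = 0 := by
    funext j
    have := congrFun hx ⟨j.val, by omega⟩
    rw [QQ_apply, cmp1 Q _ j.2] at this
    exact this
  have h2 : x.2.1 = 0 := by
    funext j
    have := congrFun hx ⟨n + j.val, by omega⟩
    rw [QQ_apply, cmp2 Q _ (by show ¬ n + j.val < n; omega) (by show n + j.val < 7; omega)] at this
    have h3 : (⟨n + j.val - n, by omega⟩ : Fin (7 - n)) = j := by
      apply Fin.ext
      show n + j.val - n = j.val
      omega
    rw [← h3]
    exact this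
  have h3 : Qc k x.2.2 = 0 := by
    have := congrFun hx 7
    rw [QQ_apply, cmp3 Q _ (by show ¬ 7 < n; omega) (by show ¬ 7 < 7; omega)] at this
    exact this
  obtain ⟨a, ha⟩ := hq _ h1
  refine ⟨a + 5, ?_⟩
  refine Prod.ext ?_ (Prod.ext ?_ ?_)
  · show x.1 ^ (a + 5) = 0
    rw [pow_add, ha, zero_mul]
  · show x.2.1 ^ (a + 5) = 0
    rw [h2, zero_pow (by omega)]
  · show x.2.2 ^ (a + 5) = 0
    rw [pow_add, Qc_nil k _ h3, mul_zero]

/-- the element with nonzero fourth power -/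
noncomputable def tt : R × PF k n := (0, (0, AdjoinRoot.root _))

theorem jac4 (hn : n ≤ 7) (Q : R →ₐ[k] (Fin n → k)) (hs : Function.Surjective Q)
    (hq : ∀ x, Q x = 0 → IsNilpotent x) : Ring.jacobson (R × PF k n) ^ 4 ≠ ⊥ := by
  intro h
  have h1 : (tt : R × PF k n) ∈ Ring.jacobson (R × PF k n) := by
    rw [jac_eq_ker (QQ Q) (QQ_surj hn Q hs) (QQ_nil hn Q hq), RingHom.mem_ker]
    funext i
    show QQ Q tt i = 0
    rw [QQ_apply]
    by_cases h : i.val < n
    · rw [cmp1 Q i h]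
      show Q 0 _ = 0
      rw [map_zero]
      rfl
    · by_cases h' : i.val < 7
      · rw [cmp2 Q i h h']
        rfl
      · rw [cmp3 Q i h h']
        exact Qc_root k
  have h2 := pow_mem_of_mem _ _ h1 3
  rw [h, Ideal.mem_bot] at h2
  have h3 : (AdjoinRoot.root ((X : k[X]) ^ 5)) ^ 4 = 0 := congrArg (fun x => x.2.2) h2
  exact root_pow k h3

/-- padding: a Gorenstein-projective pair with at most seven simples gives the data of S0281
over the ground field -/
theorem pad [FiniteDimensional k R] (hn : n ≤ 7) (Q : R →ₐ[k] (Fin n → k))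
    (hs : Function.Surjective Q) (hq : ∀ x, Q x = 0 → IsNilpotent x)
    (Z : Type) [AddCommGroup Z] [Module R Z] [Module.Finite R Z]
    (np : ¬ Module.Projective R Z) (hg : IsGorensteinProjective R Z)
    (he : ∀ i : ℕ, 0 < i → Subsingleton (Ext (ModuleCat.of R Z) (ModuleCat.of R Z) i)) :
    GorProjVanishingData k (R × PF k n) (IM (PF k n) Z) := by
  haveI : IsNoetherianRing R := isNoetherian_of_tower k (inferInstance : IsNoetherian k R)
  exact ⟨inferInstance, quot_equiv (QQ Q) (QQ_surj hn Q hs) (QQ_nil hn Q hq),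
    jac4 hn Q hs hq, finite_im _, fun h => np (proj_of_im _ h), gproj_im _ Z hg,
    fun i hi => ext_im _ Z Z he i hi, fun i hi => ext_ring _ (gproj_im _ Z hg) i hi⟩

end pad

/-- S0281 from `GorProjVanishingData` over the ground field (no `k`-structure on `Z` given) -/
theorem c0281' (K : Type) [Field K] (Λ : Type) [Ring Λ] [Algebra K Λ] (Z : Type) [AddCommGroup Z]
    [Module Λ Z] (H : GorProjVanishingData K Λ Z) :
    ∃ (Λ : Type) (_ : Ring Λ) (_ : Algebra K Λ) (Z : Type) (_ : AddCommGroup Z)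
      (_ : Module Λ Z) (_ : Module K Z) (_ : IsScalarTower K Λ Z),
      GorProjVanishingData K Λ Z ∧
      ∀ (E : Type u) [Field E] [Algebra K E],
        ∃ (_ : Module (E ⊗[K] Λ) (E ⊗[K] Z)),
          (∀ (a b : E) (r : Λ) (z : Z),
            (a ⊗ₜ[K] r) • (b ⊗ₜ[K] z) = (a * b) ⊗ₜ[K] (r • z)) ∧
          GorProjVanishingData E (E ⊗[K] Λ) (E ⊗[K] Z) := by
  letI : Module K Z := Module.compHom Z (algebraMap K Λ)
  haveI : IsScalarTower K Λ Z := ⟨fun r a x => by
    show (r • a) • x = algebraMap K Λ r • (a • x)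
    rw [Algebra.smul_def, mul_smul]⟩
  exact c0281 K Λ Z H

/-- S0281 from a Gorenstein-projective self-orthogonal pair with at most seven simples -/
theorem c0281_pad (K : Type) [Field K] (R : Type) [Ring R] [Algebra K R] [FiniteDimensional K R]
    {n : ℕ} (hn : n ≤ 7) (Q : R →ₐ[K] (Fin n → K)) (hs : Function.Surjective Q)
    (hq : ∀ x, Q x = 0 → IsNilpotent x)
    (Z : Type) [AddCommGroup Z] [Module R Z] [Module.Finite R Z]
    (np : ¬ Module.Projective R Z) (hg : IsGorensteinProjective R Z)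
    (he : ∀ i : ℕ, 0 < i → Subsingleton (Ext (ModuleCat.of R Z) (ModuleCat.of R Z) i)) :
    ∃ (Λ : Type) (_ : Ring Λ) (_ : Algebra K Λ) (Z : Type) (_ : AddCommGroup Z)
      (_ : Module Λ Z) (_ : Module K Z) (_ : IsScalarTower K Λ Z),
      GorProjVanishingData K Λ Z ∧
      ∀ (E : Type u) [Field E] [Algebra K E],
        ∃ (_ : Module (E ⊗[K] Λ) (E ⊗[K] Z)),
          (∀ (a b : E) (r : Λ) (z : Z),
            (a ⊗ₜ[K] r) • (b ⊗ₜ[K] z) = (a * b) ⊗ₜ[K] (r • z)) ∧
          GorProjVanishingData E (E ⊗[K] Λ) (E ⊗[K] Z) :=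
  c0281' K _ _ (pad hn Q hs hq Z np hg he)

/-- S0281 from a Gorenstein-projective self-orthogonal pair with eight simples and
`rad^4 ≠ 0` -/
theorem c0281_eight (K : Type) [Field K] (R : Type) [Ring R] [Algebra K R]
    [FiniteDimensional K R] (Q : R →ₐ[K] (Fin 8 → K)) (hs : Function.Surjective Q)
    (hq : ∀ x, Q x = 0 → IsNilpotent x) (h4 : Ring.jacobson R ^ 4 ≠ ⊥)
    (Z : Type) [AddCommGroup Z] [Module R Z] [Module.Finite R Z]
    (np : ¬ Module.Projective R Z) (hg : IsGorensteinProjective R Z)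
    (he : ∀ i : ℕ, 0 < i → Subsingleton (Ext (ModuleCat.of R Z) (ModuleCat.of R Z) i)) :
    ∃ (Λ : Type) (_ : Ring Λ) (_ : Algebra K Λ) (Z : Type) (_ : AddCommGroup Z)
      (_ : Module Λ Z) (_ : Module K Z) (_ : IsScalarTower K Λ Z),
      GorProjVanishingData K Λ Z ∧
      ∀ (E : Type u) [Field E] [Algebra K E],
        ∃ (_ : Module (E ⊗[K] Λ) (E ⊗[K] Z)),
          (∀ (a b : E) (r : Λ) (z : Z),
            (a ⊗ₜ[K] r) • (b ⊗ₜ[K] z) = (a * b) ⊗ₜ[K] (r • z)) ∧
          GorProjVanishingData E (E ⊗[K] Λ) (E ⊗[K] Z) :=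
  c0281' K R Z ⟨inferInstance, quot_equiv Q hs hq, h4, inferInstance, np, hg, he,
    fun i hi => ext_ring Z hg i hi⟩

end Crest.Agent.R186.Pad234
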