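import Mathlib
import Crest.Prelude.Def_GorProjVanishing
import Crest.Agent.R186.Pad2_234
import Crest.Agent.R186.Frob_700

/-!
Row 186 (helper234): every finite module over a symmetric algebra is Gorenstein-projective;
S0281 from a self-orthogonal module over a symmetric algebra with at most seven simples (or
eight and `rad^4 ≠ 0`).
-/

set_option autoImplicit false
set_option linter.unusedSectionVars false
set_option linter.style.haveILetI false

universe v u

open scoped TensorProduct
open CategoryTheory CategoryTheory.Abelian Crest.AlgebraR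

namespace Crest.Agent.R186.Sym234

open Rad234 Shift234 Syz700 Frame234 Pad234 Frob700

section two

variable {A : Type u} [Ring A]

/-- a two-sided sequence of short exact sequences -/
structure Two (A : Type u) [Ring A] where
  X : ℤ → Type u
  P : ℤ → Type u
  [gX : ∀ j, AddCommGroup (X j)]
  [mX : ∀ j, Module A (X j)]
  [gP : ∀ j, AddCommGroup (P j)]
  [mP : ∀ j, Module A (P j)]
  fin : ∀ j, Module.Finite A (P j)
  proj : ∀ j, Module.Projective A (P j)
  f : ∀ j, X (j + 1) →ₗ[A] P j
  g : ∀ j, P j →ₗ[A] X j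
  fi : ∀ j, Function.Injective (f j)
  gs : ∀ j, Function.Surjective (g j)
  ex : ∀ j, Function.Exact (f j) (g j)

attribute [instance] Two.gX Two.mX Two.gP Two.mP

theorem Two.gproj (t : Two A) (hA : Module.Injective A A) : IsGorensteinProjective A (t.X 0) := by
  refine ⟨t.P, t.gP, t.mP, fun n => t.f n ∘ₗ t.g (n + 1), fun n => ⟨t.fin n, t.proj n⟩, ?_, ?_, ?_⟩
  · intro n y
    constructor
    · intro hy
      have h1 : t.g (n + 1) y = 0 := by
        apply t.fi n
        rw [map_zero]
        exact hy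
      obtain ⟨x, rfl⟩ := (t.ex (n + 1) y).1 h1
      obtain ⟨z, rfl⟩ := t.gs (n + 1 + 1) x
      exact ⟨z, rfl⟩
    · rintro ⟨z, rfl⟩
      show t.f n (t.g (n + 1) (t.f (n + 1) (t.g (n + 1 + 1) z))) = 0
      rw [(t.ex (n + 1) _).2 ⟨_, rfl⟩, map_zero]
  · intro n φ
    constructor
    · intro hφ
      have h0 : φ ∘ₗ (t.f (n + 1) ∘ₗ t.g (n + 1 + 1)) = 0 := hφ
      have h1 : ∀ x, φ (t.f (n + 1) x) = 0 := by
        intro x
        obtain ⟨z, rfl⟩ := t.gs (n + 1 + 1) x
        exact LinearMap.congr_fun h0 z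
      have hker : LinearMap.ker (t.g (n + 1)) ≤ LinearMap.ker φ := by
        intro y hy
        obtain ⟨x, rfl⟩ := (t.ex (n + 1) y).1 hy
        exact h1 x
      let e := LinearMap.quotKerEquivOfSurjective (t.g (n + 1)) (t.gs (n + 1))
      let φ' : t.X (n + 1) →ₗ[A] A := ((LinearMap.ker (t.g (n + 1))).liftQ φ hker) ∘ₗ
        e.symm.toLinearMap
      have h2 : ∀ y, φ' (t.g (n + 1) y) = φ y := by
        intro y
        have h3 : e.symm (t.g (n + 1) y) = Submodule.Quotient.mk y := by
          rw [LinearEquiv.symm_apply_eq]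
          rfl
        show (LinearMap.ker (t.g (n + 1))).liftQ φ hker (e.symm (t.g (n + 1) y)) = φ y
        rw [h3]
        rfl
      obtain ⟨ψ, hψ⟩ := hA.out (t.f n) (t.fi n) φ'
      refine ⟨ψ, LinearMap.ext fun y => ?_⟩
      show ψ (t.f n (t.g (n + 1) y)) = φ y
      rw [hψ, h2]
    · rintro ⟨ψ, rfl⟩
      refine LinearMap.ext fun z => ?_
      show ψ (t.f n (t.g (n + 1) (t.f (n + 1) (t.g (n + 1 + 1) z)))) = 0
      rw [(t.ex (n + 1) _).2 ⟨_, rfl⟩, map_zero, map_zero]
  · have hk : LinearMap.range (t.f 0 ∘ₗ t.g (0 + 1)) = LinearMap.ker (t.g 0) := by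
      ext y
      constructor
      · rintro ⟨z, rfl⟩
        exact (t.ex 0 _).2 ⟨_, rfl⟩
      · intro hy
        obtain ⟨x, rfl⟩ := (t.ex 0 y).1 hy
        obtain ⟨z, rfl⟩ := t.gs (0 + 1) x
        exact ⟨z, rfl⟩
    exact ⟨((Submodule.quotEquivOfEq _ _ hk).trans
      (LinearMap.quotKerEquivOfSurjective (t.g 0) (t.gs 0))).symm⟩

end two

section sym

variable {K : Type v} [Field K] {A : Type u} [Ring A] [Algebra K A] [FiniteDimensional K A]

include K in
theorem exists_emb (s : Sym K A) (X : Type u) [AddCommGroup X] [Module A X]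
    [Module.Finite A X] : ∃ (m : ℕ) (f : X →ₗ[A] (Fin m → A)), Function.Injective f := by
  letI : Module K X := Module.compHom X (algebraMap K A)
  haveI : IsScalarTower K A X := ⟨fun r a x => by
    show (r • a) • x = algebraMap K A r • (a • x)
    rw [Algebra.smul_def, mul_smul]⟩
  haveI : FiniteDimensional K X := Module.Finite.trans A X
  let b := Module.finBasis K X
  refine ⟨_, LinearMap.pi fun i => s.h (b.coord i), ?_⟩
  rw [injective_iff_map_eq_zero]
  intro x hx
  apply b.repr.injective
  rw [map_zero]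
  ext i
  have h1 : s.h (b.coord i) x = 0 := congrFun hx i
  have h2 := s.lam_h (b.coord i) x
  rw [h1, map_zero] at h2
  exact h2.symm

variable (s : Sym K A)

/-- rank of the envelope -/
noncomputable def em (M : FM A) : ℕ := (exists_emb s M.X).choose

/-- the embedding -/
noncomputable def emb (M : FM A) : M.X →ₗ[A] (Fin (em s M) → A) :=
  (exists_emb s M.X).choose_spec.choose

theorem emb_inj (M : FM A) : Function.Injective (emb s M) :=
  (exists_emb s M.X).choose_spec.choose_spec

/-- cosyzygy -/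
noncomputable def cosyz (M : FM A) : FM A := ⟨(Fin (em s M) → A) ⧸ LinearMap.range (emb s M)⟩

/-- iterated cosyzygies -/
noncomputable def Co (M : FM A) : ℕ → FM A
  | 0 => M
  | j + 1 => cosyz s (Co M j)

variable [IsNoetherianRing A]

/-- the modules -/
noncomputable def XX (M : FM A) : ℤ → FM A
  | Int.ofNat j => Om M j
  | Int.negSucc j => Co s M (j + 1)

/-- the projectives -/
noncomputable def PP (M : FM A) : ℤ → ℕ
  | Int.ofNat j => (Om M j).n
  | Int.negSucc j => em s (Co s M j)

/-- the injections -/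
noncomputable def ff (M : FM A) : ∀ n : ℤ, (XX s M (n + 1)).X →ₗ[A] (Fin (PP s M n) → A)
  | Int.ofNat j => (Om M j).inc
  | Int.negSucc 0 => emb s M
  | Int.negSucc (j + 1) => emb s (Co s M (j + 1))

/-- the surjections -/
noncomputable def gg (M : FM A) : ∀ n : ℤ, (Fin (PP s M n) → A) →ₗ[A] (XX s M n).X
  | Int.ofNat j => (Om M j).cov
  | Int.negSucc j => (LinearMap.range (emb s (Co s M j))).mkQ

theorem ff_inj (M : FM A) : ∀ n : ℤ, Function.Injective (ff s M n)
  | Int.ofNat j => (Om M j).inc_inj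
  | Int.negSucc 0 => emb_inj s M
  | Int.negSucc (j + 1) => emb_inj s (Co s M (j + 1))

theorem gg_surj (M : FM A) : ∀ n : ℤ, Function.Surjective (gg s M n)
  | Int.ofNat j => (Om M j).cov_surj
  | Int.negSucc j => Submodule.mkQ_surjective _

theorem fg_ex (M : FM A) : ∀ n : ℤ, Function.Exact (ff s M n) (gg s M n)
  | Int.ofNat j => by
    intro y
    constructor
    · intro hy
      exact (Om M j).exists_inc y hy
    · rintro ⟨x, rfl⟩
      exact LinearMap.congr_fun (Om M j).cov_inc x
  | Int.negSucc 0 => LinearMap.exact_map_mkQ_range (emb s M)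
  | Int.negSucc (j + 1) => LinearMap.exact_map_mkQ_range (emb s (Co s M (j + 1)))

/-- the two-sided sequence -/
noncomputable def two (M : FM A) : Two A where
  X n := (XX s M n).X
  P n := Fin (PP s M n) → A
  fin _ := inferInstance
  proj _ := inferInstance
  f := ff s M
  g := gg s M
  fi := ff_inj s M
  gs := gg_surj s M
  ex := fg_ex s M

include s in
theorem gproj (M : Type u) [AddCommGroup M] [Module A M] [Module.Finite A M] :
    IsGorensteinProjective A M :=
  (two s (⟨M⟩ : FM A)).gproj (injective_self s)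

end sym

/-- S0281 from a self-orthogonal module over a symmetric algebra with at most seven simples -/
theorem c0281_sym (K : Type) [Field K] (A : Type) [Ring A] [Algebra K A] [FiniteDimensional K A]
    (hA : IsSymmetricAlgebra K A)
    {n : ℕ} (hn : n ≤ 7) (Q : A →ₐ[K] (Fin n → K)) (hs : Function.Surjective Q)
    (hq : ∀ x, Q x = 0 → IsNilpotent x)
    (M : Type) [AddCommGroup M] [Module A M] [Module.Finite A M]
    (np : ¬ Module.Projective A M)
    (he : ∀ i : ℕ, 0 < i → Subsingleton (Ext (ModuleCat.of A M) (ModuleCat.of A M) i)) :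
    ∃ (Λ : Type) (_ : Ring Λ) (_ : Algebra K Λ) (Z : Type) (_ : AddCommGroup Z)
      (_ : Module Λ Z) (_ : Module K Z) (_ : IsScalarTower K Λ Z),
      GorProjVanishingData K Λ Z ∧
      ∀ (E : Type u) [Field E] [Algebra K E],
        ∃ (_ : Module (E ⊗[K] Λ) (E ⊗[K] Z)),
          (∀ (a b : E) (r : Λ) (z : Z),
            (a ⊗ₜ[K] r) • (b ⊗ₜ[K] z) = (a * b) ⊗ₜ[K] (r • z)) ∧
          GorProjVanishingData E (E ⊗[K] Λ) (E ⊗[K] Z) := by
  obtain ⟨s⟩ := nonempty_sym hA
  haveI : IsNoetherianRing A := isNoetherian_of_tower K (inferInstance : IsNoetherian K A)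
  exact c0281_pad K A hn Q hs hq M np (gproj s M) he

/-- the same with eight simples and `rad^4 ≠ 0` -/
theorem c0281_sym_eight (K : Type) [Field K] (A : Type) [Ring A] [Algebra K A]
    [FiniteDimensional K A] (hA : IsSymmetricAlgebra K A)
    (Q : A →ₐ[K] (Fin 8 → K)) (hs : Function.Surjective Q)
    (hq : ∀ x, Q x = 0 → IsNilpotent x) (h4 : Ring.jacobson A ^ 4 ≠ ⊥)
    (M : Type) [AddCommGroup M] [Module A M] [Module.Finite A M]
    (np : ¬ Module.Projective A M)
    (he : ∀ i : ℕ, 0 < i → Subsingleton (Ext (ModuleCat.of A M) (ModuleCat.of A M) i)) :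
    ∃ (Λ : Type) (_ : Ring Λ) (_ : Algebra K Λ) (Z : Type) (_ : AddCommGroup Z)
      (_ : Module Λ Z) (_ : Module K Z) (_ : IsScalarTower K Λ Z),
      GorProjVanishingData K Λ Z ∧
      ∀ (E : Type u) [Field E] [Algebra K E],
        ∃ (_ : Module (E ⊗[K] Λ) (E ⊗[K] Z)),
          (∀ (a b : E) (r : Λ) (z : Z),
            (a ⊗ₜ[K] r) • (b ⊗ₜ[K] z) = (a * b) ⊗ₜ[K] (r • z)) ∧
          GorProjVanishingData E (E ⊗[K] Λ) (E ⊗[K] Z) := by
  obtain ⟨s⟩ := nonempty_sym hA
  haveI : IsNoetherianRing A := isNoetherian_of_tower K (inferInstance : IsNoetherian K A)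
  exact c0281_eight K A Q hs hq h4 M np (gproj s M) he

end Crest.Agent.R186.Sym234
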