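import Mathlib
import Crest.Prelude.Def_SymmetricAlgebra

/-!
Row 186, end-game closings, part 9 (helper700): the trivial extension `T(Γ) = Γ ⊕ DΓ` of a
finite-dimensional algebra is a symmetric algebra.
-/

set_option autoImplicit false
set_option linter.style.haveILetI false

universe v u

open Crest.AlgebraR

namespace Crest.Agent.R186.Triv700

variable (K : Type u) [Field K] (Γ : Type u) [Ring Γ] [Algebra K Γ]

/-- the dual bimodule (a type synonym) -/
def DG : Type u := Module.Dual K Γ

variable {K Γ}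

namespace DG

instance : AddCommGroup (DG K Γ) := inferInstanceAs (AddCommGroup (Module.Dual K Γ))
instance : Module K (DG K Γ) := inferInstanceAs (Module K (Module.Dual K Γ))

/-- evaluation -/
def ev (f : DG K Γ) : Module.Dual K Γ := f

/-- constructor -/
def of (f : Module.Dual K Γ) : DG K Γ := f

@[simp] theorem ev_of (f : Module.Dual K Γ) : ev (of f) = f := rfl

@[ext] theorem ext {f g : DG K Γ} (h : ∀ y, f.ev y = g.ev y) : f = g := LinearMap.ext h

@[simp] theorem ev_add (f g : DG K Γ) : (f + g).ev = f.ev + g.ev := rfl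
@[simp] theorem ev_zero : (0 : DG K Γ).ev = 0 := rfl
@[simp] theorem ev_smulK (r : K) (f : DG K Γ) : (r • f).ev = r • f.ev := rfl

/-- left action `(a • f) y = f (y a)` -/
instance : Module Γ (DG K Γ) where
  smul a f := of (f.ev ∘ₗ LinearMap.mulRight K a)
  one_smul f := by
    ext y
    show f.ev (y * 1) = f.ev y
    rw [mul_one]
  mul_smul a b f := by
    ext y
    show f.ev (y * (a * b)) = f.ev (y * a * b)
    rw [mul_assoc]
  smul_zero a := by ext y; rfl
  smul_add a f g := by ext y; rfl
  add_smul a b f := by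
    ext y
    show f.ev (y * (a + b)) = f.ev (y * a) + f.ev (y * b)
    rw [mul_add, map_add]
  zero_smul f := by
    ext y
    show f.ev (y * 0) = 0
    rw [mul_zero, map_zero]

@[simp] theorem ev_smul (a : Γ) (f : DG K Γ) (y : Γ) : (a • f).ev y = f.ev (y * a) := rfl

/-- right action `(f • b) y = f (b y)` -/
instance : Module Γᵐᵒᵖ (DG K Γ) where
  smul b f := of (f.ev ∘ₗ LinearMap.mulLeft K b.unop)
  one_smul f := by
    ext y
    show f.ev (1 * y) = f.ev y
    rw [one_mul]
  mul_smul a b f := by
    ext y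
    show f.ev (b.unop * a.unop * y) = f.ev (b.unop * (a.unop * y))
    rw [mul_assoc]
  smul_zero a := by ext y; rfl
  smul_add a f g := by ext y; rfl
  add_smul a b f := by
    ext y
    show f.ev ((a.unop + b.unop) * y) = f.ev (a.unop * y) + f.ev (b.unop * y)
    rw [add_mul, map_add]
  zero_smul f := by
    ext y
    show f.ev (0 * y) = 0
    rw [zero_mul, map_zero]

@[simp] theorem ev_op_smul (b : Γᵐᵒᵖ) (f : DG K Γ) (y : Γ) :
    (b • f).ev y = f.ev (b.unop * y) := rfl

instance : SMulCommClass Γ Γᵐᵒᵖ (DG K Γ) := ⟨fun a b f => by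
  ext y
  simp [mul_assoc]⟩

instance : IsScalarTower K Γ (DG K Γ) := ⟨fun r a f => by
  ext y
  simp⟩

instance : IsScalarTower K Γᵐᵒᵖ (DG K Γ) := ⟨fun r a f => by
  ext y
  simp⟩

instance [FiniteDimensional K Γ] : FiniteDimensional K (DG K Γ) :=
  inferInstanceAs (FiniteDimensional K (Module.Dual K Γ))

end DG

variable (K Γ)

/-- the trivial extension -/
abbrev T : Type u := TrivSqZeroExt Γ (DG K Γ)

instance : IsScalarTower K Γ (DG K Γ) := inferInstance

noncomputable instance instAlgT : Algebra K (T K Γ) := inferInstance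

variable {K Γ}

/-- the bijection `T → Dual T`, `(a,f) ↦ ((b,g) ↦ f b + g a)` -/
noncomputable def φ₀ : T K Γ →ₗ[K] Module.Dual K (T K Γ) where
  toFun t :=
    { toFun := fun z => t.snd.ev z.fst + z.snd.ev t.fst
      map_add' := fun z w => by simp; ring
      map_smul' := fun r z => by simp; ring }
  map_add' s t := by
    ext z
    simp
    ring
  map_smul' r t := by
    ext z
    simp
    ring

theorem φ₀_apply (t z : T K Γ) : φ₀ t z = t.snd.ev z.fst + z.snd.ev t.fst := rfl

theorem φ₀_inj : Function.Injective (φ₀ (K := K) (Γ := Γ)) := by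
  rw [← LinearMap.ker_eq_bot, LinearMap.ker_eq_bot']
  intro t ht
  have h1 : ∀ z, φ₀ t z = 0 := fun z => by rw [ht]; rfl
  apply TrivSqZeroExt.ext
  · rw [TrivSqZeroExt.fst_zero]
    rw [← Module.forall_dual_apply_eq_zero_iff K]
    intro g
    have := h1 (TrivSqZeroExt.inr (DG.of g))
    simpa [φ₀_apply] using this
  · ext y
    have := h1 (TrivSqZeroExt.inl y)
    simpa [φ₀_apply] using this

instance instFDT [FiniteDimensional K Γ] : FiniteDimensional K (T K Γ) := by
  have e : T K Γ ≃ₗ[K] Γ × DG K Γ :=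
    { toFun := fun t => (t.fst, t.snd)
      invFun := fun p => TrivSqZeroExt.inl p.1 + TrivSqZeroExt.inr p.2
      map_add' := fun _ _ => rfl
      map_smul' := fun _ _ => rfl
      left_inv := fun t => TrivSqZeroExt.inl_fst_add_inr_snd_eq t
      right_inv := fun p => by simp }
  exact LinearEquiv.finiteDimensional e.symm

theorem isSymmetric [FiniteDimensional K Γ] : IsSymmetricAlgebra K (T K Γ) := by
  have hfr : Module.finrank K (T K Γ) = Module.finrank K (Module.Dual K (T K Γ)) :=
    Subspace.dual_finrank_eq.symm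
  refine ⟨LinearEquiv.ofInjectiveOfFinrankEq φ₀ φ₀_inj hfr, ?_⟩
  intro a x b y
  show φ₀ (a * x * b) y = φ₀ x (b * y * a)
  simp only [φ₀_apply, TrivSqZeroExt.snd_mul, TrivSqZeroExt.fst_mul, DG.ev_add, DG.ev_smul,
    DG.ev_op_smul, LinearMap.add_apply, MulOpposite.unop_op]
  simp only [← mul_assoc]
  ring

end Crest.Agent.R186.Triv700
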