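import Mathlib
import Crest.Agent.R186.Triv_700
import Crest.Agent.R186.Syz_700
import Crest.Agent.R186.Close_700

/-!
Row 186, end-game closings, part 10 (helper700): the induced module `ind X = T(Γ) ⊗_Γ X`
realised as `X ⊕ D(X^*)`, `X^* = Hom_Γ (X, Γ)`, for finite `X`.
-/

set_option autoImplicit false
set_option linter.style.haveILetI false

universe v u

open Crest.AlgebraR CategoryTheory CategoryTheory.Abelian

namespace Crest.Agent.R186.Ind700

open Triv700 Syz700

variable (K : Type u) [Field K] {Γ : Type u} [Ring Γ] [Algebra K Γ]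

section dual

variable (X : Type u) [AddCommGroup X] [Module Γ X]

/-- `D (X^*)` -/
def DX : Type u := Module.Dual K (X →ₗ[Γ] Γ)

variable {X}

/-- right multiplication on `X^*` -/
def rmul (a : Γ) : (X →ₗ[Γ] Γ) →ₗ[K] (X →ₗ[Γ] Γ) where
  toFun h := (LinearMap.toSpanSingleton Γ Γ a) ∘ₗ h
  map_add' g h := by ext x; simp [add_mul]
  map_smul' r h := by ext x; simp

@[simp] theorem rmul_apply (a : Γ) (h : X →ₗ[Γ] Γ) (x : X) : rmul K a h x = h x * a := rfl

variable {K}

namespace DX

instance : AddCommGroup (DX K X (Γ := Γ)) :=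
  inferInstanceAs (AddCommGroup (Module.Dual K (X →ₗ[Γ] Γ)))

/-- evaluation -/
def ev (f : DX K X (Γ := Γ)) : Module.Dual K (X →ₗ[Γ] Γ) := f

/-- constructor -/
def of (f : Module.Dual K (X →ₗ[Γ] Γ)) : DX K X (Γ := Γ) := f

@[simp] theorem ev_of (f : Module.Dual K (X →ₗ[Γ] Γ)) : ev (of f) = f := rfl

@[ext] theorem ext {f g : DX K X (Γ := Γ)} (h : ∀ y, f.ev y = g.ev y) : f = g := LinearMap.ext h

@[simp] theorem ev_add (f g : DX K X (Γ := Γ)) : (f + g).ev = f.ev + g.ev := rfl
@[simp] theorem ev_zero : (0 : DX K X (Γ := Γ)).ev = 0 := rfl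

instance : Module Γ (DX K X (Γ := Γ)) where
  smul a f := of (f.ev ∘ₗ rmul K a)
  one_smul f := by
    ext h
    show f.ev (rmul K 1 h) = f.ev h
    congr 1
    ext x
    simp
  mul_smul a b f := by
    ext h
    show f.ev (rmul K (a * b) h) = f.ev (rmul K b (rmul K a h))
    congr 1
    ext x
    simp [mul_assoc]
  smul_zero a := by ext y; rfl
  smul_add a f g := by ext y; rfl
  add_smul a b f := by
    ext h
    show f.ev (rmul K (a + b) h) = f.ev (rmul K a h) + f.ev (rmul K b h)
    rw [← map_add]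
    congr 1
    ext x
    simp [mul_add]
  zero_smul f := by
    ext h
    show f.ev (rmul K 0 h) = 0
    have : rmul K (0 : Γ) h = 0 := by
      ext x
      simp
    rw [this, map_zero]

@[simp] theorem ev_smul (a : Γ) (f : DX K X (Γ := Γ)) (h : X →ₗ[Γ] Γ) :
    (a • f).ev h = f.ev (rmul K a h) := rfl

end DX

/-- `f ⋆ x : h ↦ f (h x)` -/
def star (f : DG K Γ) (x : X) : DX K X (Γ := Γ) :=
  DX.of
    { toFun := fun h => f.ev (h x)
      map_add' := fun g h => by simp
      map_smul' := fun r h => by simp }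

@[simp] theorem ev_star (f : DG K Γ) (x : X) (h : X →ₗ[Γ] Γ) : (star f x).ev h = f.ev (h x) := rfl

theorem star_add_left (f g : DG K Γ) (x : X) : star (f + g) x = star f x + star g x := by
  ext h; simp

theorem star_add_right (f : DG K Γ) (x y : X) : star f (x + y) = star f x + star f y := by
  ext h; simp

theorem star_smul (a : Γ) (f : DG K Γ) (x : X) : star (a • f) x = a • star f x := by
  ext h; simp

theorem star_op_smul (a : Γ) (f : DG K Γ) (x : X) :
    star (MulOpposite.op a • f) x = star f (a • x) := by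
  ext h; simp

end dual

section ind

variable (X : Type u) [AddCommGroup X] [Module Γ X]

/-- `ind X = X ⊕ D(X^*)` -/
def Ind : Type u := X × DX K X (Γ := Γ)

variable {X K}

instance : AddCommGroup (Ind K X (Γ := Γ)) := inferInstanceAs (AddCommGroup (X × DX K X))

/-- constructor -/
def Ind.mk (x : X) (ξ : DX K X (Γ := Γ)) : Ind K X (Γ := Γ) := (x, ξ)

/-- first component -/
def Ind.a (z : Ind K X (Γ := Γ)) : X := z.1
/-- second component -/
def Ind.b (z : Ind K X (Γ := Γ)) : DX K X (Γ := Γ) := z.2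

@[ext] theorem Ind.ext {z w : Ind K X (Γ := Γ)} (h1 : z.a = w.a) (h2 : z.b = w.b) : z = w :=
  Prod.ext h1 h2

@[simp] theorem Ind.a_mk (x : X) (ξ : DX K X (Γ := Γ)) : (Ind.mk x ξ).a = x := rfl
@[simp] theorem Ind.b_mk (x : X) (ξ : DX K X (Γ := Γ)) : (Ind.mk x ξ).b = ξ := rfl
@[simp] theorem Ind.a_add (z w : Ind K X (Γ := Γ)) : (z + w).a = z.a + w.a := rfl
@[simp] theorem Ind.b_add (z w : Ind K X (Γ := Γ)) : (z + w).b = z.b + w.b := rfl
@[simp] theorem Ind.a_zero : (0 : Ind K X (Γ := Γ)).a = 0 := rfl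
@[simp] theorem Ind.b_zero : (0 : Ind K X (Γ := Γ)).b = 0 := rfl

noncomputable instance : Module (T K Γ) (Ind K X (Γ := Γ)) where
  smul t z := Ind.mk (t.fst • z.a) (t.fst • z.b + star t.snd z.a)
  one_smul z := by
    apply Ind.ext
    · show (1 : T K Γ).fst • z.a = z.a
      simp
    · show (1 : T K Γ).fst • z.b + star (1 : T K Γ).snd z.a = z.b
      rw [TrivSqZeroExt.fst_one, TrivSqZeroExt.snd_one, one_smul]
      have : star (0 : DG K Γ) z.a = 0 := by ext h; simp
      rw [this, add_zero]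
  mul_smul s t z := by
    apply Ind.ext
    · show (s * t).fst • z.a = s.fst • t.fst • z.a
      rw [TrivSqZeroExt.fst_mul, mul_smul]
    · show (s * t).fst • z.b + star (s * t).snd z.a =
        s.fst • (t.fst • z.b + star t.snd z.a) + star s.snd (t.fst • z.a)
      rw [TrivSqZeroExt.fst_mul, TrivSqZeroExt.snd_mul, mul_smul, smul_add, star_add_left,
        star_smul, star_op_smul, add_assoc]
  smul_zero t := by
    apply Ind.ext
    · exact smul_zero _
    · show t.fst • (0 : DX K X (Γ := Γ)) + star t.snd (0 : X) = 0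
      have : star t.snd (0 : X) = 0 := by ext h; simp
      rw [this, smul_zero, add_zero]
  smul_add t z w := by
    apply Ind.ext
    · exact smul_add _ _ _
    · show t.fst • (z.b + w.b) + star t.snd (z.a + w.a) =
        t.fst • z.b + star t.snd z.a + (t.fst • w.b + star t.snd w.a)
      rw [smul_add, star_add_right]
      abel
  add_smul s t z := by
    apply Ind.ext
    · show (s + t).fst • z.a = s.fst • z.a + t.fst • z.a
      rw [TrivSqZeroExt.fst_add, add_smul]
    · show (s + t).fst • z.b + star (s + t).snd z.a =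
        s.fst • z.b + star s.snd z.a + (t.fst • z.b + star t.snd z.a)
      rw [TrivSqZeroExt.fst_add, TrivSqZeroExt.snd_add, add_smul, star_add_left]
      abel
  zero_smul z := by
    apply Ind.ext
    · show (0 : T K Γ).fst • z.a = 0
      simp
    · show (0 : T K Γ).fst • z.b + star (0 : T K Γ).snd z.a = 0
      rw [TrivSqZeroExt.fst_zero, TrivSqZeroExt.snd_zero, zero_smul]
      have : star (0 : DG K Γ) z.a = 0 := by ext h; simp
      rw [this, add_zero]

@[simp] theorem Ind.a_smul (t : T K Γ) (z : Ind K X (Γ := Γ)) : (t • z).a = t.fst • z.a := rfl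
@[simp] theorem Ind.b_smul (t : T K Γ) (z : Ind K X (Γ := Γ)) :
    (t • z).b = t.fst • z.b + star t.snd z.a := rfl

end ind

section map

variable {X Y : Type u} [AddCommGroup X] [Module Γ X] [AddCommGroup Y] [Module Γ Y]

/-- `D(X^*) → D(Y^*)` -/
def dmap (u : X →ₗ[Γ] Y) : DX K X (Γ := Γ) →ₗ[Γ] DX K Y (Γ := Γ) where
  toFun ξ := DX.of
    { toFun := fun h => ξ.ev (h ∘ₗ u)
      map_add' := fun g h => by rw [LinearMap.add_comp, map_add]
      map_smul' := fun r h => by rw [LinearMap.smul_comp, map_smul]; rfl }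
  map_add' ξ η := by ext h; rfl
  map_smul' a ξ := by
    ext h
    show ξ.ev (rmul K a (h ∘ₗ u)) = ξ.ev ((rmul K a h) ∘ₗ u)
    rfl

@[simp] theorem ev_dmap (u : X →ₗ[Γ] Y) (ξ : DX K X (Γ := Γ)) (h : Y →ₗ[Γ] Γ) :
    (dmap K u ξ).ev h = ξ.ev (h ∘ₗ u) := rfl

/-- `ind u` -/
noncomputable def imap (u : X →ₗ[Γ] Y) : Ind K X (Γ := Γ) →ₗ[T K Γ] Ind K Y (Γ := Γ) where
  toFun z := Ind.mk (u z.a) (dmap K u z.b)
  map_add' z w := by
    apply Ind.ext <;> simp
  map_smul' t z := by
    apply Ind.ext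
    · simp
    · simp only [Ind.b_mk, Ind.b_smul, map_add, map_smul, RingHom.id_apply, Ind.a_mk, Ind.a_smul]
      congr 1
      

@[simp] theorem imap_a (u : X →ₗ[Γ] Y) (z : Ind K X (Γ := Γ)) : (imap K u z).a = u z.a := rfl
@[simp] theorem imap_b (u : X →ₗ[Γ] Y) (z : Ind K X (Γ := Γ)) :
    (imap K u z).b = dmap K u z.b := rfl

end map

end Crest.Agent.R186.Ind700
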