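import Mathlib
import Crest.Agent.R186.Ind_700

/-!
Row 186, end-game closings, part 11 (helper700): `ind` of free modules is free, `ind` of a
short exact sequence, extension of maps.
-/

set_option autoImplicit false
set_option linter.style.haveILetI false

universe v u

open Crest.AlgebraR CategoryTheory CategoryTheory.Abelian

namespace Crest.Agent.R186.Ind700

open Triv700 Syz700 Frob700

variable (K : Type u) [Field K] {Γ : Type u} [Ring Γ] [Algebra K Γ]

section free

variable {n : ℕ}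

/-- the basis vectors of `ind (Γ^n)` -/
noncomputable def bv (m : Fin n) : Ind K (Fin n → Γ) (Γ := Γ) := Ind.mk (Pi.single m 1) 0

variable {K}

theorem Ind.a_sum {X : Type u} [AddCommGroup X] [Module Γ X] {ι : Type*} (s : Finset ι)
    (f : ι → Ind K X (Γ := Γ)) : (∑ i ∈ s, f i).a = ∑ i ∈ s, (f i).a := by
  classical
  induction s using Finset.induction_on with
  | empty => simp
  | insert a s ha ih => rw [Finset.sum_insert ha, Finset.sum_insert ha, Ind.a_add, ih]

theorem Ind.b_sum {X : Type u} [AddCommGroup X] [Module Γ X] {ι : Type*} (s : Finset ι)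
    (f : ι → Ind K X (Γ := Γ)) : (∑ i ∈ s, f i).b = ∑ i ∈ s, (f i).b := by
  classical
  induction s using Finset.induction_on with
  | empty => simp
  | insert a s ha ih => rw [Finset.sum_insert ha, Finset.sum_insert ha, Ind.b_add, ih]

theorem DX.ev_sum {X : Type u} [AddCommGroup X] [Module Γ X] {ι : Type*} (s : Finset ι)
    (f : ι → DX K X (Γ := Γ)) (h : X →ₗ[Γ] Γ) :
    (∑ i ∈ s, f i).ev h = ∑ i ∈ s, (f i).ev h := by
  classical
  induction s using Finset.induction_on with
  | empty => simp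
  | insert a s ha ih =>
    rw [Finset.sum_insert ha, Finset.sum_insert ha, DX.ev_add, LinearMap.add_apply, ih]

theorem lc_a (c : Fin n → T K Γ) :
    (Fintype.linearCombination (T K Γ) (bv K (Γ := Γ) (n := n)) c).a = fun m => (c m).fst := by
  rw [Fintype.linearCombination_apply, Ind.a_sum]
  funext m
  rw [Finset.sum_apply, Finset.sum_eq_single m]
  · simp [bv]
  · intro k _ hk
    simp [bv, hk.symm]
  · intro h
    exact absurd (Finset.mem_univ _) h

theorem lc_b (c : Fin n → T K Γ) (h : (Fin n → Γ) →ₗ[Γ] Γ) :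
    (Fintype.linearCombination (T K Γ) (bv K (Γ := Γ) (n := n)) c).b.ev h =
      ∑ m, (c m).snd.ev (h (Pi.single m 1)) := by
  rw [Fintype.linearCombination_apply, Ind.b_sum, DX.ev_sum]
  refine Finset.sum_congr rfl fun m _ => ?_
  simp [bv]

/-- `v ↦ v m * y` -/
def hm (m : Fin n) (y : Γ) : (Fin n → Γ) →ₗ[Γ] Γ :=
  (LinearMap.toSpanSingleton Γ Γ y) ∘ₗ (LinearMap.proj m)

@[simp] theorem hm_apply (m : Fin n) (y : Γ) (v : Fin n → Γ) : hm m y v = v m * y := rfl

theorem lc_inj : Function.Injective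
    (Fintype.linearCombination (T K Γ) (bv K (Γ := Γ) (n := n))) := by
  rw [← LinearMap.ker_eq_bot, LinearMap.ker_eq_bot']
  intro c hc
  funext m
  apply TrivSqZeroExt.ext
  · have := lc_a c
    rw [hc] at this
    exact (congrFun this m).symm
  · ext y
    have := lc_b c (hm m y)
    rw [hc, Finset.sum_eq_single m] at this
    · simpa using this.symm
    · intro k _ hk
      simp [hk.symm]
    · intro h
      exact absurd (Finset.mem_univ _) h

theorem lc_surj : Function.Surjective
    (Fintype.linearCombination (T K Γ) (bv K (Γ := Γ) (n := n))) := by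
  intro z
  let L : Fin n → DG K Γ := fun m => DG.of
    { toFun := fun y => z.b.ev (hm m y)
      map_add' := fun x y => by
        rw [← map_add]
        congr 1
        apply LinearMap.ext
        intro v
        simp [mul_add]
      map_smul' := fun r y => by
        rw [RingHom.id_apply, ← map_smul]
        congr 1
        apply LinearMap.ext
        intro v
        simp }
  refine ⟨fun m => TrivSqZeroExt.inl (z.a m) + TrivSqZeroExt.inr (L m), ?_⟩
  apply Ind.ext
  · rw [lc_a]
    funext m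
    simp
  · ext h
    rw [lc_b]
    have h1 : ∀ m, ((TrivSqZeroExt.inl (z.a m) + TrivSqZeroExt.inr (L m) : T K Γ)).snd.ev
        (h (Pi.single m 1)) = z.b.ev (hm m (h (Pi.single m 1))) := by
      intro m
      simp [L]
    simp only [h1]
    rw [← map_sum]
    congr 1
    apply LinearMap.ext
    intro v
    rw [LinearMap.sum_apply]
    simp only [hm_apply]
    rw [LinearMap.pi_apply_eq_sum_univ h v]
    refine Finset.sum_congr rfl fun m _ => ?_
    rw [smul_eq_mul]
    congr 2
    funext j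
    rw [Pi.single_apply]
    by_cases e : j = m
    · subst e; simp
    · simp [e, Ne.symm e]

variable (K Γ n) in
/-- `T^n ≃ ind (Γ^n)` -/
noncomputable def freeEquiv : (Fin n → T K Γ) ≃ₗ[T K Γ] Ind K (Fin n → Γ) (Γ := Γ) :=
  LinearEquiv.ofBijective _ ⟨lc_inj, lc_surj⟩

theorem freeEquiv_single (m : Fin n) :
    freeEquiv K Γ n (Pi.single m 1) = bv K m := by
  show Fintype.linearCombination (T K Γ) (bv K (Γ := Γ) (n := n)) (Pi.single m 1) = _
  rw [Fintype.linearCombination_apply_single, one_smul]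

instance projInd : Module.Projective (T K Γ) (Ind K (Fin n → Γ) (Γ := Γ)) :=
  Module.Projective.of_equiv (freeEquiv K Γ n)

instance finInd : Module.Finite (T K Γ) (Ind K (Fin n → Γ) (Γ := Γ)) :=
  Module.Finite.equiv (freeEquiv K Γ n)

/-- extension from the basis -/
theorem exists_free {Y : Type*} [AddCommGroup Y] [Module (T K Γ) Y] (y : Fin n → Y) :
    ∃ ψ : Ind K (Fin n → Γ) (Γ := Γ) →ₗ[T K Γ] Y, ∀ m, ψ (bv K m) = y m := by
  refine ⟨(Fintype.linearCombination (T K Γ) y) ∘ₗ (freeEquiv K Γ n).symm.toLinearMap, ?_⟩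
  intro m
  rw [LinearMap.comp_apply, LinearEquiv.coe_coe]
  rw [← freeEquiv_single, LinearEquiv.symm_apply_apply,
    Fintype.linearCombination_apply_single, one_smul]

theorem ext_free {Y : Type*} [AddCommGroup Y] [Module (T K Γ) Y]
    (f g : Ind K (Fin n → Γ) (Γ := Γ) →ₗ[T K Γ] Y) (h : ∀ m, f (bv K m) = g (bv K m)) :
    f = g := by
  ext z
  obtain ⟨c, rfl⟩ := lc_surj z
  rw [Fintype.linearCombination_apply, map_sum, map_sum]
  refine Finset.sum_congr rfl fun m _ => ?_
  rw [map_smul, map_smul, h]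

end free

section cover

variable {K} {n : ℕ} {X : Type u} [AddCommGroup X] [Module Γ X]

theorem dmap_surj (u : (Fin n → Γ) →ₗ[Γ] X) (hu : Function.Surjective u) :
    Function.Surjective (dmap K u) := by
  intro ξ
  let r : (X →ₗ[Γ] Γ) →ₗ[K] ((Fin n → Γ) →ₗ[Γ] Γ) :=
    { toFun := fun h => h ∘ₗ u
      map_add' := fun g h => LinearMap.add_comp _ _ _
      map_smul' := fun a h => LinearMap.smul_comp _ _ _ }
  have hr : Function.Injective r := by
    intro g h e
    ext x
    obtain ⟨y, rfl⟩ := hu x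
    exact LinearMap.congr_fun e y
  obtain ⟨ψ, hψ⟩ := exists_ext r hr ξ.ev
  refine ⟨DX.of ψ, ?_⟩
  ext h
  exact hψ h

theorem imap_surj (u : (Fin n → Γ) →ₗ[Γ] X) (hu : Function.Surjective u) :
    Function.Surjective (imap K u) := by
  intro z
  obtain ⟨p, hp⟩ := hu z.a
  obtain ⟨q, hq⟩ := dmap_surj (K := K) u hu z.b
  refine ⟨Ind.mk p q, ?_⟩
  apply Ind.ext
  · simpa using hp
  · simpa using hq

/-- two `T`-linear maps out of `ind X`, `X` finite, agreeing on `X` agree -/
theorem ext_ind [Module.Finite Γ X] {Y : Type*} [AddCommGroup Y] [Module (T K Γ) Y]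
    (f g : Ind K X (Γ := Γ) →ₗ[T K Γ] Y) (h : ∀ x, f (Ind.mk x 0) = g (Ind.mk x 0)) :
    f = g := by
  obtain ⟨n, u, hu⟩ := exists_cov (A := Γ) X
  have h1 : f ∘ₗ imap K u = g ∘ₗ imap K u := by
    apply ext_free
    intro m
    have h2 : imap K u (bv K m) = Ind.mk (u (Pi.single m 1)) 0 := by
      apply Ind.ext
      · simp [bv]
      · rw [imap_b]
        simp [bv]
    rw [LinearMap.comp_apply, LinearMap.comp_apply, h2, h]
  ext z
  obtain ⟨y, rfl⟩ := imap_surj (K := K) u hu z
  exact LinearMap.congr_fun h1 y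

end cover

section exact

variable {K} {n : ℕ} {X Z : Type u} [AddCommGroup X] [Module Γ X] [AddCommGroup Z] [Module Γ Z]
  (i : Z →ₗ[Γ] (Fin n → Γ)) (u : (Fin n → Γ) →ₗ[Γ] X)

/-- restriction of functionals -/
def res (i : Z →ₗ[Γ] (Fin n → Γ)) : ((Fin n → Γ) →ₗ[Γ] Γ) →ₗ[K] (Z →ₗ[Γ] Γ) where
  toFun h := h ∘ₗ i
  map_add' _ _ := LinearMap.add_comp _ _ _
  map_smul' _ _ := LinearMap.smul_comp _ _ _

theorem dmap_inj (hs : ∀ g : Z →ₗ[Γ] Γ, ∃ f : (Fin n → Γ) →ₗ[Γ] Γ, f ∘ₗ i = g) :
    Function.Injective (dmap K i) := by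
  intro ξ η e
  ext g
  obtain ⟨f, rfl⟩ := hs g
  have := congrArg (fun (z : DX K (Fin n → Γ) (Γ := Γ)) => z.ev f) e
  exact this

theorem dmap_exact (hu : Function.Surjective u) (he : Function.Exact i u)
    (ξ : DX K (Fin n → Γ) (Γ := Γ)) (hξ : dmap K u ξ = 0) : ∃ η, dmap K i η = ξ := by
  -- the functional on the range of `res`
  let R : ((Fin n → Γ) →ₗ[Γ] Γ) →ₗ[K] (Z →ₗ[Γ] Γ) := res (K := K) i
  have hker : ∀ h, R h = 0 → ξ.ev h = 0 := by
    intro h hh
    have h1 : ∀ y, u y = 0 → h y = 0 := by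
      intro y hy
      obtain ⟨z, rfl⟩ := (he y).1 hy
      exact LinearMap.congr_fun hh z
    -- factor `h` through `u`
    obtain ⟨h', hh'⟩ : ∃ h' : X →ₗ[Γ] Γ, h' ∘ₗ u = h := by
      let e := u.quotKerEquivOfSurjective hu
      have hle : LinearMap.ker u ≤ LinearMap.ker h := fun y hy => h1 y hy
      refine ⟨((LinearMap.ker u).liftQ h hle) ∘ₗ e.symm.toLinearMap, ?_⟩
      ext1 y
      ext1
      rw [LinearMap.comp_apply, LinearMap.comp_apply, LinearMap.comp_apply, LinearEquiv.coe_coe]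
      have : e.symm (u (LinearMap.single Γ (fun _ => Γ) y 1)) =
          (LinearMap.ker u).mkQ (LinearMap.single Γ (fun _ => Γ) y 1) := by
        rw [LinearEquiv.symm_apply_eq]
        rfl
      rw [this, Submodule.mkQ_apply, Submodule.liftQ_apply]
      rfl
    have h2 := congrArg (fun (z : DX K X (Γ := Γ)) => z.ev h') hξ
    have h3 : ξ.ev (h' ∘ₗ u) = 0 := h2
    rwa [hh'] at h3
  obtain ⟨ψ, hψ⟩ := exists_ext (K := K) ((LinearMap.ker R).liftQ R le_rfl) (by
    rw [← LinearMap.ker_eq_bot]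
    exact Submodule.ker_liftQ_eq_bot _ _ _ le_rfl)
    ((LinearMap.ker R).liftQ (ξ.ev) (fun h hh => hker h hh))
  refine ⟨DX.of ψ, ?_⟩
  ext h
  have := hψ ((LinearMap.ker R).mkQ h)
  exact this

theorem imap_inj (hi : Function.Injective i)
    (hs : ∀ g : Z →ₗ[Γ] Γ, ∃ f : (Fin n → Γ) →ₗ[Γ] Γ, f ∘ₗ i = g) :
    Function.Injective (imap K i) := by
  intro z w e
  apply Ind.ext
  · exact hi (congrArg Ind.a e)
  · exact dmap_inj i hs (congrArg Ind.b e)

theorem imap_exact (hu : Function.Surjective u) (he : Function.Exact i u) :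
    Function.Exact (imap K i) (imap K u) := by
  intro z
  constructor
  · intro hz
    obtain ⟨p, hp⟩ := (he z.a).1 (congrArg Ind.a hz)
    obtain ⟨q, hq⟩ := dmap_exact i u hu he z.b (congrArg Ind.b hz)
    exact ⟨Ind.mk p q, Ind.ext (by simpa using hp) (by simpa using hq)⟩
  · rintro ⟨w, rfl⟩
    apply Ind.ext
    · exact (he _).2 ⟨w.a, rfl⟩
    · ext h
      have h0 : h ∘ₗ u ∘ₗ i = 0 := by
        ext z
        have := (he (i z)).2 ⟨z, rfl⟩
        simp [this]
      show w.b.ev ((h ∘ₗ u) ∘ₗ i) = 0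
      rw [LinearMap.comp_assoc, h0, map_zero]

end exact

end Crest.Agent.R186.Ind700
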