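import Mathlib
import Crest.Agent.R186.Ind2_700

/-!
Row 186, end-game closings, part 12 (helper700): from `(Γ, N)` with `Ext^i_Γ(N, Γ) = 0`,
`Ext^i_Γ(N, N) = 0`, `Ext^i_Γ(N, D(N^*)) = 0` for `i > 0` to `(T(Γ), ind N)`.
-/

set_option autoImplicit false
set_option linter.style.haveILetI false

universe v u

open Crest.AlgebraR CategoryTheory CategoryTheory.Abelian

namespace Crest.Agent.R186.Ind700

open Triv700 Syz700 Frob700 Close700

variable {K : Type u} [Field K] {Γ : Type u} [Ring Γ] [Algebra K Γ] [IsNoetherianRing Γ]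

/-- the hypotheses -/
structure Data (K : Type u) [Field K] (Γ : Type u) [Ring Γ] [Algebra K Γ] (N : FM Γ) : Prop where
  eG : ∀ i : ℕ, 0 < i → Subsingleton (Ext (ModuleCat.of Γ N.X) (ModuleCat.of Γ Γ) i)
  eN : ∀ i : ℕ, 0 < i → Subsingleton (Ext (ModuleCat.of Γ N.X) (ModuleCat.of Γ N.X) i)
  eD : ∀ i : ℕ, 0 < i → Subsingleton (Ext (ModuleCat.of Γ N.X)
    (ModuleCat.of Γ (DX K N.X (Γ := Γ))) i)

variable {N : FM Γ} (H : Data K Γ N)

/-- the short complex of inductions -/
noncomputable abbrev isc (K : Type u) [Field K] {Γ : Type u} [Ring Γ] [Algebra K Γ]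
    [IsNoetherianRing Γ] (M : FM Γ) : ShortComplex (ModuleCat.{u} (T K Γ)) :=
  ModuleCat.shortComplexOfCompEqZero (imap K M.inc) (imap K M.cov) (by
    apply LinearMap.ext
    intro z
    have he : Function.Exact M.inc M.cov := by
      intro y
      constructor
      · intro hy
        exact M.exists_inc y hy
      · rintro ⟨x, rfl⟩
        exact LinearMap.congr_fun M.cov_inc x
    exact (imap_exact M.inc M.cov M.cov_surj he _).2 ⟨z, rfl⟩)

theorem exact_inc_cov (M : FM Γ) : Function.Exact M.inc M.cov := by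
  intro y
  constructor
  · intro hy
    exact M.exists_inc y hy
  · rintro ⟨x, rfl⟩
    exact LinearMap.congr_fun M.cov_inc x

include H in
theorem isc_se (j : ℕ) : (isc K (Om N j)).ShortExact := by
  refine ModuleCat.shortComplex_shortExact _ ?_ ?_ ?_
  · exact imap_exact (Om N j).inc (Om N j).cov (Om N j).cov_surj (exact_inc_cov _)
  · exact imap_inj (Om N j).inc (Om N j).inc_inj (fun g => lift_Om N Γ H.eG j g)
  · exact imap_surj (Om N j).cov (Om N j).cov_surj

/-- the two components of a `T`-linear map `ind X → ind Y` on `X` -/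
noncomputable def comp_a {X Y : Type u} [AddCommGroup X] [Module Γ X] [AddCommGroup Y] [Module Γ Y]
    (φ : Ind K X (Γ := Γ) →ₗ[T K Γ] Ind K Y (Γ := Γ)) : X →ₗ[Γ] Y where
  toFun x := (φ (Ind.mk x 0)).a
  map_add' x y := by
    rw [← Ind.a_add, ← map_add]
    congr 2
    apply Ind.ext <;> simp
  map_smul' c x := by
    have h1 : (Ind.mk (c • x) 0 : Ind K X (Γ := Γ)) =
        (TrivSqZeroExt.inl c : T K Γ) • Ind.mk x 0 := by
      apply Ind.ext
      · simp
      · ext h; simp
    rw [h1, map_smul]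
    simp

/-- second component -/
noncomputable def comp_b {X Y : Type u} [AddCommGroup X] [Module Γ X] [AddCommGroup Y] [Module Γ Y]
    (φ : Ind K X (Γ := Γ) →ₗ[T K Γ] Ind K Y (Γ := Γ)) : X →ₗ[Γ] DX K Y (Γ := Γ) where
  toFun x := (φ (Ind.mk x 0)).b
  map_add' x y := by
    rw [← Ind.b_add, ← map_add]
    congr 2
    apply Ind.ext <;> simp
  map_smul' c x := by
    have h1 : (Ind.mk (c • x) 0 : Ind K X (Γ := Γ)) =
        (TrivSqZeroExt.inl c : T K Γ) • Ind.mk x 0 := by
      apply Ind.ext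
      · simp
      · ext h; simp
    rw [h1, map_smul]
    ext h
    simp

include H in
theorem extend (j : ℕ)
    (φ : Ind K (Om N (j + 1)).X (Γ := Γ) →ₗ[T K Γ] Ind K N.X (Γ := Γ)) :
    ∃ ψ : Ind K (Fin (Om N j).n → Γ) (Γ := Γ) →ₗ[T K Γ] Ind K N.X (Γ := Γ),
      ψ ∘ₗ imap K (Om N j).inc = φ := by
  obtain ⟨fa, ha⟩ := lift_Om N N.X H.eN j (comp_a φ)
  obtain ⟨fb, hb⟩ := lift_Om N (DX K N.X (Γ := Γ)) H.eD j (comp_b φ)
  obtain ⟨ψ, hψ⟩ := exists_free (K := K) (Γ := Γ) (n := (Om N j).n)
    (fun m => Ind.mk (K := K) (Γ := Γ) (fa (Pi.single m 1)) (fb (Pi.single m 1)))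
  refine ⟨ψ, ?_⟩
  -- `ψ` on `mk p 0`
  have h1 : ∀ p : Fin (Om N j).n → Γ, ψ (Ind.mk p 0) = Ind.mk (fa p) (fb p) := by
    intro p
    have h2 : (Ind.mk p 0 : Ind K (Fin (Om N j).n → Γ) (Γ := Γ)) =
        ∑ m, (TrivSqZeroExt.inl (p m) : T K Γ) • bv K m := by
      apply Ind.ext
      · rw [Ind.a_sum]
        simp only [Ind.a_mk, Ind.a_smul, TrivSqZeroExt.fst_inl, bv]
        funext k
        rw [Finset.sum_apply, Finset.sum_eq_single k]
        · simp
        · intro l _ hl
          simp [hl.symm]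
        · intro h
          exact absurd (Finset.mem_univ _) h
      · rw [Ind.b_sum]
        ext h
        rw [DX.ev_sum]
        simp [bv]
    have h3 : p = ∑ m, p m • (Pi.single m 1 : Fin (Om N j).n → Γ) := by
      funext k
      rw [Finset.sum_apply, Finset.sum_eq_single k]
      · simp
      · intro l _ hl
        simp [hl.symm]
      · intro h
        exact absurd (Finset.mem_univ _) h
    rw [h2, map_sum]
    simp only [map_smul, hψ]
    apply Ind.ext
    · rw [Ind.a_sum]
      simp only [Ind.a_mk, Ind.a_smul, TrivSqZeroExt.fst_inl]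
      conv_rhs => rw [h3, map_sum]
      simp only [map_smul]
    · rw [Ind.b_sum]
      conv_rhs => rw [Ind.b_mk, h3, map_sum]
      simp only [map_smul]
      refine Finset.sum_congr rfl fun m _ => ?_
      ext h
      simp
  apply ext_ind
  intro x
  rw [LinearMap.comp_apply]
  have h4 : imap K (Om N j).inc (Ind.mk x 0) = Ind.mk ((Om N j).inc x) 0 := by
    apply Ind.ext
    · rfl
    · rw [imap_b]; simp
  rw [h4, h1]
  apply Ind.ext
  · exact LinearMap.congr_fun ha x
  · exact LinearMap.congr_fun hb x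

include H in
theorem ext_ind_zero (i : ℕ) : ∀ j : ℕ,
    Subsingleton (Ext (ModuleCat.of (T K Γ) (Ind K (Om N j).X (Γ := Γ)))
      (ModuleCat.of (T K Γ) (Ind K N.X (Γ := Γ))) (i + 1)) := by
  induction i with
  | zero =>
    intro j
    have hz : ∀ x : Ext (isc K (Om N j)).X₃ (ModuleCat.of (T K Γ) (Ind K N.X (Γ := Γ))) (0 + 1),
        x = 0 := by
      intro x
      haveI : Projective (isc K (Om N j)).X₂ :=
        (IsProjective.iff_projective (ModuleCat.of (T K Γ)
          (Ind K (Fin (Om N j).n → Γ) (Γ := Γ)))).1 projInd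
      obtain ⟨y, hy⟩ := Ext.contravariant_sequence_exact₃ (isc_se H j)
        (ModuleCat.of (T K Γ) (Ind K N.X (Γ := Γ))) x (Ext.eq_zero_of_projective _)
        (n₀ := 0) (by omega)
      obtain ⟨φ, rfl⟩ := Ext.homEquiv₀.symm.surjective y
      rw [Ext.homEquiv₀_symm_apply] at hy
      obtain ⟨ψ, hψ⟩ := extend H j φ.hom
      have h5 : φ = (isc K (Om N j)).f ≫ ModuleCat.ofHom ψ := by
        ext1
        exact hψ.symm
      rw [h5, ← Ext.mk₀_comp_mk₀, ShortComplex.ShortExact.extClass_comp_assoc] at hy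
      exact hy.symm
    exact ⟨fun a b => by rw [hz a, hz b]⟩
  | succ i ih =>
    intro j
    have hz : ∀ x : Ext (isc K (Om N j)).X₃ (ModuleCat.of (T K Γ) (Ind K N.X (Γ := Γ)))
        (i + 1 + 1), x = 0 := by
      intro x
      haveI : Projective (isc K (Om N j)).X₂ :=
        (IsProjective.iff_projective (ModuleCat.of (T K Γ)
          (Ind K (Fin (Om N j).n → Γ) (Γ := Γ)))).1 projInd
      obtain ⟨y, hy⟩ := Ext.contravariant_sequence_exact₃ (isc_se H j)
        (ModuleCat.of (T K Γ) (Ind K N.X (Γ := Γ))) x (Ext.eq_zero_of_projective _)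
        (n₀ := i + 1) (by omega)
      have : y = 0 := (ih (j + 1)).elim _ _
      rw [← hy, this, Ext.comp_zero]
    exact ⟨fun a b => by rw [hz a, hz b]⟩

omit [IsNoetherianRing Γ] in
theorem not_proj_ind (M : FM Γ) (hM : ¬ Module.Projective Γ M.X) :
    ¬ Module.Projective (T K Γ) (Ind K M.X (Γ := Γ)) := by
  intro hp
  obtain ⟨s, hs⟩ := Module.projective_lifting_property (imap K M.cov) LinearMap.id
    (imap_surj (K := K) M.cov M.cov_surj)
  apply hM
  refine Module.Projective.of_split (comp_a s) M.cov ?_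
  ext x
  have := LinearMap.congr_fun hs (Ind.mk x 0)
  exact congrArg Ind.a this

omit [IsNoetherianRing Γ] in
theorem finite_ind (M : FM Γ) : Module.Finite (T K Γ) (Ind K M.X (Γ := Γ)) :=
  Module.Finite.of_surjective (imap K M.cov) (imap_surj (K := K) M.cov M.cov_surj)

end Crest.Agent.R186.Ind700
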