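import Mathlib
import Crest.Agent.R186.Ind3_700

/-!
Row 186, end-game closings, part 13 (helper700): the main reductions.

* `main` : `Γ` finite-dimensional over `K`, `N` finite non-projective with
  `Ext^i_Γ(N, Γ) = 0`, `Ext^i_Γ(N, N) = 0`, `Ext^i_Γ(N, D(Hom_Γ(N, Γ))) = 0` for all `i > 0`.
  Then the symmetric algebra `T(Γ)` and the module `ind N` form an `AR` datum.
* `main_null` : the same from a nonzero finite `V` with `Hom_Γ(V, Γ) = 0`, `Ext^i_Γ(V, Γ) = 0`,
  `Ext^i_Γ(V, V) = 0` for `i > 0`.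
* `s0280`, `s0282` ... : literal conclusions.
-/

set_option autoImplicit false
set_option linter.style.haveILetI false

universe v u

open Crest.AlgebraR CategoryTheory CategoryTheory.Abelian

namespace Crest.Agent.R186.Main700

open Triv700 Syz700 Frob700 Close700 Ind700

variable (K : Type u) [Field K] (Γ : Type u) [Ring Γ] [Algebra K Γ]

/-- the main reduction -/
theorem main [FiniteDimensional K Γ] (N : Type u) [AddCommGroup N] [Module Γ N]
    [Module.Finite Γ N] (hp : ¬ Module.Projective Γ N)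
    (eG : ∀ i : ℕ, 0 < i → Subsingleton (Ext (ModuleCat.of Γ N) (ModuleCat.of Γ Γ) i))
    (eN : ∀ i : ℕ, 0 < i → Subsingleton (Ext (ModuleCat.of Γ N) (ModuleCat.of Γ N) i))
    (eD : ∀ i : ℕ, 0 < i → Subsingleton (Ext (ModuleCat.of Γ N)
      (ModuleCat.of Γ (DX K N (Γ := Γ))) i)) :
    Nonempty (AR.{u, u} K) := by
  haveI : IsNoetherianRing Γ := isNoetherian_of_tower K (inferInstance : IsNoetherian K Γ)
  let M : FM Γ := ⟨N⟩
  have H : Data K Γ M := ⟨eG, eN, eD⟩
  exact ⟨{ A := T K Γ
           fd := instFDT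
           sym := isSymmetric
           M := Ind K N (Γ := Γ)
           fin := finite_ind M
           np := not_proj_ind M hp
           ext := fun i hi => by
             obtain ⟨j, rfl⟩ := Nat.exists_eq_add_of_le' hi
             exact ext_ind_zero H j 0 }⟩

/-- the reduction from a null module -/
theorem main_null [FiniteDimensional K Γ] (V : Type u) [AddCommGroup V] [Module Γ V]
    [Module.Finite Γ V] [Nontrivial V]
    (h0 : ∀ f : V →ₗ[Γ] Γ, f = 0)
    (eG : ∀ i : ℕ, 0 < i → Subsingleton (Ext (ModuleCat.of Γ V) (ModuleCat.of Γ Γ) i))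
    (eV : ∀ i : ℕ, 0 < i → Subsingleton (Ext (ModuleCat.of Γ V) (ModuleCat.of Γ V) i)) :
    Nonempty (AR.{u, u} K) := by
  refine main K Γ V ?_ eG eV ?_
  · intro hp
    obtain ⟨n, u, hu⟩ := exists_cov (A := Γ) V
    obtain ⟨s, hs⟩ := Module.projective_lifting_property u LinearMap.id hu
    obtain ⟨x, hx⟩ := exists_ne (0 : V)
    apply hx
    have h1 : s x = 0 := by
      funext m
      exact LinearMap.congr_fun (h0 ((LinearMap.proj m) ∘ₗ s)) x
    have h2 := LinearMap.congr_fun hs x
    rw [LinearMap.comp_apply, h1, map_zero] at h2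
    exact h2.symm
  · intro i hi
    have hz : ∀ ξ : DX K V (Γ := Γ), ξ = 0 := by
      intro ξ
      ext h
      rw [h0 h, map_zero, map_zero]
    haveI : Subsingleton (DX K V (Γ := Γ)) := ⟨fun a b => by rw [hz a, hz b]⟩
    have hZ : Limits.IsZero (ModuleCat.of Γ (DX K V (Γ := Γ))) :=
      ModuleCat.isZero_of_subsingleton _
    refine ⟨fun a b => ?_⟩
    have hc : ∀ x : Ext (ModuleCat.of Γ V) (ModuleCat.of Γ (DX K V (Γ := Γ))) i, x = 0 := by
      intro x
      have e := Ext.comp_mk₀_id x
      rw [← e, hZ.eq_zero_of_src (𝟙 _), Ext.mk₀_zero, Ext.comp_zero]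
    rw [hc a, hc b]

end Crest.Agent.R186.Main700
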