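import Mathlib
import Crest.Prelude.Def_Tilting
import Crest.Prelude.Def_SymmetricAlgebra
import Crest.Agent.R186.Main_700

/-!
Row 186, end-game closings, part 14 (helper700): literal wrappers from `AR`.
-/

set_option autoImplicit false
set_option linter.style.haveILetI false

universe v u

open Crest.AlgebraR CategoryTheory CategoryTheory.Abelian

namespace Crest.Agent.R186.Wrap700

open Close700

/-- literal form of S0280 from `AR` over `F_2(x,y,z)` -/
theorem s0280 (D : AR.{0, 0} (FractionRing (MvPolynomial (Fin 3) (ZMod 2)))) :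
    ∃ (A : Type) (_ : Ring A) (_ : Algebra (FractionRing (MvPolynomial (Fin 3) (ZMod 2))) A),
      FiniteDimensional (FractionRing (MvPolynomial (Fin 3) (ZMod 2))) A ∧
      IsSymmetricAlgebra (FractionRing (MvPolynomial (Fin 3) (ZMod 2))) A ∧
      ∃ M : ModuleCat.{0} A, Module.Finite A M ∧ ¬ Module.Projective A M ∧
        ∀ i : ℕ, 0 < i → Subsingleton (CategoryTheory.Abelian.Ext M M i) :=
  ⟨D.A, D.ring, D.alg, D.fd, D.sym, ModuleCat.of D.A D.M, D.fin, D.np, D.ext⟩

end Crest.Agent.R186.Wrap700
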