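import Mathlib
import Crest.Prelude.Def_GorProjVanishing
import Crest.Prelude.Def_Tilting
import Crest.Prelude.Def_SymmetricAlgebra
import Crest.Agent.R186.Wrap_700
import Crest.Agent.R186.BCAR_700
import Crest.Agent.R186.Sym_234

/-!
Row 186 (helper700), THE SPINE: from block structures over the ground field `k` (type 0) to the
six literal statements S0280 ... S0285.

* `Null K`  : a null pair `(Γ, V)`: `V ≠ 0` finite, `Hom(V, Γ) = 0`, `Ext^{>0}(V, Γ) = 0`,
  `Ext^{>0}(V, V) = 0`.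
* `Pair K`  : the weaker input of `Main700.main` (`N` not projective, `Ext^{>0}(N, Γ ⊕ N ⊕ D(N^*)) = 0`).
* `Simples K Γ n` : a surjection `Γ → K^n` with nil kernel.
* `Null8 K` / `Pair8 K` / `GP8 K` : the same with at most seven simples, or with eight simples and
  four radical elements with nonzero product.
-/

set_option autoImplicit false
set_option linter.style.haveILetI false

universe v u

open Crest.AlgebraR CategoryTheory CategoryTheory.Abelian
open scoped TensorProduct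

namespace Crest.Agent.R186.Spine700

open Close700 Main700 Triv700 Sym234 Pad234 BCAR700 Wrap700 Syz700

/-! ### blocks -/

/-- a null pair over `K` -/
structure Null (K : Type v) [Field K] where
  Γ : Type u
  [ring : Ring Γ]
  [alg : Algebra K Γ]
  [fd : FiniteDimensional K Γ]
  V : Type u
  [grp : AddCommGroup V]
  [mod : Module Γ V]
  [fin : Module.Finite Γ V]
  [nt : Nontrivial V]
  h0 : ∀ f : V →ₗ[Γ] Γ, f = 0
  eG : ∀ i : ℕ, 0 < i → Subsingleton (Ext (ModuleCat.of Γ V) (ModuleCat.of Γ Γ) i)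
  eV : ∀ i : ℕ, 0 < i → Subsingleton (Ext (ModuleCat.of Γ V) (ModuleCat.of Γ V) i)

attribute [instance] Null.ring Null.alg Null.fd Null.grp Null.mod Null.fin Null.nt

/-- a pair satisfying the hypotheses of `Main700.main` -/
structure Pair (K : Type u) [Field K] where
  Γ : Type u
  [ring : Ring Γ]
  [alg : Algebra K Γ]
  [fd : FiniteDimensional K Γ]
  N : Type u
  [grp : AddCommGroup N]
  [mod : Module Γ N]
  [fin : Module.Finite Γ N]
  np : ¬ Module.Projective Γ N
  eG : ∀ i : ℕ, 0 < i → Subsingleton (Ext (ModuleCat.of Γ N) (ModuleCat.of Γ Γ) i)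
  eN : ∀ i : ℕ, 0 < i → Subsingleton (Ext (ModuleCat.of Γ N) (ModuleCat.of Γ N) i)
  eD : ∀ i : ℕ, 0 < i → Subsingleton (Ext (ModuleCat.of Γ N)
      (ModuleCat.of Γ (Ind700.DX K N (Γ := Γ))) i)

attribute [instance] Pair.ring Pair.alg Pair.fd Pair.grp Pair.mod Pair.fin

/-- `Γ` has (split basic) semisimple quotient `K^n` -/
def Simples (K : Type v) [Field K] (Γ : Type u) [Ring Γ] [Algebra K Γ] (n : ℕ) : Prop :=
  ∃ Q : Γ →ₐ[K] (Fin n → K), Function.Surjective Q ∧ ∀ x, Q x = 0 → IsNilpotent x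

/-- the condition on simples for S0281: at most seven of them, or eight and a nonzero product of
four radical elements -/
def Eight (K : Type v) [Field K] (Γ : Type u) [Ring Γ] [Algebra K Γ] : Prop :=
  (∃ n : ℕ, n ≤ 7 ∧ Simples K Γ n) ∨
    ∃ Q : Γ →ₐ[K] (Fin 8 → K), Function.Surjective Q ∧ (∀ x, Q x = 0 → IsNilpotent x) ∧
      ∃ a b c d : Γ, Q a = 0 ∧ Q b = 0 ∧ Q c = 0 ∧ Q d = 0 ∧ a * b * c * d ≠ 0

/-! ### from blocks to `AR` -/

theorem ar_of_null {K : Type u} [Field K] (h : Nonempty (Null.{u, u} K)) :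
    Nonempty (AR.{u, u} K) := by
  obtain ⟨D⟩ := h
  exact main_null K D.Γ D.V D.h0 D.eG D.eV

theorem ar_of_pair {K : Type u} [Field K] (h : Nonempty (Pair.{u} K)) :
    Nonempty (AR.{u, u} K) := by
  obtain ⟨D⟩ := h
  exact main K D.Γ D.N D.np D.eG D.eN D.eD

/-! ### simples of the trivial extension -/

section triv

variable {K : Type u} [Field K] {Γ : Type u} [Ring Γ] [Algebra K Γ] {n : ℕ}

/-- `T(Γ) → Γ → K^n` -/
noncomputable def QT (Q : Γ →ₐ[K] (Fin n → K)) : T K Γ →ₐ[K] (Fin n → K) :=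
  Q.comp (TrivSqZeroExt.fstHom K Γ (DG K Γ))

theorem QT_apply (Q : Γ →ₐ[K] (Fin n → K)) (x : T K Γ) : QT Q x = Q x.fst := rfl

theorem QT_surj (Q : Γ →ₐ[K] (Fin n → K)) (hs : Function.Surjective Q) :
    Function.Surjective (QT Q) := by
  intro y
  obtain ⟨x, hx⟩ := hs y
  exact ⟨TrivSqZeroExt.inl x, hx⟩

theorem fst_pow' (x : T K Γ) (m : ℕ) : (x ^ m).fst = x.fst ^ m := by
  induction m with
  | zero => rfl
  | succ m ih => rw [pow_succ, pow_succ, TrivSqZeroExt.fst_mul, ih]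

theorem QT_nil (Q : Γ →ₐ[K] (Fin n → K)) (hq : ∀ x, Q x = 0 → IsNilpotent x) (x : T K Γ)
    (hx : QT Q x = 0) : IsNilpotent x := by
  obtain ⟨m, hm⟩ := hq x.fst hx
  refine ⟨m + m, ?_⟩
  rw [pow_add]
  have h1 : (x ^ m).fst = 0 := by rw [fst_pow', hm]
  apply TrivSqZeroExt.ext
  · rw [TrivSqZeroExt.fst_mul, h1, mul_zero, TrivSqZeroExt.fst_zero]
  · rw [TrivSqZeroExt.snd_mul, h1, zero_smul, MulOpposite.op_zero, zero_smul, add_zero,
      TrivSqZeroExt.snd_zero]

end triv

/-! ### S0281 -/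

/-- the literal conclusion of S0281 over `K` -/
def C0281 (K : Type) [Field K] : Prop :=
  ∃ (Λ : Type) (_ : Ring Λ) (_ : Algebra K Λ) (Z : Type) (_ : AddCommGroup Z)
      (_ : Module Λ Z) (_ : Module K Z) (_ : IsScalarTower K Λ Z),
      GorProjVanishingData K Λ Z ∧
      ∀ (E : Type u) [Field E] [Algebra K E],
        ∃ (_ : Module (E ⊗[K] Λ) (E ⊗[K] Z)),
          (∀ (a b : E) (r : Λ) (z : Z),
            (a ⊗ₜ[K] r) • (b ⊗ₜ[K] z) = (a * b) ⊗ₜ[K] (r • z)) ∧
          GorProjVanishingData E (E ⊗[K] Λ) (E ⊗[K] Z)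

/-- S0281 from an `AR` datum whose algebra has at most eight simples -/
theorem c0281_ar {K : Type} [Field K] (A : Type) [Ring A] [Algebra K A] [FiniteDimensional K A]
    (hA : IsSymmetricAlgebra K A) (h8 : Eight K A)
    (M : Type) [AddCommGroup M] [Module A M] [Module.Finite A M]
    (np : ¬ Module.Projective A M)
    (he : ∀ i : ℕ, 0 < i → Subsingleton (Ext (ModuleCat.of A M) (ModuleCat.of A M) i)) :
    C0281.{u} K := by
  rcases h8 with ⟨n, hn, Q, hs, hq⟩ | ⟨Q, hs, hq, a, b, c, d, ha, hb, hc, hd, hne⟩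
  · exact c0281_sym K A hA hn Q hs hq M np he
  · refine c0281_sym_eight K A hA Q hs hq ?_ M np he
    have hj : Ring.jacobson A = RingHom.ker Q := Rad234.jac_eq_ker Q hs hq
    intro h4
    apply hne
    have m1 : a * b * c * d ∈ Ring.jacobson A ^ 4 := by
      have e4 : Ring.jacobson A ^ 4 =
          Ring.jacobson A * Ring.jacobson A * Ring.jacobson A * Ring.jacobson A := by
        rw [Submodule.pow_succ, Submodule.pow_succ, Submodule.pow_succ, Submodule.pow_one]
      rw [e4, hj]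
      exact Ideal.mul_mem_mul (Ideal.mul_mem_mul (Ideal.mul_mem_mul ha hb) hc) hd
    rw [h4, Ideal.mem_bot] at m1
    exact m1

theorem eight_triv {K : Type u} [Field K] {Γ : Type u} [Ring Γ] [Algebra K Γ] (h : Eight K Γ) :
    Eight K (T K Γ) := by
  rcases h with ⟨n, hn, Q, hs, hq⟩ | ⟨Q, hs, hq, a, b, c, d, ha, hb, hc, hd, hne⟩
  · exact Or.inl ⟨n, hn, QT Q, QT_surj Q hs, QT_nil Q hq⟩
  · refine Or.inr ⟨QT Q, QT_surj Q hs, QT_nil Q hq, TrivSqZeroExt.inl a, TrivSqZeroExt.inl b,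
      TrivSqZeroExt.inl c, TrivSqZeroExt.inl d, ha, hb, hc, hd, fun h => hne ?_⟩
    have h2 := congrArg TrivSqZeroExt.fst h
    simpa using h2

/-- the trivial extension construction, keeping track of the algebra -/
theorem ar_pair_explicit {K : Type u} [Field K] (D : Pair.{u} K) :
    ∃ (M : Type u) (_ : AddCommGroup M) (_ : Module (T K D.Γ) M), Module.Finite (T K D.Γ) M ∧
      ¬ Module.Projective (T K D.Γ) M ∧
      ∀ i : ℕ, 0 < i → Subsingleton (Ext (ModuleCat.of (T K D.Γ) M) (ModuleCat.of (T K D.Γ) M) i) := by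
  haveI : IsNoetherianRing D.Γ := isNoetherian_of_tower K (inferInstance : IsNoetherian K D.Γ)
  let M : Syz700.FM D.Γ := ⟨D.N⟩
  have H : Ind700.Data K D.Γ M := ⟨D.eG, D.eN, D.eD⟩
  refine ⟨Ind700.Ind K D.N (Γ := D.Γ), inferInstance, inferInstance, Ind700.finite_ind M,
    Ind700.not_proj_ind M D.np, fun i hi => ?_⟩
  obtain ⟨j, rfl⟩ := Nat.exists_eq_add_of_le' hi
  exact Ind700.ext_ind_zero H j 0

theorem c0281_pair {K : Type} [Field K] (D : Pair.{0} K) (h8 : Eight K D.Γ) : C0281.{u} K := by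
  obtain ⟨M, i1, i2, hf, hp, he⟩ := ar_pair_explicit D
  exact c0281_ar (T K D.Γ) isSymmetric (eight_triv h8) M hp he

/-- a null pair is a pair -/
noncomputable def Null.toPair {K : Type u} [Field K] (D : Null.{u, u} K) : Pair.{u} K where
  Γ := D.Γ
  N := D.V
  np := by
    intro hp
    haveI : IsNoetherianRing D.Γ := isNoetherian_of_tower K (inferInstance : IsNoetherian K D.Γ)
    obtain ⟨n, u, hu⟩ := exists_cov (A := D.Γ) D.V
    obtain ⟨s, hs⟩ := Module.projective_lifting_property u LinearMap.id hu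
    obtain ⟨x, hx⟩ := exists_ne (0 : D.V)
    apply hx
    have h1 : s x = 0 := by
      funext m
      exact LinearMap.congr_fun (D.h0 ((LinearMap.proj m) ∘ₗ s)) x
    have h2 := LinearMap.congr_fun hs x
    rw [LinearMap.comp_apply, h1, map_zero] at h2
    exact h2.symm
  eG := D.eG
  eN := D.eV
  eD := by
    intro i hi
    have hz : ∀ ξ : Ind700.DX K D.V (Γ := D.Γ), ξ = 0 := by
      intro ξ
      ext h
      rw [D.h0 h, map_zero, map_zero]
    haveI : Subsingleton (Ind700.DX K D.V (Γ := D.Γ)) := ⟨fun a b => by rw [hz a, hz b]⟩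
    have hZ : Limits.IsZero (ModuleCat.of D.Γ (Ind700.DX K D.V (Γ := D.Γ))) :=
      ModuleCat.isZero_of_subsingleton _
    refine ⟨fun a b => ?_⟩
    have hc : ∀ x : Ext (ModuleCat.of D.Γ D.V)
        (ModuleCat.of D.Γ (Ind700.DX K D.V (Γ := D.Γ))) i, x = 0 := by
      intro x
      have e := Ext.comp_mk₀_id x
      rw [← e, hZ.eq_zero_of_src (𝟙 _), Ext.mk₀_zero, Ext.comp_zero]
    rw [hc a, hc b]

theorem c0281_null {K : Type} [Field K] (D : Null.{0, 0} K) (h8 : Eight K D.Γ) :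
    C0281.{u} K :=
  c0281_pair D.toPair h8

/-- S0281 from a Gorenstein-projective self-orthogonal pair -/
theorem c0281_gp {K : Type} [Field K] (R : Type) [Ring R] [Algebra K R] [FiniteDimensional K R]
    (h8 : Eight K R) (Z : Type) [AddCommGroup Z] [Module R Z] [Module.Finite R Z]
    (np : ¬ Module.Projective R Z) (hg : IsGorensteinProjective R Z)
    (he : ∀ i : ℕ, 0 < i → Subsingleton (Ext (ModuleCat.of R Z) (ModuleCat.of R Z) i)) :
    C0281.{u} K := by
  rcases h8 with ⟨n, hn, Q, hs, hq⟩ | ⟨Q, hs, hq, a, b, c, d, ha, hb, hc, hd, hne⟩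
  · exact c0281_pad K R hn Q hs hq Z np hg he
  · refine c0281_eight K R Q hs hq ?_ Z np hg he
    have hj : Ring.jacobson R = RingHom.ker Q := Rad234.jac_eq_ker Q hs hq
    intro h4
    apply hne
    have m1 : a * b * c * d ∈ Ring.jacobson R ^ 4 := by
      have e4 : Ring.jacobson R ^ 4 =
          Ring.jacobson R * Ring.jacobson R * Ring.jacobson R * Ring.jacobson R := by
        rw [Submodule.pow_succ, Submodule.pow_succ, Submodule.pow_succ, Submodule.pow_one]
      rw [e4, hj]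
      exact Ideal.mul_mem_mul (Ideal.mul_mem_mul (Ideal.mul_mem_mul ha hb) hc) hd
    rw [h4, Ideal.mem_bot] at m1
    exact m1

/-! ### the six literal statements -/

/-- the ground field -/
abbrev k0 : Type := FractionRing (MvPolynomial (Fin 3) (ZMod 2))

section final

theorem s0280 (h : Nonempty (AR.{0, 0} k0)) :
    ∃ (A : Type) (_ : Ring A) (_ : Algebra (FractionRing (MvPolynomial (Fin 3) (ZMod 2))) A),
      FiniteDimensional (FractionRing (MvPolynomial (Fin 3) (ZMod 2))) A ∧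
      IsSymmetricAlgebra (FractionRing (MvPolynomial (Fin 3) (ZMod 2))) A ∧
      ∃ M : ModuleCat.{0} A, Module.Finite A M ∧ ¬ Module.Projective A M ∧
        ∀ i : ℕ, 0 < i → Subsingleton (CategoryTheory.Abelian.Ext M M i) := by
  obtain ⟨D⟩ := h
  exact Wrap700.s0280 D

theorem s0282 (h : Nonempty (AR.{0, 0} k0))
    (K : Type u) [Field K] [Algebra (FractionRing (MvPolynomial (Fin 3) (ZMod 2))) K] :
    ∃ (Γ : Type u) (_ : Ring Γ) (_ : Algebra K Γ), FiniteDimensional K Γ ∧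
      ∃ S : ModuleCat.{u} Γ, IsSimpleModule Γ S ∧
        ∀ i : ℕ, Subsingleton (Abelian.Ext S (ModuleCat.of Γ Γ) i) := by
  obtain ⟨D⟩ := ar_bc k0 K h
  exact c0282 D

theorem s0283 (h : Nonempty (AR.{0, 0} k0))
    (K : Type u) [Field K] [Algebra (FractionRing (MvPolynomial (Fin 3) (ZMod 2))) K] :
    ∃ (Γ : Type u) (_ : Ring Γ) (_ : Algebra K Γ), FiniteDimensional K Γ ∧
      ∀ n : ℕ, 1 ≤ n → ∃ C : ModuleCat.{u} Γ, Module.Finite Γ C ∧
        projectiveDimension C = (n : WithBot ℕ∞) := by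
  obtain ⟨D⟩ := ar_bc k0 K h
  exact c0283 D

theorem s0284 (h : Nonempty (AR.{0, 0} k0))
    (K : Type u) [Field K] [Algebra (FractionRing (MvPolynomial (Fin 3) (ZMod 2))) K] :
    ∃ (Γ : Type u) (_ : Ring Γ) (_ : Algebra K Γ), FiniteDimensional K Γ ∧
      (∃ (I : ℕ → ModuleCat.{u} Γ) (ε : Γ →ₗ[Γ] I 0) (d : ∀ j : ℕ, I j →ₗ[Γ] I (j + 1)),
        Function.Injective ε ∧ Function.Exact ε (d 0) ∧ (∀ j, Function.Exact (d j) (d (j + 1))) ∧
        ∀ j, Module.Projective Γ (I j) ∧ Module.Injective Γ (I j)) ∧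
      ∀ n : ℕ, ¬ HasInjectiveDimensionLT (ModuleCat.of Γ Γ) n := by
  obtain ⟨D⟩ := ar_bc k0 K h
  exact c0284 D

theorem s0285 (h : Nonempty (AR.{0, 0} k0))
    (K : Type u) [Field K] [Algebra (FractionRing (MvPolynomial (Fin 3) (ZMod 2))) K] :
    ∃ (Γ : Type u) (_ : Ring Γ) (_ : Algebra K Γ), FiniteDimensional K Γ ∧
      ∃ (W : Type u) (_ : AddCommGroup W) (_ : Module Γ W), Module.Finite Γ W ∧
        Module.Projective Γ W ∧ Module.Injective Γ W ∧
        IsWakamatsuTilting Γ W ∧ ¬ IsTilting Γ W := by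
  obtain ⟨D⟩ := ar_bc k0 K h
  exact c0285 D

/-- all six from one null pair with at most eight simples over the ground field -/
theorem s0281 (h : ∃ D : Null.{0, 0} k0, Eight k0 D.Γ) :
    ∃ (Λ : Type) (_ : Ring Λ) (_ : Algebra (FractionRing (MvPolynomial (Fin 3) (ZMod 2))) Λ) (Z : Type) (_ : AddCommGroup Z)
      (_ : Module Λ Z) (_ : Module (FractionRing (MvPolynomial (Fin 3) (ZMod 2))) Z) (_ : IsScalarTower (FractionRing (MvPolynomial (Fin 3) (ZMod 2))) Λ Z),
      GorProjVanishingData (FractionRing (MvPolynomial (Fin 3) (ZMod 2))) Λ Z ∧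
      ∀ (E : Type u) [Field E] [Algebra (FractionRing (MvPolynomial (Fin 3) (ZMod 2))) E],
        ∃ (_ : Module (E ⊗[FractionRing (MvPolynomial (Fin 3) (ZMod 2))] Λ) (E ⊗[FractionRing (MvPolynomial (Fin 3) (ZMod 2))] Z)),
          (∀ (a b : E) (r : Λ) (z : Z),
            (a ⊗ₜ[FractionRing (MvPolynomial (Fin 3) (ZMod 2))] r) • (b ⊗ₜ[FractionRing (MvPolynomial (Fin 3) (ZMod 2))] z) = (a * b) ⊗ₜ[FractionRing (MvPolynomial (Fin 3) (ZMod 2))] (r • z)) ∧
          GorProjVanishingData E (E ⊗[FractionRing (MvPolynomial (Fin 3) (ZMod 2))] Λ) (E ⊗[FractionRing (MvPolynomial (Fin 3) (ZMod 2))] Z) := by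
  obtain ⟨D, h8⟩ := h
  exact c0281_null D h8

end final

end Crest.Agent.R186.Spine700
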