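import Crest.Agent.R186.Indep_667
import Crest.Agent.R186.DefsQ_830
import Crest.Agent.R186.Hat_827
import Crest.Agent.R186.Spine_700

/-!
Row 186, half (A), top (helper226): the parameters over the ground field
`k0 = Frac F₂[x₀, x₁, x₂]`, and the data `AR` (hence S0280, S0282 ... S0285) from one family of
cells over a strict dg algebra over `k0`.
-/

set_option autoImplicit false
set_option linter.style.haveILetI false

namespace Crest.Agent.R186.TopA226

/-! ### the parameters -/

/-- four independent parameters of `k0` -/
noncomputable def par0 : DefsQ830.Par Spine700.k0 where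
  g := Indep667.par 3
  p := Indep667.par 0
  q1 := Indep667.par 1
  q2 := Indep667.par 2
  g0 := Indep667.par_ne_zero 3
  p0 := Indep667.par_ne_zero 0
  q10 := Indep667.par_ne_zero 1
  q20 := Indep667.par_ne_zero 2
  two := by
    have := CharP.cast_eq_zero Indep667.k0 2
    exact_mod_cast this
  gn := by
    intro n hn h
    have h1 := Indep667.par_indep4 0 0 0 (n : ℤ) (by
      rw [zpow_zero, zpow_zero, zpow_zero, zpow_natCast, one_mul, one_mul, one_mul]
      exact h)
    omega
  ind := fun i j k h => Indep667.par_indep3 i j k h

/-- full independence of the four parameters -/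
theorem par0_ind4 (a b c d : ℤ)
    (h : par0.g ^ a * par0.p ^ b * par0.q1 ^ c * par0.q2 ^ d = 1) :
    a = 0 ∧ b = 0 ∧ c = 0 ∧ d = 0 := by
  have h1 := Indep667.par_indep4 b c d a (by
    rw [← h]
    change Indep667.par 0 ^ b * Indep667.par 1 ^ c * Indep667.par 2 ^ d * Indep667.par 3 ^ a =
      Indep667.par 3 ^ a * Indep667.par 0 ^ b * Indep667.par 1 ^ c * Indep667.par 2 ^ d
    ring)
  omega

/-! ### the data -/

/-- the null pair from cells -/
theorem null_of_cells {A : Hat827.DGA Spine700.k0} (R : Hat827.Cells A) :
    Nonempty (Spine700.Null.{0, 0} Spine700.k0) := Hat827.null R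

end Crest.Agent.R186.TopA226
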