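import Crest.Agent.R186.WinB_810
import Crest.Agent.R186.SemiFree_515

/-!
# Row 186, half (A) (helper221): graded cells over a window (generic)

`GLC w` = cells with positions and attaching elements in `w.S` (no module); `cw`, `cw_mc`, ...;
`GLC.Res X M` = `X` resolves the window module `M` (statements about homogeneous elements);
`Res.toPre : SemiFree515.Pre w.dga M.VM`.
`homEx_iff`-type statements: `X.HomEx N` (homogeneous elements) gives exactness of the Hom complex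
of the window algebra with values in `N.VM`.
-/

set_option autoImplicit false
set_option linter.style.haveILetI false

noncomputable section

namespace Crest.Agent.R186.Win810

open Hat827 WD WMod

variable {K : Type} [Field K]

instance WMod.instModDga {w : WD K} (M : WMod w) : Module w.dga.C M.VM :=
  inferInstanceAs (Module w.Win M.VM)

instance WMod.instTowerDga {w : WD K} (M : WMod w) : IsScalarTower K w.dga.C M.VM :=
  inferInstanceAs (IsScalarTower K w.Win M.VM)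

/-- graded cells over the window data `w` -/
structure GLC (w : WD K) where
  ι : Type
  s : ι → ℕ
  F : ℕ → Finset ι
  mem_F : ∀ m σ, σ ∈ F m ↔ s σ ≤ m
  o : ι → w.Ob
  c : ι → ι → w.S
  c_mem : ∀ σ τ, c σ τ ∈ w.q (o σ) (o τ) ((s σ : ℤ) - s τ - 1)
  mc : ∀ σ τ, w.D (c σ τ) + ∑ ρ ∈ F (s σ), c σ ρ * c ρ τ = 0

namespace GLC

variable {w : WD K} (X : GLC w)

/-- the attaching elements in the window algebra -/
def cw (σ τ : X.ι) : w.Win := ws (X.o σ) (X.o τ) (X.c σ τ) (q_le _ _ _ (X.c_mem σ τ))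

/-- the idempotents -/
def ew (σ : X.ι) : w.Win := WD.e (X.o σ)

theorem ew_mem (σ : X.ι) : X.ew σ ∈ w.G 0 := WD.e_mem _
theorem ew_idem (σ : X.ι) : X.ew σ * X.ew σ = X.ew σ := e_mul_e _
theorem cw_mem (σ τ : X.ι) : X.cw σ τ ∈ w.G ((X.s σ : ℤ) - X.s τ - 1) := ws_mem_G (X.c_mem σ τ)

theorem cw_apply (σ τ : X.ι) (i j : w.Ob) :
    (X.cw σ τ).1 i j = if X.o σ = i ∧ X.o τ = j then X.c σ τ else 0 := by
  unfold cw
  rw [ws_apply]

theorem cw_left (σ τ : X.ι) : X.ew σ * X.cw σ τ = X.cw σ τ := by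
  refine (row_iff _ _).2 fun i j h => ?_
  rw [cw_apply, if_neg fun h0 => h h0.1]

theorem cw_right (σ τ : X.ι) : X.cw σ τ * X.ew τ = X.cw σ τ := by
  refine (col_iff _ _).2 fun i j h => ?_
  rw [cw_apply, if_neg fun h0 => h h0.2]

theorem mul_cw_apply (σ τ : X.ι) (x : w.Win) (i l : w.Ob) :
    (x * X.cw σ τ).1 i l = if X.o τ = l then x.1 i (X.o σ) * X.c σ τ else 0 :=
  mul_ws_apply _ _ _ _

theorem cw_mul_apply (σ τ : X.ι) (x : w.Win) (i l : w.Ob) :
    (X.cw σ τ * x).1 i l = if X.o σ = i then X.c σ τ * x.1 (X.o τ) l else 0 :=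
  ws_mul_apply _ _ _ _

theorem sum_apply {κ : Type} (s : Finset κ) (f : κ → w.Win) (i j : w.Ob) :
    (∑ k ∈ s, f k).1 i j = ∑ k ∈ s, (f k).1 i j := by
  classical
  induction s using Finset.induction_on with
  | empty => rfl
  | insert a s ha ih =>
    rw [Finset.sum_insert ha, Finset.sum_insert ha, ← ih]
    rfl

theorem vsum_apply {M : WMod w} {κ : Type} (s : Finset κ) (f : κ → M.VM) (i : w.Ob) :
    ((∑ k ∈ s, f k : M.VM) i).1 = ∑ k ∈ s, (f k i).1 := by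
  classical
  induction s using Finset.induction_on with
  | empty => rfl
  | insert a s ha ih =>
    rw [Finset.sum_insert ha, Finset.sum_insert ha, ← ih]
    rfl

theorem cw_smul {M : WMod w} (σ τ : X.ι) (u : M.VM) (l : w.Ob) :
    ((X.cw σ τ • u : M.VM) l).1 = if X.o σ = l then M.rho (X.c σ τ) (u (X.o τ)).1 else 0 :=
  M.ws_smul _ _ _

theorem rho_sum_col {M : WMod w} (x : w.Win) (o : w.Ob) (u : M.V) (hu : u ∈ M.W o) (i : w.Ob) :
    ((x • M.mkV o u hu : M.VM) i).1 = M.rho (x.1 i o) u := by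
  rw [WMod.smul_apply, Finset.sum_eq_single o]
  · rw [mkV_apply, if_pos rfl]
  · intro j _ hj
    rw [mkV_apply, if_neg (Ne.symm hj), map_zero]
  · intro h
    exact absurd (Finset.mem_univ _) h

theorem cw_mc (σ τ : X.ι) :
    w.DW (X.cw σ τ) + ∑ ρ ∈ X.F (X.s σ), X.cw σ ρ * X.cw ρ τ = 0 := by
  apply Subtype.ext
  ext i j
  change w.D ((X.cw σ τ).1 i j) + (∑ ρ ∈ X.F (X.s σ), X.cw σ ρ * X.cw ρ τ).1 i j = 0
  rw [sum_apply]
  have h1 : ∀ ρ, (X.cw σ ρ * X.cw ρ τ).1 i j =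
      if X.o σ = i ∧ X.o τ = j then X.c σ ρ * X.c ρ τ else 0 := by
    intro ρ
    rw [cw_mul_apply, cw_apply]
    by_cases h : X.o σ = i
    · by_cases h' : X.o τ = j
      · simp [h, h']
      · simp [h']
    · simp [h]
  simp only [h1]
  rw [cw_apply]
  by_cases h : X.o σ = i ∧ X.o τ = j
  · simp only [if_pos h]
    exact X.mc σ τ
  · simp only [if_neg h, map_zero, Finset.sum_const_zero, add_zero]

/-- `X` resolves the window module `M` -/
structure Res (M : WMod w) where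
  v : X.ι → M.V
  v_mem : ∀ σ, v σ ∈ M.W (X.o σ)
  v_zero : ∀ σ, X.s σ ≠ 0 → v σ = 0
  v_aug : ∀ σ, X.s σ = 1 → ∑ τ ∈ X.F 0, M.rho (X.c σ τ) (v τ) = 0
  exR : ∀ (m : ℕ) (i : w.Ob) (x : X.ι → w.S), (∀ σ, x σ ∈ w.q i (X.o σ) ((m : ℤ) + 1 - X.s σ)) →
    (∀ τ, w.D (x τ) + ∑ σ ∈ X.F (m + 1), x σ * X.c σ τ = 0) →
    ∃ y : X.ι → w.S, (∀ σ, y σ ∈ w.q i (X.o σ) ((m : ℤ) + 2 - X.s σ)) ∧
      ∀ τ, x τ = w.D (y τ) + ∑ σ ∈ X.F (m + 2), y σ * X.c σ τ
  exR0 : ∀ (i : w.Ob) (x : X.ι → w.S), (∀ σ, x σ ∈ w.q i (X.o σ) (-(X.s σ : ℤ))) →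
    ∑ σ ∈ X.F 0, M.rho (x σ) (v σ) = 0 →
    ∃ y : X.ι → w.S, (∀ σ, y σ ∈ w.q i (X.o σ) ((1 : ℤ) - X.s σ)) ∧
      ∀ τ, x τ = w.D (y τ) + ∑ σ ∈ X.F 1, y σ * X.c σ τ
  gen : ∀ (i : w.Ob) (u : M.V), u ∈ M.W i →
    ∃ x : X.ι → w.S, (∀ σ, x σ ∈ w.q i (X.o σ) (-(X.s σ : ℤ))) ∧
      ∑ σ ∈ X.F 0, M.rho (x σ) (v σ) = u

namespace Res

variable {X} {M : WMod w} (R : X.Res M)

/-- **graded resolution ⟹ resolution over the window algebra** -/
def toPre : SemiFree515.Pre w.dga M.VM where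
  ι := X.ι
  s := X.s
  F := X.F
  mem_F := X.mem_F
  e := X.ew
  e_mem := X.ew_mem
  e_idem := X.ew_idem
  c := X.cw
  c_mem := X.cw_mem
  c_left := X.cw_left
  c_right := X.cw_right
  mc := X.cw_mc
  v σ := M.mkV (X.o σ) (R.v σ) (R.v_mem σ)
  v_e σ := by
    refine (M.e_smul_iff _ _).2 fun j hj => ?_
    rw [mkV_apply, if_neg hj]
  v_zero σ hσ := by
    apply M.vext
    intro i
    rw [mkV_apply, R.v_zero σ hσ]
    split_ifs <;> rfl
  v_aug σ hσ := by
    apply M.vext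
    intro i
    change ((∑ τ ∈ X.F 0, (X.cw σ τ • M.mkV (X.o τ) (R.v τ) (R.v_mem τ) : M.VM) : M.VM) i).1 = 0
    rw [vsum_apply]
    have h1 : ∀ τ, ((X.cw σ τ • M.mkV (X.o τ) (R.v τ) (R.v_mem τ) : M.VM) i).1 =
        if X.o σ = i then M.rho (X.c σ τ) (R.v τ) else 0 := by
      intro τ
      rw [cw_smul, mkV_apply, if_pos rfl]
    simp only [h1]
    by_cases h : X.o σ = i
    · simp only [if_pos h]
      exact R.v_aug σ hσ
    · simp only [if_neg h, Finset.sum_const_zero]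
  exR := by
    intro m x hx hxe hc
    change X.ι → w.Win at x
    have key := fun i : w.Ob => R.exR m i (fun σ => (x σ).1 i (X.o σ)) (fun σ => hx σ i (X.o σ))
      (fun τ => by
        have h := congrArg (fun z : w.Win => z.1 i (X.o τ)) (hc τ)
        change w.D ((x τ).1 i (X.o τ)) + (∑ σ ∈ X.F (m + 1), x σ * X.cw σ τ).1 i (X.o τ) = 0 at h
        rw [sum_apply] at h
        simpa only [mul_cw_apply, if_true] using h)
    choose y hy hxy using key
    refine ⟨fun σ => mkCol (X.o σ) (fun i => y i σ) (fun i => q_le _ _ _ (hy i σ)), ?_, ?_, ?_⟩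
    · intro σ i l
      change (mkCol (X.o σ) (fun i => y i σ) _).1 i l ∈ _
      rw [mkCol_apply]
      split_ifs with h
      · subst h
        exact hy i σ
      · exact Submodule.zero_mem _
    · intro σ
      refine (col_iff _ _).2 fun i j h => ?_
      rw [mkCol_apply, if_neg h]
    · intro τ
      apply Subtype.ext
      ext i l
      change (x τ).1 i l = w.D ((mkCol (X.o τ) (fun i => y i τ) _).1 i l) +
        (∑ σ ∈ X.F (m + 2), mkCol (X.o σ) (fun i => y i σ) _ * X.cw σ τ).1 i l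
      rw [sum_apply]
      simp only [mul_cw_apply, mkCol_apply, if_true]
      by_cases h : X.o τ = l
      · subst h
        simp only [if_true]
        exact hxy i τ
      · simp only [if_neg h, map_zero, Finset.sum_const_zero, add_zero]
        exact (col_iff _ _).1 (hxe τ) i l h
  exR0 := by
    intro x hx hxe hc
    change X.ι → w.Win at x
    have key := fun i : w.Ob => R.exR0 i (fun σ => (x σ).1 i (X.o σ)) (fun σ => hx σ i (X.o σ))
      (by
        have h := congrArg (fun z : M.VM => (z i).1) hc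
        change ((∑ σ ∈ X.F 0, (x σ • M.mkV (X.o σ) (R.v σ) (R.v_mem σ) : M.VM) : M.VM) i).1 = 0 at h
        rw [vsum_apply] at h
        simpa only [rho_sum_col] using h)
    choose y hy hxy using key
    refine ⟨fun σ => mkCol (X.o σ) (fun i => y i σ) (fun i => q_le _ _ _ (hy i σ)), ?_, ?_, ?_⟩
    · intro σ i l
      change (mkCol (X.o σ) (fun i => y i σ) _).1 i l ∈ _
      rw [mkCol_apply]
      split_ifs with h
      · subst h
        exact hy i σ
      · exact Submodule.zero_mem _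
    · intro σ
      refine (col_iff _ _).2 fun i j h => ?_
      rw [mkCol_apply, if_neg h]
    · intro τ
      apply Subtype.ext
      ext i l
      change (x τ).1 i l = w.D ((mkCol (X.o τ) (fun i => y i τ) _).1 i l) +
        (∑ σ ∈ X.F 1, mkCol (X.o σ) (fun i => y i σ) _ * X.cw σ τ).1 i l
      rw [sum_apply]
      simp only [mul_cw_apply, mkCol_apply, if_true]
      by_cases h : X.o τ = l
      · subst h
        simp only [if_true]
        exact hxy i τ
      · simp only [if_neg h, map_zero, Finset.sum_const_zero, add_zero]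
        exact (col_iff _ _).1 (hxe τ) i l h
  gen := by
    intro u
    have key := fun i : w.Ob => R.gen i (u i).1 (u i).2
    choose x hx hu using key
    refine ⟨fun σ => mkCol (X.o σ) (fun i => x i σ) (fun i => q_le _ _ _ (hx i σ)), ?_, ?_⟩
    · intro σ i l
      change (mkCol (X.o σ) (fun i => x i σ) _).1 i l ∈ _
      rw [mkCol_apply]
      split_ifs with h
      · subst h
        exact hx i σ
      · exact Submodule.zero_mem _
    · apply M.vext
      intro i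
      change ((∑ σ ∈ X.F 0, (mkCol (X.o σ) (fun i => x i σ) _ •
        M.mkV (X.o σ) (R.v σ) (R.v_mem σ) : M.VM) : M.VM) i).1 = _
      rw [vsum_apply]
      simp only [rho_sum_col, mkCol_apply, if_true]
      exact hu i

end Res

/-- exactness of `Hom(X, N)` in all degrees, homogeneous elements -/
def HomEx (N : WMod w) : Prop :=
  (∀ (m : ℕ) (φ : X.ι → N.V), (∀ σ, φ σ ∈ N.W (X.o σ)) → (∀ σ, X.s σ ≠ m + 1 → φ σ = 0) →
    (∀ σ, X.s σ = m + 2 → ∑ τ ∈ X.F (m + 1), N.rho (X.c σ τ) (φ τ) = 0) →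
    ∃ ψ : X.ι → N.V, (∀ σ, ψ σ ∈ N.W (X.o σ)) ∧ (∀ σ, X.s σ ≠ m → ψ σ = 0) ∧
      ∀ σ, X.s σ = m + 1 → φ σ = ∑ τ ∈ X.F m, N.rho (X.c σ τ) (ψ τ)) ∧
  (∀ φ : X.ι → N.V, (∀ σ, φ σ ∈ N.W (X.o σ)) → (∀ σ, X.s σ ≠ 0 → φ σ = 0) →
    (∀ σ, X.s σ = 1 → ∑ τ ∈ X.F 0, N.rho (X.c σ τ) (φ τ) = 0) → φ = 0)

variable {X} in
/-- **exactness of `Hom(X, N)` over the window algebra**, positive degrees -/
theorem HomEx.pos {N : WMod w} (h : X.HomEx N) (m : ℕ) (φ : X.ι → N.VM)
    (h0 : ∀ σ, X.s σ ≠ m + 1 → φ σ = 0) (he : ∀ σ, X.ew σ • φ σ = φ σ)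
    (hc : ∀ σ, X.s σ = m + 2 → ∑ τ ∈ X.F (m + 1), X.cw σ τ • φ τ = 0) :
    ∃ ψ : X.ι → N.VM, (∀ σ, X.s σ ≠ m → ψ σ = 0) ∧ (∀ σ, X.ew σ • ψ σ = ψ σ) ∧
      ∀ σ, X.s σ = m + 1 → φ σ = ∑ τ ∈ X.F m, X.cw σ τ • ψ τ := by
  have hφ : ∀ σ j, X.o σ ≠ j → (φ σ j).1 = 0 := fun σ => (N.e_smul_iff _ _).1 (he σ)
  have hφ0 : ∀ σ, X.s σ ≠ m + 1 → ∀ j, (φ σ j).1 = 0 := by
    intro σ hσ j
    rw [h0 σ hσ]
    rfl
  obtain ⟨ψ, hψ, hψ0, hh⟩ := h.1 m (fun σ => (φ σ (X.o σ)).1) (fun σ => (φ σ (X.o σ)).2)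
    (fun σ hσ => hφ0 σ hσ _) (fun σ hσ => by
      have h := congrArg (fun z : N.VM => (z (X.o σ)).1) (hc σ hσ)
      change ((∑ τ ∈ X.F (m + 1), (X.cw σ τ • φ τ : N.VM) : N.VM) (X.o σ)).1 = 0 at h
      rw [vsum_apply] at h
      simpa only [cw_smul, if_true] using h)
  refine ⟨fun σ => N.mkV (X.o σ) (ψ σ) (hψ σ), ?_, ?_, ?_⟩
  · intro σ hσ
    apply N.vext
    intro i
    rw [mkV_apply, hψ0 σ hσ]
    split_ifs <;> rfl
  · intro σ
    refine (N.e_smul_iff _ _).2 fun j hj => ?_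
    rw [mkV_apply, if_neg hj]
  · intro σ hσ
    apply N.vext
    intro i
    change _ = ((∑ τ ∈ X.F m, (X.cw σ τ • N.mkV (X.o τ) (ψ τ) (hψ τ) : N.VM) : N.VM) i).1
    rw [vsum_apply]
    simp only [cw_smul, mkV_apply, if_true]
    by_cases h : X.o σ = i
    · subst h
      simp only [if_true]
      exact hh σ hσ
    · simp only [if_neg h, Finset.sum_const_zero]
      exact hφ σ i h

variable {X} in
/-- **exactness of `Hom(X, N)` over the window algebra**, degree zero -/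
theorem HomEx.zero {N : WMod w} (h : X.HomEx N) (φ : X.ι → N.VM)
    (h0 : ∀ σ, X.s σ ≠ 0 → φ σ = 0) (he : ∀ σ, X.ew σ • φ σ = φ σ)
    (hc : ∀ σ, X.s σ = 1 → ∑ τ ∈ X.F 0, X.cw σ τ • φ τ = 0) : φ = 0 := by
  have hφ : ∀ σ j, X.o σ ≠ j → (φ σ j).1 = 0 := fun σ => (N.e_smul_iff _ _).1 (he σ)
  have key := h.2 (fun σ => (φ σ (X.o σ)).1) (fun σ => (φ σ (X.o σ)).2)
    (fun σ hσ => by rw [h0 σ hσ]; rfl) (fun σ hσ => by
      have h := congrArg (fun z : N.VM => (z (X.o σ)).1) (hc σ hσ)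
      change ((∑ τ ∈ X.F 0, (X.cw σ τ • φ τ : N.VM) : N.VM) (X.o σ)).1 = 0 at h
      rw [vsum_apply] at h
      simpa only [cw_smul, if_true] using h)
  funext σ
  apply N.vext
  intro i
  by_cases hi : X.o σ = i
  · subst hi
    exact congrFun key σ
  · exact hφ σ i hi

end GLC

end Crest.Agent.R186.Win810
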