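import Crest.Agent.R186.InvV_439
import Crest.Agent.R186.Cells1_221

/-!
# Row 186, half (A) (helper439): the sixteen cells with values in the INVERSE polynomials

Mirror of `Cells_221` (same `Cell`, `cdeg`, `cP`, `Sup`, `pr`) for the modules `V_m`, `m ≤ -2`
(`= x_0⁻¹ x_1⁻¹ K[x_0⁻¹, x_1⁻¹]`, `InvV_439`): `D0I π` = the Hom complex of the 16-cell resolution
with values there.  `exactI_pos`, `exactI_zero`: it is exact for every `m ≤ -2`.
`D0I_eq`: `D0I` is the table `cf` of `Cells1_221` acting through `repI`.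
-/

set_option autoImplicit false

namespace Crest.Agent.R186.Inv439

open Crest.Agent.R186.VOp220 Crest.Agent.R186.DefsQ830 Crest.Agent.R186.Vmod220
open Crest.Agent.R186.Cells221 Crest.Agent.R186.Der580
open Crest.Agent.R186.PBW128 (E)

variable {K : Type} [Field K] (π : Par K)

/-- the operator of `x_i` -/
noncomputable def XXI (K : Type) [Field K] (i : Fin 2) : Pol K →ₗ[K] Pol K := if i = 0 then S0 else S1
/-- the operator of `d_j` -/
noncomputable def EEI (g : K) (j : Fin 2) : Pol K →ₗ[K] Pol K := if j = 0 then F0 g else F1 g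
/-- the operator of `t` -/
noncomputable def TTI (g : K) : Pol K →ₗ[K] Pol K :=
  LinearMap.id + (g - 1) • (F0 g ∘ₗ S0 + F1 g ∘ₗ S1)

/-- the components of the differential -/
noncomputable def D0Ic : Cell → ((Cell → Pol K) →ₗ[K] Pol K)
  | none => 0
  | some (.d j) => EEI π.g j ∘ₗ pj K none
  | some .f => 0
  | some (.z j) => XXI K j ∘ₗ (F1 π.g ∘ₗ pj K (some (.d 0)) + π.g • (F0 π.g ∘ₗ pj K (some (.d 1))))
  | some .zc => S0 ∘ₗ pj K (some (.z 1)) + S1 ∘ₗ pj K (some (.z 0)) + pj K (some .f)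
  | some (.u _) => 0
  | some (.e j) => π.c j • (EEI π.g j ∘ₗ pj K (some .f))
  | some (.gj j) => (π.c j)⁻¹ • (XXI K j ∘ₗ
      (π.g • (F1 π.g ∘ₗ pj K (some (.e 0))) + π.g ^ 3 • (F0 π.g ∘ₗ pj K (some (.e 1)))))
  | some .gc => (π.c 0)⁻¹ • (S0 ∘ₗ pj K (some (.gj 1))) + (π.c 1)⁻¹ • (S1 ∘ₗ pj K (some (.gj 0)))
  | some (.v s) => (TTI π.g + (π.g ^ 2)⁻¹ • LinearMap.id) ∘ₗ pj K (some (.u s))

/-- the differential of the Hom complex with values in the inverse polynomials -/
noncomputable def D0I : (Cell → Pol K) →ₗ[K] (Cell → Pol K) := LinearMap.pi (D0Ic π)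

section formulas

variable (φ : Cell → Pol K)

@[simp] lemma D0I_none : D0I π φ none = 0 := rfl
@[simp] lemma D0I_d0 : D0I π φ (some (.d 0)) = F0 π.g (φ none) := rfl
@[simp] lemma D0I_d1 : D0I π φ (some (.d 1)) = F1 π.g (φ none) := rfl
@[simp] lemma D0I_f : D0I π φ (some .f) = 0 := rfl
@[simp] lemma D0I_z0 : D0I π φ (some (.z 0)) =
    S0 (F1 π.g (φ (some (.d 0))) + π.g • F0 π.g (φ (some (.d 1)))) := rfl
@[simp] lemma D0I_z1 : D0I π φ (some (.z 1)) =
    S1 (F1 π.g (φ (some (.d 0))) + π.g • F0 π.g (φ (some (.d 1)))) := rfl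
@[simp] lemma D0I_zc : D0I π φ (some .zc) =
    S0 (φ (some (.z 1))) + S1 (φ (some (.z 0))) + φ (some .f) := rfl
@[simp] lemma D0I_u (s : Fin 2) : D0I π φ (some (.u s)) = 0 := rfl
@[simp] lemma D0I_e0 : D0I π φ (some (.e 0)) = π.c 0 • F0 π.g (φ (some .f)) := rfl
@[simp] lemma D0I_e1 : D0I π φ (some (.e 1)) = π.c 1 • F1 π.g (φ (some .f)) := rfl
@[simp] lemma D0I_gj0 : D0I π φ (some (.gj 0)) = (π.c 0)⁻¹ •
    S0 (π.g • F1 π.g (φ (some (.e 0))) + π.g ^ 3 • F0 π.g (φ (some (.e 1)))) := rfl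
@[simp] lemma D0I_gj1 : D0I π φ (some (.gj 1)) = (π.c 1)⁻¹ •
    S1 (π.g • F1 π.g (φ (some (.e 0))) + π.g ^ 3 • F0 π.g (φ (some (.e 1)))) := rfl
@[simp] lemma D0I_gc : D0I π φ (some .gc) =
    (π.c 0)⁻¹ • S0 (φ (some (.gj 1))) + (π.c 1)⁻¹ • S1 (φ (some (.gj 0))) := rfl
@[simp] lemma D0I_v (s : Fin 2) : D0I π φ (some (.v s)) =
    TTI π.g (φ (some (.u s))) + (π.g ^ 2)⁻¹ • φ (some (.u s)) := rfl

end formulas

/-- the cochains with values in `V_m` -/
def CVI (K : Type) [Field K] (m : ℤ) : Submodule K (Cell → Pol K) where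
  carrier := {φ | ∀ c, φ c ∈ homI K (m + 1 + cP c)}
  add_mem' ha hb c := Submodule.add_mem _ (ha c) (hb c)
  zero_mem' _ := Submodule.zero_mem _
  smul_mem' r _ ha c := Submodule.smul_mem _ r (ha c)

/-- `D0I` preserves the values in `V_m` -/
lemma D0I_mem {m : ℤ} {φ : Cell → Pol K} (h : φ ∈ CVI K m) : D0I π φ ∈ CVI K m := by
  have hX0 : ∀ {n : ℤ} {v : Pol K}, v ∈ homI K (n - 1) → S0 v ∈ homI K n := fun hv => by
    have := S0_homI hv; rwa [sub_add_cancel] at this
  have hX1 : ∀ {n : ℤ} {v : Pol K}, v ∈ homI K (n - 1) → S1 v ∈ homI K n := fun hv => by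
    have := S1_homI hv; rwa [sub_add_cancel] at this
  have e1 : ∀ c : Cell, cP c = -1 → φ c ∈ homI K m := fun c hc => by
    have := h c; rw [hc] at this; simpa using this
  have e0 : ∀ c : Cell, cP c = 0 → φ c ∈ homI K (m + 1) := fun c hc => by
    have := h c; rw [hc] at this; simpa using this
  have g1 : ∀ {v : Pol K}, v ∈ homI K (m + 1) → v ∈ homI K (m + 1 + 0) := fun hv => by simpa using hv
  have g2 : ∀ {v : Pol K}, v ∈ homI K m → v ∈ homI K (m + 1 + -1) := fun hv => by simpa using hv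
  have hE0 : ∀ {v : Pol K}, v ∈ homI K (m + 1) → F0 π.g v ∈ homI K m := fun hv => by
    have := F0_homI (g := π.g) hv; simpa using this
  have hE1 : ∀ {v : Pol K}, v ∈ homI K (m + 1) → F1 π.g v ∈ homI K m := fun hv => by
    have := F1_homI (g := π.g) hv; simpa using this
  intro c
  rcases c with _ | c
  · exact Submodule.zero_mem _
  cases c with
  | d j =>
    fin_cases j
    · exact g2 (hE0 (e0 none rfl))
    · exact g2 (hE1 (e0 none rfl))
  | f => exact Submodule.zero_mem _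
  | z j =>
    have hc : F1 π.g (φ (some (.d 0))) + π.g • F0 π.g (φ (some (.d 1))) ∈ homI K (m - 1) :=
      Submodule.add_mem _ (F1_homI (e1 _ rfl)) (Submodule.smul_mem _ _ (F0_homI (e1 _ rfl)))
    fin_cases j
    · exact g2 (hX0 hc)
    · exact g2 (hX1 hc)
  | zc =>
    exact g1 (Submodule.add_mem _ (Submodule.add_mem _ (S0_homI (e1 _ rfl)) (S1_homI (e1 _ rfl)))
      (e0 _ rfl))
  | u s => exact Submodule.zero_mem _
  | e j =>
    fin_cases j
    · exact g2 (Submodule.smul_mem _ _ (hE0 (e0 _ rfl)))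
    · exact g2 (Submodule.smul_mem _ _ (hE1 (e0 _ rfl)))
  | gj j =>
    have hc : π.g • F1 π.g (φ (some (.e 0))) + π.g ^ 3 • F0 π.g (φ (some (.e 1))) ∈ homI K (m - 1) :=
      Submodule.add_mem _ (Submodule.smul_mem _ _ (F1_homI (e1 _ rfl)))
        (Submodule.smul_mem _ _ (F0_homI (e1 _ rfl)))
    fin_cases j
    · exact g2 (Submodule.smul_mem _ _ (hX0 hc))
    · exact g2 (Submodule.smul_mem _ _ (hX1 hc))
  | gc =>
    exact g1 (Submodule.add_mem _ (Submodule.smul_mem _ _ (S0_homI (e1 _ rfl)))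
      (Submodule.smul_mem _ _ (S1_homI (e1 _ rfl))))
  | v s =>
    have hu : φ (some (.u s)) ∈ homI K (m + 1) := e0 _ rfl
    have hT : TTI π.g (φ (some (.u s))) ∈ homI K (m + 1) := by
      refine Submodule.add_mem _ hu (Submodule.smul_mem _ _ (Submodule.add_mem _ ?_ ?_))
      · have := F0_homI (g := π.g) (S0_homI hu); rwa [add_sub_cancel_right] at this
      · have := F1_homI (g := π.g) (S1_homI hu); rwa [add_sub_cancel_right] at this
    exact g1 (Submodule.add_mem _ hT (Submodule.smul_mem _ _ hu))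

/-- `D0I ∘ D0I = 0` -/
theorem D0I_D0I (φ : Cell → Pol K) : D0I π (D0I π φ) = 0 := by
  have hc : ∀ v : Pol K, F1 π.g (F0 π.g v) + π.g • F0 π.g (F1 π.g v) = 0 := fun v => by
    rw [FI_curl_grad, add_self' π]
  have h2 : π.g • F1 π.g (π.c 0 • F0 π.g (φ (some .f)))
      + π.g ^ 3 • F0 π.g (π.c 1 • F1 π.g (φ (some .f))) = 0 := by
    rw [c0, c1, map_smul, map_smul, smul_smul, smul_smul, FI_curl_grad, smul_smul,
      show π.g * π.g ^ 2 * π.g = π.g ^ 3 * π.g by ring, add_self' π]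
  funext c
  rcases c with _ | c
  · rfl
  cases c with
  | d j => rcases f2 j with rfl | rfl <;> simp
  | f => rfl
  | z j => rcases f2 j with rfl | rfl <;>
      simp only [D0I_z0, D0I_z1, D0I_d0, D0I_d1, hc, map_zero, Pi.zero_apply]
  | zc =>
    simp only [D0I_zc, D0I_z1, D0I_z0, D0I_f, add_zero, Pi.zero_apply]
    rw [SI_comm, add_self' π]
  | u s => rfl
  | e j => rcases f2 j with rfl | rfl <;> simp
  | gj j =>
    rcases f2 j with rfl | rfl
    · rw [D0I_gj0, D0I_e0, D0I_e1, h2, map_zero, smul_zero, Pi.zero_apply]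
    · rw [D0I_gj1, D0I_e0, D0I_e1, h2, map_zero, smul_zero, Pi.zero_apply]
  | gc =>
    simp only [D0I_gc, D0I_gj1, D0I_gj0, map_smul, Pi.zero_apply]
    rw [SI_comm, smul_smul, smul_smul, mul_comm (π.c 1)⁻¹, add_self' π]
  | v s => simp

/-! ### degrees -/

lemma pr_memI (n : ℕ) {m : ℤ} {φ : Cell → Pol K} (h : φ ∈ CVI K m) : pr K n φ ∈ CVI K m := by
  intro c
  rw [pr_apply]
  split_ifs
  · exact h c
  · exact Submodule.zero_mem _

/-- `D0I` raises the cell degree by one -/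
lemma D0I_pr (n : ℕ) (φ : Cell → Pol K) : D0I π (pr K n φ) = pr K (n + 1) (D0I π φ) := by
  funext c
  rcases c with _ | c
  · rw [pr_apply]; simp
  have P : ∀ {a c : Cell}, cdeg a + 1 = cdeg c → cdeg c = n + 1 → cdeg a = n := fun h h' => by omega
  have Q : ∀ {a c : Cell}, cdeg a + 1 = cdeg c → ¬ cdeg c = n + 1 → ¬ cdeg a = n := fun h h' => by omega
  by_cases h : cdeg (some c) = n + 1
  · rw [pr_pos _ h]
    cases c with
    | d j => rcases f2 j with rfl | rfl <;> simp only [D0I_d0, D0I_d1, pr_pos φ (P (a := none) rfl h)]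
    | f => simp
    | z j =>
      rcases f2 j with rfl | rfl <;> simp only [D0I_z0, D0I_z1, pr_pos φ (P (a := some (.d 0)) rfl h),
        pr_pos φ (P (a := some (.d 1)) rfl h)]
    | zc => simp only [D0I_zc, pr_pos φ (P (a := some (.z 0)) rfl h), pr_pos φ (P (a := some (.z 1)) rfl h),
        pr_pos φ (P (a := some .f) rfl h)]
    | u s => simp
    | e j => rcases f2 j with rfl | rfl <;> simp only [D0I_e0, D0I_e1, pr_pos φ (P (a := some .f) rfl h)]
    | gj j =>
      rcases f2 j with rfl | rfl <;> simp only [D0I_gj0, D0I_gj1, pr_pos φ (P (a := some (.e 0)) rfl h),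
        pr_pos φ (P (a := some (.e 1)) rfl h)]
    | gc => simp only [D0I_gc, pr_pos φ (P (a := some (.gj 0)) rfl h), pr_pos φ (P (a := some (.gj 1)) rfl h)]
    | v s =>
      have h1 : cdeg (some (.u s)) + 1 = cdeg (some (.v s)) := by simp [cdeg]; omega
      simp only [D0I_v, pr_pos φ (P h1 h)]
  · rw [pr_neg _ h]
    cases c with
    | d j => rcases f2 j with rfl | rfl <;> simp only [D0I_d0, D0I_d1, pr_neg φ (Q (a := none) rfl h), map_zero]
    | f => simp
    | z j =>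
      rcases f2 j with rfl | rfl <;> simp only [D0I_z0, D0I_z1, pr_neg φ (Q (a := some (.d 0)) rfl h),
        pr_neg φ (Q (a := some (.d 1)) rfl h), map_zero, smul_zero, add_zero]
    | zc => simp only [D0I_zc, pr_neg φ (Q (a := some (.z 0)) rfl h), pr_neg φ (Q (a := some (.z 1)) rfl h),
        pr_neg φ (Q (a := some .f) rfl h), map_zero, add_zero]
    | u s => simp
    | e j =>
      rcases f2 j with rfl | rfl <;> simp only [D0I_e0, D0I_e1, pr_neg φ (Q (a := some .f) rfl h), map_zero,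
        smul_zero]
    | gj j =>
      rcases f2 j with rfl | rfl <;> simp only [D0I_gj0, D0I_gj1, pr_neg φ (Q (a := some (.e 0)) rfl h),
        pr_neg φ (Q (a := some (.e 1)) rfl h), map_zero, smul_zero, add_zero]
    | gc => simp only [D0I_gc, pr_neg φ (Q (a := some (.gj 0)) rfl h),
        pr_neg φ (Q (a := some (.gj 1)) rfl h), map_zero, smul_zero, add_zero]
    | v s =>
      have h1 : cdeg (some (.u s)) + 1 = cdeg (some (.v s)) := by simp [cdeg]; omega
      simp only [D0I_v, pr_neg φ (Q h1 h), map_zero, smul_zero, add_zero]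

lemma D0I_sup {n : ℕ} {φ : Cell → Pol K} (h : φ ∈ Sup K n) : D0I π φ ∈ Sup K (n + 1) := by
  rw [← pr_of_sup h, D0I_pr]
  exact pr_sup _ _

/-! ### exactness -/

section exact

variable {π}

/-- the scalar of `v ↦ u` in degree `-n-2`, `n = k - 1` -/
lemma tauI_ne (k : ℕ) : π.g ^ k + (π.g ^ 2)⁻¹ ≠ 0 := by
  intro h
  have hg := π.g0
  have h1 : π.g ^ k + (π.g ^ 2)⁻¹ = (π.g ^ 2)⁻¹ * (π.g ^ (k + 2) - 1) + 2 * (π.g ^ 2)⁻¹ := by
    rw [pow_add]; field_simp; ring
  rw [h1, π.two, zero_mul, add_zero] at h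
  have h2 : π.g ^ (k + 2) - 1 = 0 :=
    (mul_eq_zero.1 h).resolve_left (inv_ne_zero (pow_ne_zero _ hg))
  exact π.gn (k + 2) (by omega) (by linear_combination h2)

lemma TTIv {k : ℕ} {v : Pol K} (hv : v ∈ hom K (k : ℤ)) :
    TTI π.g v + (π.g ^ 2)⁻¹ • v = (π.g ^ k + (π.g ^ 2)⁻¹) • v := by
  have h : TTI π.g v = π.g ^ k • v := by
    have := tI_hom π.g0 hv
    simpa [TTI] using this
  rw [h, add_smul]

/-- **the Hom complex of the sixteen cells with values in `V_m` is exact for `m ≤ -2`** -/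
theorem exactI_pos0 {m : ℤ} (hm : m ≤ -2) {φ : Cell → Pol K} (hφ : φ ∈ CVI K m) (h : D0I π φ = 0) :
    ∃ ψ ∈ CVI K m, D0I π ψ = φ := by
  have hg := π.g0
  have hgn := π.gn
  have e1 : ∀ c : Cell, cP c = -1 → φ c ∈ homI K m := fun c hc => by
    have := hφ c; rw [hc] at this; simpa using this
  have e0 : ∀ c : Cell, cP c = 0 → φ c ∈ homI K (m + 1) := fun c hc => by
    have := hφ c; rw [hc] at this; simpa using this
  have H : ∀ c, D0I π φ c = 0 := fun c => by rw [h]; rfl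
  have c0n : π.c 0 ≠ 0 := by rw [c0]; exact pow_ne_zero _ hg
  have c1n : π.c 1 ≠ 0 := by rw [c1]; exact hg
  -- cell 1
  have k1 : φ none = 0 := F0_inj hg hgn (by simpa using H (some (.d 0)))
  -- d
  have kd : F1 π.g (φ (some (.d 0))) = π.g • F0 π.g (φ (some (.d 1))) := by
    apply eq_of_add π
    refine SI_inj hm ?_ (by simpa using H (some (.z 0))) (by simpa using H (some (.z 1)))
    exact Submodule.add_mem _ (F1_homI (e1 _ rfl)) (Submodule.smul_mem _ _ (F0_homI (e1 _ rfl)))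
  obtain ⟨a, ha, ha0, ha1⟩ := FI_curl_exact hg hgn (e1 _ rfl) kd
  -- f
  have kf : φ (some .f) = 0 := by
    have := H (some (.e 0))
    rw [D0I_e0, smul_eq_zero] at this
    exact F0_inj hg hgn (this.resolve_left c0n)
  -- z
  have kz : S0 (φ (some (.z 1))) = S1 (φ (some (.z 0))) := by
    apply eq_of_add π
    have := H (some .zc)
    rwa [D0I_zc, kf, add_zero] at this
  obtain ⟨s, hs, hs0, hs1⟩ := SI_koszul_mid (e1 (some (.z 0)) rfl) (e1 (some (.z 1)) rfl) kz
  obtain ⟨w0, hw0, w1, hw1, hws⟩ := FI_curl_surj hg hgn hm hs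
  -- e
  have ke : F1 π.g ((π.c 0)⁻¹ • φ (some (.e 0))) = π.g • F0 π.g ((π.c 1)⁻¹ • φ (some (.e 1))) := by
    have h3 : π.g • F1 π.g (φ (some (.e 0))) = π.g ^ 3 • F0 π.g (φ (some (.e 1))) := by
      apply eq_of_add π
      have q0 := H (some (.gj 0))
      have q1 := H (some (.gj 1))
      rw [D0I_gj0, smul_eq_zero] at q0
      rw [D0I_gj1, smul_eq_zero] at q1
      refine SI_inj hm ?_ (q0.resolve_left (inv_ne_zero c0n)) (q1.resolve_left (inv_ne_zero c1n))
      exact Submodule.add_mem _ (Submodule.smul_mem _ _ (F1_homI (e1 _ rfl)))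
        (Submodule.smul_mem _ _ (F0_homI (e1 _ rfl)))
    rw [map_smul, map_smul, c0, c1, smul_smul, mul_inv_cancel₀ hg, one_smul]
    calc (π.g ^ 2)⁻¹ • F1 π.g (φ (some (.e 0)))
        = ((π.g ^ 3)⁻¹) • (π.g • F1 π.g (φ (some (.e 0)))) := by
          rw [smul_smul]; congr 1; field_simp
      _ = F0 π.g (φ (some (.e 1))) := by
          rw [h3, smul_smul, inv_mul_cancel₀ (pow_ne_zero _ hg), one_smul]
  obtain ⟨b, hb, hb0, hb1⟩ := FI_curl_exact hg hgn
    (Submodule.smul_mem _ (π.c 0)⁻¹ (e1 (some (.e 0)) rfl)) ke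
  -- z_c
  obtain ⟨z1, hz1, hz⟩ := SI_surj (K := K) (m := m) (Submodule.add_mem _ (e0 (some .zc) rfl) hb)
  -- g_j
  have kg : S0 ((π.c 0)⁻¹ • φ (some (.gj 1))) = S1 ((π.c 1)⁻¹ • φ (some (.gj 0))) := by
    apply eq_of_add π
    rw [map_smul, map_smul]
    exact H (some .gc)
  obtain ⟨q, hq, hq0, hq1⟩ := SI_koszul_mid (Submodule.smul_mem _ (π.c 1)⁻¹ (e1 (some (.gj 0)) rfl))
    (Submodule.smul_mem _ (π.c 0)⁻¹ (e1 (some (.gj 1)) rfl)) kg
  obtain ⟨y0, hy0, y1, hy1, hyq⟩ := FI_curl_surj hg hgn hm hq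
  -- g_c
  obtain ⟨p1, hp1, hp⟩ := SI_surj (K := K) (m := m) (e0 (some .gc) rfl)
  -- u
  have hu0 : ∀ s' : Fin 2, φ (some (.u s')) ∈ homI K (m + 1) := fun s' => e0 _ rfl
  obtain ⟨τ, hτ, Tτ⟩ : ∃ τ : K, τ ≠ 0 ∧ ∀ v ∈ homI K (m + 1),
      TTI π.g v + (π.g ^ 2)⁻¹ • v = τ • v := by
    rcases eq_or_lt_of_le hm with rfl | hm2
    · refine ⟨1, one_ne_zero, fun v hv => ?_⟩
      have : v = 0 := by
        rw [homI_big (by norm_num)] at hv
        simpa using hv
      rw [this, map_zero, smul_zero, smul_zero, add_zero]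
    · obtain ⟨k, hk⟩ : ∃ k : ℕ, (k : ℤ) = -(m + 1) - 2 := ⟨(-(m + 1) - 2).toNat, by omega⟩
      refine ⟨π.g ^ k + (π.g ^ 2)⁻¹, tauI_ne k, fun v hv => ?_⟩
      have hv' : v ∈ hom K (k : ℤ) := by rw [hk]; exact hv
      exact TTIv hv'
  have ku : ∀ s', φ (some (.u s')) = 0 := fun s' => by
    have := H (some (.v s'))
    rw [D0I_v, Tτ _ (hu0 s'), smul_eq_zero] at this
    exact this.resolve_left hτ
  let ψ : Cell → Pol K := fun c => match c with
    | none => a
    | some (.d j) => if j = 0 then w0 else π.g⁻¹ • w1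
    | some .f => b
    | some (.z j) => if j = 0 then 0 else z1
    | some .zc => 0
    | some (.u s') => τ⁻¹ • φ (some (.v s'))
    | some (.e j) => if j = 0 then π.g ^ 2 • y0 else y1
    | some (.gj j) => if j = 0 then 0 else π.c 0 • p1
    | some .gc => 0
    | some (.v _) => 0
  have hψ : ψ ∈ CVI K m := by
    have g1 : ∀ {v : Pol K}, v ∈ homI K (m + 1) → v ∈ homI K (m + 1 + 0) :=
      fun hv => by simpa using hv
    have g2 : ∀ {v : Pol K}, v ∈ homI K m → v ∈ homI K (m + 1 + -1) :=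
      fun hv => by simpa using hv
    intro c
    rcases c with _ | c
    · exact g1 ha
    cases c with
    | d j =>
      rcases f2 j with rfl | rfl
      · exact g2 hw0
      · exact g2 (Submodule.smul_mem _ _ hw1)
    | f => exact g1 hb
    | z j =>
      rcases f2 j with rfl | rfl
      · exact Submodule.zero_mem _
      · exact g2 hz1
    | zc => exact Submodule.zero_mem _
    | u s' => exact g1 (Submodule.smul_mem _ _ (e0 _ rfl))
    | e j =>
      rcases f2 j with rfl | rfl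
      · exact g2 (Submodule.smul_mem _ _ hy0)
      · exact g2 hy1
    | gj j =>
      rcases f2 j with rfl | rfl
      · exact Submodule.zero_mem _
      · exact g2 (Submodule.smul_mem _ _ hp1)
    | gc => exact Submodule.zero_mem _
    | v s' => exact Submodule.zero_mem _
  refine ⟨ψ, hψ, ?_⟩
  funext c
  rcases c with _ | c
  · rw [k1]; rfl
  cases c with
  | d j =>
    rcases f2 j with rfl | rfl
    · exact ha0
    · exact ha1
  | f => rw [kf]; rfl
  | z j =>
    have hC : F1 π.g (ψ (some (.d 0))) + π.g • F0 π.g (ψ (some (.d 1))) = s := by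
      show F1 π.g w0 + π.g • F0 π.g (π.g⁻¹ • w1) = s
      rw [map_smul, smul_smul, mul_inv_cancel₀ hg, one_smul, hws]
    rcases f2 j with rfl | rfl
    · rw [D0I_z0, hC, hs0]
    · rw [D0I_z1, hC, hs1]
  | zc =>
    show S0 z1 + S1 0 + b = _
    rw [hz, map_zero, add_zero, add_assoc, add_self' π, add_zero]
  | u s' => rw [ku]; rfl
  | e j =>
    rcases f2 j with rfl | rfl
    · show π.c 0 • F0 π.g b = _
      rw [hb0, smul_smul, mul_inv_cancel₀ c0n, one_smul]
    · show π.c 1 • F1 π.g b = _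
      rw [hb1, smul_smul, mul_inv_cancel₀ c1n, one_smul]
  | gj j =>
    have hC : π.g • F1 π.g (ψ (some (.e 0))) + π.g ^ 3 • F0 π.g (ψ (some (.e 1))) = π.g ^ 3 • q := by
      show π.g • F1 π.g (π.g ^ 2 • y0) + π.g ^ 3 • F0 π.g y1 = _
      rw [map_smul, smul_smul, show π.g * π.g ^ 2 = π.g ^ 3 by ring, ← smul_add, hyq]
    have hq0' : φ (some (.gj 0)) = π.c 1 • S0 q := by
      rw [← hq0, smul_smul, mul_inv_cancel₀ c1n, one_smul]
    have hq1' : φ (some (.gj 1)) = π.c 0 • S1 q := by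
      rw [← hq1, smul_smul, mul_inv_cancel₀ c0n, one_smul]
    rcases f2 j with rfl | rfl
    · rw [D0I_gj0, hC, hq0', map_smul, smul_smul, c0, c1]
      congr 1
      field_simp
    · rw [D0I_gj1, hC, hq1', map_smul, smul_smul, c0, c1]
      congr 1
      field_simp
  | gc =>
    show (π.c 0)⁻¹ • S0 (π.c 0 • p1) + (π.c 1)⁻¹ • S1 0 = _
    rw [map_zero, smul_zero, add_zero, map_smul, smul_smul, inv_mul_cancel₀ c0n, one_smul, hp]
  | v s' =>
    rw [D0I_v]
    have hu : ψ (some (.u s')) ∈ homI K (m + 1) := Submodule.smul_mem _ _ (e0 _ rfl)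
    rw [Tτ _ hu]
    show τ • (τ⁻¹ • φ (some (.v s'))) = _
    rw [smul_smul, mul_inv_cancel₀ hτ, one_smul]

/-- graded version -/
theorem exactI_pos {m : ℤ} (hm : m ≤ -2) (n : ℕ) {φ : Cell → Pol K} (hφ : φ ∈ CVI K m)
    (hn : φ ∈ Sup K (n + 1)) (h : D0I π φ = 0) :
    ∃ ψ ∈ CVI K m, ψ ∈ Sup K n ∧ D0I π ψ = φ := by
  obtain ⟨ψ, hψ, e⟩ := exactI_pos0 hm hφ h
  refine ⟨pr K n ψ, pr_memI n hψ, pr_sup n ψ, ?_⟩
  rw [D0I_pr, e, pr_of_sup hn]

/-- degree zero: no cocycles -/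
theorem exactI_zero {m : ℤ} (hm : m ≤ -2) {φ : Cell → Pol K} (hφ : φ ∈ CVI K m) (hn : φ ∈ Sup K 0)
    (h : D0I π φ = 0) : φ = 0 := by
  obtain ⟨ψ, hψ, e⟩ := exactI_pos0 hm hφ h
  funext c
  by_cases hc : cdeg c = 0
  · rcases c with _ | c
    · rw [← e]; rfl
    · cases c <;> simp [cdeg] at hc
  · exact hn c hc

end exact

/-! ### the table acting on the inverse polynomials -/

theorem repI_tR : repI π (tR π) = TTI π.g := by
  simp only [tR, map_add, map_smul, map_mul, repI_x0, repI_x1, repI_h, repI_d0, repI_d1]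
  rfl

theorem repI_d (j : Fin 2) : repI π (X π (.d j)) = EEI π.g j := by
  rcases f2 j with rfl | rfl
  · exact repI_d0 π
  · exact repI_d1 π

theorem repI_x (j : Fin 2) : repI π (X π (.x j)) = XXI K j := by
  rcases f2 j with rfl | rfl
  · exact repI_x0 π
  · exact repI_x1 π

/-- `D0I` is the table acting on the inverse polynomials -/
theorem D0I_eq (φ : Cell → Pol K) (l : E) : D0I π φ (some l) =
    repI π (X π l.toGen) (φ none) + ∑ l', repI π (cf π l l') (φ (some l')) := by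
  have z := fun (a : Gen) (h : isZ a = true) => repI_isZ π h
  rw [sumE]
  cases l with
  | d j => simp [-repI_X, cf, E.toGen, repI_d, D0I, D0Ic, pj]
  | f => simp [-repI_X, cf, E.toGen, z .f rfl]
  | u s => simp [-repI_X, cf, E.toGen, z (.u s) rfl]
  | z j => simp [-repI_X, cf, E.toGen, z (.z j) rfl, repI_x, repI_d0, repI_d1, D0I, D0Ic, pj]
  | zc => simp [-repI_X, cf, E.toGen, z .zc rfl, repI_x0, repI_x1, repI_h]; abel
  | e j =>
    revert j
    fin2 <;> simp [-repI_X, cf, E.toGen, z (.e _) rfl, z .f rfl, repI_d0, repI_d1]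
  | gj j =>
    revert j
    fin2 <;> simp [-repI_X, cf, E.toGen, z (.gj _) rfl, z .f rfl, z (.z _) rfl, z (.e _) rfl, repI_d0,
      repI_d1, repI_x0, repI_x1, smul_smul]
  | gc =>
    simp [-repI_X, cf, E.toGen, z .gc rfl, z .f rfl, z .zc rfl, z (.u _) rfl, repI_x0, repI_x1]; abel
  | v s =>
    revert s
    fin2 <;> simp [-repI_X, cf, E.toGen, z (.v _) rfl, z (.u _) rfl, repI_tR, repI_h]

end Crest.Agent.R186.Inv439
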