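import Crest.Agent.R186.WL_221
import Crest.Agent.R186.GPre_221
import Crest.Agent.R186.InvCells_439

/-!
# Row 186, half (A) (helper221): the modules `V_n` (all `n`) over `L''` and `L`, the sixteen cells
over `L`, (f1)

* `HRep π` : a representation of `R π` on `Pol K` with P-graded pieces `H m`, killing positive
  cohomological degree, boundaries and the W-letters; `hr π` (= `rep`, `hom`), `hi π`
  (= 439's `repI`, `homI`).
* `VW h n : WMod (WR π)`, `VWL h n : WMod (WL π)`.
* `KKc π : GLC (WL π)` the sixteen cells, `KKres π : (KKc π).Res (VWL (hr π) (-1))`, `preKK`.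
* (f1): `KK_hom_pos : 0 ≤ n → (KKc π).HomEx (VWL (hr π) n)`,
  `KK_hom_inv : n ≤ -2 → (KKc π).HomEx (VWL (hi π) n)`.
-/

set_option autoImplicit false
set_option linter.style.haveILetI false

noncomputable section

namespace Crest.Agent.R186.WL221

open Crest.Agent.R186.DefsQ830 Crest.Agent.R186.PBW128 Crest.Agent.R186.Der580
open Crest.Agent.R186.Win810 Crest.Agent.R186.C2b44 Crest.Agent.R186.Cells221
open Crest.Agent.R186.VOp220 Crest.Agent.R186.Vmod220 Crest.Agent.R186.Inv439

variable {K : Type} [Field K] (π : Par K)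

/-- representations on polynomials -/
structure HRep where
  rho : R π →ₐ[K] Module.End K (Pol K)
  H : ℤ → Submodule K (Pol K)
  mem : ∀ {P A C m : ℤ} {a : R π} {v : Pol K}, a ∈ pcZ π P A C → v ∈ H m → rho a v ∈ H (m + P)
  pos : ∀ {P A C : ℤ} {a : R π}, 0 < C → a ∈ pcZ π P A C → rho a = 0
  Dz : ∀ a : R π, rho (Der580.D π a) = 0
  kil : ∀ r : R π, rho (kill π r) = rho r
  fd : ∀ m : ℤ, Module.Finite K (H m)

/-- the polynomial modules -/
def hr : HRep π where
  rho := Vmod220.rep π
  H := hom K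
  mem ha hv := rep_pcZ_mem π ha rfl hv
  pos {P A C a} hC ha := LinearMap.ext fun v => rep_pcZ_pos π hC ha v
  Dz a := LinearMap.ext fun v => rep_D_zero π a v
  kil r := rep_kill π r
  fd m := hom_fd _

theorem opI_pos (g : K) {a : Gen} (h : 0 < a.dC) : opI g a = 0 := by
  cases a <;> simp_all [Gen.dC, opI]

theorem repI_wd_pos (w : List Gen) (h : 0 < wC w) : repI π (wd π w) = 0 := by
  induction w with
  | nil => simp [wC] at h
  | cons a w ih =>
    have e1 : wd π (a :: w) = X π a * wd π w := by simp [wd]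
    rw [e1, map_mul]
    by_cases h0 : 0 < a.dC
    · rw [repI_X, opI_pos _ h0, zero_mul]
    · have h2 : wC (a :: w) = a.dC + wC w := by simp [wC]
      rw [ih (by omega), mul_zero]

theorem repI_pc_pos {P : ℤ} {A C : ℕ} (hC : 0 < C) {a : R π} (ha : a ∈ pc π P A C) :
    repI π a = 0 := by
  have h : pc π P A C ≤ LinearMap.ker (repI π).toLinearMap := by
    rw [pc, Submodule.span_le]
    rintro r ⟨w, _, _, hw, rfl⟩
    exact repI_wd_pos π w (by omega)
  exact h ha

/-- the inverse polynomials -/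
def hi : HRep π where
  rho := repI π
  H := homI K
  mem {P A C m a v} ha hv := by
    rcases pcZ_cases π ha with rfl | ⟨A1, C1, _, _, ha⟩
    · rw [map_zero]
      exact Submodule.zero_mem _
    · exact repI_pcB π (PBW128.pc_le_pcB π _ _ _ ha) hv
  pos {P A C a} hC ha := by
    rcases pcZ_cases π ha with rfl | ⟨A1, C1, _, hC', ha⟩
    · exact map_zero _
    · exact repI_pc_pos π (by omega) ha
  Dz a := repI_D π (Der580.isDiff π) a
  kil r := by
    refine PBW128.R_ind π (P := fun r => repI π (kill π r) = repI π r) ?_ ?_ ?_ ?_ r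
    · intro c; rw [AlgHom.commutes]
    · intro a; cases a <;> simp [opI]
    · intro a b ha hb; rw [map_mul, map_mul, map_mul, ha, hb]
    · intro a b ha hb; rw [map_add, map_add, map_add, ha, hb]
  fd m := homI_fd _

variable {π}

theorem HRep.pos' (h : HRep π) {P A C : ℤ} {a : R π} (hC : 0 < C) (ha : a ∈ pcZ π P A C)
    (v : Pol K) : h.rho a v = 0 := by rw [h.pos hC ha]; rfl

theorem HRep.Dz' (h : HRep π) (a : R π) (v : Pol K) : h.rho (Der580.D π a) v = 0 := by
  rw [h.Dz]; rfl

theorem HRep.kDz' (h : HRep π) (a : R π) (v : Pol K) : h.rho (kill π (Der580.D π a)) v = 0 := by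
  rw [h.kil, h.Dz]; rfl

theorem HRep.memZ (h : HRep π) {P A C m m' : ℤ} {a : R π} {v : Pol K} (ha : a ∈ pcZ π P A C)
    (hv : v ∈ h.H m) (e : m + P = m') : h.rho a v ∈ h.H m' := e ▸ h.mem ha hv

/-- the window module over `L''` -/
def VW (h : HRep π) (n : ℤ) : WMod (WR π) where
  V := Pol K
  rho := h.rho
  W := fun o : DefsQ830.Ob => h.H (n + (o.1.val : ℤ))
  act {i j C a v} ha hv := by
    refine h.memZ ha hv ?_
    change n + (((j : DefsQ830.Ob).1.val : ℕ) : ℤ) + ((((i : DefsQ830.Ob).1.val : ℕ) : ℤ) -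
      (((j : DefsQ830.Ob).1.val : ℕ) : ℤ)) = n + (((i : DefsQ830.Ob).1.val : ℕ) : ℤ)
    ring
  act0 {i j C a v} ha hC _ := h.pos' hC ha v
  actD {i j a v} _ _ := h.Dz' a v
  fin _ := h.fd _

/-- the window module over `L` -/
def VWL (h : HRep π) (n : ℤ) : WMod (WL π) where
  V := Pol K
  rho := h.rho.comp (RL π).val
  W := fun o : DefsQ830.Ob => h.H (n + (o.1.val : ℤ))
  act {i j C a v} ha hv := (VW h n).act (i := i) (j := j) (C := C) (a := a.1) ha hv
  act0 {i j C a v} ha hC hv := (VW h n).act0 (i := i) (j := j) (C := C) (a := a.1) ha hC hv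
  actD {i j a v} _ _ := h.kDz' a.1 v
  fin _ := h.fd _

theorem VWL_rho (h : HRep π) (n : ℤ) (r : R π) : (VWL h n).rho (prL π r) = (VW h n).rho r :=
  h.kil r

/-- the same underlying space -/
def vRL (h : HRep π) (n : ℤ) : (VW h n).VM ≃ₗ[K] (VWL h n).VM := LinearEquiv.refl K _

theorem vRL_apply (h : HRep π) (n : ℤ) (v : (VW h n).VM) (i : DefsQ830.Ob) :
    (vRL h n v i).1 = (v i).1 := rfl

/-- the action of `L''` factors through `L` -/
theorem vRL_smul (h : HRep π) (n : ℤ) (m : (WR π).Win) (v : (VW h n).VM) :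
    vRL h n (m • v) = prW π m • vRL h n v := by
  apply (VWL h n).vext
  intro i
  rw [WMod.smul_apply]
  refine ((VW h n).smul_apply m v i).trans ?_
  refine Finset.sum_congr rfl fun j _ => ?_
  exact (congrArg (fun T : Module.End K (Pol K) => T (v j).1) (VWL_rho h n (m.1 i j))).symm

end Crest.Agent.R186.WL221
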