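import Crest.Agent.R186.FinD_384
import Crest.Agent.R186.FinV_988
import Crest.Agent.R186.KHr_302
import Crest.Agent.R186.SMp_890
import Crest.Agent.R186.Res3_255
import Crest.Agent.R186.WL2_221
import Crest.Agent.R186.TopA_226

/-!
Row 186, half (A), integration (helper448): the concrete objects and the chain of Props from the
open leaves to the null pair.
-/

set_option autoImplicit false
set_option linter.style.haveILetI false
set_option linter.unusedSectionVars false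

noncomputable section

open MulOpposite

namespace Crest.Agent.R186.EndA448

open Hat827 Win810 Frame515 Res255 DefsQ830 SM890 WL221 KH186 FinD384 ConeHyp462 Adapt186
open FinV988 SemiFree515

variable {K : Type} [Field K]

/-! ### abstract skeleton: any window data, any `CE`, any module in degree zero -/

section abs

variable {w : WD K} (E : CE w) (N : LM w.dga) [Module.Finite K N.X] [Nontrivial N.X]
  (h0 : Deg0 N) (X : Pre w.dga N.X)

theorem zR_eq : zR E.toIn = E.Hrm := rfl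

/-- **(KX), the shape of 378's output** -/
structure KXOut (X : PCells w.dga) where
  kt : X.ι → E.toIn.Y
  kt_deg : ∀ σ, kt σ ∈ E.toIn.gr.G (X.s σ)
  kt_e : ∀ σ, E.toIn.L (X.e σ) (kt σ) = kt σ
  kt_d : ∀ σ, E.toIn.dY (kt σ) + ∑ τ ∈ X.F (X.s σ), E.toIn.L (X.c σ τ) (kt τ) = 0
  kt_ne : kt ≠ 0
  KX : ∀ (p : ℤ) (κ : X.ι → E.toIn.Y), (∀ σ, κ σ ∈ E.toIn.gr.G ((X.s σ : ℤ) - p)) →
    (∀ σ, E.toIn.L (X.e σ) (κ σ) = κ σ) →
    (∀ σ, E.toIn.dY (κ σ) + ∑ τ ∈ X.F (X.s σ), E.toIn.L (X.c σ τ) (κ τ) = 0) →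
    ∃ (ψ : X.ι → E.toIn.Y) (r : K), (∀ σ, ψ σ ∈ E.toIn.gr.G ((X.s σ : ℤ) - p + 1)) ∧
      (∀ σ, E.toIn.L (X.e σ) (ψ σ) = ψ σ) ∧ (p ≠ 0 → r = 0) ∧
      ∀ σ, κ σ = r • kt σ + (E.toIn.dY (ψ σ) + ∑ τ ∈ X.F (X.s σ), E.toIn.L (X.c σ τ) (ψ τ))

/-- **(D), the shape of D1, D2** -/
structure DOut (X : PCells w.dga) (kt : X.ι → E.toIn.Y) : Prop where
  D1 : ∀ (p : ℤ) (φ : X.ι → w.dga.C), (∀ σ, φ σ ∈ w.dga.G ((X.s σ : ℤ) - p)) →
    (∀ σ, X.e σ * φ σ = φ σ) →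
    (∀ σ, w.dga.D (φ σ) + ∑ τ ∈ X.F (X.s σ), X.c σ τ * φ τ = 0) →
    ∃ η ∈ E.toIn.gs.G (-p), E.toIn.dZ η = 0 ∧
      IsCob w.dga X p (fun σ => φ σ + E.toIn.ev (kt σ) η)
  D2 : ∀ (p : ℤ), ∀ η ∈ E.toIn.gs.G (-p), E.toIn.dZ η = 0 →
    IsCob w.dga X p (fun σ => E.toIn.ev (kt σ) η) → ∃ η' ∈ E.toIn.gs.G (-p + 1), η = E.toIn.dZ η'

/-- **the null pair from the leaves** -/
theorem null_abs
    (evV : ∀ (y : E.toIn.Y) (z : E.toIn.Z) (v : N.X), E.toIn.ev y z • v = 0)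
    (hV : ∀ k : ℤ, 1 ≤ k → ExAt (tG (DR N) (lpre X)) k)
    (hH : Ac (tG E.Hrm (lpre X)))
    (hK : KXOut E (pcells N h0 X hV))
    (hD : DOut E (pcells N h0 X hV) hK.kt) : Nonempty (Spine700.Null.{0, 0} K) := by
  have H : HIn E.toIn (pcells N h0 X hV) :=
    { evV := evV
      H := H_of E.toIn (pcells N h0 X hV) hH
      kt := hK.kt
      kt_deg := hK.kt_deg
      kt_e := hK.kt_e
      kt_d := hK.kt_d
      kt_ne := hK.kt_ne
      KX := hK.KX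
      D1 := hD.D1
      D2 := hD.D2 }
  exact H.null

end abs

end Crest.Agent.R186.EndA448
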