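import Crest.Agent.R186.KXc_186
import Crest.Agent.R186.EndA_448

/-!
Row 186 (A), integration (helper186): the concrete joint.  Over `Γ = Gm π s _`, `E := KHc302.CEr π s hs`,
`N := NV π s hs` (= `V_{-1}`), every `Xp : Pre Γ N.X`:
the leaves (V), (H), (D) give a null pair.
-/

set_option autoImplicit false
set_option linter.style.haveILetI false

noncomputable section

namespace Crest.Agent.R186.KHc186

open Crest.Agent.R186.DefsQ830 Crest.Agent.R186.PBW128 Crest.Agent.R186.Der580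
open Crest.Agent.R186.Win810 Crest.Agent.R186.C2b44 Crest.Agent.R186.Cells221
open Crest.Agent.R186.VOp220 Crest.Agent.R186.Vmod220 Crest.Agent.R186.WL221
open Crest.Agent.R186.SM890 Crest.Agent.R186.KH186
open Frame515 Res255 FinV988

variable {K : Type} [Field K] (π : Par K) (s : ℕ) (hs : 5 ≤ s)

theorem hposV (k : ℤ) (hk : 0 < k) (a : (WR π).dga.C) (ha : a ∈ (WR π).dga.G k)
    (w : (VR π (-1)).VM) : (show (WR π).Win from a) • w = 0 :=
  WMod_smul_G (VR π (-1)) ha hk w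

theorem hDV (a : (WR π).dga.C) (w : (VR π (-1)).VM) :
    (show (WR π).Win from (WR π).dga.D a) • w = 0 := WMod_smul_D (VR π (-1)) a w

/-- **`V_{-1}` over `L''`** -/
abbrev NLV : LM (WR π).dga := NL π (hposV π) (hDV π)

/-- **`V_{-1}` over `Γ`** -/
abbrev NV : LM (Gm π s (KHc302.two_le hs)) := NG π s hs (hposV π) (hDV π)

theorem deg0_NLV : Deg0 (NLV π) := Glue255.deg0_hon _ _

theorem deg0_NV : Deg0 (NV π s hs) := Glue255.deg0_res _ (deg0_NLV π)

instance finNLV : Module.Finite K (NLV π).X := inferInstanceAs (Module.Finite K (VR π (-1)).VM)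
instance ntNLV : Nontrivial (NLV π).X := inferInstanceAs (Nontrivial (VEnd701.VM π))
instance finNV : Module.Finite K (NV π s hs).X := inferInstanceAs (Module.Finite K (VR π (-1)).VM)
instance ntNV : Nontrivial (NV π s hs).X := inferInstanceAs (Nontrivial (VEnd701.VM π))

/-- the closing data -/
abbrev EE : CE (KHc302.WG π s (KHc302.two_le hs)) := KHc302.CEr π s hs

/-- the image of `ev` in `L''` vanishes -/
theorem HmP_ev (y : (EE π s hs).toIn.Y) (z : (EE π s hs).toIn.Z) :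
    (HmP π s (KHc302.two_le hs)).f ((EE π s hs).toIn.ev y z) = 0 := by
  apply Subtype.ext
  ext i j
  rfl

/-- **`ev` kills `V_{-1}`** -/
theorem evV (y : (EE π s hs).toIn.Y) (z : (EE π s hs).toIn.Z) (v : (NV π s hs).X) :
    (EE π s hs).toIn.ev y z • v = 0 := by
  change (HmP π s (KHc302.two_le hs)).f ((EE π s hs).toIn.ev y z) • (show (NLV π).X from v) = 0
  rw [HmP_ev]
  exact zero_smul _ _

variable (Xp : SemiFree515.Pre (Gm π s (KHc302.two_le hs)) (NV π s hs).X)
  (hV : ∀ k : ℤ, 1 ≤ k → ExAt (tG (DR (NV π s hs)) (lpre Xp)) k)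

/-- the cells over `Γ` -/
abbrev XV : ConeHyp462.PCells (Gm π s (KHc302.two_le hs)) :=
  pcells (NV π s hs) (deg0_NV π s hs) Xp hV

/-- 378's input -/
abbrev augV : KX378.Aug (EE π s hs).toIn (XV π s hs Xp hV) :=
  augX π s hs (hposV π) (hDV π) (deg0_NV π s hs) Xp hV

/-- **the joint**: (V), (H), (D) give a null pair -/
theorem null_of
    (hH : Ac (tG (EE π s hs).Hrm (lpre Xp)))
    (hD : ∀ kt : (XV π s hs Xp hV).ι → (EE π s hs).toIn.Y,
      (∀ σ, kt σ ∈ (EE π s hs).toIn.gr.G ((XV π s hs Xp hV).s σ)) →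
      (∀ σ, (EE π s hs).toIn.L ((XV π s hs Xp hV).e σ) (kt σ) = kt σ) →
      (∀ σ, (EE π s hs).toIn.dY (kt σ) + ∑ τ ∈ (XV π s hs Xp hV).F ((XV π s hs Xp hV).s σ),
        (EE π s hs).toIn.L ((XV π s hs Xp hV).c σ τ) (kt τ) = 0) →
      (∀ σ, (augV π s hs Xp hV).a (kt σ) = (XV π s hs Xp hV).v σ) →
      EndA448.DOut (EE π s hs) (XV π s hs Xp hV) kt) :
    Nonempty (Spine700.Null.{0, 0} K) := by
  obtain ⟨kt, h1, h2, h3, h4, h5, h6⟩ := (augV π s hs Xp hV).kt_KX
  exact EndA448.null_abs (EE π s hs) (NV π s hs) (deg0_NV π s hs) Xp (evV π s hs) hV hH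
    { kt := kt
      kt_deg := h1
      kt_e := h2
      kt_d := h3
      kt_ne := h4
      KX := h6 } (hD kt h1 h2 h3 h5)

end Crest.Agent.R186.KHc186
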