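import Crest.Agent.R186.C2W_735
import Crest.Agent.R186.KXd_186
import Crest.Agent.R186.DJ2_187

/-!
Row 186 (A), leaf D, second road (helper735): the projection `X'' → KK` and the concrete end.

* `e1_ne`, `e1_eo` : the coordinates of `1 ∈ Q`.
* `pj_deg`, `pj_e`, `pj_d`, `pj_a` : the projection `pj` of `C2W_735`; `pn = (e1 eo)⁻¹ • pj`.
* `c2s'`, `c2t'` : `C2s`, `C2t` for `pn`.
* `avX`, `augY` : 187's `AV`, `AugV` over the concrete objects.
* `dout` : 448's `DOut` from `Cone` and `InjPsi`.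
-/

set_option autoImplicit false
set_option linter.style.haveILetI false

noncomputable section

namespace Crest.Agent.R186.C2P735

open Hat827 Win810 DefsQ830 Cells221 DJ187 Res255 Frame515 C2W735
open Crest.Agent.R186.VQ735 (Io sI cI FI mem_FI Bt cAd qd)
open Crest.Agent.R186.SM890 (MM dMM oM pcM bdM HmI HmP HmP_HmI Gm)
open Crest.Agent.R186.C2b44 (kill c0)
open Crest.Agent.R186.C2x354 (oc oc_fst oc_snd eo)
open Crest.Agent.R186.WL221 (RL prL)

variable {K : Type} [Field K] (π : Par K)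

/-! ### the coordinates of `1` -/

theorem one_Qc : (1 : VQ735.Q π) ∈ Loc261.Qc (VQ735.lp π) 0 := by
  rw [C2x354.Qc_zero]
  exact Submodule.mem_span_singleton_self _

theorem e1_ne {q : Bt π} (h : q ≠ eo π) : e1 π q = 0 := by
  refine VQ735.repr_ne π (one_Qc π) fun h1 => h ?_
  exact C2x354.content_eq π h1

theorem e1_eo : e1 π (eo π) ≠ 0 := by
  intro h
  apply C2x354.one_ne π
  have h1 : (VQ735.bq π).repr 1 = 0 := by
    ext q
    by_cases hq : q = eo π
    · subst hq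
      exact h
    · exact e1_ne π hq
  exact (VQ735.bq π).repr.map_eq_zero_iff.1 h1

variable (s : ℕ) (h5 : 5 ≤ s)

/-! ### entries of `KK` -/

variable {s h5} in
theorem ke_ext {x y : (EE π s h5).KK} (h : ∀ i c, ke π s h5 x i c = ke π s h5 y i c) : x = y :=
  Subtype.ext (funext fun i => funext fun c => h i c)

theorem ke_add (x y : (EE π s h5).KK) (i : DefsQ830.Ob) (c : Cell) :
    ke π s h5 (x + y) i c = ke π s h5 x i c + ke π s h5 y i c := rfl

theorem ke_smul (r : K) (x : (EE π s h5).KK) (i : DefsQ830.Ob) (c : Cell) :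
    ke π s h5 (r • x) i c = r • ke π s h5 x i c := rfl

theorem ke_zero (i : DefsQ830.Ob) (c : Cell) : ke π s h5 0 i c = 0 := rfl

theorem ke_sum {ι : Type} (S : Finset ι) (f : ι → (EE π s h5).KK) (i : DefsQ830.Ob) (c : Cell) :
    ke π s h5 (∑ k ∈ S, f k) i c = ∑ k ∈ S, ke π s h5 (f k) i c := by
  classical
  induction S using Finset.induction_on with
  | empty => rfl
  | insert a S ha ih =>
    rw [Finset.sum_insert ha, Finset.sum_insert ha, ← ih]
    rfl

theorem ke_L (m : (wG π s (KHc302.two_le h5)).Win) (x : (EE π s h5).KK) (i : DefsQ830.Ob)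
    (c : Cell) : ke π s h5 ((EE π s h5).L m x) i c =
      ∑ j : DefsQ830.Ob, KHc302.pW π s (KHc302.two_le h5) (en π s (KHc302.two_le h5) m i j) *
        ke π s h5 x j c := rfl

theorem ke_d (x : (EE π s h5).KK) (i : DefsQ830.Ob) (c : Cell) :
    ke π s h5 ((EE π s h5).dY x) i c = WL221.DL π (ke π s h5 x i c) +
      ∑ c', ke π s h5 x i c' * WL221.cL π c' c := rfl

/-- a matrix in one place acting on `KK` -/
theorem ke_L1 (m : (wG π s (KHc302.two_le h5)).Win) (x : (EE π s h5).KK) (o o' : DefsQ830.Ob)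
    (h2 : ∀ i j, ¬ (o = i ∧ o' = j) → en π s (KHc302.two_le h5) m i j = 0) (c : Cell) :
    ke π s h5 ((EE π s h5).L m x) o c =
      KHc302.pW π s (KHc302.two_le h5) (en π s (KHc302.two_le h5) m o o') * ke π s h5 x o' c := by
  rw [ke_L, Finset.sum_eq_single o']
  · intro j _ hj
    rw [h2 o j (fun h => hj h.2.symm), map_zero, zero_mul]
  · intro h
    exact absurd (Finset.mem_univ _) h

theorem ke_L0 (m : (wG π s (KHc302.two_le h5)).Win) (x : (EE π s h5).KK) (o o' : DefsQ830.Ob)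
    (h2 : ∀ i j, ¬ (o = i ∧ o' = j) → en π s (KHc302.two_le h5) m i j = 0) (i : DefsQ830.Ob)
    (hi : o ≠ i) (c : Cell) : ke π s h5 ((EE π s h5).L m x) i c = 0 := by
  rw [ke_L]
  exact Finset.sum_eq_zero fun j _ => by rw [h2 i j (fun h => hi h.1), map_zero, zero_mul]

/-! ### the projection -/

theorem pj_zero {σ : Io π} (h : σ.2 ≠ eo π) : pj π s h5 σ = 0 := by
  refine ke_ext π fun i c => ?_
  by_cases hi : oc σ.1 = i ∧ σ.1 = c
  · obtain ⟨rfl, rfl⟩ := hi
    rw [pj_pos, e1_ne π h, zero_smul]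
    rfl
  · rw [pj_neg π s h5 σ hi]
    rfl

theorem sI_eo {σ : Io π} (h : σ.2 = eo π) : sI σ = cdeg σ.1 := by
  unfold sI
  rw [(C2x354.qd_zero π σ.2).2 h, add_zero]

/-- degree -/
theorem pj_deg (σ : Io π) : pj π s h5 σ ∈ (EE π s h5).gr.G (sI σ) := by
  by_cases h : σ.2 = eo π
  · refine KH186.CE.mem_gr.2 fun i c => ?_
    have h1 := kf_mem π s h5 σ i c
    by_cases hi : oc σ.1 = i ∧ σ.1 = c
    · have e : ((sI σ : ℕ) : ℤ) - (((EE π s h5).cd c : ℕ) : ℤ) = 0 := by
        change ((sI σ : ℕ) : ℤ) - ((cdeg c : ℕ) : ℤ) = 0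
        rw [sI_eo π h, hi.2, sub_self]
      rw [e]
      exact h1
    · have h2 : (pj π s h5 σ).1 i c = 0 := pj_neg π s h5 σ hi
      rw [h2]
      exact Submodule.zero_mem _
  · rw [pj_zero π s h5 h]
    exact Submodule.zero_mem _

theorem pj_e (σ : Io π) : (EE π s h5).L (fe π s (KHc302.two_le h5) σ) (pj π s h5 σ) =
    pj π s h5 σ := by
  refine ke_ext π fun i c => ?_
  by_cases hi : oc σ.1 = i
  · subst hi
    rw [ke_L1 π s h5 _ _ (oc σ.1) (oc σ.1) (fe_neg π s _ σ), fe_pos, map_one, one_mul]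
  · rw [ke_L0 π s h5 _ _ (oc σ.1) (oc σ.1) (fe_neg π s _ σ) i hi,
      pj_neg π s h5 σ (fun h => hi h.1)]

theorem DL_one : WL221.DL π (1 : RL π) = 0 := by
  have h := WL221.DL_mul (π := π) (1 : RL π) 1
  rw [mul_one, mul_one] at h
  have h2 := KHc302.RL_two π (WL221.DL π (1 : RL π))
  have h3 : WL221.DL π (1 : RL π) = WL221.DL π (1 : RL π) + WL221.DL π (1 : RL π) := by
    conv_lhs => rw [h]
    rw [one_mul]
  rw [h2] at h3
  exact h3

theorem pj_d (σ : Io π) : (EE π s h5).dY (pj π s h5 σ) +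
    ∑ τ ∈ FI π (sI σ), (EE π s h5).L (fc π s (KHc302.two_le h5) σ τ) (pj π s h5 τ) = 0 := by
  refine ke_ext π fun i c => ?_
  rw [ke_add, ke_d, ke_sum, ke_zero]
  by_cases hi : oc σ.1 = i
  · subst hi
    have h1 : WL221.DL π (ke π s h5 (pj π s h5 σ) (oc σ.1) c) = 0 := by
      by_cases hc : σ.1 = c
      · subst hc
        rw [pj_pos, map_smul, DL_one, smul_zero]
      · rw [pj_neg π s h5 σ (fun h => hc h.2), map_zero]
    have h2 : ∑ c', ke π s h5 (pj π s h5 σ) (oc σ.1) c' * WL221.cL π c' c =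
        e1 π σ.2 • WL221.cL π σ.1 c := by
      rw [Finset.sum_eq_single σ.1]
      · rw [pj_pos, smul_mul_assoc, one_mul]
      · intro c' _ hc
        rw [pj_neg π s h5 σ (fun h => hc h.2.symm), zero_mul]
      · intro h
        exact absurd (Finset.mem_univ _) h
    have h3 : ∀ τ : Io π, ke π s h5 ((EE π s h5).L (fc π s (KHc302.two_le h5) σ τ) (pj π s h5 τ))
        (oc σ.1) c = prL π (cI π σ τ) * ke π s h5 (pj π s h5 τ) (oc τ.1) c := by
      intro τ
      rw [ke_L1 π s h5 _ _ (oc σ.1) (oc τ.1) (fc_neg π s _ σ τ), fc_pos]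
      rfl
    have h4 : ∑ τ ∈ FI π (sI σ), prL π (cI π σ τ) * ke π s h5 (pj π s h5 τ) (oc τ.1) c =
        e1 π (eo π) • prL π (cI π σ (c, eo π)) := by
      classical
      by_cases hm : (c, eo π) ∈ FI π (sI σ)
      · rw [Finset.sum_eq_single (c, eo π)]
        · rw [show ke π s h5 (pj π s h5 (c, eo π)) (oc (c, eo π).1) c =
            e1 π (c, eo π).2 • (1 : RL π) from pj_pos π s h5 (c, eo π), mul_smul_comm, mul_one]
        · intro τ _ hτ
          by_cases h5' : τ.2 = eo π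
          · rw [pj_neg π s h5 τ (fun h => hτ (Prod.ext h.2 h5')), mul_zero]
          · rw [pj_zero π s h5 h5', ke_zero, mul_zero]
        · intro h
          exact absurd hm h
      · rw [VQ735.cI_zero π (σ := σ) (τ := (c, eo π)) (by
          rw [mem_FI] at hm
          omega), map_zero, smul_zero]
        refine Finset.sum_eq_zero fun τ hτ => ?_
        by_cases h5' : τ.2 = eo π
        · by_cases hc : τ.1 = c
          · exact absurd (by rw [← hc, ← h5']; exact hτ) hm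
          · rw [pj_neg π s h5 τ (fun h => hc h.2), mul_zero]
        · rw [pj_zero π s h5 h5', ke_zero, mul_zero]
    rw [h1, h2, zero_add]
    simp only [h3]
    rw [h4]
    by_cases hq : σ.2 = eo π
    · have h6 := C2x354.kill_cI_e π σ.1 c
      have h7 : cI π σ (c, eo π) = cI π (σ.1, eo π) (c, eo π) := by rw [← hq]
      have h8 : prL π (cI π σ (c, eo π)) = WL221.cL π σ.1 c := by
        rw [h7]
        apply Subtype.ext
        rw [map_sub, sub_eq_zero] at h6
        exact h6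
      rw [h8, hq, ← smul_add, KHc302.RL_two, smul_zero]
    · have h6 := C2x354.kill_cI_ne π σ.1 c hq
      have h8 : prL π (cI π σ (c, eo π)) = 0 := Subtype.ext h6
      rw [h8, e1_ne π hq, zero_smul, smul_zero, add_zero]
  · have h1 : ∀ c', ke π s h5 (pj π s h5 σ) i c' = 0 := fun c' =>
      pj_neg π s h5 σ (fun h => hi h.1)
    simp only [h1, map_zero, zero_mul, Finset.sum_const_zero, zero_add]
    exact Finset.sum_eq_zero fun τ _ => ke_L0 π s h5 _ _ (oc σ.1) (oc τ.1) (fc_neg π s _ σ τ) i hi c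

/-! ### values in `V` -/

theorem vKK_eq (c : Cell) : WL221.vKK (K := K) c = C2x354.vc K c := by
  rcases c with _ | l
  · exact if_pos rfl
  · exact if_neg (by simp)

/-- the value of the augmentation of `X''` -/
def vY (σ : Io π) : (VR π (-1)).VM := (C2f354.pre π).v σ

theorem vY_neg (σ : Io π) {i : DefsQ830.Ob} (h : oc σ.1 ≠ i) : (vY π σ i).1 = 0 :=
  (WMod.mkV_apply (M := VR π (-1)) (oc σ.1) _ ((C2f354.gpre π).v_mem σ) i).trans (if_neg h)

theorem vY_ne {σ : Io π} (h : σ.2 ≠ eo π) (i : DefsQ830.Ob) : (vY π σ i).1 = 0 := by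
  by_cases hi : oc σ.1 = i
  · refine (WMod.mkV_apply (M := VR π (-1)) (oc σ.1) _ ((C2f354.gpre π).v_mem σ) i).trans ((if_pos hi).trans ?_)
    exact if_neg h
  · exact vY_neg π σ hi

theorem vY_pos {σ : Io π} (h : σ.2 = eo π) : (vY π σ (oc σ.1)).1 = C2x354.vc K σ.1 := by
  refine (WMod.mkV_apply (M := VR π (-1)) (oc σ.1) _ ((C2f354.gpre π).v_mem σ) (oc σ.1)).trans ((if_pos rfl).trans ?_)
  exact if_pos h

theorem aug_ap (x : (EE π s h5).KK) (i : DefsQ830.Ob) :
    ((show (VR π (-1)).VM from (KHc186.kresC π s h5).aug x) i).1 =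
      ∑ c : Cell, Vmod220.rep π (ke π s h5 x i c).1 (WL221.vKK (K := K) c) := rfl

/-- the value of the projection in `V_{-1}` -/
theorem pj_a (σ : Io π) : (show (VR π (-1)).VM from (KHc186.kresC π s h5).aug (pj π s h5 σ)) =
    e1 π (eo π) • vY π σ := by
  apply (VR π (-1)).vext
  intro i
  refine (aug_ap π s h5 (pj π s h5 σ) i).trans ?_
  change _ = e1 π (eo π) • (vY π σ i).1
  by_cases hi : oc σ.1 = i
  · subst hi
    by_cases hq : σ.2 = eo π
    · rw [vY_pos π hq, Finset.sum_eq_single σ.1]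
      · rw [pj_pos, vKK_eq, hq]
        change Vmod220.rep π (e1 π (eo π) • (1 : R π)) _ = _
        rw [map_smul, map_one]
        rfl
      · intro c _ hc
        rw [pj_neg π s h5 σ (fun h => hc h.2.symm)]
        change Vmod220.rep π (0 : R π) _ = 0
        rw [map_zero]
        rfl
      · intro h
        exact absurd (Finset.mem_univ _) h
    · rw [vY_ne π hq, smul_zero, pj_zero π s h5 hq]
      refine Finset.sum_eq_zero fun c _ => ?_
      change Vmod220.rep π (0 : R π) _ = 0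
      rw [map_zero]
      rfl
  · rw [vY_neg π σ hi, smul_zero]
    refine Finset.sum_eq_zero fun c _ => ?_
    rw [pj_neg π s h5 σ (fun h => hi h.1)]
    change Vmod220.rep π (0 : R π) _ = 0
    rw [map_zero]
    rfl

/-! ### the normalised projection -/

/-- **the normalised projection `X'' → KK`** -/
def pn (σ : Io π) : (EE π s h5).KK := (e1 π (eo π))⁻¹ • pj π s h5 σ

theorem pn_deg (σ : Io π) : pn π s h5 σ ∈ (EE π s h5).gr.G (sI σ) :=
  Submodule.smul_mem _ _ (pj_deg π s h5 σ)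

theorem pn_e (σ : Io π) : (EE π s h5).L (fe π s (KHc302.two_le h5) σ) (pn π s h5 σ) =
    pn π s h5 σ := by
  unfold pn
  rw [map_smul, pj_e]

theorem pn_d (σ : Io π) : (EE π s h5).dY (pn π s h5 σ) +
    ∑ τ ∈ FI π (sI σ), (EE π s h5).L (fc π s (KHc302.two_le h5) σ τ) (pn π s h5 τ) = 0 := by
  have h := pj_d π s h5 σ
  unfold pn
  simp only [map_smul]
  rw [← Finset.smul_sum, ← smul_add, h, smul_zero]

theorem pn_a (σ : Io π) : (show (VR π (-1)).VM from (KHc186.kresC π s h5).aug (pn π s h5 σ)) =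
    vY π σ := by
  have h := pj_a π s h5 σ
  unfold pn
  have h2 : (show (VR π (-1)).VM from (KHc186.kresC π s h5).aug ((e1 π (eo π))⁻¹ • pj π s h5 σ)) =
      (e1 π (eo π))⁻¹ • (show (VR π (-1)).VM from (KHc186.kresC π s h5).aug (pj π s h5 σ)) :=
    map_smul _ _ _
  rw [h2, h, smul_smul, inv_mul_cancel₀ (e1_eo π), one_smul]

/-! ### scaling of 187's hypotheses -/

section scale

open ConeHyp462 Adapt186

variable {A B : DGA K} {h : Hm B A} (P : Prj h) {Y : LCells B} (I : In A)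

theorem c2s_scale {p0 : Y.ι → I.Y} (r : K) (hr : r ≠ 0) (H : C2s P I p0) :
    C2s P I (fun k => r • p0 k) := by
  intro p g g1 g2 g3 g4
  obtain ⟨η, a1, a2, a3⟩ := H p g g1 g2 g3 g4
  refine ⟨r⁻¹ • η, Submodule.smul_mem _ _ a1, by rw [map_smul, a2, smul_zero], ?_⟩
  have e : (fun k => g k + I.ev (r • p0 k) (r⁻¹ • η)) = fun k => g k + I.ev (p0 k) η := by
    funext k
    rw [map_smul, map_smul, LinearMap.smul_apply, smul_smul, inv_mul_cancel₀ hr, one_smul]
  rw [e]
  exact a3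

theorem c2t_scale {p0 : Y.ι → I.Y} (r : K) (hr : r ≠ 0) (H : C2t P I p0) :
    C2t P I (fun k => r • p0 k) := by
  intro p η a1 a2 a3
  have e : (fun k => I.ev (r • p0 k) η) = fun k => I.ev (p0 k) (r • η) := by
    funext k
    rw [map_smul, map_smul, LinearMap.smul_apply]
  rw [e] at a3
  obtain ⟨η', b1, b2⟩ := H p (r • η) (Submodule.smul_mem _ _ a1) (by rw [map_smul, a2, smul_zero])
    a3
  refine ⟨r⁻¹ • η', Submodule.smul_mem _ _ b1, ?_⟩
  rw [map_smul, ← b2, smul_smul, inv_mul_cancel₀ hr, one_smul]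

end scale

theorem c2s_pn (hc : Cone π s) :
    C2s (prM π s (KHc302.two_le h5)) (EE π s h5).toIn (Y := Y2 π) (pn π s h5) :=
  c2s_scale _ _ _ (inv_ne_zero (e1_eo π)) (c2s π s h5 hc)

theorem c2t_pn (hc : Cone π s) :
    C2t (prM π s (KHc302.two_le h5)) (EE π s h5).toIn (Y := Y2 π) (pn π s h5) :=
  c2t_scale _ _ _ (inv_ne_zero (e1_eo π)) (c2t π s h5 hc)

/-! ### the concrete cells over `Γ` -/

section conc

open FinV988

variable (Xp : SemiFree515.Pre (Gm π s (KHc302.two_le h5)) (KHc186.NV π s h5).X)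
  (hV : ∀ k : ℤ, 1 ≤ k → ExAt (tG (DR (KHc186.NV π s h5)) (lpre Xp)) k)

/-- **187's augmentation of `X''`** -/
def avY : AugV (HmI π s (KHc302.two_le h5)) (KHc186.XV π s h5 Xp hV) (Y2 π) where
  v := (C2f354.pre π).v
  v_e k := by
    have h := (C2f354.pre π).v_e k
    change (HmP π s (KHc302.two_le h5)).f ((HmI π s (KHc302.two_le h5)).f ((C2f354.pre π).e k)) •
      (show (KHc186.NLV π).X from (C2f354.pre π).v k) = (C2f354.pre π).v k
    rw [HmP_HmI]
    exact h
  v_aug k hk := by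
    have h := (C2f354.pre π).v_aug k hk
    change ∑ j ∈ (Y2 π).F ((Y2 π).s k),
      (HmP π s (KHc302.two_le h5)).f ((HmI π s (KHc302.two_le h5)).f ((C2f354.pre π).c k j)) •
      (show (KHc186.NLV π).X from (C2f354.pre π).v j) = 0
    simp only [HmP_HmI]
    rw [hk]
    refine Eq.trans ?_ h
    symm
    refine Finset.sum_subset (fun τ hτ => ?_) fun τ hτ hτ' => ?_
    · have h1 : sI τ ≤ 0 := (mem_FI π).1 hτ
      exact (mem_FI π).2 (by omega)
    · have h1 : (C2f354.pre π).s τ ≠ 0 := fun h0 => hτ' ((mem_FI π).2 (le_of_eq h0))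
      rw [(C2f354.pre π).v_zero τ h1]
      exact (smul_zero _ : (show (WR π).Win from (C2f354.pre π).c k τ) • (0 : (VR π (-1)).VM) = 0)
  v_zero := (C2f354.pre π).v_zero

/-- **187's augmentation of `KK`** -/
def avX : AV (KHc186.XV π s h5 Xp hV) (EE π s h5).toIn where
  a := (KHc186.kresC π s h5).aug
  a_l x y := (KHc186.kresC π s h5).aug_L x y
  a_ne _ _ hy hd := (KHc186.kresC π s h5).aug_deg hd hy
  ker _ _ hy hd h := by
    obtain ⟨z, hz, e⟩ := (KHc186.kresC π s h5).aug_ex hy hd (fun _ => h)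
    exact ⟨z, hz, e.symm⟩

/-- **the end of the second road: `DOut` from (c2) and `InjPsi`** -/
theorem dout (hc : Cone π s)
    (inj : ∀ Φ : Lift (HmI π s (KHc302.two_le h5)) (KHc186.XV π s h5 Xp hV) (Y2 π),
      (∀ k, (Y2 π).s k = 0 → ∑ σ ∈ (KHc186.XV π s h5 Xp hV).F 0,
        Φ.φ k σ • (KHc186.XV π s h5 Xp hV).v σ = (avY π s h5 Xp hV).v k) →
      InjPsi (prM π s (KHc302.two_le h5)) Φ)
    (kt : (KHc186.XV π s h5 Xp hV).ι → (EE π s h5).toIn.Y)
    (kt_deg : ∀ σ, kt σ ∈ (EE π s h5).toIn.gr.G ((KHc186.XV π s h5 Xp hV).s σ))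
    (kt_e : ∀ σ, (EE π s h5).toIn.L ((KHc186.XV π s h5 Xp hV).e σ) (kt σ) = kt σ)
    (kt_d : ∀ σ, (EE π s h5).toIn.dY (kt σ) + ∑ τ ∈ (KHc186.XV π s h5 Xp hV).F
      ((KHc186.XV π s h5 Xp hV).s σ),
        (EE π s h5).toIn.L ((KHc186.XV π s h5 Xp hV).c σ τ) (kt τ) = 0)
    (kt_a : ∀ σ, (KHc186.augV π s h5 Xp hV).a (kt σ) = (KHc186.XV π s h5 Xp hV).v σ) :
    EndA448.DOut (EE π s h5) (KHc186.XV π s h5 Xp hV) kt := by
  obtain ⟨Φ, hΦ⟩ := exists_lift (avY π s h5 Xp hV)
  obtain ⟨H⟩ := exists_htp (avX π s h5 Xp hV) Φ (avY π s h5 Xp hV) hΦ kt_deg kt_d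
    (fun σ _ => kt_a σ) (π := pn π s h5) (pn_deg π s h5) (pn_e π s h5) (pn_d π s h5)
    (fun k _ => pn_a π s h5 k)
  exact
    { D1 := D1 (ev_pr π s h5) Φ kt_deg kt_e kt_d H (inj Φ hΦ) (c2s_pn π s h5 hc)
      D2 := D2 (ev_pr π s h5) Φ H (c2t_pn π s h5 hc) }

end conc

end Crest.Agent.R186.C2P735
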