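import Crest.Agent.R186.KHc_302
import Crest.Agent.R186.MW_890
import Crest.Agent.R186.WLM_982
import Crest.Agent.R186.C2W_655
import Crest.Agent.R186.Dual_560

/-!
Row 186 (A), line (c2) (helper302): the `H`-part of helper468's `C2D` over the concrete closing data:
`evC : KK → H → M`, `ev_l`, `ev_D`, `ev_deg`, `H0`, `H1`, `H2`, bounded projections of `H`.
-/

set_option autoImplicit false
set_option linter.style.haveILetI false
set_option linter.unusedSectionVars false

noncomputable section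

open MulOpposite

namespace Crest.Agent.R186.C2h302

open DefsQ830 PBW128 Win810 SM890 WL221 C2b44 Cells221 KH186 KHc302 Frame515 Res255 Core890

variable {K : Type} [Field K] (π : Par K)

/-! ### `pi` on `M`, and the socle -/

theorem oM_one_eq (q : Wb) : oM π q 1 = (oo K q : MM π) := by
  rw [oM_apply, map_one]
  rfl

theorem pi_oM_pi : wq π .pi • oM π .pi 1 = soc π 1 := by
  have h : repM π (wq π .pi) (oo K .pi) = oo K .one := by
    rw [C1R808.repM_wq]
    simp [C1R808.dk2, C1R808.dt2]
  have h1 := oM_one_eq π .pi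
  have h2 := oM_one_eq π .one
  rw [h1]
  exact h.trans h2.symm

theorem pi_oM_ne {q : Wb} (hq : q ≠ .pi) : wq π .pi • oM π q 1 = 0 := by
  have h : repM π (wq π .pi) (oo K q) = 0 := by
    rw [C1R808.repM_wq]
    simp [C1R808.dk2, hq]
  rw [oM_one_eq π q]
  exact h

theorem pi_ro (q : Wb) (r : R π) :
    wq π .pi • WLM982.ro π q r = if q = .pi then soc π r else 0 := by
  rw [WLM982.ro_eq, smul_comm]
  split_ifs with h
  · subst h
    rw [pi_oM_pi]
    change rho π r (soc π 1) = _
    rw [soc_right, one_mul]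
  · rw [pi_oM_ne π h]
    exact smul_zero _

/-- **`pi` maps `M` onto the socle** -/
theorem pi_smul (m : MM π) : wq π .pi • m = soc π (WLM982.lM π .pi m) := by
  conv_lhs => rw [WLM982.sum_lM π m, Finset.smul_sum]
  rw [Finset.sum_eq_single Wb.pi]
  · rw [pi_ro, if_pos rfl]
  · intro q _ hq
    rw [pi_ro, if_neg hq]
  · intro h
    exact absurd (Finset.mem_univ _) h

theorem soc_zero {b : RL π} (h : soc π b.1 = 0) : b = 0 := by
  have h1 := WLM982.cM_oM_kill π .one .one b.1
  rw [if_pos rfl, kill_val] at h1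
  change WLM982.cM π .one (soc π b.1) = b.1 at h1
  rw [h, map_zero] at h1
  exact Subtype.ext h1.symm

theorem lM_pcL (s : ℕ) {P A C : ℤ} {m : MM π} (hm : m ∈ pcM π s P A C) :
    prL π (WLM982.lM π .pi m) ∈ pcL π (P + 1) A (C - s + C2W655.dpi) := by
  refine prL_mem ?_
  rw [KOS296.pcZ_eq_pz]
  exact WLM982.lM_mem π s hm .pi

theorem ro_pcM (s : ℕ) {P A C : ℤ} {b : RL π} (hb : b ∈ pcL π P A C) :
    WLM982.ro π .pi b.1 ∈ pcM π s (P - 1) A (C + s - C2W655.dpi) := by
  refine WLM982.ro_mem π s .pi ?_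
  rw [← KOS296.pcZ_eq_pz, show P - 1 + 1 = P by ring,
    show C + s - (C2W655.dpi : ℤ) - s + (wC Wb.pi.word : ℕ) = C by
      change C + s - (wC Wb.pi.word : ℕ) - s + (wC Wb.pi.word : ℕ) = C
      ring]
  exact hb

/-! ### entries -/

section ev

variable {s : ℕ} {hs : 5 ≤ s}

/-- entries of `M` -/
def enM {h : 2 ≤ s} (m : (MW π s h).X) (i j : DefsQ830.Ob) : MM π := m.1 i j

/-- entries of `KK` -/
def enK (x : (CEr π s hs).KK) (i : DefsQ830.Ob) (c : Cell) : RL π := x.1 i c

/-- entries of `H` -/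
def enH (η : (CEr π s hs).H) (c : Cell) (j : DefsQ830.Ob) : RL π := η.1 c j

variable {π}

theorem enM_ext {h : 2 ≤ s} {m n : (MW π s h).X} (h : ∀ i j, enM π m i j = enM π n i j) :
    m = n := by
  apply Subtype.ext
  funext i j
  exact h i j

theorem enH_ext {m n : (CEr π s hs).H} (h : ∀ i j, enH π m i j = enH π n i j) : m = n := by
  apply Subtype.ext
  funext i j
  exact h i j

theorem act_apply {h : 2 ≤ s} (a : (WR π).dga.C) (m : (MW π s h).X) (i j : DefsQ830.Ob) :
    enM π (a • m) i j =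
      ∑ l : DefsQ830.Ob, repM π (C2W655.en (show (WR π).Win from a) i l) (enM π m l j) := rfl

variable (π) in
theorem en_piW (i l : DefsQ830.Ob) :
    C2W655.en (C2W655.piW π) i l = if i = l then wq π .pi else 0 :=
  Matrix.diagonal_apply (n := DefsQ830.Ob) (fun _ => wq π .pi) i l

variable (π) in
theorem en_e (o i l : DefsQ830.Ob) :
    C2W655.en (WD.e (w := WR π) o) i l = if o = i ∧ o = l then (1 : R π) else 0 :=
  Matrix.single_apply (n := DefsQ830.Ob) (m := DefsQ830.Ob) o o (1 : R π) i l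

/-- `pi` in the dg algebra -/
abbrev piA (π : Par K) : (WR π).dga.C := C2W655.piW π

/-- the idempotents in the dg algebra -/
abbrev eA (π : Par K) (o : DefsQ830.Ob) : (WR π).dga.C := WD.e (w := WR π) o

theorem pi_act {h : 2 ≤ s} (m : (MW π s h).X) (i j : DefsQ830.Ob) :
    enM π (piA π • m) i j = soc π (WLM982.lM π .pi (enM π m i j)) := by
  rw [act_apply, Finset.sum_eq_single i]
  · have h : C2W655.en (show (WR π).Win from piA π) i i = wq π .pi :=
      (en_piW π i i).trans (if_pos rfl)
    rw [h]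
    exact pi_smul π _
  · intro l _ hl
    have h : C2W655.en (show (WR π).Win from piA π) i l = 0 :=
      (en_piW π i l).trans (if_neg (Ne.symm hl))
    rw [h, map_zero]
    rfl
  · intro h
    exact absurd (Finset.mem_univ _) h

theorem e_act {h : 2 ≤ s} (o : DefsQ830.Ob) (m : (MW π s h).X) (i j : DefsQ830.Ob) :
    enM π (eA π o • m) i j = if i = o then enM π m i j else 0 := by
  rw [act_apply]
  by_cases hi : i = o
  · subst hi
    rw [if_pos rfl, Finset.sum_eq_single i]
    · have h : C2W655.en (show (WR π).Win from eA π i) i i = 1 :=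
        (en_e π i i i).trans (if_pos ⟨rfl, rfl⟩)
      rw [h, map_one]
      rfl
    · intro l _ hl
      have h : C2W655.en (show (WR π).Win from eA π i) i l = 0 :=
        (en_e π i i l).trans (if_neg (fun h' => hl h'.2.symm))
      rw [h, map_zero]
      rfl
    · intro h
      exact absurd (Finset.mem_univ _) h
  · rw [if_neg hi]
    refine Finset.sum_eq_zero fun l _ => ?_
    have h : C2W655.en (show (WR π).Win from eA π o) i l = 0 :=
      (en_e π o i l).trans (if_neg (fun h' => hi h'.1.symm))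
    rw [h, map_zero]
    rfl

/-! ### the evaluation with values in `M` -/

variable (π s hs) in
/-- the evaluation -/
def evC : (CEr π s hs).KK →ₗ[K] (CEr π s hs).H →ₗ[K] (MW π s (two_le hs)).X :=
  LinearMap.compr₂ (CE.evK (E := CEr π s hs)) (sndW (bdM π s (two_le hs)))

theorem evC_apply (x : (CEr π s hs).KK) (η : (CEr π s hs).H) (i j : DefsQ830.Ob) :
    enM π (evC π s hs x η) i j = soc π (∑ c : Cell, enK π x i c * enH π η c j : RL π).1 := rfl

theorem inrW_evC (x : (CEr π s hs).KK) (η : (CEr π s hs).H) :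
    inrW (bdM π s (two_le hs)) (evC π s hs x η) = CE.evK x η := by
  refine (eq_inrW (bdM π s (two_le hs)) ?_).symm
  apply Subtype.ext
  ext i j
  rfl

theorem evC_l (a : (WR π).dga.C) (x : (CEr π s hs).KK) (η : (CEr π s hs).H) :
    evC π s hs ((CEr π s hs).L ((HmI π s (two_le hs)).f a) x) η = a • evC π s hs x η := by
  apply inrW_inj (bdM π s (two_le hs))
  rw [inrW_evC]
  refine (CE.evK_l (E := CEr π s hs) ((HmI π s (two_le hs)).f a) x η).trans ?_
  refine Eq.trans ?_ (inlH_mul_inrW (bdM π s (two_le hs)) a _)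
  rw [inrW_evC]
  rfl

theorem evC_D (x : (CEr π s hs).KK) (η : (CEr π s hs).H) :
    (MW π s (two_le hs)).d (evC π s hs x η) =
      evC π s hs ((CEr π s hs).dY x) η + evC π s hs x (CE.dH η) := by
  apply inrW_inj (bdM π s (two_le hs))
  rw [inrW_d, map_add, inrW_evC, inrW_evC, inrW_evC]
  exact CE.evK_D x η

theorem evC_deg {k l : ℤ} {x : (CEr π s hs).KK} {η : (CEr π s hs).H}
    (hx : x ∈ (CEr π s hs).gr.G k) (hη : η ∈ (CEr π s hs).gs.G l) :
    evC π s hs x η ∈ (MW π s (two_le hs)).gr (k + l) := by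
  apply mem_of_inrW (bdM π s (two_le hs))
  rw [inrW_evC]
  exact CE.evK_deg hx hη

/-! ### generators -/

/-- matrix units of `KK` -/
def IsU (u : Cell → (CEr π s hs).KK) : Prop :=
  ∀ (c : Cell) (i : DefsQ830.Ob) (c' : Cell),
    enK π (u c) i c' = if i = WL221.oc c ∧ c' = c then (1 : RL π) else 0

theorem evC_u {u : Cell → (CEr π s hs).KK} (hu : IsU u) (c : Cell) (η : (CEr π s hs).H)
    (i j : DefsQ830.Ob) :
    enM π (evC π s hs (u c) η) i j = if i = WL221.oc c then soc π (enH π η c j).1 else 0 := by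
  rw [evC_apply]
  by_cases hi : i = WL221.oc c
  · rw [if_pos hi]
    have h : (∑ c' : Cell, enK π (u c) i c' * enH π η c' j : RL π) = enH π η c j := by
      rw [Finset.sum_eq_single c]
      · rw [hu, if_pos ⟨hi, rfl⟩, one_mul]
      · intro c' _ hc
        rw [hu, if_neg (fun h => hc h.2), zero_mul]
      · intro h
        exact absurd (Finset.mem_univ _) h
    rw [h]
  · rw [if_neg hi]
    have h : (∑ c' : Cell, enK π (u c) i c' * enH π η c' j : RL π) = 0 := by
      refine Finset.sum_eq_zero fun c' _ => ?_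
      rw [hu, if_neg (fun h => hi h.1), zero_mul]
    rw [h]
    exact map_zero (soc π)

/-- **`H0`** -/
theorem H0 {u : Cell → (CEr π s hs).KK} (hu : IsU u) (η : (CEr π s hs).H)
    (h : ∀ c, evC π s hs (u c) η = 0) : η = 0 := by
  refine enH_ext fun c j => ?_
  have h1 : enM π (evC π s hs (u c) η) (WL221.oc c) j = 0 := by
    rw [h c]
    rfl
  rw [evC_u hu, if_pos rfl] at h1
  exact soc_zero π h1

/-- the entries of `H` -/
theorem ro_E {c : Cell} {j : DefsQ830.Ob} (η : (CEr π s hs).H) :
    WLM982.ro π .pi (enH π η c j).1 ∈ E (tbOf (bdM π s (two_le hs))) (WL221.oc c) j := by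
  have key : (CEr π s hs).EB ((WG π s (two_le hs)).P (WL221.oc c) -
      (WG π s (two_le hs)).P j + 1) ((WG π s (two_le hs)).A (WL221.oc c) -
      (WG π s (two_le hs)).A j) ≤ (E (tbOf (bdM π s (two_le hs))) (WL221.oc c) j).comap
      (WLM982.ro π .pi ∘ₗ (RL π).val.toLinearMap) := by
    refine iSup_le fun C => ?_
    intro b hb
    have h1 := ro_pcM π s (b := b) hb
    rw [add_sub_cancel_right] at h1
    refine q_le_E (tbOf (bdM π s (two_le hs))) (WL221.oc c) j (C + s - C2W655.dpi) ?_
    have h2 := q_tbOf (bdM π s (two_le hs)) (WL221.oc c) j (C + s - C2W655.dpi)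
    exact h2.symm ▸ h1
  exact key (η.2 c j)

/-- a lift of the row `c` of `η` -/
def lft (c : Cell) (η : (CEr π s hs).H) : (MW π s (two_le hs)).X :=
  ⟨fun (i : DefsQ830.Ob) (j : DefsQ830.Ob) =>
      if i = WL221.oc c then WLM982.ro π .pi (enH π η c j).1 else 0, by
    intro (i : DefsQ830.Ob) (j : DefsQ830.Ob)
    by_cases hi : i = WL221.oc c
    · subst hi
      change (if WL221.oc c = WL221.oc c then WLM982.ro π .pi (enH π η c j).1 else 0) ∈ _
      rw [if_pos rfl]
      exact ro_E η
    · change (if i = WL221.oc c then WLM982.ro π .pi (enH π η c j).1 else (0 : MM π)) ∈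
        E (tbOf (bdM π s (two_le hs))) i j
      rw [if_neg hi]
      exact Submodule.zero_mem _⟩

theorem enM_lft (c : Cell) (η : (CEr π s hs).H) (i j : DefsQ830.Ob) :
    enM π (lft c η) i j = if i = WL221.oc c then WLM982.ro π .pi (enH π η c j).1 else 0 := rfl

/-- **`H2`** -/
theorem H2 {u : Cell → (CEr π s hs).KK} (hu : IsU u) (c : Cell) (η : (CEr π s hs).H) :
    ∃ m : (MW π s (two_le hs)).X, evC π s hs (u c) η = piA π • m := by
  refine ⟨lft c η, enM_ext fun i j => ?_⟩
  rw [evC_u hu, pi_act, enM_lft]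
  by_cases hi : i = WL221.oc c
  · rw [if_pos hi, if_pos hi, WLM982.lM_ro_of π _ _ (kill_val _), if_pos rfl]
  · rw [if_neg hi, if_neg hi, map_zero, map_zero]

/-- one row -/
def rw1 (c : Cell) (m : (MW π s (two_le hs)).X) (c' : Cell) (j : DefsQ830.Ob) : RL π :=
  if c' = c then prL π (WLM982.lM π .pi (enM π m (WL221.oc c) j)) else 0

theorem rw1_mem {k : ℤ} {c : Cell} {m : (MW π s (two_le hs)).X}
    (hm : m ∈ (MW π s (two_le hs)).gr (k + cdeg c - C2W655.dpi)) (c' : Cell) (j : DefsQ830.Ob) :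
    rw1 (hs := hs) c m c' j ∈
      (CEr π s hs).pb ((WG π s (two_le hs)).P (WL221.oc c') - (WG π s (two_le hs)).P j + 1)
        ((WG π s (two_le hs)).A (WL221.oc c') - (WG π s (two_le hs)).A j)
        (k - s + cdeg c') := by
  unfold rw1
  split_ifs with h
  · subst h
    have h1 := lM_pcL π s ((mem_grM (bdM π s (two_le hs))).1 hm (WL221.oc c') j)
    rw [show k + (cdeg c' : ℤ) - (C2W655.dpi : ℕ) - s + (C2W655.dpi : ℕ) =
      k - s + cdeg c' by ring] at h1
    exact h1
  · exact Submodule.zero_mem _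

/-- **`H1`** -/
theorem H1 {u : Cell → (CEr π s hs).KK} (hu : IsU u) (k : ℤ) (c : Cell)
    (m : (MW π s (two_le hs)).X) (hm : m ∈ (MW π s (two_le hs)).gr (k + cdeg c - C2W655.dpi)) :
    ∃ η ∈ (CEr π s hs).gs.G k,
      evC π s hs (u c) η = eA π (WL221.oc c) • piA π • m ∧
      ∀ c', c' ≠ c → evC π s hs (u c') η = 0 := by
  let η : (CEr π s hs).H := ⟨rw1 (hs := hs) c m, fun c' j =>
    (CEr π s hs).pb_le _ _ _ (rw1_mem hm c' j)⟩
  have hη : ∀ c' j, enH π η c' j = rw1 (hs := hs) c m c' j := fun _ _ => rfl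
  refine ⟨η, CE.mem_gs.2 fun c' j => rw1_mem hm c' j, ?_, ?_⟩
  · refine enM_ext fun i j => ?_
    rw [evC_u hu, e_act, pi_act]
    by_cases hi : i = WL221.oc c
    · rw [if_pos hi, if_pos hi, hη]
      subst hi
      unfold rw1
      rw [if_pos rfl, prL_val, soc_kill]
    · rw [if_neg hi, if_neg hi]
  · intro c' hc
    refine enM_ext fun i j => ?_
    rw [evC_u hu, hη]
    unfold rw1
    rw [if_neg hc]
    split_ifs
    · exact map_zero (soc π)
    · rfl

variable (π s hs) in
/-- **bounded projections of `H`** -/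
def PH : Dual560.Pr (CEr π s hs).Hrm.toGC where
  pi k := (CEr π s hs).gs.pr k
  mem k x := (CEr π s hs).gs.pr_mem k x
  same {k x} hx := (CEr π s hs).gs.mem_G.1 hx
  ne {k l x} h hx := by
    have h1 : (CEr π s hs).gs.pr l x = x := (CEr π s hs).gs.mem_G.1 hx
    have h2 := (CEr π s hs).gs.pr_ne l k x h
    rw [h1] at h2
    exact h2
  lo := 0
  hi := (CEr π s hs).gs.N
  sum x := by
    have h1 := (CEr π s hs).gs.total x
    refine Eq.trans ?_ h1
    rw [← Finset.sum_range (fun k => (CEr π s hs).gs.pr (k : ℤ) x)]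
    refine Finset.sum_bij' (fun k _ => k.toNat) (fun k _ => (k : ℤ)) ?_ ?_ ?_ ?_ ?_
    · intro k hk
      rw [Finset.mem_Icc] at hk
      rw [Finset.mem_range]
      omega
    · intro k hk
      rw [Finset.mem_range] at hk
      rw [Finset.mem_Icc]
      omega
    · intro k hk
      rw [Finset.mem_Icc] at hk
      exact Int.toNat_of_nonneg hk.1
    · intro k _
      exact Int.toNat_natCast k
    · intro k hk
      rw [Finset.mem_Icc] at hk
      rw [Int.toNat_of_nonneg hk.1]
      rfl
  fin k := by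
    change Module.Finite K ((CEr π s hs).gs.G k)
    infer_instance

end ev

end Crest.Agent.R186.C2h302
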