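import Crest.Agent.R186.KV_186
import Crest.Agent.R186.C2L_221
import Crest.Agent.R186.SMp_890

/-!
Row 186 (A), leaf A.KH (helper186): the concrete closing data over `Γ = (bdM π s hs).ext`, and
`KK → V_{-1}` is a quasi-isomorphism of dg modules over `Γ`.
-/

set_option autoImplicit false
set_option linter.style.haveILetI false

noncomputable section

namespace Crest.Agent.R186.KHc186

open Crest.Agent.R186.DefsQ830 Crest.Agent.R186.PBW128 Crest.Agent.R186.Der580
open Crest.Agent.R186.Win810 Crest.Agent.R186.C2b44 Crest.Agent.R186.Cells221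
open Crest.Agent.R186.VOp220 Crest.Agent.R186.Vmod220 Crest.Agent.R186.WL221
open Crest.Agent.R186.SM890 Crest.Agent.R186.KH186

variable {K : Type} [Field K] (π : Par K)

/-! ### projections on the cohomological degree -/

open Classical in
/-- projection of the normal forms -/
def pN (K : Type) [Field K] (C : ℤ) : N K →ₗ[K] N K :=
  Finsupp.linearCombination K (fun ν : Ix => if (dCx ν : ℤ) = C then Finsupp.single ν 1 else 0)

theorem pN_bv (C : ℤ) (i j k : ℕ) (w : List E) (q : Wb) :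
    pN K C (bv K i j k w q) = if (dCx (i, j, k, w, q) : ℤ) = C then bv K i j k w q else 0 := by
  simp [pN, bv]

/-- projection of `R''` -/
def pR (C : ℤ) : R π →ₗ[K] R π := (Psi π) ∘ₗ (pN K C) ∘ₗ (ev π)

theorem pR_same {P A C : ℤ} {r : R π} (hr : r ∈ pcZ π P A C) : pR π C r = r := by
  have h := map_pcZ π (φ := (Psi π) ∘ₗ (pN K C) - Psi π) (T := ⊥) ?_ hr
  · rw [Submodule.mem_bot, LinearMap.sub_apply, LinearMap.comp_apply, Psi_ev, sub_eq_zero] at h
    exact h
  · intro i j k w q _ _ h3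
    rw [Submodule.mem_bot, LinearMap.sub_apply, LinearMap.comp_apply, pN_bv, if_pos h3,
      sub_self]

theorem pR_ne {P A C C' : ℤ} {r : R π} (hC : C' ≠ C) (hr : r ∈ pcZ π P A C) :
    pR π C' r = 0 := by
  have h := map_pcZ π (φ := (Psi π) ∘ₗ (pN K C')) (T := ⊥) ?_ hr
  · rw [Submodule.mem_bot, LinearMap.comp_apply] at h
    exact h
  · intro i j k w q _ _ h3
    rw [Submodule.mem_bot, LinearMap.comp_apply, pN_bv, if_neg (fun h => hC (h.symm.trans h3)),
      map_zero]

/-- projection of `R'` -/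
def pL (C : ℤ) : RL π →ₗ[K] RL π :=
  (prL π).toLinearMap ∘ₗ (pR π C) ∘ₗ (RL π).val.toLinearMap

theorem pL_same {P A C : ℤ} {b : RL π} (hb : b ∈ pcL π P A C) : pL π C b = b := by
  change prL π (pR π C b.1) = b
  rw [show pR π C b.1 = b.1 from pR_same π hb]
  exact prL_inL b

theorem pL_ne {P A C : ℤ} {b : RL π} (C' : ℤ) (hb : b ∈ pcL π P A C) (hC : C' ≠ C) :
    pL π C' b = 0 := by
  change prL π (pR π C' b.1) = 0
  rw [show pR π C' b.1 = 0 from pR_ne π hC hb, map_zero]

/-! ### the closing data -/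

variable (s : ℕ) (hs : 5 ≤ s)

/-- the window data of `Γ` -/
abbrev wG (s : ℕ) (hs : 5 ≤ s) : WD K := (bdM π s (le_trans (by norm_num) hs)).ext

/-- `Γ → R'` -/
def pG : (wG π s hs).S →ₐ[K] RL π := (prL π).comp (bdM π s (le_trans (by norm_num) hs)).fst

/-- `b ↦ b o₁ κ` -/
def oG : RL π →ₗ[K] (wG π s hs).S :=
  (bdM π s (le_trans (by norm_num) hs)).inr ∘ₗ (soc π) ∘ₗ (RL π).val.toLinearMap

theorem pG_apply (a : (wG π s hs).S) : pG π s hs a = prL π a.1 := rfl

theorem oG_apply (b : RL π) : oG π s hs b = SExt44.BD.el _ 0 (soc π b.1) := rfl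

/-- **the closing data over `Γ`** -/
def CEr : CE (wG π s hs) where
  B := RL π
  two b := Subtype.ext (Der580.add_self π b.1)
  pb := pcL π
  pb_mul := pcL_mul
  pb_neg P A C h := pcL_neg (Or.inr h)
  Nb := 8
  pb_big P i j C h := by
    have hi := (show DefsQ830.Ob from i).2.2
    have hj := (show DefsQ830.Ob from j).2.2
    change pcL π P ((((show DefsQ830.Ob from i).2.val : ℕ) : ℤ) -
      (((show DefsQ830.Ob from j).2.val : ℕ) : ℤ)) C = ⊥
    by_cases h0 : 0 ≤ (((show DefsQ830.Ob from i).2.val : ℕ) : ℤ) -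
        (((show DefsQ830.Ob from j).2.val : ℕ) : ℤ)
    · apply pcL_big _ _ h0
      push_cast at h
      omega
    · exact pcL_neg (Or.inl (by omega))
  pb_fin P A C := inferInstance
  prB := pL π
  prB_self := pL_same π
  prB_ne C' hb hC := pL_ne π C' hb hC
  D' := WL221.DL π
  D'_mul := DL_mul
  D'_D' := DL_DL
  D'_mem := pcL_D
  p := pG π s hs
  p_mem h := prL_mem h.1
  p_D a := (DL_prL a.1).symm
  o := oG π s hs
  s0 := s
  o_mem {P A C b} hb := by
    refine SExt44.BD.inr_mem _ ?_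
    refine mem_pcM π s (C' := C) .one ?_ ?_
    · rw [sub_add_cancel]
      exact hb
    · simp [Wb.word, wC]
  mul_o a b := by
    apply SExt44.BD.Car.ext
    · exact mul_zero _
    · change repM π a.1 (soc π b.1) + rho π 0 a.2 = soc π ((prL π a.1).1 * b.1)
      rw [map_zero, LinearMap.zero_apply, add_zero, soc_left, prL_val]
      rw [← soc_kill π ((show R π from a.1) * b.1), map_mul, kill_val]
  o_mul b a := by
    apply SExt44.BD.Car.ext
    · exact zero_mul _
    · change repM π 0 a.2 + rho π a.1 (soc π b.1) = soc π (b.1 * (prL π a.1).1)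
      rw [map_zero, LinearMap.zero_apply, zero_add, soc_right, prL_val]
      rw [← soc_kill π (b.1 * (show R π from a.1)), map_mul, kill_val]
  D_o b := by
    apply SExt44.BD.Car.ext
    · exact map_zero (Der580.D π)
    · change dMM π (soc π b.1) = soc π (WL221.DL π b).1
      rw [soc_D, DL_val, soc_kill]
  p_o b := map_zero (prL π)
  κ := Cell
  oc := oc
  cd := cdeg
  cd_le c := by
    have h1 := cdeg_le c
    push_cast
    omega
  cc := cL π
  cc_mem := cL_mem_q π
  mc := cL_mc π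

/-! ### the module `V_n` over `Γ` -/

/-- the window module `V` over `Γ` -/
def VX (h : HRep π) (n : ℤ) : WMod (wG π s hs) where
  V := Pol K
  rho := h.rho.comp (bdM π s (le_trans (by norm_num) hs)).fst
  W := fun o : DefsQ830.Ob => h.H (n + (o.1.val : ℤ))
  act {i j C a v} ha hv := (VW h n).act (i := i) (j := j) (C := C) (a := a.1) ha.1 hv
  act0 {i j C a v} ha hC hv := (VW h n).act0 (i := i) (j := j) (C := C) (a := a.1) ha.1 hC hv
  actD {i j a v} ha hv := (VW h n).actD (i := i) (j := j) (a := a.1) ha.1 hv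
  fin _ := h.fd _

theorem mem_pb_oc {i : DefsQ830.Ob} {c : Cell} {C : ℤ} {b : RL π} :
    b ∈ (CEr π s hs).pb ((wG π s hs).P i - (wG π s hs).P (oc c))
      ((wG π s hs).A i - (wG π s hs).A (oc c)) C ↔
      b ∈ pcL π (((i.1.val : ℕ) : ℤ) - 1 - cP c) (((i.2.val : ℕ) : ℤ) - cA c) C := q_oc

/-- **the sixteen cells resolve `V_{-1}`, over `Γ`** -/
def kres : KRes (CEr π s hs) (VX π s hs (hr π) (-1)) where
  rB := (hr π).rho.comp (RL π).val
  rB_p a := ((hr π).kil a.1).symm
  rB_pos hb hC := (hr π).pos hC hb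
  rB_D b := ((hr π).kil (Der580.D π b.1)).trans ((hr π).Dz b.1)
  rB_mem {i j C b u} hb hu := (VW (hr π) (-1)).act (i := i) (j := j) (C := C) (a := b.1) hb hu
  v := vKK (K := K)
  v_mem c := (KKres π).v_mem c
  v_zero c := (KKres π).v_zero c
  v_aug c hc := by
    have h := (KKres π).v_aug c hc
    change ∑ τ ∈ FC 0, Vmod220.rep π (cL π c τ).1 (vKK (K := K) τ) = 0 at h
    rw [FC0, Finset.sum_singleton] at h
    change ∑ τ : Cell, Vmod220.rep π (cL π c τ).1 (vKK (K := K) τ) = 0
    rw [Finset.sum_eq_single none, h]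
    · intro b _ hb
      rw [vKK, if_neg hb, map_zero]
    · intro h
      exact absurd (Finset.mem_univ _) h
  exR m i x hx hc := by
    obtain ⟨y, _, h1, h2⟩ := exRL π (P := (((show DefsQ830.Ob from i).1.val : ℕ) : ℤ) - 1)
      (A := (((show DefsQ830.Ob from i).2.val : ℕ) : ℤ)) (M := (m : ℤ) + 1) (by omega) x
      (fun σ => q_oc.1 (hx σ)) hc
    refine ⟨y, fun σ => q_oc.2 ?_, h2⟩
    have := h1 σ
    rwa [show (m : ℤ) + 1 + 1 = (m : ℤ) + 2 by ring] at this
  exR0 i x hx hc := by
    change ∑ c : Cell, Vmod220.rep π (show RL π from x c).1 (vKK (K := K) c) = 0 at hc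
    rw [Finset.sum_eq_single none (fun b _ hb => by rw [vKK, if_neg hb, map_zero])
      (fun h => absurd (Finset.mem_univ _) h), vKK, if_pos rfl] at hc
    obtain ⟨y, _, h1, h2⟩ := exR0L π (P := (((show DefsQ830.Ob from i).1.val : ℕ) : ℤ) - 1)
      (A := (((show DefsQ830.Ob from i).2.val : ℕ) : ℤ))
      (by have := (show DefsQ830.Ob from i).1.2; omega) x (fun σ => q_oc.1 (hx σ)) hc
    exact ⟨y, fun σ => q_oc.2 (h1 σ), h2⟩
  gen i u hu := by
    obtain ⟨x, h1, h2⟩ := KK_gen π i hu
    refine ⟨x, h1, ?_⟩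
    change ∑ c : Cell, Vmod220.rep π (x c).1 (vKK (K := K) c) = u
    rw [Finset.sum_eq_single none (fun b _ hb => by rw [vKK, if_neg hb, map_zero])
      (fun h => absurd (Finset.mem_univ _) h), vKK, if_pos rfl]
    exact h2

end Crest.Agent.R186.KHc186
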