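import Crest.Agent.R186.PBWl_128
import Crest.Agent.R186.WLF_296

/-!
Row 186 (A), helper128: the differential in the LEFT normal form of `R''`.
`D (w_q r) = w_q D r`; `del q = lc q ∘ D`; `D r = ∑ q, w_q * del q r`; `D` in left components;
`D^2 = 0` in left components; degrees; right linearity over `R1 = R'`.
-/

set_option autoImplicit false
set_option linter.unusedSectionVars false

noncomputable section

namespace Crest.Agent.R186.PBW128

open Crest.Agent.R186.DefsQ830
open Crest.Agent.R186.Der580 (D D_X D_mul D_one D_D)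
open Crest.Agent.R186.C2b44 (kill kill_nf kill_kill)

variable {K : Type} [Field K]

/-- the `W`-letters are cycles -/
theorem D_X_Y (π : Par K) (a : Y) : D π (X π a.toGen) = 0 := by
  cases a <;> simp [D_X, dGen, Y.toGen]

theorem D_wq (π : Par K) (q : Wb) : D π (wq π q) = 0 := by
  cases q with
  | one => rw [wq_one, D_one]
  | y s => rw [wq_y]; exact D_X_Y π (.y s)
  | yb s => rw [wq_yb]; exact D_X_Y π (.yb s)
  | pi =>
    rw [wq_pi, D_mul]
    have h0 : D π (X π (.y 0)) = 0 := D_X_Y π (.y 0)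
    have h1 : D π (X π (.y 1)) = 0 := D_X_Y π (.y 1)
    rw [h0, h1, zero_mul, mul_zero, add_zero]

/-- **`D` commutes with left multiplication by `W`** -/
theorem D_wq_mul (π : Par K) (q : Wb) (r : R π) : D π (wq π q * r) = wq π q * D π r := by
  rw [D_mul, D_wq, zero_mul, zero_add]

theorem D_Y_mul (π : Par K) (a : Y) (r : R π) : D π (X π a.toGen * r) = X π a.toGen * D π r := by
  rw [D_mul, D_X_Y, zero_mul, zero_add]

theorem D_mul_Y (π : Par K) (a : Y) (r : R π) : D π (r * X π a.toGen) = D π r * X π a.toGen := by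
  rw [D_mul, D_X_Y, mul_zero, add_zero]

theorem D_mul_wq (π : Par K) (q : Wb) (r : R π) : D π (r * wq π q) = D π r * wq π q := by
  rw [D_mul, D_wq, mul_zero, add_zero]

/-! ### `R1 = R'` as a subalgebra, components are right `R'`-linear -/

theorem kill_of_mem (π : Par K) {r : R π} (hr : r ∈ R1 π) : kill π r = r := by
  have h : R1 π ≤ LinearMap.eqLocus (kill π).toLinearMap LinearMap.id := by
    rw [R1, Submodule.span_le]
    rintro _ ⟨ν, hν, rfl⟩
    show kill π (nf π ν) = nf π ν
    rw [kill_nf]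
    exact if_pos hν
  exact h hr

theorem lc_one (π : Par K) (r : R π) : lc π .one r = kill π r := by
  conv_rhs => rw [← sum_lc π r]
  rw [map_sum, Finset.sum_eq_single .one]
  · rw [wq_one, one_mul, kill_of_mem π (lc_mem π _ r)]
  · intro q _ hq
    rw [map_mul, C2b44.kill_wq, if_neg hq, zero_mul]
  · intro h; exact absurd (Finset.mem_univ _) h

theorem mem_R1_iff (π : Par K) {r : R π} : r ∈ R1 π ↔ kill π r = r := by
  constructor
  · exact kill_of_mem π
  · intro h
    rw [← h, ← lc_one]
    exact lc_mem π _ r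

theorem kill_mem_R1 (π : Par K) (r : R π) : kill π r ∈ R1 π := (mem_R1_iff π).2 (kill_kill π r)

theorem one_mem_R1 (π : Par K) : (1 : R π) ∈ R1 π := (mem_R1_iff π).2 (map_one _)

theorem mul_mem_R1 (π : Par K) {r s : R π} (hr : r ∈ R1 π) (hs : s ∈ R1 π) : r * s ∈ R1 π := by
  rw [mem_R1_iff] at hr hs ⊢
  rw [map_mul, hr, hs]

theorem lc_of_mem (π : Par K) {r : R π} (hr : r ∈ R1 π) (q : Wb) :
    lc π q r = if q = .one then r else 0 := by
  have := lc_wq_mul π q .one hr
  rw [wq_one, one_mul] at this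
  rw [this]
  by_cases h : q = .one
  · rw [if_pos h, if_pos h.symm]
  · rw [if_neg h, if_neg (Ne.symm h)]

/-- **the left components are right `R'`-linear** -/
theorem lc_mul (π : Par K) (q : Wb) (r : R π) {s : R π} (hs : s ∈ R1 π) :
    lc π q (r * s) = lc π q r * s := by
  have e : r * s = ∑ q, wq π q * (lc π q r * s) := by
    conv_lhs => rw [← sum_lc π r]
    rw [Finset.sum_mul]
    exact Finset.sum_congr rfl fun q _ => mul_assoc _ _ _
  rw [e, lc_sum π _ (fun q => mul_mem_R1 π (lc_mem π q r) hs)]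

/-- helper296's components are the same -/
theorem lc_eq_lq (π : Par K) (q : Wb) (r : R π) : lc π q r = WLF296.lq π q r := by
  have h := WLF296.sum_lq π r
  conv_lhs => rw [h]
  rw [lc_sum π _ (fun q => (mem_R1_iff π).2 (WLF296.kill_lq π q r))]

/-! ### structure constants of `W` -/

/-- target of `w_q · w_q'` -/
def tm : Wb → Wb → Wb
  | .one, q => q
  | .y s, q => wt (.y s) q
  | .yb s, q => wt (.yb s) q
  | .pi, _ => .pi

/-- coefficient of `w_q · w_q'` -/
def cm (π : Par K) : Wb → Wb → K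
  | .one, _ => 1
  | .y s, q => wk π (.y s) q
  | .yb s, q => wk π (.yb s) q
  | .pi, .one => 1
  | .pi, _ => 0

theorem wq_mul_wq (π : Par K) (q q' : Wb) :
    wq π q * wq π q' = cm π q q' • wq π (tm q q') := by
  cases q with
  | one => simp [cm, tm, wq_one]
  | y s => rw [wq_y]; exact rW π (.y s) q'
  | yb s => rw [wq_yb]; exact rW π (.yb s) q'
  | pi =>
    cases q' with
    | one => simp [cm, tm, wq_one]
    | y s =>
      rw [wq_y, show wq π .pi * X π (.y s) = _ from wq_mul_Y π .pi (.y s)]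
      rfl
    | yb s =>
      rw [wq_yb, show wq π .pi * X π (.yb s) = _ from wq_mul_Y π .pi (.yb s)]
      rfl
    | pi =>
      rw [show wq π .pi * wq π .pi = wq π .pi * X π (.y 0) * X π (.y 1) by
        conv_lhs => rw [wq_pi π]
        rw [wq_pi π, ← mul_assoc]]
      rw [show wq π .pi * X π (.y 0) = _ from wq_mul_Y π .pi (.y 0)]
      rw [show wkr π .pi (.y 0) = 0 from rfl, zero_smul, zero_mul]
      simp [cm]

theorem cm_one_right (π : Par K) (q : Wb) : cm π q .one = 1 := by
  cases q <;> rfl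

theorem tm_one_right (q : Wb) : tm q .one = q := by
  cases q <;> rfl

theorem cm_one_left (π : Par K) (q : Wb) : cm π .one q = 1 := rfl

theorem tm_one_left (q : Wb) : tm .one q = q := rfl

theorem cm_deg (π : Par K) (q q' : Wb) (h : cm π q q' ≠ 0) :
    wC (tm q q').word = wC q.word + wC q'.word := by
  cases q with
  | one => simp [tm]; rfl
  | y s =>
    have := wk_deg π (.y s) q' h
    rw [show wC (tm (.y s) q').word = wC (wt (.y s) q').word from rfl, this, add_comm]
    rfl
  | yb s =>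
    have := wk_deg π (.yb s) q' h
    rw [show wC (tm (.yb s) q').word = wC (wt (.yb s) q').word from rfl, this, add_comm]
    rfl
  | pi =>
    cases q' with
    | one => rfl
    | _ => exact absurd rfl h

/-- left multiplication by `w_q` in components -/
theorem lc_wq_mul' (π : Par K) (q q1 : Wb) (r : R π) :
    lc π q (wq π q1 * r) = ∑ q2, if tm q1 q2 = q then cm π q1 q2 • lc π q2 r else 0 := by
  conv_lhs => rw [← sum_lc π r]
  rw [Finset.mul_sum, map_sum]
  refine Finset.sum_congr rfl fun q2 _ => ?_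
  rw [← mul_assoc, wq_mul_wq, smul_mul_assoc, map_smul, lc_wq_mul π q _ (lc_mem π q2 r)]
  split_ifs
  · rfl
  · rw [smul_zero]

/-! ### the differential in left components -/

/-- `δ_q = lc q ∘ D` -/
def del (π : Par K) (q : Wb) : R π →ₗ[K] R π := lc π q ∘ₗ D π

theorem del_apply (π : Par K) (q : Wb) (r : R π) : del π q r = lc π q (D π r) := rfl

theorem del_mem (π : Par K) (q : Wb) (r : R π) : del π q r ∈ R1 π := lc_mem π q _

/-- **`D r = ∑ q, w_q · δ_q r`** -/
theorem D_eq (π : Par K) (r : R π) : D π r = ∑ q, wq π q * del π q r := (sum_lc π (D π r)).symm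

theorem del_one (π : Par K) (r : R π) : del π .one r = kill π (D π r) := lc_one π _

/-- **`D` in left components**: `D (∑ w_q1 r_q1) = ∑ w_q1 w_q2 δ_q2 r_q1` -/
theorem lc_D (π : Par K) (q : Wb) (r : R π) : lc π q (D π r) =
    ∑ q1, ∑ q2, if tm q1 q2 = q then cm π q1 q2 • del π q2 (lc π q1 r) else 0 := by
  conv_lhs => rw [← sum_lc π r]
  rw [map_sum, map_sum]
  refine Finset.sum_congr rfl fun q1 _ => ?_
  rw [D_wq_mul, lc_wq_mul']
  rfl

/-- **`D^2 = 0` in left components** -/
theorem del_del (π : Par K) (q : Wb) (r : R π) :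
    ∑ q1, ∑ q2, (if tm q1 q2 = q then cm π q1 q2 • del π q2 (del π q1 r) else 0) = 0 := by
  have h := lc_D π q (D π r)
  rw [D_D, map_zero] at h
  exact h.symm

/-- Leibniz on `R'`, first form -/
theorem del_mul (π : Par K) (q : Wb) (r : R π) {s : R π} (hs : s ∈ R1 π) :
    del π q (r * s) = del π q r * s + lc π q (r * D π s) := by
  rw [del_apply, D_mul, map_add, lc_mul π q _ hs]
  rfl

/-! ### degrees -/

theorem lc_mem_pz (π : Par K) {P A C : ℤ} {r : R π} (hr : r ∈ C2b362.pz π P A C) (q : Wb) :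
    lc π q r ∈ C2b362.pz π P A (C - wC q.word) := by
  rw [lc_eq_lq]
  exact WLF296.lq_mem π hr q

theorem del_mem_pz (π : Par K) {P A C : ℤ} {r : R π} (hr : r ∈ C2b362.pz π P A C) (q : Wb) :
    del π q r ∈ C2b362.pz π P A (C - 1 - wC q.word) :=
  lc_mem_pz π (C2b362.D_pz hr) q

theorem lc_mem_pcZ (π : Par K) {P A C : ℤ} {r : R π} (hr : r ∈ Win810.pcZ π P A C) (q : Wb) :
    lc π q r ∈ Win810.pcZ π P A (C - wC q.word) := by
  rw [KOS296.pcZ_eq_pz] at hr ⊢
  exact lc_mem_pz π hr q

theorem del_mem_pcZ (π : Par K) {P A C : ℤ} {r : R π} (hr : r ∈ Win810.pcZ π P A C) (q : Wb) :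
    del π q r ∈ Win810.pcZ π P A (C - 1 - wC q.word) :=
  lc_mem_pcZ π (Win810.pcZ_D π hr) q

theorem wq_mul_mem_pcZ (π : Par K) {P A C : ℤ} {r : R π} (q : Wb)
    (hr : r ∈ Win810.pcZ π P A (C - wC q.word)) : wq π q * r ∈ Win810.pcZ π P A C := by
  have h : wq π q ∈ Win810.pcZ π 0 0 (wC q.word) := by
    have h1 : wq π q ∈ pc π (wP q.word) (wA q.word) (wC q.word) :=
      Submodule.subset_span ⟨q.word, rfl, rfl, rfl, rfl⟩
    rw [wP_word, wA_word] at h1
    have e : Win810.pcZ π 0 ((0 : ℕ) : ℤ) ((wC q.word : ℕ) : ℤ) = pc π 0 0 (wC q.word) := by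
      rw [KOS296.pcZ_eq_pz, C2b362.pz_eq]
      simp
    have e2 := e ▸ h1
    simpa using e2
  have := Win810.pcZ_mul π h hr
  rwa [zero_add, zero_add, show (wC q.word : ℤ) + (C - wC q.word) = C by ring] at this

end Crest.Agent.R186.PBW128
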