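import Crest.Agent.R186.C2k_122
import Crest.Agent.R186.KVc_186
import Crest.Agent.R186.C2W_655
import Crest.Agent.R186.PBWlD_128

/-!
Row 186, half (A), leaf A.C2s (helper122): the part `KK` of helper468's `C2D`, concrete:
`E = KHc186.CEr π s hs`, `A = (WR π).dga`, `pi = C2W655.piW π`, `KK = KKc π s hs`.
-/

set_option autoImplicit false
set_option linter.style.haveILetI false
set_option linter.unusedSectionVars false

noncomputable section

namespace Crest.Agent.R186.C2k122

open Hat827 Win810 Frame515 Res255 KH186 SExt44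
open DefsQ830 PBW128 C2b44 Cells221 WL221 SM890 KHc186 C2W655 C1R808

variable {K : Type} [Field K] (π : Par K)

/-! ### `wq pi` -/

theorem nf_mul_pi (i j k : ℕ) (w : List E) (q : Wb) :
    nf π (i, j, k, w, q) * wq π .pi = if q = .one then nf π (i, j, k, w, .pi) else 0 := by
  rw [mul_pi_eq, zc_nf]
  split_ifs with h
  · exact (SM890.nf_eq π i j k w .pi).symm
  · rw [zero_mul]

/-- **`wq pi` is normal** -/
theorem mul_pi_nor (r : R π) : r * wq π .pi = wq π .pi * lc π .pi (r * wq π .pi) := by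
  refine WLF296.ext_nf π (φ := LinearMap.mulRight K (wq π .pi))
    (ψ := LinearMap.mulLeft K (wq π .pi) ∘ₗ lc π .pi ∘ₗ LinearMap.mulRight K (wq π .pi)) ?_ r
  intro i j k w q
  change nf π (i, j, k, w, q) * wq π .pi =
    wq π .pi * lc π .pi (nf π (i, j, k, w, q) * wq π .pi)
  rw [nf_mul_pi]
  split_ifs with h
  · rw [lc_eq_lq, WLF296.lq_nf, if_pos rfl, mul_smul_comm, WLF296.wq_nf, smul_smul,
      inv_mul_cancel₀ (WLF296.sg'_ne π .pi i j w), one_smul]
  · rw [map_zero, mul_zero]

theorem mul_pi_zero (r : R π) : r * wq π .pi = 0 ↔ kill π r = 0 := by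
  rw [kill_eq_zc]
  constructor
  · intro h
    rw [← zc_pi_mul_pi, h, map_zero]
  · intro h
    rw [mul_pi_eq, h, zero_mul]

/-! ### window form -/

variable {π}

/-- entries -/
theorem mul_piW_zero {a : (WR π).Win} : a * piW π = 0 ↔ ∀ i j, prL π (en a i j) = 0 := by
  constructor
  · intro h i j
    rw [prL_eq_zero, ← mul_pi_zero, ← en_mul_piW, h, en_zero]
  · intro h
    refine en_ext fun i j => ?_
    rw [en_mul_piW, en_zero, mul_pi_zero, ← prL_eq_zero]
    exact h i j

theorem e_piW (o : DefsQ830.Ob) :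
    WD.e (w := WR π) o * piW π = piW π * WD.e (w := WR π) o := by
  refine en_ext fun i j => ?_
  rw [en_mul_piW, en_piW_mul]
  have h : en (WD.e (w := WR π) o) i j = if o = i ∧ o = j then 1 else 0 :=
    WD.ws_apply (w := WR π) _ _ _ _ _ _
  rw [h]
  split_ifs
  · rw [one_mul, mul_one]
  · rw [zero_mul, mul_zero]

/-- **normality in the window** -/
theorem nor_piW (a : (WR π).Win) : ∃ a' : (WR π).Win, a * piW π = piW π * a' := by
  have h : ∀ i j : DefsQ830.Ob, lc π .pi (en a i j * wq π .pi) ∈ (WR π).E i j := by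
    intro i j
    have key : (WR π).E i j ≤ ((WR π).E i j).comap
        (lc π .pi ∘ₗ LinearMap.mulRight K (wq π .pi)) := by
      refine iSup_le fun C => ?_
      intro r hr
      refine WD.q_le (w := WR π) i j C ?_
      have h1 : (show R π from r) * wq π .pi ∈ pcZ π (((WR π).P i - (WR π).P j) + 0)
          (((WR π).A i - (WR π).A j) + 0) (C + (dpi : ℕ)) := pcZ_mul π hr (pi_mem π)
      have h2 := lc_mem_pcZ π h1 .pi
      rw [add_zero, add_zero, show C + ((dpi : ℕ) : ℤ) - (wC Wb.pi.word : ℕ) = C by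
        rw [show dpi = wC Wb.pi.word from rfl]; ring] at h2
      exact h2
    exact key (a.2 i j)
  refine ⟨⟨Matrix.of fun i j => lc π .pi (en a i j * wq π .pi), h⟩, en_ext fun i j => ?_⟩
  rw [en_mul_piW, en_piW_mul]
  exact mul_pi_nor π (en a i j)

/-! ### the data of the cells -/

variable (π) (s : ℕ) (hs : 5 ≤ s)

/-- the bimodule -/
abbrev BM' : BD (WR π) := bdM π s (le_trans (by norm_num) hs)

theorem qB_apply (a : (WR π).S) : qB (BM' π s hs) (CEr π s hs) a = prL π a := rfl

theorem c0_mem_q (c c' : Cell) :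
    c0 π c c' ∈ (WR π).q (oc c) (oc c') ((cdeg c : ℤ) - cdeg c' - 1) := by
  change c0 π c c' ∈ pcZ π ((((oc c).1.val : ℕ) : ℤ) - (((oc c').1.val : ℕ) : ℤ))
    ((((oc c).2.val : ℕ) : ℤ) - (((oc c').2.val : ℕ) : ℤ)) _
  rw [oc_P, oc_P, oc_A, oc_A, show (1 + cP c - (1 + cP c')) = cP c - cP c' by ring]
  exact c0_mem π c c'

/-- the lift -/
def LFc : Lf (BM' π s hs) (CEr π s hs) where
  sur hb := pcL_lift hb
  c0 := c0 π
  c0_mem := c0_mem_q π
  c0_q _ _ := rfl

/-- `KK` over `L''` -/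
def KKc : LM (WR π).dga := resL (HmI π s (le_trans (by norm_num) hs)) (CEr π s hs).KKlm

/-- generators -/
def uc (c : Cell) : (KKc π s hs).X := u (BM' π s hs) (CEr π s hs) c

/-- idempotents -/
def ecc (c : Cell) : (WR π).dga.C := WD.e (w := WR π) (oc c)

/-- the matrix of the cells, lifted to `L''` -/
def ccc (c c' : Cell) : (WR π).dga.C := cw (LFc π s hs) c c'

variable {π s hs}

theorem uc_mem (c : Cell) : uc π s hs c ∈ (KKc π s hs).gr (cdeg c) := u_mem' (E := CEr π s hs) c

theorem ecc_mem (c : Cell) : ecc π c ∈ (WR π).dga.G 0 := WD.e_mem (w := WR π) _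

theorem ecc_idem (c : Cell) : ecc π c * ecc π c = ecc π c := WD.e_mul_e (w := WR π) _

theorem ecc_uc (c : Cell) : ecc π c • uc π s hs c = uc π s hs c :=
  aL_ec (B := BM' π s hs) (E := CEr π s hs) c

theorem ecc_pi (c : Cell) : ecc π c * (show (WR π).dga.C from piW π) =
    (show (WR π).dga.C from piW π) * ecc π c := e_piW _

theorem ccc_mem (c c' : Cell) : ccc π s hs c c' ∈ (WR π).dga.G ((cdeg c : ℤ) - cdeg c' - 1) :=
  cw_mem (LFc π s hs) c c'

theorem ccc_left (c c' : Cell) : ecc π c * ccc π s hs c c' = ccc π s hs c c' :=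
  cw_left (LFc π s hs) c c'

theorem ccc_right (c c' : Cell) : ccc π s hs c c' * ecc π c' = ccc π s hs c c' :=
  cw_right (LFc π s hs) c c'

theorem uc_d (c : Cell) : (KKc π s hs).d (uc π s hs c) =
    ∑ c' : Cell, ccc π s hs c c' • uc π s hs c' :=
  u_d' (LFc π s hs) c

theorem K1c {k : ℤ} {x : (KKc π s hs).X} (hx : x ∈ (KKc π s hs).gr k) :
    ∃ a : Cell → (WR π).dga.C, (∀ c, a c ∈ (WR π).dga.G (k - cdeg c) ∧ a c * ecc π c = a c) ∧
      x = ∑ c : Cell, a c • uc π s hs c :=
  K1' (LFc π s hs) hx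

theorem K2c {a : Cell → (WR π).dga.C} (ha : ∀ c, a c * ecc π c = a c)
    (h : ∑ c : Cell, a c • uc π s hs c = 0) (c : Cell) :
    a c * (show (WR π).dga.C from piW π) = 0 :=
  mul_piW_zero.2 fun i j => K2' (B := BM' π s hs) (E := CEr π s hs) ha h c i j

theorem K3c {a : (WR π).dga.C} (h : a * (show (WR π).dga.C from piW π) = 0) (c : Cell) :
    a • uc π s hs c = 0 :=
  K3' (B := BM' π s hs) (E := CEr π s hs) (mul_piW_zero.1 h) c

theorem norc (a : (WR π).dga.C) : ∃ a' : (WR π).dga.C,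
    a * (show (WR π).dga.C from piW π) = (show (WR π).dga.C from piW π) * a' := nor_piW a

end Crest.Agent.R186.C2k122
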