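import Crest.Agent.R186.C2fin_468
import Crest.Agent.R186.C2h_302
import Crest.Agent.R186.C2kc_122

/-!
Row 186, half (A), (c2) (helper371): the joint instance of helper468's `C2D` on the concrete objects
(`KK` part: helper122, `H` part: helper302), and (iii) with no hypothesis left.
-/

set_option autoImplicit false
set_option linter.style.haveILetI false
set_option linter.unusedSectionVars false

noncomputable section

open MulOpposite

namespace Crest.Agent.R186.C2T371

open Hat827 Hat827.DGA Frame515 Res255 FinV988 FinD988 SqF124 C2s468 C2b468 C2j468 Adapt186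
open DefsQ830 PBW128 C2b44 Cells221 WL221 C2W655 Win810 SM890 KHc302

variable {K : Type} [Field K] (π : DefsQ830.Par K) (s : ℕ) (hs : 5 ≤ s)

/-- the lift of the coefficients of the cells -/
def LF : C2k122.Lf (bdM π s (two_le hs)) (CEr π s hs) where
  sur hb := pcL_lift hb
  c0 := c0 π
  c0_mem := C2k122.c0_mem_q π
  c0_q _ _ := rfl

/-- generators of `KK` -/
def u (c : Cell) : (CEr π s hs).KK := C2k122.u (bdM π s (two_le hs)) (CEr π s hs) c

theorem isU : C2h302.IsU (u π s hs) := fun _ _ _ => rfl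

/-- **the instance** -/
def c2d : C2fin468.Inp π s hs (welR π) where
  ev := C2h302.evC π s hs
  ev_l := C2h302.evC_l
  ev_D := C2h302.evC_D
  ev_deg := C2h302.evC_deg
  ka := Cell
  cd := cdeg
  u := u π s hs
  u_mem c := C2k122.u_mem' (B := bdM π s (two_le hs)) (E := CEr π s hs) c
  ec := C2k122.ecc π
  ec_mem := C2k122.ecc_mem
  ec_idem := C2k122.ecc_idem
  ec_u c := C2k122.aL_ec (B := bdM π s (two_le hs)) (E := CEr π s hs) c
  ec_pi := C2k122.ecc_pi
  cc := C2k122.cw (LF π s hs)
  cc_mem c c' := C2k122.cw_mem (LF π s hs) c c'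
  cc_l c c' := C2k122.cw_left (LF π s hs) c c'
  cc_r c c' := C2k122.cw_right (LF π s hs) c c'
  u_d c := C2k122.u_d' (LF π s hs) c
  K1 hx := C2k122.K1' (LF π s hs) hx
  K2 _ ha h c := C2k122.mul_piW_zero.2 fun i j =>
    C2k122.K2' (B := bdM π s (two_le hs)) (E := CEr π s hs) ha h c i j
  K3 _ c h := C2k122.K3' (B := bdM π s (two_le hs)) (E := CEr π s hs)
    (C2k122.mul_piW_zero.1 h) c
  nor := C2k122.norc
  H0 η h := C2h302.H0 (isU π s hs) η h
  H1 k c m hm := C2h302.H1 (isU π s hs) k c m hm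
  H2 c η := C2h302.H2 (isU π s hs) c η
  PM := prLM π s (two_le hs)
  PH := C2h302.PH π s hs

/-- **(iii) over `L''`** -/
theorem c3 {Y : RCells (WR π).dga} (R : RRes Y (DM π s (two_le hs))) (k : ℤ) :
    AcIff492.CE (tY Y (resL (HmI π s (two_le hs)) (yL (CEr π s hs).toIn)))
      (Dual560.GCd (HG (CEr π s hs).toIn)) R.lo k (pmap (c2d π s hs) R) :=
  C2fin468.c3 rfl (c2d π s hs) R k

/-- **(iii) in helper124's letters** -/
theorem c3' {Y : RCells (WR π).dga} (R : RRes Y (DM π s (two_le hs))) (k : ℤ) :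
    AcIff492.CE (tY (pushR (HmI π s (two_le hs)) Y) (yL (CEr π s hs).toIn))
      (DZc (CEr π s hs).toIn) R.lo k (c2m (CEr π s hs).toIn (C2fin468.vG (hs := hs) R)) :=
  C2fin468.c3' rfl (c2d π s hs) (fun _ _ => rfl) R k

end Crest.Agent.R186.C2T371
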