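import Crest.Agent.R186.C2t_667
import Crest.Agent.R186.QB_735

/-!
# Row 186, half (A), leaf C2a (helper667), part 4: C2a in the basis `bq π` of `Q` (735's letters)

`HA` : the statement consumed by 354's `XC.HA` with `th b b' = cA π b b' (th π)`.
-/

set_option autoImplicit false

noncomputable section

namespace Crest.Agent.R186.C2a667

open Crest.Agent.R186.DefsQ830
open Crest.Agent.R186.Win810 Crest.Agent.R186.C2q667
open Crest.Agent.R186.C2b44 (kill)
open Crest.Agent.R186.VQ735 (lp Q MQ yl sumL pz Bt bq bq_mem repr_ne coef coef_apply cA th md)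
open Crest.Agent.R186.Loc261 (Lt li wp wp_nil ext_wp Qc)

variable {K : Type} [Field K] (π : Par K)

/-- the linear map with given values on the basis -/
def lin (k : Bt π → R π) : Q π →ₗ[K] R π := (bq π).constr K k

theorem lin_bq (k : Bt π → R π) (b : Bt π) : lin π k (bq π b) = k b :=
  (bq π).constr_basis K k b

theorem lin_apply (k : Bt π → R π) (B : Finset (Bt π)) (hB : ∀ b, b ∉ B → k b = 0) (u : Q π) :
    lin π k u = ∑ b ∈ B, (bq π).repr u b • k b := by
  rw [lin, Module.Basis.constr_apply, Finsupp.sum]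
  have e1 : ∑ b ∈ ((bq π).repr u).support, (bq π).repr u b • k b =
      ∑ b ∈ B ∪ ((bq π).repr u).support, (bq π).repr u b • k b := by
    refine Finset.sum_subset Finset.subset_union_right ?_
    intro b _ hb
    rw [Finsupp.notMem_support_iff.1 hb, zero_smul]
  have e2 : ∑ b ∈ B, (bq π).repr u b • k b =
      ∑ b ∈ B ∪ ((bq π).repr u).support, (bq π).repr u b • k b := by
    refine Finset.sum_subset Finset.subset_union_left ?_
    intro b _ hb
    rw [hB b hb, smul_zero]
  rw [e1, e2]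

theorem md_coe (w : List Lt) : md (w : Multiset Lt) = qs w := by
  induction w with
  | nil => rfl
  | cons g w ih =>
    rw [← Multiset.cons_coe, VQ735.md_cons, ih, qs_cons]
    cases g <;> rfl

theorem Qc_Qd (m : Multiset Lt) : Qc (lp π) m ≤ Qd (lp π) (md m : ℤ) := by
  apply Loc261.Qc_le
  intro w hw
  have := wp_Qd (lp π) w
  rw [← md_coe, hw] at this
  exact this

theorem lin_mem {P A C : ℤ} (k : Bt π → R π) (hk : ∀ b, k b ∈ pz π P A (C - VQ735.qd b)) :
    lin π k ∈ Hg π P A C := by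
  intro w
  rw [lin, Module.Basis.constr_apply, Finsupp.sum]
  refine Submodule.sum_mem _ fun b _ => ?_
  by_cases hb : b.1 = (w : Multiset Lt)
  · refine Submodule.smul_mem _ _ ?_
    have h := hk b
    have e : VQ735.qd b = qs w := by
      unfold VQ735.qd; rw [hb, md_coe]
    rw [e] at h
    exact h
  · rw [repr_ne π (Loc261.wp_mem (lp π) w) hb, zero_smul]
    exact Submodule.zero_mem _

theorem tx_lin (k : Bt π → R π) (B : Finset (Bt π)) (hB : ∀ b, b ∉ B → k b = 0) (b' : Bt π) :
    tx π (lin π k) (bq π b') = ∑ b ∈ B, k b * cA π b b' (th π) := by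
  rw [tx_apply]
  simp only [lin_apply π k B hB, Finset.sum_mul]
  rw [Finset.sum_comm]
  refine Finset.sum_congr rfl fun b _ => ?_
  rw [VQ735.cA_th, Finset.mul_sum]
  refine Finset.sum_congr rfl fun g _ => ?_
  rw [coef_apply, smul_mul_assoc, mul_smul_comm]

theorem bq_zero {b : Bt π} (h : b.1 = 0) : ∃ c : K, bq π b = c • 1 := by
  have h1 := bq_mem π b
  rw [h] at h1
  have h2 : Qc (lp π) 0 ≤ Submodule.span K {(1 : Q π)} := by
    apply Loc261.Qc_le
    intro w hw
    have : w = [] := by simpa using hw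
    subst this
    rw [wp_nil]
    exact Submodule.mem_span_singleton_self _
  obtain ⟨c, hc⟩ := Submodule.mem_span_singleton.1 (h2 h1)
  exact ⟨c, hc.symm⟩

/-- **C2a in basis form** (354's `HA`) -/
theorem HA {P A C : ℤ} (B : Finset (Bt π)) (hB : ∀ b : Bt π, (VQ735.qd b : ℤ) ≤ C + 1 → b ∈ B)
    (k : Bt π → R π) (hk : ∀ b, k b ∈ pz π P A (C - VQ735.qd b))
    (hc : ∀ b', Der580.D π (k b') + ∑ b ∈ B, k b * cA π b b' (th π) = 0)
    (he : ∀ b : Bt π, b.1 = 0 → kill π (k b) = 0) :
    ∃ y : Bt π → R π, (∀ b, y b ∈ pz π P A (C + 1 - VQ735.qd b)) ∧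
      (∀ b : Bt π, b.1 = 0 → kill π (y b) = 0) ∧
      ∀ b', k b' = Der580.D π (y b') + ∑ b ∈ B, y b * cA π b b' (th π) := by
  have hkB : ∀ b, b ∉ B → k b = 0 := by
    intro b hb
    have h := hk b
    have h1 : ¬ ((VQ735.qd b : ℤ) ≤ C + 1) := fun h2 => hb (hB b h2)
    rw [VQ735.pz_neg π (by omega)] at h
    exact h
  have hcl : DX π (lin π k) + tx π (lin π k) = 0 := by
    refine (bq π).ext fun b' => ?_
    rw [LinearMap.add_apply, DX_apply, lin_bq, tx_lin π k B hkB, hc b']
    rfl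
  have h1 : kill π (lin π k 1) = 0 := by
    rw [lin, Module.Basis.constr_apply, Finsupp.sum, map_sum]
    refine Finset.sum_eq_zero fun b _ => ?_
    rw [map_smul]
    by_cases hb : b.1 = 0
    · rw [he b hb, smul_zero]
    · have h2 : (1 : Q π) ∈ Qc (lp π) 0 := Loc261.wp_mem (lp π) []
      rw [repr_ne π h2 hb, zero_smul]
  obtain ⟨y', hy', hy1, e⟩ := tot π (lin_mem π k hk) hcl h1
  have hm : ∀ b, y' (bq π b) ∈ pz π P A (C + 1 - VQ735.qd b) := fun b =>
    Hg_Qd π hy' (Qc_Qd π b.1 (bq_mem π b))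
  have hyB : ∀ b, b ∉ B → y' (bq π b) = 0 := by
    intro b hb
    have h := hm b
    have h1 : ¬ ((VQ735.qd b : ℤ) ≤ C + 1) := fun h2 => hb (hB b h2)
    rw [VQ735.pz_neg π (by omega)] at h
    exact h
  have hly : lin π (fun b => y' (bq π b)) = y' := by
    refine (bq π).ext fun b => ?_
    rw [lin_bq]
  refine ⟨fun b => y' (bq π b), hm, ?_, ?_⟩
  · intro b hb
    obtain ⟨c, hc⟩ := bq_zero π hb
    show kill π (y' (bq π b)) = 0
    rw [hc, map_smul, map_smul, hy1, smul_zero]
  · intro b'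
    have e1 := LinearMap.congr_fun e (bq π b')
    rw [LinearMap.add_apply, lin_bq, DX_apply] at e1
    rw [e1]
    congr 1
    rw [← tx_lin π (fun b => y' (bq π b)) B hyB, hly]

end Crest.Agent.R186.C2a667
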