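import Crest.Agent.R186.C2p_354
import Crest.Agent.R186.C2h_667

/-!
# Row 186, half (A), leaf C2 final (helper354): `X''` resolves `V_{-1}` over `L''`, no hypotheses
-/

set_option autoImplicit false

noncomputable section

namespace Crest.Agent.R186.C2f354

open Crest.Agent.R186.DefsQ830 Crest.Agent.R186.Win810 Crest.Agent.R186.C2x354
open Crest.Agent.R186.VQ735 (Bt)

variable {K : Type} [Field K] (π : Par K)

/-- **C2a for the window of `R''`** -/
theorem hA : (XR π).HA := by
  intro i j C B hB k hk hc he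
  change Bt π → R π at k
  have hk' : ∀ b, k b ∈ VQ735.pz π (((i.1.val : ℕ) : ℤ) - ((j.1.val : ℕ) : ℤ))
      (((i.2.val : ℕ) : ℤ) - ((j.2.val : ℕ) : ℤ)) (C - VQ735.qd b) := fun b => by
    rw [pz_pcZ]
    exact hk b
  obtain ⟨y, h1, h2, h3⟩ := C2a667.HA π B hB k hk' hc (fun b hb => by
    have e := content_eq π hb
    rw [e]
    exact he)
  refine ⟨y, fun b => ?_, h2 _ rfl, h3⟩
  have h := h1 b
  rw [pz_pcZ] at h
  exact h

/-- `X''` over `L''`, graded form -/
def gpre : C2p354.GPre (WR π) (VR π (-1)) := C2p354.gpreX π (hA π)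

/-- **`X''` as a `Pre` over `L''`** -/
def pre : SemiFree515.Pre (WR π).dga (VR π (-1)).VM := C2p354.preX π (hA π)

end Crest.Agent.R186.C2f354
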