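import Crest.Agent.R186.WinR_810

/-!
Row 186 (helper810): projections onto the cohomological degrees in a window algebra.

* `Prj w` : projections `pr k` of `w.S` compatible with the pieces.
* `Prj.pi k : w.Win →ₗ[K] w.Win` with `pi_mem`, `pi_same`, `pi_diff`, `pi_sum`, `pi_mul`, `mul_pi`, `pi_D`.
* `PrjR π : Prj (WR π)`.
-/

set_option autoImplicit false
set_option linter.style.haveILetI false

namespace Crest.Agent.R186.Win810

open Hat827

/-- projections onto the cohomological degrees -/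
structure Prj {K : Type} [Field K] (w : WD K) where
  pr : ℤ → w.S →ₗ[K] w.S
  same : ∀ {P A C : ℤ} {a : w.S}, a ∈ w.pc P A C → pr C a = a
  diff : ∀ {P A C C' : ℤ} {a : w.S}, a ∈ w.pc P A C → C' ≠ C → pr C' a = 0

namespace Prj

open WD

variable {K : Type} [Field K] {w : WD K} (p : Prj w)

include p

theorem pr_mem {i j : w.Ob} {a : w.S} (ha : a ∈ w.E i j) (k : ℤ) : p.pr k a ∈ w.q i j k := by
  have key : w.E i j ≤ (w.q i j k).comap (p.pr k) := by
    refine iSup_le fun C => ?_
    intro x hx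
    rw [Submodule.mem_comap]
    by_cases h : k = C
    · subst h
      rw [p.same hx]
      exact hx
    · rw [p.diff hx h]
      exact Submodule.zero_mem _
  exact key ha

theorem pr_sum {i j : w.Ob} {a : w.S} (ha : a ∈ w.E i j) :
    ∑ k ∈ Finset.range (w.N + 1), p.pr (k : ℤ) a = a := by
  have key : w.E i j ≤ LinearMap.eqLocus (∑ k ∈ Finset.range (w.N + 1), p.pr (k : ℤ))
      LinearMap.id := by
    rw [E_eq]
    refine iSup_le fun C => ?_
    intro x hx
    rw [LinearMap.mem_eqLocus, LinearMap.sum_apply, LinearMap.id_apply,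
      Finset.sum_eq_single (C : ℕ)]
    · exact p.same hx
    · intro b _ hb
      exact p.diff hx (by exact_mod_cast hb)
    · intro h
      exact absurd (Finset.mem_range.2 C.2) h
  have h := key ha
  rw [LinearMap.mem_eqLocus, LinearMap.sum_apply, LinearMap.id_apply] at h
  exact h

theorem pr_neg {i j : w.Ob} {a : w.S} (ha : a ∈ w.E i j) {k : ℤ} (hk : k < 0) : p.pr k a = 0 := by
  have h := p.pr_mem ha k
  rw [show w.q i j k = ⊥ from w.neg i j k hk] at h
  exact (Submodule.mem_bot K).1 h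

theorem pr_big {i j : w.Ob} {a : w.S} (ha : a ∈ w.E i j) {k : ℤ} (hk : (w.N : ℤ) < k) :
    p.pr k a = 0 := by
  have h := p.pr_mem ha k
  rw [show w.q i j k = ⊥ from w.big i j k hk] at h
  exact (Submodule.mem_bot K).1 h

theorem pr_mul_left {i j l : w.Ob} {k : ℤ} {a b : w.S} (ha : a ∈ w.q i j k) (hb : b ∈ w.E j l)
    (m : ℤ) : p.pr (k + m) (a * b) = a * p.pr m b := by
  have key : w.E j l ≤ LinearMap.eqLocus ((p.pr (k + m)).comp (LinearMap.mulLeft K a))
      ((LinearMap.mulLeft K a).comp (p.pr m)) := by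
    refine iSup_le fun C => ?_
    intro x hx
    rw [LinearMap.mem_eqLocus, LinearMap.comp_apply, LinearMap.comp_apply,
      LinearMap.mulLeft_apply, LinearMap.mulLeft_apply]
    by_cases h : m = C
    · subst h
      rw [p.same hx, p.same (q_mul ha hx)]
    · rw [p.diff hx h, mul_zero, p.diff (q_mul ha hx) (by omega)]
  exact key hb

theorem pr_mul_right {i j l : w.Ob} {k : ℤ} {a b : w.S} (ha : a ∈ w.E i j) (hb : b ∈ w.q j l k)
    (m : ℤ) : p.pr (m + k) (a * b) = p.pr m a * b := by
  have key : w.E i j ≤ LinearMap.eqLocus ((p.pr (m + k)).comp (LinearMap.mulRight K b))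
      ((LinearMap.mulRight K b).comp (p.pr m)) := by
    refine iSup_le fun C => ?_
    intro x hx
    rw [LinearMap.mem_eqLocus, LinearMap.comp_apply, LinearMap.comp_apply,
      LinearMap.mulRight_apply, LinearMap.mulRight_apply]
    by_cases h : m = C
    · subst h
      rw [p.same hx, p.same (q_mul hx hb)]
    · rw [p.diff hx h, zero_mul, p.diff (q_mul hx hb) (by omega)]
  exact key ha

theorem pr_D {i j : w.Ob} {a : w.S} (ha : a ∈ w.E i j) (k : ℤ) :
    w.D (p.pr k a) = p.pr (k - 1) (w.D a) := by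
  have key : w.E i j ≤ LinearMap.eqLocus (w.D.comp (p.pr k)) ((p.pr (k - 1)).comp w.D) := by
    refine iSup_le fun C => ?_
    intro x hx
    rw [LinearMap.mem_eqLocus, LinearMap.comp_apply, LinearMap.comp_apply]
    by_cases h : k = C
    · subst h
      rw [p.same hx, p.same (q_D hx)]
    · rw [p.diff hx h, map_zero, p.diff (q_D hx) (by omega)]
  exact key ha

/-- the projection onto degree `k` of the window algebra -/
def pi (k : ℤ) : w.Win →ₗ[K] w.Win where
  toFun m := ⟨Matrix.of fun i j => p.pr k (m.1 i j), fun i j => q_le i j k (p.pr_mem (m.2 i j) k)⟩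
  map_add' a b := by
    apply Subtype.ext
    ext i j
    exact map_add (p.pr k) _ _
  map_smul' r a := by
    apply Subtype.ext
    ext i j
    exact map_smul (p.pr k) _ _

@[simp] theorem pi_apply (k : ℤ) (m : w.Win) (i j : w.Ob) : (p.pi k m).1 i j = p.pr k (m.1 i j) := rfl

theorem pi_mem (k : ℤ) (m : w.Win) : p.pi k m ∈ w.G k := fun i j => p.pr_mem (m.2 i j) k

theorem pi_same {k : ℤ} {m : w.Win} (h : m ∈ w.G k) : p.pi k m = m := by
  apply Subtype.ext
  ext i j
  exact p.same (h i j)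

theorem pi_diff {k l : ℤ} {m : w.Win} (h : m ∈ w.G l) (hkl : k ≠ l) : p.pi k m = 0 := by
  apply Subtype.ext
  ext i j
  exact p.diff (h i j) hkl

theorem pi_sum (m : w.Win) : ∑ k ∈ Finset.range (w.N + 1), p.pi (k : ℤ) m = m := by
  apply Subtype.ext
  ext i j
  have h := p.pr_sum (m.2 i j)
  have e : (∑ k ∈ Finset.range (w.N + 1), p.pi (k : ℤ) m).1 i j =
      ∑ k ∈ Finset.range (w.N + 1), p.pr (k : ℤ) (m.1 i j) := by
    rw [AddSubmonoidClass.coe_finsetSum, Matrix.sum_apply]
    rfl
  rw [e, h]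

theorem pi_neg {k : ℤ} (hk : k < 0) : p.pi k = 0 := by
  apply LinearMap.ext
  intro m
  apply Subtype.ext
  ext i j
  exact p.pr_neg (m.2 i j) hk

theorem pi_big {k : ℤ} (hk : (w.N : ℤ) < k) : p.pi k = 0 := by
  apply LinearMap.ext
  intro m
  apply Subtype.ext
  ext i j
  exact p.pr_big (m.2 i j) hk

/-- left multiplication by a homogeneous element -/
theorem pi_mul_left {k : ℤ} {a : w.Win} (ha : a ∈ w.G k) (b : w.Win) (m : ℤ) :
    p.pi (k + m) (a * b) = a * p.pi m b := by
  apply Subtype.ext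
  ext i j
  change p.pr (k + m) ((a.1 * b.1) i j) = (a.1 * (p.pi m b).1) i j
  rw [Matrix.mul_apply, Matrix.mul_apply, map_sum]
  exact Finset.sum_congr rfl fun l _ => p.pr_mul_left (ha i l) (b.2 l j) m

/-- right multiplication by a homogeneous element -/
theorem pi_mul_right {k : ℤ} (a : w.Win) {b : w.Win} (hb : b ∈ w.G k) (m : ℤ) :
    p.pi (m + k) (a * b) = p.pi m a * b := by
  apply Subtype.ext
  ext i j
  change p.pr (m + k) ((a.1 * b.1) i j) = ((p.pi m a).1 * b.1) i j
  rw [Matrix.mul_apply, Matrix.mul_apply, map_sum]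
  exact Finset.sum_congr rfl fun l _ => p.pr_mul_right (a.2 i l) (hb l j) m

theorem pi_D (k : ℤ) (m : w.Win) : w.DW (p.pi k m) = p.pi (k - 1) (w.DW m) := by
  apply Subtype.ext
  ext i j
  exact p.pr_D (m.2 i j) k

end Prj

/-! ### the algebra `R''` -/

open Crest.Agent.R186.DefsQ830 Crest.Agent.R186.PBW128 Crest.Agent.R186.Der580

variable {K : Type} [Field K] (π : Par K)

/-- coordinates of degree `k` -/
noncomputable def cpr (k : ℤ) : N K →ₗ[K] N K where
  toFun n := n.filter (fun ν : Ix => ((dCx ν : ℕ) : ℤ) = k)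
  map_add' _ _ := Finsupp.filter_add
  map_smul' _ _ := Finsupp.filter_smul

theorem cpr_same {P : ℤ} {A C : ℕ} {n : N K} (h : n ∈ NS K P A C) : cpr (C : ℤ) n = n := by
  refine Finsupp.filter_eq_self_iff _ _ |>.2 ?_
  intro ν hν
  have := (mem_NS_iff.1 h ν hν).2.2
  rw [this]

theorem cpr_diff {P : ℤ} {A C : ℕ} {k : ℤ} {n : N K} (h : n ∈ NS K P A C) (hk : k ≠ C) :
    cpr k n = 0 := by
  refine Finsupp.filter_eq_zero_iff _ _ |>.2 ?_
  intro ν hν
  by_contra h0
  have := (mem_NS_iff.1 h ν h0).2.2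
  rw [this] at hν
  exact hk hν.symm

/-- the part of degree `k` of an element of `R''` -/
noncomputable def prR (k : ℤ) : R π →ₗ[K] R π := (Psi π).comp ((cpr k).comp (ev π))

theorem ev_prR (k : ℤ) (r : R π) : ev π (prR π k r) = cpr k (ev π r) := ev_Psi π _

theorem ev_prR_apply (k : ℤ) (r : R π) (ν : Ix) :
    ev π (prR π k r) ν = if ((dCx ν : ℕ) : ℤ) = k then ev π r ν else 0 := by
  rw [ev_prR]
  exact Finsupp.filter_apply _ _ _

theorem prR_same {P A C : ℤ} {a : R π} (ha : a ∈ pcZ π P A C) : prR π C a = a := by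
  rcases pcZ_cases π ha with rfl | ⟨A1, C1, rfl, rfl, ha2⟩
  · exact map_zero _
  · have h := (mem_pc_iff π).1 ha2
    change Psi π (cpr (C1 : ℤ) (ev π a)) = a
    rw [cpr_same h, Psi_ev]

theorem prR_diff {P A C C' : ℤ} {a : R π} (ha : a ∈ pcZ π P A C) (h : C' ≠ C) :
    prR π C' a = 0 := by
  rcases pcZ_cases π ha with rfl | ⟨A1, C1, rfl, rfl, ha2⟩
  · exact map_zero _
  · have h1 := (mem_pc_iff π).1 ha2
    change Psi π (cpr C' (ev π a)) = 0
    rw [cpr_diff h1 h, map_zero]

/-- the projections for the window data of `R''` -/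
noncomputable def PrjR : Prj (WR π) where
  pr := prR π
  same ha := prR_same π ha
  diff ha h := prR_diff π ha h

end Crest.Agent.R186.Win810
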