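import Crest.Agent.R186.DJ_187
import Crest.Agent.R186.C2f_354
import Crest.Agent.R186.SMp_890
import Crest.Agent.R186.KHc_302
import Crest.Agent.R186.Res2_255

/-!
Row 186 (A), (c2) window layer (helper735): 187's `C2s`, `C2t` over the window algebras, from the
elementwise statement (c2) (`Cone π s`) on 735's cells and 890's bimodule.

* `prM π s hs : Prj (HmI π s hs)` : the projection of `Γ` to `M`.
* `Bd E` : the dictionary between 186 / 302's `CE` over `Γ` and `R π` (all fields `rfl`-like).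
* `pj`, `pj_deg`, `pj_e`, `pj_d` : the projection `X'' → KK`.
* `c2s`, `c2t`.
-/

set_option autoImplicit false
set_option linter.style.haveILetI false

noncomputable section

namespace Crest.Agent.R186.C2W735

open Hat827 Win810 DefsQ830 Cells221 DJ187 Res255 Frame515
open Crest.Agent.R186.VQ735 (Io sI cI FI mem_FI Bt cAd qd)
open Crest.Agent.R186.SM890 (MM dMM oM pcM bdM HmI HmP HmP_HmI Gm)
open Crest.Agent.R186.C2b44 (kill c0)
open Crest.Agent.R186.C2x354 (oc oc_fst oc_snd)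
open Crest.Agent.R186.WL221 (RL)

variable {K : Type} [Field K] (π : Par K) (s : ℕ) (hs : 2 ≤ s)

/-! ### the elementwise statement -/

/-- the differential of `Hom (X'', M)` -/
def dI (φ : Io π → MM π) (σ : Io π) : MM π :=
  dMM π (φ σ) + ∑ τ ∈ FI π (sI σ), cI π σ τ • φ τ

/-- the differential of `H` -/
def dE (η : Cell → R π) (c : Cell) : R π :=
  kill π (Der580.D π (η c) + ∑ c', c0 π c c' * η c')

/-- coordinate of `1 ∈ Q` -/
def e1 (q : Bt π) : K := (VQ735.bq π).repr 1 q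

/-- `η ↦ ev (π ⊗ η)` -/
def io (η : Cell → R π) (σ : Io π) : MM π := e1 π σ.2 • oM π .one (η σ.1)

/-- degrees of `Hom^p (X'', M)` -/
def HomP (P0 A0 p : ℤ) (φ : Io π → MM π) : Prop :=
  ∀ σ, φ σ ∈ pcM π s (P0 + cP σ.1) (A0 + cAd σ.1) ((sI σ : ℤ) - p)

/-- degrees of `H^p` -/
def HP (P0 A0 p : ℤ) (η : Cell → R π) : Prop :=
  ∀ c, η c ∈ pcZ π (P0 + cP c + 1) (A0 + cAd c) ((cdeg c : ℤ) - p - s) ∧ kill π (η c) = η c

/-- **(c2), elementwise** (307's `c2_cone`, 457's `c2`) -/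
def Cone : Prop := ∀ (P0 A0 p : ℤ) (η : Cell → R π) (φ : Io π → MM π),
  HP π s P0 A0 (p + 1) η → HomP π s P0 A0 p φ → (∀ c, dE π η c = 0) →
  (∀ σ, dI π φ σ = io π η σ) →
  ∃ (η' : Cell → R π) (φ' : Io π → MM π), HP π s P0 A0 p η' ∧ HomP π s P0 A0 (p - 1) φ' ∧
    (∀ c, η c = dE π η' c) ∧ ∀ σ, φ σ = io π η' σ + dI π φ' σ

/-! ### the projection to `M` -/

/-- the window data of `Γ` -/
abbrev wG : WD K := (bdM π s hs).ext

theorem hmI_apply (m : (WR π).dga.C) (i j : DefsQ830.Ob) :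
    ((HmI π s hs).f m : (wG π s hs).Win).1 i j = (bdM π s hs).inl ((m : (WR π).Win).1 i j) := rfl

theorem hmP_apply (m : (Gm π s hs).C) (i j : DefsQ830.Ob) :
    ((HmP π s hs).f m : (WR π).Win).1 i j = ((m : (wG π s hs).Win).1 i j).1 := rfl

/-- **the projection of `Γ` to `M`** -/
def prM : Prj (HmI π s hs) where
  pr := LinearMap.id - (HmI π s hs).f.toLinearMap ∘ₗ (HmP π s hs).f.toLinearMap
  pr_l b a := by
    change (HmI π s hs).f b * a - (HmI π s hs).f ((HmP π s hs).f ((HmI π s hs).f b * a)) =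
      (HmI π s hs).f b * (a - (HmI π s hs).f ((HmP π s hs).f a))
    rw [map_mul, HmP_HmI, map_mul, mul_sub]
  pr_D a := by
    change (Gm π s hs).D a - (HmI π s hs).f ((HmP π s hs).f ((Gm π s hs).D a)) =
      (Gm π s hs).D (a - (HmI π s hs).f ((HmP π s hs).f a))
    rw [(HmP π s hs).D, (HmI π s hs).D, map_sub]
  pr_mem ha := Submodule.sub_mem _ ha ((HmI π s hs).mem ((HmP π s hs).mem ha))
  pr_pr a := by
    change (a - (HmI π s hs).f ((HmP π s hs).f a)) -
      (HmI π s hs).f ((HmP π s hs).f (a - (HmI π s hs).f ((HmP π s hs).f a))) =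
      a - (HmI π s hs).f ((HmP π s hs).f a)
    rw [map_sub, HmP_HmI, sub_self, map_zero, sub_zero]

/-! ### entries -/

/-- entries -/
def en (m : (wG π s hs).Win) (i j : DefsQ830.Ob) : (wG π s hs).S := m.1 i j

/-- first component -/
def k1 (x : (wG π s hs).S) : R π := x.1

/-- second component -/
def k2 (x : (wG π s hs).S) : MM π := x.2

variable {s hs} in
theorem k_ext {x y : (wG π s hs).S} (h1 : k1 π s hs x = k1 π s hs y)
    (h2 : k2 π s hs x = k2 π s hs y) : x = y := SExt44.BD.Car.ext _ h1 h2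

variable {s hs} in
theorem en_ext {m m' : (wG π s hs).Win} (h : ∀ i j, en π s hs m i j = en π s hs m' i j) :
    m = m' := Subtype.ext (Matrix.ext h)

theorem en_zero (i j : DefsQ830.Ob) : en π s hs 0 i j = 0 := rfl

theorem en_add (m m' : (wG π s hs).Win) (i j : DefsQ830.Ob) :
    en π s hs (m + m') i j = en π s hs m i j + en π s hs m' i j := rfl

theorem en_sum {ι : Type} (S : Finset ι) (f : ι → (wG π s hs).Win) (i j : DefsQ830.Ob) :
    en π s hs (∑ k ∈ S, f k) i j = ∑ k ∈ S, en π s hs (f k) i j := by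
  classical
  induction S using Finset.induction_on with
  | empty => rfl
  | insert a S ha ih =>
    rw [Finset.sum_insert ha, Finset.sum_insert ha, ← ih]
    rfl

theorem k2_sum {ι : Type} (S : Finset ι) (f : ι → (wG π s hs).S) :
    k2 π s hs (∑ k ∈ S, f k) = ∑ k ∈ S, k2 π s hs (f k) := by
  classical
  induction S using Finset.induction_on with
  | empty => rfl
  | insert a S ha ih =>
    rw [Finset.sum_insert ha, Finset.sum_insert ha, ← ih]
    rfl

theorem prM_iff (a : (wG π s hs).Win) :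
    (prM π s hs).pr a = a ↔ ∀ i j, k1 π s hs (en π s hs a i j) = 0 := by
  constructor
  · intro h i j
    have h1 : (HmP π s hs).f a = 0 := by
      have h2 : (show (Gm π s hs).C from a) - (HmI π s hs).f ((HmP π s hs).f a) = a := h
      have h3 : (HmI π s hs).f ((HmP π s hs).f a) = 0 := by
        rwa [sub_eq_self] at h2
      have h4 := congrArg (HmP π s hs).f h3
      rwa [HmP_HmI, map_zero] at h4
    have h5 := congrArg (fun m : (WR π).Win => m.1 i j) h1
    exact h5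
  · intro h
    have h1 : (HmP π s hs).f a = 0 := by
      apply Subtype.ext
      ext i j
      exact h i j
    change (show (Gm π s hs).C from a) - (HmI π s hs).f ((HmP π s hs).f a) = a
    rw [h1, map_zero]
    exact sub_zero (show (Gm π s hs).C from a)

/-! ### the cells -/

/-- `X''` -/
abbrev Y2 : LCells (WR π).dga := lcPre (C2f354.pre π)

theorem Y2_s (σ : Io π) : (Y2 π).s σ = sI σ := rfl
theorem Y2_F (m : ℕ) : (Y2 π).F m = FI π m := rfl

/-- multiplication by a matrix supported in one place -/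
theorem wmul {w : WD K} (x m : w.Win) (o o' : w.Ob) (a : w.S) (h1 : x.1 o o' = a)
    (h2 : ∀ i j, ¬ (o = i ∧ o' = j) → x.1 i j = 0) (l : w.Ob) :
    (x * m).1 o l = a * m.1 o' l := by
  change (x.1 * m.1) o l = _
  rw [Matrix.mul_apply, Finset.sum_eq_single o', h1]
  · intro j _ hj
    rw [h2 o j (fun h => hj h.2.symm), zero_mul]
  · intro h
    exact absurd (Finset.mem_univ _) h

theorem wmul0 {w : WD K} (x m : w.Win) (o o' : w.Ob)
    (h2 : ∀ i j, ¬ (o = i ∧ o' = j) → x.1 i j = 0) (i l : w.Ob) (hi : o ≠ i) :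
    (x * m).1 i l = 0 := by
  change (x.1 * m.1) i l = _
  rw [Matrix.mul_apply]
  exact Finset.sum_eq_zero fun j _ => by rw [h2 i j (fun h => hi h.1), zero_mul]

/-- attaching elements of `X''` in `Γ` -/
def fc (σ τ : Io π) : (wG π s hs).Win := (HmI π s hs).f ((Y2 π).c σ τ)

/-- idempotents of `X''` in `Γ` -/
def fe (σ : Io π) : (wG π s hs).Win := (HmI π s hs).f ((Y2 π).e σ)

theorem fc_pos (σ τ : Io π) : en π s hs (fc π s hs σ τ) (oc σ.1) (oc τ.1) =
    (bdM π s hs).inl (cI π σ τ) := by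
  have h := WD.ws_apply (w := WR π) (oc σ.1) (oc τ.1) (cI π σ τ)
    (WD.q_le _ _ _ ((C2f354.gpre π).c_mem σ τ)) (oc σ.1) (oc τ.1)
  exact congrArg (bdM π s hs).inl (h.trans (if_pos ⟨rfl, rfl⟩))

theorem fc_neg (σ τ : Io π) (i j : DefsQ830.Ob) (hij : ¬ (oc σ.1 = i ∧ oc τ.1 = j)) :
    en π s hs (fc π s hs σ τ) i j = 0 := by
  have h := WD.ws_apply (w := WR π) (oc σ.1) (oc τ.1) (cI π σ τ)
    (WD.q_le _ _ _ ((C2f354.gpre π).c_mem σ τ)) i j
  exact (congrArg (bdM π s hs).inl (h.trans (if_neg hij))).trans (map_zero (bdM π s hs).inl)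

theorem fe_pos (σ : Io π) : en π s hs (fe π s hs σ) (oc σ.1) (oc σ.1) = 1 := by
  have h := WD.ws_apply (w := WR π) (oc σ.1) (oc σ.1) 1
    (WD.q_le _ _ _ (WD.q_one (w := WR π) (oc σ.1))) (oc σ.1) (oc σ.1)
  exact (congrArg (bdM π s hs).inl (h.trans (if_pos ⟨rfl, rfl⟩))).trans (map_one (bdM π s hs).inl)

theorem fe_neg (σ : Io π) (i j : DefsQ830.Ob) (hij : ¬ (oc σ.1 = i ∧ oc σ.1 = j)) :
    en π s hs (fe π s hs σ) i j = 0 := by
  have h := WD.ws_apply (w := WR π) (oc σ.1) (oc σ.1) 1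
    (WD.q_le _ _ _ (WD.q_one (w := WR π) (oc σ.1))) i j
  exact (congrArg (bdM π s hs).inl (h.trans (if_neg hij))).trans (map_zero (bdM π s hs).inl)

theorem fc_mul (σ τ : Io π) (m : (wG π s hs).Win) (l : DefsQ830.Ob) :
    en π s hs (fc π s hs σ τ * m) (oc σ.1) l =
      (bdM π s hs).inl (cI π σ τ) * en π s hs m (oc τ.1) l :=
  wmul (w := wG π s hs) _ m (oc σ.1) (oc τ.1) _ (fc_pos π s hs σ τ) (fc_neg π s hs σ τ) l

theorem fc_mul0 (σ τ : Io π) (m : (wG π s hs).Win) (i l : DefsQ830.Ob) (hi : oc σ.1 ≠ i) :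
    en π s hs (fc π s hs σ τ * m) i l = 0 :=
  wmul0 (w := wG π s hs) _ m (oc σ.1) (oc τ.1) (fc_neg π s hs σ τ) i l hi

/-- `e_σ m = m` : the matrix `m` is supported in row `oc σ` -/
theorem fe_iff (σ : Io π) (m : (wG π s hs).Win) :
    fe π s hs σ * m = m ↔ ∀ i l, oc σ.1 ≠ i → en π s hs m i l = 0 := by
  constructor
  · intro h i l hi
    rw [← h]
    exact wmul0 (w := wG π s hs) _ m (oc σ.1) (oc σ.1) (fe_neg π s hs σ) i l hi
  · intro h
    refine en_ext π fun i l => ?_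
    by_cases hi : oc σ.1 = i
    · subst hi
      exact (wmul (w := wG π s hs) _ m (oc σ.1) (oc σ.1) _ (fe_pos π s hs σ) (fe_neg π s hs σ)
        l).trans (one_mul _)
    · rw [h i l hi]
      exact wmul0 (w := wG π s hs) _ m (oc σ.1) (oc σ.1) (fe_neg π s hs σ) i l hi

/-! ### columns -/

/-- position of a column: `P` -/
def pP (j : DefsQ830.Ob) : ℤ := 1 - (j.1.val : ℤ)
/-- position of a column: `A` -/
def pA (j : DefsQ830.Ob) : ℤ := - (j.2.val : ℤ)

theorem oc_P (c : Cell) (j : DefsQ830.Ob) :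
    ((oc c).1.val : ℤ) - (j.1.val : ℤ) = pP j + cP c := by
  rw [oc_fst c]; unfold pP; ring

theorem oc_A (c : Cell) (j : DefsQ830.Ob) :
    ((oc c).2.val : ℤ) - (j.2.val : ℤ) = pA j + cAd c := by
  rw [oc_snd c, ← C2x354.cAd_eq c]; unfold pA; ring

/-- homogeneous entries of `M` in row `oc c` -/
theorem mem_row (c : Cell) (j : DefsQ830.Ob) (k : ℤ) (m : MM π) :
    (bdM π s hs).inr m ∈ (wG π s hs).q (oc c) j k ↔
      m ∈ pcM π s (pP j + cP c) (pA j + cAd c) k := by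
  have h : (bdM π s hs).inr m ∈ (wG π s hs).q (oc c) j k ↔
      m ∈ pcM π s (((oc c).1.val : ℤ) - (j.1.val : ℤ)) (((oc c).2.val : ℤ) - (j.2.val : ℤ)) k :=
    ⟨fun h => h.2, fun h => (bdM π s hs).inr_mem h⟩
  rw [h, oc_P, oc_A]

/-- the matrix entry of a family in column `j` -/
def col (g : Io π → (wG π s hs).Win) (j : DefsQ830.Ob) (σ : Io π) : MM π :=
  k2 π s hs (en π s hs (g σ) (oc σ.1) j)

section mk

variable (x : DefsQ830.Ob → Io π → MM π)
    (hx : ∀ j σ, ∃ k : ℤ, x j σ ∈ pcM π s (pP j + cP σ.1) (pA j + cAd σ.1) k)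

open Classical in
/-- a family from columns -/
def mkW (σ : Io π) : (wG π s hs).Win :=
  ⟨Matrix.of fun i j => if oc σ.1 = i then (bdM π s hs).inr (x j σ) else 0, by
    intro i j
    show (if oc σ.1 = i then (bdM π s hs).inr (x j σ) else 0) ∈ (wG π s hs).E i j
    by_cases h : oc σ.1 = i
    · subst h
      rw [if_pos rfl]
      obtain ⟨k, hk⟩ := hx j σ
      exact WD.q_le (w := wG π s hs) _ _ k ((mem_row π s hs σ.1 j k _).2 hk)
    · rw [if_neg h]
      exact Submodule.zero_mem _⟩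

theorem mkW_pos (σ : Io π) (j : DefsQ830.Ob) :
    en π s hs (mkW π s hs x hx σ) (oc σ.1) j = (bdM π s hs).inr (x j σ) := if_pos rfl

theorem mkW_neg (σ : Io π) {i : DefsQ830.Ob} (j : DefsQ830.Ob) (h : oc σ.1 ≠ i) :
    en π s hs (mkW π s hs x hx σ) i j = 0 := if_neg h

/-- degrees -/
theorem mkW_mem {σ : Io π} {k : ℤ} (h : ∀ j, x j σ ∈ pcM π s (pP j + cP σ.1)
      (pA j + cAd σ.1) k) : mkW π s hs x hx σ ∈ (wG π s hs).G k := by
  intro i j
  change en π s hs (mkW π s hs x hx σ) i j ∈ (wG π s hs).q i j k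
  by_cases hi : oc σ.1 = i
  · subst hi
    have e := mkW_pos π s hs x hx σ j
    exact (e.symm ▸ (mem_row π s hs σ.1 j k _).2 (h j) :
      en π s hs (mkW π s hs x hx σ) (oc σ.1) j ∈ (wG π s hs).q (oc σ.1) j k)
  · have e := mkW_neg π s hs x hx σ j hi
    rw [e]
    exact Submodule.zero_mem _

theorem mkW_e (σ : Io π) : fe π s hs σ * mkW π s hs x hx σ = mkW π s hs x hx σ :=
  (fe_iff π s hs σ _).2 fun _ l hi => mkW_neg π s hs x hx σ l hi

theorem mkW_pr (σ : Io π) : (prM π s hs).pr (mkW π s hs x hx σ : (wG π s hs).Win) =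
    mkW π s hs x hx σ := by
  refine (prM_iff π s hs _).2 fun i j => ?_
  by_cases hi : oc σ.1 = i
  · subst hi
    rw [mkW_pos π s hs x hx σ j]
    rfl
  · rw [mkW_neg π s hs x hx σ j hi]
    rfl

theorem col_mkW (σ : Io π) (j : DefsQ830.Ob) :
    col π s hs (mkW π s hs x hx) j σ = x j σ := by
  unfold col
  rw [mkW_pos π s hs x hx σ j]
  rfl

end mk

/-- a homogeneous family with `e g = g`, `pr g = g` comes from its columns -/
theorem ext_col {g g' : Io π → (wG π s hs).Win}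
    (h1 : ∀ σ, fe π s hs σ * g σ = g σ) (h1' : ∀ σ, fe π s hs σ * g' σ = g' σ)
    (h2 : ∀ σ, (prM π s hs).pr (g σ : (wG π s hs).Win) = g σ)
    (h2' : ∀ σ, (prM π s hs).pr (g' σ : (wG π s hs).Win) = g' σ)
    (h : ∀ j σ, col π s hs g j σ = col π s hs g' j σ) (σ : Io π) : g σ = g' σ := by
  refine en_ext π fun i j => ?_
  by_cases hi : oc σ.1 = i
  · subst hi
    refine k_ext π ?_ (h j σ)
    rw [(prM_iff π s hs _).1 (h2 σ), (prM_iff π s hs _).1 (h2' σ)]
  · rw [(fe_iff π s hs σ _).1 (h1 σ) i j hi, (fe_iff π s hs σ _).1 (h1' σ) i j hi]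

/-- degrees of a column -/
theorem col_mem {g : Io π → (wG π s hs).Win} {σ : Io π} {k : ℤ} (h : g σ ∈ (wG π s hs).G k)
    (j : DefsQ830.Ob) : col π s hs g j σ ∈ pcM π s (pP j + cP σ.1) (pA j + cAd σ.1) k := by
  have h1 : col π s hs g j σ ∈ pcM π s (((oc σ.1).1.val : ℤ) - (j.1.val : ℤ))
    (((oc σ.1).2.val : ℤ) - (j.2.val : ℤ)) k := (h (oc σ.1) j).2
  rw [oc_P, oc_A] at h1
  exact h1

/-- the differential of `Hom (X'', Γ)` in the form of `Win` -/
def dW (g : Io π → (wG π s hs).Win) (σ : Io π) : (wG π s hs).Win :=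
  (wG π s hs).DW (g σ) + ∑ τ ∈ FI π (sI σ), fc π s hs σ τ * g τ

theorem dB_eq (g : Io π → (wG π s hs).Win) (σ : Io π) :
    dB (HmI π s hs) (Y2 π) g σ = dW π s hs g σ := rfl

theorem en_dW (g : Io π → (wG π s hs).Win) (σ : Io π) (i j : DefsQ830.Ob) :
    en π s hs (dW π s hs g σ) i j = (wG π s hs).D (en π s hs (g σ) i j) +
      ∑ τ ∈ FI π (sI σ), en π s hs (fc π s hs σ τ * g τ) i j := by
  rw [← en_sum]
  rfl

/-- **the differential on columns** -/
theorem col_dW (g : Io π → (wG π s hs).Win) (h2 : ∀ σ, (prM π s hs).pr (g σ : (wG π s hs).Win) = g σ)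
    (j : DefsQ830.Ob) (σ : Io π) :
    col π s hs (dW π s hs g) j σ = dI π (col π s hs g j) σ := by
  have h : col π s hs (dW π s hs g) j σ = dMM π (col π s hs g j σ) +
      ∑ τ ∈ FI π (sI σ), k2 π s hs (en π s hs (fc π s hs σ τ * g τ) (oc σ.1) j) := by
    rw [← k2_sum]
    unfold col
    rw [en_dW]
    rfl
  refine h.trans (congrArg _ (Finset.sum_congr rfl fun τ _ => ?_))
  rw [fc_mul]
  have h3 : k1 π s hs (en π s hs (g τ) (oc τ.1) j) = 0 := (prM_iff π s hs _).1 (h2 τ) _ _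
  have h4 : k2 π s hs ((bdM π s hs).inl (cI π σ τ) * en π s hs (g τ) (oc τ.1) j) =
      cI π σ τ • col π s hs g j τ + (show MM π from SM890.rho π (k1 π s hs (en π s hs (g τ) (oc τ.1) j)) (0 : MM π))
      := rfl
  have h5 : (show MM π from SM890.rho π (k1 π s hs (en π s hs (g τ) (oc τ.1) j)) (0 : MM π)) = 0 :=
    map_zero _
  rw [h4, h5, add_zero]

/-! ### the row structure of the differential -/

theorem dW_row (g : Io π → (wG π s hs).Win) (h1 : ∀ σ, fe π s hs σ * g σ = g σ) (σ : Io π) :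
    fe π s hs σ * dW π s hs g σ = dW π s hs g σ := by
  refine (fe_iff π s hs σ _).2 fun i l hi => ?_
  rw [en_dW, (fe_iff π s hs σ _).1 (h1 σ) i l hi, map_zero, zero_add]
  exact Finset.sum_eq_zero fun τ _ => fc_mul0 π s hs σ τ (g τ) i l hi

theorem dW_pr (g : Io π → (wG π s hs).Win)
    (h2 : ∀ σ, (prM π s hs).pr (g σ : (wG π s hs).Win) = g σ) (σ : Io π) :
    (prM π s hs).pr (dW π s hs g σ : (wG π s hs).Win) = dW π s hs g σ := by
  have h := DJ187.Lift.pr_dB (P := prM π s hs) (Y := Y2 π) g σ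
  have h3 : (fun j => (prM π s hs).pr (g j)) = g := funext h2
  exact h.trans (congrArg (fun g' => dB (HmI π s hs) (Y2 π) g' σ) h3)

theorem col_add (g g' : Io π → (wG π s hs).Win) (j : DefsQ830.Ob) (σ : Io π) :
    col π s hs (fun σ => g σ + g' σ) j σ = col π s hs g j σ + col π s hs g' j σ := rfl

/-! ### the closing data -/

section ce

variable (h5 : 5 ≤ s)

/-- the closing data -/
abbrev EE : KH186.CE (wG π s (KHc302.two_le h5)) := KHc302.CEr π s h5

theorem oc_eq (c : Cell) : WL221.oc c = oc c := by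
  rcases c with _ | l
  · rfl
  · cases l <;> rfl

/-- entries of `H` -/
def he (η : (EE π s h5).H) (c : Cell) (j : DefsQ830.Ob) : RL π := η.1 c j

/-- entries of `KK` -/
def ke (x : (EE π s h5).KK) (i : DefsQ830.Ob) (c : Cell) : RL π := x.1 i c

/-- the columns of an element of `H` -/
def hcol (η : (EE π s h5).H) (j : DefsQ830.Ob) (c : Cell) : R π := (he π s h5 η c j).1

theorem hcol_kill (η : (EE π s h5).H) (j : DefsQ830.Ob) (c : Cell) :
    kill π (hcol π s h5 η j c) = hcol π s h5 η j c := (he π s h5 η c j).2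

theorem pos_H (c : Cell) (j : DefsQ830.Ob) (k : ℤ) (b : RL π) :
    b ∈ (EE π s h5).pb ((wG π s (KHc302.two_le h5)).P ((EE π s h5).oc c) -
      (wG π s (KHc302.two_le h5)).P j + 1) ((wG π s (KHc302.two_le h5)).A ((EE π s h5).oc c) -
      (wG π s (KHc302.two_le h5)).A j) k ↔ b.1 ∈ pcZ π (pP j + cP c + 1) (pA j + cAd c) k := by
  have h : b ∈ (EE π s h5).pb ((wG π s (KHc302.two_le h5)).P ((EE π s h5).oc c) -
      (wG π s (KHc302.two_le h5)).P j + 1) ((wG π s (KHc302.two_le h5)).A ((EE π s h5).oc c) -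
      (wG π s (KHc302.two_le h5)).A j) k ↔
      b.1 ∈ pcZ π (((WL221.oc c).1.val : ℤ) - (j.1.val : ℤ) + 1)
        (((WL221.oc c).2.val : ℤ) - (j.2.val : ℤ)) k := Iff.rfl
  rw [h, oc_eq, oc_P, oc_A]

/-- an element of `H` from its columns -/
def mkH (y : DefsQ830.Ob → Cell → R π) (p : ℤ) (hy : ∀ j, HP π s (pP j) (pA j) p (y j)) :
    (EE π s h5).H :=
  ⟨fun (c : Cell) (j : DefsQ830.Ob) => (⟨y j c, (hy j c).2⟩ : RL π), fun c j =>
    (EE π s h5).pb_le _ _ ((cdeg c : ℤ) - p - s) ((pos_H π s h5 c j _ _).2 (hy j c).1)⟩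

theorem hcol_mkH (y : DefsQ830.Ob → Cell → R π) (p : ℤ) (hy : ∀ j, HP π s (pP j) (pA j) p (y j))
    (j : DefsQ830.Ob) : hcol π s h5 (mkH π s h5 y p hy) j = y j := rfl

theorem mkH_mem (y : DefsQ830.Ob → Cell → R π) (p : ℤ) (hy : ∀ j, HP π s (pP j) (pA j) p (y j)) :
    mkH π s h5 y p hy ∈ (EE π s h5).gs.G (-p) := by
  refine KH186.CE.mem_gs.2 fun c j => (pos_H π s h5 c j _ (⟨y j c, (hy j c).2⟩ : RL π)).2 ?_
  have h := (hy j c).1
  have e : -p - ((EE π s h5).s0) + (((EE π s h5).cd c : ℕ) : ℤ) = (cdeg c : ℤ) - p - s := by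
    change -p - (s : ℤ) + (cdeg c : ℤ) = (cdeg c : ℤ) - p - s
    ring
  rw [e]
  exact h

theorem hcol_mem {η : (EE π s h5).H} {p : ℤ} (h : η ∈ (EE π s h5).gs.G (-p)) (j : DefsQ830.Ob) :
    HP π s (pP j) (pA j) p (hcol π s h5 η j) := by
  intro c
  refine ⟨?_, hcol_kill π s h5 η j c⟩
  have h1 := (pos_H π s h5 c j _ (he π s h5 η c j)).1 (KH186.CE.mem_gs.1 h c j)
  have e : -p - ((EE π s h5).s0) + (((EE π s h5).cd c : ℕ) : ℤ) = (cdeg c : ℤ) - p - s := by
    change -p - (s : ℤ) + (cdeg c : ℤ) = (cdeg c : ℤ) - p - s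
    ring
  rw [e] at h1
  exact h1

/-- the differential of `H` on columns -/
theorem hcol_d (η : (EE π s h5).H) (j : DefsQ830.Ob) (c : Cell) :
    hcol π s h5 (KH186.CE.dH η) j c = dE π (hcol π s h5 η j) c := by
  have h : he π s h5 (KH186.CE.dH η) c j = WL221.DL π (he π s h5 η c j) +
      ∑ c', WL221.cL π c c' * he π s h5 η c' j := rfl
  have h2 := congrArg (RL π).val h
  rw [map_add, map_sum] at h2
  refine h2.trans ?_
  unfold dE
  rw [map_add, map_sum]
  congr 1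
  refine Finset.sum_congr rfl fun c' _ => ?_
  rw [map_mul, map_mul, hcol_kill]
  rfl

theorem hcol_ext {η η' : (EE π s h5).H} (h : ∀ j c, hcol π s h5 η j c = hcol π s h5 η' j c) :
    η = η' := by
  apply Subtype.ext
  funext c j
  have h1 : he π s h5 η c j = he π s h5 η' c j := Subtype.ext (h j c)
  exact h1

/-! ### the projection `X'' → KK` -/

theorem pos_K (c c' : Cell) (k : ℤ) (b : RL π) :
    b ∈ (EE π s h5).pb ((wG π s (KHc302.two_le h5)).P (oc c) -
      (wG π s (KHc302.two_le h5)).P ((EE π s h5).oc c')) ((wG π s (KHc302.two_le h5)).A (oc c) -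
      (wG π s (KHc302.two_le h5)).A ((EE π s h5).oc c')) k ↔
      b.1 ∈ pcZ π (cP c - cP c') (cAd c - cAd c') k := by
  have h : b ∈ (EE π s h5).pb ((wG π s (KHc302.two_le h5)).P (oc c) -
      (wG π s (KHc302.two_le h5)).P ((EE π s h5).oc c')) ((wG π s (KHc302.two_le h5)).A (oc c) -
      (wG π s (KHc302.two_le h5)).A ((EE π s h5).oc c')) k ↔
      b.1 ∈ pcZ π (((oc c).1.val : ℤ) - ((WL221.oc c').1.val : ℤ))
        (((oc c).2.val : ℤ) - ((WL221.oc c').2.val : ℤ)) k := Iff.rfl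
  rw [h, oc_eq, oc_fst, oc_fst, oc_snd, oc_snd, C2x354.cAd_eq, C2x354.cAd_eq,
    show 1 + cP c - (1 + cP c') = cP c - cP c' by ring]

open Classical in
/-- entries of the projection -/
def kf (σ : Io π) (i : DefsQ830.Ob) (c : Cell) : RL π :=
  if oc σ.1 = i ∧ σ.1 = c then e1 π σ.2 • (1 : RL π) else (0 : RL π)

theorem kf_pos (σ : Io π) : kf π σ (oc σ.1) σ.1 = e1 π σ.2 • (1 : RL π) := if_pos ⟨rfl, rfl⟩

theorem kf_neg (σ : Io π) {i : DefsQ830.Ob} {c : Cell} (h : ¬ (oc σ.1 = i ∧ σ.1 = c)) :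
    kf π σ i c = 0 := if_neg h

theorem kf_mem (σ : Io π) (i : DefsQ830.Ob) (c : Cell) :
    kf π σ i c ∈ (EE π s h5).pb ((wG π s (KHc302.two_le h5)).P i -
      (wG π s (KHc302.two_le h5)).P ((EE π s h5).oc c)) ((wG π s (KHc302.two_le h5)).A i -
      (wG π s (KHc302.two_le h5)).A ((EE π s h5).oc c)) 0 := by
  by_cases h : oc σ.1 = i ∧ σ.1 = c
  · obtain ⟨rfl, rfl⟩ := h
    rw [kf_pos]
    refine (pos_K π s h5 σ.1 σ.1 0 _).2 ?_
    rw [sub_self, sub_self]
    exact Submodule.smul_mem _ _ (pcZ_one π)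
  · rw [kf_neg π σ h]
    exact Submodule.zero_mem _

/-- **the projection `X'' → KK`** -/
def pj (σ : Io π) : (EE π s h5).KK :=
  ⟨kf π σ, fun i c => (EE π s h5).pb_le _ _ 0 (kf_mem π s h5 σ i c)⟩

theorem pj_pos (σ : Io π) : ke π s h5 (pj π s h5 σ) (oc σ.1) σ.1 = e1 π σ.2 • (1 : RL π) :=
  kf_pos π σ

theorem pj_neg (σ : Io π) {i : DefsQ830.Ob} {c : Cell} (h : ¬ (oc σ.1 = i ∧ σ.1 = c)) :
    ke π s h5 (pj π s h5 σ) i c = 0 := kf_neg π σ h

/-- `ev (π_σ ⊗ η)` -/
def ek (η : (EE π s h5).H) (σ : Io π) : (wG π s (KHc302.two_le h5)).Win :=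
  KH186.CE.evK (pj π s h5 σ) η

theorem en_ek (η : (EE π s h5).H) (σ : Io π) (i j : DefsQ830.Ob) :
    en π s (KHc302.two_le h5) (ek π s h5 η σ) i j = KHc302.oW π s (KHc302.two_le h5)
      (∑ c, ke π s h5 (pj π s h5 σ) i c * he π s h5 η c j) := rfl

theorem ek_pos (η : (EE π s h5).H) (σ : Io π) (j : DefsQ830.Ob) :
    en π s (KHc302.two_le h5) (ek π s h5 η σ) (oc σ.1) j =
      (bdM π s (KHc302.two_le h5)).inr (io π (hcol π s h5 η j) σ) := by
  rw [en_ek, Finset.sum_eq_single σ.1]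
  · rw [pj_pos, smul_mul_assoc, one_mul, map_smul]
    exact (map_smul (bdM π s (KHc302.two_le h5)).inr _ _).symm
  · intro c _ hc
    rw [pj_neg π s h5 σ (fun h3 => hc h3.2.symm), zero_mul]
  · intro h3
    exact absurd (Finset.mem_univ _) h3

theorem ek_row (η : (EE π s h5).H) (σ : Io π) :
    fe π s (KHc302.two_le h5) σ * ek π s h5 η σ = ek π s h5 η σ := by
  refine (fe_iff π s _ σ _).2 fun i j hi => ?_
  rw [en_ek, Finset.sum_eq_zero, map_zero]
  intro c _
  rw [pj_neg π s h5 σ (fun h3 => hi h3.1), zero_mul]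

theorem ev_pr (x : (EE π s h5).KK) (η : (EE π s h5).H) :
    (prM π s (KHc302.two_le h5)).pr (KH186.CE.evK x η : (wG π s (KHc302.two_le h5)).Win) =
      KH186.CE.evK x η :=
  (prM_iff π s _ _).2 fun _ _ => rfl

theorem ek_pr (η : (EE π s h5).H) (σ : Io π) :
    (prM π s (KHc302.two_le h5)).pr (ek π s h5 η σ : (wG π s (KHc302.two_le h5)).Win) =
      ek π s h5 η σ := ev_pr π s h5 _ η

theorem col_ek (η : (EE π s h5).H) (j : DefsQ830.Ob) (σ : Io π) :
    col π s (KHc302.two_le h5) (ek π s h5 η) j σ = io π (hcol π s h5 η j) σ :=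
  congrArg (k2 π s (KHc302.two_le h5)) (ek_pos π s h5 η σ j)

/-! ### (c2) -/

/-- **(c2), onto** -/
theorem c2s (hc : Cone π s) :
    C2s (prM π s (KHc302.two_le h5)) (EE π s h5).toIn (Y := Y2 π) (pj π s h5) := by
  intro p g g1 g2 g3 g4
  have key : ∀ j : DefsQ830.Ob, ∃ (η' : Cell → R π) (φ' : Io π → MM π),
      HP π s (pP j) (pA j) p η' ∧ HomP π s (pP j) (pA j) (p - 1) φ' ∧
      (∀ c, (0 : R π) = dE π η' c) ∧
      ∀ σ, col π s (KHc302.two_le h5) g j σ = io π η' σ + dI π φ' σ := by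
    intro j
    refine hc _ _ p (fun _ => 0) (col π s (KHc302.two_le h5) g j) ?_ ?_ ?_ ?_
    · intro c
      exact ⟨Submodule.zero_mem _, map_zero _⟩
    · intro σ
      exact col_mem π s _ (g1 σ) j
    · intro c
      unfold dE
      simp
    · intro σ
      have h := col_dW π s (KHc302.two_le h5) g g3 j σ
      have h2 : dW π s (KHc302.two_le h5) g σ = 0 := g4 σ
      have h3 : col π s (KHc302.two_le h5) (dW π s (KHc302.two_le h5) g) j σ = 0 := by
        unfold col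
        rw [h2]
        rfl
      rw [← h, h3]
      unfold io
      rw [map_zero, smul_zero]
  choose η' φ' q1 q2 q3 q4 using key
  have hx : ∀ j σ, ∃ k : ℤ, φ' j σ ∈ pcM π s (pP j + cP σ.1) (pA j + cAd σ.1) k :=
    fun j σ => ⟨_, q2 j σ⟩
  let η : (EE π s h5).H := mkH π s h5 η' p q1
  let u : Io π → (wG π s (KHc302.two_le h5)).Win := mkW π s (KHc302.two_le h5) φ' hx
  have hη : ∀ j, hcol π s h5 η j = η' j := fun j => rfl
  refine ⟨η, mkH_mem π s h5 η' p q1, ?_, u, ?_, ?_, ?_, ?_⟩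
  · refine hcol_ext π s h5 fun j c => ?_
    have h1 : hcol π s h5 ((EE π s h5).toIn.dZ η) j c = dE π (hcol π s h5 η j) c :=
      hcol_d π s h5 η j c
    rw [h1, hη, ← q3]
    rfl
  · intro σ
    refine mkW_mem π s _ φ' hx (k := (sI σ : ℤ) - p + 1) fun j => ?_
    have := q2 j σ
    rwa [show (sI σ : ℤ) - (p - 1) = sI σ - p + 1 by ring] at this
  · intro σ
    exact mkW_e π s _ φ' hx σ
  · intro σ
    exact mkW_pr π s _ φ' hx σ
  · intro σ
    let g₀ : Io π → (wG π s (KHc302.two_le h5)).Win := g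
    refine ext_col π s (KHc302.two_le h5) (g := fun σ => g₀ σ + ek π s h5 η σ)
      (g' := dW π s (KHc302.two_le h5) u) ?_ ?_ ?_ ?_ ?_ σ
    · intro σ
      have h1 : fe π s (KHc302.two_le h5) σ * g₀ σ = g₀ σ := g2 σ
      exact (mul_add _ _ _).trans (congrArg₂ (· + ·) h1 (ek_row π s h5 η σ))
    · intro σ
      exact dW_row π s _ u (fun σ => mkW_e π s _ φ' hx σ) σ
    · intro σ
      exact (map_add _ _ _).trans (congrArg₂ (· + ·) (g3 σ) (ek_pr π s h5 η σ))
    · intro σ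
      exact dW_pr π s _ u (fun σ => mkW_pr π s _ φ' hx σ) σ
    · intro j σ
      rw [col_add, col_ek, hη, q4 j σ, col_dW π s _ u (fun σ => mkW_pr π s _ φ' hx σ) j σ]
      have h2 : col π s (KHc302.two_le h5) u j = φ' j := funext fun σ => col_mkW π s _ φ' hx σ j
      rw [h2]
      have h3 := SM890.MM_two π (io π (η' j) σ)
      calc io π (η' j) σ + dI π (φ' j) σ + io π (η' j) σ =
          (io π (η' j) σ + io π (η' j) σ) + dI π (φ' j) σ := by abel
        _ = _ := by rw [h3, zero_add]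

/-- **(c2), injective** -/
theorem c2t (hc : Cone π s) :
    C2t (prM π s (KHc302.two_le h5)) (EE π s h5).toIn (Y := Y2 π) (pj π s h5) := by
  intro p η e1' e2' ⟨u, u1, u2, u3, u4⟩
  have key : ∀ j : DefsQ830.Ob, ∃ (η' : Cell → R π) (φ' : Io π → MM π),
      HP π s (pP j) (pA j) (p - 1) η' ∧ HomP π s (pP j) (pA j) (p - 1 - 1) φ' ∧
      (∀ c, hcol π s h5 η j c = dE π η' c) ∧
      ∀ σ, col π s (KHc302.two_le h5) u j σ = io π η' σ + dI π φ' σ := by
    intro j
    refine hc _ _ (p - 1) (hcol π s h5 η j) (col π s (KHc302.two_le h5) u j) ?_ ?_ ?_ ?_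
    · rw [show p - 1 + 1 = p by ring]
      exact hcol_mem π s h5 e1' j
    · intro σ
      have h1 := col_mem π s (KHc302.two_le h5) (u1 σ) j
      have e : ((Y2 π).s σ : ℤ) - p + 1 = sI σ - (p - 1) := by
        change (sI σ : ℤ) - p + 1 = sI σ - (p - 1)
        ring
      rw [e] at h1
      exact h1
    · intro c
      have h1 : hcol π s h5 ((EE π s h5).toIn.dZ η) j c = dE π (hcol π s h5 η j) c :=
        hcol_d π s h5 η j c
      rw [← h1, e2']
      rfl
    · intro σ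
      have a1 := col_ek π s h5 η j σ
      have a2 := col_dW π s (KHc302.two_le h5) u u3 j σ
      have h : ek π s h5 η σ = dW π s (KHc302.two_le h5) u σ := u4 σ
      have a3 : col π s (KHc302.two_le h5) (ek π s h5 η) j σ =
          col π s (KHc302.two_le h5) (dW π s (KHc302.two_le h5) u) j σ :=
        congrArg (fun m => k2 π s (KHc302.two_le h5) (en π s (KHc302.two_le h5) m (oc σ.1) j)) h
      exact a2.symm.trans (a3.symm.trans a1)
  choose η' φ' q1 q2 q3 q4 using key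
  refine ⟨mkH π s h5 η' (p - 1) q1, ?_, ?_⟩
  · have h := mkH_mem π s h5 η' (p - 1) q1
    rwa [show -(p - 1) = -p + 1 by ring] at h
  · refine hcol_ext π s h5 fun j c => ?_
    have h1 : hcol π s h5 ((EE π s h5).toIn.dZ (mkH π s h5 η' (p - 1) q1)) j c =
      dE π (hcol π s h5 (mkH π s h5 η' (p - 1) q1) j) c := hcol_d π s h5 _ j c
    rw [h1, q3]
    rfl

end ce

end Crest.Agent.R186.C2W735
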