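import Crest.Agent.R186.RcT_805

/-!
Row 186 (A), leaf RC (helper805), part 2: the sixteen right cells, modulo `J = R'' W_+`:
`rc`, `rc_mc`, `rc_mem`, `dY`, `dY_dY`, `exY_core`, `exY_mod`.
-/

set_option autoImplicit false

noncomputable section

namespace Crest.Agent.R186.RC805

open Crest.Agent.R186.DefsQ830 Crest.Agent.R186.Cells221
open Crest.Agent.R186.PBW128 (E Y Wb N Ix)
open Crest.Agent.R186.Der580
open Crest.Agent.R186.C2b362 (pz J D_J left_J right_J pz_cast mul_pz D_pz mem_pz_nat cA cdeg_some
  cP_some)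

variable {K : Type} [Field K]

/-- the table of the sixteen right cells: `d e_σ = Σ_τ e_τ * rc τ σ` -/
def rc (π : Par K) : Cell → Cell → R π
  | _, none => 0
  | none, some l => X π l.toGen
  | some l', some l => rcf π l' l

@[simp] theorem rc_none (π : Par K) (τ : Cell) : rc π τ none = 0 := by cases τ <;> rfl
@[simp] theorem rc_none_some (π : Par K) (l : E) : rc π none (some l) = X π l.toGen := rfl
@[simp] theorem rc_some_some (π : Par K) (l' l : E) : rc π (some l') (some l) = rcf π l' l := rfl

theorem D_yq (π : Par K) (l : E) : D π (yq π l) = 0 := by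
  rw [yq_eq]; exact Cells221.D_yp π l

/-- Maurer-Cartan for the letters -/
theorem rcf_mc (π : Par K) (l'' l : E) :
    D π (rcf π l'' l) + ∑ l', rcf π l'' l' * rcf π l' l ∈ J π := by
  refine sum_X_mul_J π (fun l'' => D π (rcf π l'' l) + ∑ l', rcf π l'' l' * rcf π l' l) ?_ l''
  have h := D_D π (X π l.toGen)
  rw [D_E_r, map_add, D_yq, add_zero, map_sum] at h
  simp only [D_mul, Finset.sum_add_distrib] at h
  have e1 : ∑ l', D π (X π l'.toGen) * rcf π l' l =
      ∑ l'', X π l''.toGen * ∑ l', rcf π l'' l' * rcf π l' l + ∑ l', yq π l' * rcf π l' l := by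
    simp only [D_E_r, add_mul, Finset.sum_add_distrib, Finset.sum_mul, Finset.mul_sum, mul_assoc]
    congr 1
    exact Finset.sum_comm
  rw [e1] at h
  have e2 : ∑ l'', X π l''.toGen * (D π (rcf π l'' l) + ∑ l', rcf π l'' l' * rcf π l' l) =
      -∑ l', yq π l' * rcf π l' l := by
    simp only [mul_add, Finset.sum_add_distrib]
    rw [eq_neg_iff_add_eq_zero, ← h]
    abel
  rw [e2]
  exact Submodule.neg_mem _ (Submodule.sum_mem _ fun l' _ => right_J (yq_J π l') _)

/-- Maurer-Cartan modulo `J` -/
theorem rc_mc (π : Par K) (τ σ : Cell) : D π (rc π τ σ) + ∑ ρ, rc π τ ρ * rc π ρ σ ∈ J π := by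
  cases σ with
  | none =>
    simp only [rc_none, map_zero, mul_zero, Finset.sum_const_zero, add_zero]
    exact Submodule.zero_mem _
  | some l =>
    rw [Fintype.sum_option]
    cases τ with
    | none =>
      simp only [rc_none, zero_mul, zero_add, rc_none_some, rc_some_some]
      rw [D_E_r, add_right_comm, add_self, zero_add]
      exact yq_J π l
    | some l'' =>
      simp only [rc_none, zero_mul, zero_add, rc_some_some]
      exact rcf_mc π l'' l

/-- the differential of the free right module on the sixteen cells -/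
def dY (π : Par K) : (Cell → R π) →ₗ[K] (Cell → R π) :=
  LinearMap.pi fun τ => (D π) ∘ₗ (LinearMap.proj τ) +
    ∑ σ, (LinearMap.mulLeft K (rc π τ σ)) ∘ₗ (LinearMap.proj σ)

theorem dY_apply (π : Par K) (y : Cell → R π) (τ : Cell) :
    dY π y τ = D π (y τ) + ∑ σ, rc π τ σ * y σ := by
  simp [dY]

theorem dY_none (π : Par K) (y : Cell → R π) :
    dY π y none = D π (y none) + ∑ l : E, X π l.toGen * y (some l) := by
  rw [dY_apply, Fintype.sum_option]
  simp

theorem dY_some (π : Par K) (y : Cell → R π) (l' : E) :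
    dY π y (some l') = D π (y (some l')) + ∑ l : E, rcf π l' l * y (some l) := by
  rw [dY_apply, Fintype.sum_option]
  simp

theorem dY_dY (π : Par K) (y : Cell → R π) (τ : Cell) : dY π (dY π y) τ ∈ J π := by
  have e : dY π (dY π y) τ = ∑ ρ, (D π (rc π τ ρ) + ∑ σ, rc π τ σ * rc π σ ρ) * y ρ := by
    rw [dY_apply, dY_apply, map_add, D_D, zero_add, map_sum]
    simp only [D_mul, dY_apply, add_mul, Finset.sum_add_distrib, mul_add, Finset.sum_mul,
      Finset.mul_sum]
    have h1 : ∑ σ, ∑ ρ, rc π τ σ * (rc π σ ρ * y ρ) = ∑ ρ, ∑ σ, rc π τ σ * rc π σ ρ * y ρ := by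
      rw [Finset.sum_comm]
      simp only [mul_assoc]
    rw [h1]
    have h2 := add_self π (∑ σ, rc π τ σ * D π (y σ))
    rw [add_assoc, ← add_assoc (∑ σ, rc π τ σ * D π (y σ)), h2, zero_add]
  rw [e]
  exact Submodule.sum_mem _ fun ρ _ => right_J (rc_mc π τ ρ) _

/-! ### exactness -/

/-- **the common part of the exactness statements**: a homogeneous cycle modulo `J` whose
letter-free part lies in `J` is a boundary modulo `J` -/
theorem exY_core (π : Par K) {P A C : ℤ} (y : Cell → R π)
    (hy : ∀ σ, y σ ∈ pz π (P - cP σ) (A - cA σ) (C - cdeg σ))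
    (h : ∀ τ, D π (y τ) + ∑ σ, rc π τ σ * y σ ∈ J π) (h0 : f0 π (y none) ∈ J π) :
    ∃ z : Cell → R π, z none = 0 ∧ (∀ σ, z σ ∈ pz π (P - cP σ) (A - cA σ) (C + 1 - cdeg σ)) ∧
      ∀ τ, y τ - (D π (z τ) + ∑ σ, rc π τ σ * z σ) ∈ J π := by
  set z : Cell → R π := fun σ => match σ with
    | none => 0
    | some l => fl π l (y none) with hz
  have hz0 : z none = 0 := rfl
  have hzl : ∀ l, z (some l) = fl π l (y none) := fun _ => rfl
  refine ⟨z, hz0, ?_, ?_⟩
  · intro σ
    cases σ with
    | none => rw [hz0]; exact Submodule.zero_mem _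
    | some l =>
      have h1 := fl_mem π l (hy none)
      refine pz_cast h1 ?_ ?_ ?_
      · rw [cP_some]; simp [cP]
      · simp [cA]
      · rw [cdeg_some]; simp only [cdeg]; push_cast; ring
  · have hyy : ∀ τ, dY π y τ ∈ J π := fun τ => by rw [dY_apply]; exact h τ
    set y' : Cell → R π := y - dY π z with hy'
    have hc : ∀ τ, dY π y' τ ∈ J π := by
      intro τ
      rw [hy', map_sub]
      exact Submodule.sub_mem _ (hyy τ) (dY_dY π z τ)
    have h1 : y' none = f0 π (y none) := by
      rw [hy', Pi.sub_apply, dY_none, hz0, map_zero, zero_add]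
      simp only [hzl]
      have e := splitR π (y none)
      nth_rewrite 1 [e]
      abel
    have h2 : y' none ∈ J π := by rw [h1]; exact h0
    have h3 : ∑ l : E, X π l.toGen * y' (some l) ∈ J π := by
      have := hc none
      rw [dY_none] at this
      have h4 := Submodule.sub_mem _ this (D_J h2)
      rwa [add_sub_cancel_left] at h4
    have h5 : ∀ τ, y' τ ∈ J π := by
      intro τ
      cases τ with
      | none => exact h2
      | some l => exact sum_X_mul_J π (fun l => y' (some l)) h3 l
    intro τ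
    have := h5 τ
    rw [hy', Pi.sub_apply, dY_apply] at this
    exact this

/-- **exactness in positive degrees** -/
theorem exY_mod (π : Par K) {P A C : ℤ} (hC : 0 < C) (y : Cell → R π)
    (hy : ∀ σ, y σ ∈ pz π (P - cP σ) (A - cA σ) (C - cdeg σ))
    (h : ∀ τ, D π (y τ) + ∑ σ, rc π τ σ * y σ ∈ J π) :
    ∃ z : Cell → R π, z none = 0 ∧ (∀ σ, z σ ∈ pz π (P - cP σ) (A - cA σ) (C + 1 - cdeg σ)) ∧
      ∀ τ, y τ - (D π (z τ) + ∑ σ, rc π τ σ * z σ) ∈ J π :=
  exY_core π y hy h (f0_mem_J π (by simpa [cdeg] using hC) (hy none))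


/-! ### degrees of the table -/

theorem X_pz (π : Par K) (a : Gen) : X π a ∈ pz π a.dP a.dA a.dC := mem_pz_nat.2 (X_mem_pc π a)

theorem X2_pz (π : Par K) (a b : Gen) :
    X π a * X π b ∈ pz π (a.dP + b.dP) (a.dA + b.dA) (a.dC + b.dC) := mul_pz (X_pz π a) (X_pz π b)

theorem tR_pz (π : Par K) : tR π ∈ pz π 0 1 0 := mem_pz_nat.2 (tR_mem π)

/-- close a degree goal -/
macro "dg" : tactic => `(tactic| (first | rfl | (simp [E.toGen, Gen.dP, Gen.dA, Gen.dC]; done) |
  (simp [E.toGen, Gen.dP, Gen.dA, Gen.dC]; ring)))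

set_option maxHeartbeats 4000000 in
theorem rcf_mem (π : Par K) (l' l : E) : rcf π l' l ∈ pz π (l.toGen.dP - l'.toGen.dP)
    (l.toGen.dA - l'.toGen.dA) (l.toGen.dC - l'.toGen.dC - 1) := by
  cases l with
  | d j => cases l' <;> exact Submodule.zero_mem _
  | f => cases l' <;> exact Submodule.zero_mem _
  | u s => cases l' <;> exact Submodule.zero_mem _
  | z j =>
    cases l' with
    | d i =>
      simp only [rcf]
      split_ifs
      · exact Submodule.smul_mem _ _ (pz_cast (X2_pz π (.d 1) (.x j)) (by dg) (by dg) (by dg))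
      · exact Submodule.smul_mem _ _ (pz_cast (X2_pz π (.d 0) (.x j)) (by dg) (by dg) (by dg))
    | _ => exact Submodule.zero_mem _
  | zc =>
    cases l' with
    | z i =>
      simp only [rcf]
      split_ifs
      · exact Submodule.smul_mem _ _ (pz_cast (X_pz π (.x 1)) (by dg) (by dg) (by dg))
      · exact Submodule.smul_mem _ _ (pz_cast (X_pz π (.x 0)) (by dg) (by dg) (by dg))
    | f => exact pz_cast (X_pz π .h) (by dg) (by dg) (by dg)
    | _ => exact Submodule.zero_mem _
  | e j =>
    cases l' with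
    | d i =>
      simp only [rcf]
      split_ifs
      · exact Submodule.smul_mem _ _ (pz_cast (X_pz π .f) (by dg) (by dg) (by dg))
      · exact Submodule.zero_mem _
    | f => exact pz_cast (X_pz π (.d j)) (by dg) (by dg) (by dg)
    | _ => exact Submodule.zero_mem _
  | gj j =>
    cases l' with
    | f => exact pz_cast (X_pz π (.z j)) (by dg) (by dg) (by dg)
    | z i =>
      simp only [rcf]
      split_ifs
      · exact Submodule.smul_mem _ _ (pz_cast (X_pz π .f) (by dg) (by dg) (by dg))
      · exact Submodule.zero_mem _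
    | e i =>
      simp only [rcf]
      split_ifs
      · exact Submodule.smul_mem _ _ (pz_cast (X2_pz π (.d 1) (.x j)) (by dg) (by dg) (by dg))
      · exact Submodule.smul_mem _ _ (pz_cast (X2_pz π (.d 0) (.x j)) (by dg) (by dg) (by dg))
    | d i =>
      simp only [rcf]
      split_ifs
      · exact Submodule.smul_mem _ _ (pz_cast (X2_pz π (.e 1) (.x j)) (by dg) (by dg) (by dg))
      · exact Submodule.smul_mem _ _ (pz_cast (X2_pz π (.e 0) (.x j)) (by dg) (by dg) (by dg))
    | _ => exact Submodule.zero_mem _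
  | gc =>
    cases l' with
    | f => exact pz_cast (X_pz π .zc) (by dg) (by dg) (by dg)
    | zc => exact pz_cast (X_pz π .f) (by dg) (by dg) (by dg)
    | gj i =>
      simp only [rcf]
      split_ifs
      · exact Submodule.smul_mem _ _ (pz_cast (X_pz π (.x 1)) (by dg) (by dg) (by dg))
      · exact Submodule.smul_mem _ _ (pz_cast (X_pz π (.x 0)) (by dg) (by dg) (by dg))
    | u i =>
      rcases f2 i with rfl | rfl
      · exact Submodule.smul_mem _ _ (pz_cast (X_pz π (.u 1)) (by dg) (by dg) (by dg))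
      · exact pz_cast (X_pz π (.u 0)) (by dg) (by dg) (by dg)
    | _ => exact Submodule.zero_mem _
  | v s =>
    cases l' with
    | d i =>
      exact Submodule.smul_mem _ _ (pz_cast (X2_pz π (.x i) (.u s)) (by dg) (by dg) (by dg))
    | u i =>
      simp only [rcf]
      split_ifs with h
      · subst h
        exact Submodule.add_mem _ (pz_cast (tR_pz π) (by dg) (by dg) (by dg))
          (pz_cast (X_pz π .h) (by dg) (by dg) (by dg))
      · exact Submodule.zero_mem _
    | _ => exact Submodule.zero_mem _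

/-- the entries of the table are homogeneous -/
theorem rc_mem (π : Par K) (τ σ : Cell) :
    rc π τ σ ∈ pz π (cP σ - cP τ) (cA σ - cA τ) ((cdeg σ : ℤ) - cdeg τ - 1) := by
  cases σ with
  | none => rw [rc_none]; exact Submodule.zero_mem _
  | some l =>
    cases τ with
    | none =>
      refine pz_cast (X_pz π l.toGen) ?_ ?_ ?_
      · rw [cP_some]; simp [cP]
      · simp [cA]
      · rw [cdeg_some]; simp [cdeg]
    | some l' =>
      refine pz_cast (rcf_mem π l' l) ?_ ?_ ?_
      · rw [cP_some, cP_some]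
      · simp [cA]
      · rw [cdeg_some, cdeg_some]; ring

/-- the differential preserves homogeneity -/
theorem dY_mem (π : Par K) {P A C : ℤ} {y : Cell → R π}
    (hy : ∀ σ, y σ ∈ pz π (P - cP σ) (A - cA σ) (C - cdeg σ)) (τ : Cell) :
    dY π y τ ∈ pz π (P - cP τ) (A - cA τ) (C - 1 - cdeg τ) := by
  rw [dY_apply]
  refine Submodule.add_mem _ (pz_cast (D_pz (hy τ)) rfl rfl (by ring))
    (Submodule.sum_mem _ fun σ _ => pz_cast (mul_pz (rc_mem π τ σ) (hy σ)) (by ring) (by ring)
      (by ring))

/-! ### the same in `R' = range kill` -/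

open Crest.Agent.R186.C2b44 (kill kill_kill)
open Crest.Agent.R186.KOS296 (mem_J_iff_kill)

theorem kill_rcf (π : Par K) (l' l : E) : kill π (rcf π l' l) = rcf π l' l := by
  cases l' <;> cases l <;> simp only [rcf] <;>
    (try split_ifs) <;> simp [C2b44.kill_tR]

theorem kill_rc (π : Par K) (τ σ : Cell) : kill π (rc π τ σ) = rc π τ σ := by
  cases σ with
  | none => rw [rc_none, map_zero]
  | some l =>
    cases τ with
    | none => exact C2b44.kill_E π l
    | some l' => exact kill_rcf π l' l

theorem rc_mc_kill (π : Par K) (τ σ : Cell) :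
    kill π (D π (rc π τ σ)) + ∑ ρ, rc π τ ρ * rc π ρ σ = 0 := by
  have h := (mem_J_iff_kill π).1 (rc_mc π τ σ)
  rw [map_add, map_sum] at h
  simp only [map_mul, kill_rc] at h
  exact h

end Crest.Agent.R186.RC805
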