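import Crest.Agent.R186.C2s_468
import Crest.Agent.R186.C2pp_655
import Crest.Agent.R186.C2W_655

/-!
Row 186 (A), helper468: `C2s_468` fed by helper655's `WA`, `WG`.
-/

set_option autoImplicit false
set_option linter.style.haveILetI false
set_option linter.unusedSectionVars false

open MulOpposite

namespace Crest.Agent.R186.C2b468

open Hat827 Hat827.DGA Frame515 Res255 FWI226 FinV988 C2s468 C2pp655

variable {K : Type} [Field K]

section gen

variable {A A' : DGA K} {pr : Hm A A'} {ι : Type} [Fintype ι] (W : WA pr ι) {S : WEl A}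
  (hS : S.pi = W.pi) {Y : RCells A} {M : LM A} (R : RRes Y (DR M)) {G' : RM A'}
  (V : WG W (DR M) G')

/-- the pair of a family of cells and a functional -/
theorem p1_y (a : A.C) (z : (CR R).X) (σ : Y.ι) : p1 R (rmul (CR R) a z) σ = p1 R z σ * a := rfl

include hS in
theorem Kl_pr {z : (CR R).X} (h : Kl S (CR R) z) :
    (∀ σ, pr.f (p1 R z σ) = 0) ∧ V.q (p2 R z) = 0 := by
  rw [Kl_iff, hS] at h
  exact ⟨fun σ => W.fr2 _ (h.1 σ), V.fr2 _ (LinearMap.ext h.2)⟩

include hS in
theorem pr_Kl {z : (CR R).X} (h1 : ∀ σ, pr.f (p1 R z σ) = 0) (h2 : V.q (p2 R z) = 0) :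
    Kl S (CR R) z := by
  rw [Kl_iff, hS]
  exact ⟨fun σ => W.piW _ (h1 σ), fun m => LinearMap.congr_fun (V.piW _ h2) m⟩

/-- the `W`-complex of the cone -/
noncomputable def wc : FW226.WC K (CR R).X ι where
  gr := (CR R).gr
  d := (CR R).d
  d_mem := (CR R).d_mem
  d_d := (CR R).d_d
  lo := min 1 (V.lo - R.lo)
  low k hk z hz := by
    obtain ⟨h1, h2⟩ := (mem_CR R).1 hz
    refine C2s468.ext R (Finsupp.ext fun σ => ?_) ?_
    · exact neg (h1 σ).1 (by have := lt_of_lt_of_le hk (min_le_left _ _); omega)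
    · exact V.low (R.lo + k) (by have := lt_of_lt_of_le hk (min_le_right _ _); omega) _ h2
  y g := rmul (CR R) (W.y g)
  δ := W.δ
  y_mem {k x} g hx := by
    have := (CR R).smul_mem (W.y_mem g) hx
    rwa [add_comm] at this
  y_d g x := FWI226.rmul_d (G := CR R) (W.y_D g) x
  pi := rmul (CR R) W.pi
  δp := W.δp
  pi_mem {k x} hx := by
    have := (CR R).smul_mem W.pi_mem hx
    rwa [add_comm] at this
  pi_d x := FWI226.rmul_d (G := CR R) W.pi_D x
  Wp := LinearMap.ker (rmul (CR R) W.pi)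
  y_Wp g x := by
    have h : W.y g * W.pi = 0 := W.piW _ (W.pr_y g)
    change op W.pi • op (W.y g) • x = 0
    rw [smul_smul, ← op_mul, h, op_zero, zero_smul]
  pi_Wp x := by
    have h : W.pi * W.pi = 0 := W.piW _ W.pr_pi
    change op W.pi • op W.pi • x = 0
    rw [smul_smul, ← op_mul, h, op_zero, zero_smul]
  hW {k z} hz hk := by
    classical
    obtain ⟨h1, h2⟩ := (mem_CR R).1 hk
    have hz' : op W.pi • z = 0 := hz
    have e1 : ∀ σ, pr.f (p1 R z σ) = 0 := fun σ => W.fr2 _ (by rw [← p1_smul, hz']; rfl)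
    have e2 : V.q (p2 R z) = 0 := V.fr2 _ (congrArg (p2 R) hz')
    obtain ⟨b, hb, hbe⟩ := V.hW e2 h2
    have h3 : ∀ σ, ∃ c : ι → A.C, (∀ g, c g ∈ A.G (k - W.δ g - 1 - Y.s σ) ∧
        Y.e σ * c g = c g) ∧ p1 R z σ = ∑ g, c g * W.y g ∧
        (σ ∉ (p1 R z).support → ∀ g, c g = 0) := by
      intro σ
      by_cases hσ : σ ∈ (p1 R z).support
      · obtain ⟨c, hc, hce⟩ := W.hW (e1 σ) (h1 σ).1
        refine ⟨fun g => Y.e σ * c g, fun g => ⟨?_, ?_⟩, ?_, fun h => absurd hσ h⟩
        · have := A.mul_mem (Y.e_mem σ) (hc g)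
          rwa [show 0 + (k - 1 - (Y.s σ : ℤ) - W.δ g) = k - W.δ g - 1 - Y.s σ by ring] at this
        · rw [← mul_assoc, Y.e_idem]
        · conv_lhs => rw [← (h1 σ).2, hce, Finset.mul_sum]
          exact Finset.sum_congr rfl fun g _ => by rw [mul_assoc]
      · refine ⟨fun _ => 0, fun g => ⟨Submodule.zero_mem _, mul_zero _⟩, ?_, fun _ _ => rfl⟩
        rw [Finsupp.notMem_support_iff.1 hσ]
        exact (Finset.sum_eq_zero fun g _ => zero_mul _).symm
    choose c hc hce hc0 using h3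
    let t : ι → (Y.ι →₀ A.C) := fun g =>
      Finsupp.onFinset (p1 R z).support (fun σ => c σ g) fun σ h => by
        by_contra hcon
        exact h (hc0 σ hcon g)
    refine ⟨fun g => mk R (t g) (b g), fun g => ?_, ?_⟩
    · rw [mem_CR]
      refine ⟨fun σ => hc σ g, ?_⟩
      have := hb g
      rw [show R.lo + k - (W.δ g : ℤ) = R.lo + (k - W.δ g) by ring] at this
      exact this
    · refine C2s468.ext R (Finsupp.ext fun σ => ?_) ?_
      · rw [p1_sum, Finsupp.finsetSum_apply]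
        exact hce σ
      · rw [p2_sum]
        exact hbe
  yW {k z} g hz hk := by
    classical
    obtain ⟨h1, h2⟩ := (mem_CR R).1 hk
    have hz' : op W.pi • z = 0 := hz
    have e1 : ∀ σ, pr.f (p1 R z σ) = 0 := fun σ => W.fr2 _ (by rw [← p1_smul, hz']; rfl)
    have e2 : V.q (p2 R z) = 0 := V.fr2 _ (congrArg (p2 R) hz')
    obtain ⟨b, hb, hbe⟩ := V.yW g e2 h2
    have h3 : ∀ σ, ∃ c : A.C, c ∈ A.G (k + W.δ g - W.δp - 1 - Y.s σ) ∧
        Y.e σ * c = c ∧ p1 R z σ * W.y g = c * W.pi ∧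
        (σ ∉ (p1 R z).support → c = 0) := by
      intro σ
      by_cases hσ : σ ∈ (p1 R z).support
      · obtain ⟨c, hc, hce⟩ := W.yW g (e1 σ) (h1 σ).1
        refine ⟨Y.e σ * c, ?_, ?_, ?_, fun h => absurd hσ h⟩
        · have := A.mul_mem (Y.e_mem σ) hc
          rwa [show 0 + (k - 1 - (Y.s σ : ℤ) + W.δ g - W.δp) =
            k + W.δ g - W.δp - 1 - Y.s σ by ring] at this
        · rw [← mul_assoc, Y.e_idem]
        · rw [mul_assoc, ← hce, ← mul_assoc, (h1 σ).2]
      · refine ⟨0, Submodule.zero_mem _, mul_zero _, ?_, fun _ => rfl⟩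
        rw [Finsupp.notMem_support_iff.1 hσ, zero_mul, zero_mul]
    choose c hc hce hcp hc0 using h3
    let t : Y.ι →₀ A.C :=
      Finsupp.onFinset (p1 R z).support c fun σ h => by
        by_contra hcon
        exact h (hc0 σ hcon)
    refine ⟨mk R t b, ?_, ?_⟩
    · rw [mem_CR]
      refine ⟨fun σ => ⟨hc σ, hce σ⟩, ?_⟩
      rw [show R.lo + k + (W.δ g : ℤ) - W.δp = R.lo + (k + W.δ g - W.δp) by ring] at hb
      exact hb
    · exact C2s468.ext R (Finsupp.ext fun σ => hcp σ) hbe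
  piW w hw := hw
  fr1 c h g := by
    obtain ⟨x, hx⟩ := h
    have e1 : ∀ σ, pr.f (p1 R (c g) σ) = 0 := by
      intro σ
      refine W.fr1 (fun g => p1 R (c g) σ) ⟨p1 R x σ, ?_⟩ g
      have := congrArg (fun z => p1 R z σ) hx
      simp only [p1_sum, Finsupp.finsetSum_apply] at this
      exact this
    have e2 : V.q (p2 R (c g)) = 0 := by
      refine V.fr1 (fun g => p2 R (c g)) ⟨p2 R x, ?_⟩ g
      have := congrArg (p2 R) hx
      rw [p2_sum] at this
      exact this
    change op W.pi • c g = 0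
    exact C2s468.ext R (Finsupp.ext fun σ => W.piW _ (e1 σ)) (V.piW _ e2)
  fr2 c hc := hc

include hS V in
/-- the cone is acyclic modulo `W_+` -/
theorem barW (k : ℤ) (x : (CR R).X) (hx : x ∈ (CR R).gr k) (hd : Kl S (CR R) ((CR R).d x)) :
    ∃ y ∈ (CR R).gr (k + 1), Kl S (CR R) (x - (CR R).d y) := by
  have key := (wc W R V).bar_acyclic (by
    intro k z hz hd
    obtain ⟨h1, h2⟩ := (mem_CR R).1 hz
    have e1 : (tY Y (selfL A)).d (p1 R z) = 0 := congrArg (p1 R) hd
    have e2 : augR Y (DR M) R.v (p1 R z) + (DR M).d (p2 R z) = 0 := congrArg (p2 R) hd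
    obtain ⟨y, hy, n, hn, e3, e4⟩ := R.ex k (p1 R z) (p2 R z) h1 e1 h2 e2
    refine ⟨mk R y n, ?_, ?_⟩
    · change mk R y n ∈ (CR R).gr (k + 1)
      rw [mem_CR]
      refine ⟨fun σ => ?_, fun l m hm hl => hn l m hm (by omega)⟩
      have := hy σ
      rw [show k + 1 - 1 = k by ring]
      exact this
    · exact C2s468.ext R e3 e4.symm) k x hx (by
    have hd' : op S.pi • (CR R).d x = 0 := hd
    rw [hS] at hd'
    exact hd')
  obtain ⟨y, hy, hk⟩ := key
  refine ⟨y, hy, ?_⟩
  have hk' : op W.pi • (x - (CR R).d y) = 0 := hk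
  rw [← hS] at hk'
  exact hk'

include hS V in
/-- **(c2) from helper655's `WA`, `WG`** -/
theorem c2w {KK : LM A} {H : GC K} (T : C2D S M KK H) (k : ℤ) :
    AcIff492.CE (tY Y KK) (Dual560.GCd H) R.lo k (pmap T R) :=
  c2s_of_bar T R (barW W hS R V) k

end gen

/-! ### the letters of `W` in the window algebra -/

section inst

open DefsQ830 Der580 PBW128 Win810 WL221 C2W655

variable (π : DefsQ830.Par K)

theorem en_diag (a : R π) (c : ℤ) (ha : a ∈ (WR π).pc 0 0 c) (i j : DefsQ830.Ob) :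
    en (dgw (WR π) a c ha) i j = if i = j then a else 0 :=
  Matrix.diagonal_apply (n := DefsQ830.Ob) (fun _ => a) i j

theorem wtr_yq (a b : PBW128.Y) : wtr (yq a) b = .pi := by
  cases a <;> cases b <;> rfl

theorem yy_mul (a b : PBW128.Y) : yW π a * yW π b = wkr π (yq a) b • C2W655.piW π := by
  refine en_ext fun i j => ?_
  rw [en_mul_yW]
  change en (yW π a) i j * X π b.toGen = wkr π (yq a) b • en (C2W655.piW π) i j
  unfold yW C2W655.piW
  rw [en_diag, en_diag]
  split_ifs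
  · rw [← wq_yq, wq_mul_Y, wtr_yq]
  · rw [zero_mul, smul_zero]

/-- the letters of `W` in `L''` -/
noncomputable def welR : WEl (WR π).dga where
  ι := PBW128.Y
  y := yW π
  δ := dy
  y_mem a := (waR π).y_mem a
  D_y a := (waR π).y_D a
  pi := C2W655.piW π
  δp := dpi
  pi_mem := (waR π).pi_mem
  D_pi := (waR π).pi_D
  ε a b := wkr π (yq a) b
  yy a b := yy_mul π a b
  ε_deg a b h := by
    rw [dpi_eq]
    rcases a with s | s <;> rcases b with t | t
    · have hs : s = 0 ∨ s = 1 := by fin_cases s <;> simp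
      have ht : t = 0 ∨ t = 1 := by fin_cases t <;> simp
      rcases hs with rfl | rfl <;> rcases ht with rfl | rfl
      · exact absurd rfl h
      · rfl
      · exact add_comm _ _
      · exact absurd rfl h
    · have hs : s = 0 ∨ s = 1 := by fin_cases s <;> simp
      rcases hs with rfl | rfl
      · exact absurd rfl h
      · exact absurd rfl h
    · exact absurd rfl h
    · exact absurd rfl h
  y_pi a := (waR π).piW _ ((waR π).pr_y a)
  pi_y := ⟨.y 1, yW π (.y 0), by
    have h := yy_mul π (.y 0) (.y 1)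
    have h1 : wkr π (yq (.y 0)) (.y 1) = 1 := rfl
    rw [h1, one_smul] at h
    exact h.symm⟩

end inst

end Crest.Agent.R186.C2b468
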