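import Crest.Agent.R186.C2j_468
import Crest.Agent.R186.C2N_655

/-!
Row 186 (A), helper468: (iii) on the concrete objects, from a `C2D` over any `WEl` with
`pi = C2W655.piW π`.
-/

set_option autoImplicit false
set_option linter.style.haveILetI false
set_option linter.unusedSectionVars false

noncomputable section

open MulOpposite

namespace Crest.Agent.R186.C2fin468

open Hat827 Hat827.DGA Frame515 Res255 FWI226 FinV988 FinD988 SqF124 C2s468 C2b468 C2j468 Adapt186
open Win810 SM890 KHc302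

variable {K : Type} [Field K] (π : DefsQ830.Par K) (s : ℕ) (hs : 5 ≤ s)

/-- the input -/
abbrev Inp (S : WEl (WR π).dga) : Type 1 := C2D S (MW π s (two_le hs)).toLM
  (resL (HmI π s (two_le hs)) (yL (CEr π s hs).toIn)) (HG (CEr π s hs).toIn)

variable {π s hs} {S : WEl (WR π).dga} (hS : S.pi = C2W655.piW π) (T : Inp π s hs S)

include hS in
/-- **(iii) over `L''`** -/
theorem c3 {Y : RCells (WR π).dga} (R : RRes Y (DM π s (two_le hs))) (k : ℤ) :
    AcIff492.CE (tY Y (resL (HmI π s (two_le hs)) (yL (CEr π s hs).toIn)))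
      (Dual560.GCd (HG (CEr π s hs).toIn)) R.lo k (pmap T R) :=
  c2w (C2W655.waR π) hS R (C2N655.wgM π s (two_le hs)) T k

/-- the functionals on `Γ` -/
def vG {Y : RCells (WR π).dga} (R : RRes Y (DM π s (two_le hs))) (σ : Y.ι) :
    (DR (selfL (Gm π s (two_le hs)))).X :=
  ((show (MW π s (two_le hs)).X →ₗ[K] K from R.v σ) ∘ₗ sndW (bdM π s (two_le hs)) :
    (Gm π s (two_le hs)).C →ₗ[K] K)

include hS in
/-- **(iii) in helper124's letters** -/
theorem c3' (hev : ∀ (x : (CEr π s hs).toIn.Y) (z : (CEr π s hs).toIn.Z),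
      T.ev x z = sndW (bdM π s (two_le hs)) ((CEr π s hs).toIn.ev x z))
    {Y : RCells (WR π).dga} (R : RRes Y (DM π s (two_le hs))) (k : ℤ) :
    AcIff492.CE (tY (pushR (HmI π s (two_le hs)) Y) (yL (CEr π s hs).toIn))
      (DZc (CEr π s hs).toIn) R.lo k (c2m (CEr π s hs).toIn (vG (hs := hs) R)) :=
  ce_c2m (HmI π s (two_le hs)) (CEr π s hs).toIn (sndW (bdM π s (two_le hs))) T hev R
    (vG (hs := hs) R) (fun _ _ => rfl) (c3 hS T R k)

end Crest.Agent.R186.C2fin468
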