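import Crest.Agent.R186.SMp_890
import Crest.Agent.R186.WL_221

/-!
Row 186 (A), (c2), part H (helper831), entry level: on 890's `M = N K`,

* `pim π m = repM π (wq π .pi) m` (left multiplication by `π_W = y_x y_x'`),
* `sL : M → R'` (coordinates of the socle row `o_1`), `lam : M → M`, `o_1 ↦ o_π` (rescaled),
* `soc_sL_pim : soc (sL (pim m)) = pim m`, `pim_lam : pim (lam (soc b)) = soc b`,
  `soc_inj`, and all the degrees.
-/

set_option autoImplicit false
set_option linter.unusedSimpArgs false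

noncomputable section

namespace Crest.Agent.R186.C2h831

open DefsQ830 DefsQ830.Gen PBW128 Win810 SM890 WL221 C2b44

variable {K : Type} [Field K] (π : Par K)

/-- left multiplication by the top element of `W` -/
def pim : N K →ₗ[K] N K := repM π (wq π .pi)

theorem pim_apply (m : N K) : pim π m = repM π (wq π .pi) m := rfl

/-- the coefficient -/
def kc (i j : ℕ) (w : List E) : K := sc π (.y 1) i j w * sc π (.y 0) i j w

theorem sc_ne (a : Y) (i j : ℕ) (w : List E) : sc π a i j w ≠ 0 := by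
  have h0 : π.c 0 ≠ 0 := by simp [Par.c, π.g0]
  have h1 : π.c 1 ≠ 0 := by simp [Par.c, π.g0]
  unfold sc
  refine mul_ne_zero (mul_ne_zero (pow_ne_zero _ (inv_ne_zero h0))
    (pow_ne_zero _ (inv_ne_zero h1))) ?_
  apply List.prod_ne_zero
  intro h
  obtain ⟨l, -, hl⟩ := List.mem_map.1 h
  exact chi_ne π _ _ hl

theorem kc_ne (i j : ℕ) (w : List E) : kc π i j w ≠ 0 :=
  mul_ne_zero (sc_ne π _ i j w) (sc_ne π _ i j w)

theorem pim_bv (i j k : ℕ) (w : List E) (q : Wb) :
    pim π (bv K i j k w q) = if q = .pi then kc π i j w • bv K i j k w .one else 0 := by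
  rw [pim_apply, wq_pi, map_mul, Module.End.mul_apply]
  change repM π (X π (Y.y 0).toGen) (repM π (X π (Y.y 1).toGen) (bv K i j k w q)) = _
  rw [repM_Y, repM_Y, opD_bv, map_smul, opD_bv, smul_smul]
  cases q with
  | one => simp [dk]
  | y s => rcases fin2 s with rfl | rfl <;> simp [dk, dt]
  | yb s => simp [dk, dt]
  | pi => simp [dk, dt, kc]

/-- coordinates of the row `o_1` -/
def sL : N K →ₗ[K] R π :=
  Finsupp.linearCombination K (fun ν : Ix =>
    if ν.2.2.2.2 = .one then nf π ν else 0)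

theorem sL_bv (i j k : ℕ) (w : List E) (q : Wb) :
    sL π (bv K i j k w q) = if q = .one then nf π (i, j, k, w, .one) else 0 := by
  unfold sL bv
  rw [Finsupp.linearCombination_single, one_smul]
  by_cases h : q = .one
  · subst h; rfl
  · rw [if_neg h, if_neg h]

/-- `o_1 ↦ o_π`, rescaled -/
def lam : N K →ₗ[K] N K :=
  Finsupp.linearCombination K (fun ν : Ix =>
    if ν.2.2.2.2 = .one then
      (kc π ν.1 ν.2.1 ν.2.2.2.1)⁻¹ • bv K ν.1 ν.2.1 ν.2.2.1 ν.2.2.2.1 .pi else 0)

theorem lam_bv (i j k : ℕ) (w : List E) (q : Wb) :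
    lam π (bv K i j k w q) = if q = .one then (kc π i j w)⁻¹ • bv K i j k w .pi else 0 := by
  unfold lam
  conv_lhs => unfold bv
  rw [Finsupp.linearCombination_single, one_smul]
  rfl

/-- `soc` with values in `N K` -/
def socN : R π →ₗ[K] N K := evM π (oo K .one)

theorem socN_eq (r : R π) : socN π r = soc π r := rfl

theorem soc_nf (i j k : ℕ) (w : List E) (q : Wb) :
    socN π (nf π (i, j, k, w, q)) = if q = .one then bv K i j k w .one else 0 := by
  have h : socN π (nf π (i, j, k, w, q)) = cW π q .one • bv K i j k w (tW q .one) :=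
    oM_nf π i j k w q .one
  rw [h]
  cases q with
  | one => simp [cW, tW]
  | y s => rcases fin2 s with rfl | rfl <;> simp [cW, tW, dk, dt]
  | yb s => rcases fin2 s with rfl | rfl <;> simp [cW, tW, dk, dt]
  | pi => simp [cW, tW, dk, dt]

/-- linear maps out of `R π` agreeing on the normal elements -/
theorem R_ext {V : Type*} [AddCommGroup V] [Module K V] {f g : R π →ₗ[K] V}
    (h : ∀ i j k w q, f (nf π (i, j, k, w, q)) = g (nf π (i, j, k, w, q))) (r : R π) :
    f r = g r := by
  have h2 : f ∘ₗ Psi π = g ∘ₗ Psi π := by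
    apply ext_bv
    intro i j k w q
    rw [LinearMap.comp_apply, LinearMap.comp_apply, Psi_bv]
    exact h i j k w q
  have := LinearMap.congr_fun h2 (ev π r)
  rwa [LinearMap.comp_apply, LinearMap.comp_apply, Psi_ev] at this

theorem sL_soc (r : R π) : sL π (socN π r) = kill π r := by
  have h := R_ext π (f := sL π ∘ₗ socN π) (g := (kill π).toLinearMap) (fun i j k w q => by
    rw [LinearMap.comp_apply, soc_nf]
    change _ = kill π (nf π (i, j, k, w, q))
    rw [kill_nf]
    by_cases hq : q = .one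
    · subst hq
      rw [if_pos rfl, sL_bv, if_pos rfl]
    · rw [if_neg hq, map_zero, if_neg hq]) r
  exact h

theorem soc_sL_pim (m : N K) : socN π (sL π (pim π m)) = pim π m := by
  have h : (socN π ∘ₗ sL π ∘ₗ pim π : N K →ₗ[K] N K) = pim π := by
    apply ext_bv
    intro i j k w q
    change socN π (sL π (pim π (bv K i j k w q))) = _
    rw [pim_bv]
    by_cases hq : q = .pi
    · rw [if_pos hq, map_smul, sL_bv, if_pos rfl, map_smul, soc_nf, if_pos rfl]
    · rw [if_neg hq, map_zero, map_zero]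
  exact LinearMap.congr_fun h m

theorem kill_sL (n : N K) : kill π (sL π n) = sL π n := by
  have h : ((kill π).toLinearMap ∘ₗ sL π : N K →ₗ[K] R π) = sL π := by
    apply ext_bv
    intro i j k w q
    change kill π (sL π (bv K i j k w q)) = _
    rw [sL_bv]
    split_ifs with hq
    · rw [kill_nf, if_pos rfl]
    · exact map_zero _
  exact LinearMap.congr_fun h n

theorem pim_lam_soc (r : R π) : pim π (lam π (socN π r)) = socN π r := by
  have h := R_ext π (f := (pim π ∘ₗ lam π ∘ₗ socN π : R π →ₗ[K] N K)) (g := socN π)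
    (fun i j k w q => by
      change pim π (lam π (socN π (nf π (i, j, k, w, q)))) = _
      rw [soc_nf]
      by_cases hq : q = .one
      · subst hq
        rw [if_pos rfl, lam_bv, if_pos rfl, map_smul, pim_bv, if_pos rfl, smul_smul,
          inv_mul_cancel₀ (kc_ne π i j w), one_smul]
      · rw [if_neg hq, map_zero, map_zero]) r
  exact h

theorem soc_inj {r : R π} (hr : kill π r = r) (h : socN π r = 0) : r = 0 := by
  rw [← hr, ← sL_soc, h, map_zero]

/-! ### degrees -/

theorem supp_ind {V : Type*} [AddCommGroup V] [Module K V] {φ : N K →ₗ[K] V}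
    {T : Submodule K V} {I : Set Ix} (h : ∀ ν ∈ I, φ (Finsupp.single ν 1) ∈ T) {n : N K}
    (hn : n ∈ Finsupp.supported K K I) : φ n ∈ T := by
  have h2 : Finsupp.supported K K I ≤ T.comap φ := by
    rw [Finsupp.supported_eq_span_single, Submodule.span_le]
    rintro _ ⟨ν, hν, rfl⟩
    exact h ν hν
  exact h2 hn

theorem pim_mem {s : ℕ} {P A C : ℤ} {m : N K} (hm : m ∈ Finsupp.supported K K (mI s P A C)) :
    pim π m ∈ Finsupp.supported K K (mI s P A (C + 1)) := by
  refine supp_ind (φ := pim π) (fun ν hν => ?_) hm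
  obtain ⟨i, j, k, w, q⟩ := ν
  obtain ⟨h1, h2, h3⟩ := hν
  change pim π (bv K i j k w q) ∈ _
  rw [pim_bv]
  split_ifs with hq
  · subst hq
    refine Submodule.smul_mem _ _ (Finsupp.single_mem_supported _ _ ⟨h1, h2, ?_⟩)
    have e1 : mC s (i, j, k, w, .one) =
        (((w.map (fun l => l.toGen.dC)).sum : ℕ) : ℤ) - wC (Wb.one).word + s := rfl
    have e2 : mC s (i, j, k, w, .pi) =
        (((w.map (fun l => l.toGen.dC)).sum : ℕ) : ℤ) - wC (Wb.pi).word + s := rfl
    have e3 : wC (Wb.one).word = 0 := by simp [Wb.word, wC]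
    have e4 : wC (Wb.pi).word = 1 := by simp [Wb.word, wC, dC]
    rw [e1, e3]
    rw [e2, e4] at h3
    push_cast at h3 ⊢
    omega
  · exact Submodule.zero_mem _

theorem sL_mem {s : ℕ} {P A C : ℤ} {n : N K} (hn : n ∈ Finsupp.supported K K (mI s P A C)) :
    sL π n ∈ pcZ π (P + 1) A (C - s) := by
  refine supp_ind (φ := sL π) (fun ν hν => ?_) hn
  obtain ⟨i, j, k, w, q⟩ := ν
  obtain ⟨h1, h2, h3⟩ := hν
  change sL π (bv K i j k w q) ∈ _
  rw [sL_bv]
  split_ifs with hq
  · subst hq
    have h4 := nf_mem_pc π (i, j, k, w, .one)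
    have e2 : dCx (i, j, k, w, .one) = (w.map (fun l => l.toGen.dC)).sum := by
      simp [dCx, Wb.word, wC]
    have e3 : dPx (i, j, k, w, .one) = P + 1 := by
      have : mP (i, j, k, w, .one) = dPx (i, j, k, w, .one) - 1 := rfl
      omega
    have e1 : mC s (i, j, k, w, .one) =
        (((w.map (fun l => l.toGen.dC)).sum : ℕ) : ℤ) - wC (Wb.one).word + s := rfl
    have e5 : wC (Wb.one).word = 0 := by simp [Wb.word, wC]
    rw [e1, e5] at h3
    have e6 : C - s = ((w.map (fun l => l.toGen.dC)).sum : ℕ) := by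
      push_cast at h3 ⊢
      omega
    rw [e2, e3] at h4
    have e4 : (dAx (i, j, k, w, .one) : ℤ) = A := h2
    rw [← e4, e6, pcZ_nat]
    exact h4
  · exact Submodule.zero_mem _

theorem lam_mem {s : ℕ} {P A C : ℤ} {n : N K} (hn : n ∈ Finsupp.supported K K (mI s P A C)) :
    lam π n ∈ Finsupp.supported K K (mI s P A (C - 1)) := by
  refine supp_ind (φ := lam π) (fun ν hν => ?_) hn
  obtain ⟨i, j, k, w, q⟩ := ν
  obtain ⟨h1, h2, h3⟩ := hν
  change lam π (bv K i j k w q) ∈ _
  rw [lam_bv]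
  split_ifs with hq
  · subst hq
    refine Submodule.smul_mem _ _ (Finsupp.single_mem_supported _ _ ⟨h1, h2, ?_⟩)
    have e1 : mC s (i, j, k, w, .one) =
        (((w.map (fun l => l.toGen.dC)).sum : ℕ) : ℤ) - wC (Wb.one).word + s := rfl
    have e2 : mC s (i, j, k, w, .pi) =
        (((w.map (fun l => l.toGen.dC)).sum : ℕ) : ℤ) - wC (Wb.pi).word + s := rfl
    have e3 : wC (Wb.one).word = 0 := by simp [Wb.word, wC]
    have e4 : wC (Wb.pi).word = 1 := by simp [Wb.word, wC, dC]
    rw [e2, e4]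
    rw [e1, e3] at h3
    push_cast at h3 ⊢
    omega
  · exact Submodule.zero_mem _

/-! ### the three facts on entries -/

/-- **(H0)** -/
theorem h0 (b : RL π) (h : soc π b.1 = 0) : b = 0 := Subtype.ext (soc_inj π b.2 h)

/-- the coordinate of `π m` -/
def bpi (m : MM π) : RL π := ⟨sL π (pim π m), kill_sL π _⟩

/-- **(H1)** `π m = soc (bpi m)` -/
theorem soc_bpi (m : MM π) : soc π (bpi π m).1 = repM π (wq π .pi) m := soc_sL_pim π m

theorem bpi_mem {s : ℕ} {P A C : ℤ} {m : MM π} (hm : m ∈ pcM π s P A C) :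
    bpi π m ∈ pcL π (P + 1) A (C + 1 - s) := by
  rw [pcM_supported] at hm
  exact sL_mem π (pim_mem π hm)

/-- **(H2)** `soc b = π (ups b)` -/
def ups : RL π →ₗ[K] MM π := (lam π ∘ₗ socN π) ∘ₗ (RL π).val.toLinearMap

theorem pi_ups (b : RL π) : repM π (wq π .pi) (ups π b) = soc π b.1 := pim_lam_soc π b.1

theorem ups_mem {s : ℕ} {P A C : ℤ} {b : RL π} (hb : b ∈ pcL π P A C) :
    ups π b ∈ pcM π s (P - 1) A (C + s - 1) := by
  have h1 : soc π b.1 ∈ pcM π s (P - 1) A (C + s) := by
    refine mem_pcM π s .one (C' := C) ?_ ?_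
    · rw [show P - 1 + 1 = P by ring]
      exact hb
    · simp [Wb.word, wC]
  rw [pcM_supported] at h1 ⊢
  exact lam_mem π h1

end Crest.Agent.R186.C2h831
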