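import Crest.Agent.R186.AcIff_492
import Crest.Agent.R186.FWI_226
import Crest.Agent.R186.FinV_988
import Crest.Agent.R186.Dual_560

/-!
Row 186 (A), helper468: line (c2) of the short road.  `Y → D(M)` right cells over `A = L''`, `M`
left `W`-cofree, `KK` a finite module of cells of `A / A W_+`, `H = Hom(KK, M)`: the map
`Y ⊗ KK → D(H)` is a quasi-isomorphism.
-/

set_option autoImplicit false
set_option linter.style.haveILetI false
set_option linter.unusedSectionVars false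

open MulOpposite

namespace Crest.Agent.R186.C2s468

open Hat827 Hat827.DGA Frame515 Res255 FWI226 FinV988

variable {K : Type} [Field K]

/-! ### families over finite cells, modulo `W_+` -/

section fam

variable {A : DGA K} (S : WEl A) (C : RM A)

/-- killed by `pi` -/
def Kl (x : C.X) : Prop := op S.pi • x = 0

variable {S C}

theorem Kl.add {x y : C.X} (hx : Kl S C x) (hy : Kl S C y) : Kl S C (x + y) := by
  unfold Kl at *
  rw [smul_add, hx, hy, add_zero]

theorem Kl.sub {x y : C.X} (hx : Kl S C x) (hy : Kl S C y) : Kl S C (x - y) := by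
  unfold Kl at *
  rw [smul_sub, hx, hy, sub_zero]

theorem Kl.zero : Kl S C 0 := smul_zero _

theorem Kl.sum {ι : Type} (s : Finset ι) {f : ι → C.X} (h : ∀ i ∈ s, Kl S C (f i)) :
    Kl S C (∑ i ∈ s, f i) := by
  unfold Kl at *
  rw [Finset.smul_sum]
  exact Finset.sum_eq_zero h

theorem Kl.mul (nor : ∀ a : A.C, ∃ a', a * S.pi = S.pi * a') {x : C.X} (hx : Kl S C x) (a : A.C) :
    Kl S C (op a • x) := by
  unfold Kl at *
  obtain ⟨a', h⟩ := nor a
  rw [smul_smul, ← op_mul, h, op_mul, mul_smul, hx, smul_zero]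

theorem Kl.of {b : A.C} (h : b * S.pi = 0) (x : C.X) : Kl S C (op b • x) := by
  unfold Kl
  rw [smul_smul, ← op_mul, h, op_zero, zero_smul]

variable {ka : Type} [Fintype ka] (C)

/-- total differential of a family -/
def TD (cc : ka → ka → A.C) (z : ka → C.X) (c' : ka) : C.X :=
  C.d (z c') + ∑ c, op (cc c c') • z c

variable {C}

theorem TD_sub (cc : ka → ka → A.C) (z w : ka → C.X) (c' : ka) :
    TD C cc (fun c => z c - w c) c' = TD C cc z c' - TD C cc w c' := by
  unfold TD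
  simp only [map_sub, smul_sub, Finset.sum_sub_distrib]
  abel

theorem TD_add (cc : ka → ka → A.C) (z w : ka → C.X) (c' : ka) :
    TD C cc (fun c => z c + w c) c' = TD C cc z c' + TD C cc w c' := by
  unfold TD
  simp only [map_add, smul_add, Finset.sum_add_distrib]
  abel

theorem TD_TD (cc : ka → ka → A.C)
    (mc : ∀ c c'', (A.D (cc c c'') + ∑ c', cc c c' * cc c' c'') * S.pi = 0) (z : ka → C.X)
    (c'' : ka) : Kl S C (TD C cc (TD C cc z) c'') := by
  have h : TD C cc (TD C cc z) c'' =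
      ∑ c, op (A.D (cc c c'') + ∑ c', cc c c' * cc c' c'') • z c := by
    have e1 : ∀ c, op (A.D (cc c c'') + ∑ c', cc c c' * cc c' c'') • z c =
        op (A.D (cc c c'')) • z c + ∑ c', op (cc c' c'') • op (cc c c') • z c := by
      intro c
      rw [op_add, add_smul]
      congr 1
      rw [show op (∑ c', cc c c' * cc c' c'') = ∑ c', op (cc c c' * cc c' c'') from
        map_sum (opAddEquiv (α := A.C)) _ _, Finset.sum_smul]
      exact Finset.sum_congr rfl fun c' _ => by rw [op_mul, mul_smul]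
    simp only [e1]
    unfold TD
    simp only [map_add, map_sum, C.d_d, C.leib, zero_add, smul_add, Finset.smul_sum,
      Finset.sum_add_distrib]
    rw [Finset.sum_comm (f := fun c' c => op (cc c' c'') • op (cc c c') • z c)]
    have h2 := two_rm C (∑ c, op (cc c c'') • C.d (z c))
    calc _ = (∑ c, op (A.D (cc c c'')) • z c +
          ∑ c, ∑ c', op (cc c' c'') • op (cc c c') • z c) +
          (∑ c, op (cc c c'') • C.d (z c) + ∑ c, op (cc c c'') • C.d (z c)) := by abel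
      _ = _ := by rw [h2, add_zero]
  rw [h]
  exact Kl.sum _ fun c _ => Kl.of (mc c c'') _

theorem TD_e (ec : ka → A.C) (ec_mem : ∀ c, ec c ∈ A.G 0) (cc : ka → ka → A.C)
    (cc_r : ∀ c c', cc c c' * ec c' = cc c c') (w : ka → C.X) (hw : ∀ c, op (ec c) • w c = w c)
    (c' : ka) : op (ec c') • TD C cc w c' = TD C cc w c' := by
  unfold TD
  rw [smul_add, Finset.smul_sum]
  congr 1
  · have := rmul_d (G := C) (D_neg (ec_mem c') (by norm_num)) (w c')
    rw [← this, hw]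
  · exact Finset.sum_congr rfl fun c _ => by rw [smul_smul, ← op_mul, cc_r]

theorem zka (nor : ∀ a : A.C, ∃ a', a * S.pi = S.pi * a')
    (bar : ∀ (k : ℤ) (x : C.X), x ∈ C.gr k → Kl S C (C.d x) →
      ∃ y ∈ C.gr (k + 1), Kl S C (x - C.d y))
    (cd : ka → ℕ) (ec : ka → A.C) (ec_mem : ∀ c, ec c ∈ A.G 0) (ec_idem : ∀ c, ec c * ec c = ec c)
    (cc : ka → ka → A.C)
    (cc_mem : ∀ c c', cc c c' ∈ A.G ((cd c : ℤ) - cd c' - 1))
    (cc_r : ∀ c c', cc c c' * ec c' = cc c c')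
    (mc : ∀ c c'', (A.D (cc c c'') + ∑ c', cc c c' * cc c' c'') * S.pi = 0)
    (k : ℤ) (z : ka → C.X) (hz : ∀ c, z c ∈ C.gr (k - cd c)) (he : ∀ c, op (ec c) • z c = z c)
    (hd : ∀ c, Kl S C (TD C cc z c)) :
    ∃ z' : ka → C.X, (∀ c, z' c ∈ C.gr (k + 1 - cd c)) ∧ (∀ c, op (ec c) • z' c = z' c) ∧
      ∀ c, Kl S C (z c - TD C cc z' c) := by
  classical
  have ccz : ∀ c c', cd c ≤ cd c' → cc c c' = 0 := fun c c' h => neg (cc_mem c c') (by omega)
  have Dec : ∀ c, A.D (ec c) = 0 := fun c => D_neg (ec_mem c) (by norm_num)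
  have tdm : ∀ w : ka → C.X, (∀ c, w c ∈ C.gr (k + 1 - cd c)) →
      ∀ c, TD C cc w c ∈ C.gr (k - cd c) := by
    intro w hw c'
    refine Submodule.add_mem _ ?_ (Submodule.sum_mem _ fun c _ => ?_)
    · have := C.d_mem (hw c')
      rwa [show k + 1 - (cd c' : ℤ) - 1 = k - cd c' by ring] at this
    · have := C.smul_mem (cc_mem c c') (hw c)
      rwa [show (cd c : ℤ) - cd c' - 1 + (k + 1 - cd c) = k - cd c' by ring] at this
  have tde : ∀ w : ka → C.X, (∀ c, op (ec c) • w c = w c) →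
      ∀ c, op (ec c) • TD C cc w c = TD C cc w c := by
    intro w hw c'
    unfold TD
    rw [smul_add, Finset.smul_sum]
    congr 1
    · have := rmul_d (G := C) (Dec c') (w c')
      rw [← this, hw]
    · exact Finset.sum_congr rfl fun c _ => by rw [smul_smul, ← op_mul, cc_r]
  have key : ∀ (n : ℕ) (z : ka → C.X), (∀ c, z c ∈ C.gr (k - cd c)) →
      (∀ c, op (ec c) • z c = z c) → (∀ c, Kl S C (TD C cc z c)) →
      (∀ c, n ≤ cd c → Kl S C (z c)) →
      ∃ z' : ka → C.X, (∀ c, z' c ∈ C.gr (k + 1 - cd c)) ∧ (∀ c, op (ec c) • z' c = z' c) ∧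
        ∀ c, Kl S C (z c - TD C cc z' c) := by
    intro n
    induction n with
    | zero =>
      intro z _ _ _ hn
      refine ⟨fun _ => 0, fun _ => Submodule.zero_mem _, fun _ => smul_zero _, fun c => ?_⟩
      have h0 : TD C cc (fun _ => (0 : C.X)) c = 0 := by
        unfold TD
        rw [map_zero, zero_add]
        exact Finset.sum_eq_zero fun _ _ => smul_zero _
      rw [h0, sub_zero]
      exact hn c (Nat.zero_le _)
    | succ n ih =>
      intro z hz he hd hn
      have h1 : ∀ c', cd c' = n → Kl S C (C.d (z c')) := by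
        intro c' hc'
        have e : C.d (z c') = TD C cc z c' - ∑ c, op (cc c c') • z c := by
          unfold TD
          rw [add_sub_cancel_right]
        rw [e]
        refine (hd c').sub (Kl.sum _ fun c _ => ?_)
        by_cases h : n < cd c
        · exact (hn c h).mul nor _
        · rw [ccz c c' (by omega), op_zero, zero_smul]
          exact Kl.zero
      have h2 : ∀ c', ∃ w, w ∈ C.gr (k + 1 - cd c') ∧ op (ec c') • w = w ∧
          (cd c' = n → Kl S C (z c' - C.d w)) ∧ (cd c' ≠ n → w = 0) := by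
        intro c'
        by_cases h : cd c' = n
        · obtain ⟨w, hw, hk⟩ := bar (k - cd c') (z c') (hz c') (h1 c' h)
          refine ⟨op (ec c') • w, ?_, ?_, fun _ => ?_, fun h' => absurd h h'⟩
          · have := C.smul_mem (ec_mem c') hw
            rwa [show 0 + (k - (cd c' : ℤ) + 1) = k + 1 - cd c' by ring] at this
          · rw [smul_smul, ← op_mul, ec_idem]
          · have h3 := hk.mul nor (ec c')
            rwa [smul_sub, he c', ← rmul_d (Dec c')] at h3
        · exact ⟨0, Submodule.zero_mem _, smul_zero _, fun h' => absurd h' h, fun _ => rfl⟩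
      choose w hwg hwe hwk hw0 using h2
      have h3 : ∀ c, n ≤ cd c → Kl S C (z c - TD C cc w c) := by
        intro c' hc'
        have e : TD C cc w c' = C.d (w c') := by
          unfold TD
          rw [Finset.sum_eq_zero, add_zero]
          intro c _
          by_cases h : cd c = n
          · rw [ccz c c' (by omega), op_zero, zero_smul]
          · rw [hw0 c h, smul_zero]
        rw [e]
        by_cases h : cd c' = n
        · exact hwk c' h
        · rw [hw0 c' h, map_zero, sub_zero]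
          exact hn c' (by omega)
      obtain ⟨z', hz', he', hk'⟩ := ih (fun c => z c - TD C cc w c)
        (fun c => Submodule.sub_mem _ (hz c) (tdm w hwg c))
        (fun c => by rw [smul_sub, he, tde w hwe]) (fun c => by
          rw [TD_sub]
          exact (hd c).sub (TD_TD cc mc w c)) h3
      refine ⟨fun c => w c + z' c, fun c => Submodule.add_mem _ (hwg c) (hz' c),
        fun c => by rw [smul_add, hwe, he'], fun c => ?_⟩
      rw [TD_add, ← sub_sub]
      exact hk' c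
  obtain ⟨n, hn⟩ : ∃ n : ℕ, ∀ c, cd c < n :=
    ⟨Finset.univ.sup cd + 1, fun c => Nat.lt_succ_of_le (Finset.le_sup (f := cd) (Finset.mem_univ c))⟩
  exact key n z hz he hd fun c h => absurd (hn c) (by omega)

end fam

/-! ### input -/

/-- `KK` generated over `A` by finitely many homogeneous `u c` with relations `a W_+ = 0`, `H` =
maps `KK → M`, `ev` the evaluation -/
structure C2D {A : DGA K} (S : WEl A) (M KK : LM A) (H : GC K) where
  ev : KK.X →ₗ[K] H.X →ₗ[K] M.X
  ev_l : ∀ (a : A.C) (x : KK.X) (η : H.X), ev (a • x) η = a • ev x η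
  ev_D : ∀ x η, M.d (ev x η) = ev (KK.d x) η + ev x (H.d η)
  ev_deg : ∀ {k l : ℤ} {x : KK.X} {η : H.X}, x ∈ KK.gr k → η ∈ H.gr l → ev x η ∈ M.gr (k + l)
  ka : Type
  [fka : Fintype ka]
  cd : ka → ℕ
  u : ka → KK.X
  u_mem : ∀ c, u c ∈ KK.gr (cd c)
  ec : ka → A.C
  ec_mem : ∀ c, ec c ∈ A.G 0
  ec_idem : ∀ c, ec c * ec c = ec c
  ec_u : ∀ c, ec c • u c = u c
  ec_pi : ∀ c, ec c * S.pi = S.pi * ec c
  cc : ka → ka → A.C
  cc_mem : ∀ c c', cc c c' ∈ A.G ((cd c : ℤ) - cd c' - 1)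
  cc_l : ∀ c c', ec c * cc c c' = cc c c'
  cc_r : ∀ c c', cc c c' * ec c' = cc c c'
  u_d : ∀ c, KK.d (u c) = ∑ c', cc c c' • u c'
  K1 : ∀ {k : ℤ} {x : KK.X}, x ∈ KK.gr k → ∃ a : ka → A.C,
    (∀ c, a c ∈ A.G (k - cd c) ∧ a c * ec c = a c) ∧ x = ∑ c, a c • u c
  K2 : ∀ a : ka → A.C, (∀ c, a c * ec c = a c) → ∑ c, a c • u c = 0 → ∀ c, a c * S.pi = 0
  K3 : ∀ (a : A.C) (c : ka), a * S.pi = 0 → a • u c = 0
  nor : ∀ a : A.C, ∃ a', a * S.pi = S.pi * a'
  H0 : ∀ η : H.X, (∀ c, ev (u c) η = 0) → η = 0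
  H1 : ∀ (k : ℤ) (c : ka) (m : M.X), m ∈ M.gr (k + cd c - S.δp) →
    ∃ η ∈ H.gr k, ev (u c) η = ec c • S.pi • m ∧ ∀ c', c' ≠ c → ev (u c') η = 0
  H2 : ∀ c η, ∃ m, ev (u c) η = S.pi • m
  PM : PrL M
  PH : Dual560.Pr H

attribute [instance] C2D.fka

/-! ### the cone of `Y → D(M)` -/

section cone

variable {A : DGA K}

/-- shifted right module -/
def shR (lo : ℤ) (G : RM A) : RM A where
  X := G.X
  gr k := G.gr (lo + k)
  d := G.d
  d_mem {k x} hx := by
    have := G.d_mem hx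
    rwa [show lo + k - 1 = lo + (k - 1) by ring] at this
  d_d := G.d_d
  act := G.act
  tower := G.tower
  smul_mem {k l a x} ha hx := by
    have := G.smul_mem ha hx
    rwa [show k + (lo + l) = lo + (k + l) by ring] at this
  leib := G.leib

theorem shR_free {S : WEl A} {G : RM A} (lo : ℤ) (h : RFree S G) : RFree S (shR lo G) where
  a k w hw hk := by
    obtain ⟨c, hc, e⟩ := h.a (lo + k) w hw hk
    refine ⟨c, fun g => ?_, e⟩
    have := hc g
    rw [show lo + k - (S.δ g : ℤ) = lo + (k - S.δ g) by ring] at this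
    exact this
  b := h.b
  c := h.c

variable {Y : RCells A} {M : LM A} (R : RRes Y (DR M))

/-- the augmentation as a map of right modules -/
noncomputable def fR : RHom (tQ Y (selfB A)) (shR R.lo (DR M)) where
  f := augR Y (DR M) R.v
  f_mem hx := AcIff492.augR_mem R.toRAug hx
  f_d x := AcIff492.augR_d R.toRAug x
  lin a x := AcIff492.augR_smul R.toRAug a x

/-- the cone -/
noncomputable def CR : RM A := coneR (fR R)

/-- element of the cone -/
def mk (t : Y.ι →₀ A.C) (φ : M.X →ₗ[K] K) : (CR R).X := (t, φ)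

/-- first component -/
def p1 (z : (CR R).X) : Y.ι →₀ A.C := z.1

/-- second component -/
def p2 (z : (CR R).X) : M.X →ₗ[K] K := z.2

theorem p1_mk (t : Y.ι →₀ A.C) (φ : M.X →ₗ[K] K) : p1 R (mk R t φ) = t := rfl
theorem p2_mk (t : Y.ι →₀ A.C) (φ : M.X →ₗ[K] K) : p2 R (mk R t φ) = φ := rfl

theorem ext {z w : (CR R).X} (h1 : p1 R z = p1 R w) (h2 : p2 R z = p2 R w) : z = w :=
  Prod.ext h1 h2

theorem p1_add (z w : (CR R).X) : p1 R (z + w) = p1 R z + p1 R w := rfl
theorem p2_add (z w : (CR R).X) : p2 R (z + w) = p2 R z + p2 R w := rfl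
theorem p1_sub (z w : (CR R).X) : p1 R (z - w) = p1 R z - p1 R w := rfl
theorem p2_sub (z w : (CR R).X) : p2 R (z - w) = p2 R z - p2 R w := rfl

theorem p1_sum {ι : Type} (s : Finset ι) (f : ι → (CR R).X) :
    p1 R (∑ i ∈ s, f i) = ∑ i ∈ s, p1 R (f i) := by
  classical
  induction s using Finset.induction_on with
  | empty => rfl
  | insert a s ha ih => rw [Finset.sum_insert ha, Finset.sum_insert ha, p1_add, ih]

theorem p2_sum {ι : Type} (s : Finset ι) (f : ι → (CR R).X) :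
    p2 R (∑ i ∈ s, f i) = ∑ i ∈ s, p2 R (f i) := by
  classical
  induction s using Finset.induction_on with
  | empty => rfl
  | insert a s ha ih => rw [Finset.sum_insert ha, Finset.sum_insert ha, p2_add, ih]

theorem p1_smul (a : A.C) (z : (CR R).X) (σ : Y.ι) : p1 R (op a • z) σ = p1 R z σ * a := rfl

theorem p2_smul (a : A.C) (z : (CR R).X) (m : M.X) : p2 R (op a • z) m = p2 R z (a • m) := rfl

theorem p1_d (z : (CR R).X) (T : Finset Y.ι) (hT : (p1 R z).support ⊆ T) (σ : Y.ι) :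
    p1 R ((CR R).d z) σ = A.D (p1 R z σ) + ∑ ρ ∈ T, Y.c σ ρ * p1 R z ρ :=
  (twY Y (selfB A).toLM).dd_apply' (p1 R z) T hT σ

theorem aug_apply (x : Y.ι →₀ A.C) (T : Finset Y.ι) (hT : x.support ⊆ T) (m : M.X) :
    (show M.X →ₗ[K] K from augR Y (DR M) R.v x) m =
      ∑ σ ∈ T, (show M.X →ₗ[K] K from R.v σ) (x σ • m) := by
  rw [AcIff492.augR_apply]
  rw [Finsupp.sum_of_support_subset x hT (fun σ (a : A.C) => (op a • R.v σ : (DR M).X))
    (fun σ _ => by rw [op_zero, zero_smul])]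
  exact LinearMap.sum_apply T (fun σ => (show M.X →ₗ[K] K from (op (x σ) • R.v σ : (DR M).X))) m

theorem p2_d (z : (CR R).X) (T : Finset Y.ι) (hT : (p1 R z).support ⊆ T) (m : M.X) :
    p2 R ((CR R).d z) m =
      ∑ σ ∈ T, (show M.X →ₗ[K] K from R.v σ) (p1 R z σ • m) + p2 R z (M.d m) := by
  rw [← aug_apply R (p1 R z) T hT m]
  rfl

theorem mem_CR {k : ℤ} {z : (CR R).X} : z ∈ (CR R).gr k ↔
    (∀ σ, p1 R z σ ∈ A.G (k - 1 - Y.s σ) ∧ Y.e σ * p1 R z σ = p1 R z σ) ∧
      (∀ l m, m ∈ M.gr l → l ≠ -(R.lo + k) → p2 R z m = 0) := Iff.rfl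

theorem Kl_iff {S : WEl A} {z : (CR R).X} : Kl S (CR R) z ↔
    (∀ σ, p1 R z σ * S.pi = 0) ∧ ∀ m, p2 R z (S.pi • m) = 0 := by
  constructor
  · intro h
    have h' : op S.pi • z = 0 := h
    refine ⟨fun σ => ?_, fun m => ?_⟩
    · rw [← p1_smul, h']; rfl
    · rw [← p2_smul, h']; rfl
  · rintro ⟨h1, h2⟩
    exact ext R (Finsupp.ext h1) (LinearMap.ext h2)

/-- the cone is acyclic modulo `W_+` -/
theorem bar {S : WEl A} (P : PrL M) (hY : RFree S (tQ Y (selfB A))) (hM : RFree S (DR M)) (k : ℤ)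
    (x : (CR R).X) (hx : x ∈ (CR R).gr k) (hd : Kl S (CR R) ((CR R).d x)) :
    ∃ y ∈ (CR R).gr (k + 1), Kl S (CR R) (x - (CR R).d y) := by
  have hF : RFree S (CR R) := hY.cone S (shR_free R.lo hM) (fR R)
  obtain ⟨y, hy, hw⟩ := hF.bar S (min 1 (-P.hi - R.lo)) (fun k hk z hz => by
    obtain ⟨h1, h2⟩ := (mem_CR R).1 hz
    refine ext R (Finsupp.ext fun σ => ?_) ?_
    · exact neg (h1 σ).1 (by have := lt_of_lt_of_le hk (min_le_left _ _); omega)
    · refine dr_zero P h2 ?_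
      have := lt_of_lt_of_le hk (min_le_right _ _)
      omega) (by
    intro k z hz hd
    obtain ⟨h1, h2⟩ := (mem_CR R).1 hz
    have e1 : (tY Y (selfL A)).d (p1 R z) = 0 := congrArg (p1 R) hd
    have e2 : augR Y (DR M) R.v (p1 R z) + (DR M).d (p2 R z) = 0 := congrArg (p2 R) hd
    obtain ⟨y, hy, n, hn, e3, e4⟩ := R.ex k (p1 R z) (p2 R z) h1 e1 h2 e2
    refine ⟨mk R y n, ?_, ?_⟩
    · rw [mem_CR]
      refine ⟨fun σ => ?_, fun l m hm hl => hn l m hm (by omega)⟩
      have := hy σ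
      rw [show k + 1 - 1 = k by ring]
      exact this
    · exact ext R e3 e4.symm) k x hx (hF.c _ hd)
  exact ⟨y, hy, piW S hw⟩

end cone

/-! ### the theorem -/

theorem prL_smul {A : DGA K} {M : LM A} (P : PrL M) {a : A.C} (ha : a ∈ A.G 0) (k : ℤ) (z : M.X) :
    P.pr k (a • z) = a • P.pr k z := by
  have h1 : a • z = ∑ l ∈ Finset.Icc P.lo P.hi, a • P.pr l z := by
    rw [← Finset.smul_sum, P.pr_sum]
  have h2 : ∀ l, a • P.pr l z ∈ M.gr l := fun l => by
    have := M.smul_mem ha (P.pr_mem l z)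
    rwa [zero_add] at this
  have h3 : ∀ w : M.X, k ∉ Finset.Icc P.lo P.hi → P.pr k w = 0 := by
    intro w hk
    conv_lhs => rw [← P.pr_sum w]
    rw [map_sum]
    refine Finset.sum_eq_zero fun l hl => P.pr_ne (P.pr_mem l w) ?_
    rintro rfl
    exact hk hl
  by_cases hk : k ∈ Finset.Icc P.lo P.hi
  · rw [h1, map_sum, Finset.sum_eq_single k]
    · exact P.pr_same (h2 k)
    · intro l _ hl
      exact P.pr_ne (h2 l) (Ne.symm hl)
    · intro h
      exact absurd hk h
  · rw [h3 _ hk, h3 _ hk, smul_zero]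

section main

variable {A : DGA K} {S : WEl A} {M KK : LM A} {H : GC K} (T : C2D S M KK H) {Y : RCells A}
  (R : RRes Y (DR M))

include T in
theorem two_M (m : M.X) : m + m = 0 := by
  have h : m = (1 : A.C) • m := by rw [one_smul]
  rw [h, ← add_smul, A.two, zero_smul]

theorem evd (c : T.ka) (η : H.X) : T.ev (T.u c) (H.d η) =
    M.d (T.ev (T.u c) η) + ∑ c', T.cc c c' • T.ev (T.u c') η := by
  have h : ∑ c', T.cc c c' • T.ev (T.u c') η = T.ev (KK.d (T.u c)) η := by
    rw [T.u_d, map_sum, LinearMap.sum_apply]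
    exact Finset.sum_congr rfl fun c' _ => (T.ev_l _ _ _).symm
  rw [h, T.ev_D, add_comm (T.ev (KK.d (T.u c)) η), add_assoc, two_M T, add_zero]

theorem mcJ (c c'' : T.ka) :
    (A.D (T.cc c c'') + ∑ c', T.cc c c' * T.cc c' c'') * S.pi = 0 := by
  refine T.K2 (fun c'' => A.D (T.cc c c'') + ∑ c', T.cc c c' * T.cc c' c'') ?_ ?_ c''
  · intro c''
    rw [add_mul, Finset.sum_mul]
    congr 1
    · have h := A.D_mul (T.cc c c'') (T.ec c'')
      rw [T.cc_r, D_neg (T.ec_mem c'') (by norm_num), mul_zero, add_zero] at h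
      exact h.symm
    · exact Finset.sum_congr rfl fun c' _ => by rw [mul_assoc, T.cc_r]
  · have h := KK.d_d (T.u c)
    rw [T.u_d, map_sum] at h
    simp only [KK.leib, T.u_d, Finset.sum_add_distrib, Finset.smul_sum] at h
    rw [Finset.sum_comm (f := fun c' c'' => T.cc c c' • T.cc c' c'' • T.u c'')] at h
    simp only [add_smul, Finset.sum_add_distrib, Finset.sum_smul, mul_smul]
    exact h

/-- `Y ⊗ KK → D(H)` -/
noncomputable def pmap : (Y.ι →₀ KK.X) →ₗ[K] (H.X →ₗ[K] K) :=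
  Finsupp.lsum K fun σ => LinearMap.compr₂ T.ev (show M.X →ₗ[K] K from R.v σ)

theorem pmap_apply (x : Y.ι →₀ KK.X) (F : Finset Y.ι) (hF : x.support ⊆ F) (η : H.X) :
    pmap T R x η = ∑ σ ∈ F, (show M.X →ₗ[K] K from R.v σ) (T.ev (x σ) η) := by
  have h1 : pmap T R x = x.sum fun σ k =>
      (LinearMap.compr₂ T.ev (show M.X →ₗ[K] K from R.v σ)) k := by
    simp only [pmap, Finsupp.lsum_apply]
  rw [h1, Finsupp.sum_of_support_subset x hF _ (fun σ _ => map_zero _), LinearMap.sum_apply]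
  rfl

theorem xt_d (z : T.ka → (CR R).X) (F : Finset Y.ι) (hF : ∀ c, (p1 R (z c)).support ⊆ F)
    (σ : Y.ι) :
    KK.d (∑ c, p1 R (z c) σ • T.u c) + ∑ ρ ∈ F, Y.c σ ρ • ∑ c, p1 R (z c) ρ • T.u c =
      ∑ c', p1 R (TD (CR R) T.cc z c') σ • T.u c' := by
  have e : ∀ c', p1 R (TD (CR R) T.cc z c') σ =
      A.D (p1 R (z c') σ) + ∑ ρ ∈ F, Y.c σ ρ * p1 R (z c') ρ +
        ∑ c, p1 R (z c) σ * T.cc c c' := by
    intro c'
    unfold TD
    rw [p1_add, Finsupp.add_apply, p1_d R (z c') F (hF c'), p1_sum, Finsupp.finsetSum_apply]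
    rfl
  simp only [e, map_sum, KK.leib, T.u_d, Finset.smul_sum, add_smul, Finset.sum_add_distrib,
    Finset.sum_smul, mul_smul]
  rw [Finset.sum_comm (f := fun c c' => p1 R (z c) σ • T.cc c c' • T.u c'),
    Finset.sum_comm (f := fun ρ c => Y.c σ ρ • p1 R (z c) ρ • T.u c)]
  abel

theorem nt_d (z : T.ka → (CR R).X) (F : Finset Y.ι) (hF : ∀ c, (p1 R (z c)).support ⊆ F)
    (η : H.X) :
    ∑ σ ∈ F, (show M.X →ₗ[K] K from R.v σ) (T.ev (∑ c, p1 R (z c) σ • T.u c) η) +
      ∑ c, p2 R (z c) (T.ev (T.u c) (H.d η)) =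
      ∑ c', p2 R (TD (CR R) T.cc z c') (T.ev (T.u c') η) := by
  have e : ∀ c' m, p2 R (TD (CR R) T.cc z c') m =
      ∑ σ ∈ F, (show M.X →ₗ[K] K from R.v σ) (p1 R (z c') σ • m) + p2 R (z c') (M.d m) +
        ∑ c, p2 R (z c) (T.cc c c' • m) := by
    intro c' m
    unfold TD
    rw [p2_add, LinearMap.add_apply, p2_d R (z c') F (hF c'), p2_sum, LinearMap.sum_apply]
    rfl
  simp only [e, evd, map_sum, map_add, LinearMap.sum_apply, T.ev_l, Finset.sum_add_distrib]
  rw [Finset.sum_comm (f := fun c c' => p2 R (z c) (T.cc c c' • T.ev (T.u c') η)),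
    Finset.sum_comm (f := fun σ c => (show M.X →ₗ[K] K from R.v σ)
      (p1 R (z c) σ • T.ev (T.u c) η))]
  abel

theorem c2s_main (hbar : ∀ (k : ℤ) (x : (CR R).X), x ∈ (CR R).gr k → Kl S (CR R) ((CR R).d x) →
      ∃ y ∈ (CR R).gr (k + 1), Kl S (CR R) (x - (CR R).d y)) (k : ℤ)
    (x : Y.ι →₀ KK.X) (n : H.X →ₗ[K] K)
    (hx : ∀ σ, x σ ∈ KK.gr (k - 1 - Y.s σ) ∧ Y.e σ • x σ = x σ)
    (hd : (tY Y KK).d x = 0)
    (hn : ∀ l : ℤ, l ≠ -(R.lo + k) → ∀ η ∈ H.gr l, n η = 0)
    (he : ∀ η, pmap T R x η + n (H.d η) = 0) :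
    ∃ y : Y.ι →₀ KK.X, (∀ σ, y σ ∈ KK.gr (k - Y.s σ) ∧ Y.e σ • y σ = y σ) ∧
      ∃ n' : H.X →ₗ[K] K, (∀ l : ℤ, l ≠ -(R.lo + k + 1) → ∀ η ∈ H.gr l, n' η = 0) ∧
        (tY Y KK).d y = x ∧ ∀ η, n η = pmap T R y η + n' (H.d η) := by
  classical
  -- lift of `x`
  have hL : ∀ σ, ∃ a : T.ka → A.C, (∀ c, a c ∈ A.G (k - 1 - Y.s σ - T.cd c) ∧
      a c * T.ec c = a c ∧ Y.e σ * a c = a c) ∧ x σ = ∑ c, a c • T.u c ∧
      (σ ∉ x.support → ∀ c, a c = 0) := by
    intro σ
    by_cases hσ : σ ∈ x.support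
    · obtain ⟨a, ha, e⟩ := T.K1 (hx σ).1
      refine ⟨fun c => Y.e σ * a c, fun c => ⟨?_, ?_, ?_⟩, ?_, fun h => absurd hσ h⟩
      · have := A.mul_mem (Y.e_mem σ) (ha c).1
        rwa [zero_add] at this
      · rw [mul_assoc, (ha c).2]
      · rw [← mul_assoc, Y.e_idem]
      · conv_lhs => rw [← (hx σ).2, e, Finset.smul_sum]
        exact Finset.sum_congr rfl fun c _ => by rw [mul_smul]
    · refine ⟨fun _ => 0, fun c => ⟨Submodule.zero_mem _, zero_mul _, mul_zero _⟩, ?_,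
        fun _ _ => rfl⟩
      rw [Finsupp.notMem_support_iff.1 hσ]
      exact (Finset.sum_eq_zero fun c _ => zero_smul _ _).symm
  choose a ha hxa ha0 using hL
  let t : T.ka → (Y.ι →₀ A.C) := fun c => Finsupp.onFinset x.support (fun σ => a σ c) fun σ h => by
    by_contra hc
    exact h (ha0 σ hc c)
  have ht : ∀ c σ, t c σ = a σ c := fun _ _ => rfl
  have hts : ∀ c, (t c).support ⊆ x.support := fun c => Finsupp.support_onFinset_subset
  -- extension of `n`
  let Ev : H.X →ₗ[K] (T.ka → M.X) := LinearMap.pi fun c => T.ev (T.u c)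
  obtain ⟨g, hg⟩ := LinearMap.exists_leftInverse_of_injective Ev (by
    rw [LinearMap.ker_eq_bot']
    intro η h
    exact T.H0 η fun c => congrFun h c)
  have hg' : ∀ η, g (fun c => T.ev (T.u c) η) = η := fun η => LinearMap.congr_fun hg η
  let nc : T.ka → (M.X →ₗ[K] K) := fun c =>
    (n ∘ₗ g ∘ₗ LinearMap.single K (fun _ => M.X) c) ∘ₗ lmul M (T.ec c) ∘ₗ
      T.PM.pr (-(R.lo + k) + T.cd c)
  have nc_apply : ∀ c m, nc c m =
      n (g (Pi.single c (T.ec c • T.PM.pr (-(R.lo + k) + T.cd c) m))) := fun _ _ => rfl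
  have nc_gr : ∀ c (l : ℤ) m, m ∈ M.gr l → l ≠ -(R.lo + (k - T.cd c)) → nc c m = 0 := by
    intro c l m hm hl
    rw [nc_apply, T.PM.pr_ne hm (by omega), smul_zero, Pi.single_zero, map_zero, map_zero]
  have nc_e : ∀ c m, nc c (T.ec c • m) = nc c m := by
    intro c m
    rw [nc_apply, nc_apply, prL_smul T.PM (T.ec_mem c), smul_smul, T.ec_idem]
  have nc_sum : ∀ η, n η = ∑ c, nc c (T.ev (T.u c) η) := by
    have hom : ∀ (l : ℤ), ∀ η ∈ H.gr l, n η = ∑ c, nc c (T.ev (T.u c) η) := by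
      intro l η hη
      by_cases hl : l = -(R.lo + k)
      · have h1 : ∀ c, nc c (T.ev (T.u c) η) = n (g (Pi.single c (T.ev (T.u c) η))) := by
          intro c
          have h2 := T.ev_deg (T.u_mem c) hη
          rw [nc_apply, T.PM.pr_same (by rwa [hl, add_comm] at h2), ← T.ev_l, T.ec_u]
        rw [Finset.sum_congr rfl fun c _ => h1 c, ← map_sum, ← map_sum]
        conv_lhs => rw [← hg' η]
        congr 2
        exact (Finset.univ_sum_single fun c => T.ev (T.u c) η).symm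
      · rw [hn l hl η hη]
        symm
        refine Finset.sum_eq_zero fun c _ => nc_gr c _ _ (T.ev_deg (T.u_mem c) hη) ?_
        omega
    intro η
    rw [← T.PH.sum η]
    simp only [map_sum]
    rw [Finset.sum_comm]
    exact Finset.sum_congr rfl fun l _ => hom l _ (T.PH.mem l η)
  -- the family
  let z : T.ka → (CR R).X := fun c => mk R (t c) (nc c)
  have hzs : ∀ c, (p1 R (z c)).support ⊆ x.support := hts
  have hz : ∀ c, z c ∈ (CR R).gr (k - T.cd c) := by
    intro c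
    rw [mem_CR]
    refine ⟨fun σ => ⟨?_, (ha σ c).2.2⟩, nc_gr c⟩
    have := (ha σ c).1
    rwa [show k - 1 - (Y.s σ : ℤ) - T.cd c = k - T.cd c - 1 - Y.s σ by ring] at this
  have hze : ∀ c, op (T.ec c) • z c = z c := fun c =>
    ext R (Finsupp.ext fun σ => (ha σ c).2.1) (LinearMap.ext fun m => nc_e c m)
  have hzTe := TD_e (C := CR R) T.ec T.ec_mem T.cc T.cc_r z hze
  have hx' : ∀ σ, x σ = ∑ c, p1 R (z c) σ • T.u c := hxa
  have hdx : ∀ (w : Y.ι →₀ KK.X) (F : Finset Y.ι) (_ : w.support ⊆ F) σ,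
      (show Y.ι →₀ KK.X from (tY Y KK).d w) σ = KK.d (w σ) + ∑ ρ ∈ F, Y.c σ ρ • w ρ :=
    fun w F hF σ => (twY Y KK).dd_apply' w F hF σ
  have hzd : ∀ c, Kl S (CR R) (TD (CR R) T.cc z c) := by
    intro c'
    rw [Kl_iff]
    constructor
    · intro σ
      refine T.K2 (fun c' => p1 R (TD (CR R) T.cc z c') σ) (fun c' => ?_) ?_ c'
      · rw [← p1_smul, hzTe]
      · rw [← xt_d T R z x.support hzs σ, ← hx' σ,
          Finset.sum_congr rfl fun ρ _ => by rw [← hx' ρ], ← hdx x x.support (Finset.Subset.refl _) σ,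
          hd]
        rfl
    · have hom : ∀ (l : ℤ) (m : M.X), m ∈ M.gr l →
          p2 R (TD (CR R) T.cc z c') (S.pi • m) = 0 := by
        intro l m hm
        obtain ⟨η, hη, e1, e2⟩ := T.H1 (l - T.cd c' + S.δp) c' m (by
          rwa [show l - (T.cd c' : ℤ) + S.δp + T.cd c' - S.δp = l by ring])
        have h1 := nt_d T R z x.support hzs η
        have h2 : ∑ σ ∈ x.support, (show M.X →ₗ[K] K from R.v σ)
            (T.ev (∑ c, p1 R (z c) σ • T.u c) η) = pmap T R x η := by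
          rw [pmap_apply T R x x.support (Finset.Subset.refl _)]
          exact Finset.sum_congr rfl fun σ _ => by rw [hx' σ]
        have h3 : ∑ c, p2 R (z c) (T.ev (T.u c) (H.d η)) = n (H.d η) := (nc_sum _).symm
        rw [h2, h3, he, Finset.sum_eq_single c'] at h1
        · rw [e1, ← p2_smul, hzTe] at h1
          exact h1.symm
        · intro c _ hc
          rw [e2 c hc, map_zero]
        · intro h
          exact absurd (Finset.mem_univ _) h
      intro m
      rw [← T.PM.pr_sum m, Finset.smul_sum, map_sum]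
      exact Finset.sum_eq_zero fun l _ => hom l _ (T.PM.pr_mem l m)
  obtain ⟨z', hz', hze', hk⟩ := zka (C := CR R) T.nor hbar T.cd T.ec T.ec_mem
    T.ec_idem T.cc T.cc_mem T.cc_r (mcJ T) k z hz hze hzd
  -- conclusion
  let F : Finset Y.ι := Finset.univ.biUnion fun c => (p1 R (z' c)).support
  have hF : ∀ c, (p1 R (z' c)).support ⊆ F := fun c =>
    Finset.subset_biUnion_of_mem (fun c => (p1 R (z' c)).support) (Finset.mem_univ c)
  let y : Y.ι →₀ KK.X := Finsupp.onFinset F (fun σ => ∑ c, p1 R (z' c) σ • T.u c) fun σ h => by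
    by_contra hc
    refine h (Finset.sum_eq_zero fun c _ => ?_)
    rw [Finsupp.notMem_support_iff.1 fun h' => hc (hF c h'), zero_smul]
  have hy : ∀ σ, y σ = ∑ c, p1 R (z' c) σ • T.u c := fun _ => rfl
  have hys : y.support ⊆ F := Finsupp.support_onFinset_subset
  let n' : H.X →ₗ[K] K := ∑ c, (p2 R (z' c)) ∘ₗ T.ev (T.u c)
  have hn' : ∀ η, n' η = ∑ c, p2 R (z' c) (T.ev (T.u c) η) := fun η => by
    rw [LinearMap.sum_apply]; rfl
  refine ⟨y, fun σ => ⟨?_, ?_⟩, n', ?_, ?_, ?_⟩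
  · rw [hy]
    refine Submodule.sum_mem _ fun c _ => ?_
    have h1 := (((mem_CR R).1 (hz' c)).1 σ).1
    have := KK.smul_mem h1 (T.u_mem c)
    rwa [show k + 1 - (T.cd c : ℤ) - 1 - Y.s σ + T.cd c = k - Y.s σ by ring] at this
  · rw [hy, Finset.smul_sum]
    refine Finset.sum_congr rfl fun c _ => ?_
    rw [← mul_smul, (((mem_CR R).1 (hz' c)).1 σ).2]
  · intro l hl η hη
    rw [hn']
    refine Finset.sum_eq_zero fun c _ => ((mem_CR R).1 (hz' c)).2 _ _
      (T.ev_deg (T.u_mem c) hη) ?_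
    omega
  · refine Finsupp.ext fun σ => ?_
    have h1 := hdx y F hys σ
    refine h1.trans ?_
    have h0 : KK.d (y σ) + ∑ ρ ∈ F, Y.c σ ρ • y ρ =
        ∑ c', p1 R (TD (CR R) T.cc z' c') σ • T.u c' := xt_d T R z' F hF σ
    rw [h0, hx' σ]
    have h2 : ∀ c', (p1 R (z c') σ - p1 R (TD (CR R) T.cc z' c') σ) • T.u c' = 0 := fun c' =>
      T.K3 _ c' (by
        have := ((Kl_iff R).1 (hk c')).1 σ
        exact this)
    have h3 : ∑ c', (p1 R (z c') σ - p1 R (TD (CR R) T.cc z' c') σ) • T.u c' = 0 :=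
      Finset.sum_eq_zero fun c' _ => h2 c'
    simp only [sub_smul, Finset.sum_sub_distrib] at h3
    exact (sub_eq_zero.1 h3).symm
  · intro η
    have h1 := nt_d T R z' F hF η
    have h2 : ∑ σ ∈ F, (show M.X →ₗ[K] K from R.v σ)
        (T.ev (∑ c, p1 R (z' c) σ • T.u c) η) = pmap T R y η := by
      rw [pmap_apply T R y F hys]
      rfl
    rw [h2, ← hn'] at h1
    rw [h1, nc_sum η]
    have h3 : ∑ c', (p2 R (z c') (T.ev (T.u c') η) -
        p2 R (TD (CR R) T.cc z' c') (T.ev (T.u c') η)) = 0 := by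
      refine Finset.sum_eq_zero fun c' _ => ?_
      obtain ⟨m, hm⟩ := T.H2 c' η
      rw [hm]
      exact ((Kl_iff R).1 (hk c')).2 m
    rw [Finset.sum_sub_distrib, sub_eq_zero] at h3
    exact h3

/-- **(c2)** from acyclicity of the cone modulo `W_+` -/
theorem c2s_of_bar (hbar : ∀ (k : ℤ) (x : (CR R).X), x ∈ (CR R).gr k →
      Kl S (CR R) ((CR R).d x) → ∃ y ∈ (CR R).gr (k + 1), Kl S (CR R) (x - (CR R).d y)) (k : ℤ) :
    AcIff492.CE (tY Y KK) (Dual560.GCd H) R.lo k (pmap T R) := by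
  intro x n hx hd hn he
  obtain ⟨y, hy, n', hn', e1, e2⟩ := c2s_main T R hbar k x n hx hd hn
    (fun η => LinearMap.congr_fun he η)
  exact ⟨y, hy, n', hn', e1, LinearMap.ext e2⟩

/-- **(c2)**: `Y ⊗ KK → D(H)` is a quasi-isomorphism (of degree `R.lo`) -/
theorem c2s (hY : RFree S (tQ Y (selfB A))) (hM : RFree S (DR M)) (k : ℤ) :
    AcIff492.CE (tY Y KK) (Dual560.GCd H) R.lo k (pmap T R) :=
  c2s_of_bar T R (bar R T.PM hY hM) k

theorem pmap_mem {k : ℤ} {x : Y.ι →₀ KK.X} (hx : x ∈ (tY Y KK).gr k) :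
    pmap T R x ∈ (Dual560.GCd H).gr (R.lo + k) := by
  intro l hl η hη
  change pmap T R x η = 0
  rw [pmap_apply T R x x.support (Finset.Subset.refl _)]
  refine Finset.sum_eq_zero fun σ _ => ?_
  have h1 : x σ ∈ KK.gr (k - Y.s σ) := (hx σ).1
  exact R.v_mem σ _ _ (T.ev_deg h1 hη) (by omega)

theorem pmap_single (σ : Y.ι) (a : KK.X) (η : H.X) :
    pmap T R (Finsupp.single σ a) η = (show M.X →ₗ[K] K from R.v σ) (T.ev a η) := by
  classical
  rw [pmap_apply T R _ {σ} Finsupp.support_single_subset, Finset.sum_singleton,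
    Finsupp.single_eq_same]

theorem pmap_d (x : Y.ι →₀ KK.X) :
    pmap T R ((tY Y KK).d x) = (show (Dual560.GCd H).X from (Dual560.GCd H).d (pmap T R x)) := by
  classical
  let dK : (Y.ι →₀ KK.X) →ₗ[K] (Y.ι →₀ KK.X) := (twY Y KK).dd
  suffices h : pmap T R ∘ₗ dK = (LinearMap.lcomp K K H.d) ∘ₗ pmap T R from LinearMap.congr_fun h x
  refine Finsupp.lhom_ext fun σ a => LinearMap.ext fun η => ?_
  have e1 : dK (Finsupp.single σ a) = Finsupp.single σ (KK.d a) +
      ∑ τ ∈ Y.F (Y.s σ), Finsupp.single τ (Y.c τ σ • a) := (twY Y KK).dd_single σ a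
  change pmap T R (dK (Finsupp.single σ a)) η = pmap T R (Finsupp.single σ a) (H.d η)
  rw [e1, map_add, map_sum, LinearMap.add_apply, LinearMap.sum_apply, pmap_single, pmap_single]
  have h1 : ∀ m : M.X, (show M.X →ₗ[K] K from R.v σ) (M.d m) =
      ∑ τ ∈ Y.F (Y.s σ), (show M.X →ₗ[K] K from R.v τ) (Y.c τ σ • m) := by
    intro m
    have h := congrArg (fun f : (DR M).X => (show M.X →ₗ[K] K from f) m) (R.v_d σ)
    refine h.trans ?_
    exact LinearMap.sum_apply _ (fun τ => (show M.X →ₗ[K] K from (op (Y.c τ σ) • R.v τ : (DR M).X))) m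
  have h2 : ∑ τ ∈ Y.F (Y.s σ), pmap T R (Finsupp.single τ (Y.c τ σ • a)) η =
      (show M.X →ₗ[K] K from R.v σ) (M.d (T.ev a η)) := by
    rw [h1]
    exact Finset.sum_congr rfl fun τ _ => by rw [pmap_single, T.ev_l]
  rw [h2, T.ev_D, map_add, ← add_assoc, ← map_add, two_M T, map_zero, zero_add]

end main

end Crest.Agent.R186.C2s468
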