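import Crest.Agent.R186.C2h_302
import Crest.Agent.R186.C2kc_122
import Crest.Agent.R186.C2s_468

/-!
Row 186 (A), line (c2) (helper302): the joint instance `c2d : C2s468.C2D S M KK H` over the concrete
closing data `KHc302.CEr π s hs` (`KK`-part: helper122, `H`-part: `C2h_302`).
-/

set_option autoImplicit false
set_option linter.style.haveILetI false
set_option linter.unusedSectionVars false

noncomputable section

open MulOpposite

namespace Crest.Agent.R186.C2j302

open DefsQ830 PBW128 Win810 SM890 WL221 C2b44 Cells221 KH186 KHc302 Frame515 Res255 C2h302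

variable {K : Type} [Field K] (π : Par K) (s : ℕ) (hs : 5 ≤ s)

/-- the lift -/
def LFr : C2k122.Lf (bdM π s (two_le hs)) (CEr π s hs) where
  sur hb := pcL_lift hb
  c0 := c0 π
  c0_mem := C2k122.c0_mem_q π
  c0_q _ _ := rfl

/-- `KK` over `L''` -/
abbrev KKr : LM (WR π).dga := resL (HmI π s (two_le hs)) (CEr π s hs).KKlm

/-- generators -/
def ur (c : Cell) : (CEr π s hs).KK := C2k122.u (bdM π s (two_le hs)) (CEr π s hs) c

theorem isU : IsU (ur π s hs) := fun _ _ _ => rfl

/-- **the joint instance** -/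
def c2d (S : FWI226.WEl (WR π).dga) (hpi : S.pi = piA π) (hδ : S.δp = C2W655.dpi) :
    C2s468.C2D S (MW π s (two_le hs)).toLM (KKr π s hs) (CEr π s hs).Hrm.toGC where
  ev := evC π s hs
  ev_l a x η := evC_l a x η
  ev_D x η := evC_D x η
  ev_deg hx hη := evC_deg hx hη
  ka := Cell
  cd := cdeg
  u := ur π s hs
  u_mem c := C2k122.u_mem' (B := bdM π s (two_le hs)) (E := CEr π s hs) c
  ec c := C2k122.ecc π c
  ec_mem := C2k122.ecc_mem
  ec_idem := C2k122.ecc_idem
  ec_u c := C2k122.aL_ec (B := bdM π s (two_le hs)) (E := CEr π s hs) c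
  ec_pi c := by
    rw [hpi]
    exact C2k122.ecc_pi c
  cc := C2k122.cw (LFr π s hs)
  cc_mem := C2k122.cw_mem (LFr π s hs)
  cc_l := C2k122.cw_left (LFr π s hs)
  cc_r := C2k122.cw_right (LFr π s hs)
  u_d := C2k122.u_d' (LFr π s hs)
  K1 hx := C2k122.K1' (LFr π s hs) hx
  K2 a ha h c := by
    rw [hpi]
    exact C2k122.mul_piW_zero.2 fun i j =>
      C2k122.K2' (B := bdM π s (two_le hs)) (E := CEr π s hs) ha h c i j
  K3 a c h := by
    rw [hpi] at h
    exact C2k122.K3' (B := bdM π s (two_le hs)) (E := CEr π s hs) (C2k122.mul_piW_zero.1 h) c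
  nor a := by
    rw [hpi]
    exact C2k122.norc a
  H0 η h := H0 (isU π s hs) η h
  H1 k c m hm := by
    rw [hδ] at hm
    rw [hpi]
    exact H1 (isU π s hs) k c m hm
  H2 c η := by
    rw [hpi]
    exact H2 (isU π s hs) c η
  PM := prLM π s (two_le hs)
  PH := PH π s hs

end Crest.Agent.R186.C2j302
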