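import Crest.Agent.R186.FinD_988
import Crest.Agent.R186.AcIff_492

/-!
Row 186 (A), helper124: the square.  From
(c0) right cells `Y` of `D(M)` (a resolution), (c1) `Y ⊗ M → D(L'')`, (c2) `Y ⊗ KK → D(H)`,
(kt) `X → KK`, all with acyclic cone, the map `gD : D(Γ) ⊗ X → D(H)` is a quasi-isomorphism.
-/

set_option autoImplicit false
set_option linter.style.haveILetI false
set_option linter.unusedSectionVars false

open MulOpposite

namespace Crest.Agent.R186.SqF124

open Hat827 Frame515 Res255 ConeHyp462 Adapt186 FinV988 FinD988 AcIff492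

variable {K : Type} [Field K]

/-! ### two out of three -/

/-- cone of a composite, second factor known -/
theorem ce_of_comp {U V W : GC K} {lo k : ℤ} {f : U.X →ₗ[K] V.X} {g : V.X →ₗ[K] W.X}
    (tV : ∀ y : V.X, y + y = 0) (tW : ∀ y : W.X, y + y = 0)
    (fm : ∀ {j : ℤ} {x : U.X}, x ∈ U.gr j → f x ∈ V.gr j)
    (fd : ∀ x, f (U.d x) = V.d (f x))
    (gm : ∀ {j : ℤ} {x : V.X}, x ∈ V.gr j → g x ∈ W.gr (lo + j))
    (gd : ∀ x, g (V.d x) = W.d (g x))
    (h1 : CE U W lo k (g ∘ₗ f)) (h2 : CE V W lo (k + 1) g) : CE U V 0 k f := by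
  intro x n hx hdx hn e
  rw [zero_add] at hn
  obtain ⟨y, hy, z, hz, e1, e2⟩ := h1 x (g n) hx hdx (gm hn) (by
    rw [LinearMap.comp_apply, ← gd, ← map_add, e, map_zero])
  rw [LinearMap.comp_apply] at e2
  have hn1 : n + f y ∈ V.gr (k + 1 - 1) := by
    rw [add_sub_cancel_right]
    exact Submodule.add_mem _ hn (fm hy)
  obtain ⟨y', hy', -, -, e3, -⟩ := h2 (n + f y) z hn1 (by
    rw [map_add, ← fd, e1, add_comm, e]) (by rwa [← add_assoc]) (by
    rw [map_add, e2, add_comm (g (f y)), add_assoc (W.d z), tW, add_zero, tW])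
  refine ⟨y, hy, y', by rwa [zero_add], e1, ?_⟩
  rw [e3, add_comm n, ← add_assoc, tV, zero_add]

/-- **the square** -/
theorem qi_of_sq {U U' V W : GC K} {lo : ℤ} (tU : ∀ y : U'.X, y + y = 0)
    (tW : ∀ y : W.X, y + y = 0) (f1 : U.X →ₗ[K] V.X) (f2 : U.X →ₗ[K] U'.X) (f3 : U'.X →ₗ[K] W.X)
    (g : GCHom V W)
    (m1 : ∀ {j : ℤ} {x : U.X}, x ∈ U.gr j → f1 x ∈ V.gr (lo + j))
    (d1 : ∀ x, f1 (U.d x) = V.d (f1 x))
    (m2 : ∀ {j : ℤ} {x : U.X}, x ∈ U.gr j → f2 x ∈ U'.gr (0 + j))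
    (d2 : ∀ x, f2 (U.d x) = U'.d (f2 x))
    (m3 : ∀ {j : ℤ} {x : U'.X}, x ∈ U'.gr j → f3 x ∈ W.gr (lo + j))
    (d3 : ∀ x, f3 (U'.d x) = W.d (f3 x))
    (h1 : ∀ k, CE U V lo k f1) (h2 : ∀ k, CE U U' 0 k f2) (h3 : ∀ k, CE U' W lo k f3)
    (sq : ∀ x, g.f (f1 x) = f3 (f2 x)) : QI g := by
  constructor
  · intro k w hw hdw
    obtain ⟨u', hu', w', hw', e1, e2⟩ := h3 (k - lo) 0 w (Submodule.zero_mem _) (map_zero _)
      (by rwa [add_sub_cancel]) (by rw [map_zero, zero_add, hdw])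
    obtain ⟨u, hu, u'', hu'', e3, e4⟩ := h2 (k - lo) 0 u' (Submodule.zero_mem _) (map_zero _)
      (by rwa [zero_add]) (by rw [map_zero, zero_add, e1])
    refine ⟨f1 u, ?_, ?_, f3 u'' + w', Submodule.add_mem _ ?_ ?_, ?_⟩
    · have := m1 hu
      rwa [add_sub_cancel] at this
    · rw [← d1, e3, map_zero]
    · have := m3 hu''
      rwa [show lo + (0 + (k - lo) + 1) = k + 1 by ring] at this
    · rwa [show lo + (k - lo) + 1 = k + 1 by ring] at hw'
    · rw [e2, e4, map_add, sq, map_add, d3, add_assoc]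
  · intro k v hv hdv hz
    obtain ⟨w, hw, e0⟩ := hz
    obtain ⟨u, hu, v', hv', e1, e2⟩ := h1 (k - lo) 0 v (Submodule.zero_mem _) (map_zero _)
      (by rwa [add_sub_cancel]) (by rw [map_zero, zero_add, hdv])
    have hv'2 : v' ∈ V.gr (k + 1) := by
      rwa [show lo + (k - lo) + 1 = k + 1 by ring] at hv'
    have e3 : f3 (f2 u) + W.d (w + g.f v') = 0 := by
      rw [← sq, map_add, ← e0, e2, map_add, g.f_d, add_assoc (g.f (f1 u)), tW, add_zero, tW]
    have hn : w + g.f v' ∈ W.gr (lo + (k - lo + 1)) := by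
      rw [show lo + (k - lo + 1) = k + 1 by ring]
      exact Submodule.add_mem _ hw (g.f_mem hv'2)
    have hf2 : f2 u ∈ U'.gr (k - lo + 1 - 1) := by
      rw [add_sub_cancel_right]
      have := m2 hu
      rwa [zero_add] at this
    obtain ⟨u', hu', -, -, e4, -⟩ := h3 (k - lo + 1) (f2 u) (w + g.f v') hf2
      (by rw [← d2, e1, map_zero]) hn e3
    obtain ⟨y, hy, -, -, e5, -⟩ := h2 (k - lo + 1) u u' (by rwa [add_sub_cancel_right]) e1
      (by rwa [zero_add]) (by rw [e4, tU])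
    refine ⟨f1 y + v', Submodule.add_mem _ ?_ hv'2, ?_⟩
    · have := m1 hy
      rwa [show lo + (k - lo + 1) = k + 1 by ring] at this
    · rw [e2, map_add, ← d1, e5]

/-! ### `KK` as a left dg module -/

section yl

variable {A : DGA K} (I : In A)

/-- the left action -/
noncomputable abbrev yAct : Module A.C I.Y where
  smul a y := I.L a y
  one_smul y := I.L_one y
  mul_smul a b y := I.L_mul a b y
  smul_zero a := map_zero _
  smul_add a := map_add _
  add_smul a b y := by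
    change I.L (a + b) y = _
    rw [map_add]
    rfl
  zero_smul y := by
    change I.L 0 y = 0
    rw [map_zero]
    rfl

/-- `KK` as a left dg module -/
noncomputable def yL : LM A :=
  letI i1 : Module A.C I.Y := yAct I
  { X := I.Y
    gr := I.gr.G
    d := I.dY
    d_mem := fun h => I.dY_deg h
    d_d := I.dYY
    act := i1
    tower := ⟨fun r a y => by
      change I.L (r • a) y = r • I.L a y
      rw [map_smul]
      rfl⟩
    smul_mem := fun {k l a y} ha hy => by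
      have := I.L_deg ha hy
      rwa [add_comm] at this
    leib := fun a y => by
      change I.dY (I.L a y) = I.L (A.D a) y + I.L a (I.dY y)
      rw [I.L_D]
      have h : I.L a (I.dY y) + I.L a (I.dY y) = 0 := by
        rw [← LinearMap.add_apply, ← map_add, A.two, map_zero, LinearMap.zero_apply]
      rw [add_assoc, h, add_zero] }

theorem yL_smul (a : A.C) (y : I.Y) :
    (show I.Y from a • (show (yL I).X from y)) = I.L a y := rfl

/-- `x ↦ ev x z` -/
def evl (z : I.Z) : (yL I).X →ₗ[K] (selfL A).X := (I.ev.flip z : I.Y →ₗ[K] A.C)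

theorem evl_smul (z : I.Z) (a : A.C) (x : (yL I).X) : evl I z (a • x) = a • evl I z x :=
  I.ev_l a x z

theorem evl_d (z : I.Z) (x : (yL I).X) :
    (selfL A).d (evl I z x) = evl I z ((yL I).d x) + evl I (I.dZ z) x := I.ev_D x z

theorem evl_mem {k l : ℤ} {z : I.Z} {x : (yL I).X} (hx : x ∈ (yL I).gr k) (hz : z ∈ I.gs.G l) :
    evl I z x ∈ (selfL A).gr (k + l) := I.ev_deg hx hz

/-- `x ↦ (z ↦ v (ev x z))` -/
def c2a (v : (DR (selfL A)).X) : (yL I).X →ₗ[K] (DZc I).X where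
  toFun x := ((show A.C →ₗ[K] K from v) ∘ₗ I.ev (show I.Y from x) : I.Z →ₗ[K] K)
  map_add' x y := by
    refine DZc_ext I fun z => ?_
    have h : dev (selfL A) (evl I z (x + y)) v =
        dev (selfL A) (evl I z x) v + dev (selfL A) (evl I z y) v := by
      rw [map_add, dev_add]
    exact h
  map_smul' r x := by
    refine DZc_ext I fun z => ?_
    have h : dev (selfL A) (evl I z (r • x)) v = r • dev (selfL A) (evl I z x) v := by
      rw [map_smul]
      exact map_smul (show A.C →ₗ[K] K from v) r _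
    exact h

theorem zev_c2a (v : (DR (selfL A)).X) (x : (yL I).X) (z : I.Z) :
    zev I z (c2a I v x) = dev (selfL A) (evl I z x) v := rfl

/-- `Y ⊗ KK → D(H)` -/
noncomputable def c2m {ι : Type} (v : ι → (DR (selfL A)).X) : (ι →₀ (yL I).X) →ₗ[K] (DZc I).X :=
  Finsupp.lsum K fun κ => c2a I (v κ)

theorem c2m_single {ι : Type} (v : ι → (DR (selfL A)).X) (κ : ι) (x : (yL I).X) :
    c2m I v (Finsupp.single κ x) = c2a I (v κ) x := by
  simp [c2m]

variable {I}

theorem c2m_mem {Y : RCells A} (R : RAug Y (DR (selfL A))) {k : ℤ} {x : Y.ι →₀ (yL I).X}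
    (hx : x ∈ (tY Y (yL I)).gr k) : c2m I R.v x ∈ (DZc I).gr (R.lo + k) := by
  intro l z hz hl
  have h1 : (zev I z) (c2m I R.v x) = x.sum fun κ y => dev (selfL A) (evl I z y) (R.v κ) := by
    rw [c2m, Finsupp.lsum_apply, Finsupp.sum, map_sum]
    rfl
  refine h1.trans (Finset.sum_eq_zero fun κ _ => ?_)
  refine R.v_mem κ (k - (Y.s κ : ℤ) + l) (evl I z (x κ)) (evl_mem I (hx κ).1 hz) ?_
  omega

theorem c2m_d {Y : RCells A} (R : RAug Y (DR (selfL A))) (x : Y.ι →₀ (yL I).X) :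
    c2m I R.v ((tY Y (yL I)).d x) = (DZc I).d (c2m I R.v x) := by
  classical
  suffices h : c2m I R.v ∘ₗ (tY Y (yL I)).d = (DZc I).d ∘ₗ c2m I R.v from LinearMap.congr_fun h x
  refine Finsupp.lhom_ext fun κ y => ?_
  refine DZc_ext I fun z => ?_
  have e1 : (tY Y (yL I)).d (Finsupp.single κ y) = Finsupp.single κ ((yL I).d y) +
      ∑ τ ∈ Y.F (Y.s κ), Finsupp.single τ (Y.c τ κ • y) := (twY Y (yL I)).dd_single κ y
  have e2 : ∀ (τ : Y.ι) (w : (yL I).X), zev I z (c2m I R.v (Finsupp.single τ w)) =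
      dev (selfL A) (evl I z w) (R.v τ) := fun τ w => by
    rw [c2m_single, zev_c2a]
  have e3 : zev I z ((DZc I).d (c2m I R.v (Finsupp.single κ y))) =
      dev (selfL A) (evl I (I.dZ z) y) (R.v κ) := by
    rw [c2m_single]
    rfl
  have e4 : ∑ τ ∈ Y.F (Y.s κ), dev (selfL A) (evl I z (Y.c τ κ • y)) (R.v τ) =
      dev (selfL A) ((selfL A).d (evl I z y)) (R.v κ) := by
    have e5 := congrArg (dev (selfL A) (evl I z y)) (R.v_d κ)
    rw [map_sum] at e5
    refine Eq.trans ?_ e5.symm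
    refine Finset.sum_congr rfl fun τ _ => ?_
    rw [evl_smul]
    rfl
  have e6 : zev I z (c2m I R.v ((tY Y (yL I)).d (Finsupp.single κ y))) =
      dev (selfL A) (evl I z ((yL I).d y)) (R.v κ) +
      ∑ τ ∈ Y.F (Y.s κ), dev (selfL A) (evl I z (Y.c τ κ • y)) (R.v τ) := by
    rw [e1, map_add, map_sum, map_add, map_sum, e2]
    exact congrArg _ (Finset.sum_congr rfl fun τ _ => e2 τ _)
  refine e6.trans (Eq.trans ?_ e3.symm)
  rw [e4, evl_d, dev_add, ← add_assoc, ← dev_add, two_L (selfL A)]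
  have h0 : dev (selfL A) 0 (R.v κ) = 0 := map_zero (show A.C →ₗ[K] K from R.v κ)
  rw [h0, zero_add]

end yl

/-! ### the second map -/

section second

variable {A : DGA K} {X : LCells A} {N : LM A}

/-- `(Y ⊗ A) ⊗ X → Y ⊗ N` -/
noncomputable def f2 (Y : RCells A) (S : LAug X N) :
    (tG (tQ Y (selfB A)) X).X →ₗ[K] (tY Y N).X :=
  (mY Y S).F ∘ₗ (asc Y (selfB A) X).toLinearMap

theorem f2_apply (Y : RCells A) (S : LAug X N) (x : (tG (tQ Y (selfB A)) X).X) :
    f2 Y S x = (mY Y S).F (asc Y (selfB A) X x) := rfl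

theorem mY_single (Y : RCells A) (S : LAug X N) (κ : Y.ι) (x : X.ι →₀ A.C) :
    (mY Y S).F (Finsupp.single κ x) = Finsupp.single κ (augL X N S.v x) := by
  refine Finsupp.ext fun τ => ?_
  rw [TwM.F_apply]
  change augL X N S.v (Finsupp.single κ x τ) = _
  by_cases h : κ = τ
  · subst h
    rw [Finsupp.single_eq_same, Finsupp.single_eq_same]
  · rw [Finsupp.single_eq_of_ne' h, Finsupp.single_eq_of_ne' h, map_zero]

theorem mG_single {Y : RCells A} {G : RM A} (R : RAug Y G) (X : LCells A) (σ : X.ι)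
    (y : Y.ι →₀ A.C) :
    (mG R X).F (Finsupp.single σ y) = Finsupp.single σ (augR Y G R.v y) := by
  refine Finsupp.ext fun τ => ?_
  rw [TwM.F_apply]
  change augR Y G R.v (Finsupp.single σ y τ) = _
  by_cases h : σ = τ
  · subst h
    rw [Finsupp.single_eq_same, Finsupp.single_eq_same]
  · rw [Finsupp.single_eq_of_ne' h, Finsupp.single_eq_of_ne' h, map_zero]

theorem f2_single (Y : RCells A) (S : LAug X N) (σ : X.ι) (κ : Y.ι) (a : A.C) :
    f2 Y S (Finsupp.single σ (show (tQ Y (selfB A)).X from Finsupp.single κ a)) =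
      Finsupp.single κ (a • S.v σ) := by
  rw [f2_apply]
  have e : asc Y (selfB A) X (Finsupp.single σ (show (tQ Y (selfB A)).X from
      Finsupp.single κ a)) = Finsupp.single κ (show (tP (selfB A) X).X from
        Finsupp.single σ a) := swp_single σ κ a
  rw [e]
  refine (mY_single Y S κ _).trans ?_
  exact congrArg _ (augL_single X N S.v σ a)

theorem f2_mem (Y : RCells A) (S : LAug X N) {j : ℤ} {x : (tG (tQ Y (selfB A)) X).X}
    (hx : x ∈ (tG (tQ Y (selfB A)) X).gr j) : f2 Y S x ∈ (tY Y N).gr (S.lo + j) :=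
  (mY Y S).F_mem ((asc_gr Y (selfB A) X j x).1 hx)

theorem f2_d (Y : RCells A) (S : LAug X N) (x : (tG (tQ Y (selfB A)) X).X) :
    f2 Y S ((tG (tQ Y (selfB A)) X).d x) = (tY Y N).d (f2 Y S x) := by
  rw [f2_apply, f2_apply, asc_d]
  exact (mY Y S).F_dd _

theorem f2_ce (Y : RCells A) (S : LRes X N) (k : ℤ) :
    CE (tG (tQ Y (selfB A)) X) (tY Y N) S.lo k (f2 Y S.toLAug) := by
  intro x n hx hdx hn e
  rw [f2_apply] at e
  obtain ⟨y, hy, n', hn', e1, e2⟩ := ceY Y S k (asc Y (selfB A) X x) n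
    ((asc_gr Y (selfB A) X _ x).1 hx) (by rw [← asc_d, hdx, map_zero]) hn e
  obtain ⟨y', rfl⟩ := (asc Y (selfB A) X).surjective y
  refine ⟨y', (asc_gr Y (selfB A) X _ y').2 hy, n', hn', ?_, e2⟩
  rw [← asc_d] at e1
  exact (asc Y (selfB A) X).injective e1

end second

/-! ### the square -/

section square

variable {A : DGA K} {I : In A} {X : PCells A}

theorem DZ_two (y : (DZc I).X) : y + y = 0 := DZc_ext I fun z => by
  have h1 : z + z = 0 := by
    have h2 := I.R_one z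
    rw [← h2, ← LinearMap.add_apply, ← map_add, A.two, map_zero, LinearMap.zero_apply]
  have h3 : zev I z (y + y) = zev I (z + z) y :=
    (map_add (show I.Z →ₗ[K] K from y) z z).symm
  rw [h3, h1]
  exact map_zero (show I.Z →ₗ[K] K from y)

/-- the square commutes -/
theorem sq_comm {Y : RCells A} (R : RAug Y (DR (selfL A))) (S : LAug (lpc X) (yL I))
    (x : (tG (tQ Y (selfB A)) (lpc X)).X) :
    gf I X S.v ((mG R (lpc X)).F x) = c2m I R.v (f2 Y S x) := by
  classical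
  suffices h : gf I X S.v ∘ₗ (mG R (lpc X)).F = c2m I R.v ∘ₗ f2 Y S from
    LinearMap.congr_fun h x
  refine Finsupp.lhom_ext fun σ y => ?_
  have g1' : (mG R (lpc X)).F (Finsupp.single σ y) =
      Finsupp.single σ (augR Y (DR (selfL A)) R.v y) := mG_single R (lpc X) σ y
  have g2' : ∀ f : (DR (selfL A)).X, gf I X S.v (Finsupp.single σ f) = g1 I X S.v σ f :=
    fun f => Finsupp.lsum_single _ _ _ _
  rw [LinearMap.comp_apply, LinearMap.comp_apply, g1', g2']
  suffices h2 : ∀ y : Y.ι →₀ A.C, g1 I X S.v σ (augR Y (DR (selfL A)) R.v y) =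
      c2m I R.v (f2 Y S (Finsupp.single σ (show (tQ Y (selfB A)).X from y))) from h2 y
  intro y
  let l1 : (Y.ι →₀ A.C) →ₗ[K] (DZc I).X := g1 I X S.v σ ∘ₗ augR Y (DR (selfL A)) R.v
  let l2 : (Y.ι →₀ A.C) →ₗ[K] (DZc I).X := (c2m I R.v ∘ₗ f2 Y S) ∘ₗ
    (Finsupp.lsingle (R := K) (M := Y.ι →₀ A.C) σ : (Y.ι →₀ A.C) →ₗ[K] _)
  suffices h3 : l1 = l2 from LinearMap.congr_fun h3 y
  refine Finsupp.lhom_ext fun κ a => ?_
  refine DZc_ext I fun z => ?_
  have e1 : l1 (Finsupp.single κ a) = g1 I X S.v σ (op a • R.v κ) := by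
    change g1 I X S.v σ (augR Y (DR (selfL A)) R.v (Finsupp.single κ a)) = _
    rw [augR_single]
  have e2 : l2 (Finsupp.single κ a) = c2a I (R.v κ) (a • S.v σ) := by
    change c2m I R.v (f2 Y S (Finsupp.single σ (show (tQ Y (selfB A)).X from
      Finsupp.single κ a))) = _
    rw [f2_single, c2m_single]
  have e3 : dev (selfL A) (evl I z (a • S.v σ)) (R.v κ) =
      dev (selfL A) (a • evl I z (S.v σ)) (R.v κ) := by rw [evl_smul]
  rw [e1, e2]
  exact e3.symm

/-- **`gD` from resolutions of `D(Γ)` and of `KK`, and from `Y ⊗ KK → D(H)`** -/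
theorem qi_gD {Y : RCells A} (R : RRes Y (DR (selfL A))) (S : LRes (lpc X) (yL I)) (hlo : S.lo = 0)
    (c2 : ∀ k, CE (tY Y (yL I)) (DZc I) R.lo k (c2m I R.v))
    (hk : ∀ σ, S.v σ ∈ I.gr.G (X.s σ)) (hd : KtD I X S.v) : QI (gD I X S.v hk hd) :=
  qi_of_sq (U := tG (tQ Y (selfB A)) (lpc X)) (U' := tY Y (yL I))
    (V := tG (DR (selfL A)) (lpc X)) (W := DZc I) (lo := R.lo)
    (fun y => Finsupp.ext fun σ => two_L (yL I) _) DZ_two
    (mG R.toRAug (lpc X)).F (f2 Y S.toLAug)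
    (c2m I R.v) (gD I X S.v hk hd) (fun hx => (mG R.toRAug (lpc X)).F_mem hx)
    (mG R.toRAug (lpc X)).F_dd
    (fun {j x} hx => by
      have := f2_mem Y S.toLAug hx
      rwa [show S.lo + j = 0 + j by rw [hlo]] at this)
    (f2_d Y S.toLAug) (fun hx => c2m_mem R.toRAug hx) (c2m_d R.toRAug)
    (ceG R (lpc X)) (fun k => hlo ▸ f2_ce Y S k) c2 (sq_comm R.toRAug S.toLAug)

end square

end Crest.Agent.R186.SqF124
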