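import Crest.Agent.R186.C2b_468
import Crest.Agent.R186.SqF_124
import Crest.Agent.R186.TLW_890
import Crest.Agent.R186.KHc_302

/-!
Row 186 (A), helper468: (iii) in helper124's letters (`SqF124.c2m`, `FinD988.DZc`).
-/

set_option autoImplicit false
set_option linter.style.haveILetI false
set_option linter.unusedSectionVars false

open MulOpposite

namespace Crest.Agent.R186.C2j468

open Hat827 Hat827.DGA Frame515 Res255 FWI226 FinV988 FinD988 SqF124 C2s468 Adapt186

variable {K : Type} [Field K]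

section gen

variable {A B : DGA K} (h : Hm B A) (I : In A)

/-- `H` as a complex -/
def HG : GC K where
  X := I.Z
  gr := I.gs.G
  d := I.dZ
  d_mem := fun h => I.dZ_deg h
  d_d := I.dZZ

variable {M : LM B} (pm : A.C →ₗ[K] M.X) {S : WEl B} (T : C2D S M (resL h (yL I)) (HG I))
  (hev : ∀ (x : I.Y) (z : I.Z), T.ev x z = pm (I.ev x z)) {Y : RCells B} (R : RRes Y (DR M))
  (v : Y.ι → (DR (selfL A)).X)
  (hv : ∀ σ (a : A.C), (show A.C →ₗ[K] K from v σ) a = (show M.X →ₗ[K] K from R.v σ) (pm a))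

include hev hv in
theorem c2m_eq (x : Y.ι →₀ I.Y) (z : I.Z) : (show I.Z →ₗ[K] K from c2m I v x) z =
    pmap T R (show Y.ι →₀ (resL h (yL I)).X from x) z := by
  classical
  have key : (show (Y.ι →₀ I.Y) →ₗ[K] (I.Z →ₗ[K] K) from c2m I v) =
      (show (Y.ι →₀ I.Y) →ₗ[K] (I.Z →ₗ[K] K) from pmap T R) := by
    refine Finsupp.lhom_ext fun σ y => LinearMap.ext fun z => ?_
    have e1 : (show I.Z →ₗ[K] K from c2m I v (Finsupp.single σ y)) z =
        (show A.C →ₗ[K] K from v σ) (I.ev y z) :=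
      congrArg (fun f : I.Z →ₗ[K] K => f z) (c2m_single I v σ y)
    have e2 := pmap_single T R σ (show (resL h (yL I)).X from y) z
    refine e1.trans (Eq.trans ?_ e2.symm)
    rw [hv, ← hev]
  exact LinearMap.congr_fun (LinearMap.congr_fun key x) z

include hev hv in
/-- **(iii) in helper124's letters** -/
theorem ce_c2m {k : ℤ}
    (hc : AcIff492.CE (tY Y (resL h (yL I))) (Dual560.GCd (HG I)) R.lo k (pmap T R)) :
    AcIff492.CE (tY (pushR h Y) (yL I)) (DZc I) R.lo k (c2m I v) := by
  intro x n hx hd hn he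
  obtain ⟨y, hy, n', hn', e1, e2⟩ := hc x n hx hd (fun l hl z hz => hn l z hz hl) (by
    refine LinearMap.ext fun z => ?_
    have h1 := LinearMap.congr_fun (show (show I.Z →ₗ[K] K from c2m I v x) +
      (show I.Z →ₗ[K] K from (DZc I).d n) = 0 from he) z
    refine Eq.trans ?_ h1
    change pmap T R x z + _ = (show I.Z →ₗ[K] K from c2m I v x) z + _
    rw [c2m_eq h I pm T hev R v hv x z]
    rfl)
  refine ⟨y, hy, n', fun l z hz hl => hn' l hl z hz, e1, LinearMap.ext fun z => ?_⟩
  have h2 := LinearMap.congr_fun (show (show I.Z →ₗ[K] K from n) =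
    (show I.Z →ₗ[K] K from pmap T R y) + (show I.Z →ₗ[K] K from (Dual560.GCd (HG I)).d n')
    from e2) z
  refine h2.trans ?_
  change pmap T R y z + _ = (show I.Z →ₗ[K] K from c2m I v y) z + _
  rw [c2m_eq h I pm T hev R v hv y z]
  rfl

end gen

section inst

variable (π : DefsQ830.Par K) (s : ℕ) (hs : 5 ≤ s)

theorem yL_eq : yL (KHc302.CEr π s hs).toIn = (KHc302.CEr π s hs).KKlm := rfl

theorem HG_eq : HG (KHc302.CEr π s hs).toIn = (KHc302.CEr π s hs).Hrm.toGC := rfl

end inst

end Crest.Agent.R186.C2j468
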