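import Crest.Agent.R186.WNM_226

/-!
Row 186, half (A) (helper226): the `W`-letters of `L'' = (WR π).dga` (`welR`), right `W`-freeness
of `L''` (`rfreeR`), of its right cell modules (`rfreeY`) and of `D(M)` (`rfreeM`).
-/

set_option autoImplicit false
set_option linter.unusedSectionVars false

noncomputable section

open MulOpposite

namespace Crest.Agent.R186.WNM226

open Hat827 Win810 Win810.WD Frame515 Res255 FinV988 DefsQ830 WL221
open PBW128 SM890 C2G226 C2pp655
open C1R808 (wk2 wt2 zc)
open C2b44 (kill)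
open C2W655 (yW piW dy dpi waR dgw en en_ext en_mul_yW en_mul_piW en_sum yq wq_yq hq hq_mem sum_hq
  prW_eq_zero)

variable {K : Type} [Field K] (π : Par K)

theorem en_dgw (a : R π) (c : ℤ) (ha : a ∈ (WR π).pc 0 0 c) (i j : DefsQ830.Ob) :
    en (dgw (WR π) a c ha) i j = if i = j then a else 0 :=
  Matrix.diagonal_apply (n := DefsQ830.Ob) (fun _ => a) i j

theorem en_smul (r : K) (m : (WR π).Win) (i j : DefsQ830.Ob) : en (r • m) i j = r • en m i j := rfl

/-- structure constants -/
def eps (g g' : Y) : K := wk2 π (yq g) (yq g')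

theorem XX (g g' : Y) : X π g.toGen * X π g'.toGen = eps π g g' • wq π .pi := by
  rw [← wq_yq, ← wq_yq, C1R808.wq_mul_wq]
  have : wt2 (yq g) (yq g') = .pi := by
    cases g <;> cases g' <;> rfl
  rw [this]
  rfl

theorem Xpi (g : Y) : X π g.toGen * wq π .pi = 0 := by
  rw [← wq_yq, C1R808.wq_mul_wq]
  have : wk2 π (yq g) .pi = 0 := by
    cases g <;> simp [yq, wk2]
  rw [this, zero_smul]

/-- **the letters of `W` in `L''`** -/
def welR : FWI226.WEl (WR π).dga where
  ι := Y
  y := yW π
  δ := dy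
  y_mem := (waR π).y_mem
  D_y := (waR π).y_D
  pi := piW π
  δp := dpi
  pi_mem := (waR π).pi_mem
  D_pi := (waR π).pi_D
  ε := eps π
  yy g g' := by
    refine en_ext fun i j => ?_
    refine (en_mul_yW (yW π g) g' i j).trans ?_
    refine Eq.trans ?_ (en_smul π _ (piW π) i j).symm
    have h1 : en (yW π g) i j = if i = j then X π g.toGen else 0 := en_dgw π _ _ _ i j
    have h2 : en (piW π) i j = if i = j then wq π .pi else 0 := en_dgw π _ _ _ i j
    rw [h1, h2]
    split_ifs
    · exact XX π g g'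
    · rw [zero_mul, smul_zero]
  ε_deg g g' h := by
    have h' : wk2 π (yq g) (yq g') ≠ 0 := h
    rcases g with t | t <;> rcases g' with t' | t' <;> rcases fin2 t with rfl | rfl <;>
      rcases fin2 t' with rfl | rfl <;>
      first
      | (exfalso; exact h' rfl)
      | rfl
  y_pi g := by
    refine en_ext fun i j => ?_
    refine (en_mul_piW (yW π g) i j).trans ?_
    have h1 : en (yW π g) i j = if i = j then X π g.toGen else 0 := en_dgw π _ _ _ i j
    rw [h1]
    split_ifs
    · exact Xpi π g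
    · rw [zero_mul]
      rfl
  pi_y := by
    refine ⟨.y 1, yW π (.y 0), ?_⟩
    refine en_ext fun i j => ?_
    refine Eq.trans ?_ (en_mul_yW (yW π (.y 0)) (.y 1) i j).symm
    have h1 : en (yW π (.y 0)) i j = if i = j then X π (Y.y 0).toGen else 0 := en_dgw π _ _ _ i j
    have h2 : en (piW π) i j = if i = j then wq π .pi else 0 := en_dgw π _ _ _ i j
    rw [h1, h2]
    split_ifs
    · exact wq_pi π
    · rw [zero_mul]

/-- entrywise operator on `L''` -/
def entR (f : R π →ₗ[K] R π) (e : ℤ)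
    (hf : ∀ {P A C : ℤ} {r : R π}, r ∈ pcZ π P A C → f r ∈ pcZ π P A (C + e)) (m : (WR π).Win) :
    (WR π).Win :=
  ⟨Matrix.of fun i j => f (m.1 i j), fun i j => by
    have h : (WR π).E i j ≤ ((WR π).E i j).comap f := by
      refine iSup_le fun k x hx => ?_
      exact WD.q_le (w := WR π) i j (k + e) (hf hx)
    exact h (m.2 i j)⟩

theorem en_entR (f : R π →ₗ[K] R π) (e : ℤ)
    (hf : ∀ {P A C : ℤ} {r : R π}, r ∈ pcZ π P A C → f r ∈ pcZ π P A (C + e)) (m : (WR π).Win)
    (i j : DefsQ830.Ob) : en (entR π f e hf m) i j = f (en m i j) := rfl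

theorem pr_Wp {m : (selfR (WR π).dga).X} :
    m ∈ FWI226.Wp (welR π) (selfR (WR π).dga) ↔ prW π (show (WR π).Win from m) = 0 := by
  constructor
  · intro h
    obtain ⟨c, rfl⟩ := (FWI226.mem_Wp (welR π)).1 h
    let c' : Y → (WR π).Win := c
    change prW π (∑ g : Y, c' g * yW π g) = 0
    rw [map_sum]
    refine Finset.sum_eq_zero fun g _ => ?_
    rw [map_mul]
    have h2 : prW π (yW π g) = 0 := (waR π).pr_y g
    rw [h2, mul_zero]
  · intro h
    have h' := prW_eq_zero.1 h
    refine (FWI226.mem_Wp (welR π)).2 ⟨fun g => entR π (hq π g) (-(dy g : ℤ)) (fun hr => by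
      rw [← sub_eq_add_neg]; exact hq_mem π g hr) m, ?_⟩
    refine en_ext fun i j => ?_
    refine Eq.trans ?_ (sum_hq π (h' i j)).symm
    refine Eq.trans (en_sum (fun g => (entR π (hq π g) (-(dy g : ℤ)) (fun hr => by
      rw [← sub_eq_add_neg]; exact hq_mem π g hr) m) * yW π g) i j) ?_
    exact Finset.sum_congr rfl fun g _ => en_mul_yW _ g i j

/-- **`L''` is right `W`-free** -/
theorem rfreeR : FWI226.RFree (welR π) (selfR (WR π).dga) where
  a _ _ hw hk := (waR π).hW ((pr_Wp π).1 hw) hk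
  b c h g := (pr_Wp π).2 ((waR π).fr1 c h g)
  c x h := (pr_Wp π).2 ((waR π).fr2 x h)

/-- **right cell modules over `L''` are right `W`-free** -/
theorem rfreeY (Yc : RCells (WR π).dga) :
    FWI226.RFree (welR π) (tQ Yc (selfB (WR π).dga)) := rfree_tQ (welR π) (rfreeR π) Yc

/-- **`D(M)` is right `W`-free** -/
theorem rfreeM (s : ℕ) (hs : 2 ≤ s) : FWI226.RFree (welR π) (DM π s hs) :=
  rfreeOf (welR π) (wnM π s hs) (waR π).pr_y

end Crest.Agent.R186.WNM226
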