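import Crest.Agent.R186.C2j_302
import Crest.Agent.R186.WNR_226

/-!
Row 186 (A), line (c2) (helper302): `Y ⊗ KK → D(H)` is a quasi-isomorphism of degree `R.lo`.
-/

set_option autoImplicit false

noncomputable section

namespace Crest.Agent.R186.C2j302

open DefsQ830 PBW128 Win810 SM890 WL221 C2b44 Cells221 KH186 KHc302 Frame515 Res255 C2h302

variable {K : Type} [Field K] (π : Par K) (s : ℕ) (hs : 5 ≤ s)

/-- the data over `L''` -/
abbrev TD : C2s468.C2D (WNM226.welR π) (MW π s (two_le hs)).toLM (KKr π s hs)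
    (CEr π s hs).Hrm.toGC := c2d π s hs (WNM226.welR π) rfl rfl

/-- **(iii)** -/
theorem c3 {Y : RCells (WR π).dga} (R : RRes Y (DM π s (two_le hs))) (k : ℤ) :
    AcIff492.CE (tY Y (KKr π s hs)) (Dual560.GCd (CEr π s hs).Hrm.toGC) R.lo k
      (C2s468.pmap (TD π s hs) R) :=
  C2s468.c2s (TD π s hs) R (WNM226.rfreeY π Y) (WNM226.rfreeM π s (two_le hs)) k

theorem c3_single {Y : RCells (WR π).dga} (R : RRes Y (DM π s (two_le hs))) (σ : Y.ι)
    (a : (KKr π s hs).X) (η : (CEr π s hs).H) :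
    C2s468.pmap (TD π s hs) R (Finsupp.single σ a) η =
      (show (MW π s (two_le hs)).X →ₗ[K] K from R.v σ) (evC π s hs a η) :=
  C2s468.pmap_single (TD π s hs) R σ a η

end Crest.Agent.R186.C2j302
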