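import Crest.Agent.R186.Win_810

/-!
Row 186, leaf R3, part 2 (helper810): matrix units of the window algebra, and the window module of a
bigraded module.
-/

set_option autoImplicit false
set_option linter.style.haveILetI false

namespace Crest.Agent.R186.Win810

open Hat827

variable {K : Type} [Field K]

namespace WD

variable {w : WD K}

/-! ### matrix units -/

theorem ws_val (i j : w.Ob) (a : w.S) (ha : a ∈ w.E i j) : (ws i j a ha).1 = Matrix.single i j a := rfl

theorem ws_apply (i j : w.Ob) (a : w.S) (ha : a ∈ w.E i j) (i' j' : w.Ob) :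
    (ws i j a ha).1 i' j' = if i = i' ∧ j = j' then a else 0 := by
  rw [ws_val, Matrix.single_apply]

theorem ws_mul {i j l : w.Ob} {a b : w.S} (ha : a ∈ w.E i j) (hb : b ∈ w.E j l) :
    ws i j a ha * ws j l b hb = ws i l (a * b) (E_mul ha hb) := by
  apply Subtype.ext
  change Matrix.single i j a * Matrix.single j l b = Matrix.single i l (a * b)
  rw [Matrix.single_mul_single_same]

theorem ws_mem_G {i j : w.Ob} {a : w.S} {k : ℤ} (ha : a ∈ w.q i j k) :
    ws i j a (q_le i j k ha) ∈ w.G k := by
  intro i' j'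
  rw [ws_apply]
  split_ifs with h
  · obtain ⟨rfl, rfl⟩ := h
    exact ha
  · exact Submodule.zero_mem _

theorem ws_mem_G' {i j : w.Ob} {a : w.S} {k : ℤ} (ha : a ∈ w.q i j k) (h : a ∈ w.E i j) :
    ws i j a h ∈ w.G k := ws_mem_G ha

theorem DW_ws {i j : w.Ob} {a : w.S} (ha : a ∈ w.E i j) :
    w.DW (ws i j a ha) = ws i j (w.D a) (E_D ha) := by
  apply Subtype.ext
  ext i' j'
  rw [DW_apply, ws_apply, ws_apply]
  split_ifs with h
  · rfl
  · exact map_zero w.D

/-- the idempotent of a vertex -/
def e (i : w.Ob) : w.Win := ws i i 1 (q_le i i 0 (q_one i))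

theorem e_mem (i : w.Ob) : e i ∈ w.G 0 := ws_mem_G (q_one i)

theorem D_one : w.D 1 = 0 := by
  have h := w.D_mul 1 1
  rw [mul_one, one_mul, mul_one] at h
  rw [h]
  exact w.two _

theorem DW_e (i : w.Ob) : w.DW (e i) = 0 := by
  apply Subtype.ext
  ext i' j'
  rw [DW_apply]
  unfold e
  rw [ws_apply]
  split_ifs with h
  · exact D_one
  · exact map_zero w.D

theorem e_mul_e (i : w.Ob) : e i * e i = e i := by
  unfold e
  rw [ws_mul]
  congr 1
  exact mul_one 1

theorem e_mul_apply (i : w.Ob) (m : w.Win) (i' j' : w.Ob) :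
    (e i * m).1 i' j' = if i = i' then m.1 i' j' else 0 := by
  change (Matrix.single i i (1 : w.S) * m.1) i' j' = _
  by_cases h : i = i'
  · subst h
    rw [if_pos rfl, Matrix.single_mul_apply_same, one_mul]
  · rw [if_neg h, Matrix.single_mul_apply_of_ne _ _ _ _ _ (fun h0 => h h0.symm)]

theorem mul_e_apply (j : w.Ob) (m : w.Win) (i' j' : w.Ob) :
    (m * e j).1 i' j' = if j = j' then m.1 i' j' else 0 := by
  change (m.1 * Matrix.single j j (1 : w.S)) i' j' = _
  by_cases h : j = j'
  · subst h
    rw [if_pos rfl, Matrix.mul_single_apply_same, mul_one]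
  · rw [if_neg h, Matrix.mul_single_apply_of_ne _ _ _ _ _ (fun h0 => h h0.symm)]

theorem col_iff (j : w.Ob) (m : w.Win) : m * e j = m ↔ ∀ i' j', j ≠ j' → m.1 i' j' = 0 := by
  constructor
  · intro h i' j' hj
    rw [← h, mul_e_apply, if_neg hj]
  · intro h
    apply Subtype.ext
    ext i' j'
    rw [mul_e_apply]
    split_ifs with h0
    · rfl
    · exact (h i' j' h0).symm

theorem row_iff (i : w.Ob) (m : w.Win) : e i * m = m ↔ ∀ i' j', i ≠ i' → m.1 i' j' = 0 := by
  constructor
  · intro h i' j' hj
    rw [← h, e_mul_apply, if_neg hj]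
  · intro h
    apply Subtype.ext
    ext i' j'
    rw [e_mul_apply]
    split_ifs with h0
    · rfl
    · exact (h i' j' h0).symm

/-- `m * ws` picks one column -/
theorem mul_ws_apply {j l : w.Ob} {a : w.S} (ha : a ∈ w.E j l) (m : w.Win) (i' l' : w.Ob) :
    (m * ws j l a ha).1 i' l' = if l = l' then m.1 i' j * a else 0 := by
  change (m.1 * Matrix.single j l a) i' l' = _
  by_cases h : l = l'
  · subst h
    rw [if_pos rfl, Matrix.mul_single_apply_same]
  · rw [if_neg h, Matrix.mul_single_apply_of_ne _ _ _ _ _ (fun h0 => h h0.symm)]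

/-- `ws * m` picks one row -/
theorem ws_mul_apply {i j : w.Ob} {a : w.S} (ha : a ∈ w.E i j) (m : w.Win) (i' l' : w.Ob) :
    (ws i j a ha * m).1 i' l' = if i = i' then a * m.1 j l' else 0 := by
  change (Matrix.single i j a * m.1) i' l' = _
  by_cases h : i = i'
  · subst h
    rw [if_pos rfl, Matrix.single_mul_apply_same]
  · rw [if_neg h, Matrix.single_mul_apply_of_ne _ _ _ _ _ (fun h0 => h h0.symm)]

/-- a matrix in one column -/
def mkCol (j : w.Ob) (x : w.Ob → w.S) (hx : ∀ i, x i ∈ w.E i j) : w.Win :=
  ⟨Matrix.of fun i l => if j = l then x i else 0, by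
    intro i l
    change (if j = l then x i else 0) ∈ _
    split_ifs with h
    · subst h
      exact hx i
    · exact Submodule.zero_mem _⟩

theorem mkCol_apply (j : w.Ob) (x : w.Ob → w.S) (hx : ∀ i, x i ∈ w.E i j) (i l : w.Ob) :
    (mkCol j x hx).1 i l = if j = l then x i else 0 := rfl

/-- a matrix in one row -/
def mkRow (i : w.Ob) (x : w.Ob → w.S) (hx : ∀ j, x j ∈ w.E i j) : w.Win :=
  ⟨Matrix.of fun i' l => if i = i' then x l else 0, by
    intro i' l
    change (if i = i' then x l else 0) ∈ _
    split_ifs with h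
    · subst h
      exact hx l
    · exact Submodule.zero_mem _⟩

theorem mkRow_apply (i : w.Ob) (x : w.Ob → w.S) (hx : ∀ j, x j ∈ w.E i j) (i' l : w.Ob) :
    (mkRow i x hx).1 i' l = if i = i' then x l else 0 := rfl

end WD

/-! ### the window module -/

/-- a bigraded module over a tri-graded differential algebra, concentrated in cohomological
degree `0` -/
structure WMod (w : WD K) where
  V : Type
  [grp : AddCommGroup V]
  [mod : Module K V]
  rho : w.S →ₐ[K] Module.End K V
  W : w.Ob → Submodule K V
  act : ∀ {i j : w.Ob} {C : ℤ} {a : w.S} {v : V}, a ∈ w.q i j C → v ∈ W j → rho a v ∈ W i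
  act0 : ∀ {i j : w.Ob} {C : ℤ} {a : w.S} {v : V}, a ∈ w.q i j C → 0 < C → v ∈ W j → rho a v = 0
  actD : ∀ {i j : w.Ob} {a : w.S} {v : V}, a ∈ w.q i j 1 → v ∈ W j → rho (w.D a) v = 0
  fin : ∀ i, Module.Finite K (W i)

attribute [instance] WMod.grp WMod.mod

namespace WMod

open WD

variable {w : WD K} (M : WMod w)

instance (i : w.Ob) : Module.Finite K (M.W i) := M.fin i

theorem actE {i j : w.Ob} {a : w.S} {v : M.V} (ha : a ∈ w.E i j) (hv : v ∈ M.W j) :
    M.rho a v ∈ M.W i := by
  have key : w.E i j ≤ (M.W i).comap ((LinearMap.applyₗ v).comp M.rho.toLinearMap) := by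
    refine iSup_le fun C => ?_
    intro x hx
    exact M.act hx hv
  exact key ha

/-- the underlying space of the window module -/
def VM : Type := ∀ i : w.Ob, M.W i

instance : AddCommGroup M.VM := inferInstanceAs (AddCommGroup (∀ i : w.Ob, M.W i))
instance : Module K M.VM := inferInstanceAs (Module K (∀ i : w.Ob, M.W i))
instance : Module.Finite K M.VM := inferInstanceAs (Module.Finite K (∀ i : w.Ob, M.W i))

/-- the action of the window algebra, one element -/
def actL (m : w.Win) : M.VM →ₗ[K] M.VM where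
  toFun v := fun i => ⟨∑ j, M.rho (m.1 i j) (v j).1, Submodule.sum_mem _ fun j _ =>
    M.actE (m.2 i j) (v j).2⟩
  map_add' u v := by
    funext i
    apply Subtype.ext
    change ∑ j, M.rho (m.1 i j) ((u j).1 + (v j).1) = _
    simp only [map_add, Finset.sum_add_distrib]
    rfl
  map_smul' r v := by
    funext i
    apply Subtype.ext
    change ∑ j, M.rho (m.1 i j) (r • (v j).1) = r • ∑ j, M.rho (m.1 i j) (v j).1
    simp only [map_smul, Finset.smul_sum]

theorem actL_apply (m : w.Win) (v : M.VM) (i : w.Ob) :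
    (M.actL m v i).1 = ∑ j, M.rho (m.1 i j) (v j).1 := rfl

theorem vext {u v : M.VM} (h : ∀ i, (u i).1 = (v i).1) : u = v := by
  funext i
  exact Subtype.ext (h i)

/-- the action of the window algebra -/
def actR : w.Win →+* Module.End K M.VM where
  toFun := M.actL
  map_one' := by
    ext v
    apply M.vext
    intro i
    rw [actL_apply, Finset.sum_eq_single i]
    · change M.rho ((1 : Matrix w.Ob w.Ob w.S) i i) (v i).1 = (v i).1
      rw [Matrix.one_apply_eq, map_one]
      rfl
    · intro j _ hj
      change M.rho ((1 : Matrix w.Ob w.Ob w.S) i j) (v j).1 = 0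
      rw [Matrix.one_apply_ne (Ne.symm hj), map_zero]
      rfl
    · intro h
      exact absurd (Finset.mem_univ _) h
  map_mul' a b := by
    ext v
    apply M.vext
    intro i
    change (M.actL (a * b) v i).1 = (M.actL a (M.actL b v) i).1
    rw [actL_apply, actL_apply]
    simp only [actL_apply]
    have h1 : ∀ l, M.rho ((a * b).1 i l) (v l).1 = ∑ j, M.rho (a.1 i j) (M.rho (b.1 j l) (v l).1) := by
      intro l
      change M.rho ((a.1 * b.1) i l) (v l).1 = _
      rw [Matrix.mul_apply, map_sum, LinearMap.sum_apply]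
      refine Finset.sum_congr rfl fun j _ => ?_
      rw [map_mul]
      rfl
    simp only [h1, map_sum]
    exact Finset.sum_comm
  map_zero' := by
    ext v
    apply M.vext
    intro i
    rw [actL_apply]
    refine Finset.sum_eq_zero fun j _ => ?_
    change M.rho (0 : w.S) (v j).1 = 0
    rw [map_zero]
    rfl
  map_add' a b := by
    ext v
    apply M.vext
    intro i
    change (M.actL (a + b) v i).1 = (M.actL a v i).1 + (M.actL b v i).1
    rw [actL_apply, actL_apply, actL_apply, ← Finset.sum_add_distrib]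
    refine Finset.sum_congr rfl fun j _ => ?_
    change M.rho (a.1 i j + b.1 i j) (v j).1 = _
    rw [map_add]
    rfl

instance : Module w.Win M.VM := Module.compHom _ M.actR

theorem smul_apply (m : w.Win) (v : M.VM) (i : w.Ob) :
    ((m • v : M.VM) i).1 = ∑ j, M.rho (m.1 i j) (v j).1 := rfl

instance : IsScalarTower K w.Win M.VM := by
  refine ⟨fun r m v => ?_⟩
  apply M.vext
  intro i
  rw [smul_apply]
  change _ = r • ((m • v : M.VM) i).1
  rw [smul_apply, Finset.smul_sum]
  refine Finset.sum_congr rfl fun j _ => ?_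
  change M.rho (r • m.1 i j) (v j).1 = _
  rw [map_smul]
  rfl

/-- positive part acts by zero -/
theorem smul_pos {k : ℤ} (hk : 0 < k) {m : w.Win} (hm : m ∈ w.G k) (v : M.VM) : m • v = 0 := by
  apply M.vext
  intro i
  rw [smul_apply]
  exact Finset.sum_eq_zero fun j _ => M.act0 (hm i j) hk (v j).2

/-- boundaries of degree-one elements act by zero -/
theorem D_smul {m : w.Win} (hm : m ∈ w.G 1) (v : M.VM) : w.DW m • v = 0 := by
  apply M.vext
  intro i
  rw [smul_apply]
  exact Finset.sum_eq_zero fun j _ => M.actD (hm i j) (v j).2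

/-- an element at one vertex -/
def mkV (i : w.Ob) (x : M.V) (hx : x ∈ M.W i) : M.VM := fun j =>
  ⟨if i = j then x else 0, by
    split_ifs with h
    · exact h ▸ hx
    · exact Submodule.zero_mem _⟩

theorem mkV_apply (i : w.Ob) (x : M.V) (hx : x ∈ M.W i) (j : w.Ob) :
    (M.mkV i x hx j).1 = if i = j then x else 0 := rfl

theorem e_smul_iff (i : w.Ob) (v : M.VM) : e i • v = v ↔ ∀ j, i ≠ j → (v j).1 = 0 := by
  have key : ∀ j, ((e i • v : M.VM) j).1 = if i = j then (v j).1 else 0 := by
    intro j
    rw [smul_apply]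
    have h1 : ∀ l, M.rho ((e i).1 j l) (v l).1 = if i = j ∧ i = l then (v l).1 else 0 := by
      intro l
      unfold e
      rw [ws_apply]
      split_ifs with h
      · rw [map_one]
        rfl
      · rw [map_zero]
        rfl
    simp only [h1]
    by_cases h : i = j
    · subst h
      simp
    · simp [h]
  constructor
  · intro h j hj
    rw [← h, key, if_neg hj]
  · intro h
    apply M.vext
    intro j
    rw [key]
    split_ifs with h0
    · rfl
    · exact (h j h0).symm

theorem ws_smul {i j : w.Ob} {a : w.S} (ha : a ∈ w.E i j) (v : M.VM) (l : w.Ob) :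
    ((ws i j a ha • v : M.VM) l).1 = if i = l then M.rho a (v j).1 else 0 := by
  rw [smul_apply]
  have h1 : ∀ l', M.rho ((ws i j a ha).1 l l') (v l').1 =
      if i = l ∧ j = l' then M.rho a (v l').1 else 0 := by
    intro l'
    rw [ws_apply]
    split_ifs with h
    · rfl
    · rw [map_zero]
      rfl
  simp only [h1]
  by_cases h : i = l
  · subst h
    simp
  · simp [h]

end WMod

end Crest.Agent.R186.Win810
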