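import Crest.Agent.R186.KHr_302
import Crest.Agent.R186.SExt_44
import Crest.Agent.R186.WinA_810
import Crest.Agent.R186.Res_255

/-!
Row 186, half (A), leaf A.C2s (helper122): the part `KK` of helper468's `C2D`.

General: `B : BD w` a bimodule over window data, `E : KH186.CE B.ext`; `KKr B E : LM w.dga` = the
cell module `KK` restricted along `w.dga → B.ext.dga`; generators `u c`, idempotents
`ec c = WD.e (oc c)`, lifted matrix `cw c c'`, and K1, K2, K3 (concrete form: `C2kc_122`).
-/

set_option autoImplicit false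
set_option linter.style.haveILetI false
set_option linter.unusedSectionVars false

noncomputable section

namespace Crest.Agent.R186.C2k122

open Hat827 Win810 Win810.WD Frame515 Res255 KH186 SExt44

variable {K : Type} [Field K]

section general

variable {w : WD K} (B : BD w) (E : KH186.CE B.ext)

/-- `R'' → Γ → R'` -/
def qB : w.S →ₐ[K] E.B := E.p.comp B.inl

theorem qB_mem {P A C : ℤ} {a : w.S} (h : a ∈ w.pc P A C) : qB B E a ∈ E.pb P A C :=
  E.p_mem (B.inl_mem h)

/-- the inclusion `L'' → Γ` -/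
def hI : Hm w.dga B.ext.dga where
  f := B.inlW
  mem h := B.inlW_mem h
  D a := B.inlW_D a

/-- `KK` over `L''` -/
def KKr : LM w.dga := resL (hI B) E.KKlm

/-- the action of `L''` on `KK` -/
def aL (a : w.Win) (x : E.KK) : E.KK := E.L (B.inlW a) x

theorem act_def (a : w.dga.C) (x : (KKr B E).X) :
    a • x = (show (KKr B E).X from aL B E a x) := rfl

/-- position of a cell -/
def oo (c : E.κ) : w.Ob := E.oc c

theorem one_pb : (1 : E.B) ∈ E.pb 0 0 0 := by
  have := E.p_mem B.ext.one_mem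
  rwa [map_one] at this

/-- generators -/
def u (c : E.κ) : E.KK :=
  ⟨fun i c' => if (show w.Ob from i) = oo B E c ∧ c' = c then 1 else 0, fun i c' => by
    change (if (show w.Ob from i) = oo B E c ∧ c' = c then (1 : E.B) else 0) ∈ _
    split_ifs with h
    · obtain ⟨h1, rfl⟩ := h
      have h2 : i = E.oc c' := h1
      subst h2
      exact E.pb_le _ _ 0 (CE.pb_cast (one_pb B E) (sub_self _).symm (sub_self _).symm rfl)
    · exact Submodule.zero_mem _⟩

variable {B E}

/-- entries of an element of `KK`, indexed by `w.Ob` -/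
def at' (x : E.KK) (i : w.Ob) (c : E.κ) : E.B := x.1 i c

theorem ext' {x y : E.KK} (h : ∀ (i : w.Ob) (c : E.κ), at' x i c = at' y i c) : x = y := by
  apply Subtype.ext
  funext i c
  exact h i c

theorem u_apply (c : E.κ) (i : w.Ob) (c' : E.κ) :
    at' (u B E c) i c' = if i = oo B E c ∧ c' = c then 1 else 0 := rfl

theorem u_mem' (c : E.κ) : u B E c ∈ E.gr.G (E.cd c) := by
  rw [CE.mem_gr]
  intro i c'
  change (if (show w.Ob from i) = oo B E c ∧ c' = c then (1 : E.B) else 0) ∈ _
  split_ifs with h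
  · obtain ⟨h1, rfl⟩ := h
    have h2 : i = E.oc c' := h1
    subst h2
    exact CE.pb_cast (one_pb B E) (sub_self _).symm (sub_self _).symm (sub_self _).symm
  · exact Submodule.zero_mem _

theorem aL_apply (a : w.Win) (x : E.KK) (i : w.Ob) (c : E.κ) :
    at' (aL B E a x) i c = ∑ j : w.Ob, qB B E (a.1 i j) * at' x j c := rfl

theorem aL_u (a : w.Win) (c : E.κ) (i : w.Ob) (c' : E.κ) :
    at' (aL B E a (u B E c)) i c' = if c' = c then qB B E (a.1 i (oo B E c)) else 0 := by
  rw [aL_apply]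
  by_cases h : c' = c
  · subst h
    rw [if_pos rfl, Finset.sum_eq_single (oo B E c')]
    · rw [u_apply, if_pos ⟨rfl, rfl⟩, mul_one]
    · intro j _ hj
      rw [u_apply, if_neg (fun h0 => hj h0.1), mul_zero]
    · intro h0
      exact absurd (Finset.mem_univ _) h0
  · rw [if_neg h]
    refine Finset.sum_eq_zero fun j _ => ?_
    rw [u_apply, if_neg (fun h0 => h h0.2), mul_zero]

variable (B E)

/-- idempotents -/
def ec (c : E.κ) : w.Win := WD.e (oo B E c)

variable {B E}

theorem ec_mem (c : E.κ) : ec B E c ∈ w.G 0 := WD.e_mem _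

theorem ec_idem (c : E.κ) : ec B E c * ec B E c = ec B E c := WD.e_mul_e _

theorem ec_apply (c : E.κ) (i j : w.Ob) :
    (ec B E c).1 i j = if oo B E c = i ∧ oo B E c = j then 1 else 0 := by
  unfold ec WD.e
  rw [WD.ws_apply]

theorem aL_ec (c : E.κ) : aL B E (ec B E c) (u B E c) = u B E c := by
  apply ext'
  intro i c'
  rw [aL_u, u_apply, ec_apply]
  by_cases h : c' = c
  · subst h
    by_cases h1 : i = oo B E c'
    · rw [if_pos rfl, if_pos ⟨h1.symm, rfl⟩, map_one, if_pos ⟨h1, rfl⟩]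
    · rw [if_pos rfl, if_neg (fun h0 => h1 h0.1.symm), map_zero, if_neg (fun h0 => h1 h0.1)]
  · rw [if_neg h, if_neg (fun h0 => h h0.2)]

/-- an element of the algebra supported in the column `c` -/
theorem col_ec {a : w.Win} {c : E.κ} :
    a * ec B E c = a ↔ ∀ i j : w.Ob, oo B E c ≠ j → a.1 i j = 0 := WD.col_iff _ _

theorem at_sum {ι : Type} (s : Finset ι) (f : ι → E.KK) (i : w.Ob) (c : E.κ) :
    at' (∑ a ∈ s, f a : E.KK) i c = ∑ a ∈ s, at' (f a) i c := by
  unfold at'
  rw [AddSubmonoidClass.coe_finsetSum, Finset.sum_apply, Finset.sum_apply]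

theorem sum_aL_u (a : E.κ → w.Win) (i : w.Ob) (c' : E.κ) :
    at' (∑ c, aL B E (a c) (u B E c)) i c' = qB B E ((a c').1 i (oo B E c')) := by
  rw [at_sum]
  simp only [aL_u]
  rw [Finset.sum_ite_eq, if_pos (Finset.mem_univ _)]

/-- pieces of `R'` lift, and the matrix of the cells lifts -/
structure Lf (B : BD w) (E : KH186.CE B.ext) where
  sur : ∀ {P A C : ℤ} {b : E.B}, b ∈ E.pb P A C → ∃ r ∈ w.pc P A C, qB B E r = b
  c0 : E.κ → E.κ → w.S
  c0_mem : ∀ c c', c0 c c' ∈ w.q (oo B E c) (oo B E c') ((E.cd c : ℤ) - E.cd c' - 1)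
  c0_q : ∀ c c', qB B E (c0 c c') = E.cc c c'

variable (F : Lf B E)

/-- **K1** -/
theorem K1' (F : Lf B E) {k : ℤ} {x : E.KK} (hx : x ∈ E.gr.G k) :
    ∃ a : E.κ → w.Win, (∀ c, a c ∈ w.G (k - E.cd c) ∧ a c * ec B E c = a c) ∧
      x = ∑ c, aL B E (a c) (u B E c) := by
  rw [CE.mem_gr] at hx
  have h : ∀ (c : E.κ) (i : w.Ob), ∃ r : w.S, r ∈ w.q i (oo B E c) (k - E.cd c) ∧
      qB B E r = at' x i c := fun c i => F.sur (hx i c)
  choose r hr hr' using h
  refine ⟨fun c => WD.mkCol (oo B E c) (r c) fun i => WD.q_le _ _ _ (hr c i),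
    fun c => ⟨?_, ?_⟩, ?_⟩
  · intro i j
    rw [WD.mkCol_apply]
    split_ifs with h
    · subst h
      exact hr c i
    · exact Submodule.zero_mem _
  · rw [col_ec]
    intro i j hj
    rw [WD.mkCol_apply, if_neg hj]
  · apply ext'
    intro i c
    rw [sum_aL_u (fun c => WD.mkCol (oo B E c) (r c) fun i => WD.q_le _ _ _ (hr c i)) i c,
      WD.mkCol_apply, if_pos rfl, hr']

/-- **K2**, entries -/
theorem K2' {a : E.κ → w.Win} (ha : ∀ c, a c * ec B E c = a c)
    (h : ∑ c, aL B E (a c) (u B E c) = 0) (c : E.κ) (i j : w.Ob) : qB B E ((a c).1 i j) = 0 := by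
  by_cases hj : oo B E c = j
  · subst hj
    rw [← sum_aL_u a i c, h]
    rfl
  · rw [col_ec.1 (ha c) i j hj, map_zero]

/-- **K3**, entries -/
theorem K3' {a : w.Win} (h : ∀ i j, qB B E (a.1 i j) = 0) (c : E.κ) :
    aL B E a (u B E c) = 0 := by
  apply ext'
  intro i c'
  rw [aL_u, h, ite_self]
  rfl

/-- the lifted matrix of the cells -/
def cw (F : Lf B E) (c c' : E.κ) : w.Win :=
  WD.ws (oo B E c) (oo B E c') (F.c0 c c') (WD.q_le _ _ _ (F.c0_mem c c'))

theorem cw_mem (c c' : E.κ) : cw F c c' ∈ w.G ((E.cd c : ℤ) - E.cd c' - 1) :=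
  WD.ws_mem_G' (F.c0_mem c c') _

theorem cw_apply (c c' : E.κ) (i j : w.Ob) :
    (cw F c c').1 i j = if oo B E c = i ∧ oo B E c' = j then F.c0 c c' else 0 :=
  WD.ws_apply _ _ _ _ _ _

theorem cw_left (c c' : E.κ) : ec B E c * cw F c c' = cw F c c' := by
  apply Subtype.ext
  ext i j : 2
  unfold ec
  rw [WD.e_mul_apply]
  split_ifs with h
  · rfl
  · rw [cw_apply, if_neg (fun h0 => h h0.1)]

theorem cw_right (c c' : E.κ) : cw F c c' * ec B E c' = cw F c c' := by
  apply Subtype.ext
  ext i j : 2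
  unfold ec
  rw [WD.mul_e_apply]
  split_ifs with h
  · rfl
  · rw [cw_apply, if_neg (fun h0 => h h0.2)]

theorem D'_one : E.D' 1 = 0 := by
  have h := E.D'_mul 1 1
  rw [mul_one, one_mul, mul_one] at h
  rw [h]
  exact E.two _

theorem dY_at (x : E.KK) (i : w.Ob) (c : E.κ) :
    at' (E.dY x) i c = E.D' (at' x i c) + ∑ c', at' x i c' * E.cc c' c := rfl

/-- **the differential of the generators** -/
theorem u_d' (c : E.κ) : E.dY (u B E c) = ∑ c', aL B E (cw F c c') (u B E c') := by
  apply ext'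
  intro i c'
  rw [sum_aL_u (fun c' => cw F c c') i c', cw_apply, dY_at]
  have h1 : E.D' (at' (u B E c) i c') = 0 := by
    rw [u_apply]
    split_ifs
    · exact D'_one
    · exact map_zero _
  rw [h1, zero_add]
  by_cases h : i = oo B E c
  · rw [if_pos ⟨h.symm, rfl⟩, F.c0_q, Finset.sum_eq_single c]
    · rw [u_apply, if_pos ⟨h, rfl⟩, one_mul]
    · intro b _ hb
      rw [u_apply, if_neg (fun h0 => hb h0.2), zero_mul]
    · intro h0
      exact absurd (Finset.mem_univ _) h0
  · rw [if_neg (fun h0 => h h0.1.symm), map_zero]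
    refine Finset.sum_eq_zero fun b _ => ?_
    rw [u_apply, if_neg (fun h0 => h h0.1), zero_mul]

/-- the evaluation on the generators: one row -/
theorem ev_u (c : E.κ) (η : E.H) (i j : w.Ob) :
    (CE.evK (u B E c) η).1 i j = if i = oo B E c then E.o (η.1 c j) else 0 := by
  rw [CE.evK_apply]
  change E.o (∑ c', at' (u B E c) i c' * η.1 c' j) = _
  rw [Finset.sum_eq_single c]
  · rw [u_apply]
    by_cases h : i = oo B E c
    · rw [if_pos ⟨h, rfl⟩, if_pos h, one_mul]
    · rw [if_neg (fun h0 => h h0.1), if_neg h, zero_mul, map_zero]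
  · intro b _ hb
    rw [u_apply, if_neg (fun h0 => hb h0.2), zero_mul]
  · intro h0
    exact absurd (Finset.mem_univ _) h0

end general

end Crest.Agent.R186.C2k122
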