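import Crest.Agent.R186.C2kc_122
import Crest.Agent.R186.KHc_302
import Crest.Agent.R186.C2b_468

/-!
Row 186, half (A), leaf A.C2s (helper122): the part `KK` of helper468's `C2D` for
`E = KHc302.CEr π s hs`, `S = C2b468.welR π`, `KK = resL (HmI ..) E.KKlm`, and `C2D` from a part `H`.
-/

set_option autoImplicit false
set_option linter.style.haveILetI false
set_option linter.unusedSectionVars false

noncomputable section

namespace Crest.Agent.R186.C2kd122

open Hat827 Win810 Frame515 Res255 KH186 SExt44 C2k122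
open DefsQ830 PBW128 C2b44 Cells221 WL221 SM890 KHc302 C2W655 C2b468 C2s468

variable {K : Type} [Field K] (π : Par K) (s : ℕ) (hs : 5 ≤ s)

theorem qB_apply (a : (WR π).S) : qB (bdM π s (two_le hs)) (CEr π s hs) a = prL π a := rfl

/-- the lift -/
def LFd : Lf (bdM π s (two_le hs)) (CEr π s hs) where
  sur hb := pcL_lift hb
  c0 := c0 π
  c0_mem := c0_mem_q π
  c0_q _ _ := rfl

/-- `KK` over `L''` -/
abbrev KKd : LM (WR π).dga := resL (HmI π s (two_le hs)) (CEr π s hs).KKlm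

/-- generators -/
def ud (c : Cell) : (KKd π s hs).X := u (bdM π s (two_le hs)) (CEr π s hs) c

variable {π s hs}

theorem ud_mem (c : Cell) : ud π s hs c ∈ (KKd π s hs).gr (cdeg c) := u_mem' (E := CEr π s hs) c

theorem ecc_ud (c : Cell) : ecc π c • ud π s hs c = ud π s hs c :=
  aL_ec (B := bdM π s (two_le hs)) (E := CEr π s hs) c

variable (π s hs) in
/-- the matrix of the cells, lifted to `L''` -/
def ccd (c c' : Cell) : (WR π).dga.C := cw (LFd π s hs) c c'

theorem ccd_mem (c c' : Cell) : ccd π s hs c c' ∈ (WR π).dga.G ((cdeg c : ℤ) - cdeg c' - 1) :=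
  cw_mem (LFd π s hs) c c'

theorem ccd_left (c c' : Cell) : ecc π c * ccd π s hs c c' = ccd π s hs c c' :=
  cw_left (LFd π s hs) c c'

theorem ccd_right (c c' : Cell) : ccd π s hs c c' * ecc π c' = ccd π s hs c c' :=
  cw_right (LFd π s hs) c c'

theorem ud_d (c : Cell) : (KKd π s hs).d (ud π s hs c) =
    ∑ c' : Cell, ccd π s hs c c' • ud π s hs c' :=
  u_d' (LFd π s hs) c

theorem K1d {k : ℤ} {x : (KKd π s hs).X} (hx : x ∈ (KKd π s hs).gr k) :
    ∃ a : Cell → (WR π).dga.C, (∀ c, a c ∈ (WR π).dga.G (k - cdeg c) ∧ a c * ecc π c = a c) ∧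
      x = ∑ c : Cell, a c • ud π s hs c :=
  K1' (LFd π s hs) hx

theorem K2d (a : Cell → (WR π).dga.C) (ha : ∀ c, a c * ecc π c = a c)
    (h : ∑ c : Cell, a c • ud π s hs c = 0) (c : Cell) : a c * (welR π).pi = 0 :=
  mul_piW_zero.2 fun i j => K2' (B := bdM π s (two_le hs)) (E := CEr π s hs) ha h c i j

theorem K3d (a : (WR π).dga.C) (c : Cell) (h : a * (welR π).pi = 0) : a • ud π s hs c = 0 :=
  K3' (B := bdM π s (two_le hs)) (E := CEr π s hs) (mul_piW_zero.1 h) c

theorem ecd_pi (c : Cell) : ecc π c * (welR π).pi = (welR π).pi * ecc π c := e_piW _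

theorem nord (a : (WR π).dga.C) : ∃ a' : (WR π).dga.C, a * (welR π).pi = (welR π).pi * a' :=
  nor_piW a

/-- **`C2D` from the part `H`** -/
def c2D {M : LM (WR π).dga} {H : GC K}
    (ev : (KKd π s hs).X →ₗ[K] H.X →ₗ[K] M.X)
    (ev_l : ∀ (a : (WR π).dga.C) (x : (KKd π s hs).X) (η : H.X), ev (a • x) η = a • ev x η)
    (ev_D : ∀ x η, M.d (ev x η) = ev ((KKd π s hs).d x) η + ev x (H.d η))
    (ev_deg : ∀ {k l : ℤ} {x : (KKd π s hs).X} {η : H.X}, x ∈ (KKd π s hs).gr k → η ∈ H.gr l →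
      ev x η ∈ M.gr (k + l))
    (H0 : ∀ η : H.X, (∀ c : Cell, ev (ud π s hs c) η = 0) → η = 0)
    (H1 : ∀ (k : ℤ) (c : Cell) (m : M.X), m ∈ M.gr (k + cdeg c - (welR π).δp) →
      ∃ η ∈ H.gr k, ev (ud π s hs c) η = ecc π c • (welR π).pi • m ∧
        ∀ c', c' ≠ c → ev (ud π s hs c') η = 0)
    (H2 : ∀ (c : Cell) (η : H.X), ∃ m, ev (ud π s hs c) η = (welR π).pi • m)
    (PM : FinV988.PrL M) (PH : Dual560.Pr H) : C2D (welR π) M (KKd π s hs) H where
  ev := ev
  ev_l := ev_l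
  ev_D := ev_D
  ev_deg := ev_deg
  ka := Cell
  cd := cdeg
  u := ud π s hs
  u_mem := ud_mem
  ec := ecc π
  ec_mem := ecc_mem
  ec_idem := ecc_idem
  ec_u := ecc_ud
  ec_pi := ecd_pi
  cc := ccd π s hs
  cc_mem := ccd_mem
  cc_l := ccd_left
  cc_r := ccd_right
  u_d := ud_d
  K1 := K1d
  K2 := K2d
  K3 := K3d
  nor := nord
  H0 := H0
  H1 := H1
  H2 := H2
  PM := PM
  PH := PH

/-- the evaluation on the generators: one row -/
theorem evK_ud (c : Cell) (η : (CEr π s hs).H) (i j : DefsQ830.Ob) :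
    (CE.evK (E := CEr π s hs) (ud π s hs c) η).1 i j =
      if i = oc c then (CEr π s hs).o (η.1 c j) else 0 :=
  ev_u (B := bdM π s (two_le hs)) (E := CEr π s hs) c η i j

end Crest.Agent.R186.C2kd122
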