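import Crest.Agent.R186.C2a_667

/-!
# Row 186, half (A), leaf C2a (helper667), part 3: the total complex `(Hom (Q, R''), D + θ)`

`tot` : the kernel of the augmentation `x ↦ x 1 mod (W-letters)` is acyclic.
-/

set_option autoImplicit false

noncomputable section

namespace Crest.Agent.R186.C2a667

open Crest.Agent.R186.DefsQ830
open Crest.Agent.R186.Win810 Crest.Agent.R186.C2q667
open Crest.Agent.R186.C2b44 (kill kill_D_zero)
open Crest.Agent.R186.VQ735 (lp Q MQ yl sumL MQ_MQ pz)
open Crest.Agent.R186.Loc261 (Lt li wp wp_nil ext_wp)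

variable {K : Type} [Field K] (π : Par K)

/-- `D` on values -/
def DX (x : Q π →ₗ[K] R π) : Q π →ₗ[K] R π := (Der580.D π) ∘ₗ x

theorem DX_apply (x : Q π →ₗ[K] R π) (v : Q π) : DX π x v = Der580.D π (x v) := rfl

theorem DX_mem {P A C : ℤ} {x : Q π →ₗ[K] R π} (hx : x ∈ Hg π P A C) : DX π x ∈ Hg π P A (C - 1) := by
  intro w
  refine VQ735.pz_cast π (VQ735.D_pz π (hx w)) rfl rfl (by ring)

theorem tx_mem {P A C : ℤ} {x : Q π →ₗ[K] R π} (hx : x ∈ Hg π P A C) : tx π x ∈ Hg π P A (C - 1) := by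
  intro w
  rw [tx_apply]
  refine Submodule.sum_mem _ fun g _ => ?_
  have e1 := Hg_Qd π hx (MQ_Qd π g (wp_Qd (lp π) w))
  have e2 := VQ735.pz_mul π e1 (VQ735.yl_pz π g)
  refine VQ735.pz_cast π e2 (by ring) (by ring) ?_
  have : (VQ735.dg g : ℤ) = qd g := by cases g <;> rfl
  rw [this]; ring

theorem DX_add (x y : Q π →ₗ[K] R π) : DX π (x + y) = DX π x + DX π y := LinearMap.comp_add _ _ _
theorem tx_add (x y : Q π →ₗ[K] R π) : tx π (x + y) = tx π x + tx π y := by
  apply LinearMap.ext
  intro v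
  simp only [tx_apply, LinearMap.add_apply, add_mul, Finset.sum_add_distrib]
theorem xx (x : Q π →ₗ[K] R π) : x + x = 0 := by
  apply LinearMap.ext
  intro v
  exact Der580.add_self π _

theorem DX_DX (x : Q π →ₗ[K] R π) : DX π (DX π x) = 0 := by
  apply LinearMap.ext
  intro v
  rw [DX_apply, DX_apply, Der580.D_D]; rfl

theorem DX_tx (x : Q π →ₗ[K] R π) : DX π (tx π x) = tx π (DX π x) := by
  apply LinearMap.ext
  intro v
  rw [DX_apply, tx_apply, tx_apply, map_sum]
  refine Finset.sum_congr rfl fun g _ => ?_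
  rw [Der580.D_mul, VQ735.D_yl, mul_zero, add_zero, DX_apply]

theorem tx_tx (x : Q π →ₗ[K] R π) : tx π (tx π x) = 0 := by
  apply LinearMap.ext
  intro v
  have hz : ∀ g g', ¬ (g = .x ∧ g' = .x') → ¬ (g = .x' ∧ g' = .x) →
      ∀ r : R π, r * yl π g * yl π g' = 0 := fun g g' h h' r => by
    rw [mul_assoc, VQ735.yl_yl π g g' h h', mul_zero]
  rw [tx_apply]
  simp only [tx_apply, Finset.sum_mul]
  simp only [sumL]
  rw [hz .x .x (by simp) (by simp), hz .x .a (by simp) (by simp), hz .x .b (by simp) (by simp),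
    hz .a .x (by simp) (by simp), hz .a .a (by simp) (by simp), hz .a .x' (by simp) (by simp),
    hz .a .b (by simp) (by simp), hz .x' .a (by simp) (by simp), hz .x' .x' (by simp) (by simp),
    hz .x' .b (by simp) (by simp), hz .b .x (by simp) (by simp), hz .b .a (by simp) (by simp),
    hz .b .x' (by simp) (by simp), hz .b .b (by simp) (by simp)]
  simp only [zero_add, add_zero]
  have h5 : MQ π .x (MQ π .x' v) = π.p • MQ π .x' (MQ π .x v) := LinearMap.congr_fun (MQ_MQ π) v
  rw [h5, map_smul, mul_assoc, mul_assoc, VQ735.y10_yl, mul_smul_comm, smul_mul_assoc]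
  exact Der580.add_self π _

/-- the total differential squares to zero -/
theorem tot_tot (x : Q π →ₗ[K] R π) :
    DX π (DX π x + tx π x) + tx π (DX π x + tx π x) = 0 := by
  rw [DX_add, tx_add, DX_DX, tx_tx, DX_tx, add_zero, zero_add]
  apply LinearMap.ext
  intro v
  exact Der580.add_self π _

/-! ### restriction to words of a given length -/

/-- `x` on words of length `n` -/
def rs (n : ℕ) (x : Q π →ₗ[K] R π) : Q π →ₗ[K] R π := x ∘ₗ lenP (lp π) n

theorem rs_wp (n : ℕ) (x : Q π →ₗ[K] R π) (w : List Lt) :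
    rs π n x (wp (lp π) w) = if w.length = n then x (wp (lp π) w) else 0 := by
  show x (lenP (lp π) n (wp (lp π) w)) = _
  rw [lenP_wp]
  split_ifs
  · rfl
  · exact map_zero _

theorem rs_mem {P A C : ℤ} (n : ℕ) {x : Q π →ₗ[K] R π} (hx : x ∈ Hg π P A C) :
    rs π n x ∈ Hg π P A C := by
  intro w
  rw [rs_wp]
  split_ifs
  · exact hx w
  · exact Submodule.zero_mem _

theorem MQ_wp (g : Lt) (w : List Lt) : ∃ c : K, MQ π g (wp (lp π) w) = c • wp (lp π) (g :: w) := by
  obtain ⟨c, hc, e⟩ := wp_MQ π g w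
  exact ⟨c⁻¹, by rw [e, smul_smul, inv_mul_cancel₀ hc, one_smul]⟩

theorem tx_rs_succ (n : ℕ) (x : Q π →ₗ[K] R π) : tx π (rs π (n + 1) x) = rs π n (tx π x) := by
  apply ext_wp
  intro w
  rw [tx_apply, rs_wp, tx_apply]
  by_cases h : w.length = n
  · rw [if_pos h]
    refine Finset.sum_congr rfl fun g _ => ?_
    obtain ⟨c, e⟩ := MQ_wp π g w
    rw [e, map_smul, map_smul, rs_wp, if_pos (by simp [h])]
  · rw [if_neg h]
    refine Finset.sum_eq_zero fun g _ => ?_
    obtain ⟨c, e⟩ := MQ_wp π g w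
    rw [e, map_smul, rs_wp, if_neg (by simpa using h), smul_zero, zero_mul]

theorem tx_rs_zero (x : Q π →ₗ[K] R π) : tx π (rs π 0 x) = 0 := by
  apply ext_wp
  intro w
  rw [tx_apply]
  refine Finset.sum_eq_zero fun g _ => ?_
  obtain ⟨c, e⟩ := MQ_wp π g w
  rw [e, map_smul, rs_wp, if_neg (by simp), smul_zero, zero_mul]

theorem rs_one_pos (n : ℕ) (x : Q π →ₗ[K] R π) : rs π (n + 1) x 1 = 0 := by
  have := rs_wp π (n + 1) x []
  rw [wp_nil] at this
  rw [this, if_neg (by simp)]

theorem rs_one_zero (x : Q π →ₗ[K] R π) : rs π 0 x 1 = x 1 := by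
  have := rs_wp π 0 x []
  rw [wp_nil] at this
  rw [this, if_pos (by simp)]

theorem tot_aux {P A C : ℤ} (d : ℕ) : ∀ (n : ℕ) (x : Q π →ₗ[K] R π), C + 1 ≤ (n + d : ℕ) →
    x ∈ Hg π P A C → DX π x + tx π x = 0 → kill π (x 1) = 0 →
    (∀ w : List Lt, w.length < n → x (wp (lp π) w) = 0) →
    ∃ y ∈ Hg π P A (C + 1), kill π (y 1) = 0 ∧ x = DX π y + tx π y := by
  induction d with
  | zero =>
    intro n x hn hx _ _ hF
    have h0 : x = 0 := by
      apply ext_wp
      intro w
      by_cases hw : w.length < n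
      · exact hF w hw
      · have h1 := hx w
        have h2 := len_le w
        rw [VQ735.pz_neg π (by push_cast at hn; omega)] at h1
        exact h1
    refine ⟨0, Submodule.zero_mem _, by simp, ?_⟩
    rw [h0]
    apply LinearMap.ext
    intro v
    simp [DX_apply, tx_apply]
  | succ d ih =>
    intro n x hn hx hc h1 hF
    have ht : tx π (rs π n x) = 0 := by
      cases n with
      | zero => exact tx_rs_zero π x
      | succ m =>
        rw [tx_rs_succ]
        apply ext_wp
        intro w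
        rw [rs_wp]
        split_ifs with hw
        · have e := LinearMap.congr_fun hc (wp (lp π) w)
          rw [LinearMap.add_apply, DX_apply, hF w (by omega), map_zero, zero_add] at e
          exact e
        · rfl
    have hk : kill π (rs π n x 1) = 0 := by
      cases n with
      | zero => rw [rs_one_zero]; exact h1
      | succ m => rw [rs_one_pos, map_zero]
    obtain ⟨y0, hy0, -, hty⟩ := kos π (rs_mem π n hx) ht hk
    have hy1 : rs π (n + 1) y0 ∈ Hg π P A (C + 1) := rs_mem π _ hy0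
    have ht1 : tx π (rs π (n + 1) y0) = rs π n x := by
      rw [tx_rs_succ, hty]
      apply ext_wp
      intro w
      rw [rs_wp, rs_wp]
      split_ifs <;> rfl
    set y1 := rs π (n + 1) y0 with hy1d
    have hm : x + (DX π y1 + tx π y1) ∈ Hg π P A C := by
      refine Submodule.add_mem _ hx (Submodule.add_mem _ ?_ ?_)
      · exact Hg_cast π (DX_mem π hy1) rfl rfl (by ring)
      · exact Hg_cast π (tx_mem π hy1) rfl rfl (by ring)
    have hcl : DX π (x + (DX π y1 + tx π y1)) + tx π (x + (DX π y1 + tx π y1)) = 0 := by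
      rw [DX_add π x, tx_add π x, add_add_add_comm, hc, tot_tot, add_zero]
    have hk1 : kill π ((x + (DX π y1 + tx π y1)) 1) = 0 := by
      rw [ht1, LinearMap.add_apply, LinearMap.add_apply, DX_apply, hy1d, rs_one_pos, map_zero,
        zero_add, map_add, h1, hk, add_zero]
    have hF1 : ∀ w : List Lt, w.length < n + 1 → (x + (DX π y1 + tx π y1)) (wp (lp π) w) = 0 := by
      intro w hw
      rw [ht1, LinearMap.add_apply, LinearMap.add_apply, DX_apply, hy1d, rs_wp,
        if_neg (by omega), map_zero, zero_add, rs_wp]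
      split_ifs with h
      · exact Der580.add_self π _
      · rw [hF w (by omega), add_zero]
    obtain ⟨y', hy', hky', e'⟩ := ih (n + 1) _ (by push_cast at hn ⊢; omega) hm hcl hk1 hF1
    refine ⟨y1 + y', Submodule.add_mem _ hy1 hy', ?_, ?_⟩
    · rw [LinearMap.add_apply, map_add, hky', add_zero, hy1d, rs_one_pos, map_zero]
    · rw [DX_add, tx_add, add_add_add_comm, ← e', add_comm (DX π y1 + tx π y1), add_assoc, xx,
        add_zero]

/-- **C2a**: the kernel of the augmentation of the total Koszul complex is acyclic -/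
theorem tot {P A C : ℤ} {x : Q π →ₗ[K] R π} (hx : x ∈ Hg π P A C) (hc : DX π x + tx π x = 0)
    (h1 : kill π (x 1) = 0) :
    ∃ y ∈ Hg π P A (C + 1), kill π (y 1) = 0 ∧ x = DX π y + tx π y :=
  tot_aux π (C + 1).toNat 0 x (by push_cast; omega) hx hc h1 (fun w hw => by omega)

end Crest.Agent.R186.C2a667
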