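import Crest.Agent.R186.Frame_515

/-!
Row 186 (A) (helper162): duality of graded complexes over a field, elementary form.
A complex is a `K`-module `N` with pieces `gr : ℤ → Submodule K N`, projections `pr` and
`d : gr m → gr (m-1)`.
-/

set_option autoImplicit false
set_option linter.style.haveILetI false

open MulOpposite

namespace Crest.Agent.R186.FDual162

universe u v

variable {K : Type u} [Field K] {N : Type v} [AddCommGroup N] [Module K N]

/-- functionals of degree `k`: they kill all pieces of degree `≠ -k` -/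
def dgr (gr : ℤ → Submodule K N) (k : ℤ) : Submodule K (Module.Dual K N) where
  carrier := {f | ∀ j, j ≠ -k → ∀ x ∈ gr j, f x = 0}
  add_mem' := by
    intro f g hf hg j hj x hx
    rw [LinearMap.add_apply, hf j hj x hx, hg j hj x hx, add_zero]
  zero_mem' := fun _ _ _ _ => rfl
  smul_mem' := by
    intro r f hf j hj x hx
    rw [LinearMap.smul_apply, hf j hj x hx, smul_zero]

theorem mem_dgr {gr : ℤ → Submodule K N} {k : ℤ} {f : Module.Dual K N} :
    f ∈ dgr gr k ↔ ∀ j, j ≠ -k → ∀ x ∈ gr j, f x = 0 := Iff.rfl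

/-- a family of projections onto the pieces -/
structure PrG (gr : ℤ → Submodule K N) where
  pr : ℤ → N →ₗ[K] N
  same : ∀ {k x}, x ∈ gr k → pr k x = x
  diff : ∀ {k l x}, x ∈ gr k → l ≠ k → pr l x = 0

/-- the pieces span -/
def Spans (gr : ℤ → Submodule K N) : Prop := ∀ x : N, x ∈ ⨆ k, gr k

theorem ext_of_spans {gr : ℤ → Submodule K N} (hs : Spans gr) {M : Type*} [AddCommGroup M]
    [Module K M] {f g : N →ₗ[K] M} (h : ∀ k, ∀ x ∈ gr k, f x = g x) : f = g := by
  refine LinearMap.ext fun x => ?_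
  have hx := hs x
  induction hx using Submodule.iSup_induction' with
  | mem k x hx => exact h k x hx
  | zero => rw [map_zero, map_zero]
  | add x y _ _ h1 h2 => rw [map_add, map_add, h1, h2]

variable {gr : ℤ → Submodule K N} {d : N →ₗ[K] N}

theorem dgr_comp (hd : ∀ k, ∀ x ∈ gr k, d x ∈ gr (k - 1)) {k : ℤ} {f : Module.Dual K N}
    (hf : f ∈ dgr gr k) : f ∘ₗ d ∈ dgr gr (k - 1) := by
  intro j hj x hx
  exact hf (j - 1) (by omega) _ (hd j x hx)

/-- exactness of the dual in degree `k` from exactness in degree `-k` -/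
theorem dual_exact (P : PrG gr) (hs : Spans gr) (hd : ∀ k, ∀ x ∈ gr k, d x ∈ gr (k - 1))
    {k : ℤ} (hex : ∀ x ∈ gr (-k), d x = 0 → ∃ y ∈ gr (-k + 1), d y = x)
    {f : Module.Dual K N} (hf : f ∈ dgr gr k) (hfd : f ∘ₗ d = 0) :
    ∃ g ∈ dgr gr (k + 1), g ∘ₗ d = f := by
  let d' : gr (-k) →ₗ[K] N := d ∘ₗ (gr (-k)).subtype
  let f' : gr (-k) →ₗ[K] K := f ∘ₗ (gr (-k)).subtype
  have hker : LinearMap.ker d' ≤ LinearMap.ker f' := by
    intro x hx
    obtain ⟨y, -, hy⟩ := hex x x.2 hx
    change f (x : N) = 0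
    rw [← hy]
    exact LinearMap.congr_fun hfd y
  obtain ⟨g0, hg0⟩ : ∃ g0 : N →ₗ[K] K, g0 ∘ₗ d' = f' := by
    let q : LinearMap.range d' →ₗ[K] K :=
      (LinearMap.ker d').liftQ f' hker ∘ₗ (LinearMap.quotKerEquivRange d').symm.toLinearMap
    obtain ⟨g0, hg⟩ := LinearMap.exists_extend q
    refine ⟨g0, LinearMap.ext fun x => ?_⟩
    have h1 : g0 (d' x) = q ⟨d' x, x, rfl⟩ := LinearMap.congr_fun hg ⟨d' x, x, rfl⟩
    change g0 (d' x) = f' x
    rw [h1]
    change (LinearMap.ker d').liftQ f' hker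
      ((LinearMap.quotKerEquivRange d').symm ⟨d' x, x, rfl⟩) = f' x
    have h2 : (LinearMap.quotKerEquivRange d').symm ⟨d' x, x, rfl⟩ =
        Submodule.Quotient.mk x := by
      rw [LinearEquiv.symm_apply_eq]
      rfl
    rw [h2]
    rfl
  refine ⟨g0 ∘ₗ P.pr (-k - 1), ?_, ?_⟩
  · intro j hj x hx
    change g0 (P.pr (-k - 1) x) = 0
    rw [P.diff hx (by omega), map_zero]
  · refine ext_of_spans hs fun j x hx => ?_
    change g0 (P.pr (-k - 1) (d x)) = f x
    by_cases hj : j = -k
    · subst hj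
      rw [P.same (hd _ x hx)]
      exact LinearMap.congr_fun hg0 ⟨x, hx⟩
    · rw [P.diff (hd j x hx) (by omega), map_zero, hf j hj x hx]

/-- exactness in degree `m` from exactness of the dual in degree `-m` -/
theorem exact_of_dual (P : PrG gr) (hs : Spans gr) (hd : ∀ k, ∀ x ∈ gr k, d x ∈ gr (k - 1))
    {m : ℤ} (hex : ∀ f ∈ dgr gr (-m), f ∘ₗ d = 0 → ∃ g ∈ dgr gr (-m + 1), g ∘ₗ d = f)
    {x : N} (hx : x ∈ gr m) (hxd : d x = 0) : ∃ y ∈ gr (m + 1), d y = x := by
  by_contra hne
  have h1 : x ∉ (gr (m + 1)).map d := fun h => hne (by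
    obtain ⟨y, hy, he⟩ := h
    exact ⟨y, hy, he⟩)
  obtain ⟨f0, hf0, hf1⟩ : ∃ f0 : Module.Dual K N, f0 x ≠ 0 ∧
      ∀ y ∈ (gr (m + 1)).map d, f0 y = 0 := by
    obtain ⟨f0, h2, h3⟩ := Submodule.exists_dual_map_eq_bot_of_notMem h1 inferInstance
    refine ⟨f0, h2, fun y hy => ?_⟩
    have h4 : f0 y ∈ Submodule.map f0 ((gr (m + 1)).map d) := ⟨y, hy, rfl⟩
    rw [h3] at h4
    exact (Submodule.mem_bot K).1 h4
  have hf : f0 ∘ₗ P.pr m ∈ dgr gr (-m) := by
    intro j hj y hy
    change f0 (P.pr m y) = 0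
    rw [P.diff hy (by omega), map_zero]
  have hfd : (f0 ∘ₗ P.pr m) ∘ₗ d = 0 := by
    refine ext_of_spans hs fun j y hy => ?_
    change f0 (P.pr m (d y)) = 0
    by_cases hj : j = m + 1
    · subst hj
      have h5 : d y ∈ gr m := by
        have h6 := hd _ y hy
        rwa [show m + 1 - 1 = m by ring] at h6
      rw [P.same h5]
      exact hf1 _ ⟨y, hy, rfl⟩
    · rw [P.diff (hd j y hy) (by omega), map_zero]
  obtain ⟨g, -, hg⟩ := hex _ hf hfd
  apply hf0
  have h7 := LinearMap.congr_fun hg x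
  change g (d x) = f0 (P.pr m x) at h7
  rw [hxd, map_zero, P.same hx] at h7
  exact h7.symm


/-! ### complexes -/

section gc

open Frame515

variable {K : Type} [Field K]

/-- the dual complex -/
def dual (X : GC K) : GC K where
  X := Module.Dual K X.X
  gr := dgr X.gr
  d := X.d.dualMap
  d_mem := fun hf => dgr_comp (fun _ _ hx => X.d_mem hx) hf
  d_d f := by
    refine LinearMap.ext fun x => ?_
    change f (X.d (X.d x)) = 0
    rw [X.d_d, map_zero]

theorem dual_d (X : GC K) (f : (dual X).X) (x : X.X) :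
    (show Module.Dual K X.X from (dual X).d f) x = (show Module.Dual K X.X from f) (X.d x) := rfl

theorem mem_dual {X : GC K} {k : ℤ} {f : Module.Dual K X.X} :
    f ∈ (dual X).gr k ↔ ∀ j, j ≠ -k → ∀ x ∈ X.gr j, f x = 0 := Iff.rfl

/-- **duality of acyclicity, degree by degree** -/
theorem dual_ac_at {X : GC K} (P : PrG X.gr) (hs : Spans X.gr) {k : ℤ}
    (h : ∀ x ∈ X.gr (-k), X.d x = 0 → ∃ y ∈ X.gr (-k + 1), X.d y = x) {f : Module.Dual K X.X}
    (hf : f ∈ (dual X).gr k) (hfd : (dual X).d f = 0) :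
    ∃ g ∈ (dual X).gr (k + 1), (dual X).d g = f :=
  dual_exact P hs (fun _ _ hx => X.d_mem hx) h hf hfd

theorem ac_at_of_dual {X : GC K} (P : PrG X.gr) (hs : Spans X.gr) {m : ℤ}
    (h : ∀ f ∈ (dual X).gr (-m), (dual X).d f = 0 → ∃ g ∈ (dual X).gr (-m + 1), (dual X).d g = f)
    {x : X.X} (hx : x ∈ X.gr m) (hxd : X.d x = 0) : ∃ y ∈ X.gr (m + 1), X.d y = x :=
  exact_of_dual P hs (fun _ _ hx => X.d_mem hx) h hx hxd

theorem dual_ac {X : GC K} (P : PrG X.gr) (hs : Spans X.gr) (h : Ac X) : Ac (dual X) :=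
  fun _ _ hf hfd => dual_ac_at P hs (fun x hx hxd => h _ x hx hxd) hf hfd

theorem ac_of_dual {X : GC K} (P : PrG X.gr) (hs : Spans X.gr) (h : Ac (dual X)) : Ac X :=
  fun _ _ hx hxd => ac_at_of_dual P hs (fun f hf hfd => h _ f hf hfd) hx hxd

/-- **a complex is acyclic iff its dual is** -/
theorem dual_ac_iff {X : GC K} (P : PrG X.gr) (hs : Spans X.gr) : Ac (dual X) ↔ Ac X :=
  ⟨ac_of_dual P hs, dual_ac P hs⟩

/-! ### cones -/

/-- the cone -/
def cone {X Y : GC K} (φ : GCHom X Y) : GC K where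
  X := X.X × Y.X
  gr k := (X.gr (k - 1)).prod (Y.gr k)
  d := LinearMap.prod (-(X.d ∘ₗ LinearMap.fst K _ _))
    (φ.f ∘ₗ LinearMap.fst K _ _ + Y.d ∘ₗ LinearMap.snd K _ _)
  d_mem := by
    rintro k ⟨x, y⟩ ⟨hx, hy⟩
    exact ⟨Submodule.neg_mem _ (X.d_mem hx), Submodule.add_mem _ (φ.f_mem hx) (Y.d_mem hy)⟩
  d_d := by
    rintro ⟨x, y⟩
    refine Prod.ext ?_ ?_
    · change -(X.d (-(X.d x))) = 0
      rw [map_neg, X.d_d, neg_zero, neg_zero]
    · change φ.f (-(X.d x)) + Y.d (φ.f x + Y.d y) = 0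
      rw [map_neg, map_add, Y.d_d, φ.f_d, add_zero, neg_add_cancel]

theorem cone_d {X Y : GC K} (φ : GCHom X Y) (x : X.X) (y : Y.X) :
    (cone φ).d ((x, y) : X.X × Y.X) = ((-(X.d x), φ.f x + Y.d y) : X.X × Y.X) := rfl

theorem mem_cone {X Y : GC K} {φ : GCHom X Y} {k : ℤ} {x : X.X} {y : Y.X} :
    ((x, y) : X.X × Y.X) ∈ (cone φ).gr k ↔ x ∈ X.gr (k - 1) ∧ y ∈ Y.gr k := Iff.rfl

/-- a map is a quasi-isomorphism iff its cone is acyclic -/
theorem qi_iff {X Y : GC K} (φ : GCHom X Y) : QI φ ↔ Ac (cone φ) := by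
  constructor
  · rintro ⟨hs, hi⟩ k ⟨x, y⟩ ⟨hx, hy⟩ hd
    have h1 : -(X.d x) = 0 := congrArg Prod.fst hd
    have h2 : φ.f x + Y.d y = 0 := congrArg Prod.snd hd
    have h1' : X.d x = 0 := neg_eq_zero.1 h1
    change x ∈ X.gr (k - 1) at hx
    change y ∈ Y.gr k at hy
    obtain ⟨w, hw, hxw⟩ := hi _ x hx h1' ⟨-y, by
      rw [sub_add_cancel]
      exact Submodule.neg_mem _ hy, by
      rw [map_neg]
      exact eq_neg_of_add_eq_zero_left h2⟩
    rw [sub_add_cancel] at hw
    obtain ⟨x', hx', hxd', z, hz, hyz⟩ := hs k (φ.f w + y)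
      (Submodule.add_mem _ (φ.f_mem hw) hy) (by rw [map_add, ← φ.f_d, ← hxw, h2])
    refine ⟨((x' - w, z) : X.X × Y.X), ?_, ?_⟩
    · refine ⟨?_, hz⟩
      change x' - w ∈ X.gr (k + 1 - 1)
      rw [add_sub_cancel_right]
      exact Submodule.sub_mem _ hx' hw
    · rw [cone_d]
      refine Prod.ext ?_ ?_
      · change -(X.d (x' - w)) = x
        rw [map_sub, hxd', ← hxw, zero_sub, neg_neg]
      · change φ.f (x' - w) + Y.d z = y
        rw [map_sub]
        have : y = φ.f x' + Y.d z - φ.f w := by rw [← hyz, add_sub_cancel_left]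
        rw [this]
        abel
  · intro h
    constructor
    · intro k y hy hyd
      obtain ⟨⟨a, b⟩, ⟨ha, hb⟩, hab⟩ := h k ((0, y) : X.X × Y.X)
        ⟨Submodule.zero_mem _, hy⟩ (by
          rw [cone_d]
          refine Prod.ext ?_ ?_
          · change -(X.d 0) = 0
            rw [map_zero, neg_zero]
          · change φ.f 0 + Y.d y = 0
            rw [map_zero, zero_add, hyd])
      change a ∈ X.gr (k + 1 - 1) at ha
      rw [add_sub_cancel_right] at ha
      rw [cone_d] at hab
      have h1 : -(X.d a) = 0 := congrArg Prod.fst hab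
      have h2 : φ.f a + Y.d b = y := congrArg Prod.snd hab
      exact ⟨a, ha, neg_eq_zero.1 h1, b, hb, h2.symm⟩
    · rintro k x hx hxd ⟨z, hz, hxz⟩
      obtain ⟨⟨a, b⟩, ⟨ha, hb⟩, hab⟩ := h (k + 1) ((x, -z) : X.X × Y.X)
        ⟨by
          change x ∈ X.gr (k + 1 - 1)
          rwa [add_sub_cancel_right], Submodule.neg_mem _ hz⟩ (by
          rw [cone_d]
          refine Prod.ext ?_ ?_
          · change -(X.d x) = 0
            rw [hxd, neg_zero]
          · change φ.f x + Y.d (-z) = 0
            rw [map_neg, hxz, add_neg_cancel])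
      change a ∈ X.gr (k + 1 + 1 - 1) at ha
      rw [add_sub_cancel_right] at ha
      rw [cone_d] at hab
      have h1 : -(X.d a) = x := congrArg Prod.fst hab
      exact ⟨-a, Submodule.neg_mem _ ha, by rw [map_neg, h1]⟩

/-- the dual map -/
def dualMap {X Y : GC K} (φ : GCHom X Y) : GCHom (dual Y) (dual X) where
  f := φ.f.dualMap
  f_mem := by
    intro k f hf j hj x hx
    exact hf j hj _ (φ.f_mem hx)
  f_d f := by
    refine LinearMap.ext fun x => ?_
    change (show Module.Dual K Y.X from f) (Y.d (φ.f x)) =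
      (show Module.Dual K Y.X from f) (φ.f (X.d x))
    rw [φ.f_d]

theorem dualMap_apply {X Y : GC K} (φ : GCHom X Y) (f : (dual Y).X) (x : X.X) :
    (show Module.Dual K X.X from (dualMap φ).f f) x = (show Module.Dual K Y.X from f) (φ.f x) :=
  rfl

/-- projections on a cone -/
def prCone {X Y : GC K} (φ : GCHom X Y) (P : PrG X.gr) (Q : PrG Y.gr) : PrG (cone φ).gr where
  pr k := LinearMap.prodMap (P.pr (k - 1)) (Q.pr k)
  same := by
    rintro k ⟨x, y⟩ ⟨hx, hy⟩
    exact Prod.ext (P.same hx) (Q.same hy)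
  diff := by
    rintro k l ⟨x, y⟩ ⟨hx, hy⟩ hl
    exact Prod.ext (P.diff hx (by omega)) (Q.diff hy hl)

theorem spans_cone {X Y : GC K} (φ : GCHom X Y) (h : Spans X.gr) (h' : Spans Y.gr) :
    Spans (cone φ).gr := by
  let S : Submodule K (X.X × Y.X) := ⨆ k, (cone φ).gr k
  have h1 : ∀ x : X.X, ((x, 0) : X.X × Y.X) ∈ S := by
    intro x
    have hx := h x
    induction hx using Submodule.iSup_induction' with
    | mem k x hx =>
      refine (le_iSup (cone φ).gr (k + 1) : _ ≤ S) ⟨?_, Submodule.zero_mem _⟩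
      change x ∈ X.gr (k + 1 - 1)
      rwa [add_sub_cancel_right]
    | zero => exact Submodule.zero_mem _
    | add x x' _ _ h1 h2 =>
      have := Submodule.add_mem S h1 h2
      rwa [Prod.mk_add_mk, add_zero] at this
  have h2 : ∀ y : Y.X, ((0, y) : X.X × Y.X) ∈ S := by
    intro y
    have hy := h' y
    induction hy using Submodule.iSup_induction' with
    | mem k y hy => exact (le_iSup (cone φ).gr k : _ ≤ S) ⟨Submodule.zero_mem _, hy⟩
    | zero => exact Submodule.zero_mem _
    | add x x' _ _ h1 h2 =>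
      have := Submodule.add_mem S h1 h2
      rwa [Prod.mk_add_mk, add_zero] at this
  rintro ⟨x, y⟩
  have := Submodule.add_mem S (h1 x) (h2 y)
  rwa [Prod.mk_add_mk, add_zero, zero_add] at this

/-- `(g, f) ↦ f - g` -/
def tw {X Y : GC K} (g : Module.Dual K Y.X) (f : Module.Dual K X.X) :
    Module.Dual K (X.X × Y.X) := f ∘ₗ LinearMap.fst K _ _ - g ∘ₗ LinearMap.snd K _ _

theorem tw_mem {X Y : GC K} (φ : GCHom X Y) {k : ℤ} {g : Module.Dual K Y.X}
    {f : Module.Dual K X.X} (hg : g ∈ (dual Y).gr (k - 1)) (hf : f ∈ (dual X).gr k) :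
    tw g f ∈ (dual (cone φ)).gr (k - 1) := by
  rintro j hj ⟨x, y⟩ ⟨hx, hy⟩
  change f x - g y = 0
  rw [hf (j - 1) (by omega) x hx, hg j (by omega) y hy, sub_zero]

theorem tw_inl {X Y : GC K} (φ : GCHom X Y) {k : ℤ} {u : Module.Dual K (X.X × Y.X)}
    (hu : u ∈ (dual (cone φ)).gr (k - 1)) : u ∘ₗ LinearMap.inl K _ _ ∈ (dual X).gr k := by
  intro j hj x hx
  refine hu (j + 1) (by omega) ((x, 0) : X.X × Y.X) ⟨?_, Submodule.zero_mem _⟩
  change x ∈ X.gr (j + 1 - 1)
  rwa [add_sub_cancel_right]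

theorem tw_inr {X Y : GC K} (φ : GCHom X Y) {k : ℤ} {u : Module.Dual K (X.X × Y.X)}
    (hu : u ∈ (dual (cone φ)).gr (k - 1)) : u ∘ₗ LinearMap.inr K _ _ ∈ (dual Y).gr (k - 1) := by
  intro j hj y hy
  exact hu j hj ((0, y) : X.X × Y.X) ⟨Submodule.zero_mem _, hy⟩

theorem ac_cone_dual {X Y : GC K} (φ : GCHom X Y) (h : Ac (dual (cone φ))) :
    Ac (cone (dualMap φ)) := by
  rintro k ⟨g, f⟩ ⟨hg, hf⟩ hd
  change Module.Dual K Y.X at g
  change Module.Dual K X.X at f
  have h1 : ∀ y : Y.X, g (Y.d y) = 0 := fun y => by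
    have := LinearMap.congr_fun (f := ((-(g ∘ₗ Y.d)) : Module.Dual K Y.X)) (g := 0)
      (congrArg Prod.fst hd) y
    exact neg_eq_zero.1 this
  have h2 : ∀ x : X.X, g (φ.f x) + f (X.d x) = 0 := fun x =>
    LinearMap.congr_fun (f := (g ∘ₗ φ.f + f ∘ₗ X.d : Module.Dual K X.X)) (g := 0)
      (congrArg Prod.snd hd) x
  obtain ⟨w, hw, hwu⟩ := h (k - 1) (tw g f) (tw_mem φ hg hf) (by
    refine LinearMap.ext fun z => ?_
    change f (-(X.d z.1)) - g (φ.f z.1 + Y.d z.2) = 0
    rw [map_neg, map_add, h1, add_zero, ← neg_add', add_comm, h2, neg_zero])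
  change Module.Dual K (X.X × Y.X) at w
  have hwu' : ∀ (x : X.X) (y : Y.X), w (-(X.d x), φ.f x + Y.d y) = f x - g y := fun x y =>
    LinearMap.congr_fun (f := w ∘ₗ (cone φ).d) (g := tw g f) hwu (x, y)
  have hw' : w ∈ (dual (cone φ)).gr (k + 1 - 1) := by
    rw [sub_add_cancel] at hw
    rwa [add_sub_cancel_right]
  refine ⟨((w ∘ₗ LinearMap.inr K X.X Y.X, -(w ∘ₗ LinearMap.inl K X.X Y.X)) :
    Module.Dual K Y.X × Module.Dual K X.X), ⟨tw_inr φ hw', Submodule.neg_mem _ (tw_inl φ hw')⟩, ?_⟩
  refine Prod.ext (LinearMap.ext fun y => ?_) (LinearMap.ext fun x => ?_)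
  · change -(w (0, Y.d y)) = g y
    have h3 := hwu' 0 y
    rw [map_zero, map_zero, map_zero, neg_zero, zero_add, zero_sub] at h3
    rw [h3, neg_neg]
  · change w (0, φ.f x) + -(w (X.d x, 0)) = f x
    have h3 := hwu' x 0
    rw [map_zero, map_zero, add_zero, sub_zero] at h3
    rw [← h3, ← map_neg, ← map_add]
    congr 1
    exact Prod.ext (by rw [Prod.fst_add, Prod.fst_neg, zero_add])
      (by rw [Prod.snd_add, Prod.snd_neg, neg_zero, add_zero])

theorem ac_dual_cone {X Y : GC K} (φ : GCHom X Y) (h : Ac (cone (dualMap φ))) :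
    Ac (dual (cone φ)) := by
  intro k u hu hd
  change Module.Dual K (X.X × Y.X) at u
  have hd' : ∀ (x : X.X) (y : Y.X), u (-(X.d x), φ.f x + Y.d y) = 0 := fun x y =>
    LinearMap.congr_fun (f := u ∘ₗ (cone φ).d) (g := 0) hd (x, y)
  have hu' : u ∈ (dual (cone φ)).gr (k + 1 - 1) := by rwa [add_sub_cancel_right]
  obtain ⟨⟨g, f⟩, ⟨hg, hf⟩, hgf⟩ := h (k + 1)
    ((u ∘ₗ LinearMap.inr K X.X Y.X, -(u ∘ₗ LinearMap.inl K X.X Y.X)) :
      Module.Dual K Y.X × Module.Dual K X.X) ⟨tw_inr φ hu', Submodule.neg_mem _ (tw_inl φ hu')⟩ (by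
    refine Prod.ext (LinearMap.ext fun y => ?_) (LinearMap.ext fun x => ?_)
    · change -(u (0, Y.d y)) = 0
      have h3 := hd' 0 y
      rw [map_zero, map_zero, neg_zero, zero_add] at h3
      rw [h3, neg_zero]
    · change u (0, φ.f x) + -(u (X.d x, 0)) = 0
      have h3 := hd' x 0
      rw [map_zero, add_zero] at h3
      rw [← h3, ← map_neg, ← map_add]
      congr 1
      exact Prod.ext (by rw [Prod.fst_add, Prod.fst_neg, zero_add])
        (by rw [Prod.snd_add, Prod.snd_neg, neg_zero, add_zero]))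
  change Module.Dual K Y.X at g
  change Module.Dual K X.X at f
  have h1 : ∀ y : Y.X, -(g (Y.d y)) = u (0, y) := fun y =>
    LinearMap.congr_fun (f := ((-(g ∘ₗ Y.d)) : Module.Dual K Y.X))
      (g := u ∘ₗ LinearMap.inr K X.X Y.X) (congrArg Prod.fst hgf) y
  have h2 : ∀ x : X.X, g (φ.f x) + f (X.d x) = -(u (x, 0)) := fun x =>
    LinearMap.congr_fun (f := (g ∘ₗ φ.f + f ∘ₗ X.d : Module.Dual K X.X))
      (g := -(u ∘ₗ LinearMap.inl K X.X Y.X)) (congrArg Prod.snd hgf) x
  have hm := tw_mem φ (k := k + 1 + 1) (g := g) (f := f) hg hf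
  rw [add_sub_cancel_right] at hm
  refine ⟨tw g f, hm, ?_⟩
  refine LinearMap.ext fun z => ?_
  obtain ⟨x, y⟩ := z
  change f (-(X.d x)) - g (φ.f x + Y.d y) = u (x, y)
  have h4 : u (x, y) = u (x, 0) + u (0, y) := by
    rw [← map_add]
    congr 1
    exact Prod.ext (by rw [Prod.fst_add, add_zero]) (by rw [Prod.snd_add, zero_add])
  have h5 := h2 x
  have h6 : f (X.d x) = -(u (x, 0)) - g (φ.f x) := eq_sub_of_add_eq' h5
  rw [h4, ← h1, map_neg, map_add, h6]
  ring

/-- **quasi-isomorphisms are preserved and detected by duality** -/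
theorem qi_dual_iff {X Y : GC K} (φ : GCHom X Y) (P : PrG X.gr) (Q : PrG Y.gr)
    (h : Spans X.gr) (h' : Spans Y.gr) : QI (dualMap φ) ↔ QI φ := by
  rw [qi_iff, qi_iff, ← dual_ac_iff (prCone φ P Q) (spans_cone φ h h')]
  exact ⟨ac_dual_cone φ, ac_cone_dual φ⟩

/-! ### dual modules -/

open Hat827 Hat827.DGA

variable {A : DGA K}

theorem LM.dbl (N : LM A) (x : N.X) : x + x = 0 := by
  have : x = (1 : A.C) • x := by rw [one_smul]
  rw [this, ← add_smul, A.two, zero_smul]

theorem RM.dbl (N : RM A) (x : N.X) : x + x = 0 := by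
  have : x = op (1 : A.C) • x := by rw [op_one, one_smul]
  rw [this, ← add_smul, ← op_add, A.two, op_zero, zero_smul]

/-- the `K`-dual of a left module -/
def dRM (N : LM A) : RM A where
  toGC := dual N.toGC
  act :=
    { smul := fun b f => (show Module.Dual K N.X from f) ∘ₗ lmul N b.unop
      one_smul := fun f => LinearMap.ext fun x => by
        change (show Module.Dual K N.X from f) ((1 : A.C) • x) = _
        rw [one_smul]
      mul_smul := fun b c f => LinearMap.ext fun x => by
        change (show Module.Dual K N.X from f) ((c.unop * b.unop) • x) =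
          (show Module.Dual K N.X from f) (c.unop • (b.unop • x))
        rw [mul_smul]
      smul_zero := fun b => LinearMap.ext fun x => rfl
      smul_add := fun b f g => LinearMap.ext fun x => rfl
      add_smul := fun b c f => LinearMap.ext fun x => by
        change (show Module.Dual K N.X from f) ((b.unop + c.unop) • x) =
          (show Module.Dual K N.X from f) (b.unop • x) + (show Module.Dual K N.X from f) (c.unop • x)
        rw [add_smul, map_add]
      zero_smul := fun f => LinearMap.ext fun x => by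
        change (show Module.Dual K N.X from f) ((0 : A.C) • x) = 0
        rw [zero_smul, map_zero] }
  tower := by
    letI : SMul A.Cᵐᵒᵖ (dual N.toGC).X :=
      ⟨fun b f => (show Module.Dual K N.X from f) ∘ₗ lmul N b.unop⟩
    refine ⟨fun r b f => LinearMap.ext fun x => ?_⟩
    change (show Module.Dual K N.X from f) ((r • b.unop) • x) =
      r • (show Module.Dual K N.X from f) (b.unop • x)
    rw [smul_assoc, map_smul]
  smul_mem := by
    intro k l a f ha hf j hj x hx
    exact hf (k + j) (by omega) _ (N.smul_mem ha hx)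
  leib a f := LinearMap.ext fun x => by
    change (show Module.Dual K N.X from f) (a • N.d x) =
      (show Module.Dual K N.X from f) (A.D a • x) +
        (show Module.Dual K N.X from f) (N.d (a • x))
    rw [← map_add, N.leib, ← add_assoc, LM.dbl, zero_add]

theorem dRM_smul (N : LM A) (a : A.C) (f : (dRM N).X) (x : N.X) :
    (show Module.Dual K N.X from op a • f) x = (show Module.Dual K N.X from f) (a • x) := rfl

theorem dRM_toGC (N : LM A) : (dRM N).toGC = dual N.toGC := rfl

/-- the `K`-dual of a right module -/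
def dLM (G : RM A) : LM A where
  toGC := dual G.toGC
  act :=
    { smul := fun b f => (show Module.Dual K G.X from f) ∘ₗ rmul G b
      one_smul := fun f => LinearMap.ext fun x => by
        change (show Module.Dual K G.X from f) (op (1 : A.C) • x) = _
        rw [op_one, one_smul]
      mul_smul := fun b c f => LinearMap.ext fun x => by
        change (show Module.Dual K G.X from f) (op (b * c) • x) =
          (show Module.Dual K G.X from f) (op c • (op b • x))
        rw [op_mul, mul_smul]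
      smul_zero := fun b => LinearMap.ext fun x => rfl
      smul_add := fun b f g => LinearMap.ext fun x => rfl
      add_smul := fun b c f => LinearMap.ext fun x => by
        change (show Module.Dual K G.X from f) (op (b + c) • x) =
          (show Module.Dual K G.X from f) (op b • x) + (show Module.Dual K G.X from f) (op c • x)
        rw [op_add, add_smul, map_add]
      zero_smul := fun f => LinearMap.ext fun x => by
        change (show Module.Dual K G.X from f) (op (0 : A.C) • x) = 0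
        rw [op_zero, zero_smul, map_zero] }
  tower := by
    letI : SMul A.C (dual G.toGC).X :=
      ⟨fun b f => (show Module.Dual K G.X from f) ∘ₗ rmul G b⟩
    refine ⟨fun r b f => LinearMap.ext fun x => ?_⟩
    change (show Module.Dual K G.X from f) (op (r • b) • x) =
      r • (show Module.Dual K G.X from f) (op b • x)
    rw [op_smul, smul_assoc, map_smul]
  smul_mem := by
    intro k l a f ha hf j hj x hx
    exact hf (k + j) (by omega) _ (G.smul_mem ha hx)
  leib a f := LinearMap.ext fun x => by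
    change (show Module.Dual K G.X from f) (op a • G.d x) =
      (show Module.Dual K G.X from f) (op (A.D a) • x) +
        (show Module.Dual K G.X from f) (G.d (op a • x))
    rw [← map_add, G.leib, ← add_assoc, RM.dbl, zero_add]

theorem dLM_smul (G : RM A) (a : A.C) (f : (dLM G).X) (x : G.X) :
    (show Module.Dual K G.X from a • f) x = (show Module.Dual K G.X from f) (op a • x) := rfl

theorem dLM_toGC (G : RM A) : (dLM G).toGC = dual G.toGC := rfl

/-- the dual of an `A`-linear map is `A`-linear -/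
theorem dRM_map {N N' : LM A} (φ : GCHom N.toGC N'.toGC) (hφ : ∀ (a : A.C) x, φ.f (a • x) = a • φ.f x)
    (a : A.C) (f : (dRM N').X) :
    (show (dRM N).X from (dualMap φ).f (show (dual N'.toGC).X from (op a • f : (dRM N').X))) =
      op a • (show (dRM N).X from (dualMap φ).f (show (dual N'.toGC).X from f)) := by
  refine LinearMap.ext fun x => ?_
  change (show Module.Dual K N'.X from f) (a • φ.f x) =
    (show Module.Dual K N'.X from f) (φ.f (a • x))
  rw [hφ]

/-- the dual of an `A`-linear map is `A`-linear -/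
theorem dLM_map {G G' : RM A} (φ : GCHom G.toGC G'.toGC)
    (hφ : ∀ (a : A.C) x, φ.f (op a • x) = op a • φ.f x) (a : A.C) (f : (dLM G').X) :
    (show (dLM G).X from (dualMap φ).f (show (dual G'.toGC).X from (a • f : (dLM G').X))) =
      a • (show (dLM G).X from (dualMap φ).f (show (dual G'.toGC).X from f)) := by
  refine LinearMap.ext fun x => ?_
  change (show Module.Dual K G'.X from f) (op a • φ.f x) =
    (show Module.Dual K G'.X from f) (φ.f (op a • x))
  rw [hφ]

/-! ### the bidual -/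

theorem pr_mem {X : GC K} (P : PrG X.gr) (hs : Spans X.gr) (k : ℤ) (x : X.X) :
    P.pr k x ∈ X.gr k := by
  have hx := hs x
  induction hx using Submodule.iSup_induction' with
  | mem l x hx =>
    by_cases h : k = l
    · subst h
      rwa [P.same hx]
    · rw [P.diff hx h]
      exact Submodule.zero_mem _
  | zero =>
    rw [map_zero]
    exact Submodule.zero_mem _
  | add x y _ _ h1 h2 =>
    rw [map_add]
    exact Submodule.add_mem _ h1 h2

/-- an element all of whose other components vanish is homogeneous -/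
theorem mem_of_pr {X : GC K} (P : PrG X.gr) (hs : Spans X.gr) {k : ℤ} {x : X.X}
    (h : ∀ l, l ≠ k → P.pr l x = 0) : x ∈ X.gr k := by
  have key : ∀ x : X.X, ∃ S : Finset ℤ, x = ∑ l ∈ S, P.pr l x := by
    intro x
    have h1 : ∀ x : X.X, ∃ S : Finset ℤ, ∀ T : Finset ℤ, S ⊆ T → x = ∑ l ∈ T, P.pr l x := by
      intro x
      have hx := hs x
      induction hx using Submodule.iSup_induction' with
      | mem l x hx =>
        refine ⟨{l}, fun T hT => ?_⟩
        rw [Finset.sum_eq_single l (fun j _ hj => P.diff hx hj)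
          (fun hl => absurd (hT (Finset.mem_singleton_self l)) hl), P.same hx]
      | zero => exact ⟨∅, fun T _ => by simp⟩
      | add x y _ _ h1 h2 =>
        obtain ⟨S, hS⟩ := h1
        obtain ⟨S', hS'⟩ := h2
        refine ⟨S ∪ S', fun T hT => ?_⟩
        simp only [map_add, Finset.sum_add_distrib]
        rw [← hS T (Finset.union_subset_left hT), ← hS' T (Finset.union_subset_right hT)]
    obtain ⟨S, hS⟩ := h1 x
    exact ⟨S, hS S (Finset.Subset.refl _)⟩
  obtain ⟨S, hS⟩ := key x
  rw [hS]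
  refine Submodule.sum_mem _ fun l _ => ?_
  by_cases hl : l = k
  · subst hl
    exact pr_mem P hs _ x
  · rw [h l hl]
    exact Submodule.zero_mem _

/-- evaluation `N → D D N` -/
def evl (X : GC K) : GCHom X (dual (dual X)) where
  f := Module.Dual.eval K X.X
  f_mem := by
    intro k x hx j hj f hf
    exact hf k (by omega) x hx
  f_d x := rfl

theorem evl_mem_iff {X : GC K} (P : PrG X.gr) (hs : Spans X.gr) {k : ℤ} {x : X.X} :
    (evl X).f x ∈ (dual (dual X)).gr k ↔ x ∈ X.gr k := by
  refine ⟨fun h => mem_of_pr P hs fun l hl => ?_, (evl X).f_mem⟩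
  rw [← Module.forall_dual_apply_eq_zero_iff K]
  intro f
  refine h (-l) (by omega) (f ∘ₗ P.pr l) ?_
  intro j hj y hy
  change f (P.pr l y) = 0
  rw [P.diff hy (by omega), map_zero]

theorem evl_bij (X : GC K) [FiniteDimensional K X.X] : Function.Bijective (evl X).f :=
  Module.bijective_dual_eval K X.X

/-- projections on the dual -/
def prDual {X : GC K} (P : PrG X.gr) (hs : Spans X.gr) : PrG (dual X).gr where
  pr k := (P.pr (-k)).dualMap
  same := by
    intro k f hf
    refine LinearMap.ext fun x => ?_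
    change (show Module.Dual K X.X from f) (P.pr (-k) x) = (show Module.Dual K X.X from f) x
    have hx := hs x
    induction hx using Submodule.iSup_induction' with
    | mem l x hx =>
      by_cases h : -k = l
      · subst h
        rw [P.same hx]
      · rw [P.diff hx h, map_zero]
        exact (hf l (fun h' => h h'.symm) x hx).symm
    | zero => rw [map_zero]
    | add x y _ _ h1 h2 => rw [map_add, map_add, map_add, h1, h2]
  diff := by
    intro k l f hf hl
    refine LinearMap.ext fun x => ?_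
    exact hf (-l) (by omega) _ (pr_mem P hs _ _)

/-- the dual of a complex with finitely many degrees is spanned by its pieces -/
theorem spans_dual {X : GC K} (P : PrG X.gr) (S : Finset ℤ) (hS : ∀ x, x = ∑ l ∈ S, P.pr l x) :
    Spans (dual X).gr := by
  intro f
  have h : f = ∑ l ∈ S, (P.pr l).dualMap f := by
    refine LinearMap.ext fun x => ?_
    have h1 : (show Module.Dual K X.X from f) x =
        ∑ l ∈ S, (show Module.Dual K X.X from f) (P.pr l x) := by
      rw [← map_sum, ← hS x]
    refine Eq.trans h1 ?_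
    exact (LinearMap.sum_apply S (fun l => (P.pr l).dualMap (show Module.Dual K X.X from f)) x).symm
  rw [h]
  refine Submodule.sum_mem _ fun l _ => Submodule.mem_iSup_of_mem (-l) ?_
  intro j hj x hx
  change (show Module.Dual K X.X from f) (P.pr l x) = 0
  rw [P.diff hx (by omega), map_zero]

end gc

end Crest.Agent.R186.FDual162
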