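import Crest.Agent.R186.VJ_75
import Crest.Agent.R186.FinV_988
import Crest.Agent.R186.FDual_162

/-!
Row 186 (A) (helper75): `VJ_75.z_join` in the literal form of 988's `hT` and 667's `c3_ex`.
-/

set_option autoImplicit false
set_option linter.style.haveILetI false
set_option linter.unusedSectionVars false

open MulOpposite

namespace Crest.Agent.R186.VK75

open Hat827 Hat827.DGA Frame515 Res255 AcIff492 VJ75 FinV988

variable {K : Type} [Field K]

section iso

variable {A : DGA K} {G G' : RM A}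

/-- isomorphic right modules -/
theorem z_iso (φ : GCHom G.toGC G'.toGC) (h : ∀ (a : A.C) (x : G.X), φ.f (op a • x) = op a • φ.f x)
    (h1 : ∀ k, ∀ x ∈ G.gr k, φ.f x = 0 → x = 0) (h2 : ∀ k, ∀ y ∈ G'.gr k, ∃ x ∈ G.gr k, φ.f x = y)
    (X : LCells A) (k : ℤ) : Z (tG G X) k ↔ Z (tG G' X) k := by
  have two : ∀ x : G.X, x + x = 0 := two_R G
  exact TB143.QI.z_iff ((TB143.TwHom.qi (T := twG G X) (T' := twG G' X)
    { φ := φ, j := Equiv.refl _, hs := fun _ => rfl, hp := fun _ _ => h _ _,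
      hm := fun _ _ _ => h _ _ }) two (TB143.QI.of_bij h1 h2)) k

end iso

section dual

variable {A A'' : DGA K} (i : Hm A'' A) (p : Hm A A'') (hpi : ∀ a, p.f (i.f a) = a) (N : LM A'')

/-- `DR N → resR i (DR (resL p N))`, the identity -/
noncomputable def idD : GCHom (DR N).toGC (resR i (DR (resL p N))).toGC where
  f := LinearMap.id
  f_mem h := h
  f_d _ := rfl

include hpi in
theorem idD_lin (a : A''.C) (x : (DR N).X) :
    (idD i p N).f (op a • x) = op a • (idD i p N).f x := by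
  refine LinearMap.ext fun z => ?_
  let z' : N.X := z
  let x' : N.X →ₗ[K] K := x
  change x' (a • z') = x' (p.f (i.f a) • z')
  rw [hpi]

include hpi in
theorem z_DR (X : LCells A'') (k : ℤ) :
    Z (tG (DR N) X) k ↔ Z (tG (resR i (DR (resL p N))) X) k :=
  z_iso (idD i p N) (idD_lin i p hpi N) (fun _ _ _ h => h) (fun _ y hy => ⟨y, hy, rfl⟩) X k

/-- `dRM N → DR N` (162's dual to 988's dual) -/
noncomputable def idF : GCHom (FDual162.dRM N).toGC (DR N).toGC where
  f := LinearMap.id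
  f_mem h := fun l z hz hl => h l hl z hz
  f_d _ := rfl

theorem z_dRM (X : LCells A'') (k : ℤ) :
    Z (tG (FDual162.dRM N) X) k ↔ Z (tG (DR N) X) k :=
  z_iso (idF N) (fun _ _ => rfl) (fun _ _ _ h => h)
    (fun _ y hy => ⟨y, fun l hl z hz => hy l z hz hl, rfl⟩) X k

variable {i p N}

/-- **988's `hT`** from the acyclicity of `(Y ⊗ M) ⊗ X''` and `C3` over `A''` -/
theorem hT_of (hpi : ∀ a, p.f (i.f a) = a) {M : BM A A''}
    (T : BSES M (resBR i (selfB A)) (resBL p (selfB A'')))
    {X'' : LCells A''} (RX'' : LRes X'' N) {X : LCells A} (RX : LRes X (resL p N))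
    {Y : RCells A} (RY : RRes Y (DR (resL p N))) (h1 : RX''.lo = RX.lo)
    (hM : Ac (tG (tQ Y M) X'')) (k : ℤ) (hC : ExAt (tG (DR N) X'') k) :
    ExAt (tG (DR (resL p N)) X) k := by
  have := z_join i p T RY RX'' RX hM (k - RY.lo)
  rw [h1, show RY.lo + (RX.lo + (k - RY.lo) - RX.lo) = k by ring,
    show RY.lo + (k - RY.lo) = k by ring] at this
  exact this.2 ((z_DR i p hpi N X'' k).1 hC)

/-- the same with 162's dual over `A''` -/
theorem hT_of' (hpi : ∀ a, p.f (i.f a) = a) {M : BM A A''}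
    (T : BSES M (resBR i (selfB A)) (resBL p (selfB A'')))
    {X'' : LCells A''} (RX'' : LRes X'' N) {X : LCells A} (RX : LRes X (resL p N))
    {Y : RCells A} (RY : RRes Y (DR (resL p N))) (h1 : RX''.lo = RX.lo)
    (hM : Ac (tG (tQ Y M) X'')) (k : ℤ) (hC : Z (tG (FDual162.dRM N) X'') k) :
    ExAt (tG (DR (resL p N)) X) k :=
  hT_of hpi T RX'' RX RY h1 hM k ((z_dRM N X'' k).1 hC)

end dual

end Crest.Agent.R186.VK75
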