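import Crest.Agent.R186.C3T_667
import Crest.Agent.R186.VK_75
import Crest.Agent.R186.EndV_448

/-!
# Row 186, half (A), leaf C3m1 (helper667): the form of 448's skeleton

`rx2 : LRes (XX π) (V2 π)`, `c3m1 : Z (tG (DR (V2 π)) (XX π)) k` for `k ≠ 0`.
-/

set_option autoImplicit false
set_option linter.style.haveILetI false

noncomputable section

namespace Crest.Agent.R186.C3M667

open Crest.Agent.R186.Hat827 Crest.Agent.R186.Frame515 Crest.Agent.R186.Res255
open Crest.Agent.R186.DefsQ830 Crest.Agent.R186.Win810 Crest.Agent.R186.FinV988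
open Crest.Agent.R186.EndV448 Crest.Agent.R186.C3T667 Crest.Agent.R186.AcIff492

variable {K : Type} [Field K] (π : Par K)

/-- **`X''` resolves 448's `V2`** -/
def rx2 : LRes (XX π) (V2 π) := lres π

theorem rx2_lo : (rx2 π).lo = 0 := rfl

theorem dRM_V2 : DVR π = FDual162.dRM (V2 π) := rfl

/-- **C3m1** -/
theorem c3m1' (k : ℤ) (hk : k ≠ 0) : Z (tG (FDual162.dRM (V2 π)) (XX π)) k :=
  fun _ hx hd => c3_ex π k hk hx hd

/-- **C3m1** in 988's letters -/
theorem c3m1 (k : ℤ) (hk : k ≠ 0) : Z (tG (DR (V2 π)) (XX π)) k :=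
  (VK75.z_dRM (V2 π) (XX π) k).1 (c3m1' π k hk)

/-- the same as `ExAt` -/
theorem c3m1_exAt (k : ℤ) (hk : 1 ≤ k) : ExAt (tG (DR (V2 π)) (XX π)) k :=
  c3m1 π k (by omega)

end Crest.Agent.R186.C3M667
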