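import Crest.Agent.R186.C3m1_788
import Crest.Agent.R186.C2f_354
import Crest.Agent.R186.Res2_255
import Crest.Agent.R186.FDual_162

/-!
# Row 186, half (A), leaf C3 at `m = -1` (helper667): the frame form

`X''` over `L''` = window of `R''`, `DV` = right dual of `V_{-1}`: `DV ⊗ X''` has homology `K` in
degree `0` only.
-/

set_option autoImplicit false
set_option linter.style.haveILetI false

noncomputable section

namespace Crest.Agent.R186.C3T667

/-! ### linear algebra -/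

section lin

variable {K ι V : Type} [Field K] [AddCommGroup V] [Module K V]
  {s : ι → ℕ} {F : ℕ → Finset ι} (hF : ∀ m σ, σ ∈ F m ↔ s σ ≤ m)
  {E : ι → V →ₗ[K] V} {C : ι → ι → V →ₗ[K] V}
  (EE : ∀ σ v, E σ (E σ v) = E σ v)
  (EC : ∀ σ τ v, E σ (C σ τ v) = C σ τ v) (CE : ∀ σ τ v, C σ τ (E τ v) = C σ τ v)
  (C0 : ∀ σ τ, s σ ≠ s τ + 1 → C σ τ = 0)

include hF EE EC CE C0 in
/-- a chain of level `n` which kills all closed cochains is a boundary -/
theorem bdry (n : ℕ) (x : ι →₀ Module.Dual K V) (hx : ∀ σ, s σ ≠ n → x σ = 0)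
    (hxE : ∀ σ v, x σ (E σ v) = x σ v)
    (hk : ∀ φ : ι → V, (∀ σ, E σ (φ σ) = φ σ) → (∀ σ, s σ ≠ n → φ σ = 0) →
      (∀ σ, s σ = n + 1 → ∑ τ ∈ F n, C σ τ (φ τ) = 0) → ∑ σ ∈ F n, x σ (φ σ) = 0) :
    ∃ y : ι →₀ Module.Dual K V, (∀ σ, s σ ≠ n + 1 → y σ = 0) ∧ (∀ σ v, y σ (E σ v) = y σ v) ∧
      ∀ τ v, x τ v = ∑ σ ∈ F (n + 1), y σ (C σ τ v) := by
  classical
  let H : Submodule K (ι → V) :=
    { carrier := {φ | (∀ σ, E σ (φ σ) = φ σ) ∧ ∀ σ, s σ ≠ n → φ σ = 0}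
      zero_mem' := ⟨fun σ => map_zero _, fun _ _ => rfl⟩
      add_mem' := fun {a b} ha hb => ⟨fun σ => by
        rw [Pi.add_apply, map_add, ha.1, hb.1], fun σ h => by
        rw [Pi.add_apply, ha.2 σ h, hb.2 σ h, add_zero]⟩
      smul_mem' := fun r a ha => ⟨fun σ => by
        rw [Pi.smul_apply, map_smul, ha.1], fun σ h => by
        rw [Pi.smul_apply, ha.2 σ h, smul_zero]⟩ }
  let b : (ι → V) →ₗ[K] (ι → V) := LinearMap.pi fun σ =>
    if s σ = n + 1 then ∑ τ ∈ F n, (C σ τ).comp (LinearMap.proj τ) else 0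
  have hb : ∀ φ σ, b φ σ = if s σ = n + 1 then ∑ τ ∈ F n, C σ τ (φ τ) else 0 := by
    intro φ σ
    show (if s σ = n + 1 then ∑ τ ∈ F n, (C σ τ).comp (LinearMap.proj τ) else 0 :
      (ι → V) →ₗ[K] V) φ = _
    split_ifs
    · rw [LinearMap.sum_apply]; rfl
    · rfl
  let X : (ι → V) →ₗ[K] K := ∑ σ ∈ F n, (x σ).comp (LinearMap.proj σ)
  have hX : ∀ φ, X φ = ∑ σ ∈ F n, x σ (φ σ) := fun φ => by
    show (∑ σ ∈ F n, (x σ).comp (LinearMap.proj σ) : (ι → V) →ₗ[K] K) φ = _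
    rw [LinearMap.sum_apply]; rfl
  have hker : X.comp H.subtype ∈ (LinearMap.ker (b.comp H.subtype)).dualAnnihilator := by
    rw [Submodule.mem_dualAnnihilator]
    intro φ hφ
    rw [LinearMap.mem_ker] at hφ
    show X φ.1 = 0
    rw [hX]
    refine hk φ.1 φ.2.1 φ.2.2 fun σ hσ => ?_
    have h := congrFun (show b φ.1 = 0 from hφ) σ
    rw [hb, if_pos hσ] at h
    exact h
  rw [← LinearMap.range_dualMap_eq_dualAnnihilator_ker] at hker
  obtain ⟨Y, hY⟩ := hker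
  have hY' : ∀ φ ∈ H, Y (b φ) = X φ := fun φ hφ => LinearMap.congr_fun hY (⟨φ, hφ⟩ : H)
  let y : ι →₀ Module.Dual K V := Finsupp.onFinset (F (n + 1))
    (fun σ => if s σ = n + 1 then (Y.comp (LinearMap.single K (fun _ : ι => V) σ)).comp (E σ) else 0)
    (fun σ hσ => (hF _ _).2 (by
      by_contra hc
      exact hσ (if_neg (by omega))))
  have hy : ∀ σ v, y σ v = if s σ = n + 1 then Y (Pi.single σ (E σ v)) else 0 := by
    intro σ v
    show (if s σ = n + 1 then (Y.comp (LinearMap.single K (fun _ : ι => V) σ)).comp (E σ) else 0 :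
      Module.Dual K V) v = _
    split_ifs <;> rfl
  refine ⟨y, fun σ hσ => ?_, fun σ v => ?_, fun τ v => ?_⟩
  · show (if s σ = n + 1 then _ else 0 : Module.Dual K V) = 0
    rw [if_neg hσ]
  · rw [hy, hy, EE]
  · by_cases hτ : s τ = n
    · have hφ : (Pi.single τ (E τ v) : ι → V) ∈ H := by
        refine ⟨fun σ => ?_, fun σ hσ => ?_⟩
        · by_cases h : σ = τ
          · subst h; rw [Pi.single_eq_same, EE]
          · rw [Pi.single_eq_of_ne h, map_zero]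
        · rw [Pi.single_eq_of_ne]
          rintro rfl
          exact hσ hτ
      have h1 := hY' _ hφ
      have h2 : X (Pi.single τ (E τ v)) = x τ v := by
        rw [hX, Finset.sum_eq_single τ]
        · rw [Pi.single_eq_same, hxE]
        · intro σ _ hσ
          rw [Pi.single_eq_of_ne hσ, map_zero]
        · intro h
          exact absurd ((hF n τ).2 (by omega)) h
      have h3 : b (Pi.single τ (E τ v)) =
          ∑ σ ∈ F (n + 1), if s σ = n + 1 then Pi.single σ (C σ τ v) else 0 := by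
        funext ρ
        rw [hb, Finset.sum_apply]
        by_cases hρ : s ρ = n + 1
        · rw [if_pos hρ, Finset.sum_eq_single τ, Finset.sum_eq_single ρ]
          · rw [if_pos hρ, Pi.single_eq_same, Pi.single_eq_same, CE]
          · intro σ _ hσ
            split_ifs
            · rw [Pi.single_eq_of_ne (Ne.symm hσ)]
            · rfl
          · intro h
            exact absurd ((hF _ ρ).2 (by omega)) h
          · intro σ _ hσ
            rw [Pi.single_eq_of_ne hσ, map_zero]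
          · intro h
            exact absurd ((hF n τ).2 (by omega)) h
        · rw [if_neg hρ]
          symm
          refine Finset.sum_eq_zero fun σ _ => ?_
          split_ifs with h
          · rw [Pi.single_eq_of_ne]
            rintro rfl
            exact hρ h
          · rfl
      rw [← h2, ← h1, h3, map_sum]
      refine Finset.sum_congr rfl fun σ _ => ?_
      rw [hy]
      split_ifs
      · rw [EC]
      · exact map_zero _
    · rw [hx τ hτ, LinearMap.zero_apply]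
      symm
      refine Finset.sum_eq_zero fun σ _ => ?_
      by_cases hσ : s σ = n + 1
      · rw [C0 σ τ (by omega), LinearMap.zero_apply, map_zero]
      · rw [hy, if_neg hσ]

/-- pairing of a closed chain with an exact cochain -/
theorem pair_exact {S T : Finset ι} (x : ι → Module.Dual K V)
    (hd : ∀ τ v, ∑ σ ∈ S, x σ (C σ τ v) = 0) (ψ φ : ι → V)
    (hφ : ∀ σ ∈ S, x σ (φ σ) = x σ (∑ τ ∈ T, C σ τ (ψ τ))) : ∑ σ ∈ S, x σ (φ σ) = 0 := by
  rw [Finset.sum_congr rfl hφ]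
  simp only [map_sum]
  rw [Finset.sum_comm]
  exact Finset.sum_eq_zero fun τ _ => hd τ (ψ τ)

end lin

/-! ### modules in degree zero, left cells -/

section frame

open MulOpposite
open Crest.Agent.R186.Hat827 Crest.Agent.R186.Hat827.DGA Crest.Agent.R186.Frame515
open Crest.Agent.R186.Res255 Crest.Agent.R186.FDual162

variable {K : Type} [Field K] {A : DGA K} {V : Type} [AddCommGroup V] [Module K V]
  [Module A.C V] [IsScalarTower K A.C V]
  (hpos : ∀ k : ℤ, 0 < k → ∀ a ∈ A.G k, ∀ w : V, a • w = 0)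
  (hD : ∀ (a : A.C) (w : V), A.D a • w = 0)

/-- the right dual of a module in degree zero -/
abbrev DV : RM A := dRM (honL A V hpos hD)

/-- an element of the dual as a functional -/
abbrev fn (f : (DV hpos hD).X) : Module.Dual K V := f

theorem dz {V : Type} [AddCommGroup V] [Module K V] (g : Module.Dual K V) : g (0 : V) = 0 :=
  map_zero g

theorem DV_gr_zero (f : (DV hpos hD).X) : f ∈ (DV hpos hD).gr 0 := by
  intro j hj x hx
  have h : x = (0 : V) := mem_hon hpos hD (by omega) hx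
  show fn hpos hD f (x : V) = 0
  rw [show (x : V) = 0 from h]
  exact dz (K := K) (V := V) f

theorem mem_of_zero {f : (DV hpos hD).X} (hf : f = 0) (k : ℤ) : f ∈ (DV hpos hD).gr k := by
  rw [hf]
  exact Submodule.zero_mem _

theorem DV_gr_ne {k : ℤ} (hk : k ≠ 0) {f : (DV hpos hD).X} (hf : f ∈ (DV hpos hD).gr k) : f = 0 := by
  have key : ∀ v : V, v ∈ (if (0 : ℤ) = 0 then (⊤ : Submodule K V) else ⊥) := fun v => by
    rw [if_pos rfl]
    exact Submodule.mem_top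
  exact LinearMap.ext fun v => hf 0 (by omega) v (key v)

variable (X : LCells A)

theorem tG_ne {k : ℤ} {x : X.ι →₀ (DV hpos hD).X} (hx : x ∈ (tG (DV hpos hD) X).gr k) (σ : X.ι)
    (hσ : (X.s σ : ℤ) ≠ k) : x σ = 0 :=
  DV_gr_ne hpos hD (k := k - X.s σ) (by omega) (hx σ).1

theorem tG_e {k : ℤ} {x : X.ι →₀ (DV hpos hD).X} (hx : x ∈ (tG (DV hpos hD) X).gr k) (σ : X.ι)
    (v : V) : fn hpos hD (x σ) (X.e σ • v) = fn hpos hD (x σ) v :=
  LinearMap.congr_fun (show fn hpos hD (rmul (DV hpos hD) (X.e σ) (x σ)) = fn hpos hD (x σ) from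
    (hx σ).2) v

theorem tG_d (x : X.ι →₀ (DV hpos hD).X) (S : Finset X.ι) (hS : x.support ⊆ S) (τ : X.ι) (v : V) :
    fn hpos hD ((show X.ι →₀ (DV hpos hD).X from (tG (DV hpos hD) X).d x) τ) v =
      ∑ σ ∈ S, fn hpos hD (x σ) (X.c σ τ • v) := by
  have h := (twG (DV hpos hD) X).dd_apply' x S hS τ
  have h2 := congrArg (fun f : (DV hpos hD).X => fn hpos hD f v) h
  refine h2.trans ?_
  show fn hpos hD ((DV hpos hD).d (x τ) + ∑ σ ∈ S, rmul (DV hpos hD) (X.c σ τ) (x σ)) v = _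
  have e1 : fn hpos hD ((DV hpos hD).d (x τ) + ∑ σ ∈ S, rmul (DV hpos hD) (X.c σ τ) (x σ)) v =
      fn hpos hD ((DV hpos hD).d (x τ)) v +
        (∑ σ ∈ S, (fn hpos hD (rmul (DV hpos hD) (X.c σ τ) (x σ)) : Module.Dual K V)) v := rfl
  rw [e1, LinearMap.sum_apply]
  have e2 : fn hpos hD ((DV hpos hD).d (x τ)) v = 0 := map_zero (fn hpos hD (x τ))
  rw [e2, zero_add]
  rfl

theorem supp_F {n : ℕ} {x : X.ι →₀ (DV hpos hD).X} (hx : x ∈ (tG (DV hpos hD) X).gr n) :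
    x.support ⊆ X.F n := by
  intro σ hσ
  rw [X.mem_F]
  by_contra hc
  exact Finsupp.mem_support_iff.1 hσ (tG_ne hpos hD X hx σ (by omega))

/-- closed chains -/
theorem closed {n : ℕ} {x : X.ι →₀ (DV hpos hD).X} (hx : x ∈ (tG (DV hpos hD) X).gr n)
    (hd : (tG (DV hpos hD) X).d x = 0) (τ : X.ι) (v : V) :
    ∑ σ ∈ X.F n, fn hpos hD (x σ) (X.c σ τ • v) = 0 := by
  rw [← tG_d hpos hD X x (X.F n) (supp_F hpos hD X hx) τ v, hd]
  rfl

/-- **a chain of `DV ⊗ X` which kills all closed cochains of `Hom(X, V)` is a boundary** -/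
theorem frame_bdry (n : ℕ) {x : X.ι →₀ (DV hpos hD).X} (hx : x ∈ (tG (DV hpos hD) X).gr n)
    (hk : ∀ φ : X.ι → V, (∀ σ, X.e σ • φ σ = φ σ) → (∀ σ, X.s σ ≠ n → φ σ = 0) →
      (∀ σ, X.s σ = n + 1 → ∑ τ ∈ X.F n, X.c σ τ • φ τ = 0) →
      ∑ σ ∈ X.F n, fn hpos hD (x σ) (φ σ) = 0) :
    ∃ y ∈ (tG (DV hpos hD) X).gr (n + 1), (tG (DV hpos hD) X).d y = x := by
  have C0 : ∀ σ τ, X.s σ ≠ X.s τ + 1 → lmul (honL A V hpos hD) (X.c σ τ) = 0 := by
    intro σ τ h
    refine LinearMap.ext fun v => ?_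
    show X.c σ τ • (v : V) = 0
    by_cases h1 : (0 : ℤ) < (X.s σ : ℤ) - X.s τ - 1
    · exact hpos _ h1 _ (X.c_mem σ τ) v
    · rw [neg (X.c_mem σ τ) (by omega), zero_smul]
  have key : ∃ y : X.ι →₀ (DV hpos hD).X, (∀ σ, X.s σ ≠ n + 1 → y σ = 0) ∧
      (∀ σ (v : V), fn hpos hD (y σ) (X.e σ • v) = fn hpos hD (y σ) v) ∧
      ∀ τ (v : V), fn hpos hD (x τ) v = ∑ σ ∈ X.F (n + 1), fn hpos hD (y σ) (X.c σ τ • v) :=
    bdry (K := K) (V := V) (s := X.s) (F := X.F) X.mem_F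
    (E := fun σ => lmul (honL A V hpos hD) (X.e σ))
    (C := fun σ τ => lmul (honL A V hpos hD) (X.c σ τ))
    (fun σ v => by
      show X.e σ • (X.e σ • v) = X.e σ • v
      rw [smul_smul, X.e_idem])
    (fun σ τ v => by
      show X.e σ • (X.c σ τ • v) = X.c σ τ • v
      rw [smul_smul, X.c_left])
    (fun σ τ v => by
      show X.c σ τ • (X.e τ • v) = X.c σ τ • v
      rw [smul_smul, X.c_right]) C0 n x
    (fun σ hσ => tG_ne hpos hD X hx σ (by exact_mod_cast hσ))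
    (fun σ v => tG_e hpos hD X hx σ v) hk
  obtain ⟨y, h1, h2, h3⟩ := key
  refine ⟨y, ?_, ?_⟩
  · intro σ
    refine ⟨?_, ?_⟩
    · by_cases hσ : X.s σ = n + 1
      · have e : ((n : ℤ) + 1) - (X.s σ : ℤ) = 0 := by omega
        show y σ ∈ (DV hpos hD).gr (((n : ℤ) + 1) - (X.s σ : ℤ))
        rw [e]
        exact DV_gr_zero hpos hD _
      · exact mem_of_zero hpos hD (h1 σ hσ) _
    · exact LinearMap.ext fun v => h2 σ v
  · have hs : y.support ⊆ X.F (n + 1) := by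
      intro σ hσ
      rw [X.mem_F]
      by_contra hc
      exact Finsupp.mem_support_iff.1 hσ (h1 σ (by omega))
    refine Finsupp.ext fun τ => LinearMap.ext fun v => ?_
    exact (tG_d hpos hD X y (X.F (n + 1)) hs τ v).trans (h3 τ v).symm

end frame

/-! ### the cells of `X''` over the window of `R''` -/

section conc

open Crest.Agent.R186.Hat827 Crest.Agent.R186.Frame515
open Crest.Agent.R186.Res255 Crest.Agent.R186.FDual162
open Crest.Agent.R186.DefsQ830 Crest.Agent.R186.Win810 Crest.Agent.R186.Win810.WD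
open Crest.Agent.R186.C2x354 Crest.Agent.R186.C3m1 Crest.Agent.R186.VQ735
open Crest.Agent.R186.Cells221 Crest.Agent.R186.VOp220 Crest.Agent.R186.Vmod220
open Crest.Agent.R186.C2p354

variable {K : Type} [Field K]

instance towC {w : WD K} (M : WMod w) : IsScalarTower K w.dga.C M.VM :=
  inferInstanceAs (IsScalarTower K w.Win M.VM)

variable (π : Par K)

theorem hposR (m : ℤ) : ∀ k : ℤ, 0 < k → ∀ a ∈ (WR π).dga.G k, ∀ v : (VR π m).VM, a • v = 0 := by
  intro k hk a ha v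
  apply (VR π m).vext
  intro i
  change ∑ j, (VR π m).rho (a.1 i j) (v j).1 = 0
  exact Finset.sum_eq_zero fun j _ => (VR π m).act0 (ha i j) hk (v j).2

theorem hDR (m : ℤ) : ∀ (a : (WR π).dga.C) (v : (VR π m).VM), (WR π).dga.D a • v = 0 := by
  intro a v
  apply (VR π m).vext
  intro i
  change ∑ j, (VR π m).rho (Der580.D π (a.1 i j)) (v j).1 = 0
  exact Finset.sum_eq_zero fun j _ => rep_D_zero π (a.1 i j) (v j).1

/-- `V_{-1}` as a left dg module over `L''` -/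
def NV : LM (WR π).dga := honL (WR π).dga (VR π (-1)).VM (hposR π (-1)) (hDR π (-1))

/-- the right dual of `V_{-1}` -/
abbrev DVR : RM (WR π).dga := DV (hposR π (-1)) (hDR π (-1))

/-- the cells of `X''` -/
def XX : LCells (WR π).dga := lcPre (C2f354.pre π)

/-- **`X''` resolves `V_{-1}`** -/
def lres : LRes (XX π) (NV π) := lresPre (hposR π (-1)) (hDR π (-1)) (C2f354.pre π)

/-- position of a cell -/
def ob (σ : Io π) : (WR π).Ob := oc σ.1

theorem W_eq (σ : Io π) : (VR π (-1)).W (ob π σ) = hom K (cP σ.1) := by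
  show hom K (-1 + (((oc σ.1).1.val : ℕ) : ℤ)) = _
  rw [oc_fst]
  congr 1
  ring

/-- a cochain from graded values -/
def mk (φ : Io π → Pol K) (h : ∀ σ, φ σ ∈ hom K (cP σ.1)) (σ : Io π) : (VR π (-1)).VM :=
  (VR π (-1)).mkV (ob π σ) (φ σ) (by rw [W_eq]; exact h σ)

theorem mk_apply (φ : Io π → Pol K) (h : ∀ σ, φ σ ∈ hom K (cP σ.1)) (σ : Io π) (i : (WR π).Ob) :
    (mk π φ h σ i).1 = if ob π σ = i then φ σ else 0 := rfl

theorem mk_e (φ : Io π → Pol K) (h : ∀ σ, φ σ ∈ hom K (cP σ.1)) (σ : (XX π).ι) :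
    (XX π).e σ • mk π φ h σ = mk π φ h σ := by
  exact ((VR π (-1)).e_smul_iff (ob π σ) (mk π φ h σ)).2 fun j hj =>
    (mk_apply π φ h σ j).trans (if_neg hj)

/-- graded values of a cochain -/
def vl (φ : Io π → (VR π (-1)).VM) (σ : Io π) : Pol K := (φ σ (ob π σ)).1

theorem vl_mem (φ : Io π → (VR π (-1)).VM) (σ : Io π) : vl π φ σ ∈ hom K (cP σ.1) := by
  rw [← W_eq]
  exact (φ σ (ob π σ)).2

theorem mk_vl {φ : (XX π).ι → (VR π (-1)).VM} (he : ∀ σ, (XX π).e σ • φ σ = φ σ) (σ : Io π) :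
    mk π (vl π φ) (vl_mem π φ) σ = φ σ := by
  apply (VR π (-1)).vext
  intro i
  rw [mk_apply]
  split_ifs with h
  · subst h; rfl
  · exact (((VR π (-1)).e_smul_iff (ob π σ) (φ σ)).1 (he σ) i h).symm

theorem vl_mk (φ : Io π → Pol K) (h : ∀ σ, φ σ ∈ hom K (cP σ.1)) : vl π (mk π φ h) = φ := by
  funext σ
  show (mk π φ h σ (ob π σ)).1 = _
  rw [mk_apply, if_pos rfl]

theorem c_smul (σ τ : (XX π).ι) (u : (VR π (-1)).VM) (l : (WR π).Ob) :
    (((XX π).c σ τ • u : (VR π (-1)).VM) l).1 =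
      if ob π σ = l then rep π (cI π σ τ) (u (ob π τ)).1 else 0 :=
  (C2f354.gpre π).cw_smul σ τ u l

/-- the differential of cochains -/
theorem sum_c (φ : Io π → Pol K) (h : ∀ σ, φ σ ∈ hom K (cP σ.1)) (T : Finset (Io π)) (σ : Io π)
    (l : (WR π).Ob) :
    ((∑ τ ∈ T, ((XX π).c σ τ • mk π φ h τ : (VR π (-1)).VM) : (VR π (-1)).VM) l).1 =
      if ob π σ = l then ∑ τ ∈ T, rep π (cI π σ τ) (φ τ) else 0 := by
  refine (GPre.vsum_apply (M := VR π (-1)) T _ l).trans ?_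
  have h1 : ∀ τ, ((((XX π).c σ τ • mk π φ h τ : (VR π (-1)).VM)) l).1 =
      if ob π σ = l then rep π (cI π σ τ) (φ τ) else 0 := fun τ => by
    refine (c_smul π σ τ (mk π φ h τ) l).trans ?_
    have h2 : (mk π φ h τ (ob π τ)).1 = φ τ := (mk_apply π φ h τ (ob π τ)).trans (if_pos rfl)
    rw [h2]
  split_ifs with hl
  · exact Finset.sum_congr rfl fun τ _ => (h1 τ).trans (if_pos hl)
  · exact Finset.sum_eq_zero fun τ _ => (h1 τ).trans (if_neg hl)

/-- closed cochains in graded form -/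
theorem vl_closed {n : ℕ} {φ : (XX π).ι → (VR π (-1)).VM} (he : ∀ σ, (XX π).e σ • φ σ = φ σ)
    {σ : (XX π).ι} (h : ∑ τ ∈ (XX π).F n, (XX π).c σ τ • φ τ = 0) :
    ∑ τ ∈ FI π n, rep π (cI π σ τ) (vl π φ τ) = 0 := by
  have h1 := sum_c π (vl π φ) (vl_mem π φ) (FI π n) σ (ob π σ)
  rw [if_pos rfl] at h1
  rw [← h1]
  have h2 : (∑ τ ∈ FI π n, ((XX π).c σ τ • mk π (vl π φ) (vl_mem π φ) τ : (VR π (-1)).VM)) =
      ∑ τ ∈ (XX π).F n, (XX π).c σ τ • φ τ :=
    Finset.sum_congr rfl fun τ _ => by rw [mk_vl π he τ]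
  rw [h2, h]
  rfl

/-- multiplication by an attaching element -/
def Cl (σ τ : (XX π).ι) : (VR π (-1)).VM →ₗ[K] (VR π (-1)).VM := lmul (NV π) ((XX π).c σ τ)

theorem Cl_apply (σ τ : (XX π).ι) (v : (VR π (-1)).VM) : Cl π σ τ v = (XX π).c σ τ • v := rfl

/-- **exactness of `DV ⊗ X''` in positive degrees** -/
theorem c3_pos (m : ℕ) {x : (tG (DVR π) (XX π)).X} (hx : x ∈ (tG (DVR π) (XX π)).gr ((m + 1 : ℕ) : ℤ))
    (hd : (tG (DVR π) (XX π)).d x = 0) :
    ∃ y ∈ (tG (DVR π) (XX π)).gr (((m + 1 : ℕ) : ℤ) + 1), (tG (DVR π) (XX π)).d y = x := by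
  refine frame_bdry (hposR π (-1)) (hDR π (-1)) (XX π) (m + 1) hx fun φ he hs hc => ?_
  obtain ⟨ψ, hψ, -, h3⟩ := exV_m1 π m (vl π φ) (vl_mem π φ)
    (fun σ hσ => by
      show (φ σ (ob π σ)).1 = 0
      rw [hs σ hσ]; rfl)
    (fun σ hσ => vl_closed π he (hc σ hσ))
  refine pair_exact (K := K) (V := (VR π (-1)).VM)
    (C := Cl π) (S := (XX π).F (m + 1)) (T := (XX π).F m)
    (fun σ => fn (hposR π (-1)) (hDR π (-1)) (x σ))
    (fun τ v => closed (hposR π (-1)) (hDR π (-1)) (XX π) hx hd τ v) (mk π ψ hψ) φ ?_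
  intro σ hσ
  by_cases hσn : (XX π).s σ = m + 1
  · congr 1
    show φ σ = ∑ τ ∈ (XX π).F m, (XX π).c σ τ • mk π ψ hψ τ
    rw [← mk_vl π he σ]
    apply (VR π (-1)).vext
    intro l
    refine (mk_apply π (vl π φ) (vl_mem π φ) σ l).trans ?_
    refine Eq.trans ?_ (sum_c π ψ hψ (FI π m) σ l).symm
    rw [h3 σ hσn]
  · have h0 : x σ = 0 := tG_ne (hposR π (-1)) (hDR π (-1)) (XX π) hx σ (by
      intro h; exact hσn (by exact_mod_cast h))
    show fn (hposR π (-1)) (hDR π (-1)) (x σ) _ = fn (hposR π (-1)) (hDR π (-1)) (x σ) _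
    rw [h0]
    rfl

theorem gr_neg' {k : ℤ} (hk : k < 0) {x : (tG (DVR π) (XX π)).X}
    (hx : x ∈ (tG (DVR π) (XX π)).gr k) : x = 0 :=
  Finsupp.ext fun σ => tG_ne (hposR π (-1)) (hDR π (-1)) (XX π) hx σ (by omega)

/-- the constant cochain -/
def ph1 : (XX π).ι → (VR π (-1)).VM := mk π (one0 π) (one0_isC π).1

/-- pairing with the constant cochain -/
def P1 (x : (tG (DVR π) (XX π)).X) : K :=
  ∑ σ ∈ (XX π).F 0, fn (hposR π (-1)) (hDR π (-1))
    ((show (XX π).ι →₀ (DVR π).X from x) σ) (ph1 π σ)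

theorem ph1_closed (σ : (XX π).ι) : ∑ τ ∈ (XX π).F 0, (XX π).c σ τ • ph1 π τ = 0 := by
  apply (VR π (-1)).vext
  intro l
  refine (sum_c π (one0 π) (one0_isC π).1 (FI π 0) σ l).trans ?_
  split_ifs
  · exact one0_closed π σ
  · rfl

theorem P1_d {y : (tG (DVR π) (XX π)).X} (hy : y ∈ (tG (DVR π) (XX π)).gr (((0 : ℕ) : ℤ) + 1)) :
    P1 π ((tG (DVR π) (XX π)).d y) = 0 := by
  have hy' : y ∈ (tG (DVR π) (XX π)).gr ((1 : ℕ) : ℤ) := hy
  have h1 : ∀ τ, fn (hposR π (-1)) (hDR π (-1))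
      ((show (XX π).ι →₀ (DVR π).X from (tG (DVR π) (XX π)).d y) τ) (ph1 π τ) =
      ∑ σ ∈ (XX π).F 1, fn (hposR π (-1)) (hDR π (-1))
        ((show (XX π).ι →₀ (DVR π).X from y) σ) ((XX π).c σ τ • ph1 π τ) := fun τ =>
    tG_d (hposR π (-1)) (hDR π (-1)) (XX π) y ((XX π).F 1)
      (supp_F (hposR π (-1)) (hDR π (-1)) (XX π) hy') τ (ph1 π τ)
  unfold P1
  rw [Finset.sum_congr rfl fun τ _ => h1 τ, Finset.sum_comm]
  refine Finset.sum_eq_zero fun σ _ => ?_
  have h2 := map_sum (M := (VR π (-1)).VM) (N := K) (show Module.Dual K (VR π (-1)).VM from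
    ((show (XX π).ι →₀ (DVR π).X from y) σ)) (fun τ => (XX π).c σ τ • ph1 π τ) ((XX π).F 0)
  refine h2.symm.trans ?_
  rw [ph1_closed π σ]
  exact dz (K := K) (V := (VR π (-1)).VM) _

theorem P1_add (x y : (tG (DVR π) (XX π)).X) : P1 π (x + y) = P1 π x + P1 π y := by
  unfold P1
  rw [← Finset.sum_add_distrib]
  rfl

theorem P1_smul (r : K) (x : (tG (DVR π) (XX π)).X) : P1 π (r • x) = r * P1 π x := by
  unfold P1
  rw [Finset.mul_sum]
  rfl

/-- a chain of degree `0` which kills the constant cochain is a boundary -/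
theorem bdry0 {x : (tG (DVR π) (XX π)).X} (hx : x ∈ (tG (DVR π) (XX π)).gr ((0 : ℕ) : ℤ))
    (h0 : P1 π x = 0) :
    ∃ y ∈ (tG (DVR π) (XX π)).gr (((0 : ℕ) : ℤ) + 1), (tG (DVR π) (XX π)).d y = x := by
  refine frame_bdry (hposR π (-1)) (hDR π (-1)) (XX π) 0 hx fun φ he hs hc => ?_
  obtain ⟨r, hr⟩ := H0_m1 π (φ := vl π φ) ⟨vl_mem π φ, fun σ hσ => by
      show (φ σ (ob π σ)).1 = 0
      rw [hs σ hσ]; rfl⟩ (fun σ hσ => vl_closed π he (hc σ hσ))
  have h1 : ∀ σ : (XX π).ι, φ σ = r • ph1 π σ := by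
    intro σ
    rw [← mk_vl π he σ]
    apply (VR π (-1)).vext
    intro l
    refine (mk_apply π (vl π φ) (vl_mem π φ) σ l).trans ?_
    have h2 : ((r • ph1 π σ : (VR π (-1)).VM) l).1 = r • (if ob π σ = l then one0 π σ else 0) := rfl
    rw [h2, hr]
    split_ifs
    · rfl
    · rw [smul_zero]
  have h2 : ∀ σ : (XX π).ι, fn (hposR π (-1)) (hDR π (-1)) (x σ) (φ σ) =
      r * fn (hposR π (-1)) (hDR π (-1)) (x σ) (ph1 π σ) := by
    intro σ
    rw [h1 σ]
    exact LinearMap.map_smul (M := (VR π (-1)).VM) (show Module.Dual K (VR π (-1)).VM from x σ) r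
      (ph1 π σ)
  rw [Finset.sum_congr rfl fun σ _ => h2 σ, ← Finset.mul_sum]
  show r * P1 π x = 0
  rw [h0, mul_zero]

/-- **degree `0` of `DV ⊗ X''`** -/
theorem c3_zero : ∃ x0 ∈ (tG (DVR π) (XX π)).gr 0, (tG (DVR π) (XX π)).d x0 = 0 ∧
    (¬ ∃ y ∈ (tG (DVR π) (XX π)).gr 1, (tG (DVR π) (XX π)).d y = x0) ∧
    ∀ x ∈ (tG (DVR π) (XX π)).gr 0, (tG (DVR π) (XX π)).d x = 0 →
      ∃ r : K, ∃ y ∈ (tG (DVR π) (XX π)).gr 1, x = r • x0 + (tG (DVR π) (XX π)).d y := by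
  classical
  obtain ⟨σ0, hσ0⟩ : ∃ σ : (XX π).ι, one0 π σ ≠ 0 := by
    by_contra hc
    push Not at hc
    exact one0_ne π (funext hc)
  have hs0 : sI σ0 = 0 := by
    by_contra h
    exact hσ0 ((one0_isC π).2 σ0 h)
  have hv : ph1 π σ0 ≠ 0 := by
    intro h
    have h1 : (ph1 π σ0 (ob π σ0)).1 = one0 π σ0 := (mk_apply π _ _ σ0 (ob π σ0)).trans (if_pos rfl)
    rw [h] at h1
    exact hσ0 h1.symm
  obtain ⟨f, hf⟩ : ∃ f : Module.Dual K (VR π (-1)).VM, f (ph1 π σ0) ≠ 0 := by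
    by_contra hc
    push Not at hc
    exact hv ((Module.forall_dual_apply_eq_zero_iff K _).1 hc)
  let f1 : Module.Dual K (VR π (-1)).VM := (f (ph1 π σ0))⁻¹ • (f ∘ₗ lmul (NV π) ((XX π).e σ0))
  have hf1 : f1 (ph1 π σ0) = 1 := by
    show (f (ph1 π σ0))⁻¹ * f ((XX π).e σ0 • ph1 π σ0) = 1
    have : (XX π).e σ0 • ph1 π σ0 = ph1 π σ0 := mk_e π _ _ σ0
    rw [this, inv_mul_cancel₀ hf]
  have hfe : ∀ v : (VR π (-1)).VM, f1 ((XX π).e σ0 • v) = f1 v := by
    intro v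
    have h1 : (XX π).e σ0 • ((XX π).e σ0 • v) = (XX π).e σ0 • v := by
      rw [smul_smul, (XX π).e_idem]
    show (f (ph1 π σ0))⁻¹ * f ((XX π).e σ0 • ((XX π).e σ0 • v)) = (f (ph1 π σ0))⁻¹ *
      f ((XX π).e σ0 • v)
    rw [h1]
  let x0 : (tG (DVR π) (XX π)).X := (Finsupp.single σ0 (show (DVR π).X from f1) :
    (XX π).ι →₀ (DVR π).X)
  have hx0 : x0 ∈ (tG (DVR π) (XX π)).gr ((0 : ℕ) : ℤ) := by
    intro σ
    by_cases h : σ0 = σ
    · subst h
      have e1 : (Finsupp.single σ0 (show (DVR π).X from f1) : (XX π).ι →₀ (DVR π).X) σ0 = f1 :=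
        Finsupp.single_eq_same
      refine ⟨?_, ?_⟩
      · have e : (((0 : ℕ) : ℤ)) - ((XX π).s σ0 : ℤ) = 0 := by
          have : (XX π).s σ0 = 0 := hs0
          omega
        show (Finsupp.single σ0 (show (DVR π).X from f1) : (XX π).ι →₀ (DVR π).X) σ0 ∈
          (DVR π).gr ((((0 : ℕ) : ℤ)) - ((XX π).s σ0 : ℤ))
        rw [e]
        exact DV_gr_zero (hposR π (-1)) (hDR π (-1)) _
      · show rmul (DVR π) ((XX π).e σ0)
          ((Finsupp.single σ0 (show (DVR π).X from f1) : (XX π).ι →₀ (DVR π).X) σ0) =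
          (Finsupp.single σ0 (show (DVR π).X from f1) : (XX π).ι →₀ (DVR π).X) σ0
        rw [e1]
        exact LinearMap.ext fun v => hfe v
    · have e1 : (Finsupp.single σ0 (show (DVR π).X from f1) : (XX π).ι →₀ (DVR π).X) σ = 0 :=
        Finsupp.single_eq_of_ne (Ne.symm h)
      refine ⟨?_, ?_⟩
      · exact mem_of_zero (hposR π (-1)) (hDR π (-1)) e1 _
      · show rmul (DVR π) ((XX π).e σ)
          ((Finsupp.single σ0 (show (DVR π).X from f1) : (XX π).ι →₀ (DVR π).X) σ) =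
          (Finsupp.single σ0 (show (DVR π).X from f1) : (XX π).ι →₀ (DVR π).X) σ
        rw [e1, map_zero]
  have hP0 : P1 π x0 = 1 := by
    refine (Finset.sum_eq_single (M := K) σ0 ?_ ?_).trans ?_
    · intro σ _ hσ
      show fn (hposR π (-1)) (hDR π (-1))
        ((Finsupp.single σ0 (show (DVR π).X from f1) : (XX π).ι →₀ (DVR π).X) σ) (ph1 π σ) = 0
      rw [Finsupp.single_eq_of_ne hσ]
      rfl
    · intro h
      exact absurd (((XX π).mem_F 0 σ0).2 (le_of_eq hs0)) h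
    · show fn (hposR π (-1)) (hDR π (-1))
        ((Finsupp.single σ0 (show (DVR π).X from f1) : (XX π).ι →₀ (DVR π).X) σ0) (ph1 π σ0) = 1
      rw [Finsupp.single_eq_same]
      exact hf1
  refine ⟨x0, hx0, ?_, ?_, ?_⟩
  · exact gr_neg' π (by norm_num) ((tG (DVR π) (XX π)).d_mem hx0)
  · rintro ⟨y, hy, hyx⟩
    have h1 := P1_d π (y := y) hy
    rw [hyx, hP0] at h1
    exact one_ne_zero h1
  · intro x hx _
    have hx' : x ∈ (tG (DVR π) (XX π)).gr ((0 : ℕ) : ℤ) := hx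
    have h1 : x + (-P1 π x) • x0 ∈ (tG (DVR π) (XX π)).gr ((0 : ℕ) : ℤ) :=
      Submodule.add_mem _ hx' (Submodule.smul_mem _ _ hx0)
    obtain ⟨y, hy, hyx⟩ := bdry0 π h1 (by rw [P1_add, P1_smul, hP0, mul_one, add_neg_cancel])
    refine ⟨P1 π x, y, hy, ?_⟩
    rw [hyx, neg_smul]
    abel

/-- **`DV ⊗ X''` is exact in degrees `≠ 0`** -/
theorem c3_ex (k : ℤ) (hk : k ≠ 0) {x : (tG (DVR π) (XX π)).X} (hx : x ∈ (tG (DVR π) (XX π)).gr k)
    (hd : (tG (DVR π) (XX π)).d x = 0) :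
    ∃ y ∈ (tG (DVR π) (XX π)).gr (k + 1), (tG (DVR π) (XX π)).d y = x := by
  rcases lt_trichotomy k 0 with h | h | h
  · rw [gr_neg' π h hx]
    exact ⟨0, Submodule.zero_mem _, map_zero _⟩
  · exact absurd h hk
  · obtain ⟨m, rfl⟩ : ∃ m : ℕ, k = ((m + 1 : ℕ) : ℤ) := ⟨(k - 1).toNat, by omega⟩
    exact c3_pos π m hx hd

end conc

end Crest.Agent.R186.C3T667
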