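import Crest.Agent.R186.C3q_788

/-!
# Row 186, half (A), leaf C3 at `m = -1` (helper788), part 2

The `V_{-1}`-valued cochains of the cells of `X''`: `exV_m1` (exactness in positive degrees) and
`H0_m1` (degree `0`: the constants).  `V_{-1} (c, q) = hom K (cP c)` = the constants for
`cP c = 0`, zero for `cP c = -1`.
-/

set_option autoImplicit false

namespace Crest.Agent.R186.C3m1

open Crest.Agent.R186.VOp220 Crest.Agent.R186.DefsQ830 Crest.Agent.R186.Vmod220
open Crest.Agent.R186.Cells221 Crest.Agent.R186.Der580 Crest.Agent.R186.VQ735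
open Crest.Agent.R186.PBW128 (E)
open Crest.Agent.R186.Loc261 (Lt li sc Q_ind wt Qc Qg prj)
open TensorProduct

variable {K : Type} [Field K] (π : Par K)

/-! ### constants -/

/-- `R''` of `P`-degree `P` shifts the degree of polynomials by `P` -/
theorem rep_pz {P A C : ℤ} {r : R π} (hr : r ∈ pz π P A C) {m : ℤ} {v : Pol K}
    (hv : v ∈ hom K m) : rep π r v ∈ hom K (m + P) := by
  have : pz π P A C ≤ (hom K (m + P)).comap
      ((LinearMap.applyₗ (R := K) (M₂ := Pol K) v).comp (rep π).toLinearMap) := by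
    rw [pz, Submodule.span_le]
    rintro r ⟨w, hP, _, _, rfl⟩
    rw [← hP]
    exact rep_wd π w hv
  exact this hr

theorem hom0 {v : Pol K} (hv : v ∈ hom K (0 : ℤ)) : v = v (0, 0) • mon K 0 0 := by
  have h := eq_on (K := K) (f := (LinearMap.id : Pol K →ₗ[K] Pol K))
    (h := (LinearMap.toSpanSingleton K (Pol K) (mon K 0 0)).comp (Finsupp.lapply (0, 0)))
    (m := 0) (fun a b hab => by
      have ha : a = 0 := by omega
      have hb : b = 0 := by omega
      subst ha hb
      simp [mon]) hv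
  simpa using h

theorem mon0_mem : mon K 0 0 ∈ hom K (0 : ℤ) := mon_mem (by norm_num)

theorem mon0_ne : mon K 0 0 ≠ 0 := by
  unfold mon
  rw [Ne, Finsupp.single_eq_zero]
  exact one_ne_zero

theorem mon0_app : mon K 0 0 (0, 0) = 1 := by simp [mon]

/-- action on the constants -/
noncomputable def ev0 : R π →ₗ[K] K :=
  (Finsupp.lapply (0, 0)).comp ((LinearMap.applyₗ (R := K) (M₂ := Pol K) (mon K 0 0)).comp
    (rep π).toLinearMap)

theorem ev0_apply (r : R π) : ev0 π r = rep π r (mon K 0 0) (0, 0) := rfl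

theorem ev0_spec {A C : ℤ} {r : R π} (hr : r ∈ pz π 0 A C) :
    rep π r (mon K 0 0) = ev0 π r • mon K 0 0 := by
  have h := rep_pz π hr (mon0_mem (K := K))
  rw [add_zero] at h
  exact hom0 h

theorem ev0_isZ {a : Gen} (ha : isZ a = true) : ev0 π (X π a) = 0 := by
  rw [ev0_apply, rep_isZ π ha]
  rfl

theorem ev0_h : ev0 π (X π .h) = 1 := by
  rw [ev0_apply, rep_h]
  exact mon0_app

theorem ev0_tR : ev0 π (tR π) = (π.g ^ 2)⁻¹ := by
  rw [ev0_apply, rep_tR, TT_hom π (m := 0) (by simpa using mon0_mem (K := K)), Finsupp.smul_apply,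
    mon0_app]
  simp

theorem ev0_hmul (r : R π) : ev0 π (X π .h * r) = ev0 π r := by
  rw [ev0_apply, ev0_apply, map_mul, rep_h, one_mul]

theorem ev0_hR (s : Fin 2) : ev0 π (hR π s) = 1 := by
  rcases f2 s with rfl | rfl
  · exact ev0_h π
  · exact (ev0_hmul π _).trans (ev0_h π)

theorem ev0_ht (s : Fin 2) : ev0 π (hR π s * tR π) = (π.g ^ 2)⁻¹ := by
  rcases f2 s with rfl | rfl
  · exact (ev0_hmul π _).trans (ev0_tR π)
  · show ev0 π (X π .h * X π .h * tR π) = _
    rw [mul_assoc, ev0_hmul, ev0_hmul, ev0_tR]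

theorem ev0_yl (g : Lt) : ev0 π (yl π g) = 0 := by
  cases g <;> exact ev0_isZ π rfl

/-- `r ⊗ T ↦ (r on constants) T` -/
noncomputable def A0 : A2 π →ₗ[K] Module.End K (Q π) :=
  TensorProduct.lift ((LinearMap.lsmul K (Module.End K (Q π))).comp (ev0 π))

@[simp] theorem A0_tmul (r : R π) (T : Module.End K (Q π)) : A0 π (r ⊗ₜ T) = ev0 π r • T := rfl

theorem ev0_cA (q q' : Bt π) (a : A2 π) : ev0 π (cA π q q' a) = coef π q q' (A0 π a) := by
  induction a using TensorProduct.induction_on with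
  | zero => simp only [map_zero]
  | add a b ha hb => simp only [map_add, ha, hb]
  | tmul r T =>
    rw [cA_tmul, A0_tmul, map_smul, map_smul, smul_eq_mul, smul_eq_mul, mul_comm]

/-! ### the matrix on constants -/

theorem A0_th : A0 π (th π) = 0 := by
  rw [th, map_sum]
  refine Finset.sum_eq_zero fun g _ => ?_
  rw [A0_tmul, ev0_yl, zero_smul]

theorem A0_isZ {a : Gen} (ha : isZ a = true) (T : Module.End K (Q π)) :
    A0 π (X π a ⊗ₜ T) = 0 := by
  rw [A0_tmul, ev0_isZ π ha, zero_smul]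

theorem A0_u (s : Fin 2) : A0 π (Dl π (X π (.u s))) = EQ π (lu s) := by
  rw [Dl_X]
  simp only [dl, map_add]
  rw [A0_isZ π rfl, A0_tmul, ev0_hR, one_smul, zero_add]

theorem A0_v (s : Fin 2) : A0 π (Dl π (X π (.v s))) = (π.g ^ 2)⁻¹ • EQ π (lv s) := by
  rw [Dl_X]
  simp only [dl, map_add]
  rw [A0_isZ π rfl, A0_tmul, ev0_ht, zero_add]

theorem A0_f : A0 π (Dl π (X π .f)) = 0 := by
  rw [Dl_X]; exact A0_isZ π rfl _
theorem A0_zc : A0 π (Dl π (X π .zc)) = 0 := by
  rw [Dl_X]; exact A0_isZ π rfl _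
theorem A0_gc : A0 π (Dl π (X π .gc)) = 0 := by
  rw [Dl_X]; exact A0_isZ π rfl _
theorem A0_h : A0 π (Dl π (X π .h)) = 1 := by
  rw [Dl_X]
  show A0 π (X π .h ⊗ₜ 1) = 1
  rw [A0_tmul, ev0_h, one_smul]

theorem A0_tR : A0 π (Dl π (tR π)) = (π.g ^ 2)⁻¹ • 1 := by
  rw [show Dl π (tR π) = tR π ⊗ₜ scl π 1 from Hm_tR π, A0_tmul, ev0_tR, scl_one]

/-- the differential on `Φ : Cell → Q` -/
noncomputable def dV (Φ : Cell → Q π) (c : Cell) : Q π := ∑ c', A0 π (Cm π c c') (Φ c')

/-- the cells of `P`-degree `-1` carry nothing -/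
def Z1 (Φ : Cell → Q π) : Prop := ∀ c, cP c = -1 → Φ c = 0

theorem dV_some (Φ : Cell → Q π) (l : E) : dV π Φ (some l) =
    A0 π (Dl π (X π l.toGen)) (Φ none) + ∑ l', A0 π (Dl π (cf π l l')) (Φ (some l')) := by
  rw [dV, Fintype.sum_option]
  congr 1
  refine Finset.sum_congr rfl fun l' _ => ?_
  show A0 π (Dl π (cf π l l') + if l = l' then th π else 0) (Φ (some l')) = _
  have : A0 π (if l = l' then th π else 0) = 0 := by
    split_ifs
    · exact A0_th π
    · exact map_zero _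
  rw [map_add, this, add_zero]

theorem dV_none (Φ : Cell → Q π) : dV π Φ none = 0 := by
  rw [dV, Fintype.sum_option]
  show A0 π (th π) (Φ none) + ∑ l : E, A0 π 0 (Φ (some l)) = 0
  rw [A0_th, LinearMap.zero_apply, zero_add]
  refine Finset.sum_eq_zero fun l _ => ?_
  rw [map_zero, LinearMap.zero_apply]

variable {π} in
theorem Z1.d {Φ : Cell → Q π} (h : Z1 π Φ) (j : Fin 2) : Φ (some (.d j)) = 0 := h _ rfl
variable {π} in
theorem Z1.z {Φ : Cell → Q π} (h : Z1 π Φ) (j : Fin 2) : Φ (some (.z j)) = 0 := h _ rfl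
variable {π} in
theorem Z1.e {Φ : Cell → Q π} (h : Z1 π Φ) (j : Fin 2) : Φ (some (.e j)) = 0 := h _ rfl
variable {π} in
theorem Z1.gj {Φ : Cell → Q π} (h : Z1 π Φ) (j : Fin 2) : Φ (some (.gj j)) = 0 := h _ rfl

theorem dV_f {Φ : Cell → Q π} (h : Z1 π Φ) : dV π Φ (some .f) = 0 := by
  rw [dV_some, sumE]
  simp [-Dl_X, E.toGen, cf, A0_f, h.d, h.z, h.e, h.gj]

theorem dV_zc {Φ : Cell → Q π} (h : Z1 π Φ) : dV π Φ (some .zc) = Φ (some .f) := by
  rw [dV_some, sumE]
  simp [-Dl_X, E.toGen, cf, A0_zc, A0_h, h.d, h.z, h.e, h.gj]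

theorem dV_u {Φ : Cell → Q π} (h : Z1 π Φ) (s : Fin 2) :
    dV π Φ (some (.u s)) = EQ π (lu s) (Φ none) := by
  rw [dV_some, sumE]
  simp [-Dl_X, E.toGen, cf, A0_u, h.d, h.z, h.e, h.gj]

theorem dV_gc {Φ : Cell → Q π} (h : Z1 π Φ) : dV π Φ (some .gc) =
    EQ π .x' (Φ (some (.u 0))) + π.p • EQ π .x (Φ (some (.u 1))) := by
  rw [dV_some, sumE]
  simp [-Dl_X, E.toGen, cf, A0_gc, A0_f, A0_zc, A0_u, h.d, h.z, h.e, h.gj, lu]

theorem dV_v {Φ : Cell → Q π} (h : Z1 π Φ) (s : Fin 2) :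
    dV π Φ (some (.v s)) = (π.g ^ 2)⁻¹ • EQ π (lv s) (Φ none) := by
  have key : A0 π (Dl π (tR π + (π.g ^ 2)⁻¹ • X π .h)) = 0 := by
    rw [map_add, map_smul, map_add, map_smul, A0_tR, A0_h, ← add_smul]
    have : (π.g ^ 2)⁻¹ + (π.g ^ 2)⁻¹ = 0 := by
      rw [← two_mul, π.two, zero_mul]
    rw [this, zero_smul]
  rw [dV_some, sumE]
  rcases f2 s with rfl | rfl
  · simp only [E.toGen, cf, A0_v, h.d, h.z, h.e, h.gj, if_true, key, map_zero,
      LinearMap.zero_apply, LinearMap.smul_apply, add_zero,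
      if_neg (show ¬ ((1 : Fin 2) = 0) by decide)]
  · simp only [E.toGen, cf, A0_v, h.d, h.z, h.e, h.gj, if_true, key, map_zero,
      LinearMap.zero_apply, LinearMap.smul_apply, add_zero,
      if_neg (show ¬ ((0 : Fin 2) = 1) by decide)]

/-! ### cochains as `Q`-valued functions on the cells -/

theorem repr_prj (u : Q π) (q : Bt π) :
    (bq π).repr u q = (bq π).repr (prj (lp π) q.1 u) q := by
  have hu : u ∈ (⨆ m : Multiset Lt, Qc (lp π) m) := by rw [Qc_top π]; exact Submodule.mem_top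
  induction hu using Submodule.iSup_induction' with
  | mem k u hu =>
    by_cases hk : k = q.1
    · subst hk
      rw [Loc261.prj_id (lp π) hu]
    · rw [Loc261.prj_ne (lp π) hk hu, map_zero, repr_ne π hu (Ne.symm hk)]
      rfl
  | zero => simp only [map_zero]
  | add u v _ _ hu hv => simp only [map_add, Finsupp.add_apply, hu, hv]

theorem repr_QZ {d : ℤ} {u : Q π} (hu : u ∈ QZ π d) {q : Bt π} (hq : (qd q : ℤ) ≠ d) :
    (bq π).repr u q = 0 := by
  rw [repr_prj, hu q.1 hq, map_zero]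
  rfl

theorem bq_QZ (q : Bt π) : bq π q ∈ QZ π (qd q) := Qc_QZ π rfl (bq_mem π q)

/-- finite expansion -/
theorem sum_repr {u : Q π} {S : Finset (Bt π)} (h : ∀ q, q ∉ S → (bq π).repr u q = 0) :
    ∑ q ∈ S, (bq π).repr u q • bq π q = u := by
  classical
  conv_rhs => rw [← (bq π).linearCombination_repr u, Finsupp.linearCombination_apply, Finsupp.sum]
  symm
  refine Finset.sum_subset ?_ ?_
  · intro q hq
    by_contra h1
    exact (Finsupp.mem_support_iff.1 hq) (h q h1)
  · intro q _ hq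
    rw [Finsupp.notMem_support_iff.1 hq, zero_smul]

/-- cochains of degree `n` with values in `V_{-1}` -/
def IsC (n : ℕ) (φ : Io π → Pol K) : Prop :=
  (∀ σ, φ σ ∈ hom K (cP σ.1)) ∧ ∀ σ, sI σ ≠ n → φ σ = 0

/-- to `Q` -/
noncomputable def toQ (n : ℕ) (φ : Io π → Pol K) (c : Cell) : Q π :=
  ∑ q ∈ Bq π n, φ (c, q) (0, 0) • bq π q

/-- from `Q` -/
noncomputable def frQ (Φ : Cell → Q π) (σ : Io π) : Pol K := (bq π).repr (Φ σ.1) σ.2 • mon K 0 0

theorem Z1_toQ {n : ℕ} {φ : Io π → Pol K} (h : IsC π n φ) : Z1 π (toQ π n φ) := by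
  intro c hc
  refine Finset.sum_eq_zero fun q _ => ?_
  have h1 := h.1 (c, q)
  rw [show cP (c, q).1 = -1 from hc] at h1
  rw [hom_m1 h1]
  exact zero_smul _ _

theorem toQ_QZ {n : ℕ} {φ : Io π → Pol K} (h : IsC π n φ) (c : Cell) :
    toQ π n φ c ∈ QZ π ((n : ℤ) - cdeg c) := by
  refine Submodule.sum_mem _ fun q _ => ?_
  by_cases hs : sI (c, q) = n
  · refine Submodule.smul_mem _ _ ?_
    have h1 := bq_QZ π q
    have : (qd q : ℤ) = (n : ℤ) - cdeg c := by
      rw [← hs]
      simp only [sI]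
      push_cast
      ring
    rwa [this] at h1
  · rw [h.2 _ hs]
    simp only [Finsupp.coe_zero, Pi.zero_apply, zero_smul]
    exact Submodule.zero_mem _

theorem toQ_repr {n : ℕ} {φ : Io π → Pol K} (h : IsC π n φ) (c : Cell) (q : Bt π) :
    (bq π).repr (toQ π n φ c) q = φ (c, q) (0, 0) := by
  rw [toQ, map_sum, Finsupp.finsetSum_apply]
  by_cases hq : q ∈ Bq π n
  · rw [Finset.sum_eq_single q]
    · rw [map_smul, Module.Basis.repr_self, Finsupp.smul_apply, Finsupp.single_eq_same, smul_eq_mul,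
        mul_one]
    · intro q' _ hq'
      rw [map_smul, Module.Basis.repr_self, Finsupp.smul_apply, Finsupp.single_eq_of_ne (Ne.symm hq'),
        smul_zero]
    · intro h1
      exact absurd hq h1
  · have h0 : φ (c, q) = 0 := by
      apply h.2
      rw [mem_Bq] at hq
      simp only [sI]
      omega
    rw [h0, Finsupp.zero_apply]
    refine Finset.sum_eq_zero fun q' hq' => ?_
    rw [map_smul, Module.Basis.repr_self, Finsupp.smul_apply, Finsupp.single_eq_of_ne, smul_zero]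
    rintro rfl
    exact hq hq'

theorem frQ_toQ {n : ℕ} {φ : Io π → Pol K} (h : IsC π n φ) : frQ π (toQ π n φ) = φ := by
  funext σ
  obtain ⟨c, q⟩ := σ
  rw [frQ, toQ_repr π h]
  have h1 := h.1 (c, q)
  by_cases hc : cP c = 0
  · rw [show cP (c, q).1 = 0 from hc] at h1
    exact (hom0 h1).symm
  · have hc' : cP c = -1 := by
      rcases c with _ | l
      · exact absurd rfl hc
      · cases l <;> first | rfl | exact absurd rfl hc
    rw [show cP (c, q).1 = -1 from hc'] at h1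
    rw [hom_m1 h1]
    exact zero_smul _ _

theorem frQ_isC {n : ℕ} {Φ : Cell → Q π} (hz : Z1 π Φ) (h : ∀ c, Φ c ∈ QZ π ((n : ℤ) - cdeg c)) :
    IsC π n (frQ π Φ) := by
  constructor
  · rintro ⟨c, q⟩
    by_cases hc : cP c = 0
    · rw [show cP (c, q).1 = 0 from hc]
      exact Submodule.smul_mem _ _ mon0_mem
    · have hc' : cP c = -1 := by
        rcases c with _ | l
        · exact absurd rfl hc
        · cases l <;> first | rfl | exact absurd rfl hc
      rw [frQ, show Φ (c, q).1 = 0 from hz c hc', map_zero, Finsupp.zero_apply, zero_smul]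
      exact Submodule.zero_mem _
  · rintro ⟨c, q⟩ hs
    simp only [sI] at hs
    rw [frQ, repr_QZ π (h c) (by dsimp only; omega), zero_smul]

theorem toQ_frQ {n : ℕ} {Φ : Cell → Q π} (hz : Z1 π Φ) (h : ∀ c, Φ c ∈ QZ π ((n : ℤ) - cdeg c)) :
    toQ π n (frQ π Φ) = Φ := by
  funext c
  apply (bq π).repr.injective
  ext q
  rw [toQ_repr π (frQ_isC π hz h), frQ, Finsupp.smul_apply, mon0_app, smul_eq_mul, mul_one]

/-- sum over the cells of degree `≤ n` -/
theorem sum_FI' {M : Type*} [AddCommMonoid M] (n : ℕ) (f : Io π → M)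
    (hf : ∀ τ, n < sI τ → f τ = 0) :
    ∑ τ ∈ FI π n, f τ = ∑ c', ∑ q' ∈ Bq π n, f (c', q') := by
  rw [← Finset.sum_product', FI, Finset.sum_filter_of_ne]
  intro τ _ h
  by_contra h1
  exact h (hf τ (by omega))

theorem cP_cases (c : Cell) : cP c = 0 ∨ cP c = -1 := by
  rcases c with _ | l
  · exact Or.inl rfl
  · cases l <;> first | exact Or.inl rfl | exact Or.inr rfl

/-- **the differential in terms of `Q`** -/
theorem d_toQ {n : ℕ} {φ : Io π → Pol K} (h : IsC π n φ) (σ : Io π) (hc : cP σ.1 = 0) :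
    ∑ τ ∈ FI π n, rep π (cI π σ τ) (φ τ) = frQ π (dV π (toQ π n φ)) σ := by
  obtain ⟨c, q⟩ := σ
  rw [sum_FI' π n _ (fun τ hτ => by rw [h.2 τ (by omega), map_zero])]
  rw [frQ, dV, map_sum, Finsupp.finsetSum_apply, Finset.sum_smul]
  refine Finset.sum_congr rfl fun c' _ => ?_
  rw [toQ, map_sum, map_sum, Finsupp.finsetSum_apply, Finset.sum_smul]
  refine Finset.sum_congr rfl fun q' _ => ?_
  rw [map_smul, map_smul, Finsupp.smul_apply, ← coef_apply, ← ev0_cA]
  have h1 := h.1 (c', q')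
  rcases cP_cases c' with hc' | hc'
  · rw [show cP (c', q').1 = 0 from hc'] at h1
    conv_lhs => rw [hom0 h1]
    have h2 := cI_pz π (c, q) (c', q')
    rw [show cP (c, q).1 - cP (c', q').1 = 0 by rw [hc]; simp only [hc', sub_zero]] at h2
    rw [map_smul, ev0_spec π h2, smul_smul]
    rfl
  · rw [show cP (c', q').1 = -1 from hc'] at h1
    rw [hom_m1 h1, map_zero]
    simp only [Finsupp.coe_zero, Pi.zero_apply, zero_smul]

theorem d_mem {n : ℕ} {φ : Io π → Pol K} (h : IsC π n φ) (σ : Io π) :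
    ∑ τ ∈ FI π n, rep π (cI π σ τ) (φ τ) ∈ hom K (cP σ.1) := by
  refine Submodule.sum_mem _ fun τ _ => ?_
  have h1 := rep_pz π (cI_pz π σ τ) (h.1 τ)
  rwa [add_sub_cancel] at h1

theorem d_m1 {n : ℕ} {φ : Io π → Pol K} (h : IsC π n φ) (σ : Io π) (hc : cP σ.1 = -1) :
    ∑ τ ∈ FI π n, rep π (cI π σ τ) (φ τ) = 0 := by
  have h1 := d_mem π h σ
  rw [hc] at h1
  exact hom_m1 h1

theorem QZ_cast {d d' : ℤ} {u : Q π} (h : u ∈ QZ π d) (e : d = d') : u ∈ QZ π d' := e ▸ h

theorem dV_QZ {n : ℕ} {Φ : Cell → Q π} (hz : Z1 π Φ) (h : ∀ c, Φ c ∈ QZ π ((n : ℤ) - cdeg c))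
    (c : Cell) (hc : cP c = 0) : dV π Φ c ∈ QZ π (((n + 1 : ℕ) : ℤ) - cdeg c) := by
  have h0 : Φ none ∈ QZ π (n : ℤ) := QZ_cast π (h none) (by simp [cdeg])
  rcases c with _ | l
  · rw [dV_none]; exact Submodule.zero_mem _
  cases l with
  | f => rw [dV_f π hz]; exact Submodule.zero_mem _
  | zc => rw [dV_zc π hz]; exact QZ_cast π (h _) (by simp only [cdeg]; push_cast; ring)
  | u s =>
    rw [dV_u π hz]
    refine QZ_cast π (EQ_QZ π _ h0) ?_
    rcases f2 s with rfl | rfl
    · simp [cdeg, lu, dg]; ring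
    · simp [cdeg, lu, dg]; ring
  | gc =>
    rw [dV_gc π hz]
    refine Submodule.add_mem _ ?_ (Submodule.smul_mem _ _ ?_)
    · exact QZ_cast π (EQ_QZ π _ (h _)) (by simp [cdeg, dg]; ring)
    · exact QZ_cast π (EQ_QZ π _ (h _)) (by simp [cdeg, dg]; ring)
  | v s =>
    rw [dV_v π hz]
    refine Submodule.smul_mem _ _ (QZ_cast π (EQ_QZ π _ h0) ?_)
    rcases f2 s with rfl | rfl
    · simp [cdeg, lv, dg]; ring
    · simp [cdeg, lv, dg]; ring
  | d j => exact absurd hc (by simp [cP])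
  | z j => exact absurd hc (by simp [cP])
  | e j => exact absurd hc (by simp [cP])
  | gj j => exact absurd hc (by simp [cP])

/-- closed cochains -/
theorem dV_zero {n : ℕ} {φ : Io π → Pol K} (h : IsC π n φ)
    (hd : ∀ σ, sI σ = n + 1 → ∑ τ ∈ FI π n, rep π (cI π σ τ) (φ τ) = 0) (c : Cell)
    (hc : cP c = 0) : dV π (toQ π n φ) c = 0 := by
  apply (bq π).repr.injective
  ext q
  rw [map_zero, Finsupp.zero_apply]
  by_cases hs : sI (c, q) = n + 1
  · have h1 := hd _ hs
    rw [d_toQ π h _ hc] at h1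
    exact (smul_eq_zero.1 h1).resolve_right mon0_ne
  · refine repr_QZ π (dV_QZ π (Z1_toQ π h) (toQ_QZ π h) c hc) ?_
    simp only [sI] at hs
    omega

/-- **exactness at `m = -1` in positive degrees** -/
theorem exV_m1 (m : ℕ) (φ : Io π → Pol K) (h0 : ∀ σ, φ σ ∈ hom K (cP σ.1))
    (h1 : ∀ σ, sI σ ≠ m + 1 → φ σ = 0)
    (h2 : ∀ σ, sI σ = m + 2 → ∑ τ ∈ FI π (m + 1), rep π (cI π σ τ) (φ τ) = 0) :
    ∃ ψ : Io π → Pol K, (∀ σ, ψ σ ∈ hom K (cP σ.1)) ∧ (∀ σ, sI σ ≠ m → ψ σ = 0) ∧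
      ∀ σ, sI σ = m + 1 → φ σ = ∑ τ ∈ FI π m, rep π (cI π σ τ) (ψ τ) := by
  have hφ : IsC π (m + 1) φ := ⟨h0, h1⟩
  have hz := Z1_toQ π hφ
  have hq := toQ_QZ π hφ
  have hd := dV_zero π hφ h2
  set Φ := toQ π (m + 1) φ with hΦ
  have hp := π.p0
  have hg2 : (π.g ^ 2 : K) ≠ 0 := pow_ne_zero _ π.g0
  -- the equations
  have ef : Φ (some .f) = 0 := by
    have := hd (some .zc) rfl
    rwa [dV_zc π hz] at this
  have eu : ∀ s, EQ π (lu s) (Φ none) = 0 := fun s => by
    have := hd (some (.u s)) rfl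
    rwa [dV_u π hz] at this
  have ev : ∀ s, EQ π (lv s) (Φ none) = 0 := fun s => by
    have := hd (some (.v s)) rfl
    rw [dV_v π hz] at this
    exact (smul_eq_zero.1 this).resolve_left (inv_ne_zero hg2)
  have egc : EQ π .x' (Φ (some (.u 0))) + π.p • EQ π .x (Φ (some (.u 1))) = 0 := by
    have := hd (some .gc) rfl
    rwa [dV_gc π hz] at this
  have en : Φ none = 0 := by
    obtain ⟨r, hr, hr0⟩ := inj_g π (hq none) (fun g => by
      cases g
      · exact eu 0
      · exact ev 0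
      · exact eu 1
      · exact ev 1)
    rw [hr, hr0 (by simp only [cdeg]; push_cast; omega), zero_smul]
  -- the primitive
  obtain ⟨a, ha, hag⟩ := mid_g π (d := (m : ℤ))
    (fun g => match g with
      | .x => Φ (some (.u 0))
      | .x' => Φ (some (.u 1))
      | .a => π.g ^ 2 • Φ (some (.v 0))
      | .b => π.g ^ 2 • Φ (some (.v 1)))
    (fun g => by
      cases g
      · exact QZ_cast π (hq _) (by simp [cdeg, dg]; ring)
      · exact Submodule.smul_mem _ _ (QZ_cast π (hq _) (by simp [cdeg, dg]; ring))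
      · exact QZ_cast π (hq _) (by simp [cdeg, dg]; ring)
      · exact Submodule.smul_mem _ _ (QZ_cast π (hq _) (by simp [cdeg, dg]; ring)))
    egc
  obtain ⟨b, hb, hbg⟩ := surj_g π (d := (m : ℤ) - 4) (v := π.p⁻¹ • Φ (some .gc))
    (Submodule.smul_mem _ _ (QZ_cast π (hq _) (by simp [cdeg]; ring)))
  let Ψ : Cell → Q π := fun c => match c with
    | none => a
    | some .f => Φ (some .zc)
    | some (.u s) => if s = 0 then 0 else b
    | _ => 0
  have hzΨ : Z1 π Ψ := by
    intro c hc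
    rcases c with _ | l
    · exact absurd hc (by simp [cP])
    · cases l <;> first | rfl | exact absurd hc (by simp [cP])
  have hqΨ : ∀ c, Ψ c ∈ QZ π ((m : ℤ) - cdeg c) := by
    intro c
    rcases c with _ | l
    · exact QZ_cast π ha (by simp [cdeg])
    · cases l with
      | f => exact QZ_cast π (hq _) (by simp [cdeg]; ring)
      | u s =>
        rcases f2 s with rfl | rfl
        · exact Submodule.zero_mem _
        · exact QZ_cast π hb (by simp [cdeg]; ring)
      | _ => exact Submodule.zero_mem _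
  have hdΨ : ∀ c, cP c = 0 → dV π Ψ c = Φ c := by
    intro c hc
    rcases c with _ | l
    · rw [dV_none, en]
    · cases l with
      | f => rw [dV_f π hzΨ, ef]
      | zc => rw [dV_zc π hzΨ]
      | u s =>
        rw [dV_u π hzΨ]
        rcases f2 s with rfl | rfl
        · exact hag .x
        · exact hag .x'
      | gc =>
        rw [dV_gc π hzΨ]
        show EQ π .x' 0 + π.p • EQ π .x b = _
        rw [map_zero, zero_add, hbg, smul_smul, mul_inv_cancel₀ hp, one_smul]
      | v s =>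
        rw [dV_v π hzΨ]
        rcases f2 s with rfl | rfl
        · show (π.g ^ 2)⁻¹ • EQ π .a a = _
          rw [hag .a, smul_smul, inv_mul_cancel₀ hg2, one_smul]
        · show (π.g ^ 2)⁻¹ • EQ π .b a = _
          rw [hag .b, smul_smul, inv_mul_cancel₀ hg2, one_smul]
      | d j => exact absurd hc (by simp [cP])
      | z j => exact absurd hc (by simp [cP])
      | e j => exact absurd hc (by simp [cP])
      | gj j => exact absurd hc (by simp [cP])
  have hψ := frQ_isC π hzΨ hqΨ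
  refine ⟨frQ π Ψ, hψ.1, hψ.2, fun σ _ => ?_⟩
  rcases cP_cases σ.1 with hc | hc
  · rw [d_toQ π hψ σ hc, toQ_frQ π hzΨ hqΨ, frQ, hdΨ _ hc]
    conv_lhs => rw [← frQ_toQ π hφ]
    rfl
  · rw [d_m1 π hψ σ hc]
    have h3 := h0 σ
    rw [hc] at h3
    exact hom_m1 h3

/-! ### degree `0` -/

/-- the constant cochain -/
noncomputable def one0 : Io π → Pol K := frQ π (fun c => if c = none then 1 else 0)

theorem one0_Z1 : Z1 π (fun c => if c = none then (1 : Q π) else 0) := by
  intro c hc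
  rcases c with _ | l
  · exact absurd hc (by simp [cP])
  · rfl

theorem one_QZ : (1 : Q π) ∈ QZ π 0 :=
  Qc_QZ π (m := 0) (by simp [md]) (by
    have := Loc261.wp_mem (lp π) []
    simpa using this)

theorem one0_QZ (c : Cell) :
    (fun c => if c = none then (1 : Q π) else 0) c ∈ QZ π (((0 : ℕ) : ℤ) - cdeg c) := by
  rcases c with _ | l
  · exact QZ_cast π (one_QZ π) (by simp [cdeg])
  · exact Submodule.zero_mem _

theorem one0_isC : IsC π 0 (one0 π) := frQ_isC π (one0_Z1 π) (one0_QZ π)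

theorem q_one_ne : (1 : Q π) ≠ 0 := by
  intro h
  have h1 := congrArg (Loc261.lft (lp π) (A := K) (fun _ => 0) (by simp)) h
  rw [map_one, map_zero] at h1
  exact one_ne_zero h1

theorem one0_ne : one0 π ≠ 0 := by
  intro h
  have h1 := toQ_frQ π (one0_Z1 π) (one0_QZ π)
  have h2 := congrFun h1 none
  rw [show frQ π (fun c => if c = none then (1 : Q π) else 0) = 0 from h] at h2
  have h3 : toQ π 0 (0 : Io π → Pol K) none = 0 := by
    refine Finset.sum_eq_zero fun q _ => ?_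
    simp only [Pi.zero_apply, Finsupp.coe_zero, zero_smul]
  rw [h3] at h2
  exact q_one_ne π h2.symm

theorem one0_closed (σ : Io π) : ∑ τ ∈ FI π 0, rep π (cI π σ τ) (one0 π τ) = 0 := by
  rcases cP_cases σ.1 with hc | hc
  · rw [d_toQ π (one0_isC π) σ hc, one0, toQ_frQ π (one0_Z1 π) (one0_QZ π), frQ]
    have hz := one0_Z1 π
    have : dV π (fun c => if c = none then (1 : Q π) else 0) σ.1 = 0 := by
      rcases h : σ.1 with _ | l
      · exact dV_none π _
      rw [h] at hc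
      cases l with
      | f => rw [dV_f π hz]
      | zc => rw [dV_zc π hz]; rfl
      | u s => rw [dV_u π hz]; exact EQ_one π _
      | gc =>
        rw [dV_gc π hz]
        show EQ π .x' 0 + π.p • EQ π .x 0 = 0
        rw [map_zero, map_zero, smul_zero, add_zero]
      | v s =>
        rw [dV_v π hz]
        show (π.g ^ 2)⁻¹ • EQ π (lv s) 1 = 0
        rw [EQ_one, smul_zero]
      | d j => exact absurd hc (by simp [cP])
      | z j => exact absurd hc (by simp [cP])
      | e j => exact absurd hc (by simp [cP])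
      | gj j => exact absurd hc (by simp [cP])
    rw [this, map_zero, Finsupp.zero_apply, zero_smul]
  · exact d_m1 π (one0_isC π) σ hc

/-- **degree `0`: the constants** -/
theorem H0_m1 {φ : Io π → Pol K} (h : IsC π 0 φ)
    (hd : ∀ σ, sI σ = 1 → ∑ τ ∈ FI π 0, rep π (cI π σ τ) (φ τ) = 0) :
    ∃ r : K, φ = r • one0 π := by
  have hz := Z1_toQ π h
  have hq := toQ_QZ π h
  have hd' := dV_zero π h hd
  have hg2 : (π.g ^ 2 : K) ≠ 0 := pow_ne_zero _ π.g0
  obtain ⟨r, hr, -⟩ := inj_g π (hq none) (fun g => by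
      have eu : ∀ s, EQ π (lu s) (toQ π 0 φ none) = 0 := fun s => by
        have := hd' (some (.u s)) rfl
        rwa [dV_u π hz] at this
      have ev : ∀ s, EQ π (lv s) (toQ π 0 φ none) = 0 := fun s => by
        have := hd' (some (.v s)) rfl
        rw [dV_v π hz] at this
        exact (smul_eq_zero.1 this).resolve_left (inv_ne_zero hg2)
      cases g
      · exact eu 0
      · exact ev 0
      · exact eu 1
      · exact ev 1)
  refine ⟨r, ?_⟩
  rw [← frQ_toQ π h]
  funext σ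
  rcases hc : σ.1 with _ | l
  · rw [Pi.smul_apply, one0, frQ, frQ, hc, hr]
    simp only [if_true]
    rw [map_smul, Finsupp.smul_apply, smul_smul, smul_eq_mul]
  · have h1 : toQ π 0 φ (some l) = 0 := by
      refine QZ_neg π (d := ((0 : ℕ) : ℤ) - cdeg (some l)) ?_ (hq _)
      cases l <;> simp only [cdeg] <;> push_cast <;> omega
    rw [Pi.smul_apply, one0, frQ, frQ, hc, h1]
    rw [if_neg (by simp), map_zero, Finsupp.zero_apply, zero_smul, smul_zero]

end Crest.Agent.R186.C3m1
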