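import Crest.Agent.R186.Bas_735

/-!
# Row 186, half (A), leaf C3 at `m = -1` (helper788), part 1: the Q-level

`0 → K → Q → ⊕_g Q y_g → Q π → 0` for the rescaled derivations `EQ g`, homogeneous for `QZ`.
-/

set_option autoImplicit false

namespace Crest.Agent.R186.C3m1

open Crest.Agent.R186.DefsQ830 Crest.Agent.R186.VQ735
open Crest.Agent.R186.Loc261 (Lt li sc Q_ind wt Qc Qg prj)

variable {K : Type} [Field K] (π : Par K)

/-- eigenvalue of `EQ g` against `D g` on the content `m` -/
noncomputable def lam (g : Lt) (m : Multiset Lt) : K :=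
  (lp π).chi g g * pw (fun l => ((lp π).chi g l)⁻¹) m

theorem pw_ne (s : Lt → K) (hs : ∀ l, s l ≠ 0) (m : Multiset Lt) : pw s m ≠ 0 := by
  unfold pw
  apply Multiset.prod_ne_zero
  intro h
  obtain ⟨l, _, hl⟩ := Multiset.mem_map.1 h
  exact hs l hl

theorem pw_cons (s : Lt → K) (g : Lt) (m : Multiset Lt) : pw s (g ::ₘ m) = s g * pw s m := by
  unfold pw
  rw [Multiset.map_cons, Multiset.prod_cons]

theorem pw_erase (s : Lt → K) {g : Lt} {m : Multiset Lt} (h : g ∈ m) :
    pw s m = s g * pw s (m.erase g) := by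
  conv_lhs => rw [← Multiset.cons_erase h]
  exact pw_cons s g _

theorem lam_ne (g : Lt) (m : Multiset Lt) : lam π g m ≠ 0 :=
  mul_ne_zero ((lp π).chi_ne g g) (pw_ne _ (fun l => inv_ne_zero ((lp π).chi_ne g l)) m)

theorem EQ_Qc (g : Lt) {m : Multiset Lt} {u : Q π} (hu : u ∈ Qc (lp π) m) :
    EQ π g u = lam π g m • Loc261.D (lp π) g u := by
  rw [EQ_apply, Loc261.sc_Qc (lp π) _ hu, map_smul, smul_smul]
  rfl

theorem EQ_mem (g : Lt) {m : Multiset Lt} {u : Q π} (hu : u ∈ Qc (lp π) m) :
    EQ π g u ∈ Qg (lp π) m g := by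
  rw [EQ_Qc π g hu]
  exact Submodule.smul_mem _ _ (Loc261.D_mem (lp π) g hu)

theorem lam_x'x {m : Multiset Lt} (h : Lt.x ∈ m) :
    lam π .x' (m.erase .x) = π.p * lam π .x' m := by
  have hp := π.p0
  unfold lam
  rw [pw_erase _ h, Loc261.Par.chi_x'_x]
  show _ = π.p * (_ * ((π.p)⁻¹ * _))
  field_simp

theorem lam_xx' {m : Multiset Lt} (h : Lt.x' ∈ m) :
    lam π .x (m.erase .x') = π.p⁻¹ * lam π .x m := by
  have hp := π.p0
  unfold lam
  rw [pw_erase _ h, Loc261.Par.chi_x_x']
  show _ = π.p⁻¹ * (_ * ((π.p⁻¹)⁻¹ * _))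
  field_simp

theorem q_self (u : Q π) : u + u = 0 := by
  rw [← two_smul K, π.two, zero_smul]

theorem q_eq {u v : Q π} (h : u + v = 0) : u = v := by
  have : u + v + v = v := by rw [h, zero_add]
  rwa [add_assoc, q_self, add_zero] at this

/-- middle exactness in one content -/
theorem mid_c (m : Multiset Lt) (b : Lt → Q π) (hb : ∀ g, b g ∈ Qg (lp π) m g)
    (h : EQ π .x' (b .x) + π.p • EQ π .x (b .x') = 0) :
    ∃ u ∈ Qc (lp π) m, ∀ g, EQ π g u = b g := by
  have hp := π.p0
  have e1 : EQ π .x' (b .x) = (π.p * lam π .x' m) • Loc261.D (lp π) .x' (b .x) := by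
    have h1 := hb .x
    unfold Qg at h1
    split_ifs at h1 with hx
    · rw [EQ_Qc π .x' h1, lam_x'x π hx]
    · have h2 : b .x = 0 := h1
      rw [h2, map_zero, map_zero, smul_zero]
  have e2 : EQ π .x (b .x') = (π.p⁻¹ * lam π .x m) • Loc261.D (lp π) .x (b .x') := by
    have h1 := hb .x'
    unfold Qg at h1
    split_ifs at h1 with hx
    · rw [EQ_Qc π .x h1, lam_xx' π hx]
    · have h2 : b .x' = 0 := h1
      rw [h2, map_zero, map_zero, smul_zero]
  rw [e1, e2, smul_smul, ← mul_assoc, mul_inv_cancel₀ hp, one_mul] at h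
  have h3 := q_eq π h
  obtain ⟨u, hu, hu'⟩ := Loc261.mid (lp π) (lp_ind π) m (fun g => (lam π g m)⁻¹ • b g)
    (fun g => Submodule.smul_mem _ _ (hb g)) (by
      show Loc261.D (lp π) .x ((lam π .x' m)⁻¹ • b .x') =
        π.p • Loc261.D (lp π) .x' ((lam π .x m)⁻¹ • b .x)
      rw [map_smul, map_smul]
      have hx := lam_ne π .x m
      have hx' := lam_ne π .x' m
      have h4 : Loc261.D (lp π) .x (b .x') =
          ((lam π .x m)⁻¹ * (π.p * lam π .x' m)) • Loc261.D (lp π) .x' (b .x) := by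
        rw [mul_smul, h3, smul_smul, inv_mul_cancel₀ hx, one_smul]
      rw [h4, smul_smul, smul_smul]
      congr 1
      field_simp)
  refine ⟨u, hu, fun g => ?_⟩
  rw [EQ_Qc π g hu, hu' g, smul_smul, mul_inv_cancel₀ (lam_ne π g m), one_smul]

/-- projection to contents commutes with `EQ` -/
theorem EQ_prj (g : Lt) (n : Multiset Lt) (u : Q π) :
    EQ π g (prj (lp π) (g ::ₘ n) u) = prj (lp π) n (EQ π g u) := by
  have hu : u ∈ (⨆ m : Multiset Lt, Qc (lp π) m) := by rw [Qc_top π]; exact Submodule.mem_top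
  induction hu using Submodule.iSup_induction' with
  | mem k u hu =>
    by_cases hk : k = g ::ₘ n
    · subst hk
      rw [Loc261.prj_id (lp π) hu]
      have h1 := EQ_mem π g hu
      unfold Qg at h1
      rw [if_pos (Multiset.mem_cons_self _ _), Multiset.erase_cons_head] at h1
      rw [Loc261.prj_id (lp π) h1]
    · rw [Loc261.prj_ne (lp π) hk hu, map_zero]
      have h1 := EQ_mem π g hu
      unfold Qg at h1
      split_ifs at h1 with hg
      · rw [Loc261.prj_ne (lp π) _ h1]
        rintro rfl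
        exact hk (Multiset.cons_erase hg).symm
      · have h2 : EQ π g u = 0 := h1
        rw [h2, map_zero]
  | zero => simp only [map_zero]
  | add u v _ _ hu hv => simp only [map_add, hu, hv]

theorem fin_sum (u : Q π) : ∃ S0 : Finset (Multiset Lt), ∀ S, S0 ⊆ S →
    ∑ m ∈ S, prj (lp π) m u = u := by
  classical
  have hu : u ∈ (⨆ m : Multiset Lt, Qc (lp π) m) := by rw [Qc_top π]; exact Submodule.mem_top
  induction hu using Submodule.iSup_induction' with
  | mem k u hu =>
    refine ⟨{k}, fun S hS => ?_⟩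
    rw [Finset.sum_eq_single k]
    · exact Loc261.prj_id (lp π) hu
    · intro m _ hm
      exact Loc261.prj_ne (lp π) (Ne.symm hm) hu
    · intro h
      exact absurd (hS (Finset.mem_singleton_self k)) h
  | zero => exact ⟨∅, fun S _ => by simp only [map_zero, Finset.sum_const_zero]⟩
  | add u v _ _ hu hv =>
    obtain ⟨S1, h1⟩ := hu
    obtain ⟨S2, h2⟩ := hv
    refine ⟨S1 ∪ S2, fun S hS => ?_⟩
    simp only [map_add, Finset.sum_add_distrib]
    rw [h1 S (Finset.subset_union_left.trans hS), h2 S (Finset.subset_union_right.trans hS)]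

/-- elements of `Q` of degree `d` -/
noncomputable def QZ (d : ℤ) : Submodule K (Q π) where
  carrier := {u | ∀ m : Multiset Lt, (md m : ℤ) ≠ d → prj (lp π) m u = 0}
  add_mem' ha hb m h := by rw [map_add, ha m h, hb m h, add_zero]
  zero_mem' m _ := map_zero _
  smul_mem' c _ ha m h := by rw [map_smul, ha m h, smul_zero]

theorem mem_QZ {d : ℤ} {u : Q π} : u ∈ QZ π d ↔
    ∀ m : Multiset Lt, (md m : ℤ) ≠ d → prj (lp π) m u = 0 := Iff.rfl

theorem Qc_QZ {m : Multiset Lt} {d : ℤ} (h : (md m : ℤ) = d) {u : Q π} (hu : u ∈ Qc (lp π) m) :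
    u ∈ QZ π d := by
  intro n hn
  refine Loc261.prj_ne (lp π) ?_ hu
  rintro rfl
  exact hn h

theorem EQ_QZ (g : Lt) {d : ℤ} {u : Q π} (hu : u ∈ QZ π d) : EQ π g u ∈ QZ π (d - dg g) := by
  intro m hm
  rw [← EQ_prj, hu _ _, map_zero]
  rw [md_cons]
  push_cast
  omega

theorem QZ_neg {d : ℤ} (hd : d < 0) {u : Q π} (hu : u ∈ QZ π d) : u = 0 := by
  obtain ⟨S0, h⟩ := fin_sum π u
  rw [← h S0 (Finset.Subset.refl _)]
  refine Finset.sum_eq_zero fun m _ => hu m ?_
  omega

/-- content `0` is the ground field -/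
theorem Qc_zero {u : Q π} (hu : u ∈ Qc (lp π) 0) : ∃ r : K, u = r • 1 := by
  have h : Qc (lp π) 0 ≤ Submodule.span K {(1 : Q π)} := by
    refine Loc261.Qc_le (lp π) ?_
    intro w hw
    have : w = [] := by
      cases w with
      | nil => rfl
      | cons a w => exact absurd hw (by simp)
    subst this
    exact Submodule.subset_span rfl
  obtain ⟨r, hr⟩ := Submodule.mem_span_singleton.1 (h hu)
  exact ⟨r, hr.symm⟩

/-- injectivity off the ground field -/
theorem inj_g {d : ℤ} {u : Q π} (hu : u ∈ QZ π d) (h : ∀ g, EQ π g u = 0) :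
    ∃ r : K, u = r • 1 ∧ (d ≠ 0 → r = 0) := by
  classical
  have key : ∀ m : Multiset Lt, m ≠ 0 → prj (lp π) m u = 0 := by
    intro m hm
    refine Loc261.inj (lp π) (lp_ind π) m.card m rfl hm _ (Loc261.prj_mem (lp π) m u) ?_
    intro g
    by_cases hg : g ∈ m
    · have h1 : EQ π g (prj (lp π) m u) = 0 := by
        rw [← Multiset.cons_erase hg, EQ_prj, h g, map_zero]
      rw [EQ_Qc π g (Loc261.prj_mem (lp π) m u)] at h1
      exact (smul_eq_zero.1 h1).resolve_left (lam_ne π g m)
    · have h1 := Loc261.D_mem (lp π) g (Loc261.prj_mem (lp π) m u)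
      unfold Qg at h1
      rw [if_neg hg] at h1
      exact h1
  obtain ⟨S0, h0⟩ := fin_sum π u
  have h1 : u = prj (lp π) 0 u := by
    conv_lhs => rw [← h0 (insert 0 S0) (Finset.subset_insert _ _)]
    rw [Finset.sum_eq_single 0]
    · intro m _ hm
      exact key m hm
    · intro h
      exact absurd (Finset.mem_insert_self _ _) h
  obtain ⟨r, hr⟩ := Qc_zero π (Loc261.prj_mem (lp π) 0 u)
  by_cases hd : d = 0
  · exact ⟨r, by rw [h1, hr], fun h => absurd hd h⟩
  · refine ⟨0, ?_, fun _ => rfl⟩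
    rw [h1, zero_smul]
    apply hu
    simp only [md, Multiset.map_zero, Multiset.sum_zero]
    push_cast
    omega

theorem EQ_one (g : Lt) : EQ π g 1 = 0 := by
  rw [EQ_apply, map_one, Loc261.D_one, smul_zero]

/-- **middle exactness** -/
theorem mid_g {d : ℤ} (b : Lt → Q π) (hb : ∀ g, b g ∈ QZ π (d - dg g))
    (h : EQ π .x' (b .x) + π.p • EQ π .x (b .x') = 0) :
    ∃ u ∈ QZ π d, ∀ g, EQ π g u = b g := by
  classical
  -- components
  let bm : Multiset Lt → Lt → Q π := fun m g => if g ∈ m then prj (lp π) (m.erase g) (b g) else 0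
  have hbm : ∀ m g, bm m g ∈ Qg (lp π) m g := by
    intro m g
    show (if g ∈ m then prj (lp π) (m.erase g) (b g) else 0) ∈ Qg (lp π) m g
    unfold Qg
    split_ifs with hg
    · exact Loc261.prj_mem (lp π) _ _
    · exact Submodule.zero_mem _
  have hrel : ∀ m, EQ π .x' (bm m .x) + π.p • EQ π .x (bm m .x') = 0 := by
    intro m
    by_cases hx : Lt.x ∈ m
    · by_cases hx' : Lt.x' ∈ m
      · have e1 : bm m .x = prj (lp π) (m.erase .x) (b .x) := if_pos hx
        have e2 : bm m .x' = prj (lp π) (m.erase .x') (b .x') := if_pos hx'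
        have h1 : Lt.x' ∈ m.erase .x := (Multiset.mem_erase_of_ne (by decide)).2 hx'
        have h2 : Lt.x ∈ m.erase .x' := (Multiset.mem_erase_of_ne (by decide)).2 hx
        rw [e1, e2, ← Multiset.cons_erase h1, EQ_prj, ← Multiset.cons_erase h2, EQ_prj,
          Multiset.erase_comm m .x' .x, ← map_smul, ← map_add, h, map_zero]
      · have e2 : bm m .x' = 0 := if_neg hx'
        rw [e2, map_zero, smul_zero, add_zero]
        have h1 := EQ_mem π .x' (show bm m .x ∈ Qc (lp π) (m.erase .x) by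
          have := hbm m .x
          unfold Qg at this
          rwa [if_pos hx] at this)
        unfold Qg at h1
        rw [if_neg (fun h => hx' (Multiset.mem_of_mem_erase h))] at h1
        exact h1
    · have e1 : bm m .x = 0 := if_neg hx
      rw [e1, map_zero, zero_add]
      by_cases hx' : Lt.x' ∈ m
      · have h1 := EQ_mem π .x (show bm m .x' ∈ Qc (lp π) (m.erase .x') by
          have := hbm m .x'
          unfold Qg at this
          rwa [if_pos hx'] at this)
        unfold Qg at h1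
        rw [if_neg (fun h => hx (Multiset.mem_of_mem_erase h))] at h1
        have h2 : EQ π .x (bm m .x') = 0 := h1
        rw [h2, smul_zero]
      · have e2 : bm m .x' = 0 := if_neg hx'
        rw [e2, map_zero, smul_zero]
  have hz : ∀ m, (md m : ℤ) ≠ d → ∀ g, bm m g = 0 := by
    intro m hm g
    show (if g ∈ m then prj (lp π) (m.erase g) (b g) else 0) = 0
    split_ifs with hg
    · apply hb g
      have : md m = dg g + md (m.erase g) := by
        conv_lhs => rw [← Multiset.cons_erase hg]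
        exact md_cons g _
      omega
    · rfl
  have hex : ∀ m, ∃ u ∈ Qc (lp π) m, (∀ g, EQ π g u = bm m g) ∧ ((md m : ℤ) ≠ d → u = 0) := by
    intro m
    by_cases hm : (md m : ℤ) = d
    · obtain ⟨u, hu, hu'⟩ := mid_c π m (bm m) (hbm m) (hrel m)
      exact ⟨u, hu, hu', fun h => absurd hm h⟩
    · exact ⟨0, Submodule.zero_mem _, fun g => by rw [map_zero, hz m hm g], fun _ => rfl⟩
  choose um hum hum' hum0 using hex
  -- big finite set
  choose S0 hS0 using fun g => fin_sum π (b g)
  let M : Finset (Multiset Lt) := Finset.univ.biUnion (fun g : Lt => (S0 g).image (fun n => g ::ₘ n))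
  refine ⟨∑ m ∈ M, um m, ?_, fun g => ?_⟩
  · refine Submodule.sum_mem _ fun m _ => ?_
    by_cases hm : (md m : ℤ) = d
    · exact Qc_QZ π hm (hum m)
    · rw [hum0 m hm]; exact Submodule.zero_mem _
  · rw [map_sum, Finset.sum_congr rfl (fun m _ => hum' m g)]
    have h1 : ∑ m ∈ M, bm m g = ∑ m ∈ M.filter (fun m => g ∈ m), prj (lp π) (m.erase g) (b g) := by
      rw [Finset.sum_filter]
    rw [h1]
    have h2 : Set.InjOn (fun m : Multiset Lt => m.erase g) (M.filter (fun m => g ∈ m)) := by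
      intro m hm n hn hmn
      have hm' := (Finset.mem_filter.1 (Finset.mem_coe.1 hm)).2
      have hn' := (Finset.mem_filter.1 (Finset.mem_coe.1 hn)).2
      have hmn' : m.erase g = n.erase g := hmn
      rw [← Multiset.cons_erase hm', ← Multiset.cons_erase hn', hmn']
    rw [← Finset.sum_image (f := fun n => prj (lp π) n (b g)) h2]
    apply hS0 g
    intro n hn
    rw [Finset.mem_image]
    refine ⟨g ::ₘ n, ?_, Multiset.erase_cons_head _ _⟩
    rw [Finset.mem_filter]
    refine ⟨?_, Multiset.mem_cons_self _ _⟩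
    rw [Finset.mem_biUnion]
    exact ⟨g, Finset.mem_univ _, Finset.mem_image_of_mem _ hn⟩

/-- **surjectivity** -/
theorem surj_g {d : ℤ} {v : Q π} (hv : v ∈ QZ π d) : ∃ u ∈ QZ π (d + 1), EQ π .x u = v := by
  classical
  have hex : ∀ m : Multiset Lt, ∃ u ∈ QZ π (d + 1), EQ π .x u = prj (lp π) m v := by
    intro m
    by_cases hm : (md m : ℤ) = d
    · obtain ⟨u, hu, hu'⟩ := Loc261.surj (lp π) (lp_ind π) (Loc261.prj_mem (lp π) m v)
      refine ⟨(lam π .x (.x ::ₘ m))⁻¹ • u, Submodule.smul_mem _ _ (Qc_QZ π ?_ hu), ?_⟩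
      · rw [md_cons]
        simp only [dg]
        push_cast
        omega
      · rw [map_smul, EQ_Qc π .x hu, smul_smul, inv_mul_cancel₀ (lam_ne π _ _), one_smul, hu']
    · refine ⟨0, Submodule.zero_mem _, ?_⟩
      rw [map_zero, hv m hm]
  choose um hum hum' using hex
  obtain ⟨S0, hS0⟩ := fin_sum π v
  refine ⟨∑ m ∈ S0, um m, Submodule.sum_mem _ fun m _ => hum m, ?_⟩
  rw [map_sum, Finset.sum_congr rfl (fun m _ => hum' m)]
  exact hS0 S0 (Finset.Subset.refl _)

end Crest.Agent.R186.C3m1
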