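import Crest.Agent.R186.C3m1_788
import Crest.Agent.R186.C2f_354
import Crest.Agent.R186.FinV_988
import Crest.Agent.R186.Res2_255

/-!
# Row 186, half (A), leaf C3 at `m = -1` (helper788), part 3: window and frame forms

* `exV_gpre` : field `exV` for 354's `C2f354.gpre π` (homogeneous elements);
* `GPre_exV` : from the homogeneous form to the window algebra; `exV_pre` : for `C2f354.pre π`;
* `exAt_of_exV` : converse of 988's `exV_of`: `exV` gives exactness of `DR N ⊗ X` in positive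
  degrees; `exAt_X2 π` : `DR V_{-1} ⊗ X''` over `L''` is exact in positive degrees.
-/

set_option autoImplicit false
set_option linter.style.haveILetI false
set_option linter.unusedSectionVars false

open MulOpposite

namespace Crest.Agent.R186.C3w788

open Hat827 Frame515 Crest.Agent.R186.DefsQ830 Crest.Agent.R186.Win810
open Crest.Agent.R186.Win810.WD Crest.Agent.R186.Win810.WMod

variable {K : Type} [Field K]

/-! ### homogeneous form -/

theorem W_eq (π : Par K) (c : Cells221.Cell) :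
    (VR π (-1)).W (C2x354.oc c) = VOp220.hom K (Cells221.cP c) := by
  show VOp220.hom K (-1 + (((C2x354.oc c).1.val : ℕ) : ℤ)) = _
  rw [C2x354.oc_fst]
  congr 1
  ring

/-- **`exV` for `X''`, homogeneous form** -/
theorem exV_gpre (π : Par K) (m : ℕ) (φ : (C2f354.gpre π).ι → (VR π (-1)).V)
    (h0 : ∀ σ, φ σ ∈ (VR π (-1)).W ((C2f354.gpre π).o σ))
    (h1 : ∀ σ, (C2f354.gpre π).s σ ≠ m + 1 → φ σ = 0)
    (h2 : ∀ σ, (C2f354.gpre π).s σ = m + 2 →
      ∑ τ ∈ (C2f354.gpre π).F (m + 1), (VR π (-1)).rho ((C2f354.gpre π).c σ τ) (φ τ) = 0) :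
    ∃ ψ : (C2f354.gpre π).ι → (VR π (-1)).V,
      (∀ σ, ψ σ ∈ (VR π (-1)).W ((C2f354.gpre π).o σ)) ∧
      (∀ σ, (C2f354.gpre π).s σ ≠ m → ψ σ = 0) ∧
      ∀ σ, (C2f354.gpre π).s σ = m + 1 →
        φ σ = ∑ τ ∈ (C2f354.gpre π).F m, (VR π (-1)).rho ((C2f354.gpre π).c σ τ) (ψ τ) := by
  obtain ⟨ψ, a1, a2, a3⟩ := C3m1.exV_m1 π m φ
    (fun σ => (SetLike.ext_iff.1 (W_eq π σ.1) _).1 (h0 σ)) h1 h2
  exact ⟨ψ, fun σ => (SetLike.ext_iff.1 (W_eq π σ.1) _).2 (a1 σ), a2, a3⟩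

/-! ### window form -/

section gp

variable {w : WD K} {M : WMod w} (R : C2p354.GPre w M)

/-- homogeneous `exV` -/
def HomV : Prop := ∀ (m : ℕ) (φ : R.ι → M.V), (∀ σ, φ σ ∈ M.W (R.o σ)) →
    (∀ σ, R.s σ ≠ m + 1 → φ σ = 0) →
    (∀ σ, R.s σ = m + 2 → ∑ τ ∈ R.F (m + 1), M.rho (R.c σ τ) (φ τ) = 0) →
    ∃ ψ : R.ι → M.V, (∀ σ, ψ σ ∈ M.W (R.o σ)) ∧ (∀ σ, R.s σ ≠ m → ψ σ = 0) ∧
      ∀ σ, R.s σ = m + 1 → φ σ = ∑ τ ∈ R.F m, M.rho (R.c σ τ) (ψ τ)

/-- **window form** (the field `exV` of `Hat827.Cells`) -/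
theorem GPre_exV (hV : HomV R) (m : ℕ) (φ : R.toPre.ι → M.VM)
    (h0 : ∀ σ, R.toPre.s σ ≠ m + 1 → φ σ = 0) (he : ∀ σ, R.toPre.e σ • φ σ = φ σ)
    (hc : ∀ σ, R.toPre.s σ = m + 2 → ∑ τ ∈ R.toPre.F (m + 1), R.toPre.c σ τ • φ τ = 0) :
    ∃ ψ : R.toPre.ι → M.VM, (∀ σ, R.toPre.s σ ≠ m → ψ σ = 0) ∧
      ∀ σ, R.toPre.s σ = m + 1 → φ σ = ∑ τ ∈ R.toPre.F m, R.toPre.c σ τ • ψ τ := by
  have hφ : ∀ σ j, R.o σ ≠ j → (φ σ j).1 = 0 := fun σ => (M.e_smul_iff _ _).1 (he σ)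
  have hφ0 : ∀ σ, R.s σ ≠ m + 1 → ∀ j, (φ σ j).1 = 0 := by
    intro σ hσ j
    rw [h0 σ hσ]
    rfl
  obtain ⟨ψ, hψ, hψ0, hh⟩ := hV m (fun σ => (φ σ (R.o σ)).1) (fun σ => (φ σ (R.o σ)).2)
    (fun σ hσ => hφ0 σ hσ _) (fun σ hσ => by
      have h := congrArg (fun z : M.VM => (z (R.o σ)).1) (hc σ hσ)
      change ((∑ τ ∈ R.F (m + 1), (R.cw σ τ • φ τ : M.VM) : M.VM) (R.o σ)).1 = 0 at h
      rw [C2p354.GPre.vsum_apply] at h
      simpa only [R.cw_smul, if_true] using h)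
  refine ⟨fun σ => M.mkV (R.o σ) (ψ σ) (hψ σ), ?_, ?_⟩
  · intro σ hσ
    apply M.vext
    intro i
    rw [mkV_apply, hψ0 σ hσ]
    split_ifs <;> rfl
  · intro (σ : R.ι) hσ
    apply M.vext
    intro i
    have e1 := C2p354.GPre.vsum_apply (M := M) (R.F m)
      (fun τ => (R.cw σ τ • M.mkV (R.o τ) (ψ τ) (hψ τ) : M.VM)) i
    refine Eq.trans ?_ e1.symm
    have e2 : ∀ τ, ((R.cw σ τ • M.mkV (R.o τ) (ψ τ) (hψ τ) : M.VM) i).1 =
        if R.o σ = i then M.rho (R.c σ τ) (ψ τ) else 0 := by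
      intro τ
      rw [R.cw_smul, mkV_apply, if_pos rfl]
    rw [Finset.sum_congr rfl (fun τ _ => e2 τ)]
    by_cases h : R.o σ = i
    · subst h
      simp only [if_true]
      exact hh σ hσ
    · simp only [if_neg h, Finset.sum_const_zero]
      exact hφ σ i h

end gp

/-! ### frame form -/

open FinV988

variable {A : DGA K}

/-- **converse of 988's `exV_of`** -/
theorem exAt_of_exV (N : LM A) (h0 : Deg0 N) (X : LCells A)
    (hV : ∀ (m : ℕ) (φ : X.ι → N.X), (∀ σ, X.s σ ≠ m + 1 → φ σ = 0) →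
      (∀ σ, X.e σ • φ σ = φ σ) →
      (∀ σ, X.s σ = m + 2 → ∑ τ ∈ X.F (m + 1), X.c σ τ • φ τ = 0) →
      ∃ ψ : X.ι → N.X, (∀ σ, X.s σ ≠ m → ψ σ = 0) ∧
        ∀ σ, X.s σ = m + 1 → φ σ = ∑ τ ∈ X.F m, X.c σ τ • ψ τ)
    (k : ℤ) (hk : 1 ≤ k) : ExAt (tG (DR N) X) k := by
  classical
  obtain ⟨n, rfl⟩ : ∃ n : ℕ, k = n + 1 := ⟨(k - 1).toNat, by omega⟩
  intro x hx hd
  let fx : X.ι → (N.X →ₗ[K] K) := fun σ => x σ
  have xz : ∀ σ, X.s σ ≠ n + 1 → fx σ = 0 := by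
    intro σ hσ
    refine LinearMap.ext fun z => ?_
    refine (hx σ).1 0 z (h0.top z) ?_
    change (0 : ℤ) ≠ -((n : ℤ) + 1 - (X.s σ : ℤ))
    omega
  have xe : ∀ σ z, fx σ (X.e σ • z) = fx σ z := fun σ z => LinearMap.congr_fun (hx σ).2 z
  have xs : x.support ⊆ X.F (n + 1) := by
    intro σ hσ
    rw [X.mem_F]
    by_contra hn
    exact (Finsupp.mem_support_iff.1 hσ) (xz σ (by omega))
  have xd : ∀ τ z, ∑ σ ∈ X.F (n + 1), fx σ (X.c σ τ • z) = 0 := by
    intro τ z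
    have h1 := (twG (DR N) X).dd_apply' x (X.F (n + 1)) xs τ
    have h2 : (twG (DR N) X).dd x τ = 0 := DFunLike.congr_fun hd τ
    rw [h2] at h1
    have h3 := congrArg (dev N z) h1
    rw [map_zero, map_add, map_sum, dev_d, h0.d] at h3
    have h4 : dev N 0 (x τ) = 0 := map_zero (fx τ)
    rw [h4, zero_add] at h3
    exact h3.symm
  -- the linear maps
  let lam : (X.ι → N.X) →ₗ[K] K := ∑ σ ∈ X.F (n + 1), fx σ ∘ₗ LinearMap.proj σ
  let del : (X.ι → N.X) →ₗ[K] (X.ι → N.X) := LinearMap.pi fun σ =>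
    if X.s σ = n + 2 then ∑ τ ∈ X.F (n + 1), lmul N (X.c σ τ) ∘ₗ LinearMap.proj τ else 0
  let W : Submodule K (X.ι → N.X) :=
    { carrier := {φ | (∀ σ, X.s σ ≠ n + 1 → φ σ = 0) ∧ ∀ σ, lmul N (X.e σ) (φ σ) = φ σ}
      add_mem' := fun {a b} ha hb => ⟨fun σ h => by
          rw [Pi.add_apply, ha.1 σ h, hb.1 σ h, add_zero], fun σ => by
          rw [Pi.add_apply, map_add, ha.2, hb.2]⟩
      zero_mem' := ⟨fun _ _ => rfl, fun σ => map_zero _⟩
      smul_mem' := fun r a ha => ⟨fun σ h => by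
          rw [Pi.smul_apply, ha.1 σ h, smul_zero], fun σ => by
          rw [Pi.smul_apply, map_smul, ha.2]⟩ }
  have lam_apply : ∀ φ, lam φ = ∑ σ ∈ X.F (n + 1), fx σ (φ σ) := by
    intro φ
    simp only [lam, LinearMap.sum_apply, LinearMap.comp_apply, LinearMap.proj_apply]
  have del_apply : ∀ φ σ, X.s σ = n + 2 → del φ σ = ∑ τ ∈ X.F (n + 1), X.c σ τ • φ τ := by
    intro φ σ h
    simp only [del, LinearMap.pi_apply, if_pos h, LinearMap.sum_apply, LinearMap.comp_apply,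
      LinearMap.proj_apply, lmul_apply]
  have del_ne : ∀ φ σ, X.s σ ≠ n + 2 → del φ σ = 0 := by
    intro φ σ h
    simp only [del, LinearMap.pi_apply, if_neg h, LinearMap.zero_apply]
  have hker : lam ∘ₗ W.subtype ∈ (LinearMap.ker (del ∘ₗ W.subtype)).dualAnnihilator := by
    rw [Submodule.mem_dualAnnihilator]
    rintro ⟨φ, hφ⟩ h
    have hφd : del φ = 0 := h
    obtain ⟨ψ, p1, p2⟩ := hV n φ hφ.1 hφ.2 (fun σ hσ => by
      rw [← del_apply φ σ hσ, hφd]
      rfl)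
    change lam φ = 0
    rw [lam_apply]
    have h5 : ∀ σ ∈ X.F (n + 1), fx σ (φ σ) = ∑ τ ∈ X.F n, fx σ (X.c σ τ • ψ τ) := by
      intro σ _
      by_cases hσ : X.s σ = n + 1
      · rw [p2 σ hσ, map_sum]
      · rw [xz σ hσ]
        simp only [LinearMap.zero_apply, Finset.sum_const_zero]
    rw [Finset.sum_congr rfl h5, Finset.sum_comm]
    exact Finset.sum_eq_zero fun τ _ => xd τ (ψ τ)
  rw [← LinearMap.range_dualMap_eq_dualAnnihilator_ker] at hker
  obtain ⟨mu, hmu⟩ := hker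
  have hmu' : ∀ φ ∈ W, mu (del φ) = lam φ := fun φ hφ =>
    LinearMap.congr_fun hmu ⟨φ, hφ⟩
  -- the primitive
  let yl : X.ι → (N.X →ₗ[K] K) := fun σ =>
    if X.s σ = n + 2 then mu ∘ₗ LinearMap.single K (fun _ => N.X) σ ∘ₗ lmul N (X.e σ) else 0
  have yl_pos : ∀ σ z, X.s σ = n + 2 → yl σ z = mu (Pi.single σ (X.e σ • z)) := by
    intro σ z h
    simp only [yl, if_pos h]
    rfl
  have yl_neg : ∀ σ, X.s σ ≠ n + 2 → yl σ = 0 := by
    intro σ h
    simp only [yl, if_neg h]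
  let y : X.ι →₀ (DR N).X := Finsupp.onFinset (X.F (n + 2)) yl (fun σ hσ => by
    rw [X.mem_F]
    by_contra hn
    exact hσ (yl_neg σ (by omega)))
  have ys : y.support ⊆ X.F (n + 2) := Finsupp.support_onFinset_subset
  refine ⟨y, fun σ => ⟨?_, ?_⟩, ?_⟩
  · intro l z hz hl
    change yl σ z = 0
    by_cases hs : X.s σ = n + 2
    · change l ≠ -((n : ℤ) + 1 + 1 - (X.s σ : ℤ)) at hl
      rw [h0.bot hz (by omega), map_zero]
    · rw [yl_neg σ hs]
      rfl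
  · refine DR_ext fun z => ?_
    change yl σ (X.e σ • z) = yl σ z
    by_cases hs : X.s σ = n + 2
    · rw [yl_pos σ _ hs, yl_pos σ _ hs, smul_smul, X.e_idem]
    · rw [yl_neg σ hs]
      rfl
  · refine Finsupp.ext fun τ => ?_
    refine ((twG (DR N) X).dd_apply' y (X.F (n + 2)) ys τ).trans ?_
    refine DR_ext fun z => ?_
    rw [map_add, map_sum, dev_d, h0.d]
    have h4 : dev N 0 (y τ) = 0 := map_zero (yl τ)
    rw [h4, zero_add]
    change ∑ σ ∈ X.F (n + 2), yl σ (X.c σ τ • z) = fx τ z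
    by_cases hτ : X.s τ = n + 1
    · have hφ : (Pi.single τ (X.e τ • z) : X.ι → N.X) ∈ W := by
        constructor
        · intro σ hσ
          exact Pi.single_eq_of_ne (by rintro rfl; exact hσ hτ) _
        · intro σ
          by_cases h : σ = τ
          · subst h
            rw [Pi.single_eq_same, lmul_apply, smul_smul, X.e_idem]
          · rw [Pi.single_eq_of_ne h, map_zero]
      have h6 := hmu' _ hφ
      rw [lam_apply, Finset.sum_eq_single τ (fun σ _ hσ => by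
        rw [Pi.single_eq_of_ne hσ, map_zero]) (fun h => absurd ((X.mem_F _ _).2 (by omega)) h),
        Pi.single_eq_same, xe] at h6
      rw [← h6]
      have h7 : del (Pi.single τ (X.e τ • z)) =
          ∑ σ ∈ X.F (n + 2), (if X.s σ = n + 2 then Pi.single σ (X.e σ • X.c σ τ • z) else 0) := by
        funext ρ
        rw [Finset.sum_apply]
        by_cases hρ : X.s ρ = n + 2
        · rw [del_apply _ _ hρ, Finset.sum_eq_single τ (fun σ _ hσ => by
            rw [Pi.single_eq_of_ne hσ, smul_zero])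
            (fun h => absurd ((X.mem_F _ _).2 (by omega)) h), Pi.single_eq_same,
            Finset.sum_eq_single ρ (fun σ _ hσ => by
              split_ifs
              · exact Pi.single_eq_of_ne (Ne.symm hσ) _
              · rfl) (fun h => absurd ((X.mem_F _ _).2 (by omega)) h), if_pos hρ,
            Pi.single_eq_same, smul_smul, smul_smul, X.c_right, X.c_left]
        · rw [del_ne _ _ hρ]
          symm
          refine Finset.sum_eq_zero fun σ _ => ?_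
          split_ifs with h
          · exact Pi.single_eq_of_ne (by rintro rfl; exact hρ h) _
          · rfl
      rw [h7, map_sum]
      refine Finset.sum_congr rfl fun σ _ => ?_
      split_ifs with h
      · exact yl_pos σ _ h
      · rw [yl_neg σ h, map_zero]
        rfl
    · rw [xz τ hτ]
      refine Finset.sum_eq_zero fun σ _ => ?_
      by_cases hs : X.s σ = n + 2
      · rw [h0.bot (N.smul_mem (X.c_mem σ τ) (h0.top z)) (by omega), map_zero]
      · rw [yl_neg σ hs]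
        rfl

/-! ### `X''` -/

theorem homV (π : Par K) : HomV (C2f354.gpre π) := exV_gpre π

/-- **`exV` of `X''` over the window algebra** -/
theorem exV_pre (π : Par K) (m : ℕ) (φ : (C2f354.pre π).ι → (VR π (-1)).VM)
    (h0 : ∀ σ, (C2f354.pre π).s σ ≠ m + 1 → φ σ = 0) (he : ∀ σ, (C2f354.pre π).e σ • φ σ = φ σ)
    (hc : ∀ σ, (C2f354.pre π).s σ = m + 2 →
      ∑ τ ∈ (C2f354.pre π).F (m + 1), (C2f354.pre π).c σ τ • φ τ = 0) :
    ∃ ψ : (C2f354.pre π).ι → (VR π (-1)).VM, (∀ σ, (C2f354.pre π).s σ ≠ m → ψ σ = 0) ∧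
      ∀ σ, (C2f354.pre π).s σ = m + 1 →
        φ σ = ∑ τ ∈ (C2f354.pre π).F m, (C2f354.pre π).c σ τ • ψ τ :=
  GPre_exV (C2f354.gpre π) (homV π) m φ h0 he hc

/-- an honest module sits in degree `0` -/
theorem deg0_hon {A : DGA K} {V : Type} [AddCommGroup V] [Module K V] [Module A.C V]
    [IsScalarTower K A.C V] (hpos : ∀ k : ℤ, 0 < k → ∀ a ∈ A.G k, ∀ w : V, a • w = 0)
    (hD : ∀ (a : A.C) (w : V), A.D a • w = 0) : Deg0 (Res255.honL A V hpos hD) where
  top x := by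
    have h : ∀ y : V, y ∈ (if (0 : ℤ) = 0 then (⊤ : Submodule K V) else ⊥) := by
      intro y
      rw [if_pos rfl]
      exact Submodule.mem_top
    exact h x
  bot hx hk := Res255.mem_hon hpos hD hk hx

/-- the scalar tower over `w.dga.C` -/
instance towC {w : WD K} (M : WMod w) : IsScalarTower K w.dga.C M.VM :=
  inferInstanceAs (IsScalarTower K w.Win M.VM)

/-- **`DR V_{-1} ⊗ X''` is exact in positive degrees** (over `L''`) -/
theorem exAt_X2 (π : Par K)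
    (hpos : ∀ k : ℤ, 0 < k → ∀ a ∈ (WR π).dga.G k, ∀ u : (VR π (-1)).VM, a • u = 0)
    (hD : ∀ (a : (WR π).dga.C) (u : (VR π (-1)).VM), (WR π).dga.D a • u = 0) (k : ℤ)
    (hk : 1 ≤ k) :
    ExAt (tG (DR (Res255.honL (WR π).dga (VR π (-1)).VM hpos hD)) (Res255.lcPre (C2f354.pre π)))
      k :=
  exAt_of_exV _ (deg0_hon hpos hD) (Res255.lcPre (C2f354.pre π)) (exV_pre π) k hk

end Crest.Agent.R186.C3w788
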