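import Crest.Agent.R186.KHev_302

/-!
Row 186 (A), leaf A.KH (helper302): the left dg module `KK`, the evaluation, the input of the
adapter.
-/

set_option autoImplicit false
set_option linter.style.haveILetI false

namespace Crest.Agent.R186.KHev302

open Hat827 Win810 Adapt186

variable {K : Type} [Field K]

namespace CE

variable {w : WD K} (E : CE w)

/-- the cell module `KK` -/
def KK : Submodule K (w.Ob → E.ka → E.B) where
  carrier := {x | ∀ i c, x i c ∈ E.EB (w.P i - w.P (E.oc c)) (w.A i - w.A (E.oc c))}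
  add_mem' hx hy i c := Submodule.add_mem _ (hx i c) (hy i c)
  zero_mem' _ _ := Submodule.zero_mem _
  smul_mem' r _ hx i c := Submodule.smul_mem _ r (hx i c)

variable {E}

theorem mem_KK {x : w.Ob → E.ka → E.B} :
    x ∈ E.KK ↔ ∀ i c, x i c ∈ E.EB (w.P i - w.P (E.oc c)) (w.A i - w.A (E.oc c)) := Iff.rfl

instance finKK : Module.Finite K E.KK := by
  haveI : ∀ (i : w.Ob) (c : E.ka),
      Module.Finite K (E.EB (w.P i - w.P (E.oc c)) (w.A i - w.A (E.oc c))) :=
    fun i c => finEB _ _ _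
  let f : E.KK →ₗ[K] (∀ (i : w.Ob) (c : E.ka),
      E.EB (w.P i - w.P (E.oc c)) (w.A i - w.A (E.oc c))) :=
    { toFun := fun x i c => ⟨x.1 i c, x.2 i c⟩
      map_add' := fun _ _ => rfl
      map_smul' := fun _ _ => rfl }
  refine Module.Finite.of_injective f ?_
  intro a b hab
  apply Subtype.ext
  funext i c
  exact congrArg Subtype.val (congrFun (congrFun hab i) c)

/-- homogeneous elements of `KK` -/
def hK (k : ℤ) (x : E.KK) : Prop := ∀ i c, x.1 i c ∈
  E.pb (w.P i - w.P (E.oc c)) (w.A i - w.A (E.oc c)) (k - E.cd c)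

/-- the projections of `KK` -/
def prK (k : ℤ) : E.KK →ₗ[K] E.KK where
  toFun x := ⟨fun i c => E.prB (k - E.cd c) (x.1 i c), fun i c => pb_le _ _ _ (EB_pr _ (x.2 i c))⟩
  map_add' x y := by
    apply Subtype.ext
    funext i c
    exact map_add (E.prB _) _ _
  map_smul' r x := by
    apply Subtype.ext
    funext i c
    exact map_smul (E.prB _) _ _

theorem prK_apply (k : ℤ) (x : E.KK) (i : w.Ob) (c : E.ka) :
    (prK k x).1 i c = E.prB (k - E.cd c) (x.1 i c) := rfl

variable (E)

/-- the grading of `KK` -/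
def gK : GS K E.KK where
  N := E.nb + E.s0.toNat
  pr := prK
  pr_pr k x := by
    apply Subtype.ext
    funext i c
    rw [prK_apply, prK_apply]
    exact E.pr_same (EB_pr _ (x.2 i c))
  pr_ne k l x h := by
    apply Subtype.ext
    funext i c
    rw [prK_apply, prK_apply]
    exact E.pr_diff (EB_pr _ (x.2 i c)) (fun h' => h (by omega))
  total x := by
    apply Subtype.ext
    rw [AddSubmonoidClass.coe_finsetSum]
    funext i c
    rw [Finset.sum_apply, Finset.sum_apply]
    have h1 := E.cd_le c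
    have h := sum_pr (E := E) (i := i) (j := E.oc c) (P := w.P i - w.P (E.oc c))
      (E.nb + E.s0.toNat) (-(E.cd c : ℤ)) (by omega) (by push_cast; omega) (x.2 i c)
    conv_rhs => rw [← h]
    refine Finset.sum_congr rfl fun k _ => ?_
    rw [prK_apply, show ((k : ℕ) : ℤ) - E.cd c = ((k : ℕ) : ℤ) + (-(E.cd c : ℤ)) by ring]

variable {E}

theorem mem_gK {k : ℤ} {x : E.KK} : x ∈ E.gK.G k ↔ hK k x := by
  rw [GS.mem_G]
  constructor
  · intro h i c
    rw [← h]
    exact EB_pr _ (x.2 i c)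
  · intro h
    apply Subtype.ext
    funext i c
    exact E.pr_same (h i c)

/-- the left action -/
def LK : w.Win →ₗ[K] E.KK →ₗ[K] E.KK where
  toFun m :=
    { toFun := fun x => ⟨fun i c => ∑ j, E.p (m.1 i j) * x.1 j c, by
        intro i c
        refine Submodule.sum_mem _ fun j _ => ?_
        have h := EB_mul (EB_p (E := E) (m.2 i j)) (x.2 j c)
        rwa [show w.P i - w.P j + (w.P j - w.P (E.oc c)) = w.P i - w.P (E.oc c) by ring,
          show w.A i - w.A j + (w.A j - w.A (E.oc c)) = w.A i - w.A (E.oc c) by ring] at h⟩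
      map_add' := by
        intro x y
        apply Subtype.ext
        funext i c
        change ∑ j, E.p (m.1 i j) * (x.1 j c + y.1 j c) = _ + _
        rw [← Finset.sum_add_distrib]
        exact Finset.sum_congr rfl fun j _ => mul_add _ _ _
      map_smul' := by
        intro r x
        apply Subtype.ext
        funext i c
        change ∑ j, E.p (m.1 i j) * (r • x.1 j c) = r • ∑ j, E.p (m.1 i j) * x.1 j c
        rw [Finset.smul_sum]
        exact Finset.sum_congr rfl fun j _ => mul_smul_comm _ _ _ }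
  map_add' a b := by
    apply LinearMap.ext
    intro x
    apply Subtype.ext
    funext i c
    change ∑ j, E.p (a.1 i j + b.1 i j) * x.1 j c =
      ∑ j, E.p (a.1 i j) * x.1 j c + ∑ j, E.p (b.1 i j) * x.1 j c
    rw [← Finset.sum_add_distrib]
    exact Finset.sum_congr rfl fun j _ => by rw [map_add, add_mul]
  map_smul' r a := by
    apply LinearMap.ext
    intro x
    apply Subtype.ext
    funext i c
    change ∑ j, E.p (r • a.1 i j) * x.1 j c = r • ∑ j, E.p (a.1 i j) * x.1 j c
    rw [Finset.smul_sum]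
    exact Finset.sum_congr rfl fun j _ => by rw [map_smul, smul_mul_assoc]

@[simp] theorem LK_apply (m : w.Win) (x : E.KK) (i : w.Ob) (c : E.ka) :
    (LK m x).1 i c = ∑ j, E.p (m.1 i j) * x.1 j c := rfl

theorem LK_one (x : E.KK) : LK (E := E) 1 x = x := by
  apply Subtype.ext
  funext i c
  rw [LK_apply, Finset.sum_eq_single i]
  · change E.p ((1 : Matrix w.Ob w.Ob w.S) i i) * x.1 i c = _
    rw [Matrix.one_apply_eq, map_one, one_mul]
  · intro j _ hj
    change E.p ((1 : Matrix w.Ob w.Ob w.S) i j) * x.1 j c = _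
    rw [Matrix.one_apply_ne (Ne.symm hj), map_zero, zero_mul]
  · intro h
    exact absurd (Finset.mem_univ _) h

theorem LK_mul (a b : w.Win) (x : E.KK) : LK (a * b) x = LK a (LK b x) := by
  apply Subtype.ext
  funext i c
  rw [LK_apply, LK_apply]
  simp only [LK_apply]
  change ∑ j, E.p ((a.1 * b.1) i j) * x.1 j c = _
  simp only [Matrix.mul_apply, map_sum, map_mul, Finset.mul_sum, Finset.sum_mul]
  rw [Finset.sum_comm]
  exact Finset.sum_congr rfl fun i _ => Finset.sum_congr rfl fun l _ => by rw [mul_assoc]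

theorem LK_deg {m k : ℤ} {a : w.Win} {x : E.KK} (ha : a ∈ w.G m) (hx : x ∈ E.gK.G k) :
    LK a x ∈ E.gK.G (k + m) := by
  rw [mem_gK] at hx ⊢
  intro i c
  rw [LK_apply]
  refine Submodule.sum_mem _ fun j _ => ?_
  have h := E.pb_mul (E.p_mem (ha i j)) (hx j c)
  rwa [show w.P i - w.P j + (w.P j - w.P (E.oc c)) = w.P i - w.P (E.oc c) by ring,
    show w.A i - w.A j + (w.A j - w.A (E.oc c)) = w.A i - w.A (E.oc c) by ring,
    show m + (k - (E.cd c : ℤ)) = k + m - E.cd c by ring] at h

/-- the differential of `KK` -/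
def dK : E.KK →ₗ[K] E.KK where
  toFun x := ⟨fun i c' => E.DB (x.1 i c') + ∑ c, x.1 i c * E.cc c c', by
    intro i c'
    refine Submodule.add_mem _ (EB_D (x.2 i c')) (Submodule.sum_mem _ fun c _ => ?_)
    have h := EB_mul (x.2 i c) (pb_le _ _ _ (E.cc_mem c c'))
    rwa [show w.P i - w.P (E.oc c) + (w.P (E.oc c) - w.P (E.oc c')) =
        w.P i - w.P (E.oc c') by ring,
      show w.A i - w.A (E.oc c) + (w.A (E.oc c) - w.A (E.oc c')) = w.A i - w.A (E.oc c') by
        ring] at h⟩
  map_add' x y := by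
    apply Subtype.ext
    funext i c'
    change E.DB (x.1 i c' + y.1 i c') + ∑ c, (x.1 i c + y.1 i c) * E.cc c c' =
      (E.DB (x.1 i c') + ∑ c, x.1 i c * E.cc c c') + (E.DB (y.1 i c') + ∑ c, y.1 i c * E.cc c c')
    simp only [map_add, add_mul, Finset.sum_add_distrib]
    abel
  map_smul' r x := by
    apply Subtype.ext
    funext i c'
    change E.DB (r • x.1 i c') + ∑ c, (r • x.1 i c) * E.cc c c' =
      r • (E.DB (x.1 i c') + ∑ c, x.1 i c * E.cc c c')
    simp only [map_smul, smul_mul_assoc, ← Finset.smul_sum, smul_add]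

@[simp] theorem dK_apply (x : E.KK) (i : w.Ob) (c' : E.ka) :
    (dK x).1 i c' = E.DB (x.1 i c') + ∑ c, x.1 i c * E.cc c c' := rfl

theorem dK_deg {k : ℤ} {x : E.KK} (hx : x ∈ E.gK.G k) : dK x ∈ E.gK.G (k - 1) := by
  rw [mem_gK] at hx ⊢
  intro i c'
  rw [dK_apply]
  refine Submodule.add_mem _ ?_ (Submodule.sum_mem _ fun c _ => ?_)
  · have h := E.DB_mem (hx i c')
    rwa [show k - (E.cd c' : ℤ) - 1 = k - 1 - E.cd c' by ring] at h
  · have h := E.pb_mul (hx i c) (E.cc_mem c c')
    rwa [show w.P i - w.P (E.oc c) + (w.P (E.oc c) - w.P (E.oc c')) =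
        w.P i - w.P (E.oc c') by ring,
      show w.A i - w.A (E.oc c) + (w.A (E.oc c) - w.A (E.oc c')) = w.A i - w.A (E.oc c') by
        ring,
      show k - (E.cd c : ℤ) + ((E.cd c : ℤ) - E.cd c' - 1) = k - 1 - E.cd c' by ring] at h

theorem dK_dK (x : E.KK) : dK (dK x) = 0 := by
  apply Subtype.ext
  funext i c'
  rw [dK_apply]
  simp only [dK_apply, map_add, map_sum, E.DB_DB, E.DB_mul, zero_add, add_mul,
    Finset.sum_add_distrib, Finset.sum_mul]
  have h : ∑ c, x.1 i c * E.DB (E.cc c c') + ∑ c, ∑ c'', x.1 i c'' * E.cc c'' c * E.cc c c' =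
      0 := by
    rw [Finset.sum_comm (f := fun c c'' => x.1 i c'' * E.cc c'' c * E.cc c c'),
      ← Finset.sum_add_distrib]
    refine Finset.sum_eq_zero fun c _ => ?_
    have h1 := congrArg (x.1 i c * ·) (E.mc c c')
    simp only [mul_add, mul_zero, Finset.mul_sum] at h1
    rw [← h1]
    congr 1
    exact Finset.sum_congr rfl fun i _ => by rw [mul_assoc]
  have h2 := E.two (∑ c, E.DB (x.1 i c) * E.cc c c')
  change _ = (0 : E.B)
  calc _ = (∑ c, x.1 i c * E.DB (E.cc c c') + ∑ c, ∑ c'', x.1 i c'' * E.cc c'' c * E.cc c c') +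
        (∑ c, E.DB (x.1 i c) * E.cc c c' + ∑ c, E.DB (x.1 i c) * E.cc c c') := by abel
    _ = 0 := by rw [h, h2, add_zero]

theorem LK_D (a : w.Win) (x : E.KK) : LK (w.DW a) x = dK (LK a x) + LK a (dK x) := by
  apply Subtype.ext
  funext i c'
  change (LK (w.DW a) x).1 i c' = (dK (LK a x)).1 i c' + (LK a (dK x)).1 i c'
  simp only [dK_apply, LK_apply, WD.DW_apply, E.p_D, map_sum, E.DB_mul, mul_add,
    Finset.sum_add_distrib, Finset.sum_mul, Finset.mul_sum, mul_assoc]
  rw [Finset.sum_comm (f := fun c j => E.p (a.1 i j) * (x.1 j c * E.cc c c'))]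
  have h1 := E.two (∑ j, E.p (a.1 i j) * E.DB (x.1 j c'))
  have h2 := E.two (∑ j, ∑ c, E.p (a.1 i j) * (x.1 j c * E.cc c c'))
  calc _ = (∑ j, E.DB (E.p (a.1 i j)) * x.1 j c') +
        (∑ j, E.p (a.1 i j) * E.DB (x.1 j c') + ∑ j, E.p (a.1 i j) * E.DB (x.1 j c')) +
        (∑ j, ∑ c, E.p (a.1 i j) * (x.1 j c * E.cc c c') +
          ∑ j, ∑ c, E.p (a.1 i j) * (x.1 j c * E.cc c c')) := by rw [h1, h2, add_zero, add_zero]
    _ = _ := by abel

/-! ### the evaluation -/

theorem o_EB {i j : w.Ob} {b : E.B} (hb : b ∈ E.EB (w.P i - w.P j + 1) (w.A i - w.A j)) :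
    E.o b ∈ w.E i j := by
  have key : E.EB (w.P i - w.P j + 1) (w.A i - w.A j) ≤ (w.E i j).comap E.o := by
    refine EB_ind fun C x hx => ?_
    have h := E.o_mem hx
    rw [show w.P i - w.P j + 1 - 1 = w.P i - w.P j by ring] at h
    exact WD.q_le i j (C + E.s0) h
  exact key hb

/-- the pairing before `o` -/
def pq (x : E.KK) (η : E.H) (i j : w.Ob) : E.B := ∑ c, x.1 i c * η.1 c j

theorem pq_mem (x : E.KK) (η : E.H) (i j : w.Ob) :
    pq x η i j ∈ E.EB (w.P i - w.P j + 1) (w.A i - w.A j) := by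
  refine Submodule.sum_mem _ fun c _ => ?_
  have h := EB_mul (x.2 i c) (η.2 c j)
  rwa [show w.P i - w.P (E.oc c) + (w.P (E.oc c) - w.P j + 1) = w.P i - w.P j + 1 by ring,
    show w.A i - w.A (E.oc c) + (w.A (E.oc c) - w.A j) = w.A i - w.A j by ring] at h

/-- the evaluation -/
def evK : E.KK →ₗ[K] E.H →ₗ[K] w.Win :=
  LinearMap.mk₂ K (fun x η => ⟨Matrix.of fun i j => E.o (pq x η i j),
      fun i j => o_EB (pq_mem x η i j)⟩)
    (by
      intro x x' η
      apply Subtype.ext
      ext i j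
      change E.o (pq (x + x') η i j) = E.o (pq x η i j) + E.o (pq x' η i j)
      rw [← map_add]
      congr 1
      unfold pq
      rw [← Finset.sum_add_distrib]
      exact Finset.sum_congr rfl fun c _ => add_mul _ _ _)
    (by
      intro r x η
      apply Subtype.ext
      ext i j
      change E.o (pq (r • x) η i j) = r • E.o (pq x η i j)
      rw [← map_smul]
      congr 1
      unfold pq
      rw [Finset.smul_sum]
      exact Finset.sum_congr rfl fun c _ => smul_mul_assoc _ _ _)
    (by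
      intro x η η'
      apply Subtype.ext
      ext i j
      change E.o (pq x (η + η') i j) = E.o (pq x η i j) + E.o (pq x η' i j)
      rw [← map_add]
      congr 1
      unfold pq
      rw [← Finset.sum_add_distrib]
      exact Finset.sum_congr rfl fun c _ => mul_add _ _ _)
    (by
      intro r x η
      apply Subtype.ext
      ext i j
      change E.o (pq x (r • η) i j) = r • E.o (pq x η i j)
      rw [← map_smul]
      congr 1
      unfold pq
      rw [Finset.smul_sum]
      exact Finset.sum_congr rfl fun c _ => mul_smul_comm _ _ _)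

@[simp] theorem evK_apply (x : E.KK) (η : E.H) (i j : w.Ob) :
    (evK x η).1 i j = E.o (∑ c, x.1 i c * η.1 c j) := rfl

theorem evK_l (a : w.Win) (x : E.KK) (η : E.H) : evK (LK a x) η = a * evK x η := by
  apply Subtype.ext
  ext i j
  change (evK (LK a x) η).1 i j = (a.1 * (evK x η).1) i j
  rw [evK_apply, Matrix.mul_apply]
  simp only [evK_apply, E.mul_o, LK_apply, Finset.sum_mul, Finset.mul_sum, map_sum, mul_assoc]
  rw [Finset.sum_comm]

theorem evK_r (a : w.Win) (x : E.KK) (η : E.H) : evK x (RH a η) = evK x η * a := by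
  apply Subtype.ext
  ext i j
  change (evK x (RH a η)).1 i j = ((evK x η).1 * a.1) i j
  rw [evK_apply, Matrix.mul_apply]
  simp only [evK_apply, E.o_mul, RH_apply, Finset.sum_mul, Finset.mul_sum, map_sum, mul_assoc]
  rw [Finset.sum_comm]

theorem evK_D (x : E.KK) (η : E.H) : w.DW (evK x η) = evK (dK x) η + evK x (dH η) := by
  apply Subtype.ext
  ext i j
  change w.D ((evK x η).1 i j) = (evK (dK x) η).1 i j + (evK x (dH η)).1 i j
  rw [evK_apply, evK_apply, evK_apply, E.D_o, ← map_add]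
  congr 1
  simp only [dK_apply, dH_apply, map_sum, E.DB_mul, add_mul, mul_add, Finset.sum_add_distrib,
    Finset.sum_mul, Finset.mul_sum, mul_assoc]
  rw [Finset.sum_comm (f := fun c c' => x.1 i c' * (E.cc c' c * η.1 c j))]
  have h1 := E.two (∑ c, ∑ c', x.1 i c * (E.cc c c' * η.1 c' j))
  calc _ = (∑ c, E.DB (x.1 i c) * η.1 c j + ∑ c, x.1 i c * E.DB (η.1 c j)) +
        (∑ c, ∑ c', x.1 i c * (E.cc c c' * η.1 c' j) +
          ∑ c, ∑ c', x.1 i c * (E.cc c c' * η.1 c' j)) := by rw [h1, add_zero]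
    _ = _ := by abel

theorem evK_deg {k l : ℤ} {x : E.KK} {η : E.H} (hx : x ∈ E.gK.G k) (hη : η ∈ E.gH.G l) :
    evK x η ∈ w.G (k + l) := by
  rw [mem_gK] at hx
  rw [mem_gH] at hη
  intro i j
  rw [evK_apply, map_sum]
  refine Submodule.sum_mem _ fun c _ => ?_
  have h := E.o_mem (E.pb_mul (hx i c) (hη c j))
  rwa [show w.P i - w.P (E.oc c) + (w.P (E.oc c) - w.P j + 1) - 1 = w.P i - w.P j by ring,
    show w.A i - w.A (E.oc c) + (w.A (E.oc c) - w.A j) = w.A i - w.A j by ring,
    show k - (E.cd c : ℤ) + (l - E.s0 + E.cd c) + E.s0 = k + l by ring] at h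

theorem p_ev (x : E.KK) (η : E.H) (i j : w.Ob) : E.p ((evK x η).1 i j) = 0 := by
  rw [evK_apply, E.p_o]

theorem evK_pL (x : E.KK) (η : E.H) (y : E.KK) : LK (evK x η) y = 0 := by
  apply Subtype.ext
  funext i c
  rw [LK_apply]
  exact Finset.sum_eq_zero fun j _ => by rw [p_ev, zero_mul]

theorem evK_pR (x : E.KK) (η : E.H) (η' : E.H) : RH (evK x η) η' = 0 := by
  apply Subtype.ext
  funext c j
  rw [RH_apply]
  exact Finset.sum_eq_zero fun i _ => by rw [p_ev, mul_zero]

variable (E)

/-- **the input of the adapter** -/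
def toIn : In w.dga where
  Y := E.KK
  Z := E.H
  gr := E.gK
  gs := E.gH
  L := LK
  L_one := LK_one
  L_mul := LK_mul
  Rr := RH
  R_one := RH_one
  R_mul := RH_mul
  L_deg := LK_deg
  R_deg := RH_deg
  dY := dK
  dZ := dH
  dY_deg := dK_deg
  dZ_deg := dH_deg
  dYY := dK_dK
  dZZ := dH_dH
  L_D := LK_D
  R_D := RH_D
  ev := evK
  ev_l := evK_l
  ev_r := evK_r
  ev_D := evK_D
  ev_deg := evK_deg
  pL := evK_pL
  pR := evK_pR

/-- **the cone data over the window algebra** -/
noncomputable def data : ConeAlg462.Data w.dga := E.toIn.data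

end CE

end Crest.Agent.R186.KHev302
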