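import Crest.Agent.R186.KHev_302
import Crest.Agent.R186.Frame_515

/-!
Row 186 (A), (H) (helper362): `H ⊗ X` as the total complex of the rows over the cells of `KK`.
-/

set_option autoImplicit false
set_option linter.style.haveILetI false
set_option linter.unusedSectionVars false
set_option linter.unusedSimpArgs false

namespace Crest.Agent.R186.HB362

open Hat827 Win810 KHev302 Frame515 MulOpposite Adapt186

variable {K : Type} [Field K]

/-! ### right dg modules from an action map -/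

/-- a right dg module from an action map -/
def mkRM {A : DGA K} (X : Type) [AddCommGroup X] [Module K X] (gr : ℤ → Submodule K X)
    (d : X →ₗ[K] X) (d_mem : ∀ {k : ℤ} {x : X}, x ∈ gr k → d x ∈ gr (k - 1))
    (d_d : ∀ x : X, d (d x) = 0) (Rr : A.C →ₗ[K] X →ₗ[K] X) (R_one : ∀ x, Rr 1 x = x)
    (R_mul : ∀ a b x, Rr (a * b) x = Rr b (Rr a x))
    (R_deg : ∀ {k l : ℤ} {a : A.C} {x : X}, a ∈ A.G k → x ∈ gr l → Rr a x ∈ gr (k + l))
    (R_D : ∀ a x, d (Rr a x) = Rr (A.D a) x + Rr a (d x)) : RM A :=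
  letI inst : Module A.Cᵐᵒᵖ X :=
    { smul := fun a x => Rr a.unop x
      one_smul := fun x => R_one x
      mul_smul := fun a b x => R_mul b.unop a.unop x
      smul_zero := fun a => map_zero (Rr a.unop)
      smul_add := fun a x y => map_add (Rr a.unop) x y
      add_smul := fun a b x => by
        change Rr (a.unop + b.unop) x = _
        rw [map_add]
        rfl
      zero_smul := fun x => by
        change Rr 0 x = 0
        rw [map_zero]
        rfl }
  { X := X
    gr := gr
    d := d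
    d_mem := d_mem
    d_d := d_d
    act := inst
    tower := ⟨fun r a x => by
      change Rr (r • a.unop) x = r • Rr a.unop x
      rw [map_smul]
      rfl⟩
    smul_mem := R_deg
    leib := R_D }

variable {w : WD K} (E : CE w)

/-- **`H` as a right dg module** -/
def HM : RM w.dga :=
  mkRM (A := w.dga) E.H (fun k => E.gH.G k) CE.dH (fun h => CE.dH_deg h) CE.dH_dH CE.RH CE.RH_one
    CE.RH_mul (fun {k l} {a x} ha hx => by
      have := CE.RH_deg (E := E) (m := k) (k := l) ha hx
      rwa [add_comm] at this)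
    (fun a x => by
      have h := CE.RH_D a x
      have h2 : CE.RH a (CE.dH x) + CE.RH a (CE.dH x) = 0 := by
        apply Subtype.ext
        funext c j
        exact E.two _
      change CE.dH (CE.RH a x) = CE.RH (w.DW a) x + CE.RH a (CE.dH x)
      rw [h, add_assoc, h2, add_zero])

/-! ### the rows -/

/-- functions on the window with values in `B`, position `(p, a)` -/
def Row (p a : ℤ) : Submodule K (w.Ob → E.B) where
  carrier := {f | ∀ j, f j ∈ E.EB (p - w.P j) (a - w.A j)}
  add_mem' hx hy j := Submodule.add_mem _ (hx j) (hy j)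
  zero_mem' _ := Submodule.zero_mem _
  smul_mem' r _ hx j := Submodule.smul_mem _ r (hx j)

variable {E}

theorem row_ext {p a : ℤ} {f g : Row E p a} (h : ∀ j, f.1 j = g.1 j) : f = g :=
  Subtype.ext (funext h)

theorem row_two {p a : ℤ} (f : Row E p a) : f + f = 0 := row_ext fun j => E.two (f.1 j)

variable (E)

/-- homogeneous elements -/
def rowG (p a m : ℤ) : Submodule K (Row E p a) where
  carrier := {f | ∀ j, f.1 j ∈ E.pb (p - w.P j) (a - w.A j) m}
  add_mem' hx hy j := Submodule.add_mem _ (hx j) (hy j)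
  zero_mem' _ := Submodule.zero_mem _
  smul_mem' r _ hx j := Submodule.smul_mem _ r (hx j)

variable {E}

theorem mem_rowG {p a m : ℤ} {f : Row E p a} :
    f ∈ rowG E p a m ↔ ∀ j, f.1 j ∈ E.pb (p - w.P j) (a - w.A j) m := Iff.rfl

variable (E)

/-- the differential of a row -/
def rowD (p a : ℤ) : Row E p a →ₗ[K] Row E p a where
  toFun f := ⟨fun j => E.DB (f.1 j), fun j => CE.EB_D (f.2 j)⟩
  map_add' _ _ := row_ext fun _ => map_add E.DB _ _
  map_smul' _ _ := row_ext fun _ => map_smul E.DB _ _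

/-- the right action on a row -/
def rowR (p a : ℤ) : w.Win →ₗ[K] Row E p a →ₗ[K] Row E p a where
  toFun m :=
    { toFun := fun f => ⟨fun j => ∑ i, f.1 i * E.p (m.1 i j), by
        intro j
        refine Submodule.sum_mem _ fun i _ => ?_
        have h := CE.EB_mul (f.2 i) (CE.EB_p (E := E) (m.2 i j))
        rwa [show p - w.P i + (w.P i - w.P j) = p - w.P j by ring,
          show a - w.A i + (w.A i - w.A j) = a - w.A j by ring] at h⟩
      map_add' := by
        intro x y
        refine row_ext fun j => ?_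
        change ∑ i, (x.1 i + y.1 i) * E.p (m.1 i j) = _ + _
        rw [← Finset.sum_add_distrib]
        exact Finset.sum_congr rfl fun i _ => add_mul _ _ _
      map_smul' := by
        intro r x
        refine row_ext fun j => ?_
        change ∑ i, (r • x.1 i) * E.p (m.1 i j) = r • ∑ i, x.1 i * E.p (m.1 i j)
        rw [Finset.smul_sum]
        exact Finset.sum_congr rfl fun i _ => smul_mul_assoc _ _ _ }
  map_add' a b := by
    refine LinearMap.ext fun f => row_ext fun j => ?_
    change ∑ i, f.1 i * E.p (a.1 i j + b.1 i j) =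
      ∑ i, f.1 i * E.p (a.1 i j) + ∑ i, f.1 i * E.p (b.1 i j)
    rw [← Finset.sum_add_distrib]
    exact Finset.sum_congr rfl fun i _ => by rw [map_add, mul_add]
  map_smul' r a := by
    refine LinearMap.ext fun f => row_ext fun j => ?_
    change ∑ i, f.1 i * E.p (r • a.1 i j) = r • ∑ i, f.1 i * E.p (a.1 i j)
    rw [Finset.smul_sum]
    exact Finset.sum_congr rfl fun i _ => by rw [map_smul, mul_smul_comm]

variable {E}

theorem rowD_apply {p a : ℤ} (f : Row E p a) (j : w.Ob) : (rowD E p a f).1 j = E.DB (f.1 j) := rfl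

theorem rowR_apply {p a : ℤ} (m : w.Win) (f : Row E p a) (j : w.Ob) :
    (rowR E p a m f).1 j = ∑ i, f.1 i * E.p (m.1 i j) := rfl

theorem rowR_one {p a : ℤ} (f : Row E p a) : rowR E p a 1 f = f := row_ext fun j => by
  rw [rowR_apply, Finset.sum_eq_single j]
  · change f.1 j * E.p ((1 : Matrix w.Ob w.Ob w.S) j j) = _
    rw [Matrix.one_apply_eq, map_one, mul_one]
  · intro i _ hi
    change f.1 i * E.p ((1 : Matrix w.Ob w.Ob w.S) i j) = _
    rw [Matrix.one_apply_ne hi, map_zero, mul_zero]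
  · intro h
    exact absurd (Finset.mem_univ _) h

theorem rowR_mul {p a : ℤ} (m n : w.Win) (f : Row E p a) :
    rowR E p a (m * n) f = rowR E p a n (rowR E p a m f) := row_ext fun j => by
  rw [rowR_apply, rowR_apply]
  simp only [rowR_apply]
  change ∑ i, f.1 i * E.p ((m.1 * n.1) i j) = _
  simp only [Matrix.mul_apply, map_sum, map_mul, Finset.mul_sum, Finset.sum_mul]
  rw [Finset.sum_comm]
  exact Finset.sum_congr rfl fun i _ => Finset.sum_congr rfl fun l _ => by rw [mul_assoc]

theorem rowR_mem {p a k l : ℤ} {m : w.Win} {f : Row E p a} (hm : m ∈ w.G k)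
    (hf : f ∈ rowG E p a l) : rowR E p a m f ∈ rowG E p a (k + l) := by
  intro j
  rw [rowR_apply]
  refine Submodule.sum_mem _ fun i _ => ?_
  have h := E.pb_mul (hf i) (E.p_mem (hm i j))
  rwa [show p - w.P i + (w.P i - w.P j) = p - w.P j by ring,
    show a - w.A i + (w.A i - w.A j) = a - w.A j by ring, add_comm l k] at h

theorem rowR_D {p a : ℤ} (m : w.Win) (f : Row E p a) :
    rowD E p a (rowR E p a m f) = rowR E p a (w.DW m) f + rowR E p a m (rowD E p a f) :=
  row_ext fun j => by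
    change E.DB (∑ i, f.1 i * E.p (m.1 i j)) =
      ∑ i, f.1 i * E.p ((w.DW m).1 i j) + ∑ i, E.DB (f.1 i) * E.p (m.1 i j)
    rw [map_sum, ← Finset.sum_add_distrib]
    refine Finset.sum_congr rfl fun i _ => ?_
    rw [E.DB_mul, WD.DW_apply, E.p_D, add_comm]

theorem rowD_mem {p a k : ℤ} {f : Row E p a} (hf : f ∈ rowG E p a k) :
    rowD E p a f ∈ rowG E p a (k - 1) := fun j => E.DB_mem (hf j)

theorem rowD_D {p a : ℤ} (f : Row E p a) : rowD E p a (rowD E p a f) = 0 :=
  row_ext fun _ => E.DB_DB _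

variable (E)

/-- **the row at position `(p, a)` as a right dg module** -/
def row (p a : ℤ) : RM w.dga :=
  mkRM (A := w.dga) (Row E p a) (rowG E p a) (rowD E p a) rowD_mem rowD_D (rowR E p a) rowR_one
    rowR_mul rowR_mem rowR_D

/-- left multiplication between rows -/
def lm {p a p' a' : ℤ} (b : E.B) (hb : b ∈ E.EB (p' - p) (a' - a)) :
    Row E p a →ₗ[K] Row E p' a' where
  toFun f := ⟨fun j => b * f.1 j, fun j => by
    have h := CE.EB_mul hb (f.2 j)
    rwa [show p' - p + (p - w.P j) = p' - w.P j by ring,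
      show a' - a + (a - w.A j) = a' - w.A j by ring] at h⟩
  map_add' x y := row_ext fun j => mul_add _ _ _
  map_smul' r x := row_ext fun j => mul_smul_comm _ _ _

variable {E}

theorem lm_apply {p a p' a' : ℤ} (b : E.B) (hb : b ∈ E.EB (p' - p) (a' - a)) (f : Row E p a)
    (j : w.Ob) : (lm E b hb f).1 j = b * f.1 j := rfl

theorem lm_R {p a p' a' : ℤ} (b : E.B) (hb : b ∈ E.EB (p' - p) (a' - a)) (m : w.Win)
    (f : Row E p a) : lm E b hb (rowR E p a m f) = rowR E p' a' m (lm E b hb f) :=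
  row_ext fun j => by
    rw [lm_apply, rowR_apply, rowR_apply, Finset.mul_sum]
    exact Finset.sum_congr rfl fun i _ => by rw [lm_apply, mul_assoc]

theorem lm_D {p a p' a' : ℤ} (b : E.B) (hb : b ∈ E.EB (p' - p) (a' - a)) (f : Row E p a) :
    rowD E p' a' (lm E b hb f) = lm E (E.DB b) (CE.EB_D hb) f + lm E b hb (rowD E p a f) :=
  row_ext fun _ => E.DB_mul _ _

theorem lm_G {p a p' a' k l : ℤ} {b : E.B} (hb : b ∈ E.EB (p' - p) (a' - a))
    (hbk : b ∈ E.pb (p' - p) (a' - a) k) {f : Row E p a} (hf : f ∈ rowG E p a l) :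
    lm E b hb f ∈ rowG E p' a' (k + l) := fun j => by
  have h := E.pb_mul hbk (hf j)
  rwa [show p' - p + (p - w.P j) = p' - w.P j by ring,
    show a' - a + (a - w.A j) = a' - w.A j by ring] at h

/-! ### the row complexes `U (p, a) = row ⊗ X` -/

variable (E) (X : LCells w.dga)

/-- `T (e_(p, a) B)` -/
noncomputable def U (p a : ℤ) : GC K := tG (row E p a) X

variable {X}

theorem U_mem {p a k : ℤ} {u : X.ι →₀ Row E p a} :
    u ∈ (U E X p a).gr k ↔ ∀ σ, u σ ∈ rowG E p a (k - X.s σ) ∧ rowR E p a (X.e σ) (u σ) = u σ :=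
  Iff.rfl

/-- the differential of `U (p, a)` -/
noncomputable def dU (p a : ℤ) : (X.ι →₀ Row E p a) →ₗ[K] (X.ι →₀ Row E p a) :=
  (U E X p a).d

theorem dU_apply' {p a : ℤ} (u : X.ι →₀ Row E p a) (S : Finset X.ι) (hS : u.support ⊆ S)
    (τ : X.ι) :
    dU E p a u τ = rowD E p a (u τ) + ∑ σ ∈ S, rowR E p a (X.c σ τ) (u σ) :=
  (twG (row E p a) X).dd_apply' u S hS τ

theorem dU_apply {p a : ℤ} (u : X.ι →₀ Row E p a) (τ : X.ι) :
    dU E p a u τ = rowD E p a (u τ) + ∑ σ ∈ u.support, rowR E p a (X.c σ τ) (u σ) :=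
  dU_apply' E u u.support (Finset.Subset.refl _) τ

/-- left multiplication on the row complexes -/
noncomputable def LU {p a p' a' : ℤ} (b : E.B) (hb : b ∈ E.EB (p' - p) (a' - a)) :
    (X.ι →₀ Row E p a) →ₗ[K] (X.ι →₀ Row E p' a') :=
  Finsupp.mapRange.linearMap (lm E b hb)

variable {E}

theorem LU_apply {p a p' a' : ℤ} (b : E.B) (hb : b ∈ E.EB (p' - p) (a' - a))
    (u : X.ι →₀ Row E p a) (σ : X.ι) : LU E b hb u σ = lm E b hb (u σ) := rfl

theorem LU_d {p a p' a' : ℤ} (b : E.B) (hb : b ∈ E.EB (p' - p) (a' - a))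
    (u : X.ι →₀ Row E p a) :
    dU E p' a' (LU E b hb u) = LU E (E.DB b) (CE.EB_D hb) u + LU E b hb (dU E p a u) := by
  ext τ : 1
  rw [dU_apply' E (LU E b hb u) u.support (Finsupp.support_mapRange (hf := map_zero _)),
    Finsupp.add_apply, LU_apply, LU_apply, LU_apply, dU_apply, map_add, map_sum, lm_D, add_assoc]
  congr 2
  exact Finset.sum_congr rfl fun σ _ => (lm_R b hb _ (u σ)).symm

theorem LU_mem {p a p' a' k l : ℤ} {b : E.B} (hb : b ∈ E.EB (p' - p) (a' - a))
    (hbk : b ∈ E.pb (p' - p) (a' - a) k) {u : X.ι →₀ Row E p a} (hu : u ∈ (U E X p a).gr l) :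
    LU E b hb u ∈ (U E X p' a').gr (l + k) := by
  intro σ
  obtain ⟨h1, h2⟩ := (U_mem E).1 hu σ
  constructor
  · have := lm_G hb hbk h1
    rwa [show k + (l - (X.s σ : ℤ)) = l + k - X.s σ by ring] at this
  · exact (lm_R b hb _ (u σ)).symm.trans (congrArg (lm E b hb) h2)

/-! ### `H ⊗ X` in terms of the rows -/

variable (E)

theorem cc_EB (c c' : E.ka) : E.cc c c' ∈
    E.EB (w.P (E.oc c) + 1 - (w.P (E.oc c') + 1)) (w.A (E.oc c) - w.A (E.oc c')) := by
  have h := CE.pb_le _ _ _ (E.cc_mem c c')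
  rwa [show w.P (E.oc c) - w.P (E.oc c') = w.P (E.oc c) + 1 - (w.P (E.oc c') + 1) by ring] at h

theorem cc_pb (c c' : E.ka) : E.cc c c' ∈
    E.pb (w.P (E.oc c) + 1 - (w.P (E.oc c') + 1)) (w.A (E.oc c) - w.A (E.oc c'))
      ((E.cd c : ℤ) - E.cd c' - 1) := by
  have h := E.cc_mem c c'
  rwa [show w.P (E.oc c) - w.P (E.oc c') = w.P (E.oc c) + 1 - (w.P (E.oc c') + 1) by ring] at h

/-- the component of `H` at the cell `c` -/
def pH (c : E.ka) : E.H →ₗ[K] Row E (w.P (E.oc c) + 1) (w.A (E.oc c)) where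
  toFun η := ⟨fun j => η.1 c j, fun j => by
    have h := η.2 c j
    rwa [show w.P (E.oc c) - w.P j + 1 = w.P (E.oc c) + 1 - w.P j by ring] at h⟩
  map_add' _ _ := rfl
  map_smul' _ _ := rfl

theorem pH_apply (c : E.ka) (η : E.H) (j : w.Ob) : (pH E c η).1 j = η.1 c j := rfl

/-- an element of `H` from its components -/
def mkH (f : ∀ c, Row E (w.P (E.oc c) + 1) (w.A (E.oc c))) : E.H :=
  ⟨fun c j => (f c).1 j, fun c j => by
    have h := (f c).2 j
    rwa [show w.P (E.oc c) + 1 - w.P j = w.P (E.oc c) - w.P j + 1 by ring] at h⟩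

variable {E}

theorem pH_mkH (f : ∀ c, Row E (w.P (E.oc c) + 1) (w.A (E.oc c))) (c : E.ka) :
    pH E c (mkH E f) = f c := rfl

theorem H_ext {η η' : E.H} (h : ∀ c, pH E c η = pH E c η') : η = η' := by
  apply Subtype.ext
  funext c j
  exact congrFun (congrArg Subtype.val (h c)) j

theorem pH_R (c : E.ka) (m : w.Win) (η : E.H) :
    pH E c (CE.RH m η) = rowR E _ _ m (pH E c η) := rfl

theorem pH_d (c : E.ka) (η : E.H) : pH E c (CE.dH η) =
    rowD E _ _ (pH E c η) + ∑ c', lm E (E.cc c c') (cc_EB E c c') (pH E c' η) := by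
  refine row_ext fun j => ?_
  have h : (rowD E _ _ (pH E c η) + ∑ c', lm E (E.cc c c') (cc_EB E c c') (pH E c' η)).1 j =
      E.DB (η.1 c j) + ∑ c', E.cc c c' * η.1 c' j := by
    rw [Submodule.coe_add, AddSubmonoidClass.coe_finsetSum, Pi.add_apply, Finset.sum_apply]
    rfl
  rw [h]
  rfl

theorem mem_gH_iff {k : ℤ} {η : E.H} :
    η ∈ E.gH.G k ↔ ∀ c, pH E c η ∈ rowG E _ _ (k - E.s0 + E.cd c) := by
  rw [CE.mem_gH]
  constructor
  · intro h c j
    have := h c j
    rwa [show w.P (E.oc c) - w.P j + 1 = w.P (E.oc c) + 1 - w.P j by ring] at this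
  · intro h c j
    have := h c j
    rwa [show w.P (E.oc c) + 1 - w.P j = w.P (E.oc c) - w.P j + 1 by ring] at this

variable (E X)

/-- the component of `H ⊗ X` at the cell `c` -/
noncomputable def PH (c : E.ka) :
    (X.ι →₀ E.H) →ₗ[K] (X.ι →₀ Row E (w.P (E.oc c) + 1) (w.A (E.oc c))) :=
  Finsupp.mapRange.linearMap (pH E c)

/-- the differential of `H ⊗ X` -/
noncomputable def dHX : (X.ι →₀ E.H) →ₗ[K] (X.ι →₀ E.H) := (tG (HM E) X).d

variable {E X}

theorem PH_apply (c : E.ka) (u : X.ι →₀ E.H) (σ : X.ι) : PH E X c u σ = pH E c (u σ) := rfl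

theorem PH_ext {u v : X.ι →₀ E.H} (h : ∀ c, PH E X c u = PH E X c v) : u = v := by
  ext σ : 1
  exact H_ext fun c => DFunLike.congr_fun (h c) σ

theorem PH_surj (f : ∀ c : E.ka, X.ι →₀ Row E (w.P (E.oc c) + 1) (w.A (E.oc c))) :
    ∃ u : X.ι →₀ E.H, ∀ c, PH E X c u = f c := by
  classical
  refine ⟨Finsupp.onFinset (Finset.univ.biUnion fun c => (f c).support)
    (fun σ => mkH E fun c => f c σ) ?_, fun c => ?_⟩
  · intro σ hσ
    by_contra hc
    apply hσ
    refine H_ext fun c => ?_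
    rw [pH_mkH, map_zero]
    by_contra h0
    exact hc (Finset.mem_biUnion.2 ⟨c, Finset.mem_univ _, Finsupp.mem_support_iff.2 h0⟩)
  · ext σ : 1
    rfl

theorem dHX_apply' (u : X.ι →₀ E.H) (S : Finset X.ι) (hS : u.support ⊆ S) (τ : X.ι) :
    dHX E X u τ = CE.dH (u τ) + ∑ σ ∈ S, CE.RH (X.c σ τ) (u σ) :=
  (twG (HM E) X).dd_apply' u S hS τ

/-- **the differential of `H ⊗ X` in components** -/
theorem PH_d (c : E.ka) (u : X.ι →₀ E.H) : PH E X c (dHX E X u) =
    dU E _ _ (PH E X c u) + ∑ c', LU E (E.cc c c') (cc_EB E c c') (PH E X c' u) := by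
  ext τ : 1
  rw [PH_apply, dHX_apply' u u.support (Finset.Subset.refl _), map_add, map_sum, pH_d,
    Finsupp.add_apply, dU_apply' E (PH E X c u) u.support
      (Finsupp.support_mapRange (hf := map_zero _)),
    Finset.sum_apply']
  simp only [pH_R, LU_apply, PH_apply]
  abel

theorem mem_HX_iff {k : ℤ} {u : X.ι →₀ E.H} : u ∈ (tG (HM E) X).gr k ↔
    ∀ c, PH E X c u ∈ (U E X (w.P (E.oc c) + 1) (w.A (E.oc c))).gr (k - E.s0 + E.cd c) := by
  constructor
  · intro h c σ
    have h1 : u σ ∈ E.gH.G (k - X.s σ) := (h σ).1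
    have h2 : CE.RH (X.e σ) (u σ) = u σ := (h σ).2
    constructor
    · have := mem_gH_iff.1 h1 c
      rwa [show k - (X.s σ : ℤ) - E.s0 + E.cd c = k - E.s0 + E.cd c - X.s σ by ring] at this
    · exact congrArg (pH E c) h2
  · intro h σ
    constructor
    · change u σ ∈ E.gH.G (k - X.s σ)
      refine mem_gH_iff.2 fun c => ?_
      have := ((U_mem E).1 (h c) σ).1
      rwa [show k - E.s0 + E.cd c - (X.s σ : ℤ) = k - (X.s σ : ℤ) - E.s0 + E.cd c by ring] at this
    · exact H_ext fun c => ((U_mem E).1 (h c) σ).2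

end Crest.Agent.R186.HB362
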