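import Crest.Agent.R186.KHr_302
import Crest.Agent.R186.HB_362

/-!
Row 186 (A) (helper683): the two structures `KH186.CE` and `KHev302.CE` are the same:
`CEc683.ev : KH186.CE w → KHev302.CE w`, and `H`, its grading, action, differential, 362's `HM` and
302's `Hrm` agree definitionally.
-/

set_option autoImplicit false

namespace Crest.Agent.R186.CEc683

open Hat827 Hat827.DGA Win810 Frame515 Adapt186

variable {K : Type} [Field K] {w : WD K}

/-- the conversion -/
def ev (E : KH186.CE w) : KHev302.CE w where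
  B := E.B
  two := E.two
  pb := E.pb
  pb_mul := E.pb_mul
  pb_neg := E.pb_neg
  nb := E.Nb
  pb_big i j P C h := E.pb_big P i j C h
  pb_fin := E.pb_fin
  prB := E.prB
  pr_same := E.prB_self
  pr_diff := fun h h' => E.prB_ne _ h h'
  DB := E.D'
  DB_mul := E.D'_mul
  DB_DB := E.D'_D'
  DB_mem := E.D'_mem
  p := E.p
  p_mem := E.p_mem
  p_D := E.p_D
  o := E.o
  s0 := E.s0
  o_mem := E.o_mem
  mul_o := E.mul_o
  o_mul := E.o_mul
  D_o := E.D_o
  p_o := E.p_o
  ka := E.κ
  oc := E.oc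
  cd := E.cd
  cd_le := E.cd_le
  cc := E.cc
  cc_mem := E.cc_mem
  mc := E.mc

variable (E : KH186.CE w)

theorem EB_eq (P A : ℤ) : (ev E).EB P A = E.EB P A := rfl

theorem H_eq : (ev E).H = E.H := rfl

theorem HM_eq : HB362.HM (ev E) = E.Hrm := rfl

theorem tG_eq (X : LCells w.dga) : tG (HB362.HM (ev E)) X = tG E.Hrm X := rfl

/-- acyclicity passes from 362's `H ⊗ X` to 302's -/
theorem ac_Hrm (X : LCells w.dga) (h : Ac (tG (HB362.HM (ev E)) X)) : Ac (tG E.Hrm X) := h

/-- the conversion backwards -/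
noncomputable def ve (E : KHev302.CE w) : KH186.CE w where
  B := E.B
  two := E.two
  pb := E.pb
  pb_mul := E.pb_mul
  pb_neg := E.pb_neg
  Nb := E.nb
  pb_big P i j C h := E.pb_big i j P C h
  pb_fin := E.pb_fin
  prB := E.prB
  prB_self := E.pr_same
  prB_ne := fun _ h h' => E.pr_diff h h'
  D' := E.DB
  D'_mul := E.DB_mul
  D'_D' := E.DB_DB
  D'_mem := E.DB_mem
  p := E.p
  p_mem := E.p_mem
  p_D := E.p_D
  o := E.o
  s0 := E.s0
  o_mem := E.o_mem
  mul_o := E.mul_o
  o_mul := E.o_mul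
  D_o := E.D_o
  p_o := E.p_o
  κ := E.ka
  dκ := Classical.decEq _
  oc := E.oc
  cd := E.cd
  cd_le := E.cd_le
  cc := E.cc
  cc_mem := E.cc_mem
  mc := E.mc

theorem ev_ve (E : KHev302.CE w) : ev (ve E) = E := rfl

end Crest.Agent.R186.CEc683
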