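import Crest.Agent.R186.KHc_302
import Crest.Agent.R186.KVc_186

/-!
Row 186 (A), leaf A.KH (helper302): the two concrete closing data (`KHc302.CEr`, `KHc186.CEr`) are equal.
-/

set_option autoImplicit false
set_option linter.style.haveILetI false

noncomputable section

namespace Crest.Agent.R186.CEeq302

open DefsQ830 PBW128 Win810 SM890 WL221 C2b44 Cells221 KH186

variable {K : Type} [Field K] (π : Par K)

theorem cpr_eq (k : ℤ) : (cpr k : N K →ₗ[K] N K) = KHc186.pN K k := by
  refine Finsupp.lhom_ext' fun ν => LinearMap.ext_ring ?_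
  change Finsupp.filter (fun ν : Ix => ((dCx ν : ℕ) : ℤ) = k) (Finsupp.single ν 1) =
    Finsupp.linearCombination K _ (Finsupp.single ν 1)
  rw [Finsupp.linearCombination_single, one_smul]
  split_ifs with h
  · exact Finsupp.filter_single_of_pos _ h
  · exact Finsupp.filter_single_of_neg _ h

theorem prRL_eq (k : ℤ) : KHc302.prRL π k = KHc186.pL π k := by
  refine LinearMap.ext fun r => ?_
  change prL π (Psi π (cpr k (PBW128.ev π r.1))) = prL π (Psi π (KHc186.pN K k (PBW128.ev π r.1)))
  rw [cpr_eq]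

/-- the closing data with another choice of projections -/
def mk' (s : ℕ) (hs : 5 ≤ s) (pr : ℤ → (RL π →ₗ[K] RL π))
    (h1 : ∀ {P A C b}, b ∈ pcL π P A C → pr C b = b)
    (h2 : ∀ {P A C b} (C' : ℤ), b ∈ pcL π P A C → C' ≠ C → pr C' b = 0) :
    CE (KHc302.WG π s (KHc302.two_le hs)) :=
  { KHc302.CEr π s hs with
    prB := pr
    prB_self := h1
    prB_ne := h2 }

/-- **the two concrete closing data agree** -/
theorem CEr_eq (s : ℕ) (hs : 5 ≤ s) : KHc302.CEr π s hs = KHc186.CEr π s hs := by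
  have h : KHc302.prRL π = KHc186.pL π := funext (prRL_eq π)
  have key : ∀ (pr pr' : ℤ → (RL π →ₗ[K] RL π)) (_ : pr = pr') (h1) (h2) (h1') (h2'),
      mk' π s hs pr h1 h2 = mk' π s hs pr' h1' h2' := by
    rintro pr pr' rfl h1 h2 h1' h2'
    rfl
  exact key (KHc302.prRL π) (KHc186.pL π) h (KHc302.prRL_same π) (KHc302.prRL_diff π)
    (KHc186.pL_same π) (KHc186.pL_ne π)

end Crest.Agent.R186.CEeq302
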