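import Crest.Agent.R186.FamU_654
import Crest.Agent.R186.HB_362

/-!
Row 186, half (A), short road, leaf A.H2 (helper654): the rows of 362's `HB_362` as a `RowSys`.
-/

set_option autoImplicit false
set_option linter.style.haveILetI false
set_option linter.unusedSectionVars false

namespace Crest.Agent.R186.FamU654

open Frame515 Zig498 Ex306 Hat827 Win810 KHev302 HB362

variable {K : Type} [Field K] {w : WD K} (E : CE w) (X : LCells w.dga)

section
variable {E X}

theorem LU_LU {p a p' a' p'' a'' : ℤ} (b b' : E.B) (hb : b ∈ E.EB (p' - p) (a' - a))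
    (hb' : b' ∈ E.EB (p'' - p') (a'' - a')) (h : b' * b ∈ E.EB (p'' - p) (a'' - a))
    (u : X.ι →₀ Row E p a) : LU E b' hb' (LU E b hb u) = LU E (b' * b) h u := by
  apply Finsupp.ext
  intro σ
  refine row_ext fun j => ?_
  exact (mul_assoc b' b ((u σ).1 j)).symm

theorem LU_add' {p a p' a' : ℤ} (b b' : E.B) (hb : b ∈ E.EB (p' - p) (a' - a))
    (hb' : b' ∈ E.EB (p' - p) (a' - a)) (h : b + b' ∈ E.EB (p' - p) (a' - a))
    (u : X.ι →₀ Row E p a) : LU E (b + b') h u = LU E b hb u + LU E b' hb' u := by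
  apply Finsupp.ext
  intro σ
  refine row_ext fun j => ?_
  exact add_mul b b' ((u σ).1 j)

theorem LU_smul' {p a p' a' : ℤ} (r : K) (b : E.B) (hb : b ∈ E.EB (p' - p) (a' - a))
    (h : r • b ∈ E.EB (p' - p) (a' - a))
    (u : X.ι →₀ Row E p a) : LU E (r • b) h u = r • LU E b hb u := by
  apply Finsupp.ext
  intro σ
  refine row_ext fun j => ?_
  exact smul_mul_assoc r b ((u σ).1 j)

end

/-- **the rows over the cells `X`** -/
noncomputable def rowSys : RowSys K E.B where
  EB := E.EB
  pb := E.pb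
  pb_le := CE.pb_le
  EB_mul ha hb := CE.EB_mul ha hb
  DB := E.DB
  U p a := U E X p a
  L b hb := LU E b hb
  L_mul b b' hb hb' h u := LU_LU b b' hb hb' h u
  L_add b b' hb hb' h u := LU_add' b b' hb hb' h u
  L_smul r b hb h u := LU_smul' r b hb h u
  L_d b hb hD u := LU_d b hb u
  L_mem hb hbk _ hu := LU_mem hb hbk hu

end Crest.Agent.R186.FamU654
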