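import Mathlib

/-!
Row 186, half (A), second road for the closing (helper306 #TR): the exactness of the 16 left cells of
`V_{-1}` (EXl) and of the 16 right cells of `D V_{-2}` (EXr) with values in an arbitrary pair
`(Y_0, Y_1)` of families with operators `x : Y_0 a → Y_1 a`, `d : Y_1 a → Y_0 (a+1)`,
`h, t : Y_i a → Y_i (a+1)`, in characteristic `2`.
-/

set_option autoImplicit false

namespace Crest.Agent.R186.Ex306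

/-- a pair of families with `x, d, h, t` (the action of the degree `0` part of the window) -/
structure Fam (K : Type) [Field K] (g : K) where
  Y0 : ℕ → Type
  Y1 : ℕ → Type
  [a0 : ∀ a, AddCommGroup (Y0 a)]
  [m0 : ∀ a, Module K (Y0 a)]
  [a1 : ∀ a, AddCommGroup (Y1 a)]
  [m1 : ∀ a, Module K (Y1 a)]
  x : Fin 2 → ∀ a, Y0 a →ₗ[K] Y1 a
  d : Fin 2 → ∀ a, Y1 a →ₗ[K] Y0 (a + 1)
  h0 : ∀ a, Y0 a →ₗ[K] Y0 (a + 1)
  h1 : ∀ a, Y1 a →ₗ[K] Y1 (a + 1)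
  t0 : ∀ a, Y0 a →ₗ[K] Y0 (a + 1)
  t1 : ∀ a, Y1 a →ₗ[K] Y1 (a + 1)
  ht0 : ∀ a (y : Y0 a), t0 a y = h0 a y + (g - 1) • (d 0 a (x 0 a y) + d 1 a (x 1 a y))
  ht1 : ∀ a (y : Y1 a), g ^ 2 • t1 a y = h1 a y + (g - 1) • (x 0 (a + 1) (d 0 a y) +
    g • x 1 (a + 1) (d 1 a y))
  xt : ∀ j a (y : Y0 a), x j (a + 1) (t0 a y) = g • t1 a (x j a y)
  td : ∀ j a (y : Y1 a), t0 (a + 1) (d j a y) = g • d j (a + 1) (t1 a y)
  xh : ∀ j a (y : Y0 a), x j (a + 1) (h0 a y) = h1 a (x j a y)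
  hd : ∀ j a (y : Y1 a), h0 (a + 1) (d j a y) = d j (a + 1) (h1 a y)

attribute [instance] Fam.a0 Fam.m0 Fam.a1 Fam.m1

namespace Fam

variable {K : Type} [Field K] {g : K} (Y : Fam K g)

/-- `t + l h` on `Y_0` -/
def th0 (l : K) (a : ℕ) : Y.Y0 a →ₗ[K] Y.Y0 (a + 1) := Y.t0 a + l • Y.h0 a

/-- `t + l h` on `Y_1` -/
def th1 (l : K) (a : ℕ) : Y.Y1 a →ₗ[K] Y.Y1 (a + 1) := Y.t1 a + l • Y.h1 a

theorem th0_apply (l : K) (a : ℕ) (y : Y.Y0 a) : Y.th0 l a y = Y.t0 a y + l • Y.h0 a y := rfl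
theorem th1_apply (l : K) (a : ℕ) (y : Y.Y1 a) : Y.th1 l a y = Y.t1 a y + l • Y.h1 a y := rfl

theorem dbl (two : (2 : K) = 0) {M : Type} [AddCommGroup M] [Module K M] (y : M) : y + y = 0 := by
  rw [← two_smul K y, two, zero_smul]

theorem eq_of_add (two : (2 : K) = 0) {M : Type} [AddCommGroup M] [Module K M] {a b : M}
    (h : a + b = 0) : a = b := by
  have := dbl two b
  rw [← this] at h
  exact add_right_cancel h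

theorem neg_eq' (two : (2 : K) = 0) {M : Type} [AddCommGroup M] [Module K M] (y : M) : -y = y :=
  (eq_of_add two (neg_add_cancel y))

/-- `x (t + l h) = g (t + g⁻¹ l h) x` -/
theorem x_th (hg : g ≠ 0) (l : K) (j : Fin 2) (a : ℕ) (y : Y.Y0 a) :
    Y.x j (a + 1) (Y.th0 l a y) = g • Y.th1 (g⁻¹ * l) a (Y.x j a y) := by
  rw [th0_apply, th1_apply, map_add, map_smul, Y.xt, Y.xh, smul_add, smul_smul,
    mul_inv_cancel_left₀ hg]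

/-- `(t + l h) d = g d (t + g⁻¹ l h)` -/
theorem th_d (hg : g ≠ 0) (l : K) (j : Fin 2) (a : ℕ) (y : Y.Y1 a) :
    Y.th0 l (a + 1) (Y.d j a y) = g • Y.d j (a + 1) (Y.th1 (g⁻¹ * l) a y) := by
  rw [th0_apply, th1_apply, map_add, map_smul, Y.td, Y.hd, smul_add, smul_smul,
    mul_inv_cancel_left₀ hg]

/-- `x_j d_i` on `Y_0` (through the relations) -/
def m (j i : Fin 2) (a : ℕ) (y : Y.Y0 a) : Y.Y0 (a + 1) :=
  if j = 0 then (if i = 0 then Y.h0 a y + g • Y.d 0 a (Y.x 0 a y) else g • Y.d 1 a (Y.x 0 a y))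
  else (if i = 0 then Y.d 0 a (Y.x 1 a y)
    else Y.h0 a y + g • Y.d 1 a (Y.x 1 a y) + (g - 1) • Y.d 0 a (Y.x 0 a y))

theorem m00 (a : ℕ) (y : Y.Y0 a) : Y.m 0 0 a y = Y.h0 a y + g • Y.d 0 a (Y.x 0 a y) := rfl
theorem m01 (a : ℕ) (y : Y.Y0 a) : Y.m 0 1 a y = g • Y.d 1 a (Y.x 0 a y) := rfl
theorem m10 (a : ℕ) (y : Y.Y0 a) : Y.m 1 0 a y = Y.d 0 a (Y.x 1 a y) := rfl
theorem m11 (a : ℕ) (y : Y.Y0 a) : Y.m 1 1 a y = Y.h0 a y + g • Y.d 1 a (Y.x 1 a y)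
    + (g - 1) • Y.d 0 a (Y.x 0 a y) := rfl

variable (hg : g ≠ 0) (hg1 : g ≠ 1) (two : (2 : K) = 0)

include hg hg1 two

/-- `(g-1)⁻¹ g (t + g⁻¹ h)` on `Y_0` -/
theorem th0_m1 (a : ℕ) (y : Y.Y0 a) : Y.th0 g⁻¹ a y =
    (g⁻¹ * (g - 1)) • (Y.h0 a y + g • (Y.d 0 a (Y.x 0 a y) + Y.d 1 a (Y.x 1 a y))) := by
  rw [th0_apply, Y.ht0]
  generalize Y.h0 a y = u
  generalize Y.d 0 a (Y.x 0 a y) = v
  generalize Y.d 1 a (Y.x 1 a y) = w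
  linear_combination (norm := (match_scalars <;> field_simp <;> ring)) g⁻¹ • two • u

/-- `th1 (g²)⁻¹ = (g-1) g⁻² (x_0 d_0 + g x_1 d_1)` -/
theorem th1_0 (a : ℕ) (y : Y.Y1 a) : Y.th1 (g ^ 2)⁻¹ a y =
    ((g ^ 2)⁻¹ * (g - 1)) • (Y.x 0 (a + 1) (Y.d 0 a y) + g • Y.x 1 (a + 1) (Y.d 1 a y)) := by
  have h := Y.ht1 a y
  rw [th1_apply]
  generalize Y.x 0 (a + 1) (Y.d 0 a y) = v at *
  generalize Y.x 1 (a + 1) (Y.d 1 a y) = w at *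
  generalize Y.h1 a y = u at *
  generalize Y.t1 a y = t at *
  linear_combination (norm := (match_scalars <;> field_simp <;> ring)) (g ^ 2)⁻¹ • h +
    (g ^ 2)⁻¹ • two • u

/-! ### EXl -/

/-- level `0` -/
theorem l0 (a : ℕ) (i1 : ∀ y, Y.th1 (g ^ 2)⁻¹ a y = 0 → y = 0) (y : Y.Y1 a)
    (e0 : Y.d 0 a y = 0) (e1 : Y.d 1 a y = 0) : y = 0 := by
  apply i1
  rw [Y.th1_0 hg hg1 two, e0, e1, map_zero, map_zero, smul_zero, add_zero, smul_zero]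

/-- level `1` -/
theorem l1 (a : ℕ) (s1 : ∀ y, ∃ z, Y.th1 (g ^ 2)⁻¹ a z = y)
    (i0 : ∀ y, Y.th0 g⁻¹ (a + 1) y = 0 → y = 0) (p0 p1 : Y.Y0 (a + 1))
    (e0 : Y.m 0 1 (a + 1) p0 + g • Y.m 0 0 (a + 1) p1 = 0)
    (e1 : Y.m 1 1 (a + 1) p0 + g • Y.m 1 0 (a + 1) p1 = 0) :
    ∃ f : Y.Y1 a, Y.d 0 a f = p0 ∧ Y.d 1 a f = p1 := by
  obtain ⟨f, hf⟩ := s1 (((g ^ 2)⁻¹ * (g - 1)) • (Y.x 0 (a + 1) p0 + g • Y.x 1 (a + 1) p1))
  have key : ∀ j, Y.th0 g⁻¹ (a + 1) (Y.d j a f) =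
      (g⁻¹ * (g - 1)) • (Y.d j (a + 1) (Y.x 0 (a + 1) p0) + g • Y.d j (a + 1) (Y.x 1 (a + 1) p1)) := by
    intro j
    rw [Y.th_d hg]
    have : g⁻¹ * g⁻¹ = (g ^ 2)⁻¹ := by rw [pow_two, mul_inv]
    rw [this, hf, map_smul, smul_smul, map_add, map_smul]
    congr 1
    field_simp
  refine ⟨f, ?_, ?_⟩
  · apply eq_of_add two
    apply i0
    rw [map_add, key, Y.th0_m1 hg hg1 two]
    rw [m11, m10] at e1
    generalize Y.d 0 (a + 1) (Y.x 1 (a + 1) p1) = q at *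
    generalize Y.h0 (a + 1) p0 = u at *
    generalize Y.d 1 (a + 1) (Y.x 1 (a + 1) p0) = v at *
    generalize Y.d 0 (a + 1) (Y.x 0 (a + 1) p0) = w at *
    linear_combination (norm := (match_scalars <;> field_simp <;> ring)) (g⁻¹ * (g - 1)) • e1 +
      (g⁻¹ * (g - 1)) • two • w
  · apply eq_of_add two
    apply i0
    rw [map_add, key, Y.th0_m1 hg hg1 two]
    rw [m01, m00] at e0
    generalize Y.d 1 (a + 1) (Y.x 0 (a + 1) p0) = q at *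
    generalize Y.h0 (a + 1) p1 = u at *
    generalize Y.d 0 (a + 1) (Y.x 0 (a + 1) p1) = v at *
    generalize Y.d 1 (a + 1) (Y.x 1 (a + 1) p1) = w at *
    linear_combination (norm := (match_scalars <;> field_simp <;> ring))
      (g⁻¹ * g⁻¹ * (g - 1)) • e0 + (g - 1) • two • w

/-- level `2` -/
theorem l2 (a : ℕ) (s0 : ∀ y, ∃ z, Y.th0 g⁻¹ a z = y)
    (i1 : ∀ y, Y.th1 (g ^ 2)⁻¹ a y = 0 → y = 0) (z0 z1 : Y.Y0 (a + 1))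
    (e : Y.x 1 (a + 1) z0 + Y.x 0 (a + 1) z1 = 0) :
    ∃ p0 p1 : Y.Y0 a, Y.m 0 1 a p0 + g • Y.m 0 0 a p1 = z0 ∧
      Y.m 1 1 a p0 + g • Y.m 1 0 a p1 = z1 := by
  obtain ⟨w0, hw0⟩ := s0 z0
  obtain ⟨w1, hw1⟩ := s0 z1
  have c : Y.x 1 a w0 + Y.x 0 a w1 = 0 := by
    apply i1
    have h1 := Y.x_th hg g⁻¹ 1 a w0
    have h2 := Y.x_th hg g⁻¹ 0 a w1
    have gg : g⁻¹ * g⁻¹ = (g ^ 2)⁻¹ := by rw [pow_two, mul_inv]
    rw [hw0, gg] at h1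
    rw [hw1, gg] at h2
    rw [h1, h2, ← smul_add, ← map_add] at e
    exact (smul_eq_zero.mp e).resolve_left hg
  have c' : Y.x 1 a w0 = Y.x 0 a w1 := eq_of_add two c
  rw [Y.th0_m1 hg hg1 two] at hw0 hw1
  refine ⟨(g⁻¹ * (g - 1)) • w1, (g⁻¹ * (g - 1)) • (g⁻¹ • w0), ?_, ?_⟩
  · rw [← hw0, m01, m00]
    simp only [map_smul]
    rw [← c']
    generalize Y.d 1 a (Y.x 1 a w0) = v
    generalize Y.h0 a w0 = u
    generalize Y.d 0 a (Y.x 0 a w0) = w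
    match_scalars <;> field_simp
  · rw [← hw1, m11, m10]
    simp only [map_smul]
    rw [c']
    generalize Y.d 1 a (Y.x 1 a w1) = v
    generalize Y.h0 a w1 = u
    generalize Y.d 0 a (Y.x 0 a w1) = w
    match_scalars <;> field_simp <;> ring

/-- surjectivity of `C` -/
theorem l3 (a : ℕ) (s1 : ∀ y, ∃ z, Y.th1 (g ^ 2)⁻¹ a z = y) (w : Y.Y1 (a + 1)) :
    ∃ z0 z1 : Y.Y0 (a + 1), Y.x 1 (a + 1) z0 + Y.x 0 (a + 1) z1 = w := by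
  obtain ⟨z, hz⟩ := s1 w
  rw [Y.th1_0 hg hg1 two] at hz
  refine ⟨(((g ^ 2)⁻¹ * (g - 1)) * g) • Y.d 1 a z, ((g ^ 2)⁻¹ * (g - 1)) • Y.d 0 a z, ?_⟩
  rw [← hz, map_smul, map_smul, smul_add, smul_smul]
  abel

/-! ### EXr -/

omit hg hg1 two in
/-- `d_i x_j` on `Y_1` (through the relations) -/
def n (i j : Fin 2) (a : ℕ) (y : Y.Y1 a) : Y.Y1 (a + 1) :=
  if j = 0 then (if i = 0 then g⁻¹ • (Y.x 0 (a + 1) (Y.d 0 a y) + Y.h1 a y)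
      else g⁻¹ • Y.x 0 (a + 1) (Y.d 1 a y))
  else (if i = 0 then Y.x 1 (a + 1) (Y.d 0 a y)
    else g⁻¹ • (Y.x 1 (a + 1) (Y.d 1 a y) + Y.h1 a y +
      (g - 1) • (g⁻¹ • (Y.x 0 (a + 1) (Y.d 0 a y) + Y.h1 a y))))

omit hg hg1 two in
theorem n00 (a : ℕ) (y : Y.Y1 a) : Y.n 0 0 a y = g⁻¹ • (Y.x 0 (a + 1) (Y.d 0 a y) + Y.h1 a y) := rfl
omit hg hg1 two in
theorem n10 (a : ℕ) (y : Y.Y1 a) : Y.n 1 0 a y = g⁻¹ • Y.x 0 (a + 1) (Y.d 1 a y) := rfl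
omit hg hg1 two in
theorem n01 (a : ℕ) (y : Y.Y1 a) : Y.n 0 1 a y = Y.x 1 (a + 1) (Y.d 0 a y) := rfl
omit hg hg1 two in
theorem n11 (a : ℕ) (y : Y.Y1 a) : Y.n 1 1 a y = g⁻¹ • (Y.x 1 (a + 1) (Y.d 1 a y) + Y.h1 a y +
      (g - 1) • (g⁻¹ • (Y.x 0 (a + 1) (Y.d 0 a y) + Y.h1 a y))) := rfl

/-- `t + h = (g-1)(d_0 x_0 + d_1 x_1)` on `Y_0` -/
theorem th0_1 (a : ℕ) (y : Y.Y0 a) : Y.th0 1 a y =
    (g - 1) • (Y.d 0 a (Y.x 0 a y) + Y.d 1 a (Y.x 1 a y)) := by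
  rw [th0_apply, Y.ht0]
  generalize Y.h0 a y = u
  generalize Y.d 0 a (Y.x 0 a y) = v
  generalize Y.d 1 a (Y.x 1 a y) = w
  linear_combination (norm := (match_scalars <;> ring)) two • u

/-- `t + g⁻¹ h` on `Y_1` -/
theorem th1_m1 (a : ℕ) (y : Y.Y1 a) : Y.th1 g⁻¹ a y =
    (g⁻¹ * g⁻¹ * (g - 1)) • (Y.x 0 (a + 1) (Y.d 0 a y) + g • Y.x 1 (a + 1) (Y.d 1 a y)
      + Y.h1 a y) := by
  have h := Y.ht1 a y
  rw [th1_apply]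
  generalize Y.x 0 (a + 1) (Y.d 0 a y) = v at *
  generalize Y.x 1 (a + 1) (Y.d 1 a y) = w at *
  generalize Y.h1 a y = u at *
  generalize Y.t1 a y = t at *
  linear_combination (norm := (match_scalars <;> field_simp <;> ring)) (g ^ 2)⁻¹ • h +
    (g ^ 2)⁻¹ • two • u

/-- `r0`: surjectivity of the last map -/
theorem r0 (a : ℕ) (s0 : ∀ y, ∃ z, Y.th0 1 a z = y) (y : Y.Y0 (a + 1)) :
    ∃ u0 u1 : Y.Y1 a, Y.d 0 a u0 + Y.d 1 a u1 = y := by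
  obtain ⟨z, hz⟩ := s0 y
  rw [Y.th0_1 hg hg1 two] at hz
  exact ⟨(g - 1) • Y.x 0 a z, (g - 1) • Y.x 1 a z, by rw [map_smul, map_smul, ← smul_add, hz]⟩

/-- `r1` -/
theorem r1 (a : ℕ) (s1 : ∀ y, ∃ z, Y.th1 g⁻¹ a z = y)
    (i0 : ∀ y, Y.th0 1 (a + 1) y = 0 → y = 0) (u0 u1 : Y.Y1 (a + 1))
    (e : Y.d 0 (a + 1) u0 + Y.d 1 (a + 1) u1 = 0) :
    ∃ z0 z1 : Y.Y1 a,
      g • (g ^ 2 • Y.n 1 0 a z0 + g • Y.n 1 1 a z1) = u0 ∧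
      g ^ 2 • Y.n 0 0 a z0 + g • Y.n 0 1 a z1 = u1 := by
  obtain ⟨v0, hv0⟩ := s1 u0
  obtain ⟨v1, hv1⟩ := s1 u1
  have c : Y.d 0 a v0 + Y.d 1 a v1 = 0 := by
    apply i0
    have h0 := Y.th_d hg 1 0 a v0
    have h1 := Y.th_d hg 1 1 a v1
    rw [mul_one, hv0] at h0
    rw [mul_one, hv1] at h1
    rw [map_add, h0, h1, ← smul_add, e, smul_zero]
  have c' : Y.d 0 a v0 = Y.d 1 a v1 := eq_of_add two c
  rw [Y.th1_m1 hg hg1 two] at hv0 hv1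
  refine ⟨(g⁻¹ ^ 3 * (g - 1)) • v1, (g⁻¹ ^ 2 * (g - 1)) • v0, ?_, ?_⟩
  · rw [← hv0, n10, n11]
    simp only [map_smul]
    rw [← c']
    generalize Y.x 0 (a + 1) (Y.d 0 a v0) = v
    generalize Y.x 1 (a + 1) (Y.d 1 a v0) = w
    generalize Y.h1 a v0 = u
    linear_combination (norm := (match_scalars <;> field_simp <;> ring))
      two • (g⁻¹ ^ 2 * (g - 1) ^ 2) • (v + u)
  · rw [← hv1, n00, n01]
    simp only [map_smul]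
    rw [c']
    generalize Y.x 0 (a + 1) (Y.d 0 a v1) = v
    generalize Y.x 1 (a + 1) (Y.d 1 a v1) = w
    generalize Y.h1 a v1 = u
    match_scalars <;> field_simp

/-- `r2` -/
theorem r2 (a : ℕ) (s0 : ∀ y, ∃ z, Y.th0 1 a z = y)
    (i1 : ∀ y, Y.th1 g⁻¹ a y = 0 → y = 0) (z0 z1 : Y.Y1 a)
    (e0 : g • (g ^ 2 • Y.n 1 0 a z0 + g • Y.n 1 1 a z1) = 0)
    (e1 : g ^ 2 • Y.n 0 0 a z0 + g • Y.n 0 1 a z1 = 0) :
    ∃ w : Y.Y0 a, z0 = g • Y.x 1 a w ∧ z1 = g ^ 2 • Y.x 0 a w := by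
  obtain ⟨w, hw⟩ := s0 (g • Y.d 1 a z0 + Y.d 0 a z1)
  have k0 : g • Y.th1 g⁻¹ a (Y.x 0 a w) = g • Y.x 0 (a + 1) (Y.d 1 a z0) +
      Y.x 0 (a + 1) (Y.d 0 a z1) := by
    have := Y.x_th hg 1 0 a w
    rw [mul_one, hw] at this
    rw [← this, map_add, map_smul]
  have k1 : g • Y.th1 g⁻¹ a (Y.x 1 a w) = g • Y.x 1 (a + 1) (Y.d 1 a z0) +
      Y.x 1 (a + 1) (Y.d 0 a z1) := by
    have := Y.x_th hg 1 1 a w
    rw [mul_one, hw] at this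
    rw [← this, map_add, map_smul]
  rw [n10, n11] at e0
  rw [n00, n01] at e1
  have g1 : g - 1 ≠ 0 := sub_ne_zero.mpr hg1
  refine ⟨(g⁻¹ ^ 2 * (g - 1)) • w, ?_, ?_⟩
  · apply eq_of_add two
    apply i1
    rw [map_add, map_smul, map_smul, map_smul, Y.th1_m1 hg hg1 two a z0]
    generalize Y.th1 g⁻¹ a (Y.x 0 a w) = A at *
    generalize Y.th1 g⁻¹ a (Y.x 1 a w) = B at *
    generalize Y.x 0 (a + 1) (Y.d 1 a z0) = p01 at *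
    generalize Y.x 0 (a + 1) (Y.d 0 a z0) = p00 at *
    generalize Y.x 1 (a + 1) (Y.d 1 a z0) = p11 at *
    generalize Y.x 1 (a + 1) (Y.d 0 a z1) = q10 at *
    generalize Y.x 1 (a + 1) (Y.d 1 a z1) = q11 at *
    generalize Y.x 0 (a + 1) (Y.d 0 a z1) = q00 at *
    generalize Y.h1 a z0 = u0 at *
    generalize Y.h1 a z1 = u1 at *
    linear_combination (norm := (match_scalars <;> field_simp <;> ring))
      (g⁻¹ ^ 2 * (g - 1)) • k1 + (g⁻¹ ^ 3 * (g - 1)) • e1 + two • (g⁻¹ * (g - 1)) • p11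
  · apply eq_of_add two
    apply i1
    rw [map_add, map_smul, map_smul, map_smul, Y.th1_m1 hg hg1 two a z1]
    generalize Y.th1 g⁻¹ a (Y.x 0 a w) = A at *
    generalize Y.th1 g⁻¹ a (Y.x 1 a w) = B at *
    generalize Y.x 0 (a + 1) (Y.d 1 a z0) = p01 at *
    generalize Y.x 0 (a + 1) (Y.d 0 a z0) = p00 at *
    generalize Y.x 1 (a + 1) (Y.d 1 a z0) = p11 at *
    generalize Y.x 1 (a + 1) (Y.d 0 a z1) = q10 at *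
    generalize Y.x 1 (a + 1) (Y.d 1 a z1) = q11 at *
    generalize Y.x 0 (a + 1) (Y.d 0 a z1) = q00 at *
    generalize Y.h1 a z0 = u0 at *
    generalize Y.h1 a z1 = u1 at *
    linear_combination (norm := (match_scalars <;> field_simp <;> ring))
      (g⁻¹ * (g - 1)) • k0 + (g⁻¹ ^ 2 * (g - 1)) • e0 +
      two • ((g⁻¹ ^ 2 * (g - 1)) • q00 - (g⁻¹ ^ 2 * (g - 1) ^ 2) • u1)

/-- `r3` -/
theorem r3 (a : ℕ) (i0 : ∀ y, Y.th0 1 a y = 0 → y = 0) (w : Y.Y0 a)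
    (e0 : Y.x 0 a w = 0) (e1 : Y.x 1 a w = 0) : w = 0 := by
  apply i0
  rw [Y.th0_1 hg hg1 two, e0, e1, map_zero, map_zero, add_zero, smul_zero]

end Fam

end Crest.Agent.R186.Ex306
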