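import Crest.Agent.R186.HLw_462
import Crest.Agent.R186.Ex_306

/-!
Row 186 (A), short road of helper306 (helper462): the homology of `T(row (1, a))`, `T(row (2, a))`
as a family `Ex306.Fam`.
-/

set_option autoImplicit false
set_option linter.style.haveILetI false

namespace Crest.Agent.R186.HL462

open Hat827 Win810 Adapt186 KHev302 ConeHyp462

variable {K : Type} [Field K] {w : WD K} (E : CE w) (X : PCells w.dga)

/-- the letters of degree zero -/
structure Lt (g : K) where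
  x : Fin 2 → E.B
  d : Fin 2 → E.B
  h : E.B
  t : E.B
  z : Fin 2 → E.B
  x_mem : ∀ j, x j ∈ E.pb 1 0 0
  d_mem : ∀ j, d j ∈ E.pb (-1) 1 0
  h_mem : h ∈ E.pb 0 1 0
  t_mem : t ∈ E.pb 0 1 0
  z_mem : ∀ j, z j ∈ E.pb (-1) 2 1
  Dx : ∀ j, E.DB (x j) = 0
  Dd : ∀ j, E.DB (d j) = 0
  Dh : E.DB h = 0
  Dt : E.DB t = 0
  ht0 : t = h + (g - 1) • (d 0 * x 0 + d 1 * x 1)
  ht1 : g ^ 2 • t = h + (g - 1) • (x 0 * d 0 + g • (x 1 * d 1))
  xt : ∀ j, x j * t = g • (t * x j)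
  td : ∀ j, t * d j = g • (d j * t) + E.DB (z j)
  xh : ∀ j, x j * h = h * x j
  hd : ∀ j, h * d j = d j * h

/-- cycles -/
def Zt (p a n : ℤ) : Submodule K (TB E X) := Tg E X p a n ⊓ LinearMap.ker (dT E X n)

/-- boundaries -/
def Bt (p a n : ℤ) : Submodule K (TB E X) := (Tg E X p a (n + 1)).map (dT E X (n + 1))

theorem mem_Zt {p a n : ℤ} {x : TB E X} : x ∈ Zt E X p a n ↔ x ∈ Tg E X p a n ∧ dT E X n x = 0 :=
  Iff.rfl

theorem mem_Bt {p a n : ℤ} {x : TB E X} : x ∈ Bt E X p a n ↔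
    ∃ v ∈ Tg E X p a (n + 1), dT E X (n + 1) v = x := Iff.rfl

/-- homology -/
abbrev HT (p a n : ℤ) : Type := HQ (Zt E X p a n) (Bt E X p a n)

variable {E X}

/-- the class of a cycle -/
def cl {p a n : ℤ} (u : TB E X) (hu : u ∈ Zt E X p a n) : HT E X p a n :=
  Submodule.Quotient.mk ⟨u, hu⟩

theorem cl_surj {p a n : ℤ} (y : HT E X p a n) : ∃ u hu, cl (E := E) (X := X) u hu = y := by
  obtain ⟨⟨u, hu⟩, rfl⟩ := Submodule.Quotient.mk_surjective _ y
  exact ⟨u, hu, rfl⟩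

theorem cl_add {p a n : ℤ} {u v : TB E X} (hu : u ∈ Zt E X p a n) (hv : v ∈ Zt E X p a n) :
    cl u hu + cl v hv = cl (u + v) (Submodule.add_mem _ hu hv) := rfl

theorem cl_smul {p a n : ℤ} {u : TB E X} (r : K) (hu : u ∈ Zt E X p a n) :
    r • cl u hu = cl (r • u) (Submodule.smul_mem _ r hu) := rfl

theorem cl_eq {p a n : ℤ} {u v : TB E X} {hu : u ∈ Zt E X p a n} {hv : v ∈ Zt E X p a n} :
    cl u hu = cl v hv ↔ u - v ∈ Bt E X p a n := by
  unfold cl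
  rw [Submodule.Quotient.eq]
  exact Iff.rfl

theorem cl_congr {p a n : ℤ} {u v : TB E X} {hu : u ∈ Zt E X p a n} {hv : v ∈ Zt E X p a n}
    (h : u = v) : cl u hu = cl v hv := by
  subst h
  rfl

theorem cl_zero {p a n : ℤ} {u : TB E X} {hu : u ∈ Zt E X p a n} :
    cl u hu = 0 ↔ u ∈ Bt E X p a n := by
  unfold cl
  rw [Submodule.Quotient.mk_eq_zero]
  exact Iff.rfl

theorem dT_lm {p a n P A : ℤ} {b : E.B} (hb : b ∈ E.pb P A 0) (hD : E.DB b = 0) {x : TB E X}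
    (hx : x ∈ Tg E X p a n) : dT E X n (lm E X b x) = lm E X b (dT E X n x) := by
  have h := dM_lm E X n.toNat b x
  rw [hD, lm_zero, zero_add] at h
  exact h

theorem lm_Z {p a n P A p' a' : ℤ} {b : E.B} (hb : b ∈ E.pb P A 0) (hD : E.DB b = 0)
    (hp : p' = p + P) (ha : a' = a + A) {x : TB E X}
    (hx : x ∈ Zt E X p a n) : lm E X b x ∈ Zt E X p' a' n := by
  subst hp ha
  refine ⟨?_, ?_⟩
  · have := lm_mem E X hb hx.1
    rwa [add_zero] at this
  · change dT E X n (lm E X b x) = 0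
    rw [dT_lm hb hD hx.1, show dT E X n x = 0 from hx.2, map_zero]

theorem lm_B {p a n P A p' a' : ℤ} {b : E.B} (hb : b ∈ E.pb P A 0) (hD : E.DB b = 0)
    (hp : p' = p + P) (ha : a' = a + A) {x : TB E X}
    (hx : x ∈ Bt E X p a n) : lm E X b x ∈ Bt E X p' a' n := by
  subst hp ha
  obtain ⟨v, hv, rfl⟩ := hx
  refine ⟨lm E X b v, ?_, ?_⟩
  · have := lm_mem E X hb hv
    rwa [add_zero] at this
  · exact dT_lm hb hD hv

variable (E X) in
/-- the operator of `b` on homology -/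
def op {p a n P A p' a' : ℤ} (b : E.B) (hb : b ∈ E.pb P A 0) (hD : E.DB b = 0)
    (hp : p' = p + P) (ha : a' = a + A) : HT E X p a n →ₗ[K] HT E X p' a' n :=
  HQ.map (lm E X b) (fun _ hx => lm_Z hb hD hp ha hx) (fun _ hx => lm_B hb hD hp ha hx)

theorem op_cl {p a n P A p' a' : ℤ} {b : E.B} {hb : b ∈ E.pb P A 0} {hD : E.DB b = 0}
    {hp : p' = p + P} {ha : a' = a + A} {u : TB E X} (hu : u ∈ Zt E X p a n) :
    op E X b hb hD hp ha (cl u hu) = cl (lm E X b u) (lm_Z hb hD hp ha hu) := rfl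

variable (E X) in
/-- **the family** -/
def fam {g : K} (L : Lt E g) (a0 n : ℤ) : Ex306.Fam K g where
  Y0 a := HT E X 1 (a0 + a) n
  Y1 a := HT E X 2 (a0 + a) n
  x j a := op E X (L.x j) (L.x_mem j) (L.Dx j) (by norm_num) (by ring)
  d j a := op E X (L.d j) (L.d_mem j) (L.Dd j) (by norm_num) (by push_cast; ring)
  h0 a := op E X L.h L.h_mem L.Dh (by norm_num) (by push_cast; ring)
  h1 a := op E X L.h L.h_mem L.Dh (by norm_num) (by push_cast; ring)
  t0 a := op E X L.t L.t_mem L.Dt (by norm_num) (by push_cast; ring)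
  t1 a := op E X L.t L.t_mem L.Dt (by norm_num) (by push_cast; ring)
  ht0 a y := by
    obtain ⟨u, hu, rfl⟩ := cl_surj y
    simp only [op_cl, cl_add, cl_smul]
    refine cl_congr ?_
    rw [← lm_mul, ← lm_mul, ← lm_add, ← lm_smul, ← lm_add, ← L.ht0]
  ht1 a y := by
    obtain ⟨u, hu, rfl⟩ := cl_surj y
    simp only [op_cl, cl_add, cl_smul]
    refine cl_congr ?_
    rw [← lm_mul, ← lm_mul, ← lm_smul, ← lm_smul, ← lm_add, ← lm_smul, ← lm_add, ← L.ht1]
  xt j a y := by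
    obtain ⟨u, hu, rfl⟩ := cl_surj y
    simp only [op_cl, cl_smul]
    refine cl_congr ?_
    rw [← lm_mul, ← lm_mul, ← lm_smul, L.xt]
  td j a y := by
    obtain ⟨u, hu, rfl⟩ := cl_surj y
    simp only [op_cl, cl_smul]
    rw [cl_eq, ← lm_mul, ← lm_mul, ← lm_smul, L.td, lm_add, add_sub_cancel_left]
    refine ⟨lm E X (L.z j) u, ?_, ?_⟩
    · have := lm_mem E X (L.z_mem j) hu.1
      rwa [show (2 : ℤ) + -1 = 1 by norm_num,
        show a0 + (a : ℤ) + 2 = a0 + ((a + 1 + 1 : ℕ) : ℤ) by push_cast; ring] at this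
    · have h1 : dT E X n u = 0 := hu.2
      have h3 : dT E X (n + 1) (lm E X (L.z j) u) = dM E X (n + 1).toNat (lm E X (L.z j) u) := rfl
      rw [h3, dM_lm, dM_eq E X hu.1 (by omega), h1, map_zero, add_zero]
  xh j a y := by
    obtain ⟨u, hu, rfl⟩ := cl_surj y
    simp only [op_cl]
    refine cl_congr ?_
    rw [← lm_mul, ← lm_mul, L.xh]
  hd j a y := by
    obtain ⟨u, hu, rfl⟩ := cl_surj y
    simp only [op_cl]
    refine cl_congr ?_
    rw [← lm_mul, ← lm_mul, L.hd]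

variable (E X) in
/-- left multiplication by `b : row (p, a) → row (p, a + 1)` is bijective on homology -/
def Bij (b : E.B) (p a : ℤ) : Prop := ∀ n,
  (∀ x ∈ Zt E X p a n, lm E X b x ∈ Bt E X p (a + 1) n → x ∈ Bt E X p a n) ∧
  ∀ y ∈ Zt E X p (a + 1) n, ∃ x ∈ Zt E X p a n, y - lm E X b x ∈ Bt E X p (a + 1) n

theorem op_inj {p a n a' : ℤ} {b : E.B} {hb : b ∈ E.pb 0 1 0} {hD : E.DB b = 0}
    {hp : p = p + 0} {ha : a' = a + 1} (h : Bij E X b p a) (y : HT E X p a n)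
    (hy : op E X b hb hD hp ha y = 0) : y = 0 := by
  subst ha
  obtain ⟨u, hu, rfl⟩ := cl_surj y
  rw [op_cl, cl_zero] at hy
  exact cl_zero.2 ((h n).1 u hu hy)

theorem op_onto {p a n a' : ℤ} {b : E.B} {hb : b ∈ E.pb 0 1 0} {hD : E.DB b = 0}
    {hp : p = p + 0} {ha : a' = a + 1} (h : Bij E X b p a) (y : HT E X p a' n) :
    ∃ z, op E X b hb hD hp ha z = y := by
  subst ha
  obtain ⟨u, hu, rfl⟩ := cl_surj y
  obtain ⟨v, hv, hv'⟩ := (h n).2 u hu
  refine ⟨cl v hv, ?_⟩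
  rw [op_cl, cl_eq]
  have := Submodule.neg_mem _ hv'
  rwa [neg_sub] at this

theorem Lt.th_mem {g : K} (L : Lt E g) (l : K) : L.t + l • L.h ∈ E.pb 0 1 0 :=
  Submodule.add_mem _ L.t_mem (Submodule.smul_mem _ _ L.h_mem)

theorem Lt.th_D {g : K} (L : Lt E g) (l : K) : E.DB (L.t + l • L.h) = 0 := by
  rw [map_add, map_smul, L.Dt, L.Dh, smul_zero, add_zero]

theorem th0_eq {g : K} (L : Lt E g) (a0 n : ℤ) (l : K) (a : ℕ) (y : HT E X 1 (a0 + a) n) :
    (fam E X L a0 n).th0 l a y = op E X (L.t + l • L.h) (L.th_mem l) (L.th_D l) (by norm_num)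
      (by push_cast; ring) y := by
  obtain ⟨u, hu, rfl⟩ := cl_surj y
  change cl (p := 1) (a := a0 + ((a + 1 : ℕ) : ℤ)) (lm E X L.t u + l • lm E X L.h u)
    (Submodule.add_mem _ (lm_Z L.t_mem L.Dt (by norm_num) (by push_cast; ring) hu)
      (Submodule.smul_mem _ l (lm_Z L.h_mem L.Dh (by norm_num) (by push_cast; ring) hu))) =
    cl (lm E X (L.t + l • L.h) u) (lm_Z (L.th_mem l) (L.th_D l) (by norm_num)
      (by push_cast; ring) hu)
  refine cl_congr ?_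
  rw [lm_add, lm_smul]

theorem th1_eq {g : K} (L : Lt E g) (a0 n : ℤ) (l : K) (a : ℕ) (y : HT E X 2 (a0 + a) n) :
    (fam E X L a0 n).th1 l a y = op E X (L.t + l • L.h) (L.th_mem l) (L.th_D l) (by norm_num)
      (by push_cast; ring) y := by
  obtain ⟨u, hu, rfl⟩ := cl_surj y
  change cl (p := 2) (a := a0 + ((a + 1 : ℕ) : ℤ)) (lm E X L.t u + l • lm E X L.h u)
    (Submodule.add_mem _ (lm_Z L.t_mem L.Dt (by norm_num) (by push_cast; ring) hu)
      (Submodule.smul_mem _ l (lm_Z L.h_mem L.Dh (by norm_num) (by push_cast; ring) hu))) =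
    cl (lm E X (L.t + l • L.h) u) (lm_Z (L.th_mem l) (L.th_D l) (by norm_num)
      (by push_cast; ring) hu)
  refine cl_congr ?_
  rw [lm_add, lm_smul]

theorem th0_inj {g : K} (L : Lt E g) (a0 n : ℤ) {l : K} {a : ℕ}
    (h : Bij E X (L.t + l • L.h) 1 (a0 + a)) (y : (fam E X L a0 n).Y0 a)
    (hy : (fam E X L a0 n).th0 l a y = 0) : y = 0 :=
  op_inj h y ((th0_eq L a0 n l a y).symm.trans hy)

theorem th1_inj {g : K} (L : Lt E g) (a0 n : ℤ) {l : K} {a : ℕ}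
    (h : Bij E X (L.t + l • L.h) 2 (a0 + a)) (y : (fam E X L a0 n).Y1 a)
    (hy : (fam E X L a0 n).th1 l a y = 0) : y = 0 :=
  op_inj h y ((th1_eq L a0 n l a y).symm.trans hy)

theorem th0_onto {g : K} (L : Lt E g) (a0 n : ℤ) {l : K} {a : ℕ}
    (h : Bij E X (L.t + l • L.h) 1 (a0 + a)) (y : (fam E X L a0 n).Y0 (a + 1)) :
    ∃ z, (fam E X L a0 n).th0 l a z = y := by
  obtain ⟨z, hz⟩ := op_onto (hb := L.th_mem l) (hD := L.th_D l) (hp := by norm_num)
    (ha := by push_cast; ring) h y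
  exact ⟨z, (th0_eq L a0 n l a z).trans hz⟩

theorem th1_onto {g : K} (L : Lt E g) (a0 n : ℤ) {l : K} {a : ℕ}
    (h : Bij E X (L.t + l • L.h) 2 (a0 + a)) (y : (fam E X L a0 n).Y1 (a + 1)) :
    ∃ z, (fam E X L a0 n).th1 l a z = y := by
  obtain ⟨z, hz⟩ := op_onto (hb := L.th_mem l) (hD := L.th_D l) (hp := by norm_num)
    (ha := by push_cast; ring) h y
  exact ⟨z, (th1_eq L a0 n l a z).trans hz⟩

end Crest.Agent.R186.HL462
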