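import Crest.Agent.R186.Frame_515

/-!
Row 186 (helper498), half (A), 306's short road #34919: the truncation lemma.

A finite family of graded complexes `U l` with a twisted total differential
`(δ u) l = d (u l) + ∑ l', c l l' (u l')`, `c l l'` of degree `s l - s l' - 1` and zero for
`s l ≤ s l'`.  If the complexes "cells with values in the homology of degree `n`" are exact
(elementwise form `Ex m n`), the total complex is acyclic.  `s : Cl → ℤ` is arbitrary, so both the
`Hom` form (left cells) and, with `-s`, the `⊗` form (right cells) are covered.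
-/

set_option autoImplicit false
set_option linter.style.haveILetI false
set_option linter.unusedSectionVars false

namespace Crest.Agent.R186.Zig498

open Frame515

/-- finite twisted family of complexes -/
structure TF (K : Type) [Field K] where
  Cl : Type
  [fin : Fintype Cl]
  s : Cl → ℤ
  U : Cl → GC K
  c : ∀ l l' : Cl, (U l').X →ₗ[K] (U l).X
  c_zero : ∀ l l', s l ≤ s l' → c l l' = 0
  c_mem : ∀ (l l' : Cl) {k : ℤ} {x : (U l').X}, x ∈ (U l').gr k →
    c l l' x ∈ (U l).gr (k + s l - s l' - 1)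
  mc : ∀ (l l' : Cl) (x : (U l').X),
    (U l).d (c l l' x) + c l l' ((U l').d x) + ∑ l'', c l l'' (c l'' l' x) = 0

attribute [instance] TF.fin

namespace TF

variable {K : Type} [Field K] (T : TF K)

/-- the total differential -/
def δ : (∀ l, (T.U l).X) →ₗ[K] (∀ l, (T.U l).X) where
  toFun u l := (T.U l).d (u l) + ∑ l', T.c l l' (u l')
  map_add' u v := by
    funext l
    simp only [Pi.add_apply, map_add, Finset.sum_add_distrib]
    abel
  map_smul' r u := by
    funext l
    simp only [Pi.smul_apply, map_smul, RingHom.id_apply, smul_add, Finset.smul_sum]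

theorem δ_apply (u : ∀ l, (T.U l).X) (l : T.Cl) :
    T.δ u l = (T.U l).d (u l) + ∑ l', T.c l l' (u l') := rfl

theorem δ_δ (u : ∀ l, (T.U l).X) : T.δ (T.δ u) = 0 := by
  funext l
  simp only [δ_apply, map_add, map_sum, (T.U l).d_d, zero_add, Pi.zero_apply,
    Finset.sum_add_distrib]
  have h1 : ∑ l', ∑ l'', T.c l l' (T.c l' l'' (u l'')) =
      ∑ l'', ∑ l', T.c l l' (T.c l' l'' (u l'')) := Finset.sum_comm
  rw [h1, ← add_assoc, ← Finset.sum_add_distrib, ← Finset.sum_add_distrib]
  exact Finset.sum_eq_zero fun l' _ => T.mc l l' (u l')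

/-- homogeneous elements of total degree `k` -/
def gr (k : ℤ) : Submodule K (∀ l, (T.U l).X) where
  carrier := {u | ∀ l, u l ∈ (T.U l).gr (k + T.s l)}
  zero_mem' l := Submodule.zero_mem _
  add_mem' hu hv l := Submodule.add_mem _ (hu l) (hv l)
  smul_mem' r _ hu l := Submodule.smul_mem _ r (hu l)

theorem mem_gr {k : ℤ} {u : ∀ l, (T.U l).X} :
    u ∈ T.gr k ↔ ∀ l, u l ∈ (T.U l).gr (k + T.s l) := Iff.rfl

theorem δ_mem {k : ℤ} {u : ∀ l, (T.U l).X} (hu : u ∈ T.gr k) : T.δ u ∈ T.gr (k - 1) := by
  intro l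
  rw [δ_apply]
  refine Submodule.add_mem _ ?_ (Submodule.sum_mem _ fun l' _ => ?_)
  · have := (T.U l).d_mem (hu l)
    rwa [show k + T.s l - 1 = k - 1 + T.s l by ring] at this
  · have := T.c_mem l l' (hu l')
    rwa [show k + T.s l' + T.s l - T.s l' - 1 = k - 1 + T.s l by ring] at this

/-- the total complex -/
def cx : GC K where
  X := ∀ l, (T.U l).X
  gr := T.gr
  d := T.δ
  d_mem := T.δ_mem
  d_d := T.δ_δ

/-- exactness at level `m` with values in the homology of degree `n`, elementwise -/
def Ex (m n : ℤ) : Prop :=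
  ∀ z : ∀ l, (T.U l).X, (∀ l, z l ∈ (T.U l).gr n) → (∀ l, (T.U l).d (z l) = 0) →
    (∀ l, T.s l ≠ m → z l = 0) →
    (∀ l, T.s l = m + 1 → ∃ y ∈ (T.U l).gr (n + 1), ∑ l', T.c l l' (z l') = (T.U l).d y) →
    ∃ w y : ∀ l, (T.U l).X,
      (∀ l, w l ∈ (T.U l).gr n ∧ (T.U l).d (w l) = 0 ∧ (T.s l + 1 ≠ m → w l = 0)) ∧
      (∀ l, y l ∈ (T.U l).gr (n + 1) ∧ (T.s l ≠ m → y l = 0)) ∧
      ∀ l, T.s l = m → z l = ∑ l', T.c l l' (w l') + (T.U l).d (y l)

theorem step (m n : ℤ) (hE : T.Ex m n) (k : ℤ) (hk : k + m = n) (u : ∀ l, (T.U l).X)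
    (hu : u ∈ T.gr k) (hd : T.δ u = 0) (h0 : ∀ l, T.s l < m → u l = 0) :
    ∃ v ∈ T.gr (k + 1), ∀ l, T.s l < m + 1 → (u - T.δ v) l = 0 := by
  classical
  have hdl : ∀ l, (T.U l).d (u l) + ∑ l', T.c l l' (u l') = 0 := fun l => congrFun hd l
  let z : ∀ l, (T.U l).X := fun l => if T.s l = m then u l else 0
  have hz1 : ∀ l, T.s l = m → z l = u l := fun l h => if_pos h
  have hz0 : ∀ l, T.s l ≠ m → z l = 0 := fun l h => if_neg h
  have hcl : ∀ l, T.s l ≤ m + 1 → ∑ l', T.c l l' (u l') = ∑ l', T.c l l' (z l') := by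
    intro l hl
    refine Finset.sum_congr rfl fun l' _ => ?_
    by_cases h : T.s l' = m
    · rw [hz1 l' h]
    · rw [hz0 l' h, map_zero]
      rcases lt_or_ge (T.s l') m with h1 | h1
      · rw [h0 l' h1, map_zero]
      · rw [T.c_zero l l' (by omega), LinearMap.zero_apply]
  obtain ⟨w, y, hw, hy, hzy⟩ := hE z
    (fun l => by
      by_cases h : T.s l = m
      · rw [hz1 l h]
        have := hu l
        rwa [h, hk] at this
      · rw [hz0 l h]; exact Submodule.zero_mem _)
    (fun l => by
      by_cases h : T.s l = m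
      · rw [hz1 l h]
        have h1 := hdl l
        rw [Finset.sum_eq_zero, add_zero] at h1
        · exact h1
        · intro l' _
          rcases lt_or_ge (T.s l') m with h2 | h2
          · rw [h0 l' h2, map_zero]
          · rw [T.c_zero l l' (by omega), LinearMap.zero_apply]
      · rw [hz0 l h, map_zero])
    hz0
    (fun l hl => by
      refine ⟨-u l, Submodule.neg_mem _ ?_, ?_⟩
      · have := hu l
        rwa [hl, show k + (m + 1) = n + 1 by omega] at this
      · rw [← hcl l hl.le, map_neg]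
        exact (neg_eq_of_add_eq_zero_right (hdl l)).symm)
  refine ⟨w + y, fun l => ?_, fun l hl => ?_⟩
  · refine Submodule.add_mem _ ?_ ?_
    · by_cases h : T.s l + 1 = m
      · have := (hw l).1
        rwa [show k + 1 + T.s l = n by omega]
      · rw [(hw l).2.2 h]; exact Submodule.zero_mem _
    · by_cases h : T.s l = m
      · have := (hy l).1
        rwa [show k + 1 + T.s l = n + 1 by omega]
      · rw [(hy l).2 h]; exact Submodule.zero_mem _
  · have hyc : ∑ l', T.c l l' (y l') = 0 := by
      refine Finset.sum_eq_zero fun l' _ => ?_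
      by_cases h : T.s l' = m
      · rw [T.c_zero l l' (by omega), LinearMap.zero_apply]
      · rw [(hy l').2 h, map_zero]
    rw [Pi.sub_apply, map_add, Pi.add_apply, δ_apply, δ_apply, (hw l).2.1, zero_add, hyc, add_zero]
    by_cases h : T.s l = m
    · rw [← hzy l h, hz1 l h, sub_self]
    · have hlt : T.s l < m := by omega
      rw [h0 l hlt, (hy l).2 h, map_zero, add_zero, zero_sub, neg_eq_zero]
      refine Finset.sum_eq_zero fun l' _ => ?_
      by_cases h2 : T.s l' + 1 = m
      · rw [T.c_zero l l' (by omega), LinearMap.zero_apply]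
      · rw [(hw l').2.2 h2, map_zero]

/-- exactness on homology ⇒ the total complex is acyclic -/
theorem ac_of_ex (hE : ∀ m n : ℤ, T.Ex m n) : Ac T.cx := by
  classical
  have hb : ∃ B : ℤ, ∀ l, T.s l < B := by
    rcases isEmpty_or_nonempty T.Cl with h | h
    · exact ⟨0, fun l => (h.false l).elim⟩
    · refine ⟨(Finset.univ.image T.s).max' (by simp) + 1, fun l => ?_⟩
      have := Finset.le_max' (Finset.univ.image T.s) (T.s l) (by simp)
      omega
  obtain ⟨B, hB⟩ := hb
  have hl : ∃ C : ℤ, ∀ l, C ≤ T.s l := by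
    rcases isEmpty_or_nonempty T.Cl with h | h
    · exact ⟨0, fun l => (h.false l).elim⟩
    · exact ⟨(Finset.univ.image T.s).min' (by simp), fun l =>
        Finset.min'_le _ (T.s l) (by simp)⟩
  obtain ⟨C, hC⟩ := hl
  have key : ∀ (j : ℕ) (m : ℤ), B ≤ m + j → ∀ (k : ℤ) (u : ∀ l, (T.U l).X), u ∈ T.gr k →
      T.δ u = 0 → (∀ l, T.s l < m → u l = 0) → ∃ v ∈ T.gr (k + 1), T.δ v = u := by
    intro j
    induction j with
    | zero =>
      intro m hm k u _ _ h0
      refine ⟨0, Submodule.zero_mem _, ?_⟩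
      rw [map_zero]
      funext l
      exact (h0 l (by have := hB l; push_cast at hm; omega)).symm
    | succ j ih =>
      intro m hm k u hu hd h0
      obtain ⟨v, hv, hv0⟩ := T.step m (k + m) (hE m _) k rfl u hu hd h0
      have h1 : u - T.δ v ∈ T.gr k := by
        have := T.δ_mem hv
        rw [add_sub_cancel_right] at this
        exact Submodule.sub_mem _ hu this
      obtain ⟨v', hv', h2⟩ := ih (m + 1) (by push_cast at hm; omega) k (u - T.δ v) h1
        (by rw [map_sub, hd, T.δ_δ, sub_zero]) hv0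
      exact ⟨v' + v, Submodule.add_mem _ hv' hv, by rw [map_add, h2, sub_add_cancel]⟩
  intro k u hu hd
  exact key (B - C).toNat C (by omega) k u hu hd fun l hl => absurd (hC l) (by omega)

end TF

end Crest.Agent.R186.Zig498
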