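import Crest.Agent.R186.Opw_671
import Crest.Agent.R186.HBz_362
import Crest.Agent.R186.FamB_654
import Crest.Agent.R186.FamT_462

/-!
Row 186 (A), second road for (V) (helper340): closing data over the opposite window
(`ceOp`), torus twists of the cells (`ceTw`), and the letters there (`ltOp`, `ltTw`).
-/

set_option autoImplicit false
set_option linter.style.haveILetI false
set_option linter.unusedSectionVars false
set_option linter.unusedSimpArgs false

noncomputable section

namespace Crest.Agent.R186.V340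

open MulOpposite Hat827 Win810 Frame515 Res255 KHev302 Opw671

variable {K : Type} [Field K] {w : WD K}

/-- a torus automorphism of the coefficient ring -/
structure TwA (E : CE w) where
  τ : E.B →ₐ[K] E.B
  mem : ∀ {P A C : ℤ} {b : E.B}, b ∈ E.pb P A C → τ b ∈ E.pb P A C
  D : ∀ b, τ (E.DB b) = E.DB (τ b)

/-- twisted cells -/
def ceTw (E : CE w) (T : TwA E) : CE w where
  B := E.B
  two := E.two
  pb := E.pb
  pb_mul := E.pb_mul
  pb_neg := E.pb_neg
  nb := E.nb
  pb_big := E.pb_big
  pb_fin := E.pb_fin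
  prB := E.prB
  pr_same := E.pr_same
  pr_diff := E.pr_diff
  DB := E.DB
  DB_mul := E.DB_mul
  DB_DB := E.DB_DB
  DB_mem := E.DB_mem
  p := E.p
  p_mem := E.p_mem
  p_D := E.p_D
  o := E.o
  s0 := E.s0
  o_mem := E.o_mem
  mul_o := E.mul_o
  o_mul := E.o_mul
  D_o := E.D_o
  p_o := E.p_o
  ka := E.ka
  oc := E.oc
  cd := E.cd
  cd_le := E.cd_le
  cc c c' := T.τ (E.cc c c')
  cc_mem c c' := T.mem (E.cc_mem c c')
  mc c c' := by
    have h := congrArg T.τ (E.mc c c')
    rw [map_add, map_sum, T.D, map_zero] at h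
    simpa only [map_mul] using h

theorem comap_op_bot {M : Type} [AddCommGroup M] [Module K M] {N : Submodule K M} (h : N = ⊥) :
    N.comap (opLinearEquiv K : M ≃ₗ[K] Mᵐᵒᵖ).symm.toLinearMap = ⊥ := by
  rw [eq_bot_iff]
  intro x hx
  have hx' : x.unop ∈ N := hx
  rw [h, Submodule.mem_bot] at hx'
  rw [Submodule.mem_bot]
  exact unop_injective hx'

variable (p0 a0 : ℤ)

/-- **closing data over the opposite window** -/
def ceOp (E : CE w) : CE (opW w p0 a0) where
  B := E.Bᵐᵒᵖ
  two b := unop_injective (E.two b.unop)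
  pb P A C := (E.pb P A C).comap (opLinearEquiv K).symm.toLinearMap
  pb_mul {P A C P' A' C' a b} ha hb := by
    have h := E.pb_mul (show b.unop ∈ E.pb P' A' C' from hb) (show a.unop ∈ E.pb P A C from ha)
    change (a * b).unop ∈ E.pb _ _ _
    rw [unop_mul, add_comm P, add_comm A, add_comm C]
    exact h
  pb_neg P A C h := comap_op_bot (E.pb_neg P A C h)
  nb := E.nb
  pb_big i j P C h := by
    refine comap_op_bot ?_
    have e : ∀ i j : w.Ob, E.pb P (a0 - w.A i - (a0 - w.A j)) C = ⊥ := fun i j => by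
      rw [show a0 - w.A i - (a0 - w.A j) = w.A j - w.A i by ring]
      exact E.pb_big j i P C h
    exact e i j
  pb_fin P A C := by
    have h := E.pb_fin P A C
    rw [Submodule.comap_equiv_eq_map_symm]
    infer_instance
  prB k := (opLinearEquiv K).toLinearMap ∘ₗ E.prB k ∘ₗ (opLinearEquiv K).symm.toLinearMap
  pr_same h := congrArg op (E.pr_same h)
  pr_diff h h' := congrArg op (E.pr_diff h h')
  DB := (opLinearEquiv K).toLinearMap ∘ₗ E.DB ∘ₗ (opLinearEquiv K).symm.toLinearMap
  DB_mul a b := by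
    apply unop_injective
    change E.DB (a * b).unop = (op (E.DB a.unop) * b + a * op (E.DB b.unop)).unop
    rw [unop_mul, E.DB_mul, unop_add, unop_mul, unop_mul, unop_op, unop_op, add_comm]
  DB_DB a := by
    apply unop_injective
    exact E.DB_DB a.unop
  DB_mem h := E.DB_mem h
  p := AlgHom.op E.p
  p_mem h := E.p_mem h
  p_D a := congrArg op (E.p_D a.unop)
  o := (opLinearEquiv K).toLinearMap ∘ₗ E.o ∘ₗ (opLinearEquiv K).symm.toLinearMap
  s0 := E.s0
  o_mem h := E.o_mem h
  mul_o a b := congrArg op (E.o_mul b.unop a.unop)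
  o_mul b a := congrArg op (E.mul_o a.unop b.unop)
  D_o b := congrArg op (E.D_o b.unop)
  p_o b := congrArg op (E.p_o b.unop)
  ka := E.ka
  oc := E.oc
  cd c := (E.s0 - E.cd c).toNat
  cd_le c := by
    have := E.cd_le c
    omega
  cc c c' := op (E.cc c' c)
  cc_mem c c' := by
    have h := E.cc_mem c' c
    have h1 := E.cd_le c
    have h2 := E.cd_le c'
    change E.cc c' c ∈ E.pb _ _ _
    rw [opW_P, opW_P, opW_A, opW_A, Int.toNat_of_nonneg (by omega), Int.toNat_of_nonneg (by omega),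
      show p0 - w.P (E.oc c) - (p0 - w.P (E.oc c')) = w.P (E.oc c') - w.P (E.oc c) by ring,
      show a0 - w.A (E.oc c) - (a0 - w.A (E.oc c')) = w.A (E.oc c') - w.A (E.oc c) by ring,
      show E.s0 - (E.cd c : ℤ) - (E.s0 - E.cd c') - 1 = (E.cd c' : ℤ) - E.cd c - 1 by ring]
    exact h
  mc c c' := by
    have h := congrArg op (E.mc c' c)
    have h2 := map_sum (opAddEquiv (α := E.B)) (fun x => E.cc c' x * E.cc x c) Finset.univ
    rw [op_add, show op (∑ x, E.cc c' x * E.cc x c) = _ from h2] at h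
    exact h

variable {p0 a0}

theorem mem_pbOp {E : CE w} {P A C : ℤ} {b : E.Bᵐᵒᵖ} :
    b ∈ (ceOp p0 a0 E).pb P A C ↔ b.unop ∈ E.pb P A C := Iff.rfl

theorem cdOp {E : CE w} (c : E.ka) : (((ceOp p0 a0 E).cd c : ℕ) : ℤ) = E.s0 - E.cd c :=
  Int.toNat_of_nonneg (by have := E.cd_le c; omega)

open HL462 in
/-- the letters over the twisted data -/
def ltTw {E : CE w} {g : K} (L : Lt E g) (T : TwA E) (hh : T.τ L.h = L.h) (ht : T.τ L.t = L.t) :
    Lt (ceTw E T) g where
  x j := T.τ (L.x j)
  d j := T.τ (L.d j)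
  h := L.h
  t := L.t
  z j := T.τ (L.z j)
  x_mem j := T.mem (L.x_mem j)
  d_mem j := T.mem (L.d_mem j)
  h_mem := L.h_mem
  t_mem := L.t_mem
  z_mem j := T.mem (L.z_mem j)
  Dx j := by
    change E.DB (T.τ (L.x j)) = 0
    rw [← T.D, L.Dx, map_zero]
  Dd j := by
    change E.DB (T.τ (L.d j)) = 0
    rw [← T.D, L.Dd, map_zero]
  Dh := L.Dh
  Dt := L.Dt
  ht0 := by
    have h := congrArg T.τ L.ht0
    rw [ht, map_add, hh, map_smul, map_add, map_mul, map_mul] at h
    exact h
  ht1 := by
    have h := congrArg T.τ L.ht1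
    rw [map_smul, ht, map_add, hh, map_smul, map_add, map_mul, map_smul, map_mul] at h
    exact h
  xt j := by
    have h := congrArg T.τ (L.xt j)
    rw [map_mul, ht, map_smul, map_mul, ht] at h
    exact h
  td j := by
    have h := congrArg T.τ (L.td j)
    rw [map_mul, ht, map_add, map_smul, map_mul, ht, T.D] at h
    exact h
  xh j := by
    have h := congrArg T.τ (L.xh j)
    rw [map_mul, hh, map_mul, hh] at h
    exact h
  hd j := by
    have h := congrArg T.τ (L.hd j)
    rw [map_mul, hh, map_mul, hh] at h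
    exact h

/-- the two scalars of `d` -/
def dl (g : K) (j : Fin 2) : K := if j = 0 then g⁻¹ else 1

theorem dl0 (g : K) : dl g 0 = g⁻¹ := rfl
theorem dl1 (g : K) : dl g 1 = 1 := rfl

open HL462 in
/-- **the letters over the opposite data** -/
def ltOp {E : CE w} {g : K} (L : Lt E g) (hg : g ≠ 0) (two : (2 : K) = 0) :
    Lt (ceOp p0 a0 E) g⁻¹ where
  x j := op (L.x j)
  d j := op (dl g j • L.d j)
  h := op ((g ^ 2)⁻¹ • L.h)
  t := op L.t
  z j := op ((g⁻¹ * dl g j) • L.z j)
  x_mem j := L.x_mem j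
  d_mem j := Submodule.smul_mem _ _ (L.d_mem j)
  h_mem := Submodule.smul_mem _ _ L.h_mem
  t_mem := L.t_mem
  z_mem j := Submodule.smul_mem _ _ (L.z_mem j)
  Dx j := congrArg op (L.Dx j)
  Dd j := by
    refine congrArg op ?_
    change E.DB (dl g j • L.d j) = 0
    rw [map_smul, L.Dd, smul_zero]
  Dh := by
    refine congrArg op ?_
    change E.DB ((g ^ 2)⁻¹ • L.h) = 0
    rw [map_smul, L.Dh, smul_zero]
  Dt := congrArg op L.Dt
  ht0 := by
    apply unop_injective
    change L.t = (g ^ 2)⁻¹ • L.h + (g⁻¹ - 1) • (L.x 0 * (dl g 0 • L.d 0) + L.x 1 * (dl g 1 • L.d 1))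
    have h := L.ht1
    have hg2 : g ^ 2 ≠ 0 := pow_ne_zero 2 hg
    have h' : L.t = (g ^ 2)⁻¹ • (g ^ 2 • L.t) := by rw [smul_smul, inv_mul_cancel₀ hg2, one_smul]
    rw [h', h, smul_add, dl0, dl1, one_smul, mul_smul_comm]
    congr 1
    rw [smul_add, smul_add, smul_add, smul_smul, smul_smul, smul_smul, smul_smul]
    have e2 : (1 : K) + 1 = 0 := by rw [one_add_one_eq_two, two]
    have e3 : (g⁻¹ - 1) = g⁻¹ * (g - 1) := by
      have : (g⁻¹ - 1) = - (g⁻¹ * (g - 1)) := by field_simp; ring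
      rw [this]
      have h4 : ∀ a : K, -a = a := fun a => by
        have : a + a = 0 := by rw [← two_mul, two, zero_mul]
        exact neg_eq_of_add_eq_zero_left this
      exact h4 _
    rw [e3]
    congr 1
    · congr 1
      field_simp
    · congr 1
      field_simp
  ht1 := by
    apply unop_injective
    change (g⁻¹) ^ 2 • L.t = (g ^ 2)⁻¹ • L.h + (g⁻¹ - 1) • ((dl g 0 • L.d 0) * L.x 0 +
      g⁻¹ • ((dl g 1 • L.d 1) * L.x 1))
    have h4 : ∀ a : K, -a = a := fun a => by
      have : a + a = 0 := by rw [← two_mul, two, zero_mul]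
      exact neg_eq_of_add_eq_zero_left this
    have e3 : (g⁻¹ - 1) = g⁻¹ * (g - 1) := by
      have : (g⁻¹ - 1) = - (g⁻¹ * (g - 1)) := by field_simp; ring
      rw [this]
      exact h4 _
    rw [dl0, dl1, one_smul, smul_mul_assoc, ← smul_add, smul_smul, e3]
    conv_lhs => rw [L.ht0]
    rw [smul_add, smul_smul, inv_pow]
    congr 2
    field_simp
  xt j := by
    apply unop_injective
    change L.t * L.x j = g⁻¹ • (L.x j * L.t)
    rw [L.xt, smul_smul, inv_mul_cancel₀ hg, one_smul]
  td j := by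
    apply unop_injective
    change (dl g j • L.d j) * L.t = g⁻¹ • (L.t * (dl g j • L.d j)) +
      E.DB ((g⁻¹ * dl g j) • L.z j)
    rw [mul_smul_comm, smul_mul_assoc, L.td, smul_add, smul_add, map_smul, smul_smul, smul_smul,
      smul_smul]
    have e : E.DB (L.z j) + E.DB (L.z j) = 0 := E.two _
    rw [add_assoc, ← smul_add, e, smul_zero, add_zero]
    congr 1
    field_simp
  xh j := by
    apply unop_injective
    change ((g ^ 2)⁻¹ • L.h) * L.x j = L.x j * ((g ^ 2)⁻¹ • L.h)
    rw [smul_mul_assoc, mul_smul_comm, L.xh]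
  hd j := by
    apply unop_injective
    change (dl g j • L.d j) * ((g ^ 2)⁻¹ • L.h) = ((g ^ 2)⁻¹ • L.h) * (dl g j • L.d j)
    rw [smul_mul_assoc, mul_smul_comm, mul_smul_comm, smul_mul_assoc, L.hd, smul_comm]

end Crest.Agent.R186.V340
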