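import Mathlib

/-!
Row 186 (A), short road of helper306 (helper462): a finite twisted complex is acyclic when its
first page is exact.
-/

set_option autoImplicit false

namespace Crest.Agent.R186.HL462

variable {K E κ : Type*} [Field K] [AddCommGroup E] [Module K E] [Fintype κ]

/-- finite twisted complexes: levels `lv`, pieces `G c n`, internal differential `d n` of degree
`-1` on the piece of degree `n`, operators `m c c'` from cell `c'` to cell `c`;
a tuple `y` has degree `N` when `y c ∈ G c (N + lv c)` -/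
structure FT (K E κ : Type*) [Field K] [AddCommGroup E] [Module K E] [Fintype κ] where
  lv : κ → ℤ
  G : κ → ℤ → Submodule K E
  d : ℤ → E →ₗ[K] E
  m : κ → κ → E →ₗ[K] E
  d_mem : ∀ c n x, x ∈ G c n → d n x ∈ G c (n - 1)
  m_mem : ∀ c c' n x, x ∈ G c' n → m c c' x ∈ G c (n + lv c - lv c' - 1)
  m_low : ∀ c c' x, lv c ≤ lv c' → m c c' x = 0
  /-- characteristic two -/
  two : ∀ x : E, x + x = 0
  /-- the total square is zero -/
  sq : ∀ (N : ℤ) (y : κ → E), (∀ c, y c ∈ G c (N + lv c)) → ∀ c,
    d (N - 1 + lv c) (d (N + lv c) (y c) + ∑ c', m c c' (y c')) +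
      ∑ c', m c c' (d (N + lv c') (y c') + ∑ c'', m c' c'' (y c'')) = 0

variable (T : FT K E κ)

namespace FT

/-- the total differential -/
def tot (N : ℤ) (y : κ → E) : κ → E := fun c => T.d (N + T.lv c) (y c) + ∑ c', T.m c c' (y c')

/-- exactness of the first page at level `r`, degree `n` -/
def E1 (r n : ℤ) : Prop := ∀ u : κ → E, (∀ c, T.lv c ≠ r → u c = 0) → (∀ c, u c ∈ T.G c n) →
  (∀ c, T.d n (u c) = 0) →
  (∀ c, T.lv c = r + 1 → ∃ v ∈ T.G c (n + 1), ∑ c', T.m c c' (u c') = T.d (n + 1) v) →
  ∃ w : κ → E, (∀ c, T.lv c ≠ r - 1 → w c = 0) ∧ (∀ c, w c ∈ T.G c n) ∧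
    (∀ c, T.d n (w c) = 0) ∧
    ∀ c, T.lv c = r → ∃ v ∈ T.G c (n + 1), u c = ∑ c', T.m c c' (w c') + T.d (n + 1) v

theorem tot_sub (N : ℤ) (y z : κ → E) : T.tot N (y - z) = T.tot N y - T.tot N z := by
  funext c
  simp only [tot, Pi.sub_apply, map_sub, Finset.sum_sub_distrib]
  abel

theorem tot_add (N : ℤ) (y z : κ → E) : T.tot N (y + z) = T.tot N y + T.tot N z := by
  funext c
  simp only [tot, Pi.add_apply, map_add, Finset.sum_add_distrib]
  abel

theorem tot_tot (N : ℤ) (y : κ → E) (hy : ∀ c, y c ∈ T.G c (N + T.lv c)) :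
    T.tot (N - 1) (T.tot N y) = 0 := by
  funext c
  exact T.sq N y hy c

theorem tot_mem (N : ℤ) (y : κ → E) (hy : ∀ c, y c ∈ T.G c (N + T.lv c)) (c : κ) :
    T.tot N y c ∈ T.G c (N - 1 + T.lv c) := by
  refine Submodule.add_mem _ ?_ (Submodule.sum_mem _ fun c' _ => ?_)
  · have := T.d_mem c _ _ (hy c)
    rwa [show N + T.lv c - 1 = N - 1 + T.lv c by ring] at this
  · have := T.m_mem c c' _ _ (hy c')
    rwa [show N + T.lv c' + T.lv c - T.lv c' - 1 = N - 1 + T.lv c by ring] at this

/-- one step: a cocycle supported in levels `≥ r` is cohomologous to one in levels `> r` -/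
theorem step (r N : ℤ) (h : T.E1 r (N + r)) (y : κ → E)
    (hy : ∀ c, y c ∈ T.G c (N + T.lv c)) (h0 : T.tot N y = 0) (hs : ∀ c, T.lv c < r → y c = 0) :
    ∃ z : κ → E, (∀ c, z c ∈ T.G c (N + 1 + T.lv c)) ∧
      ∀ c, T.lv c < r + 1 → y c - T.tot (N + 1) z c = 0 := by
  classical
  obtain ⟨w, hw0, hwG, hwd, hwv⟩ := h (fun c => if T.lv c = r then y c else 0)
    (fun c hc => if_neg hc) (fun c => by
      by_cases hc : T.lv c = r
      · simp only [if_pos hc]
        have := hy c
        rwa [hc] at this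
      · simp only [if_neg hc]
        exact Submodule.zero_mem _) (fun c => by
      by_cases hc : T.lv c = r
      · simp only [if_pos hc]
        have h1 := congrFun h0 c
        simp only [tot, Pi.zero_apply] at h1
        rw [Finset.sum_eq_zero, add_zero, hc] at h1
        · exact h1
        · intro c' _
          by_cases hc' : T.lv c' < r
          · rw [hs c' hc', map_zero]
          · exact T.m_low c c' _ (by omega)
      · simp only [if_neg hc, map_zero]) (fun c hc => by
      refine ⟨y c, ?_, ?_⟩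
      · have := hy c
        rwa [show N + T.lv c = N + r + 1 by omega] at this
      · have h1 := congrFun h0 c
        simp only [tot, Pi.zero_apply] at h1
        have e : ∑ c', T.m c c' (y c') = ∑ c', T.m c c' (if T.lv c' = r then y c' else 0) := by
          refine Finset.sum_congr rfl fun c' _ => ?_
          by_cases h1 : T.lv c' = r
          · rw [if_pos h1]
          · rw [if_neg h1, map_zero]
            by_cases hc' : T.lv c' < r
            · rw [hs c' hc', map_zero]
            · exact T.m_low c c' _ (by omega)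
        rw [e, show N + T.lv c = N + r + 1 by omega] at h1
        have h2 := T.two (T.d (N + r + 1) (y c))
        exact add_left_cancel (h1.trans h2.symm))
  choose! v hvG hv using hwv
  refine ⟨fun c => if T.lv c = r then v c else w c, fun c => ?_, fun c hc => ?_⟩
  · by_cases hcr : T.lv c = r
    · simp only [if_pos hcr]
      have := hvG c hcr
      rwa [show N + r + 1 = N + 1 + T.lv c by omega] at this
    · simp only [if_neg hcr]
      by_cases h1 : T.lv c = r - 1
      · have := hwG c
        rwa [show N + r = N + 1 + T.lv c by omega] at this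
      · rw [hw0 c h1]
        exact Submodule.zero_mem _
  · simp only [tot]
    have e : ∑ c', T.m c c' (if T.lv c' = r then v c' else w c') = ∑ c', T.m c c' (w c') := by
      refine Finset.sum_congr rfl fun c' _ => ?_
      by_cases h1 : T.lv c' = r
      · rw [if_pos h1, T.m_low c c' _ (by omega), T.m_low c c' _ (by omega)]
      · rw [if_neg h1]
    rw [e]
    by_cases hcr : T.lv c = r
    · rw [if_pos hcr]
      have h1 := hv c hcr
      rw [if_pos hcr] at h1
      rw [h1, show N + 1 + T.lv c = N + r + 1 by omega, add_comm, sub_eq_zero]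
    · rw [if_neg hcr, hs c (by omega)]
      have e2 : ∑ c', T.m c c' (w c') = 0 := by
        refine Finset.sum_eq_zero fun c' _ => ?_
        by_cases h1 : T.lv c' = r - 1
        · exact T.m_low c c' _ (by omega)
        · rw [hw0 c' h1, map_zero]
      rw [e2, add_zero]
      by_cases h1 : T.lv c = r - 1
      · rw [show N + 1 + T.lv c = N + r by omega, hwd c, sub_zero]
      · rw [hw0 c h1, map_zero, sub_zero]

/-- **the twisted complex is acyclic** -/
theorem acyclic (h : ∀ r n, T.E1 r n) (N : ℤ) (y : κ → E) (hy : ∀ c, y c ∈ T.G c (N + T.lv c))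
    (h0 : T.tot N y = 0) :
    ∃ z : κ → E, (∀ c, z c ∈ T.G c (N + 1 + T.lv c)) ∧ y = T.tot (N + 1) z := by
  classical
  obtain ⟨a, ha⟩ : ∃ a : ℤ, ∀ c, a ≤ T.lv c := by
    refine ⟨-∑ c, |T.lv c|, fun c => ?_⟩
    have h1 : |T.lv c| ≤ ∑ c, |T.lv c| :=
      Finset.single_le_sum (f := fun c => |T.lv c|) (fun _ _ => abs_nonneg _) (Finset.mem_univ c)
    have h2 := neg_abs_le (T.lv c)
    omega
  obtain ⟨b, hb⟩ : ∃ b : ℤ, ∀ c, T.lv c < b := by
    refine ⟨∑ c, |T.lv c| + 1, fun c => ?_⟩
    have h1 : |T.lv c| ≤ ∑ c, |T.lv c| :=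
      Finset.single_le_sum (f := fun c => |T.lv c|) (fun _ _ => abs_nonneg _) (Finset.mem_univ c)
    have h2 := le_abs_self (T.lv c)
    omega
  have key : ∀ k : ℕ, ∃ z : κ → E, (∀ c, z c ∈ T.G c (N + 1 + T.lv c)) ∧
      ∀ c, T.lv c < a + k → y c - T.tot (N + 1) z c = 0 := by
    intro k
    induction k with
    | zero => exact ⟨0, fun c => Submodule.zero_mem _, fun c hc => by
        exfalso
        have := ha c
        push_cast at hc
        omega⟩
    | succ k ih =>
      obtain ⟨z, hz, hz'⟩ := ih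
      have hm : ∀ c, (y - T.tot (N + 1) z) c ∈ T.G c (N + T.lv c) := fun c => by
        refine Submodule.sub_mem _ (hy c) ?_
        have := T.tot_mem (N + 1) z hz c
        rwa [add_sub_cancel_right] at this
      have hd : T.tot N (y - T.tot (N + 1) z) = 0 := by
        rw [tot_sub, h0]
        have := T.tot_tot (N + 1) z hz
        rw [add_sub_cancel_right] at this
        rw [this, sub_zero]
      obtain ⟨z', hz1, hz2⟩ := T.step (a + k) N (h _ _) _ hm hd (fun c hc => hz' c hc)
      refine ⟨z + z', fun c => Submodule.add_mem _ (hz c) (hz1 c), fun c hc => ?_⟩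
      rw [tot_add]
      have := hz2 c (by push_cast at hc; omega)
      simp only [Pi.sub_apply, Pi.add_apply] at this ⊢
      rw [← this]
      abel
  obtain ⟨z, hz, hz'⟩ := key (b - a).toNat
  refine ⟨z, hz, funext fun c => ?_⟩
  rw [← sub_eq_zero]
  refine hz' c ?_
  have h1 := ha c
  have h2 := hb c
  omega

end FT

/-! ### homology as a quotient -/

/-- cycles modulo boundaries -/
abbrev HQ (Z B : Submodule K E) : Type _ := Z ⧸ B.comap Z.subtype

/-- the map induced by an operator -/
def HQ.map {Z B Z' B' : Submodule K E} (f : E →ₗ[K] E) (hZ : ∀ x ∈ Z, f x ∈ Z')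
    (hB : ∀ x ∈ B, f x ∈ B') : HQ Z B →ₗ[K] HQ Z' B' :=
  Submodule.mapQ _ _ (f.restrict hZ) fun x hx => hB _ hx

theorem HQ.map_mk {Z B Z' B' : Submodule K E} (f : E →ₗ[K] E) (hZ : ∀ x ∈ Z, f x ∈ Z')
    (hB : ∀ x ∈ B, f x ∈ B') (x : Z) :
    HQ.map f hZ hB (Submodule.Quotient.mk x) = Submodule.Quotient.mk ⟨f x, hZ _ x.2⟩ := rfl

end Crest.Agent.R186.HL462
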