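import Crest.Agent.R186.KHevB_302
import Crest.Agent.R186.FinD_384
import Crest.Agent.R186.HL_462

/-!
Row 186 (A), short road of helper306 (helper462): the field `H` of `FinD384.HIn` over the cell data
`CE` of a window, from the exactness of the first page.
-/

set_option autoImplicit false
set_option linter.style.haveILetI false

namespace Crest.Agent.R186.HL462

open Hat827 Win810 Adapt186 KHev302 ConeHyp462

variable {K : Type} [Field K] {w : WD K} (E : CE w) (X : PCells w.dga)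

/-- tuples -/
abbrev TB : Type := X.ι → w.Ob → E.B

/-- right action of the window algebra on rows -/
def ra (m : w.dga.C) : (w.Ob → E.B) →ₗ[K] (w.Ob → E.B) where
  toFun x j := ∑ i, x i * E.p ((show w.Win from m).1 i j)
  map_add' x y := by
    funext j
    simp only [Pi.add_apply, add_mul, Finset.sum_add_distrib]
  map_smul' r x := by
    funext j
    simp only [Pi.smul_apply, smul_mul_assoc, Finset.smul_sum, RingHom.id_apply]

theorem ra_apply (m : w.dga.C) (x : w.Ob → E.B) (j : w.Ob) :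
    ra E m x j = ∑ i, x i * E.p ((show w.Win from m).1 i j) := rfl

theorem ra_mul (a b : w.dga.C) (x : w.Ob → E.B) : ra E (a * b) x = ra E b (ra E a x) := by
  funext j
  rw [ra_apply, ra_apply]
  simp only [ra_apply]
  change ∑ i, x i * E.p (((show w.Win from a).1 * (show w.Win from b).1) i j) = _
  simp only [Matrix.mul_apply, map_sum, map_mul, Finset.mul_sum, Finset.sum_mul]
  rw [Finset.sum_comm]
  exact Finset.sum_congr rfl fun i _ => Finset.sum_congr rfl fun l _ => by rw [mul_assoc]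

theorem ra_add (a b : w.dga.C) (x : w.Ob → E.B) : ra E (a + b) x = ra E a x + ra E b x := by
  funext j
  change ∑ i, x i * E.p ((show w.Win from a).1 i j + (show w.Win from b).1 i j) =
    ∑ i, x i * E.p ((show w.Win from a).1 i j) + ∑ i, x i * E.p ((show w.Win from b).1 i j)
  rw [← Finset.sum_add_distrib]
  exact Finset.sum_congr rfl fun i _ => by rw [map_add, mul_add]

theorem ra_zero (x : w.Ob → E.B) : ra E 0 x = 0 := by
  funext j
  change ∑ i, x i * E.p (0 : w.S) = 0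
  simp

theorem ra_sum {ι : Type} (s : Finset ι) (f : ι → w.dga.C) (x : w.Ob → E.B) :
    ra E (∑ i ∈ s, f i) x = ∑ i ∈ s, ra E (f i) x := by
  classical
  induction s using Finset.induction_on with
  | empty => rw [Finset.sum_empty, Finset.sum_empty, ra_zero]
  | insert a s ha ih => rw [Finset.sum_insert ha, Finset.sum_insert ha, ra_add, ih]

/-- the differential of `B`, row by row -/
def db : (w.Ob → E.B) →ₗ[K] (w.Ob → E.B) where
  toFun x j := E.DB (x j)
  map_add' x y := by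
    funext j
    exact map_add _ _ _
  map_smul' r x := by
    funext j
    exact map_smul _ _ _

theorem db_ra (m : w.dga.C) (x : w.Ob → E.B) :
    db E (ra E m x) = ra E m (db E x) + ra E (w.dga.D m) x := by
  funext j
  change E.DB (∑ i, x i * E.p ((show w.Win from m).1 i j)) =
    ∑ i, E.DB (x i) * E.p ((show w.Win from m).1 i j) +
    ∑ i, x i * E.p (w.D ((show w.Win from m).1 i j))
  rw [map_sum, ← Finset.sum_add_distrib]
  exact Finset.sum_congr rfl fun i _ => by rw [E.DB_mul, E.p_D]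

theorem dblr (x : w.Ob → E.B) : x + x = 0 := funext fun _ => E.two _

/-- homogeneous tuples of position `(p, a)` and degree `n` -/
def Tg (p a n : ℤ) : Submodule K (TB E X) where
  carrier := {x | (∀ σ j, x σ j ∈ E.pb (p - w.P j) (a - w.A j) (n - X.s σ)) ∧
    ∀ σ, ra E (X.e σ) (x σ) = x σ}
  add_mem' {x y} hx hy := ⟨fun σ j => Submodule.add_mem _ (hx.1 σ j) (hy.1 σ j), fun σ => by
    rw [Pi.add_apply, map_add, hx.2, hy.2]⟩
  zero_mem' := ⟨fun σ j => Submodule.zero_mem _, fun σ => by rw [Pi.zero_apply, map_zero]⟩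
  smul_mem' r x hx := ⟨fun σ j => Submodule.smul_mem _ r (hx.1 σ j), fun σ => by
    rw [Pi.smul_apply, map_smul, hx.2]⟩

theorem mem_Tg {p a n : ℤ} {x : TB E X} : x ∈ Tg E X p a n ↔
    (∀ σ j, x σ j ∈ E.pb (p - w.P j) (a - w.A j) (n - X.s σ)) ∧
      ∀ σ, ra E (X.e σ) (x σ) = x σ := Iff.rfl

/-- the differential, cells of degree at most `M` -/
def dM (M : ℕ) : TB E X →ₗ[K] TB E X where
  toFun x τ := db E (x τ) + ∑ σ ∈ X.F M, ra E (X.c σ τ) (x σ)
  map_add' x y := by
    funext τ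
    simp only [Pi.add_apply, map_add, Finset.sum_add_distrib]
    abel
  map_smul' r x := by
    funext τ
    simp only [Pi.smul_apply, map_smul, RingHom.id_apply, Finset.smul_sum, smul_add]

theorem dM_apply (M : ℕ) (x : TB E X) (τ : X.ι) :
    dM E X M x τ = db E (x τ) + ∑ σ ∈ X.F M, ra E (X.c σ τ) (x σ) := rfl

/-- the differential of `T` in degree `n` -/
def dT (n : ℤ) : TB E X →ₗ[K] TB E X := dM E X n.toNat

theorem Tg_zero {p a n : ℤ} {x : TB E X} (hx : x ∈ Tg E X p a n) {σ : X.ι} (h : n < X.s σ) :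
    x σ = 0 := by
  funext j
  have h1 := hx.1 σ j
  rw [E.pb_neg _ _ _ (by omega)] at h1
  exact (Submodule.mem_bot K).1 h1

theorem dM_eq {p a n : ℤ} {x : TB E X} (hx : x ∈ Tg E X p a n) {M : ℕ} (h : n ≤ M) :
    dM E X M x = dT E X n x := by
  funext τ
  unfold dT
  rw [dM_apply, dM_apply]
  congr 1
  symm
  refine Finset.sum_subset (fun σ hσ => ?_) fun σ _ hσ => ?_
  · rw [X.mem_F] at hσ ⊢
    omega
  · rw [X.mem_F] at hσ
    rw [Tg_zero E X hx (by omega), map_zero]

theorem ra_mem {p a n k : ℤ} {m : w.dga.C} (hm : m ∈ w.dga.G k) {x : w.Ob → E.B}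
    (hx : ∀ j, x j ∈ E.pb (p - w.P j) (a - w.A j) n) (j : w.Ob) :
    ra E m x j ∈ E.pb (p - w.P j) (a - w.A j) (n + k) := by
  rw [ra_apply]
  refine Submodule.sum_mem _ fun i _ => ?_
  have h := E.pb_mul (hx i) (E.p_mem (hm i j))
  rwa [show p - w.P i + (w.P i - w.P j) = p - w.P j by ring,
    show a - w.A i + (w.A i - w.A j) = a - w.A j by ring] at h

theorem dM_mem {p a n : ℤ} {x : TB E X} (hx : x ∈ Tg E X p a n) (M : ℕ) :
    dM E X M x ∈ Tg E X p a (n - 1) := by
  refine ⟨fun τ j => ?_, fun τ => ?_⟩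
  · rw [dM_apply, Pi.add_apply, Finset.sum_apply]
    refine Submodule.add_mem _ ?_ (Submodule.sum_mem _ fun σ _ => ?_)
    · have h := E.DB_mem (hx.1 τ j)
      rwa [show n - X.s τ - 1 = n - 1 - X.s τ by ring] at h
    · have h := ra_mem E (X.c_mem σ τ) (hx.1 σ) j
      rwa [show n - X.s σ + (X.s σ - X.s τ - 1) = n - 1 - X.s τ by ring] at h
  · rw [dM_apply, map_add, map_sum]
    congr 1
    · have h1 := db_ra E (X.e τ) (x τ)
      have h2 : w.dga.D (X.e τ) = 0 := DGA.D_neg (A := w.dga) (X.e_mem τ) (by norm_num)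
      rw [h2, ra_zero, add_zero, hx.2] at h1
      exact h1.symm
    · refine Finset.sum_congr rfl fun σ _ => ?_
      rw [← ra_mul, X.c_right]

theorem dM_dM (M : ℕ) (x : TB E X) : dM E X M (dM E X M x) = 0 := by
  funext ω
  rw [dM_apply]
  simp only [dM_apply, map_add, map_sum, db_ra, Finset.sum_add_distrib, Pi.zero_apply]
  have e0 : db E (db E (x ω)) = 0 := funext fun j => E.DB_DB _
  have e1 : ∑ τ ∈ X.F M, ∑ σ ∈ X.F M, ra E (X.c τ ω) (ra E (X.c σ τ) (x σ)) =
      ∑ σ ∈ X.F M, ra E (w.dga.D (X.c σ ω)) (x σ) := by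
    rw [Finset.sum_comm]
    refine Finset.sum_congr rfl fun σ hσ => ?_
    have e3 : ∑ τ ∈ X.F (X.s σ), X.c σ τ * X.c τ ω = w.dga.D (X.c σ ω) := by
      have h1 := X.mc σ ω
      have h2 := w.dga.two (w.dga.D (X.c σ ω))
      exact add_left_cancel (h1.trans h2.symm)
    have e2 : ∑ τ ∈ X.F M, X.c σ τ * X.c τ ω = ∑ τ ∈ X.F (X.s σ), X.c σ τ * X.c τ ω := by
      symm
      refine Finset.sum_subset (fun τ hτ => ?_) fun τ _ hτ => ?_
      · rw [X.mem_F] at hτ hσ ⊢
        omega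
      · rw [X.mem_F] at hτ
        have h0 : X.c σ τ = 0 := DGA.neg (X.c_mem σ τ) (by omega)
        rw [h0, zero_mul]
    rw [← e3, ← e2, ra_sum]
    exact Finset.sum_congr rfl fun τ _ => (ra_mul E _ _ _).symm
  rw [e0, e1]
  have h1 := dblr E (∑ σ ∈ X.F M, ra E (X.c σ ω) (db E (x σ)))
  have h2 := dblr E (∑ σ ∈ X.F M, ra E (w.dga.D (X.c σ ω)) (x σ))
  generalize (∑ σ ∈ X.F M, ra E (X.c σ ω) (db E (x σ))) = a at *
  generalize (∑ σ ∈ X.F M, ra E (w.dga.D (X.c σ ω)) (x σ)) = b at *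
  calc 0 + (a + b) + (a + b) = (a + a) + (b + b) := by abel
    _ = 0 := by rw [h1, h2, add_zero]

theorem dT_mem {p a n : ℤ} {x : TB E X} (hx : x ∈ Tg E X p a n) :
    dT E X n x ∈ Tg E X p a (n - 1) := dM_mem E X hx _

theorem dT_dT {p a n : ℤ} {x : TB E X} (hx : x ∈ Tg E X p a n) :
    dT E X (n - 1) (dT E X n x) = 0 := by
  rw [← dM_eq E X (dT_mem E X hx) (M := n.toNat) (by omega)]
  exact dM_dM E X _ _

/-- left multiplication -/
def lm (b : E.B) : TB E X →ₗ[K] TB E X where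
  toFun x σ j := b * x σ j
  map_add' x y := by
    funext σ j
    exact mul_add _ _ _
  map_smul' r x := by
    funext σ j
    exact mul_smul_comm _ _ _

theorem lm_apply (b : E.B) (x : TB E X) (σ : X.ι) (j : w.Ob) : lm E X b x σ j = b * x σ j := rfl

theorem ra_lm (m : w.dga.C) (b : E.B) (x : TB E X) (σ : X.ι) :
    ra E m (lm E X b x σ) = fun j => b * ra E m (x σ) j := by
  funext j
  simp only [ra_apply, lm_apply, Finset.mul_sum, mul_assoc]

theorem lm_mem {p a n P A C : ℤ} {b : E.B} (hb : b ∈ E.pb P A C) {x : TB E X}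
    (hx : x ∈ Tg E X p a n) : lm E X b x ∈ Tg E X (p + P) (a + A) (n + C) := by
  refine ⟨fun σ j => ?_, fun σ => ?_⟩
  · have h := E.pb_mul hb (hx.1 σ j)
    rwa [show P + (p - w.P j) = p + P - w.P j by ring,
      show A + (a - w.A j) = a + A - w.A j by ring,
      show C + (n - X.s σ) = n + C - X.s σ by ring] at h
  · rw [ra_lm, hx.2]
    rfl

theorem dM_lm (M : ℕ) (b : E.B) (x : TB E X) :
    dM E X M (lm E X b x) = lm E X (E.DB b) x + lm E X b (dM E X M x) := by
  funext τ j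
  rw [dM_apply, Pi.add_apply, Finset.sum_apply]
  simp only [ra_lm]
  change E.DB (b * x τ j) + ∑ σ ∈ X.F M, b * ra E (X.c σ τ) (x σ) j =
    E.DB b * x τ j + b * ((db E (x τ) + ∑ σ ∈ X.F M, ra E (X.c σ τ) (x σ)) j)
  rw [E.DB_mul, Pi.add_apply, Finset.sum_apply, mul_add, Finset.mul_sum, add_assoc]
  rfl

theorem lm_mul (b b' : E.B) (x : TB E X) : lm E X (b * b') x = lm E X b (lm E X b' x) := by
  funext σ j
  exact mul_assoc _ _ _

theorem lm_add (b b' : E.B) (x : TB E X) : lm E X (b + b') x = lm E X b x + lm E X b' x := by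
  funext σ j
  exact add_mul _ _ _

theorem lm_zero (x : TB E X) : lm E X 0 x = 0 := by
  funext σ j
  exact zero_mul _

theorem lm_smul (r : K) (b : E.B) (x : TB E X) : lm E X (r • b) x = r • lm E X b x := by
  funext σ j
  exact smul_mul_assoc _ _ _

theorem lm_sum {ι : Type} (s : Finset ι) (f : ι → E.B) (x : TB E X) :
    lm E X (∑ i ∈ s, f i) x = ∑ i ∈ s, lm E X (f i) x := by
  classical
  induction s using Finset.induction_on with
  | empty => rw [Finset.sum_empty, Finset.sum_empty, lm_zero]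
  | insert a s ha ih => rw [Finset.sum_insert ha, Finset.sum_insert ha, lm_add, ih]

theorem cc_zero {c c' : E.ka} (h : (E.cd c : ℤ) ≤ E.cd c') : E.cc c c' = 0 := by
  have h1 := E.cc_mem c c'
  rw [E.pb_neg _ _ _ (by omega)] at h1
  exact (Submodule.mem_bot K).1 h1

/-- the twisted complex `H ⊗ X = Hom_L(KK, T(L(+1)))` -/
def ft : FT K (TB E X) E.ka where
  lv c := E.cd c
  G c n := Tg E X (w.P (E.oc c) + 1) (w.A (E.oc c)) n
  d n := dT E X n
  m c c' := lm E X (E.cc c c')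
  d_mem c n x hx := dT_mem E X hx
  m_mem c c' n x hx := by
    have h := lm_mem E X (E.cc_mem c c') hx
    rwa [show w.P (E.oc c') + 1 + (w.P (E.oc c) - w.P (E.oc c')) = w.P (E.oc c) + 1 by ring,
      show w.A (E.oc c') + (w.A (E.oc c) - w.A (E.oc c')) = w.A (E.oc c) by ring,
      show n + ((E.cd c : ℤ) - E.cd c' - 1) = n + E.cd c - E.cd c' - 1 by ring] at h
  m_low c c' x h := by
    rw [cc_zero E h, lm_zero]
  two x := funext fun σ => dblr E _
  sq N y hy c := by
    obtain ⟨M, hM⟩ : ∃ M : ℕ, ∀ c, N + (E.cd c : ℤ) ≤ M := by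
      refine ⟨N.toNat + ∑ c, E.cd c, fun c => ?_⟩
      have h1 : E.cd c ≤ ∑ c, E.cd c :=
        Finset.single_le_sum (f := fun c => E.cd c) (fun _ _ => Nat.zero_le _) (Finset.mem_univ c)
      push_cast
      have h2 : (E.cd c : ℤ) ≤ ((∑ c, E.cd c : ℕ) : ℤ) := by exact_mod_cast h1
      push_cast at h2
      omega
    have e1 : ∀ c, dT E X (N + E.cd c) (y c) = dM E X M (y c) := fun c =>
      (dM_eq E X (hy c) (hM c)).symm
    have hmem : dT E X (N + E.cd c) (y c) + ∑ c', lm E X (E.cc c c') (y c') ∈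
        Tg E X (w.P (E.oc c) + 1) (w.A (E.oc c)) (N - 1 + E.cd c) := by
      refine Submodule.add_mem _ ?_ (Submodule.sum_mem _ fun c' _ => ?_)
      · have := dT_mem E X (hy c)
        rwa [show N + (E.cd c : ℤ) - 1 = N - 1 + E.cd c by ring] at this
      · have h := lm_mem E X (E.cc_mem c c') (hy c')
        rwa [show w.P (E.oc c') + 1 + (w.P (E.oc c) - w.P (E.oc c')) = w.P (E.oc c) + 1 by ring,
          show w.A (E.oc c') + (w.A (E.oc c) - w.A (E.oc c')) = w.A (E.oc c) by ring,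
          show N + (E.cd c' : ℤ) + ((E.cd c : ℤ) - E.cd c' - 1) = N - 1 + E.cd c by ring] at h
    rw [← dM_eq E X hmem (M := M) (by have := hM c; omega)]
    simp only [e1]
    simp only [map_add, map_sum, dM_dM, dM_lm, zero_add, Finset.sum_add_distrib]
    have h : ∑ c', lm E X (E.DB (E.cc c c')) (y c') +
        ∑ c', ∑ c'', lm E X (E.cc c c') (lm E X (E.cc c' c'') (y c'')) = 0 := by
      rw [Finset.sum_comm (f := fun c' c'' => lm E X (E.cc c c') (lm E X (E.cc c' c'') (y c''))),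
        ← Finset.sum_add_distrib]
      refine Finset.sum_eq_zero fun c' _ => ?_
      rw [← lm_zero E X (y c'), ← E.mc c c', lm_add, lm_sum]
      simp only [lm_mul]
    have h2 : ∑ c', lm E X (E.cc c c') (dM E X M (y c')) +
        ∑ c', lm E X (E.cc c c') (dM E X M (y c')) = 0 := funext fun σ => dblr E _
    calc _ = (∑ c', lm E X (E.DB (E.cc c c')) (y c') +
          ∑ c', ∑ c'', lm E X (E.cc c c') (lm E X (E.cc c' c'') (y c''))) +
          (∑ c', lm E X (E.cc c c') (dM E X M (y c')) +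
            ∑ c', lm E X (E.cc c c') (dM E X M (y c'))) := by abel
      _ = 0 := by rw [h, h2, add_zero]

theorem key (M : ℕ) (y : X.ι → E.H) (c : E.ka) (τ : X.ι) (j : w.Ob) :
    (CE.dH (y τ) + ∑ σ ∈ X.F M, CE.RH (show w.Win from X.c σ τ) (y σ)).1 c j =
      (dM E X M (fun σ j => (y σ).1 c j) +
        ∑ c', lm E X (E.cc c c') (fun σ j => (y σ).1 c' j)) τ j := by
  have e1 : (CE.dH (y τ) + ∑ σ ∈ X.F M, CE.RH (show w.Win from X.c σ τ) (y σ)).1 c j =
      (CE.dH (y τ)).1 c j + ∑ σ ∈ X.F M, (CE.RH (show w.Win from X.c σ τ) (y σ)).1 c j := by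
    rw [Submodule.coe_add, AddSubmonoidClass.coe_finsetSum, Pi.add_apply, Pi.add_apply,
      Finset.sum_apply, Finset.sum_apply]
  rw [e1, CE.dH_apply, Pi.add_apply, Pi.add_apply, Finset.sum_apply, Finset.sum_apply, dM_apply,
    Pi.add_apply, Finset.sum_apply]
  change _ + ∑ σ ∈ X.F M, ∑ i, (y σ).1 c i * E.p ((show w.Win from X.c σ τ).1 i j) = _ + _ +
    ∑ c', E.cc c c' * (y τ).1 c' j
  change E.DB ((y τ).1 c j) + ∑ c', E.cc c c' * (y τ).1 c' j + ∑ σ ∈ X.F M,
    ∑ i, (y σ).1 c i * E.p ((show w.Win from X.c σ τ).1 i j) = E.DB ((y τ).1 c j) + ∑ σ ∈ X.F M,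
    ∑ i, (y σ).1 c i * E.p ((show w.Win from X.c σ τ).1 i j) + ∑ c', E.cc c c' * (y τ).1 c' j
  abel

/-- **the field `H` of `HIn`** -/
theorem HIn_H (hE : ∀ r n, (ft E X).E1 r n) (m : ℕ) (y : X.ι → E.toIn.Z)
    (hy : ∀ σ, y σ ∈ E.toIn.gs.G ((m : ℤ) - X.s σ)) (he : ∀ σ, E.toIn.Rr (X.e σ) (y σ) = y σ)
    (hd : ∀ τ, E.toIn.dZ (y τ) + ∑ σ ∈ X.F m, E.toIn.Rr (X.c σ τ) (y σ) = 0) :
    ∃ z : X.ι → E.toIn.Z, (∀ σ, z σ ∈ E.toIn.gs.G ((m : ℤ) + 1 - X.s σ)) ∧
      (∀ σ, E.toIn.Rr (X.e σ) (z σ) = z σ) ∧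
      ∀ τ, y τ = E.toIn.dZ (z τ) + ∑ σ ∈ X.F (m + 1), E.toIn.Rr (X.c σ τ) (z σ) := by
  change X.ι → E.H at y
  set N : ℤ := m - E.s0 with hN
  set u : E.ka → TB E X := fun c σ j => (y σ).1 c j with hu
  have hyH : ∀ σ, CE.hH ((m : ℤ) - X.s σ) (y σ) := fun σ => CE.mem_gH.1 (hy σ)
  have huG : ∀ c, u c ∈ Tg E X (w.P (E.oc c) + 1) (w.A (E.oc c)) (N + E.cd c) := fun c => by
    refine ⟨fun σ j => ?_, fun σ => ?_⟩
    · have h := hyH σ c j
      rwa [show w.P (E.oc c) - w.P j + 1 = w.P (E.oc c) + 1 - w.P j by ring,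
        show (m : ℤ) - X.s σ - E.s0 + E.cd c = N + E.cd c - X.s σ by rw [hN]; ring] at h
    · exact congrFun (congrArg Subtype.val (he σ)) c
  have h0 : (ft E X).tot N u = 0 := by
    funext c τ j
    have h1 := congrFun (congrFun (congrArg Subtype.val (hd τ)) c) j
    have h2 : (ft E X).tot N u c = dM E X m (u c) + ∑ c', lm E X (E.cc c c') (u c') := by
      change dT E X (N + E.cd c) (u c) + _ = _
      rw [← dM_eq E X (huG c) (M := m) (by have := E.cd_le c; omega)]
      rfl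
    rw [h2]
    exact (key E X m y c τ j).symm.trans h1
  obtain ⟨z, hz, hzu⟩ := (ft E X).acyclic hE N u huG h0
  have hzG : ∀ c, z c ∈ Tg E X (w.P (E.oc c) + 1) (w.A (E.oc c)) (N + 1 + E.cd c) := hz
  have hzm : ∀ σ c j, z c σ j ∈ E.pb (w.P (E.oc c) - w.P j + 1) (w.A (E.oc c) - w.A j)
      ((m : ℤ) + 1 - X.s σ - E.s0 + E.cd c) := fun σ c j => by
    have h := (hzG c).1 σ j
    rwa [show w.P (E.oc c) + 1 - w.P j = w.P (E.oc c) - w.P j + 1 by ring,
      show N + 1 + (E.cd c : ℤ) - X.s σ = (m : ℤ) + 1 - X.s σ - E.s0 + E.cd c by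
        rw [hN]; ring] at h
  refine ⟨fun σ => (⟨fun c j => z c σ j, fun c j => CE.pb_le _ _ _ (hzm σ c j)⟩ : E.H),
    fun σ => CE.mem_gH.2 (hzm σ), fun σ => ?_, fun τ => ?_⟩
  · apply Subtype.ext
    funext c
    exact (hzG c).2 σ
  · apply Subtype.ext
    funext c j
    have h1 := key E X (m + 1) (fun σ => (⟨fun c j => z c σ j,
      fun c j => CE.pb_le _ _ _ (hzm σ c j)⟩ : E.H)) c τ j
    refine Eq.trans ?_ h1.symm
    have h2 : (ft E X).tot (N + 1) z c = dM E X (m + 1) (z c) +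
        ∑ c', lm E X (E.cc c c') (z c') := by
      change dT E X (N + 1 + E.cd c) (z c) + _ = _
      rw [← dM_eq E X (hzG c) (M := m + 1) (by have := E.cd_le c; push_cast; omega)]
      rfl
    have h3 := congrFun (congrFun (congrFun hzu c) τ) j
    rw [h2] at h3
    exact h3

end Crest.Agent.R186.HL462
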