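import Crest.Agent.R186.KHr_302
import Crest.Agent.R186.HLw_462
import Crest.Agent.R186.HB_362
import Crest.Agent.R186.FinV_988

/-!
Row 186 (A), joint (helper449): `ev : KH186.CE w → KHev302.CE w`, with `H`, `gs`, `RH`, `dH`
unchanged; hence 462's `HIn_H` and 362's `HM` serve `(E : KH186.CE w).toIn`.
-/

set_option autoImplicit false
set_option linter.style.haveILetI false

noncomputable section

namespace Crest.Agent.R186.CEv449

open Hat827 Win810 Adapt186 Frame515 ConeHyp462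

variable {K : Type} [Field K] {w : WD K}

/-- **the same data in 302's first form** -/
def cev (E : KH186.CE w) : KHev302.CE w where
  B := E.B
  rB := E.ring
  aB := E.alg
  two := E.two
  pb := E.pb
  pb_mul := E.pb_mul
  pb_neg := E.pb_neg
  nb := E.Nb
  pb_big := fun i j P C h => E.pb_big P i j C h
  pb_fin := E.pb_fin
  prB := E.prB
  pr_same := E.prB_self
  pr_diff := fun {_ _ _ C'} _ hb h => E.prB_ne C' hb h
  DB := E.D'
  DB_mul := E.D'_mul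
  DB_DB := E.D'_D'
  DB_mem := E.D'_mem
  p := E.p
  p_mem := E.p_mem
  p_D := E.p_D
  o := E.o
  s0 := E.s0
  o_mem := E.o_mem
  mul_o := E.mul_o
  o_mul := E.o_mul
  D_o := E.D_o
  p_o := E.p_o
  ka := E.κ
  fka := E.fκ
  oc := E.oc
  cd := E.cd
  cd_le := E.cd_le
  cc := E.cc
  cc_mem := E.cc_mem
  mc := E.mc

variable (E : KH186.CE w)

theorem EB_eq (P A : ℤ) : (cev E).EB P A = E.EB P A := rfl
theorem H_eq : (cev E).H = E.H := rfl
theorem gH_eq (k : ℤ) : (cev E).gH.G k = E.gs.G k := rfl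
theorem RH_eq (a : w.Win) (η : E.H) : KHev302.CE.RH (E := cev E) a η = KH186.CE.RH (E := E) a η := rfl
theorem dH_eq (η : E.H) : KHev302.CE.dH (E := cev E) η = KH186.CE.dH (E := E) η := rfl

/-- **the field `H` of `HIn` for `E.toIn` from 462's first page** -/
theorem HIn_H (X : PCells w.dga) (hE : ∀ r n, (HL462.ft (cev E) X).E1 r n) (m : ℕ)
    (y : X.ι → E.toIn.Z)
    (hy : ∀ σ, y σ ∈ E.toIn.gs.G ((m : ℤ) - X.s σ)) (he : ∀ σ, E.toIn.Rr (X.e σ) (y σ) = y σ)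
    (hd : ∀ τ, E.toIn.dZ (y τ) + ∑ σ ∈ X.F m, E.toIn.Rr (X.c σ τ) (y σ) = 0) :
    ∃ z : X.ι → E.toIn.Z, (∀ σ, z σ ∈ E.toIn.gs.G ((m : ℤ) + 1 - X.s σ)) ∧
      (∀ σ, E.toIn.Rr (X.e σ) (z σ) = z σ) ∧
      ∀ τ, y τ = E.toIn.dZ (z τ) + ∑ σ ∈ X.F (m + 1), E.toIn.Rr (X.c σ τ) (z σ) :=
  HL462.HIn_H (cev E) X hE m y hy he hd

/-- 186 / 302's `Hrm`, 362's `HM` and 988's `zR` are the same right dg module -/
theorem HM_eq : HB362.HM (cev E) = E.Hrm := rfl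
theorem zR_eq : FinV988.zR E.toIn = E.Hrm := rfl

/-- **the field `H` of `HIn` for `E.toIn` from `Ac (tG (HM (cev E)) X)`** -/
theorem H_of_HM (X : PCells w.dga) (h : Ac (tG (HB362.HM (cev E)) (FinV988.lpc X))) (m : ℕ)
    (y : X.ι → E.toIn.Z)
    (hy : ∀ σ, y σ ∈ E.toIn.gs.G ((m : ℤ) - X.s σ)) (he : ∀ σ, E.toIn.Rr (X.e σ) (y σ) = y σ)
    (hd : ∀ τ, E.toIn.dZ (y τ) + ∑ σ ∈ X.F m, E.toIn.Rr (X.c σ τ) (y σ) = 0) :
    ∃ z : X.ι → E.toIn.Z, (∀ σ, z σ ∈ E.toIn.gs.G ((m : ℤ) + 1 - X.s σ)) ∧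
      (∀ σ, E.toIn.Rr (X.e σ) (z σ) = z σ) ∧
      ∀ τ, y τ = E.toIn.dZ (z τ) + ∑ σ ∈ X.F (m + 1), E.toIn.Rr (X.c σ τ) (z σ) :=
  FinV988.H_of E.toIn X h m y hy he hd

end Crest.Agent.R186.CEv449
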