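import Crest.Agent.R186.VTc_339

/-!
Row 186 (helper339), half (A), leaf (V): `HB` from one-step statements.
-/

set_option autoImplicit false
set_option linter.style.haveILetI false
set_option linter.unusedSectionVars false

open MulOpposite

namespace Crest.Agent.R186.VT339

open Hat827 Hat827.DGA Frame515

variable {K : Type} [Field K] {A : DGA K}

/-- right multiplication by `a` is bijective on homology from the column `p` to the column `q` -/
structure Stp (G : RM A) (n : ℤ) (p q a : A.C) : Prop where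
  sur : ∀ z ∈ cyc G n, ∃ z0 ∈ cyc G n, op q • z + op a • z0 ∈ bd G n
  inj : ∀ z ∈ cyc G n, op a • z ∈ bd G n → op p • z ∈ bd G n

/-- from statements inside the columns -/
theorem Stp.of_col {G : RM A} {n : ℤ} {p q a : A.C} (hp : p ∈ A.G 0) (hq : q ∈ A.G 0)
    (hpp : p * p = p) (hqq : q * q = q) (hpa : p * a = a)
    (sur : ∀ z, z ∈ G.gr n → G.d z = 0 → op q • z = z →
      ∃ z0, z0 ∈ G.gr n ∧ G.d z0 = 0 ∧ ∃ y ∈ G.gr (n + 1), z = op a • z0 + G.d y)
    (inj : ∀ z, z ∈ G.gr n → G.d z = 0 → op p • z = z → (∃ y ∈ G.gr (n + 1), op a • z = G.d y) →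
      ∃ y ∈ G.gr (n + 1), z = G.d y) : Stp G n p q a where
  sur z hz := by
    have h1 := cyc_act hz hq
    obtain ⟨z0, h2, h3, y, h4, h5⟩ := sur (op q • z) h1.1 h1.2
      (by rw [← mul_smul, ← op_mul, hqq])
    refine ⟨z0, ⟨h2, h3⟩, y, h4, ?_⟩
    rw [h5, add_right_comm, two_G, zero_add]
  inj z hz := by
    rintro ⟨y, h1, h2⟩
    have h3 := cyc_act hz hp
    obtain ⟨w, h4, h5⟩ := inj (op p • z) h3.1 h3.2 (by rw [← mul_smul, ← op_mul, hpp])
      ⟨y, h1, by rw [← mul_smul, ← op_mul, hpa, h2]⟩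
    exact ⟨w, h4, h5.symm⟩

theorem Stp.refl {G : RM A} {n : ℤ} {p : A.C} : Stp G n p p p where
  sur z hz := ⟨z, hz, by rw [two_G]; exact Submodule.zero_mem _⟩
  inj z _ h := h

theorem Stp.trans {G : RM A} {n : ℤ} {p q r a b : A.C} (ha : a ∈ A.G 0) (hb : b ∈ A.G 0)
    (haq : a * q = a) (hqb : q * b = b) (h1 : Stp G n p q a) (h2 : Stp G n q r b) :
    Stp G n p r (a * b) where
  sur z hz := by
    obtain ⟨z0, h3, h4⟩ := h2.sur z hz
    obtain ⟨z1, h5, h6⟩ := h1.sur z0 h3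
    refine ⟨z1, h5, ?_⟩
    have h7 := bd_act h6 hb
    rw [smul_add, ← mul_smul (op b) (op q), ← op_mul, hqb, ← mul_smul (op b) (op a), ← op_mul] at h7
    have h8 := Submodule.add_mem _ h4 h7
    rwa [add_assoc, ← add_assoc (op b • z0), two_G, zero_add] at h8
  inj z hz h := by
    rw [op_mul, mul_smul] at h
    have h3 := h2.inj (op a • z) (cyc_act hz ha) h
    rw [← mul_smul, ← op_mul, haq] at h3
    exact h1.inj z hz h3

/-- `HB` from the steps `o → b` -/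
theorem HB.of_stp {W : Wdat A} {G : RM A} {n : ℤ} (hf : ∀ z ∈ cyc G n, op W.fs • z ∈ bd G n)
    (h : ∀ b, Stp G n (W.e W.o) (W.e b) (W.H W.o b)) : HB W G n where
  hf := hf
  hs b := (h b).sur
  hi b := (h b).inj

/-- `HB` for four vertices `3 → 2 → 1 → 0` -/
theorem HB.of_four {W : Wdat A} {G : RM A} {n : ℤ} (hf : ∀ z ∈ cyc G n, op W.fs • z ∈ bd G n)
    (v : Fin 4 → W.ι) (ho : v 3 = W.o) (hv : Function.Surjective v)
    (h32 : Stp G n (W.e (v 3)) (W.e (v 2)) (W.H (v 3) (v 2)))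
    (h21 : Stp G n (W.e (v 2)) (W.e (v 1)) (W.H (v 2) (v 1)))
    (h10 : Stp G n (W.e (v 1)) (W.e (v 0)) (W.H (v 1) (v 0)))
    (t2 : W.T (v 2) (v 1) = 1) (t1 : W.T (v 1) (v 0) = 1) : HB W G n := by
  have e2 : W.H W.o (v 2) * W.H (v 2) (v 1) = W.H W.o (v 1) := by rw [W.H_H, t2, one_smul]
  have e1 : W.H W.o (v 1) * W.H (v 1) (v 0) = W.H W.o (v 0) := by rw [W.H_H, t1, one_smul]
  rw [ho] at h32
  have s1 := h32.trans (W.H_mem _ _) (W.H_mem _ _) (W.H_e _ _) (W.e_H _ _) h21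
  rw [e2] at s1
  have s0 := s1.trans (W.H_mem _ _) (W.H_mem _ _) (W.H_e _ _) (W.e_H _ _) h10
  rw [e1] at s0
  refine HB.of_stp hf fun b => ?_
  obtain ⟨i, rfl⟩ := hv b
  fin_cases i
  · exact s0
  · exact s1
  · exact h32
  · change Stp G n (W.e W.o) (W.e (v 3)) (W.H W.o (v 3))
    rw [ho, W.H_o]
    exact Stp.refl

end Crest.Agent.R186.VT339
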