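import Crest.Agent.R186.VHM_429
import Crest.Agent.R186.Col_921
import Crest.Agent.R186.VH_339

/-!
Row 186 (helper429), half (A), leaf (V), V3 binding: the columns of `Y ⊗ P` for `P` = 163's window
`T.win` (right action restricted along `h : C → w'.dga`), in 921's column complexes.

* `Idn T L` : the left module `L : LB w` is `T` as a left module;
* `cF o` : column `o` of a family; `cF_mem, cF_d, cF_lift, cF_inj, cF_r`;
* `fix_bd` : `Ac (Sc Y L (P o) (A o))` ⟹ `e`-fixed cycles are boundaries;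
* `stp` : 339's `Stp` from the elementwise exactness of the cone of right multiplication.
-/

set_option autoImplicit false
set_option linter.style.haveILetI false
set_option linter.unusedSectionVars false

open MulOpposite

namespace Crest.Agent.R186.CH429

open Hat827 Hat827.DGA Frame515 Win810 WBM163 Col921 Res255 VT339 VHM429

variable {K : Type} [Field K]

/-- the left module `L` is the bimodule `T` -/
structure Idn {w w' : WD K} (T : TB w w') (L : LB w) where
  p0 : T.p0 = 0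
  a0 : T.a0 = 0
  φ : T.B ≃ₗ[K] L.B
  l : ∀ (a : w.S) (x : T.B), φ (T.l a x) = a • φ x
  d : ∀ x : T.B, φ (T.d x) = L.d (φ x)
  p : ∀ (P A C : ℤ) (x : T.B), x ∈ T.p P A C ↔ φ x ∈ L.pb P A C

variable {w w' : WD K} {T : TB w w'} {L : LB w} (I : Idn T L) {C : DGA K} (h : Hm C w'.dga)

/-- the column `o` -/
def cO (o : w'.Ob) : T.X →ₗ[K] Cv L where
  toFun m := fun i => I.φ (m i o)
  map_add' m m' := by
    ext i
    exact map_add I.φ _ _
  map_smul' r m := by
    ext i
    exact map_smul I.φ _ _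

theorem cO_apply (o : w'.Ob) (m : T.X) (i : w.Ob) : cO I o m i = I.φ (m i o) := rfl

theorem cO_smul (o : w'.Ob) (a : w.Win) (m : T.X) :
    cO I o (a • m) = (show w.dga.C from a) • cO I o m := by
  ext i
  rw [Cv.act_apply, cO_apply, T.smul_apply, map_sum]
  exact Finset.sum_congr rfl fun l _ => I.l _ _

/-- the matrix with one column -/
def mO (o : w'.Ob) (v : Cv L) : T.X :=
  fun i j => if j = o then I.φ.symm (v i) else 0

theorem mO_apply (o : w'.Ob) (v : Cv L) (i : w.Ob) (j : w'.Ob) :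
    mO I o v i j = if j = o then I.φ.symm (v i) else 0 := rfl

theorem cO_mO (o : w'.Ob) (v : Cv L) : cO I o (mO I o v) = v := by
  ext i
  rw [cO_apply, mO_apply, if_pos rfl]
  exact I.φ.apply_symm_apply _

theorem mO_cO (o : w'.Ob) (m : T.X) (i : w.Ob) (j : w'.Ob) :
    mO I o (cO I o m) i j = if j = o then m i o else 0 := by
  rw [mO_apply, cO_apply, I.φ.symm_apply_apply]

/-! ### families -/

variable (T)
variable (Y : RCells w.dga)

/-- the right module `Y ⊗ P` -/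
noncomputable abbrev GY : RM C := tQ Y (resBR h T.win)

/-- the differential, plain types -/
noncomputable def dG : (Y.ι →₀ T.X) →ₗ[K] (Y.ι →₀ T.X) := (GY T h Y).d

/-- right action, plain types -/
noncomputable def oG (c : C.C) (x : Y.ι →₀ T.X) : Y.ι →₀ T.X :=
  (op c • (show (GY T h Y).X from x) : (GY T h Y).X)

/-- homogeneous elements, plain types -/
noncomputable def gG (k : ℤ) : Submodule K (Y.ι →₀ T.X) := (GY T h Y).gr k

theorem mem_gG {k : ℤ} {x : Y.ι →₀ T.X} : x ∈ gG T h Y k ↔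
    ∀ σ, x σ ∈ T.gr (k - Y.s σ) ∧ (show w.Win from Y.e σ) • x σ = x σ := Iff.rfl

theorem dG_apply (x : Y.ι →₀ T.X) (S : Finset Y.ι) (hS : x.support ⊆ S) (τ : Y.ι) :
    dG T h Y x τ = T.dX (x τ) + ∑ σ ∈ S, (show w.Win from Y.c τ σ) • x σ :=
  (twY Y (resBR h T.win).toLM).dd_apply' x S hS τ

theorem oG_apply (c : C.C) (x : Y.ι →₀ T.X) (σ : Y.ι) :
    oG T h Y c x σ = op (show w'.Win from h.f c) • x σ := rfl

theorem dG_oG {c : C.C} (hc : c ∈ C.G 0) (x : Y.ι →₀ T.X) :
    dG T h Y (oG T h Y c x) = oG T h Y c (dG T h Y x) := by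
  have h1 := (GY T h Y).leib c x
  rw [D_neg hc (by norm_num), op_zero, zero_smul, zero_add] at h1
  exact h1

variable {T}

/-- column `o` of a family -/
noncomputable def cF (o : w'.Ob) : (Y.ι →₀ T.X) →ₗ[K] (Y.ι →₀ Cv L) :=
  Finsupp.mapRange.linearMap (cO I o)

theorem cF_apply (o : w'.Ob) (x : Y.ι →₀ T.X) (σ : Y.ι) : cF I Y o x σ = cO I o (x σ) := by
  rw [cF, Finsupp.mapRange.linearMap_apply, Finsupp.mapRange_apply]

theorem cF_mem (o : w'.Ob) {k : ℤ} {x : Y.ι →₀ T.X} (hx : x ∈ gG T h Y k) :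
    cF I Y o x ∈ (Sc Y L (w'.P o) (w'.A o)).gr k := by
  rw [mem_Sc]
  intro σ
  rw [cF_apply]
  refine ⟨fun i => ?_, ?_⟩
  · have h1 := (((mem_gG T h Y).1 hx) σ).1 i o
    rw [cO_apply]
    have h2 : (x σ) i o ∈ T.p (w.P i - w'.P o + T.p0) (w.A i - w'.A o + T.a0) (k - Y.s σ) := h1
    rw [I.p0, I.a0, add_zero, add_zero] at h2
    exact (I.p _ _ _ _).1 h2
  · have h1 := (((mem_gG T h Y).1 hx) σ).2
    have h2 := cO_smul I o (show w.Win from Y.e σ) (x σ)
    rw [h1] at h2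
    exact h2.symm

theorem cF_d (o : w'.Ob) (x : Y.ι →₀ T.X) (p a : ℤ) :
    (Sc Y L p a).d (cF I Y o x) = cF I Y o (dG T h Y x) := by
  refine Finsupp.ext fun τ => ?_
  have hs : (cF I Y o x).support ⊆ x.support := by
    intro σ hσ
    rw [Finsupp.mem_support_iff] at hσ ⊢
    intro h0
    apply hσ
    rw [cF_apply, h0, map_zero]
  have e1 := Sc_d (Y := Y) (B := L) p a (cF I Y o x) x.support hs τ
  have e2 := dG_apply T h Y x x.support (Finset.Subset.refl _) τ
  refine (show (show Y.ι →₀ Cv L from (Sc Y L p a).d (cF I Y o x)) τ =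
    cF I Y o (dG T h Y x) τ from ?_)
  rw [e1, cF_apply, cF_apply, e2, map_add, map_sum]
  refine congrArg₂ (· + ·) ?_ (Finset.sum_congr rfl fun σ _ => ?_)
  · ext i
    exact (I.d _).symm
  · rw [cF_apply]
    exact (cO_smul I o _ _).symm

/-- families of matrices with one column -/
noncomputable def mF (o : w'.Ob) (v : Y.ι →₀ Cv L) : Y.ι →₀ T.X :=
  Finsupp.onFinset v.support (fun σ => mO I o (v σ)) fun σ hσ => by
    rw [Finsupp.mem_support_iff]
    intro h0
    apply hσ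
    funext i j
    rw [mO_apply, h0]
    change (if j = o then I.φ.symm 0 else 0) = (0 : T.B)
    rw [map_zero, ite_self]

theorem mF_apply (o : w'.Ob) (v : Y.ι →₀ Cv L) (σ : Y.ι) : mF I Y o v σ = mO I o (v σ) := rfl

theorem cF_mF (o : w'.Ob) (v : Y.ι →₀ Cv L) : cF I Y o (mF I Y o v) = v := by
  refine Finsupp.ext fun σ => ?_
  rw [cF_apply, mF_apply, cO_mO]

theorem mF_mem (o : w'.Ob) {k : ℤ} {v : Y.ι →₀ Cv L}
    (hv : v ∈ (Sc Y L (w'.P o) (w'.A o)).gr k) : mF I Y o v ∈ gG T h Y k := by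
  have hv' := mem_Sc.1 hv
  rw [mem_gG]
  intro σ
  rw [mF_apply]
  refine ⟨fun i j => ?_, ?_⟩
  · rw [mO_apply]
    split_ifs with hj
    · subst hj
      change I.φ.symm (v σ i) ∈ T.p (w.P i - w'.P j + T.p0) (w.A i - w'.A j + T.a0) (k - Y.s σ)
      rw [I.p0, I.a0, add_zero, add_zero, I.p, I.φ.apply_symm_apply]
      exact (hv' σ).1 i
    · exact Submodule.zero_mem _
  · funext i j
    rw [T.smul_apply, mO_apply]
    split_ifs with hj
    · apply I.φ.injective
      rw [I.φ.apply_symm_apply, map_sum]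
      have h1 := congrFun (hv' σ).2 i
      rw [Cv.act_apply] at h1
      rw [← h1]
      refine Finset.sum_congr rfl fun l _ => ?_
      rw [I.l, mO_apply, if_pos hj, I.φ.apply_symm_apply]
    · refine Finset.sum_eq_zero fun l _ => ?_
      rw [mO_apply, if_neg hj, map_zero]

theorem e_ent (o l j : w'.Ob) : (WD.e o : w'.Win).1 l j = if o = l ∧ o = j then 1 else 0 := by
  unfold WD.e
  rw [WD.ws_apply]

theorem op_e_apply (o : w'.Ob) (m : T.X) (i : w.Ob) (j : w'.Ob) :
    (op (WD.e o : w'.Win) • m) i j = if j = o then m i o else 0 := by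
  rw [T.op_smul_apply]
  by_cases hj : j = o
  · subst hj
    rw [if_pos rfl, Finset.sum_eq_single j]
    · rw [e_ent, if_pos ⟨rfl, rfl⟩, op_one, map_one]
      rfl
    · intro l _ hl
      rw [e_ent, if_neg (fun h => hl h.1.symm), op_zero, map_zero]
      rfl
    · intro h0
      exact absurd (Finset.mem_univ _) h0
  · rw [if_neg hj]
    refine Finset.sum_eq_zero fun l _ => ?_
    rw [e_ent, if_neg (fun h => hj h.2.symm), op_zero, map_zero]
    rfl

/-- `c` acts as the idempotent of `o` -/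
def IsE (c : C.C) (o : w'.Ob) : Prop := c ∈ C.G 0 ∧ (show w'.Win from h.f c) = WD.e o

variable {h}

theorem oG_e {e : C.C} {o : w'.Ob} (he : IsE h e o) (x : Y.ι →₀ T.X) :
    oG T h Y e x = mF I Y o (cF I Y o x) := by
  refine Finsupp.ext fun σ => ?_
  rw [oG_apply, he.2, mF_apply, cF_apply]
  funext i j
  rw [mO_cO, op_e_apply]

include I in
/-- **an acyclic column** -/
theorem fix_bd {e : C.C} {o : w'.Ob} (he : IsE h e o)
    (hac : Ac (Sc Y L (w'.P o) (w'.A o))) {n : ℤ} {z : Y.ι →₀ T.X} (hz : z ∈ gG T h Y n)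
    (hd : dG T h Y z = 0) (hze : oG T h Y e z = z) :
    ∃ y ∈ gG T h Y (n + 1), dG T h Y y = z := by
  obtain ⟨y, hy, e1⟩ := hac n (cF I Y o z) (cF_mem I h Y o hz) (by
    rw [cF_d I h Y o z, hd, map_zero])
  refine ⟨mF I Y o y, mF_mem I h Y o hy, ?_⟩
  have h1 : oG T h Y e (mF I Y o y) = mF I Y o y := by rw [oG_e I Y he, cF_mF]
  have h2 : oG T h Y e (dG T h Y (mF I Y o y)) = dG T h Y (mF I Y o y) := by
    rw [← dG_oG T h Y he.1, h1]
  rw [← h2, oG_e I Y he, ← cF_d I h Y o (mF I Y o y) (w'.P o) (w'.A o), cF_mF, e1,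
    ← oG_e I Y he, hze]

/-- `c` acts as the element `t` from `o` to `o'` -/
def IsT (h : Hm C w'.dga) (c : C.C) (o o' : w'.Ob) (t : w'.S) : Prop :=
  c ∈ C.G 0 ∧ ∀ l j, (show w'.Win from h.f c).1 l j = if o = l ∧ o' = j then t else 0

theorem op_t_apply {c : C.C} {o o' : w'.Ob} {t : w'.S} (hc : IsT h c o o' t) (m : T.X) (i : w.Ob)
    (j : w'.Ob) : (op (show w'.Win from h.f c) • m) i j = if o' = j then T.r (op t) (m i o) else 0 := by
  rw [T.op_smul_apply]
  by_cases hj : o' = j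
  · rw [if_pos hj, Finset.sum_eq_single o]
    · rw [hc.2, if_pos ⟨rfl, hj⟩]
    · intro l _ hl
      rw [hc.2, if_neg (fun h => hl h.1.symm), op_zero, map_zero]
      rfl
    · intro h0
      exact absurd (Finset.mem_univ _) h0
  · rw [if_neg hj]
    refine Finset.sum_eq_zero fun l _ => ?_
    rw [hc.2, if_neg (fun h => hj h.2), op_zero, map_zero]
    rfl

/-- `rt` is the right multiplication by `t` on `L` -/
def IsR (rt : L.B →ₗ[K] L.B) (t : w'.S) : Prop := ∀ x : T.B, I.φ (T.r (op t) x) = rt (I.φ x)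

theorem cF_t {c : C.C} {o o' : w'.Ob} {t : w'.S} (hc : IsT h c o o' t) {rt : L.B →ₗ[K] L.B}
    (hr : IsR I rt t) (x : Y.ι →₀ T.X) :
    cF I Y o' (oG T h Y c x) = mp Y rt (cF I Y o x) := by
  refine Finsupp.ext fun σ => ?_
  ext i
  rw [mp_apply, cF_apply, cF_apply, cO_apply, cO_apply, oG_apply, op_t_apply hc, if_pos rfl]
  exact hr _

/-- elementwise exactness of the cone of `rt : column (p, a) → column (p', a')` -/
def CEx (Y : RCells w.dga) (L : LB w) (rt : L.B →ₗ[K] L.B) (p a p' a' : ℤ) : Prop :=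
  ∀ (k : ℤ) (x y : Y.ι →₀ Cv L), x ∈ (Sc Y L p a).gr k → (Sc Y L p a).d x = 0 →
    y ∈ (Sc Y L p' a').gr (k + 1) → mp Y rt x = (Sc Y L p' a').d y →
    ∃ x' ∈ (Sc Y L p a).gr (k + 1), ∃ y' ∈ (Sc Y L p' a').gr (k + 2),
      x = (Sc Y L p a).d x' ∧ y = mp Y rt x' + (Sc Y L p' a').d y'

theorem step_inj {e c : C.C} {o o' : w'.Ob} {t : w'.S} (he : IsE h e o) (hc : IsT h c o o' t)
    {rt : L.B →ₗ[K] L.B} (hr : IsR I rt t)
    (hex : CEx Y L rt (w'.P o) (w'.A o) (w'.P o') (w'.A o')) {n : ℤ} {z : Y.ι →₀ T.X}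
    (hz : z ∈ gG T h Y n) (hd : dG T h Y z = 0) (hze : oG T h Y e z = z)
    (hb : ∃ y ∈ gG T h Y (n + 1), oG T h Y c z = dG T h Y y) :
    ∃ y ∈ gG T h Y (n + 1), z = dG T h Y y := by
  obtain ⟨y, hy, e1⟩ := hb
  obtain ⟨x', hx', -, -, e2, -⟩ := hex n (cF I Y o z) (cF I Y o' y) (cF_mem I h Y o hz)
    (by rw [cF_d I h Y o z, hd, map_zero]) (cF_mem I h Y o' hy)
    (by rw [← cF_t I Y hc hr, e1, cF_d I h Y o' y])
  refine ⟨mF I Y o x', mF_mem I h Y o hx', ?_⟩
  have h1 : oG T h Y e (mF I Y o x') = mF I Y o x' := by rw [oG_e I Y he, cF_mF]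
  have h2 : oG T h Y e (dG T h Y (mF I Y o x')) = dG T h Y (mF I Y o x') := by
    rw [← dG_oG T h Y he.1, h1]
  rw [← h2, oG_e I Y he, ← cF_d I h Y o (mF I Y o x') (w'.P o) (w'.A o), cF_mF, ← e2,
    ← oG_e I Y he, hze]

theorem step_sur {e e' c : C.C} {o o' : w'.Ob} {t : w'.S} (he : IsE h e o) (he' : IsE h e' o')
    (hc : IsT h c o o' t) {rt : L.B →ₗ[K] L.B} (hr : IsR I rt t)
    (hex : CEx Y L rt (w'.P o) (w'.A o) (w'.P o') (w'.A o')) {n : ℤ} {z : Y.ι →₀ T.X}
    (hz : z ∈ gG T h Y n) (hd : dG T h Y z = 0) (hze : oG T h Y e' z = z) :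
    ∃ x ∈ gG T h Y n, dG T h Y x = 0 ∧ oG T h Y e x = x ∧
      ∃ y ∈ gG T h Y (n + 1), z = oG T h Y c x + dG T h Y y := by
  have e0 : n - 1 + 1 = n := by ring
  obtain ⟨x', hx', y', hy', e1, e2⟩ := hex (n - 1) 0 (cF I Y o' z) (Submodule.zero_mem _)
    (map_zero _) (by rw [e0]; exact cF_mem I h Y o' hz)
    (by rw [cF_d I h Y o' z, hd, map_zero, map_zero])
  rw [e0] at hx'
  rw [show n - 1 + 2 = n + 1 by ring] at hy'
  have h1 : oG T h Y e (mF I Y o x') = mF I Y o x' := by rw [oG_e I Y he, cF_mF]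
  have h2 : oG T h Y e (dG T h Y (mF I Y o x')) = dG T h Y (mF I Y o x') := by
    rw [← dG_oG T h Y he.1, h1]
  have h1' : oG T h Y e' (mF I Y o' y') = mF I Y o' y' := by rw [oG_e I Y he', cF_mF]
  have h2' : oG T h Y e' (dG T h Y (mF I Y o' y')) = dG T h Y (mF I Y o' y') := by
    rw [← dG_oG T h Y he'.1, h1']
  refine ⟨mF I Y o x', mF_mem I h Y o hx', ?_, h1, mF I Y o' y', mF_mem I h Y o' hy', ?_⟩
  · rw [← h2, oG_e I Y he, ← cF_d I h Y o (mF I Y o x') (w'.P o) (w'.A o), cF_mF, ← e1]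
    refine Finsupp.ext fun σ => ?_
    rw [mF_apply]
    funext i j
    rw [mO_apply]
    change (if j = o then I.φ.symm 0 else 0) = (0 : T.B)
    rw [map_zero, ite_self]
  · have h3 : oG T h Y e' (oG T h Y c (mF I Y o x')) = oG T h Y c (mF I Y o x') := by
      refine Finsupp.ext fun σ => ?_
      rw [oG_apply, oG_apply, he'.2]
      funext i j
      rw [op_e_apply, op_t_apply hc, op_t_apply hc, if_pos rfl]
      by_cases hj : j = o'
      · rw [if_pos hj, if_pos hj.symm]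
      · rw [if_neg hj, if_neg (fun h => hj h.symm)]
    rw [← hze, oG_e I Y he', e2, ← h3, ← h2', oG_e I Y he', oG_e I Y he', cF_t I Y hc hr, cF_mF,
      cF_d I h Y o' (mF I Y o' y') (w'.P o') (w'.A o') |>.symm, cF_mF]
    refine Finsupp.ext fun σ => ?_
    funext i j
    rw [Finsupp.add_apply, mF_apply, mF_apply, mF_apply]
    change mO I o' _ i j = mO I o' _ i j + mO I o' _ i j
    rw [mO_apply, mO_apply, mO_apply]
    split_ifs
    · rw [← map_add]
      rfl
    · rw [add_zero]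

end Crest.Agent.R186.CH429
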