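import Crest.Agent.R186.Cells1_221
import Crest.Agent.R186.C2b_362

/-!
# Row 186 (A), short road (306 #34919), helper171: the sixteen RIGHT cells of `DV_{-2}`, table

`D l = Σ_l' l' * rcf l' l + ryp l` (first letter split off), `ryp l ∈ J = R'' W_+`,
`D (rcf l'' l) + Σ_l' rcf l'' l' * rcf l' l = ryc l'' l ∈ J`, degrees; total table `rct` over
`Cell = Option E` (`rct none (some l) = l`), `rct_mc`.
-/

set_option autoImplicit false

namespace Crest.Agent.R186.Name171

open Crest.Agent.R186.VOp220 Crest.Agent.R186.DefsQ830 Crest.Agent.R186.Vmod220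
open Crest.Agent.R186.Der580 Crest.Agent.R186.Cells221
open Crest.Agent.R186.PBW128 (E)
open Crest.Agent.R186.C2b362 (J pz mul_pz D_pz pz_cast mem_pz_nat mul_Y_mem_J left_J right_J D_J yp_mem_J cA cdeg_some cP_some)

variable {K : Type} [Field K] (π : Par K)

/-- the coefficient of the FIRST letter `l'` in `D l` -/
def rcf : E → E → R π
  | .d i, .z j => if i = 0 then (π.c j * π.g) • (X π (.d 1) * X π (.x j))
      else π.c j • (X π (.d 0) * X π (.x j))
  | .z i, .zc => if i = 0 then π.c 1 • X π (.x 1) else π.c 0 • X π (.x 0)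
  | .f, .zc => X π .h
  | .d i, .e j => if i = j then π.c j • X π .f else 0
  | .f, .e j => X π (.d j)
  | .z i, .gj j => if i = j then π.cz j • X π .f else 0
  | .f, .gj j => X π (.z j)
  | .d i, .gj j => if i = 0 then (π.c j * π.g ^ 3) • (X π (.e 1) * X π (.x j))
      else (π.c j * π.g) • (X π (.e 0) * X π (.x j))
  | .e i, .gj j => if i = 0 then (π.c j * π.g) • (X π (.d 1) * X π (.x j))
      else π.c j • (X π (.d 0) * X π (.x j))
  | .zc, .gc => X π .f
  | .f, .gc => X π .zc
  | .gj i, .gc => if i = 0 then π.c 1 • X π (.x 1) else π.c 0 • X π (.x 0)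
  | .u i, .gc => if i = 0 then π.p • X π (.u 1) else X π (.u 0)
  | .u i, .v s => if i = s then tR π + X π .h else 0
  | .d i, .v s => (π.g - 1) • (X π (.x i) * X π (.u s))
  | _, _ => 0

/-- the curvature of `rcf` -/
def ryc : E → E → R π
  | .u i, .gc => if i = 0 then π.p • (hR π 1 * X π (.y 1)) else hR π 0 * X π (.y 0)
  | .d i, .v s => (π.g - 1) • (X π (.x i) * (hR π s * X π (.y s)))
  | _, _ => 0

set_option maxHeartbeats 4000000 in
/-- `D l = Σ_l' l' * rcf l' l + yp l` -/
theorem D_rE (l : E) : D π (X π l.toGen) = ∑ l', X π l'.toGen * rcf π l' l + yp π l := by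
  have : CharP K 2 := CharTwo.of_one_ne_zero_of_two_eq_zero one_ne_zero π.two
  have g0 := π.g0
  have p0 := π.p0
  rw [D_X, sumE]
  cases l with
  | d j => simp [E.toGen, dGen, rcf, yp]
  | f => simp [E.toGen, dGen, rcf, yp]
  | z j =>
    revert j
    fin2 <;> (simp [E.toGen, dGen, rcf, yp, mk_L, rF]; idR)
  | zc => simp [E.toGen, dGen, rcf, yp, mk_L]; idR
  | u s =>
    revert s
    fin2 <;> simp [E.toGen, dGen, rcf, yp, hs, hR, mk_L]
  | e j =>
    revert j
    fin2 <;> (simp [E.toGen, dGen, rcf, yp, mk_L]; abel)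
  | gj j =>
    revert j
    fin2 <;> (simp [E.toGen, dGen, rcf, yp, mk_L, rhoF]; idR)
  | gc => simp [E.toGen, dGen, rcf, yp, mk_L]; idR
  | v s =>
    revert s
    fin2 <;> (simp [E.toGen, dGen, rcf, yp, mk_L, tF, tR, hs, hR]; idR)


/-- expansion of `Σ_l' rcf l'' l' * rcf l' l` -/
macro "rfx" : tactic => `(tactic| (
  rw [sumE]
  simp only [rcf, ryc, if_true, if_false, one_ne_zero, zero_ne_one, zero_mul, mul_zero, add_zero,
    zero_add, map_zero, map_smul, map_add, D_mul, D_X, D_tR, dGen, mk_L, map_mul, smul_zero, hs_zero,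
    hs_one, tR, hR]))

set_option maxHeartbeats 16000000 in
/-- `D (rcf l'' l) + Σ_l' rcf l'' l' * rcf l' l = ryc l'' l` -/
theorem rcf_rcf (l'' l : E) : D π (rcf π l'' l) + ∑ l', rcf π l'' l' * rcf π l' l = ryc π l'' l := by
  have : CharP K 2 := CharTwo.of_one_ne_zero_of_two_eq_zero one_ne_zero π.two
  have g0 := π.g0
  have p0 := π.p0
  cases l with
  | d j => cases l'' <;> simp [rcf, ryc]
  | f => cases l'' <;> simp [rcf, ryc]
  | u j => cases l'' <;> simp [rcf, ryc]
  | z j =>
    revert j
    cases l'' with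
    | f => fin2 <;> rfx
    | zc => fin2 <;> rfx
    | gc => fin2 <;> rfx
    | d i => revert i; fin2 <;> rfx
    | z i => revert i; fin2 <;> rfx
    | u i => revert i; fin2 <;> rfx
    | e i => revert i; fin2 <;> rfx
    | gj i => revert i; fin2 <;> rfx
    | v i => revert i; fin2 <;> rfx
  | zc =>
    cases l'' with
    | f => rfx
    | zc => rfx
    | gc => rfx
    | d i => revert i; fin2 <;> rfx <;> idR
    | z i => revert i; fin2 <;> rfx
    | u i => revert i; fin2 <;> rfx
    | e i => revert i; fin2 <;> rfx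
    | gj i => revert i; fin2 <;> rfx
    | v i => revert i; fin2 <;> rfx
  | e j =>
    revert j
    cases l'' with
    | f => fin2 <;> rfx
    | zc => fin2 <;> rfx
    | gc => fin2 <;> rfx
    | d i => revert i; fin2 <;> rfx
    | z i => revert i; fin2 <;> rfx
    | u i => revert i; fin2 <;> rfx
    | e i => revert i; fin2 <;> rfx
    | gj i => revert i; fin2 <;> rfx
    | v i => revert i; fin2 <;> rfx
  | gj j =>
    revert j
    cases l'' with
    | f => fin2 <;> rfx <;> (simp only [rF, map_add, map_mul, map_smul, mk_L]; idR)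
    | zc => fin2 <;> rfx
    | gc => fin2 <;> rfx
    | d i => revert i; fin2 <;> rfx <;> idR
    | z i => revert i; fin2 <;> rfx <;> idR
    | u i => revert i; fin2 <;> rfx
    | e i => revert i; fin2 <;> rfx
    | gj i => revert i; fin2 <;> rfx
    | v i => revert i; fin2 <;> rfx
  | gc =>
    cases l'' with
    | f => rfx; idR
    | zc => rfx
    | gc => rfx
    | d i => revert i; fin2 <;> rfx <;> idR
    | z i => revert i; fin2 <;> rfx <;> idR
    | u i => revert i; fin2 <;> rfx <;> idR
    | e i => revert i; fin2 <;> rfx <;> idR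
    | gj i => revert i; fin2 <;> rfx
    | v i => revert i; fin2 <;> rfx
  | v j =>
    revert j
    cases l'' with
    | f => fin2 <;> rfx
    | zc => fin2 <;> rfx
    | gc => fin2 <;> rfx
    | d i => revert i; fin2 <;> rfx <;> idR
    | z i => revert i; fin2 <;> rfx
    | u i => revert i; fin2 <;> rfx
    | e i => revert i; fin2 <;> rfx
    | gj i => revert i; fin2 <;> rfx
    | v i => revert i; fin2 <;> rfx


theorem ryc_mem_J (l'' l : E) : ryc π l'' l ∈ J π := by
  cases l'' with
  | u i =>
    cases l with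
    | gc =>
      simp only [ryc]
      split_ifs
      · exact Submodule.smul_mem _ _ (mul_Y_mem_J _ (.y 1))
      · exact mul_Y_mem_J _ (.y 0)
    | _ => exact Submodule.zero_mem _
  | d i =>
    cases l with
    | v s => exact Submodule.smul_mem _ _ (left_J _ (mul_Y_mem_J _ (.y s)))
    | _ => exact Submodule.zero_mem _
  | _ => exact Submodule.zero_mem _

/-- the table of the sixteen RIGHT cells: `d e_τ = Σ_σ e_σ * rct σ τ`; `rct none (some l) = l` -/
def rct : Cell → Cell → R π
  | _, none => 0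
  | none, some l => X π l.toGen
  | some l', some l => rcf π l' l

/-- Maurer-Cartan modulo `J` -/
theorem rct_mc (σ τ : Cell) : D π (rct π σ τ) + ∑ ρ, rct π σ ρ * rct π ρ τ ∈ J π := by
  cases τ with
  | none =>
    have h : ∀ ρ : Cell, rct π ρ none = 0 := fun ρ => by cases ρ <;> rfl
    simp only [h, map_zero, mul_zero, Finset.sum_const_zero, add_zero]; exact Submodule.zero_mem _
  | some l =>
    rw [Fintype.sum_option]
    cases σ with
    | none =>
      simp only [rct, zero_mul, zero_add]
      rw [D_rE, add_right_comm, add_self, zero_add]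
      exact yp_mem_J l
    | some l' =>
      simp only [rct, zero_mul, zero_add]
      rw [rcf_rcf]
      exact ryc_mem_J π l' l

/-- the differential on `⊕_σ e_σ R''`, coordinates `y σ` -/
def dY : (Cell → R π) →ₗ[K] (Cell → R π) :=
  LinearMap.pi fun σ => (D π) ∘ₗ (LinearMap.proj σ) +
    ∑ τ, (LinearMap.mulLeft K (rct π σ τ)) ∘ₗ (LinearMap.proj τ)

theorem dY_apply (y : Cell → R π) (σ : Cell) : dY π y σ = D π (y σ) + ∑ τ, rct π σ τ * y τ := by
  simp [dY]

theorem dY_none (y : Cell → R π) :
    dY π y none = D π (y none) + ∑ l : E, X π l.toGen * y (some l) := by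
  rw [dY_apply, Fintype.sum_option]
  simp [rct]

theorem dY_dY (y : Cell → R π) (σ : Cell) : dY π (dY π y) σ ∈ J π := by
  have e : dY π (dY π y) σ = ∑ ρ, (D π (rct π σ ρ) + ∑ τ, rct π σ τ * rct π τ ρ) * y ρ := by
    rw [dY_apply, dY_apply, map_add, D_D, zero_add, map_sum]
    simp only [D_mul, dY_apply, add_mul, Finset.sum_add_distrib, mul_add, Finset.sum_mul,
      Finset.mul_sum]
    have h1 : ∑ τ, ∑ ρ, rct π σ τ * (rct π τ ρ * y ρ) = ∑ ρ, ∑ τ, rct π σ τ * rct π τ ρ * y ρ := by
      rw [Finset.sum_comm]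
      simp only [mul_assoc]
    rw [h1]
    have h2 := add_self π (∑ τ, rct π σ τ * D π (y τ))
    rw [add_assoc, ← add_assoc (∑ τ, rct π σ τ * D π (y τ)), h2, zero_add]
  rw [e]
  exact Submodule.sum_mem _ fun ρ _ => right_J (rct_mc π σ ρ) _

/-! ### degrees -/

theorem X_pz (a : Gen) : X π a ∈ pz π a.dP a.dA a.dC := mem_pz_nat.mpr (X_mem_pc π a)

theorem X2_pz (a b : Gen) : X π a * X π b ∈ pz π (a.dP + b.dP) (a.dA + b.dA) (a.dC + b.dC) :=
  mul_pz (X_pz π a) (X_pz π b)

theorem tR_pz : tR π ∈ pz π 0 1 0 := mem_pz_nat.mpr (tR_mem π)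

theorem rcf_mem (l' l : E) : rcf π l' l ∈ pz π (l.toGen.dP - l'.toGen.dP)
    (l.toGen.dA - l'.toGen.dA) (l.toGen.dC - l'.toGen.dC - 1) := by
  cases l with
  | z j =>
    cases l' with
    | d i =>
      simp only [rcf]
      split_ifs
      · exact Submodule.smul_mem _ _ (pz_cast (X2_pz π (.d 1) (.x j)) rfl rfl rfl)
      · exact Submodule.smul_mem _ _ (pz_cast (X2_pz π (.d 0) (.x j)) rfl rfl rfl)
    | _ => exact Submodule.zero_mem _
  | zc =>
    cases l' with
    | z i =>
      simp only [rcf]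
      split_ifs
      · exact Submodule.smul_mem _ _ (pz_cast (X_pz π (.x 1)) rfl rfl rfl)
      · exact Submodule.smul_mem _ _ (pz_cast (X_pz π (.x 0)) rfl rfl rfl)
    | f => exact pz_cast (X_pz π .h) rfl rfl rfl
    | _ => exact Submodule.zero_mem _
  | e j =>
    cases l' with
    | d i =>
      simp only [rcf]
      split_ifs
      · exact Submodule.smul_mem _ _ (pz_cast (X_pz π .f) rfl rfl rfl)
      · exact Submodule.zero_mem _
    | f => exact pz_cast (X_pz π (.d j)) rfl rfl rfl
    | _ => exact Submodule.zero_mem _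
  | gj j =>
    cases l' with
    | z i =>
      simp only [rcf]
      split_ifs
      · exact Submodule.smul_mem _ _ (pz_cast (X_pz π .f) rfl rfl rfl)
      · exact Submodule.zero_mem _
    | f => exact pz_cast (X_pz π (.z j)) rfl rfl rfl
    | d i =>
      simp only [rcf]
      split_ifs
      · exact Submodule.smul_mem _ _ (pz_cast (X2_pz π (.e 1) (.x j)) rfl rfl rfl)
      · exact Submodule.smul_mem _ _ (pz_cast (X2_pz π (.e 0) (.x j)) rfl rfl rfl)
    | e i =>
      simp only [rcf]
      split_ifs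
      · exact Submodule.smul_mem _ _ (pz_cast (X2_pz π (.d 1) (.x j)) rfl rfl rfl)
      · exact Submodule.smul_mem _ _ (pz_cast (X2_pz π (.d 0) (.x j)) rfl rfl rfl)
    | _ => exact Submodule.zero_mem _
  | gc =>
    cases l' with
    | zc => exact pz_cast (X_pz π .f) rfl rfl rfl
    | f => exact pz_cast (X_pz π .zc) rfl rfl rfl
    | gj i =>
      simp only [rcf]
      split_ifs
      · exact Submodule.smul_mem _ _ (pz_cast (X_pz π (.x 1)) rfl rfl rfl)
      · exact Submodule.smul_mem _ _ (pz_cast (X_pz π (.x 0)) rfl rfl rfl)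
    | u i =>
      rcases f2 i with rfl | rfl
      · exact Submodule.smul_mem _ _ (pz_cast (X_pz π (.u 1)) rfl rfl rfl)
      · exact pz_cast (X_pz π (.u 0)) rfl rfl rfl
    | _ => exact Submodule.zero_mem _
  | v s =>
    cases l' with
    | u i =>
      by_cases h : i = s
      · subst h
        simp only [rcf, if_true]
        refine Submodule.add_mem _ (pz_cast (tR_pz π) ?_ ?_ ?_) (pz_cast (X_pz π .h) ?_ ?_ ?_) <;>
          simp [E.toGen, Gen.dP, Gen.dA, Gen.dC] <;> ring
      · simp only [rcf, if_neg h]; exact Submodule.zero_mem _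
    | d i =>
      refine Submodule.smul_mem _ _ (pz_cast (X2_pz π (.x i) (.u s)) ?_ ?_ ?_) <;>
          simp [E.toGen, Gen.dP, Gen.dA, Gen.dC] <;> ring
    | _ => exact Submodule.zero_mem _
  | d j => cases l' <;> exact Submodule.zero_mem _
  | f => cases l' <;> exact Submodule.zero_mem _
  | u s => cases l' <;> exact Submodule.zero_mem _

/-- degrees of the total table -/
theorem rct_mem (σ τ : Cell) : rct π σ τ ∈ pz π (cP τ - cP σ) (cA τ - cA σ)
    ((cdeg τ : ℤ) - cdeg σ - 1) := by
  cases τ with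
  | none =>
    have h : rct π σ none = 0 := by cases σ <;> rfl
    rw [h]; exact Submodule.zero_mem _
  | some l =>
    cases σ with
    | none =>
      refine pz_cast (X_pz π l.toGen) ?_ ?_ ?_
      · rw [cP_some]; show l.toGen.dP = l.toGen.dP - 0; ring
      · show (l.toGen.dA : ℤ) = (l.toGen.dA : ℤ) - 0; ring
      · rw [cdeg_some]; show (l.toGen.dC : ℤ) = (l.toGen.dC : ℤ) + 1 - (0 : ℕ) - 1; push_cast; ring
    | some l' =>
      refine pz_cast (rcf_mem π l' l) ?_ rfl ?_
      · rw [cP_some, cP_some]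
      · rw [cdeg_some, cdeg_some]; ring

end Crest.Agent.R186.Name171
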