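import Crest.Agent.R186.KOSZ_296
import Crest.Agent.R186.RC_171

/-!
Row 186, half (A), short road (helper306 #34919), right cells, EXACTNESS (helper989):
the sixteen RIGHT cells (table `rct`, `dY` of RC_171) resolve `DV_{-2} = R'/(E R')` modulo
`J = R'' W_+`.

`slr l r` = right factor of the first letter `l`, `s0r r` = the part without letters (`splitr`,
`slr_mem`), `sum_X_mul_J` (uniqueness mod `J`), `chi` = coefficient of `h^A` in `R'/(E R')`
(`chi_mul`, `chi_J`, ..), `exr_mod` (`0 < C`), `exr0_mod` (`C = 0`, `P ≤ 0`), `gen_chi`.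
-/

set_option autoImplicit false

noncomputable section

namespace Crest.Agent.R186.CR989

open Crest.Agent.R186.DefsQ830 Crest.Agent.R186.Cells221
open Crest.Agent.R186.Der580 (D D_mul D_X D_D add_self)
open Crest.Agent.R186.PBW128 (E Y Wb N Ix bv dPx dAx dCx ext_bv we we_nil we_cons wq wq_one NS map_NS
  bv_mem_NS comm_h)
open Crest.Agent.R186.C2b362 (pz J NZ mem_NZ mem_pz mem_pz_nat mem_J pz_neg left_J right_J D_J D_pz
  mul_pz pz_cast cA cdeg_some cP_some)
open Crest.Agent.R186.C2b44 (kill kill_x kill_h kill_kill kill_E kill_we kill_wq)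
open Crest.Agent.R186.KOS296
open Crest.Agent.R186.Name171 (rct dY dY_apply dY_none dY_dY)

variable {K : Type} [Field K] (π : Par K)

/-! ### first letter of the right normal form -/

/-- add a first letter -/
def cn (l : E) (ν : Ix) : Ix := (ν.1, ν.2.1, ν.2.2.1, l :: ν.2.2.2.1, ν.2.2.2.2)

theorem cn_inj (l : E) : Function.Injective (cn l) := by
  rintro ⟨i, j, k, w, q⟩ ⟨i', j', k', w', q'⟩ h
  simp only [cn, Prod.mk.injEq, List.cons.injEq, true_and] at h
  simp [h]

variable (K) in
/-- left multiplication by a letter in the right normal form -/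
def opl (l : E) : N K →ₗ[K] N K := Finsupp.lmapDomain K K (cn l)

variable (K) in
/-- the right factor of the first letter -/
def dv (l : E) : N K →ₗ[K] N K := Finsupp.lcomapDomain (cn l) (cn_inj l)

theorem dv_apply (l : E) (n : N K) (ν : Ix) : dv K l n ν = n (cn l ν) := rfl

theorem opl_bv (l : E) (i j k : ℕ) (w : List E) (q : Wb) :
    opl K l (bv K i j k w q) = bv K i j k (l :: w) q := by
  simp [opl, bv, cn]

theorem opl_cn (l : E) (n : N K) (ν : Ix) : opl K l n (cn l ν) = n ν :=
  Finsupp.mapDomain_apply (cn_inj l) n ν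

theorem opl_ne (l l' : E) (h : l ≠ l') (n : N K) (ν : Ix) : opl K l n (cn l' ν) = 0 := by
  apply Finsupp.mapDomain_of_notMem_range
  rintro ⟨μ, hμ⟩
  apply h
  have := congrArg (fun ν : Ix => ν.2.2.2.1) hμ
  simp only [cn, List.cons.injEq] at this
  exact this.1

theorem opl_nil (l : E) (n : N K) (i j k : ℕ) (q : Wb) : opl K l n (i, j, k, [], q) = 0 := by
  apply Finsupp.mapDomain_of_notMem_range
  rintro ⟨μ, hμ⟩
  have := congrArg (fun ν : Ix => ν.2.2.2.1) hμ
  simp [cn] at this

variable (K) in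
/-- the part without letters -/
def n0 : N K →ₗ[K] N K where
  toFun n := Finsupp.filter (fun ν : Ix => ν.2.2.2.1 = []) n
  map_add' a b := by
    ext ν
    rw [Finsupp.add_apply, Finsupp.filter_apply, Finsupp.filter_apply, Finsupp.filter_apply]
    split_ifs <;> simp
  map_smul' r a := by
    ext ν
    rw [Finsupp.smul_apply, Finsupp.filter_apply, Finsupp.filter_apply]
    split_ifs <;> simp

theorem n0_apply (n : N K) (ν : Ix) : n0 K n ν = if ν.2.2.2.1 = [] then n ν else 0 := by
  show Finsupp.filter _ n ν = _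
  rw [Finsupp.filter_apply]

theorem decompr (n : N K) : n = n0 K n + ∑ l, opl K l (dv K l n) := by
  ext ⟨i, j, k, w, q⟩
  rw [Finsupp.add_apply, Finsupp.finsetSum_apply, n0_apply]
  cases w with
  | nil =>
    rw [if_pos rfl, Finset.sum_eq_zero, add_zero]
    intro l _
    exact opl_nil l _ i j k q
  | cons l w =>
    rw [if_neg (by simp), zero_add, Finset.sum_eq_single l]
    · exact (opl_cn l (dv K l n) (i, j, k, w, q)).symm
    · intro l' _ hl'
      exact opl_ne l' l hl' _ (i, j, k, w, q)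
    · intro h
      exact absurd (Finset.mem_univ _) h

theorem nr_cons (l : E) (i j k : ℕ) (w : List E) (q : Wb) :
    X π l.toGen * nr π (i, j, k, w, q) = nr π (i, j, k, l :: w, q) := by
  simp only [nr, we_cons, ← mul_assoc]
  rw [((comm_h π l.toGen).pow_left k).eq]

theorem Th_opl (l : E) (n : N K) : Th π (opl K l n) = X π l.toGen * Th π n := by
  have : Th π ∘ₗ opl K l = LinearMap.mulLeft K (X π l.toGen) ∘ₗ Th π := by
    apply ext_bv
    intro i j k w q
    rw [LinearMap.comp_apply, opl_bv, Th_bv, LinearMap.comp_apply, Th_bv, LinearMap.mulLeft_apply,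
      nr_cons]
  exact LinearMap.congr_fun this n

/-- the right normal form as an equivalence -/
def ThE : N K ≃ₗ[K] R π := LinearEquiv.ofBijective (Th π)
  ⟨fun a b hab => sub_eq_zero.1 (Th_inj π (by rw [map_sub, hab, sub_self])),
    fun r => Th_surj π r⟩

/-- right coordinates -/
def er : R π →ₗ[K] N K := (ThE π).symm.toLinearMap

@[simp] theorem Th_er (r : R π) : Th π (er π r) = r := (ThE π).apply_symm_apply r
@[simp] theorem er_Th (n : N K) : er π (Th π n) = n := (ThE π).symm_apply_apply n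

/-- the right factor of the first letter `l` -/
def slr (l : E) : R π →ₗ[K] R π := Th π ∘ₗ dv K l ∘ₗ er π

/-- the part without letters -/
def s0r : R π →ₗ[K] R π := Th π ∘ₗ n0 K ∘ₗ er π

theorem splitr (r : R π) : r = s0r π r + ∑ l, X π l.toGen * slr π l r := by
  conv_lhs => rw [← Th_er π r, decompr (er π r), map_add, map_sum]
  simp only [Th_opl]
  rfl

/-! ### `kill` in right coordinates -/

variable (K) in
/-- the part without `W`-letters -/
def n1 : N K →ₗ[K] N K where
  toFun n := Finsupp.filter (fun ν : Ix => ν.2.2.2.2 = Wb.one) n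
  map_add' a b := by
    ext ν
    rw [Finsupp.add_apply, Finsupp.filter_apply, Finsupp.filter_apply, Finsupp.filter_apply]
    split_ifs <;> simp
  map_smul' r a := by
    ext ν
    rw [Finsupp.smul_apply, Finsupp.filter_apply, Finsupp.filter_apply]
    split_ifs <;> simp

theorem n1_apply (n : N K) (ν : Ix) : n1 K n ν = if ν.2.2.2.2 = Wb.one then n ν else 0 := by
  show Finsupp.filter _ n ν = _
  rw [Finsupp.filter_apply]

theorem n1_bv (i j k : ℕ) (w : List E) (q : Wb) :
    n1 K (bv K i j k w q) = if q = Wb.one then bv K i j k w q else 0 := by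
  ext ν
  rw [n1_apply]
  by_cases h : q = Wb.one
  · rw [if_pos h]
    split_ifs with h2
    · rfl
    · rw [PBW128.bv_apply, if_neg]
      rintro rfl
      exact h2 h
  · rw [if_neg h]
    split_ifs with h2
    · rw [PBW128.bv_apply, if_neg]
      · rfl
      · rintro rfl
        exact h h2
    · rfl

theorem kill_Th (n : N K) : kill π (Th π n) = Th π (n1 K n) := by
  have : (kill π).toLinearMap ∘ₗ Th π = Th π ∘ₗ n1 K := by
    apply ext_bv
    intro i j k w q
    rw [LinearMap.comp_apply, LinearMap.comp_apply, Th_bv, n1_bv]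
    show kill π _ = _
    simp only [nr, map_mul, map_pow, kill_h, kill_x, kill_we, kill_wq]
    split_ifs with h
    · subst h
      rw [Th_bv]
      simp only [nr, wq_one]
    · rw [map_zero, mul_zero, zero_mul, zero_mul]
  exact LinearMap.congr_fun this n

theorem er_kill (r : R π) : er π (kill π r) = n1 K (er π r) := by
  conv_lhs => rw [← Th_er π r, kill_Th, er_Th]

/-- the letters are left regular and independent -/
theorem sum_X_mul {a : E → R π} (h : ∑ l, X π l.toGen * a l = 0) (l : E) : a l = 0 := by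
  have h2 : ∑ l, opl K l (er π (a l)) = 0 := by
    apply Th_inj π
    rw [map_sum]
    simp only [Th_opl, Th_er]
    exact h
  have h3 : er π (a l) = 0 := by
    ext ν
    have h4 := DFunLike.congr_fun h2 (cn l ν)
    rw [Finsupp.finsetSum_apply, Finset.sum_eq_single l] at h4
    · rw [opl_cn] at h4
      exact h4
    · intro l' _ hl'
      exact opl_ne l' l hl' _ ν
    · intro h
      exact absurd (Finset.mem_univ _) h
  rw [← Th_er π (a l), h3, map_zero]

/-- **uniqueness modulo `J`** -/
theorem sum_X_mul_J {a : E → R π} (h : ∑ l, X π l.toGen * a l ∈ J π) (l : E) : a l ∈ J π := by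
  rw [mem_J_iff_kill, map_sum] at h
  simp only [map_mul, kill_E] at h
  rw [mem_J_iff_kill]
  exact sum_X_mul π h l

/-! ### degrees -/

variable {π} in
theorem er_mem {P A C : ℤ} {r : R π} (hr : r ∈ pz π P A C) : er π r ∈ NZ K P A C := by
  rcases pz_cases π hr with rfl | ⟨A', C', rfl, rfl⟩
  · rw [map_zero]; exact Submodule.zero_mem _
  · obtain ⟨n, hn, rfl⟩ := exists_Th π (mem_pz_nat.1 hr)
    rw [er_Th, mem_NZ]
    intro ν hν
    obtain ⟨h1, h2, h3⟩ := PBW128.mem_NS_iff.1 hn ν hν
    exact ⟨h1, by exact_mod_cast h2, by exact_mod_cast h3⟩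

theorem Th_NZ {P A C : ℤ} {n : N K} (hn : n ∈ NZ K P A C) : Th π n ∈ pz π P A C := by
  have : NZ K P A C ≤ (pz π P A C).comap (Th π) := by
    rw [NZ, Finsupp.supported_eq_span_single, Submodule.span_le]
    rintro _ ⟨⟨i, j, k, w, q⟩, ⟨rfl, h2, h3⟩, rfl⟩
    show Th π (bv K i j k w q) ∈ pz π _ A C
    rw [Th_bv, ← h2, ← h3]
    exact mem_pz_nat.2 (nr_mem_pc π (i, j, k, w, q))
  exact this hn

theorem slr_mem (l : E) {P A C : ℤ} {r : R π} (hr : r ∈ pz π P A C) :
    slr π l r ∈ pz π (P - l.toGen.dP) (A - l.toGen.dA) (C - l.toGen.dC) := by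
  apply Th_NZ
  rw [mem_NZ]
  intro ν hν
  rw [LinearMap.comp_apply, dv_apply] at hν
  obtain ⟨h1, h2, h3⟩ := mem_NZ.1 (er_mem hr) _ hν
  refine ⟨?_, ?_, ?_⟩
  · rw [← h1]; simp [dPx, cn]; ring
  · rw [← h2]; simp [dAx, cn]; ring
  · rw [← h3]; simp [dCx, cn]; ring

/-- the degrees of a monomial without letters -/
theorem deg_nil {ν : Ix} (hw : ν.2.2.2.1 = []) (hq : ν.2.2.2.2 = Wb.one) :
    dPx ν = ν.1 + ν.2.1 ∧ dAx ν = ν.2.2.1 ∧ dCx ν = 0 := by
  obtain ⟨i, j, k, w, q⟩ := ν
  simp only at hw hq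
  subst hw hq
  simp [dPx, dAx, dCx, Wb.word, wC]

theorem kill_s0r (r : R π) : kill π (s0r π r) = Th π (n1 K (n0 K (er π r))) := kill_Th π _

theorem n1n0_apply (n : N K) (ν : Ix) :
    n1 K (n0 K n) ν = if ν.2.2.2.1 = [] ∧ ν.2.2.2.2 = Wb.one then n ν else 0 := by
  rw [n1_apply, n0_apply]
  by_cases h1 : ν.2.2.2.1 = [] <;> by_cases h2 : ν.2.2.2.2 = Wb.one <;> simp [h1, h2]

theorem s0r_mem_J {P A C : ℤ} (h : 0 < C ∨ P < 0) {r : R π} (hr : r ∈ pz π P A C) :
    s0r π r ∈ J π := by
  rw [mem_J_iff_kill, kill_s0r]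
  have : n1 K (n0 K (er π r)) = 0 := by
    ext ν
    rw [n1n0_apply]
    split_ifs with h1
    · by_contra h2
      obtain ⟨e1, e2, e3⟩ := mem_NZ.1 (er_mem hr) ν h2
      obtain ⟨d1, d2, d3⟩ := deg_nil h1.1 h1.2
      omega
    · rfl
  rw [this, map_zero]

/-! ### the character of `DV_{-2}` -/

/-- coefficient of `h^A` in `R'/(E R')` (sum over `A`) -/
def chi : R π →ₗ[K] K :=
  (Finsupp.linearCombination K (fun ν : Ix =>
    if ν.1 = 0 ∧ ν.2.1 = 0 ∧ ν.2.2.2.1 = [] ∧ ν.2.2.2.2 = Wb.one then (1 : K) else 0)) ∘ₗ er π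

theorem chi_Th_bv (i j k : ℕ) (w : List E) (q : Wb) : chi π (Th π (bv K i j k w q)) =
    if i = 0 ∧ j = 0 ∧ w = [] ∧ q = Wb.one then 1 else 0 := by
  rw [chi, LinearMap.comp_apply, er_Th]
  simp [bv]

theorem chi_kill (r : R π) : chi π (kill π r) = chi π r := by
  have : chi π ∘ₗ Th π ∘ₗ n1 K = chi π ∘ₗ Th π := by
    apply ext_bv
    intro i j k w q
    rw [LinearMap.comp_apply, LinearMap.comp_apply, LinearMap.comp_apply, n1_bv, chi_Th_bv]
    split_ifs with h1 h2 h2
    · rw [chi_Th_bv, if_pos h2]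
    · rw [chi_Th_bv, if_neg h2]
    · exact absurd h2.2.2.2 h1
    · rw [map_zero, map_zero]
  have h := LinearMap.congr_fun this (er π r)
  simp only [LinearMap.comp_apply, Th_er] at h
  rw [← h, ← kill_Th, Th_er]

theorem chi_J {r : R π} (hr : r ∈ J π) : chi π r = 0 := by
  rw [← chi_kill, (mem_J_iff_kill π).1 hr, map_zero]

theorem chi_E_mul (l : E) (r : R π) : chi π (X π l.toGen * r) = 0 := by
  have : chi π ∘ₗ Th π ∘ₗ opl K l = 0 := by
    apply ext_bv
    intro i j k w q
    rw [LinearMap.comp_apply, LinearMap.comp_apply, opl_bv, chi_Th_bv, if_neg (by simp)]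
    rfl
  have h := LinearMap.congr_fun this (er π r)
  simp only [LinearMap.comp_apply, Th_opl, Th_er, LinearMap.zero_apply] at h
  exact h

variable (K) in
/-- multiplication by `h` in right coordinates -/
def oph : N K →ₗ[K] N K := Finsupp.lmapDomain K K (fun ν : Ix => (ν.1, ν.2.1, ν.2.2.1 + 1, ν.2.2.2.1, ν.2.2.2.2))

theorem oph_bv (i j k : ℕ) (w : List E) (q : Wb) : oph K (bv K i j k w q) = bv K i j (k + 1) w q := by
  simp [oph, bv]

theorem Th_oph (n : N K) : Th π (oph K n) = X π .h * Th π n := by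
  have : Th π ∘ₗ oph K = LinearMap.mulLeft K (X π .h) ∘ₗ Th π := by
    apply ext_bv
    intro i j k w q
    rw [LinearMap.comp_apply, oph_bv, Th_bv, LinearMap.comp_apply, Th_bv, LinearMap.mulLeft_apply]
    simp only [nr, pow_succ', mul_assoc]
  exact LinearMap.congr_fun this n

theorem chi_h_mul (r : R π) : chi π (X π .h * r) = chi π r := by
  have : chi π ∘ₗ Th π ∘ₗ oph K = chi π ∘ₗ Th π := by
    apply ext_bv
    intro i j k w q
    rw [LinearMap.comp_apply, LinearMap.comp_apply, LinearMap.comp_apply, oph_bv, chi_Th_bv, chi_Th_bv]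
  have h := LinearMap.congr_fun this (er π r)
  simp only [LinearMap.comp_apply, Th_oph, Th_er] at h
  exact h

theorem chi_hpow_mul (k : ℕ) (r : R π) : chi π (X π .h ^ k * r) = chi π r := by
  induction k with
  | zero => rw [pow_zero, one_mul]
  | succ k ih => rw [pow_succ', mul_assoc, chi_h_mul, ih]

theorem chi_one : chi π 1 = 1 := by
  have h : Th π (bv K 0 0 0 [] Wb.one) = 1 := by
    rw [Th_bv]; simp [nr, we_nil, wq_one]
  rw [← h, chi_Th_bv, if_pos ⟨rfl, rfl, rfl, rfl⟩]

theorem chi_hpow (k : ℕ) : chi π (X π .h ^ k) = 1 := by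
  have := chi_hpow_mul π k 1
  rwa [mul_one, chi_one] at this

/-- degree `(0, A, 0)`: the part without letters is `chi r * h^A` -/
theorem kill_s0r_eq {A : ℕ} {r : R π} (hr : r ∈ pz π 0 A 0) :
    kill π (s0r π r) = chi π r • X π .h ^ A := by
  have hc : chi π r = er π r (0, 0, A, [], Wb.one) := by
    have h2 : NZ K 0 A 0 ≤ LinearMap.ker ((Finsupp.linearCombination K (fun ν : Ix =>
        if ν.1 = 0 ∧ ν.2.1 = 0 ∧ ν.2.2.2.1 = [] ∧ ν.2.2.2.2 = Wb.one then (1 : K) else 0)) -
        (Finsupp.lapply (0, 0, A, [], Wb.one) : N K →ₗ[K] K)) := by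
      rw [NZ, Finsupp.supported_eq_span_single, Submodule.span_le]
      rintro _ ⟨⟨i, j, k, w, q⟩, ⟨h1, h2, h3⟩, rfl⟩
      show _ - _ = (0 : K)
      rw [Finsupp.linearCombination_single, Finsupp.lapply_apply, Finsupp.single_apply]
      by_cases h4 : i = 0 ∧ j = 0 ∧ w = [] ∧ q = Wb.one
      · obtain ⟨rfl, rfl, rfl, rfl⟩ := h4
        have hk : k = A := by
          have := (deg_nil (ν := (0, 0, k, [], Wb.one)) rfl rfl).2.1
          rw [this] at h2
          exact_mod_cast h2
        subst hk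
        simp
      · rw [if_neg h4, if_neg]
        · simp
        · intro h5
          apply h4
          simp only [Prod.mk.injEq] at h5
          exact ⟨h5.1, h5.2.1, h5.2.2.2.1, h5.2.2.2.2⟩
    have h3 := h2 (er_mem hr)
    rw [LinearMap.mem_ker, LinearMap.sub_apply, sub_eq_zero] at h3
    exact h3
  rw [kill_s0r, hc]
  have h1 : n1 K (n0 K (er π r)) = er π r (0, 0, A, [], Wb.one) • bv K 0 0 A [] Wb.one := by
    ext ν
    rw [n1n0_apply, Finsupp.smul_apply, PBW128.bv_apply]
    by_cases h : ν = (0, 0, A, [], Wb.one)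
    · subst h
      simp
    · have h5 : (if (0, 0, A, [], Wb.one) = ν then (1 : K) else 0) = 0 := if_neg (Ne.symm h)
      have h6 : (if ν.2.2.2.1 = [] ∧ ν.2.2.2.2 = Wb.one then er π r ν else 0) = 0 := by
        split_ifs with h1
        · by_contra h2
          obtain ⟨e1, e2, e3⟩ := mem_NZ.1 (er_mem hr) ν h2
          obtain ⟨d1, d2, d3⟩ := deg_nil h1.1 h1.2
          apply h
          obtain ⟨i, j, k, w, q⟩ := ν
          simp only at h1 d1 d2
          have : i = 0 ∧ j = 0 ∧ k = A := by omega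
          simp [this, h1]
        · rfl
      rw [h6]
      first
      | (rw [if_neg h, smul_zero])
      | (rw [if_neg (Ne.symm h), smul_zero])
  rw [h1, map_smul, Th_bv]
  simp [nr, we_nil, wq_one]

/-! ### exactness -/

theorem exr_core {P A C : ℤ} (x : Cell → R π)
    (hx : ∀ σ, x σ ∈ pz π (P - cP σ) (A - cA σ) (C - cdeg σ))
    (h : ∀ σ, dY π x σ ∈ J π) (h0 : s0r π (x none) ∈ J π) :
    ∃ y : Cell → R π, y none = 0 ∧ (∀ σ, y σ ∈ pz π (P - cP σ) (A - cA σ) (C + 1 - cdeg σ)) ∧
      ∀ σ, x σ - dY π y σ ∈ J π := by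
  set y : Cell → R π := fun σ => match σ with
    | none => 0
    | some l => slr π l (x none) with hy
  have hy0 : y none = 0 := rfl
  have hyl : ∀ l, y (some l) = slr π l (x none) := fun l => rfl
  refine ⟨y, hy0, ?_, ?_⟩
  · intro σ
    cases σ with
    | none => rw [hy0]; exact Submodule.zero_mem _
    | some l =>
      rw [hyl]
      refine pz_cast (slr_mem π l (hx none)) ?_ ?_ ?_
      · rw [cP_some]; simp [cP]
      · simp [cA]
      · rw [cdeg_some]; simp only [cdeg]; push_cast; ring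
  · set x' : Cell → R π := x - dY π y with hx'
    have hc : ∀ σ, dY π x' σ ∈ J π := by
      intro σ
      rw [hx', map_sub]
      exact Submodule.sub_mem _ (h σ) (dY_dY π y σ)
    have h1 : x' none = s0r π (x none) := by
      rw [hx', Pi.sub_apply, dY_none, hy0, map_zero, zero_add]
      simp only [hyl]
      have e := splitr π (x none)
      rw [sub_eq_iff_eq_add]
      exact e
    have h2 : x' none ∈ J π := by rw [h1]; exact h0
    have h3 : ∑ l : E, X π l.toGen * x' (some l) ∈ J π := by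
      have := hc none
      rw [dY_none] at this
      have h4 := Submodule.sub_mem _ this (D_J h2)
      rwa [add_sub_cancel_left] at h4
    intro σ
    cases σ with
    | none => exact h2
    | some l => exact sum_X_mul_J π (a := fun l => x' (some l)) h3 l

/-- **exactness of the right cells in positive degrees** -/
theorem exr_mod {P A C : ℤ} (hC : 0 < C ∨ P < 0) (x : Cell → R π)
    (hx : ∀ σ, x σ ∈ pz π (P - cP σ) (A - cA σ) (C - cdeg σ))
    (h : ∀ σ, dY π x σ ∈ J π) :
    ∃ y : Cell → R π, y none = 0 ∧ (∀ σ, y σ ∈ pz π (P - cP σ) (A - cA σ) (C + 1 - cdeg σ)) ∧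
      ∀ σ, x σ - dY π y σ ∈ J π := by
  refine exr_core π x hx h (s0r_mem_J π (P := P - cP none) (A := A - cA none)
    (C := C - cdeg none) ?_ (hx none))
  simpa [cP, cdeg] using hC

/-- **exactness of the right cells in degree zero** (kernel of the augmentation `chi`) -/
theorem exr0_mod {A : ℤ} (x : Cell → R π)
    (hx : ∀ σ, x σ ∈ pz π (0 - cP σ) (A - cA σ) (0 - cdeg σ))
    (h : ∀ σ, dY π x σ ∈ J π) (h0 : chi π (x none) = 0) :
    ∃ y : Cell → R π, y none = 0 ∧ (∀ σ, y σ ∈ pz π (0 - cP σ) (A - cA σ) (0 + 1 - cdeg σ)) ∧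
      ∀ σ, x σ - dY π y σ ∈ J π := by
  refine exr_core π x hx h ?_
  have hn := hx none
  have hn' : x none ∈ pz π 0 A 0 := by simpa [cP, cA, cdeg] using hn
  by_cases hA : A < 0
  · rw [pz_neg (Or.inl hA) hn', map_zero]; exact Submodule.zero_mem _
  · obtain ⟨a, rfl⟩ := Int.eq_ofNat_of_zero_le (not_lt.mp hA)
    rw [mem_J_iff_kill, kill_s0r_eq π hn', h0, zero_smul]

/-- generation: `h^A` has character `1` -/
theorem gen_chi (A : ℕ) : X π .h ^ A ∈ pz π 0 A 0 ∧ chi π (X π .h ^ A) = 1 := by
  refine ⟨?_, chi_hpow π A⟩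
  have h := Th_NZ π (P := 0) (A := A) (C := 0) (n := bv K 0 0 A [] Wb.one)
    (Finsupp.single_mem_supported K _ ⟨by simp [dPx], by simp [dAx], by simp [dCx, Wb.word, wC]⟩)
  rw [Th_bv] at h
  simpa [nr, we_nil, wq_one] using h

/-- the character is multiplicative on `P ≤ 0` -/
theorem chi_mul {P A C : ℤ} (hP : P ≤ 0) {r : R π} (hr : r ∈ pz π P A C) (s : R π) :
    chi π (r * s) = chi π r * chi π s := by
  have key : ∀ r s : R π, chi π (r * s) = chi π (kill π (s0r π r) * kill π s) := by
    intro r s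
    rw [← chi_kill, map_mul]
    conv_lhs => rw [splitr π r, map_add, map_sum, add_mul, Finset.sum_mul, map_add, map_sum]
    rw [Finset.sum_eq_zero, add_zero]
    intro l _
    rw [show kill π (X π l.toGen * slr π l r) = X π l.toGen * kill π (slr π l r) by
      rw [map_mul, kill_E], mul_assoc, chi_E_mul]
  by_cases h : 0 < C ∨ P < 0
  · have h0 := (mem_J_iff_kill π).1 (s0r_mem_J π h hr)
    have h1 : chi π r = 0 := by
      have := key r 1
      rwa [mul_one, h0, zero_mul, map_zero] at this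
    rw [key, h0, zero_mul, map_zero, h1, zero_mul]
  · push Not at h
    have hP0 : P = 0 := le_antisymm hP h.2
    subst hP0
    rcases pz_cases π hr with rfl | ⟨a, c, rfl, rfl⟩
    · rw [zero_mul, map_zero, zero_mul]
    · have hc : c = 0 := by
        have := h.1
        omega
      subst hc
      have hr' : r ∈ pz π 0 a 0 := by simpa using hr
      rw [key, kill_s0r_eq π hr', smul_mul_assoc, map_smul, chi_hpow_mul, chi_kill, smul_eq_mul]

/-- the character vanishes in positive degrees and on negative `P` -/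
theorem chi_zero {P A C : ℤ} (h : 0 < C ∨ P < 0) {r : R π} (hr : r ∈ pz π P A C) : chi π r = 0 := by
  have h0 := (mem_J_iff_kill π).1 (s0r_mem_J π h hr)
  rw [← chi_kill]
  conv_lhs => rw [splitr π r, map_add, map_add, h0, map_zero, zero_add, map_sum, map_sum]
  refine Finset.sum_eq_zero fun l _ => ?_
  rw [map_mul, kill_E, chi_E_mul]

theorem chi_h : chi π (X π .h) = 1 := by simpa using chi_hpow π 1

end Crest.Agent.R186.CR989
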