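import Crest.Agent.R186.Syz_700

/-!
Row 186, S0281, block CELL (helper580): the one-sided cell lemma.
-/

set_option autoImplicit false
set_option linter.style.haveILetI false
set_option linter.unusedSectionVars false

universe u

open CategoryTheory CategoryTheory.Abelian

namespace Crest.Agent.R186.Cell580

/-! ### `Ext`-lemmas for short exact sequences of modules -/

section ExtLem

variable {L : Type u} [Ring L]
variable {A B C Z : Type u} [AddCommGroup A] [AddCommGroup B] [AddCommGroup C] [AddCommGroup Z]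
  [Module L A] [Module L B] [Module L C] [Module L Z]

/-- vanishing of `Ext` -/
abbrev EV (L : Type u) [Ring L] (A Z : Type u) [AddCommGroup A] [AddCommGroup Z] [Module L A]
    [Module L Z] (i : ℕ) : Prop :=
  Subsingleton (Ext (ModuleCat.of L A) (ModuleCat.of L Z) i)

/-- the short complex of a short exact sequence -/
noncomputable abbrev sc (f : A →ₗ[L] B) (g : B →ₗ[L] C) (ex : Function.Exact f g) :
    ShortComplex (ModuleCat.{u} L) :=
  ModuleCat.shortComplexOfCompEqZero f g ex.linearMap_comp_eq_zero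

theorem sc_se (f : A →ₗ[L] B) (g : B →ₗ[L] C) (ex : Function.Exact f g)
    (fi : Function.Injective f) (gs : Function.Surjective g) : (sc f g ex).ShortExact :=
  ModuleCat.shortComplex_shortExact _ ex fi gs

theorem EV.of_zero {i : ℕ}
    (h : ∀ x : Ext (ModuleCat.of L A) (ModuleCat.of L Z) i, x = 0) : EV L A Z i :=
  ⟨fun a b => by rw [h a, h b]⟩

theorem EV.eq_zero {i : ℕ} (h : EV L A Z i)
    (x : Ext (ModuleCat.of L A) (ModuleCat.of L Z) i) : x = 0 := h.elim _ _

theorem ev_zero_iff : EV L A Z 0 ↔ ∀ φ : A →ₗ[L] Z, φ = 0 := by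
  constructor
  · intro h φ
    have h1 : (Ext.homEquiv₀.symm (ModuleCat.ofHom φ) :
        Ext (ModuleCat.of L A) (ModuleCat.of L Z) 0) = Ext.homEquiv₀.symm 0 := h.elim _ _
    have h2 := Ext.homEquiv₀.symm.injective h1
    exact congrArg ModuleCat.Hom.hom h2
  · intro h
    refine ⟨fun a b => ?_⟩
    obtain ⟨a, rfl⟩ := Ext.homEquiv₀.symm.surjective a
    obtain ⟨b, rfl⟩ := Ext.homEquiv₀.symm.surjective b
    congr 1
    ext1
    rw [h a.hom, h b.hom]

variable {f : A →ₗ[L] B} {g : B →ₗ[L] C} (ex : Function.Exact f g)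
    (fi : Function.Injective f) (gs : Function.Surjective g)

include ex fi gs in
/-- first variable, degree one -/
theorem ev_one (hB : EV L B Z 1) (hl : ∀ φ : A →ₗ[L] Z, ∃ ψ : B →ₗ[L] Z, ψ ∘ₗ f = φ) :
    EV L C Z 1 := by
  refine EV.of_zero fun x => ?_
  have se := sc_se f g ex fi gs
  have h0 : (Ext.mk₀ (sc f g ex).g).comp x (zero_add _) = 0 := hB.elim _ _
  obtain ⟨y, hy⟩ := Ext.contravariant_sequence_exact₃ se (ModuleCat.of L Z) x h0
    (add_comm 1 0)
  obtain ⟨φ, rfl⟩ := Ext.homEquiv₀.symm.surjective y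
  obtain ⟨ψ, hψ⟩ := hl φ.hom
  have h1 : φ = (sc f g ex).f ≫ (ModuleCat.ofHom ψ) := by
    ext1
    exact hψ.symm
  rw [← hy, Ext.homEquiv₀_symm_apply, h1, ← Ext.mk₀_comp_mk₀]
  rw [← Ext.comp_assoc (se.extClass) (Ext.mk₀ (sc f g ex).f) (Ext.mk₀ (ModuleCat.ofHom ψ))
    (add_zero 1) (zero_add 0) (by omega)]
  rw [se.extClass_comp, Ext.zero_comp]

include ex fi gs in
/-- first variable, higher degrees -/
theorem ev_succ {i : ℕ} (hB : EV L B Z (i + 1)) (hA : EV L A Z i) : EV L C Z (i + 1) := by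
  refine EV.of_zero fun x => ?_
  have se := sc_se f g ex fi gs
  have h0 : (Ext.mk₀ (sc f g ex).g).comp x (zero_add _) = 0 := hB.elim _ _
  obtain ⟨y, hy⟩ := Ext.contravariant_sequence_exact₃ se (ModuleCat.of L Z) x h0
    (add_comm 1 i)
  have : y = 0 := hA.elim _ _
  rw [← hy, this, Ext.comp_zero]

include ex fi gs in
/-- first variable, the middle term -/
theorem ev_mid₁ {i : ℕ} (hA : EV L A Z i) (hC : EV L C Z i) : EV L B Z i := by
  refine EV.of_zero fun x => ?_
  have se := sc_se f g ex fi gs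
  have h0 : (Ext.mk₀ (sc f g ex).f).comp x (zero_add _) = 0 := hA.elim _ _
  obtain ⟨y, hy⟩ := Ext.contravariant_sequence_exact₂ se (ModuleCat.of L Z) x h0
  have : y = 0 := hC.elim _ _
  rw [← hy, this, Ext.comp_zero]

include ex fi gs in
/-- second variable, the left term -/
theorem ev_left₂ {i : ℕ} (hC : EV L Z C i) (hB : EV L Z B (i + 1)) : EV L Z A (i + 1) := by
  refine EV.of_zero fun x => ?_
  have se := sc_se f g ex fi gs
  have h0 : x.comp (Ext.mk₀ (sc f g ex).f) (add_zero _) = 0 := hB.elim _ _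
  obtain ⟨y, hy⟩ := Ext.covariant_sequence_exact₁ (ModuleCat.of L Z) se x h0 rfl
  have : y = 0 := hC.elim _ _
  rw [← hy, this, Ext.zero_comp]

include ex fi gs in
/-- second variable, the middle term -/
theorem ev_mid₂ {i : ℕ} (hA : EV L Z A i) (hC : EV L Z C i) : EV L Z B i := by
  refine EV.of_zero fun x => ?_
  have se := sc_se f g ex fi gs
  have h0 : x.comp (Ext.mk₀ (sc f g ex).g) (add_zero _) = 0 := hC.elim _ _
  obtain ⟨y, hy⟩ := Ext.covariant_sequence_exact₂ (ModuleCat.of L Z) se x h0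
  have : y = 0 := hA.elim _ _
  rw [← hy, this, Ext.zero_comp]

/-- projective modules -/
theorem ev_proj [Module.Projective L A] (i : ℕ) : EV L A Z (i + 1) := by
  haveI : Projective (ModuleCat.of L A) :=
    (IsProjective.iff_projective (ModuleCat.of L A)).1 inferInstance
  exact EV.of_zero fun x => Ext.eq_zero_of_projective x

/-- linear equivalences in the first variable -/
theorem EV.congr₁ (e : A ≃ₗ[L] B) {i : ℕ} (h : EV L A Z i) : EV L B Z i := by
  refine EV.of_zero fun x => ?_
  have h1 : (Ext.mk₀ (ModuleCat.ofHom e.toLinearMap)).comp x (zero_add _) = 0 := h.elim _ _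
  have h2 := congrArg (fun z => (Ext.mk₀ (ModuleCat.ofHom e.symm.toLinearMap)).comp z
    (zero_add _)) h1
  simp only [Ext.comp_zero] at h2
  rw [← Ext.comp_assoc _ _ x (zero_add 0) (zero_add i) (by omega), Ext.mk₀_comp_mk₀] at h2
  have h3 : ModuleCat.ofHom e.symm.toLinearMap ≫ ModuleCat.ofHom e.toLinearMap =
      𝟙 (ModuleCat.of L B) := by
    ext y
    simp
  rw [h3, Ext.mk₀_id_comp] at h2
  exact h2

/-- linear equivalences in the second variable -/
theorem EV.congr₂ (e : A ≃ₗ[L] B) {i : ℕ} (h : EV L Z A i) : EV L Z B i := by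
  refine EV.of_zero fun x => ?_
  have h1 : x.comp (Ext.mk₀ (ModuleCat.ofHom e.symm.toLinearMap)) (add_zero _) = 0 :=
    h.elim _ _
  have h2 := congrArg (fun z => Ext.comp z (Ext.mk₀ (ModuleCat.ofHom e.toLinearMap))
    (add_zero _)) h1
  simp only [Ext.zero_comp] at h2
  rw [Ext.comp_assoc x _ _ (add_zero i) (zero_add 0) (by omega), Ext.mk₀_comp_mk₀] at h2
  have h3 : ModuleCat.ofHom e.symm.toLinearMap ≫ ModuleCat.ofHom e.toLinearMap =
      𝟙 (ModuleCat.of L B) := by
    ext y
    simp
  rw [h3, Ext.comp_mk₀_id] at h2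
  exact h2

end ExtLem

section Pi

variable {L : Type u} [Ring L]
variable {V Z : Type u} [AddCommGroup V] [AddCommGroup Z] [Module L V] [Module L Z]

/-- `0 → V^n → V^(n+1) → V → 0` -/
def consMap (L : Type u) [Ring L] (V : Type u) [AddCommGroup V] [Module L V] (n : ℕ) :
    (Fin n → V) →ₗ[L] (Fin (n + 1) → V) where
  toFun x := Fin.cons 0 x
  map_add' x y := by
    funext i
    refine Fin.cases ?_ (fun j => ?_) i <;> simp
  map_smul' a x := by
    funext i
    refine Fin.cases ?_ (fun j => ?_) i <;> simp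

theorem consMap_inj (n : ℕ) : Function.Injective (consMap L V n) := by
  intro x y h
  funext j
  have := congrFun h j.succ
  simpa [consMap] using this

theorem consMap_exact (n : ℕ) :
    Function.Exact (consMap L V n) (LinearMap.proj (R := L) (φ := fun _ : Fin (n + 1) => V) 0) := by
  intro y
  constructor
  · intro h
    refine ⟨fun j => y j.succ, ?_⟩
    funext i
    refine Fin.cases ?_ (fun j => ?_) i
    · simpa [consMap] using h.symm
    · simp [consMap]
  · rintro ⟨x, rfl⟩
    simp [consMap]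

theorem proj0_surj (n : ℕ) : Function.Surjective
    (LinearMap.proj (R := L) (φ := fun _ : Fin (n + 1) => V) 0) :=
  fun v => ⟨fun _ => v, rfl⟩

theorem ev_pi₁ {i : ℕ} (h : EV L V Z i) (n : ℕ) : EV L (Fin n → V) Z i := by
  induction n with
  | zero =>
    refine EV.of_zero fun x => ?_
    have h0 : (𝟙 (ModuleCat.of L (Fin 0 → V))) = 0 := by
      ext1
      exact LinearMap.ext fun y => Subsingleton.elim (α := Fin 0 → V) _ _
    rw [← Ext.mk₀_id_comp x, h0, Ext.mk₀_zero, Ext.zero_comp]
  | succ n ih => exact ev_mid₁ (consMap_exact n) (consMap_inj n) (proj0_surj n) ih h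

theorem ev_pi₂ {i : ℕ} (h : EV L Z V i) (n : ℕ) : EV L Z (Fin n → V) i := by
  induction n with
  | zero =>
    refine EV.of_zero fun x => ?_
    have h0 : (𝟙 (ModuleCat.of L (Fin 0 → V))) = 0 := by
      ext1
      exact LinearMap.ext fun y => Subsingleton.elim (α := Fin 0 → V) _ _
    rw [← Ext.comp_mk₀_id x, h0, Ext.mk₀_zero, Ext.comp_zero]
  | succ n ih => exact ev_mid₂ (consMap_exact n) (consMap_inj n) (proj0_surj n) ih h

end Pi

/-! ### restriction of scalars along `π : L →+* G` -/

section Res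

variable {L G : Type u} [Ring L] [Ring G]

/-- restriction of scalars -/
def Res (_π : L →+* G) (X : Type u) : Type u := X

variable (π : L →+* G) {X X' : Type u} [AddCommGroup X] [AddCommGroup X']
  [Module G X] [Module G X']

instance : AddCommGroup (Res π X) := inferInstanceAs (AddCommGroup X)

instance : Module L (Res π X) := Module.compHom X π

/-- the identity -/
def toRes : X ≃+ Res π X := AddEquiv.refl X

/-- the identity -/
def ofRes : Res π X ≃+ X := AddEquiv.refl X

@[simp] theorem ofRes_toRes (x : X) : ofRes π (toRes π x) = x := rfl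

@[simp] theorem toRes_ofRes (x : Res π X) : toRes π (ofRes π x) = x := rfl

theorem ofRes_smul (l : L) (x : Res π X) : ofRes π (l • x) = π l • ofRes π x := rfl

theorem smul_toRes (l : L) (x : X) : l • toRes π x = toRes π (π l • x) := rfl

/-- a linear map after restriction -/
def Res.map (f : X →ₗ[G] X') : Res π X →ₗ[L] Res π X' where
  toFun x := toRes π (f (ofRes π x))
  map_add' x y := by simp
  map_smul' a x := by
    rw [ofRes_smul, map_smul]
    rfl

@[simp] theorem Res.map_apply (f : X →ₗ[G] X') (x : Res π X) :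
    Res.map π f x = toRes π (f (ofRes π x)) := rfl

/-- linear maps between restricted modules -/
def Res.unmap {π : L →+* G} (hπ : Function.Surjective π) (f : Res π X →ₗ[L] Res π X') :
    X →ₗ[G] X' where
  toFun x := ofRes π (f (toRes π x))
  map_add' x y := by simp
  map_smul' a x := by
    obtain ⟨l, rfl⟩ := hπ a
    have : toRes π (π l • x) = l • toRes π x := rfl
    rw [this, map_smul]
    rfl

theorem Res.exact {A B C : Type u} [AddCommGroup A] [AddCommGroup B] [AddCommGroup C]
    [Module G A] [Module G B] [Module G C] {f : A →ₗ[G] B} {g : B →ₗ[G] C}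
    (ex : Function.Exact f g) : Function.Exact (Res.map π f) (Res.map π g) := by
  intro y
  exact ex (ofRes π y)

/-- `Res` of a finite power -/
def resPi (n : ℕ) : (Fin n → Res π X) ≃ₗ[L] Res π (Fin n → X) where
  toFun x := toRes π (fun i => ofRes π (x i))
  invFun x i := toRes π (ofRes π x i)
  map_add' _ _ := rfl
  map_smul' _ _ := rfl
  left_inv _ := rfl
  right_inv _ := rfl

end Res

/-! ### Lemma D -/

section LemD

open Syz700

variable {L G : Type u} [Ring L] [Ring G] [IsNoetherianRing G] {π : L →+* G}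

/-- a short exact sequence, summed over `Fin n` -/
theorem pi_exact {A B C : Type u} [AddCommGroup A] [AddCommGroup B] [AddCommGroup C]
    [Module L A] [Module L B] [Module L C] {f : A →ₗ[L] B} {g : B →ₗ[L] C}
    (ex : Function.Exact f g) (n : ℕ) :
    Function.Exact (f.compLeft (Fin n)) (g.compLeft (Fin n)) := by
  intro y
  constructor
  · intro h
    have h1 : ∀ i, ∃ x, f x = y i := fun i => (ex (y i)).1 (congrFun h i)
    choose x hx using h1
    exact ⟨x, funext hx⟩
  · rintro ⟨x, rfl⟩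
    funext i
    exact (ex (f (x i))).2 ⟨x i, rfl⟩

variable (hπ : Function.Surjective π) (V : FM G) (m : ℕ)
  (h : (Fin m → Res π V.X) →ₗ[L] L) (hi : Function.Injective h)
  (hr : ∀ l, π l = 0 ↔ l ∈ LinearMap.range h)
  {Z : Type u} [AddCommGroup Z] [Module L Z]

/-- the map `L → Res π G` -/
def piLin (π : L →+* G) : L →ₗ[L] Res π G where
  toFun l := toRes π (π l)
  map_add' x y := by simp
  map_smul' a x := by
    simp only [smul_eq_mul, map_mul, RingHom.id_apply]
    rfl

include hπ hi hr in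
theorem ev_free (α : ∀ φ : (Fin m → Res π V.X) →ₗ[L] Z, ∃ z, ∀ x, φ x = h x • z)
    (n : ℕ) (i : ℕ) (hV : 0 < i → EV L (Res π V.X) Z i) : EV L (Res π (Fin n → G)) Z (i + 1) := by
  have ex : Function.Exact h (piLin π) := fun y => by
    constructor
    · intro hy
      exact (hr y).1 hy
    · rintro ⟨x, rfl⟩
      exact (hr _).2 ⟨x, rfl⟩
  have gs : Function.Surjective (piLin π) := fun y => by
    obtain ⟨l, hl⟩ := hπ (ofRes π y)
    exact ⟨l, hl⟩
  refine EV.congr₁ (resPi π n) (ev_pi₁ ?_ n)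
  rcases Nat.eq_zero_or_pos i with rfl | hi0
  · refine ev_one ex hi gs (ev_proj 0) fun φ => ?_
    obtain ⟨z, hz⟩ := α φ
    exact ⟨LinearMap.toSpanSingleton L Z z, LinearMap.ext fun x => (hz x).symm⟩
  · exact ev_succ ex hi gs (ev_proj i) (ev_pi₁ (hV hi0) m)

variable {Z₀ : Type u} [AddCommGroup Z₀] [Module G Z₀] (ι : Res π Z₀ →ₗ[L] Z)
  (ιi : Function.Injective ι) (hι : ∀ z, (∀ l, π l = 0 → l • z = 0) → z ∈ LinearMap.range ι)

include hπ hi hr ιi hι in
theorem lemD (α : ∀ φ : (Fin m → Res π V.X) →ₗ[L] Z, ∃ z, ∀ x, φ x = h x • z)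
    (β : ∀ i : ℕ, 0 < i → EV G V.X Z₀ i) : ∀ i : ℕ, 0 < i → EV L (Res π V.X) Z i := by
  intro i
  induction i using Nat.strong_induction_on with
  | _ i ih =>
  intro hi0
  obtain ⟨i, rfl⟩ := Nat.exists_eq_add_of_le' hi0
  -- `Ext^j(free, Z) = 0` for `1 ≤ j ≤ i + 1`
  have hfree : ∀ (n j : ℕ), j ≤ i → EV L (Res π (Fin n → G)) Z (j + 1) := fun n j hj =>
    ev_free hπ V m h hi hr α n j fun h0 => ih j (by omega) h0
  -- dimension shift
  have key : ∀ j k : ℕ, j + k = i → EV L (Res π (Om V k).X) Z (j + 1) := by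
    intro j
    induction j with
    | zero =>
      intro k hk
      refine ev_one (f := Res.map π (Om V k).inc) (g := Res.map π (Om V k).cov)
        (Res.exact π ?_) (Om V k).inc_inj (Om V k).cov_surj (hfree _ 0 (by omega)) ?_
      · intro y
        exact ⟨fun hy => (Om V k).exists_inc y hy, fun ⟨x, hx⟩ => by
          rw [← hx]; exact LinearMap.congr_fun (Om V k).cov_inc x⟩
      · intro φ
        have hφ : ∀ x, φ x ∈ LinearMap.range ι := fun x => hι _ fun l hl => by
          rw [← map_smul]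
          have : l • x = 0 := by
            have h1 : l • x = toRes π (π l • ofRes π x) := rfl
            rw [h1, hl, zero_smul, map_zero]
          rw [this, map_zero]
        let e := LinearEquiv.ofInjective ι ιi
        let φ' : Res π (Om V (k + 1)).X →ₗ[L] Res π Z₀ :=
          e.symm.toLinearMap ∘ₗ LinearMap.codRestrict (LinearMap.range ι) φ hφ
        obtain ⟨ψ, hψ⟩ := lift_Om V Z₀ β k (Res.unmap hπ φ')
        refine ⟨ι ∘ₗ Res.map π ψ, ?_⟩
        ext1 x
        have h1 := LinearMap.congr_fun hψ (ofRes π x)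
        have h2 : ι (φ' x) = φ x := by
          have := e.apply_symm_apply (LinearMap.codRestrict (LinearMap.range ι) φ hφ x)
          exact congrArg Subtype.val this
        rw [← h2]
        exact congrArg ι h1
    | succ j ihj =>
      intro k hk
      refine ev_succ (f := Res.map π (Om V k).inc) (g := Res.map π (Om V k).cov)
        (Res.exact π ?_) (Om V k).inc_inj (Om V k).cov_surj (hfree _ (j + 1) (by omega))
        (ihj (k + 1) (by omega))
      intro y
      exact ⟨fun hy => (Om V k).exists_inc y hy, fun ⟨x, hx⟩ => by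
        rw [← hx]; exact LinearMap.congr_fun (Om V k).cov_inc x⟩
  exact key i 0 (by omega)

/-- an `L`-linear map between restricted modules which vanishes over `G` -/
theorem res_hom_zero {X X' : Type u} [AddCommGroup X] [AddCommGroup X'] [Module G X]
    [Module G X'] (hπ : Function.Surjective π) (h0 : EV G X X' 0)
    (φ : Res π X →ₗ[L] Res π X') : φ = 0 := by
  have h1 := ev_zero_iff.1 h0 (Res.unmap hπ φ)
  refine LinearMap.ext fun x => ?_
  exact LinearMap.congr_fun h1 (ofRes π x)

theorem ev_res_zero {X X' : Type u} [AddCommGroup X] [AddCommGroup X'] [Module G X]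
    [Module G X'] (hπ : Function.Surjective π) (h0 : EV G X X' 0) :
    EV L (Res π X) (Res π X') 0 :=
  ev_zero_iff.2 (res_hom_zero hπ h0)

include hπ hi hr in
/-- Lemma D for `G`-modules `Z` with `Ext_G^*(V, Z) = 0` -/
theorem lemD_null {X : Type u} [AddCommGroup X] [Module G X]
    (β : ∀ i : ℕ, EV G V.X X i) : ∀ i : ℕ, EV L (Res π V.X) (Res π X) i := by
  have h0 := res_hom_zero (L := L) hπ (β 0)
  intro i
  rcases Nat.eq_zero_or_pos i with rfl | hi0
  · exact ev_res_zero hπ (β 0)
  refine lemD hπ V m h hi hr (Z := Res π X) (Z₀ := X) LinearMap.id (fun _ _ hx => hx)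
    (fun z _ => ⟨z, rfl⟩) ?_ (fun i _ => β i) i hi0
  intro φ
  have hφ : φ = 0 := by
    refine LinearMap.pi_ext' fun k => ?_
    rw [h0 (φ ∘ₗ LinearMap.single L (fun _ => Res π V.X) k)]
    rfl
  refine ⟨0, fun x => ?_⟩
  rw [hφ, smul_zero]
  rfl

/-- the structural input of the one-sided cell -/
structure CellIn (π : L →+* G) (V : FM G) (E₁ E₂ : Type u) [AddCommGroup E₁] [AddCommGroup E₂]
    [Module G E₁] [Module G E₂] where
  hπ : Function.Surjective π
  /-- the number of copies of `V` in the kernel -/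
  m : ℕ
  /-- the kernel -/
  h : (Fin m → Res π V.X) →ₗ[L] L
  hi : Function.Injective h
  hr : ∀ l, π l = 0 ↔ l ∈ LinearMap.range h
  /-- the module `Y` -/
  Y : Type u
  [gY : AddCommGroup Y]
  [mY : Module L Y]
  /-- `V → Y` -/
  a : Res π V.X →ₗ[L] Y
  /-- `Y → E₂` -/
  b : Y →ₗ[L] Res π E₂
  ai : Function.Injective a
  bs : Function.Surjective b
  ex : Function.Exact a b
  /-- `E₁ → Y` -/
  j : Res π E₁ →ₗ[L] Y
  ji : Function.Injective j
  hj : ∀ y, (∀ l, π l = 0 → l • y = 0) → y ∈ LinearMap.range j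
  α : ∀ φ : (Fin m → Res π V.X) →ₗ[L] Y, ∃ y, ∀ x, φ x = h x • y

attribute [instance] CellIn.gY CellIn.mY

end LemD

section Cell

open Syz700

variable {L G : Type u} [Ring L] [Ring G] [IsNoetherianRing G] {π : L →+* G}
variable {V : FM G} {E₁ E₂ : Type u} [AddCommGroup E₁] [AddCommGroup E₂] [Module G E₁]
  [Module G E₂] (c : CellIn π V E₁ E₂)

include c

/-- `V` has no extensions by `V` over `L` -/
theorem CellIn.ext_self (hE₂ : ∀ i, EV G V.X E₂ i) (hE₁ : ∀ i, 0 < i → EV G V.X E₁ i)
    (i : ℕ) (hi : 0 < i) : EV L (Res π V.X) (Res π V.X) i := by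
  have h1 := lemD c.hπ V c.m c.h c.hi c.hr (Z := c.Y) c.j c.ji c.hj c.α hE₁ i hi
  have h2 := lemD_null c.hπ V c.m c.h c.hi c.hr hE₂
  obtain ⟨i, rfl⟩ := Nat.exists_eq_add_of_le' hi
  exact ev_left₂ c.ex c.ai c.bs (h2 i) h1

/-- `Ext_L^*(V, G) = 0` -/
theorem CellIn.ext_quot (hG : ∀ i, EV G V.X G i) (i : ℕ) : EV L (Res π V.X) (Res π G) i :=
  lemD_null c.hπ V c.m c.h c.hi c.hr hG i

theorem CellIn.piEx : Function.Exact c.h (piLin π) := fun y => by
  constructor
  · intro hy
    exact (c.hr y).1 hy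
  · rintro ⟨x, rfl⟩
    exact (c.hr _).2 ⟨x, rfl⟩

/-- `Ext_L^i(V, L) = 0`, `i > 0` -/
theorem CellIn.ext_ring (hE₂ : ∀ i, EV G V.X E₂ i) (hE₁ : ∀ i, 0 < i → EV G V.X E₁ i)
    (hG : ∀ i, EV G V.X G i) (i : ℕ) (hi : 0 < i) : EV L (Res π V.X) L i :=
  ev_mid₂ c.piEx c.hi (fun y => by
    obtain ⟨l, hl⟩ := c.hπ (ofRes π y)
    exact ⟨l, hl⟩) (ev_pi₂ (c.ext_self hE₂ hE₁ i hi) c.m) (c.ext_quot hG i)

/-- every `L`-linear map `V → L` lands in the kernel of `π` -/
theorem CellIn.hom_ker (hG : EV G V.X G 0) (φ : Res π V.X →ₗ[L] L) (v : Res π V.X) :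
    π (φ v) = 0 := by
  have h1 := res_hom_zero (L := L) c.hπ hG (piLin π ∘ₗ φ)
  exact LinearMap.congr_fun h1 v

/-- `V` is not projective over `L` unless it is zero -/
theorem CellIn.not_proj (hG : EV G V.X G 0) [Nontrivial V.X] :
    ¬ Module.Projective L (Res π V.X) := by
  intro hp
  obtain ⟨s, hs⟩ := Module.projective_def.1 hp
  obtain ⟨v, hv⟩ := exists_ne (0 : V.X)
  apply hv
  have h1 : Finsupp.linearCombination L id (s (toRes π v)) = toRes π v := hs _
  rw [Finsupp.linearCombination_apply, Finsupp.sum] at h1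
  have h2 : ∀ k ∈ (s (toRes π v)).support, (s (toRes π v)) k • id k = (0 : Res π V.X) := by
    intro k _
    have h3 := c.hom_ker hG ((Finsupp.lapply k) ∘ₗ s) (toRes π v)
    have h4 : (s (toRes π v)) k • id k = toRes π (π ((s (toRes π v)) k) • ofRes π k) := rfl
    rw [h4]
    have h5 : π ((s (toRes π v)) k) = 0 := h3
    rw [h5, zero_smul, map_zero]
  rw [Finset.sum_eq_zero h2] at h1
  exact h1.symm

end Cell

end Crest.Agent.R186.Cell580
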