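import Mathlib

/-!
Row 186 (helper700): the elementary `Ext` toolbox for `S0281` (Mathlib only).

`E0 R X Y i` = `Ext^i_R(X, Y) = 0` (as `Subsingleton`).

* two-out-of-three lemmas in both variables (`mid, right, left, right0`, `cmid, cleft, cright,
  cleft0`), all from bare linear maps;
* `zero_iff`, `proj`, `inj`, `iso_left`, `iso_right`, `prod_left`, `prod_right`, `pi_left`,
  `pi_right`;
* `Res R X` : a projective resolution; `Res.succ_iff` : `Ext^{i+1}(X, N) = 0` iff every
  `f : P (i+1) → N` with `f ∘ d = 0` is `g ∘ d`;  `Res.zero_iff`;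
* `transfer` : two resolutions over two rings with isomorphic `Hom` complexes.
-/

set_option autoImplicit false
set_option linter.style.haveILetI false

universe u v

open CategoryTheory CategoryTheory.Abelian

namespace Crest.Agent.R186.ExtRes700

/-- `Ext^i_R(X, Y) = 0` -/
abbrev E0 (R : Type u) [Ring R] (X Y : Type u) [AddCommGroup X] [Module R X] [AddCommGroup Y]
    [Module R Y] (i : ℕ) : Prop :=
  Subsingleton (Ext (ModuleCat.of R X) (ModuleCat.of R Y) i)

variable {R : Type u} [Ring R]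

theorem sub_of_zero {X Y : ModuleCat.{u} R} {i : ℕ} (h : ∀ x : Ext X Y i, x = 0) :
    Subsingleton (Ext X Y i) := ⟨fun a b => by rw [h a, h b]⟩

section basic

variable {X Y : Type u} [AddCommGroup X] [Module R X] [AddCommGroup Y] [Module R Y]

theorem zero_iff : E0 R X Y 0 ↔ ∀ f : X →ₗ[R] Y, f = 0 := by
  constructor
  · intro h f
    have h1 : Ext.mk₀ (ModuleCat.ofHom f) = Ext.mk₀ (ModuleCat.ofHom (0 : X →ₗ[R] Y)) :=
      h.elim _ _
    have h2 := Ext.homEquiv₀.symm.injective (a₁ := ModuleCat.ofHom f)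
      (a₂ := ModuleCat.ofHom (0 : X →ₗ[R] Y)) (by simpa [Ext.homEquiv₀_symm_apply] using h1)
    exact congrArg ModuleCat.Hom.hom h2
  · intro h
    refine ⟨fun a b => ?_⟩
    obtain ⟨φ, rfl⟩ := Ext.homEquiv₀.symm.surjective a
    obtain ⟨ψ, rfl⟩ := Ext.homEquiv₀.symm.surjective b
    have h1 : φ = ψ := by
      ext1
      exact (h φ.hom).trans (h ψ.hom).symm
    rw [h1]

theorem proj [Module.Projective R X] (i : ℕ) : E0 R X Y (i + 1) := by
  haveI : Projective (ModuleCat.of R X) :=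
    (IsProjective.iff_projective (ModuleCat.of R X)).1 inferInstance
  exact sub_of_zero fun x => Ext.eq_zero_of_projective x

theorem inj (h : Module.Injective R Y) (i : ℕ) : E0 R X Y (i + 1) := by
  haveI : Injective (ModuleCat.of R Y) := (Module.injective_iff_injective_object R Y).1 h
  exact sub_of_zero fun x => Ext.eq_zero_of_injective x

end basic

/-! ### short exact sequences -/

section ses

variable {X₁ X₂ X₃ : Type u} [AddCommGroup X₁] [Module R X₁] [AddCommGroup X₂] [Module R X₂]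
  [AddCommGroup X₃] [Module R X₃] (f : X₁ →ₗ[R] X₂) (g : X₂ →ₗ[R] X₃)
  (hf : Function.Injective f) (hg : Function.Surjective g) (he : Function.Exact f g)

/-- the short complex -/
noncomputable abbrev sc (he : Function.Exact f g) : ShortComplex (ModuleCat.{u} R) :=
  ModuleCat.shortComplexOfCompEqZero f g he.linearMap_comp_eq_zero

include hf hg in
theorem se : (sc f g he).ShortExact := ModuleCat.shortComplex_shortExact _ he hf hg

variable {N : Type u} [AddCommGroup N] [Module R N]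

include hf hg he

theorem mid (i : ℕ) (h1 : E0 R X₁ N i) (h3 : E0 R X₃ N i) : E0 R X₂ N i := by
  apply sub_of_zero
  intro x
  obtain ⟨y, hy⟩ := Ext.contravariant_sequence_exact₂ (se f g hf hg he) (ModuleCat.of R N) x
    (h1.elim _ _)
  have : y = 0 := h3.elim _ _
  rw [← hy, this, Ext.comp_zero]

theorem right (i : ℕ) (h1 : E0 R X₁ N i) (h2 : E0 R X₂ N (i + 1)) : E0 R X₃ N (i + 1) := by
  apply sub_of_zero
  intro x
  obtain ⟨y, hy⟩ := Ext.contravariant_sequence_exact₃ (se f g hf hg he) (ModuleCat.of R N) x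
    (h2.elim _ _) (add_comm 1 i)
  have : y = 0 := h1.elim _ _
  rw [← hy, this, Ext.comp_zero]

theorem left (i : ℕ) (h2 : E0 R X₂ N i) (h3 : E0 R X₃ N (i + 1)) : E0 R X₁ N i := by
  apply sub_of_zero
  intro x
  obtain ⟨y, hy⟩ := Ext.contravariant_sequence_exact₁ (se f g hf hg he) (ModuleCat.of R N) x
    (add_comm 1 i) (h3.elim _ _)
  have : y = 0 := h2.elim _ _
  rw [← hy, this, Ext.comp_zero]

omit hf he in
theorem right0 (h2 : E0 R X₂ N 0) : E0 R X₃ N 0 := by
  rw [zero_iff] at h2 ⊢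
  intro φ
  ext x
  obtain ⟨y, rfl⟩ := hg x
  exact LinearMap.congr_fun (h2 (φ ∘ₗ g)) y

theorem cmid (i : ℕ) (h1 : E0 R N X₁ i) (h3 : E0 R N X₃ i) : E0 R N X₂ i := by
  apply sub_of_zero
  intro x
  obtain ⟨y, hy⟩ := Ext.covariant_sequence_exact₂ (ModuleCat.of R N) (se f g hf hg he) x
    (h3.elim _ _)
  have : y = 0 := h1.elim _ _
  rw [← hy, this, Ext.zero_comp]

theorem cleft (i : ℕ) (h3 : E0 R N X₃ i) (h2 : E0 R N X₂ (i + 1)) : E0 R N X₁ (i + 1) := by
  apply sub_of_zero
  intro x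
  obtain ⟨y, hy⟩ := Ext.covariant_sequence_exact₁ (ModuleCat.of R N) (se f g hf hg he) x
    (h2.elim _ _) rfl
  have : y = 0 := h3.elim _ _
  rw [← hy, this, Ext.zero_comp]

theorem cright (i : ℕ) (h2 : E0 R N X₂ i) (h1 : E0 R N X₁ (i + 1)) : E0 R N X₃ i := by
  apply sub_of_zero
  intro x
  obtain ⟨y, hy⟩ := Ext.covariant_sequence_exact₃ (ModuleCat.of R N) (se f g hf hg he) x
    rfl (h1.elim _ _)
  have : y = 0 := h2.elim _ _
  rw [← hy, this, Ext.zero_comp]

omit hg he in
theorem cleft0 (h2 : E0 R N X₂ 0) : E0 R N X₁ 0 := by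
  rw [zero_iff] at h2 ⊢
  intro φ
  ext x
  apply hf
  rw [LinearMap.zero_apply, map_zero]
  exact LinearMap.congr_fun (h2 (f ∘ₗ φ)) x

end ses

section iso

variable {X X' Y Y' : Type u} [AddCommGroup X] [Module R X] [AddCommGroup X'] [Module R X']
  [AddCommGroup Y] [Module R Y] [AddCommGroup Y'] [Module R Y']

/-- a retract in the first variable -/
theorem retract_left (s : X' →ₗ[R] X) (p : X →ₗ[R] X') (h : p ∘ₗ s = LinearMap.id) (i : ℕ)
    (hX : E0 R X Y i) : E0 R X' Y i := by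
  apply sub_of_zero
  intro x
  have h1 : ModuleCat.ofHom s ≫ ModuleCat.ofHom p = 𝟙 (ModuleCat.of R X') := by
    rw [← ModuleCat.ofHom_comp, h]; rfl
  have h2 : (Ext.mk₀ (ModuleCat.ofHom p)).comp x (zero_add i) = 0 := hX.elim _ _
  calc x = (Ext.mk₀ (𝟙 (ModuleCat.of R X'))).comp x (zero_add i) := (Ext.mk₀_id_comp x).symm
    _ = 0 := by
      rw [← h1, ← Ext.mk₀_comp_mk₀, Ext.comp_assoc _ _ _ (zero_add 0) (zero_add i) (by omega), h2,
        Ext.comp_zero]

/-- a retract in the second variable -/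
theorem retract_right (s : Y' →ₗ[R] Y) (p : Y →ₗ[R] Y') (h : p ∘ₗ s = LinearMap.id) (i : ℕ)
    (hX : E0 R X Y i) : E0 R X Y' i := by
  apply sub_of_zero
  intro x
  have h1 : ModuleCat.ofHom s ≫ ModuleCat.ofHom p = 𝟙 (ModuleCat.of R Y') := by
    rw [← ModuleCat.ofHom_comp, h]; rfl
  have h2 : x.comp (Ext.mk₀ (ModuleCat.ofHom s)) (add_zero i) = 0 := hX.elim _ _
  calc x = x.comp (Ext.mk₀ (𝟙 (ModuleCat.of R Y'))) (add_zero i) := (Ext.comp_mk₀_id x).symm
    _ = 0 := by
      rw [← h1, ← Ext.mk₀_comp_mk₀, ← Ext.comp_assoc _ _ _ (add_zero i) (zero_add 0) (by omega),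
        h2, Ext.zero_comp]

theorem iso_left (e : X ≃ₗ[R] X') (i : ℕ) (h : E0 R X Y i) : E0 R X' Y i :=
  retract_left e.symm.toLinearMap e.toLinearMap (by ext x; simp) i h

theorem iso_right (e : Y ≃ₗ[R] Y') (i : ℕ) (h : E0 R X Y i) : E0 R X Y' i :=
  retract_right e.symm.toLinearMap e.toLinearMap (by ext x; simp) i h

theorem prod_left (i : ℕ) (h : E0 R X Y i) (h' : E0 R X' Y i) : E0 R (X × X') Y i :=
  mid (LinearMap.inl R X X') (LinearMap.snd R X X') LinearMap.inl_injective
    LinearMap.snd_surjective (Function.Exact.inl_snd) i h h'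

theorem prod_right (i : ℕ) (h : E0 R X Y i) (h' : E0 R X Y' i) : E0 R X (Y × Y') i :=
  cmid (LinearMap.inl R Y Y') (LinearMap.snd R Y Y') LinearMap.inl_injective
    LinearMap.snd_surjective (Function.Exact.inl_snd) i h h'

theorem triv_left [Subsingleton X] (i : ℕ) : E0 R X Y i := by
  apply sub_of_zero
  intro x
  have h1 : 𝟙 (ModuleCat.of R X) = 0 := by
    ext a
    exact Subsingleton.elim (α := X) _ _
  calc x = (Ext.mk₀ (𝟙 (ModuleCat.of R X))).comp x (zero_add i) := (Ext.mk₀_id_comp x).symm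
    _ = 0 := by rw [h1, Ext.mk₀_zero, Ext.zero_comp]

theorem triv_right [Subsingleton Y] (i : ℕ) : E0 R X Y i := by
  apply sub_of_zero
  intro x
  have h1 : 𝟙 (ModuleCat.of R Y) = 0 := by
    ext a
    exact Subsingleton.elim (α := Y) _ _
  calc x = x.comp (Ext.mk₀ (𝟙 (ModuleCat.of R Y))) (add_zero i) := (Ext.comp_mk₀_id x).symm
    _ = 0 := by rw [h1, Ext.mk₀_zero, Ext.comp_zero]

/-- finite powers in the first variable (`ι` any finite type in `Type u`) -/
theorem pi_left (i n : ℕ) (h : E0 R X Y i) : E0 R (Fin n → X) Y i := by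
  induction n with
  | zero => exact triv_left i
  | succ n ih => exact iso_left (Fin.consLinearEquiv R (fun _ : Fin (n + 1) => X)) i (prod_left i h ih)

theorem pi_right (i n : ℕ) (h : E0 R X Y i) : E0 R X (Fin n → Y) i := by
  induction n with
  | zero => exact triv_right i
  | succ n ih =>
    exact iso_right (Fin.consLinearEquiv R (fun _ : Fin (n + 1) => Y)) i (prod_right i h ih)

end iso

/-- factorisation through a surjection -/
theorem factor {P Q N : Type u} [AddCommGroup P] [Module R P] [AddCommGroup Q] [Module R Q]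
    [AddCommGroup N] [Module R N] (π : P →ₗ[R] Q) (hπ : Function.Surjective π) (f : P →ₗ[R] N)
    (h : ∀ x, π x = 0 → f x = 0) : ∃ g : Q →ₗ[R] N, g ∘ₗ π = f := by
  have hk : LinearMap.ker π ≤ LinearMap.ker f := fun x hx => h x hx
  refine ⟨(Submodule.liftQ _ f hk) ∘ₗ (π.quotKerEquivOfSurjective hπ).symm.toLinearMap, ?_⟩
  ext x
  have h2 : (π.quotKerEquivOfSurjective hπ).symm (π x) = Submodule.Quotient.mk x := by
    rw [LinearEquiv.symm_apply_eq]
    rfl
  simp only [LinearMap.comp_apply, LinearEquiv.coe_coe]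
  rw [h2]
  rfl

/-! ### projective resolutions -/

/-- a projective resolution of `X` -/
structure Res (R : Type u) [Ring R] (X : Type u) [AddCommGroup X] [Module R X] where
  P : ℕ → Type u
  [gP : ∀ j, AddCommGroup (P j)]
  [mP : ∀ j, Module R (P j)]
  pj : ∀ j, Module.Projective R (P j)
  d : ∀ j, P (j + 1) →ₗ[R] P j
  ε : P 0 →ₗ[R] X
  hε : Function.Surjective ε
  h0 : Function.Exact (d 0) ε
  ex : ∀ j, Function.Exact (d (j + 1)) (d j)

attribute [instance] Res.gP Res.mP

namespace Res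

variable {X : Type u} [AddCommGroup X] [Module R X] (s : Res R X)

/-- the resolution of the first syzygy `ker ε` -/
def shift : Res R (LinearMap.ker s.ε) where
  P j := s.P (j + 1)
  pj j := s.pj (j + 1)
  d j := s.d (j + 1)
  ε := (s.d 0).codRestrict _ fun x => LinearMap.mem_ker.2 (s.h0.apply_apply_eq_zero x)
  hε := by
    rintro ⟨y, hy⟩
    obtain ⟨x, rfl⟩ := (s.h0 y).1 hy
    exact ⟨x, rfl⟩
  h0 := by
    intro x
    rw [← s.ex 0 x]
    constructor
    · intro h
      exact congrArg Subtype.val h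
    · intro h
      exact Subtype.ext h
  ex j := s.ex (j + 1)

variable {N : Type u} [AddCommGroup N] [Module R N]

theorem ext_one_iff_syz : E0 R X N 1 ↔
    ∀ f : LinearMap.ker s.ε →ₗ[R] N, ∃ g : s.P 0 →ₗ[R] N,
      g ∘ₗ (LinearMap.ker s.ε).subtype = f := by
  haveI := s.pj 0
  haveI hP : Projective (ModuleCat.of R (s.P 0)) :=
    (IsProjective.iff_projective (ModuleCat.of R (s.P 0))).1 inferInstance
  have hse := se (LinearMap.ker s.ε).subtype s.ε (Submodule.injective_subtype _) s.hε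
    (LinearMap.exact_subtype_ker_map _)
  constructor
  · intro h f
    let x : Ext (ModuleCat.of R (LinearMap.ker s.ε)) (ModuleCat.of R N) 0 :=
      Ext.mk₀ (ModuleCat.ofHom f)
    have h0 : hse.extClass.comp x (add_zero 1) = 0 := h.elim _ _
    obtain ⟨y, hy⟩ := Ext.contravariant_sequence_exact₁ hse (ModuleCat.of R N) x (add_zero 1) h0
    obtain ⟨φ, rfl⟩ := Ext.homEquiv₀.symm.surjective y
    rw [Ext.homEquiv₀_symm_apply, Ext.mk₀_comp_mk₀] at hy
    have h1 := Ext.homEquiv₀.symm.injective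
      (a₁ := ModuleCat.ofHom (LinearMap.ker s.ε).subtype ≫ φ) (a₂ := ModuleCat.ofHom f)
      (by simpa [Ext.homEquiv₀_symm_apply] using hy)
    exact ⟨φ.hom, congrArg ModuleCat.Hom.hom h1⟩
  · intro h
    apply sub_of_zero
    intro x
    have h0 : (Ext.mk₀ (ModuleCat.ofHom s.ε)).comp x (zero_add 1) = 0 :=
      Ext.eq_zero_of_projective (P := ModuleCat.of R (s.P 0)) (n := 0) _
    obtain ⟨y, hy⟩ := Ext.contravariant_sequence_exact₃ hse (ModuleCat.of R N) x h0
      (add_comm 1 0)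
    obtain ⟨φ, rfl⟩ := Ext.homEquiv₀.symm.surjective y
    obtain ⟨ψ, hψ⟩ := h φ.hom
    have h1 : φ = ModuleCat.ofHom (LinearMap.ker s.ε).subtype ≫ (ModuleCat.ofHom ψ) := by
      ext1
      exact hψ.symm
    rw [← hy, Ext.homEquiv₀_symm_apply, h1, ← Ext.mk₀_comp_mk₀]
    rw [← Ext.comp_assoc (hse.extClass) (Ext.mk₀ (ModuleCat.ofHom (LinearMap.ker s.ε).subtype))
      (Ext.mk₀ (ModuleCat.ofHom ψ)) (add_zero 1) (zero_add 0) (by omega)]
    have h2 : hse.extClass.comp (Ext.mk₀ (ModuleCat.ofHom (LinearMap.ker s.ε).subtype))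
      (add_zero 1) = 0 := hse.extClass_comp
    rw [h2, Ext.zero_comp]

theorem ext_succ_iff_syz (i : ℕ) :
    E0 R X N (i + 1 + 1) ↔ E0 R (LinearMap.ker s.ε) N (i + 1) := by
  haveI := s.pj 0
  constructor
  · intro h
    exact left (LinearMap.ker s.ε).subtype s.ε (Submodule.injective_subtype _) s.hε
      (LinearMap.exact_subtype_ker_map _) (i + 1) (proj i) h
  · intro h
    exact right (LinearMap.ker s.ε).subtype s.ε (Submodule.injective_subtype _) s.hε
      (LinearMap.exact_subtype_ker_map _) (i + 1) h (proj (i + 1))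

theorem one_iff : E0 R X N 1 ↔
    ∀ f : s.P 1 →ₗ[R] N, f ∘ₗ s.d 1 = 0 → ∃ g : s.P 0 →ₗ[R] N, g ∘ₗ s.d 0 = f := by
  rw [s.ext_one_iff_syz]
  let π : s.P 1 →ₗ[R] LinearMap.ker s.ε := s.shift.ε
  have hπ : Function.Surjective π := s.shift.hε
  have hπ0 : ∀ x, ((π x : LinearMap.ker s.ε) : s.P 0) = s.d 0 x := fun x => rfl
  have hex : ∀ x : s.P 1, π x = 0 ↔ ∃ y, s.d 1 y = x := s.shift.h0
  constructor
  · intro h f hf
    obtain ⟨f', hf'⟩ := factor π hπ f (by
      intro x hx
      obtain ⟨y, rfl⟩ := (hex x).1 hx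
      exact LinearMap.congr_fun hf y)
    obtain ⟨g, hg⟩ := h f'
    refine ⟨g, ?_⟩
    ext x
    have h1 := LinearMap.congr_fun hg (π x)
    have h2 := LinearMap.congr_fun hf' x
    rw [← h2]
    exact h1
  · intro h f
    obtain ⟨g, hg⟩ := h (f ∘ₗ π) (by
      ext x
      have h1 : π (s.d 1 x) = 0 := (hex _).2 ⟨x, rfl⟩
      rw [LinearMap.comp_apply, LinearMap.comp_apply, h1, map_zero, LinearMap.zero_apply])
    refine ⟨g, ?_⟩
    ext x
    obtain ⟨y, rfl⟩ := hπ x
    exact LinearMap.congr_fun hg y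

/-- **degreewise criterion.** -/
theorem succ_iff (i : ℕ) : ∀ {X : Type u} [AddCommGroup X] [Module R X] (s : Res R X),
    E0 R X N (i + 1) ↔
    ∀ f : s.P (i + 1) →ₗ[R] N, f ∘ₗ s.d (i + 1) = 0 → ∃ g : s.P i →ₗ[R] N, g ∘ₗ s.d i = f := by
  induction i with
  | zero => intro X _ _ s; exact s.one_iff
  | succ i ih =>
    intro X _ _ s
    rw [s.ext_succ_iff_syz i]
    exact ih s.shift

theorem zero_iff' : E0 R X N 0 ↔ ∀ f : s.P 0 →ₗ[R] N, f ∘ₗ s.d 0 = 0 → f = 0 := by
  rw [zero_iff]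
  constructor
  · intro h f hf
    obtain ⟨f', hf'⟩ := factor s.ε s.hε f (by
      intro x hx
      obtain ⟨y, rfl⟩ := (s.h0 x).1 hx
      exact LinearMap.congr_fun hf y)
    rw [← hf', h f', LinearMap.zero_comp]
  · intro h f
    have h1 := h (f ∘ₗ s.ε) (by
      ext x
      have h1 : s.ε (s.d 0 x) = 0 := s.h0.apply_apply_eq_zero x
      rw [LinearMap.comp_apply, LinearMap.comp_apply, h1, map_zero, LinearMap.zero_apply])
    ext x
    obtain ⟨y, rfl⟩ := s.hε x
    exact LinearMap.congr_fun h1 y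

end Res

/-! ### change of rings -/

/-- two resolutions over two rings with isomorphic `Hom` complexes have the same vanishing -/
theorem transfer {S : Type v} [Ring S] {X N : Type u} [AddCommGroup X] [Module R X]
    [AddCommGroup N] [Module R N] {X' N' : Type v} [AddCommGroup X'] [Module S X']
    [AddCommGroup N'] [Module S N'] (s : Res R X) (t : Res S X')
    (θ : ∀ j, (s.P j →ₗ[R] N) ≃+ (t.P j →ₗ[S] N'))
    (hθ : ∀ (j : ℕ) (f : s.P j →ₗ[R] N), θ (j + 1) (f ∘ₗ s.d j) = θ j f ∘ₗ t.d j) (i : ℕ) :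
    E0 R X N i ↔ E0 S X' N' i := by
  cases i with
  | zero =>
    rw [s.zero_iff', t.zero_iff']
    constructor
    · intro h f hf
      have h1 := h ((θ 0).symm f) (by
        apply (θ 1).injective
        rw [hθ, map_zero, AddEquiv.apply_symm_apply, hf])
      rw [← (θ 0).apply_symm_apply f, h1, map_zero]
    · intro h f hf
      have h1 := h (θ 0 f) (by rw [← hθ, hf, map_zero])
      exact (θ 0).injective (h1.trans (map_zero _).symm)
  | succ i =>
    rw [Res.succ_iff i s, Res.succ_iff i t]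
    constructor
    · intro h f hf
      obtain ⟨g, hg⟩ := h ((θ (i + 1)).symm f) (by
        apply (θ (i + 1 + 1)).injective
        rw [hθ, map_zero, AddEquiv.apply_symm_apply, hf])
      refine ⟨θ i g, ?_⟩
      rw [← hθ, hg, AddEquiv.apply_symm_apply]
    · intro h f hf
      obtain ⟨g, hg⟩ := h (θ (i + 1) f) (by rw [← hθ, hf, map_zero])
      refine ⟨(θ i).symm g, ?_⟩
      apply (θ (i + 1)).injective
      rw [hθ, AddEquiv.apply_symm_apply, hg]

end Crest.Agent.R186.ExtRes700
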