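import Mathlib
import Crest.Agent.R186.ExtRes_700
import Crest.Agent.R186.Syz_700

/-!
Row 186 (helper700): `K`-duality and `Ext`, injective coresolutions.
-/

set_option autoImplicit false
set_option linter.style.haveILetI false

universe u v

open CategoryTheory CategoryTheory.Abelian MulOpposite

namespace Crest.Agent.R186.Dual700

open ExtRes700

/-! ### injective coresolutions -/

section cores

variable {R : Type u} [Ring R]

/-- an injective coresolution of `Y` -/
structure CoRes (R : Type u) [Ring R] (Y : Type u) [AddCommGroup Y] [Module R Y] where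
  I : ℕ → Type u
  [gI : ∀ j, AddCommGroup (I j)]
  [mI : ∀ j, Module R (I j)]
  ij : ∀ j, Module.Injective R (I j)
  d : ∀ j, I j →ₗ[R] I (j + 1)
  η : Y →ₗ[R] I 0
  hη : Function.Injective η
  h0 : Function.Exact η (d 0)
  ex : ∀ j, Function.Exact (d j) (d (j + 1))

attribute [instance] CoRes.gI CoRes.mI

namespace CoRes

variable {Y : Type u} [AddCommGroup Y] [Module R Y] (s : CoRes R Y)

/-- the coresolution of the first cosyzygy `I 0 ⧸ range η` -/
def shift : CoRes R (s.I 0 ⧸ LinearMap.range s.η) where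
  I j := s.I (j + 1)
  ij j := s.ij (j + 1)
  d j := s.d (j + 1)
  η := (LinearMap.range s.η).liftQ (s.d 0) (by
    rintro _ ⟨x, rfl⟩
    exact s.h0.apply_apply_eq_zero x)
  hη := by
    rw [← LinearMap.ker_eq_bot]
    apply Submodule.ker_liftQ_eq_bot
    rw [LinearMap.exact_iff.1 s.h0]
  h0 := by
    intro x
    rw [s.ex 0 x]
    constructor
    · rintro ⟨y, rfl⟩
      exact ⟨Submodule.Quotient.mk y, rfl⟩
    · rintro ⟨y, rfl⟩
      obtain ⟨y, rfl⟩ := Submodule.mkQ_surjective _ y
      exact ⟨y, rfl⟩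
  ex j := s.ex (j + 1)

variable {X : Type u} [AddCommGroup X] [Module R X]

theorem exq : Function.Exact s.η (LinearMap.range s.η).mkQ := by
  intro x
  rw [Submodule.mkQ_apply, Submodule.Quotient.mk_eq_zero]
  rfl

theorem ext_one_iff_syz : E0 R X Y 1 ↔
    ∀ f : X →ₗ[R] (s.I 0 ⧸ LinearMap.range s.η), ∃ g : X →ₗ[R] s.I 0,
      (LinearMap.range s.η).mkQ ∘ₗ g = f := by
  haveI hI : Injective (ModuleCat.of R (s.I 0)) :=
    (Module.injective_iff_injective_object R (s.I 0)).1 (s.ij 0)
  have hse := se s.η (LinearMap.range s.η).mkQ s.hη (Submodule.mkQ_surjective _) s.exq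
  constructor
  · intro h f
    let x : Ext (ModuleCat.of R X) (ModuleCat.of R (s.I 0 ⧸ LinearMap.range s.η)) 0 :=
      Ext.mk₀ (ModuleCat.ofHom f)
    have h0 : x.comp hse.extClass (zero_add 1) = 0 := h.elim _ _
    obtain ⟨y, hy⟩ := Ext.covariant_sequence_exact₃ (ModuleCat.of R X) hse x (zero_add 1) h0
    obtain ⟨φ, rfl⟩ := Ext.homEquiv₀.symm.surjective y
    rw [Ext.homEquiv₀_symm_apply, Ext.mk₀_comp_mk₀] at hy
    have h1 := Ext.homEquiv₀.symm.injective
      (a₁ := φ ≫ ModuleCat.ofHom (LinearMap.range s.η).mkQ) (a₂ := ModuleCat.ofHom f)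
      (by simpa [Ext.homEquiv₀_symm_apply] using hy)
    exact ⟨φ.hom, congrArg ModuleCat.Hom.hom h1⟩
  · intro h
    apply sub_of_zero
    intro x
    have h0 : x.comp (Ext.mk₀ (ModuleCat.ofHom s.η)) (add_zero 1) = 0 :=
      Ext.eq_zero_of_injective (I := ModuleCat.of R (s.I 0)) (n := 0) _
    obtain ⟨y, hy⟩ := Ext.covariant_sequence_exact₁ (ModuleCat.of R X) hse x h0 (zero_add 1)
    obtain ⟨φ, rfl⟩ := Ext.homEquiv₀.symm.surjective y
    obtain ⟨ψ, hψ⟩ := h φ.hom
    have h1 : φ = ModuleCat.ofHom ψ ≫ ModuleCat.ofHom (LinearMap.range s.η).mkQ := by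
      ext1
      exact hψ.symm
    rw [← hy, Ext.homEquiv₀_symm_apply, h1, ← Ext.mk₀_comp_mk₀]
    rw [Ext.comp_assoc (Ext.mk₀ (ModuleCat.ofHom ψ))
      (Ext.mk₀ (ModuleCat.ofHom (LinearMap.range s.η).mkQ)) hse.extClass
      (zero_add 0) (zero_add 1) (by omega)]
    have h2 : (Ext.mk₀ (ModuleCat.ofHom (LinearMap.range s.η).mkQ)).comp hse.extClass
      (zero_add 1) = 0 := hse.comp_extClass
    rw [h2, Ext.comp_zero]

theorem ext_succ_iff_syz (i : ℕ) :
    E0 R X Y (i + 1 + 1) ↔ E0 R X (s.I 0 ⧸ LinearMap.range s.η) (i + 1) := by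
  constructor
  · intro h
    exact cright s.η (LinearMap.range s.η).mkQ s.hη (Submodule.mkQ_surjective _) s.exq (i + 1)
      (inj (s.ij 0) i) h
  · intro h
    exact cleft s.η (LinearMap.range s.η).mkQ s.hη (Submodule.mkQ_surjective _) s.exq (i + 1)
      h (inj (s.ij 0) (i + 1))

theorem one_iff : E0 R X Y 1 ↔
    ∀ f : X →ₗ[R] s.I 1, s.d 1 ∘ₗ f = 0 → ∃ g : X →ₗ[R] s.I 0, s.d 0 ∘ₗ g = f := by
  rw [s.ext_one_iff_syz]
  let ι : (s.I 0 ⧸ LinearMap.range s.η) →ₗ[R] s.I 1 := s.shift.η
  have hι : Function.Injective ι := s.shift.hη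
  have hι0 : ∀ x, ι (Submodule.Quotient.mk x) = s.d 0 x := fun x => rfl
  have hex : ∀ x : s.I 1, s.d 1 x = 0 ↔ ∃ y, ι y = x := s.shift.h0
  constructor
  · intro h f hf
    have hr : ∀ x, f x ∈ LinearMap.range ι := by
      intro x
      obtain ⟨y, hy⟩ := (hex (f x)).1 (LinearMap.congr_fun hf x)
      exact ⟨y, hy⟩
    let e := LinearEquiv.ofInjective ι hι
    let f' : X →ₗ[R] (s.I 0 ⧸ LinearMap.range s.η) :=
      e.symm.toLinearMap ∘ₗ (f.codRestrict _ hr)
    have hf' : ∀ x, ι (f' x) = f x := by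
      intro x
      have h1 : e (f' x) = f.codRestrict _ hr x := e.apply_symm_apply _
      exact congrArg Subtype.val h1
    obtain ⟨g, hg⟩ := h f'
    refine ⟨g, ?_⟩
    ext x
    have h1 := LinearMap.congr_fun hg x
    rw [← hf' x, ← h1]
    rfl
  · intro h f
    obtain ⟨g, hg⟩ := h (ι ∘ₗ f) (by
      ext x
      exact (hex _).2 ⟨f x, rfl⟩)
    refine ⟨g, ?_⟩
    ext x
    apply hι
    exact LinearMap.congr_fun hg x

/-- **degreewise criterion.** -/
theorem succ_iff (i : ℕ) : ∀ {Y : Type u} [AddCommGroup Y] [Module R Y] (s : CoRes R Y),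
    E0 R X Y (i + 1) ↔
    ∀ f : X →ₗ[R] s.I (i + 1), s.d (i + 1) ∘ₗ f = 0 → ∃ g : X →ₗ[R] s.I i, s.d i ∘ₗ g = f := by
  induction i with
  | zero => intro Y _ _ s; exact s.one_iff
  | succ i ih =>
    intro Y _ _ s
    rw [s.ext_succ_iff_syz i]
    exact ih s.shift

theorem zero_iff' : E0 R X Y 0 ↔ ∀ f : X →ₗ[R] s.I 0, s.d 0 ∘ₗ f = 0 → f = 0 := by
  rw [zero_iff]
  constructor
  · intro h f hf
    have hr : ∀ x, f x ∈ LinearMap.range s.η := by
      intro x
      obtain ⟨y, hy⟩ := (s.h0 (f x)).1 (LinearMap.congr_fun hf x)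
      exact ⟨y, hy⟩
    let e := LinearEquiv.ofInjective s.η s.hη
    let f' : X →ₗ[R] Y := e.symm.toLinearMap ∘ₗ (f.codRestrict _ hr)
    have hf' : ∀ x, s.η (f' x) = f x := by
      intro x
      have h1 : e (f' x) = f.codRestrict _ hr x := e.apply_symm_apply _
      exact congrArg Subtype.val h1
    ext x
    rw [← hf' x, h f', LinearMap.zero_apply, map_zero, LinearMap.zero_apply]
  · intro h f
    have h1 := h (s.η ∘ₗ f) (by
      ext x
      exact s.h0.apply_apply_eq_zero (f x))
    ext x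
    apply s.hη
    rw [LinearMap.zero_apply, map_zero]
    exact LinearMap.congr_fun h1 x

end CoRes

end cores

/-! ### the dual module -/

section dual

variable (K : Type u) [Field K] {A : Type u} [Ring A] [Algebra K A]

/-- the `K`-dual of a left `A`-module, a right `A`-module -/
def Dl (X : Type u) [AddCommGroup X] [Module K X] : Type u := X →ₗ[K] K

variable {X Y Z : Type u} [AddCommGroup X] [Module K X] [AddCommGroup Y] [Module K Y]
  [AddCommGroup Z] [Module K Z]

instance : AddCommGroup (Dl K X) := inferInstanceAs (AddCommGroup (X →ₗ[K] K))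
instance : Module K (Dl K X) := inferInstanceAs (Module K (X →ₗ[K] K))
instance : FunLike (Dl K X) X K := inferInstanceAs (FunLike (X →ₗ[K] K) X K)

variable {K}

theorem Dl.ext {φ ψ : Dl K X} (h : ∀ x, φ x = ψ x) : φ = ψ := LinearMap.ext h

@[simp] theorem Dl.add_apply (φ ψ : Dl K X) (x : X) : (φ + ψ) x = φ x + ψ x := rfl
@[simp] theorem Dl.zero_apply (x : X) : (0 : Dl K X) x = 0 := rfl
@[simp] theorem Dl.ksmul_apply (c : K) (φ : Dl K X) (x : X) : (c • φ) x = c • φ x := rfl
theorem Dl.map_add (φ : Dl K X) (x y : X) : φ (x + y) = φ x + φ y := LinearMap.map_add φ x y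
theorem Dl.map_zero (φ : Dl K X) : φ 0 = 0 := LinearMap.map_zero φ
theorem Dl.map_ksmul (φ : Dl K X) (c : K) (x : X) : φ (c • x) = c • φ x := LinearMap.map_smul φ c x

variable [Module A X] [IsScalarTower K A X] [Module A Y] [IsScalarTower K A Y]
  [Module A Z] [IsScalarTower K A Z]

/-- multiplication by `a` as a `K`-linear map -/
def lm (X : Type u) [AddCommGroup X] [Module K X] [Module A X] [IsScalarTower K A X] (a : A) :
    X →ₗ[K] X where
  toFun x := a • x
  map_add' x y := smul_add a x y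
  map_smul' c x := by
    rw [RingHom.id_apply, ← IsScalarTower.algebraMap_smul A c x,
      ← IsScalarTower.algebraMap_smul A c (a • x), smul_smul, smul_smul, Algebra.commutes]

instance : Module Aᵐᵒᵖ (Dl K X) where
  smul a φ := (show X →ₗ[K] K from φ) ∘ₗ lm X a.unop
  one_smul φ := Dl.ext fun x => by
    show φ ((1 : A) • x) = φ x
    rw [one_smul]
  mul_smul a b φ := Dl.ext fun x => by
    show φ ((b.unop * a.unop) • x) = φ (b.unop • (a.unop • x))
    rw [mul_smul]
  smul_zero a := Dl.ext fun x => rfl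
  smul_add a φ ψ := Dl.ext fun x => rfl
  add_smul a b φ := Dl.ext fun x => by
    show φ ((a.unop + b.unop) • x) = φ (a.unop • x) + φ (b.unop • x)
    rw [add_smul, Dl.map_add]
  zero_smul φ := Dl.ext fun x => by
    show φ ((0 : A) • x) = 0
    rw [zero_smul, Dl.map_zero]

theorem Dl.smul_apply (a : Aᵐᵒᵖ) (φ : Dl K X) (x : X) : (a • φ) x = φ (a.unop • x) := rfl

instance : IsScalarTower K Aᵐᵒᵖ (Dl K X) where
  smul_assoc c a φ := Dl.ext fun x => by
    rw [Dl.smul_apply, Dl.ksmul_apply, Dl.smul_apply, MulOpposite.unop_smul, smul_assoc,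
      Dl.map_ksmul]

variable (K) in
/-- `K`-linearity of `A`-linear maps -/
def kl (f : X →ₗ[A] Y) : X →ₗ[K] Y where
  toFun := f
  map_add' := f.map_add
  map_smul' c x := by
    rw [RingHom.id_apply, ← IsScalarTower.algebraMap_smul A c x, f.map_smul,
      IsScalarTower.algebraMap_smul]

variable (K) in
/-- the dual map -/
def dm (f : X →ₗ[A] Y) : Dl K Y →ₗ[Aᵐᵒᵖ] Dl K X where
  toFun φ := (show Y →ₗ[K] K from φ) ∘ₗ kl K f
  map_add' _ _ := rfl
  map_smul' a φ := Dl.ext fun x => by
    show φ (a.unop • f x) = φ (f (a.unop • x))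
    rw [f.map_smul]

theorem dm_apply (f : X →ₗ[A] Y) (φ : Dl K Y) (x : X) : dm K f φ x = φ (f x) := rfl

theorem dm_comp (f : X →ₗ[A] Y) (g : Y →ₗ[A] Z) : dm K (g ∘ₗ f) = dm K f ∘ₗ dm K g := rfl

theorem dm_zero : dm K (0 : X →ₗ[A] Y) = 0 := by
  ext φ
  exact Dl.ext fun x => Dl.map_zero φ

theorem dm_id : dm K (LinearMap.id : X →ₗ[A] X) = LinearMap.id := rfl

/-- extension of functionals -/
theorem exists_extend (W : Submodule K X) (φ : W →ₗ[K] K) :
    ∃ ψ : X →ₗ[K] K, ψ ∘ₗ W.subtype = φ := LinearMap.exists_extend φ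

theorem dm_surj {f : X →ₗ[A] Y} (hf : Function.Injective f) : Function.Surjective (dm K f) := by
  intro φ
  obtain ⟨g, hg⟩ := LinearMap.exists_leftInverse_of_injective (kl K f)
    (LinearMap.ker_eq_bot.2 hf)
  refine ⟨(show X →ₗ[K] K from φ) ∘ₗ g, Dl.ext fun x => ?_⟩
  show φ (g (f x)) = φ x
  have h1 := LinearMap.congr_fun hg x
  exact congrArg φ h1

theorem dm_inj {f : X →ₗ[A] Y} (hf : Function.Surjective f) : Function.Injective (dm K f) := by
  intro φ ψ h
  apply Dl.ext
  intro y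
  obtain ⟨x, rfl⟩ := hf y
  exact congrArg (fun χ : Dl K X => χ x) h

theorem dm_exact {f : X →ₗ[A] Y} {g : Y →ₗ[A] Z} (h : Function.Exact f g) :
    Function.Exact (dm K g) (dm K f) := by
  intro φ
  constructor
  · intro hφ
    have hk : LinearMap.ker (kl K g) ≤ LinearMap.ker (show Y →ₗ[K] K from φ) := by
      intro y hy
      obtain ⟨x, rfl⟩ := (h y).1 hy
      exact congrArg (fun χ : Dl K X => χ x) hφ
    -- factor through the range
    let φ' : (Y ⧸ LinearMap.ker (kl K g)) →ₗ[K] K := (LinearMap.ker (kl K g)).liftQ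
      (show Y →ₗ[K] K from φ) hk
    obtain ⟨ψ, hψ⟩ := LinearMap.exists_extend
      (p := LinearMap.range (kl K g)) (φ' ∘ₗ (kl K g).quotKerEquivRange.symm.toLinearMap)
    refine ⟨ψ, Dl.ext fun y => ?_⟩
    have h1 := LinearMap.congr_fun hψ ((kl K g).quotKerEquivRange (Submodule.Quotient.mk y))
    simp only [LinearMap.comp_apply, LinearEquiv.coe_coe, LinearEquiv.symm_apply_apply] at h1
    exact h1
  · rintro ⟨ψ, rfl⟩
    apply Dl.ext
    intro x
    show ψ (g (f x)) = 0
    rw [h.apply_apply_eq_zero, Dl.map_zero]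

/-- `Dl` of a finite free module is injective -/
theorem dl_injective (n : ℕ) : Module.Injective Aᵐᵒᵖ (Dl K (Fin n → A)) := by
  constructor
  intro P Q _ _ _ _ i hi f
  letI : Module K P := Module.compHom P (algebraMap K Aᵐᵒᵖ)
  letI : Module K Q := Module.compHom Q (algebraMap K Aᵐᵒᵖ)
  haveI : IsScalarTower K Aᵐᵒᵖ P := ⟨fun c a x => by
    show (c • a) • x = (algebraMap K Aᵐᵒᵖ c) • (a • x)
    rw [Algebra.smul_def, mul_smul]⟩
  haveI : IsScalarTower K Aᵐᵒᵖ Q := ⟨fun c a x => by
    show (c • a) • x = (algebraMap K Aᵐᵒᵖ c) • (a • x)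
    rw [Algebra.smul_def, mul_smul]⟩
  obtain ⟨g, hg⟩ := LinearMap.exists_leftInverse_of_injective (kl (A := Aᵐᵒᵖ) K i)
    (LinearMap.ker_eq_bot.2 hi)
  -- the functionals `p ↦ f p (e_j)`
  let ev : Fin n → P →ₗ[K] K := fun j =>
    { toFun := fun p => f p (Pi.single j 1)
      map_add' := fun p q => by rw [map_add]; rfl
      map_smul' := fun c p => by
        show f ((algebraMap K Aᵐᵒᵖ c) • p) (Pi.single j 1) = c • f p (Pi.single j 1)
        rw [f.map_smul, Dl.smul_apply, ← Dl.map_ksmul]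
        congr 1
        show (algebraMap K A c) • (Pi.single j (1 : A) : Fin n → A) = c • Pi.single j (1 : A)
        rw [algebraMap_smul] }
  refine ⟨{ toFun := fun q =>
              { toFun := fun v => ∑ j, ev j (g (op (v j) • q))
                map_add' := fun v w => by
                  rw [← Finset.sum_add_distrib]
                  refine Finset.sum_congr rfl fun j _ => ?_
                  rw [Pi.add_apply, MulOpposite.op_add, add_smul, map_add, map_add]
                map_smul' := fun c v => by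
                  rw [RingHom.id_apply, Finset.smul_sum]
                  refine Finset.sum_congr rfl fun j _ => ?_
                  rw [Pi.smul_apply, op_smul, smul_assoc, map_smul, map_smul] }
            map_add' := fun q r => Dl.ext fun v => by
              show (∑ j, ev j (g (op (v j) • (q + r)))) = (∑ j, ev j (g (op (v j) • q))) +
                ∑ j, ev j (g (op (v j) • r))
              simp only [smul_add, map_add, Finset.sum_add_distrib]
            map_smul' := fun a q => Dl.ext fun v => by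
              show (∑ j, ev j (g (op (v j) • (a • q)))) = ∑ j, ev j (g (op ((a.unop • v) j) • q))
              refine Finset.sum_congr rfl fun j _ => ?_
              rw [smul_smul]
              rfl }, ?_⟩
  intro p
  apply Dl.ext
  intro v
  show (∑ j, ev j (g (op (v j) • i p))) = f p v
  have h1 : ∀ j, g (op (v j) • i p) = op (v j) • p := by
    intro j
    rw [← i.map_smul]
    exact LinearMap.congr_fun hg _
  simp only [h1]
  have h2 : ∀ j, ev j (op (v j) • p) = f p (v j • Pi.single j 1) := by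
    intro j
    show f (op (v j) • p) (Pi.single j 1) = _
    rw [f.map_smul]
    rfl
  simp only [h2]
  have h3 : v = ∑ j, v j • (Pi.single j (1 : A) : Fin n → A) := by
    funext j
    simp [Finset.sum_apply, Pi.single_apply]
  conv_rhs => rw [h3]
  exact (map_sum (show (Fin n → A) →ₗ[K] K from f p) _ _).symm

/-! ### reflexivity -/

section refl

variable [FiniteDimensional K Y]

omit [FiniteDimensional K Y] in
theorem dm_injective {f g : X →ₗ[A] Y} (h : dm K f = dm K g) : f = g := by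
  ext x
  have h1 : ∀ φ : Y →ₗ[K] K, φ (f x - g x) = 0 := by
    intro φ
    have h2 := congrArg (fun χ : Dl K X => χ x) (LinearMap.congr_fun h (show Dl K Y from φ))
    have h3 : φ (f x) = φ (g x) := h2
    rw [map_sub, h3, sub_self]
  have h4 := (Module.forall_dual_apply_eq_zero_iff K (f x - g x)).1 h1
  exact sub_eq_zero.1 h4

/-- every map of duals is a dual -/
theorem dm_surjective (F : Dl K Y →ₗ[Aᵐᵒᵖ] Dl K X) : ∃ f : X →ₗ[A] Y, dm K f = F := by
  let F' : Module.Dual K Y →ₗ[K] Module.Dual K X :=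
    { toFun := fun φ => (show X →ₗ[K] K from F φ)
      map_add' := fun φ ψ => F.map_add φ ψ
      map_smul' := fun c φ => by
        have h1 : (c • φ : Module.Dual K Y) = (show Dl K Y from ((algebraMap K Aᵐᵒᵖ c) •
            (show Dl K Y from φ))) := by
          apply LinearMap.ext
          intro y
          show c • φ y = φ ((algebraMap K A c) • y)
          rw [algebraMap_smul, map_smul]
        rw [h1]
        have h2 := F.map_smul (algebraMap K Aᵐᵒᵖ c) (show Dl K Y from φ)
        rw [show F ((algebraMap K Aᵐᵒᵖ c) • (show Dl K Y from φ)) = _ from h2]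
        apply LinearMap.ext
        intro x
        show F φ ((algebraMap K A c) • x) = c • F φ x
        rw [algebraMap_smul, Dl.map_ksmul] }
  -- the transpose, corrected by reflexivity
  let e := Module.evalEquiv K Y
  let f0 : X →ₗ[K] Y := e.symm.toLinearMap ∘ₗ F'.dualMap ∘ₗ Module.Dual.eval K X
  have hf : ∀ (x : X) (φ : Module.Dual K Y), φ (f0 x) = F φ x := by
    intro x φ
    have h1 : e (f0 x) = F'.dualMap (Module.Dual.eval K X x) := e.apply_symm_apply _
    have h2 := LinearMap.congr_fun h1 φ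
    exact h2
  refine ⟨{ toFun := f0
            map_add' := map_add f0
            map_smul' := fun a x => ?_ }, ?_⟩
  · rw [RingHom.id_apply, ← sub_eq_zero, ← Module.forall_dual_apply_eq_zero_iff K]
    intro φ
    have h1 : φ (a • f0 x) = F φ (a • x) := by
      have h2 := hf x (show Y →ₗ[K] K from (op a • (show Dl K Y from φ)))
      have h3 : F (op a • (show Dl K Y from φ)) = op a • F φ := F.map_smul (op a) _
      rw [show F (show Y →ₗ[K] K from (op a • (show Dl K Y from φ))) = op a • F φ from h3] at h2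
      exact h2
    rw [map_sub, hf, h1, sub_self]
  · ext φ
    exact Dl.ext fun x => hf x φ

end refl

/-- dualising as an additive map -/
def dmHom (K : Type u) [Field K] {A : Type u} [Ring A] [Algebra K A]
    (X Y : Type u) [AddCommGroup X] [Module K X] [Module A X] [IsScalarTower K A X]
    [AddCommGroup Y] [Module K Y] [Module A Y] [IsScalarTower K A Y] :
    (X →ₗ[A] Y) →+ (Dl K Y →ₗ[Aᵐᵒᵖ] Dl K X) where
  toFun f := dm K f
  map_zero' := dm_zero
  map_add' f g := by
    ext φ
    exact Dl.ext fun x => Dl.map_add φ _ _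

/-- the additive equivalence `Hom_A(X, Y) ≃ Hom(DY, DX)` -/
noncomputable def dmEquiv (K : Type u) [Field K] {A : Type u} [Ring A] [Algebra K A]
    (X Y : Type u) [AddCommGroup X] [Module K X] [Module A X] [IsScalarTower K A X]
    [AddCommGroup Y] [Module K Y] [Module A Y] [IsScalarTower K A Y] [FiniteDimensional K Y] :
    (X →ₗ[A] Y) ≃+ (Dl K Y →ₗ[Aᵐᵒᵖ] Dl K X) :=
  AddEquiv.ofBijective (dmHom K X Y) ⟨fun _ _ h => dm_injective h, fun F => dm_surjective F⟩

theorem dmEquiv_apply {X Y : Type u} [AddCommGroup X] [Module K X] [Module A X]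
    [IsScalarTower K A X] [AddCommGroup Y] [Module K Y] [Module A Y] [IsScalarTower K A Y]
    [FiniteDimensional K Y] (f : X →ₗ[A] Y) : dmEquiv K X Y f = dm K f := rfl

end dual

/-! ### the duality theorem -/

section main

open Syz700

variable {K : Type u} [Field K] {A : Type u} [Ring A] [Algebra K A]

/-- a resolution by finite free modules -/
structure FRes (A : Type u) [Ring A] (X : Type u) [AddCommGroup X] [Module A X] where
  n : ℕ → ℕ
  d : ∀ j, (Fin (n (j + 1)) → A) →ₗ[A] (Fin (n j) → A)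
  ε : (Fin (n 0) → A) →ₗ[A] X
  hε : Function.Surjective ε
  h0 : Function.Exact (d 0) ε
  ex : ∀ j, Function.Exact (d (j + 1)) (d j)

/-- as a `Res` -/
def FRes.res {X : Type u} [AddCommGroup X] [Module A X] (s : FRes A X) : Res A X where
  P j := Fin (s.n j) → A
  pj j := inferInstance
  d := s.d
  ε := s.ε
  hε := s.hε
  h0 := s.h0
  ex := s.ex

/-- the dual injective coresolution -/
noncomputable def FRes.cores {X : Type u} [AddCommGroup X] [Module A X] [Module K X]
    [IsScalarTower K A X] (s : FRes A X) : CoRes Aᵐᵒᵖ (Dl K X) where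
  I j := Dl K (Fin (s.n j) → A)
  ij j := dl_injective (s.n j)
  d j := dm K (s.d j)
  η := dm K s.ε
  hη := dm_inj s.hε
  h0 := dm_exact s.h0
  ex j := dm_exact (s.ex j)

section free

variable [IsNoetherianRing A] (M : FM A)

/-- the cover of a syzygy -/
noncomputable def cv (j : ℕ) : (Fin (Om M (j + 1)).n → A) →ₗ[A] (Om M j).syz.X :=
  (Om M (j + 1)).cov

theorem cv_surj (j : ℕ) : Function.Surjective (cv M j) := (Om M (j + 1)).cov_surj

theorem cv_zero (j : ℕ) (x : Fin (Om M (j + 1)).n → A) (h : cv M j x = 0) :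
    ∃ y : (Om M (j + 1)).syz.X, (Om M (j + 1)).inc y = x := (Om M (j + 1)).exists_inc x h

theorem cv_inc (j : ℕ) (y : (Om M (j + 1)).syz.X) : cv M j ((Om M (j + 1)).inc y) = 0 :=
  LinearMap.congr_fun (Om M (j + 1)).cov_inc y

/-- the free resolution of a finite module -/
noncomputable def freeRes : FRes A M.X where
  n j := (Om M j).n
  d j := (Om M j).inc ∘ₗ cv M j
  ε := M.cov
  hε := M.cov_surj
  h0 := by
    intro x
    constructor
    · intro h
      obtain ⟨y, hy⟩ := M.exists_inc x h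
      obtain ⟨z, hz⟩ := cv_surj M 0 y
      refine ⟨z, ?_⟩
      rw [LinearMap.comp_apply, hz]
      exact hy
    · rintro ⟨z, rfl⟩
      exact LinearMap.congr_fun M.cov_inc _
  ex j := by
    intro x
    constructor
    · intro h
      have h1 : cv M j x = 0 :=
        (Om M j).inc_inj (h.trans (map_zero _).symm)
      obtain ⟨y, hy⟩ := cv_zero M j x h1
      obtain ⟨z, hz⟩ := cv_surj M (j + 1) y
      refine ⟨z, ?_⟩
      rw [LinearMap.comp_apply, hz]
      exact hy
    · rintro ⟨z, rfl⟩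
      rw [LinearMap.comp_apply, LinearMap.comp_apply, cv_inc, map_zero]

end free

/-- duality from a finite free resolution -/
theorem dual_iff_of_res (X Y : Type u) [AddCommGroup X] [Module K X] [Module A X]
    [IsScalarTower K A X] [AddCommGroup Y] [Module K Y] [Module A Y]
    [IsScalarTower K A Y] [FiniteDimensional K Y] (s : FRes A X) (i : ℕ) :
    E0 A X Y i ↔ E0 Aᵐᵒᵖ (Dl K Y) (Dl K X) i := by
  let t : CoRes Aᵐᵒᵖ (Dl K X) := s.cores
  let θ : ∀ j, ((Fin (s.n j) → A) →ₗ[A] Y) ≃+ (Dl K Y →ₗ[Aᵐᵒᵖ] Dl K (Fin (s.n j) → A)) :=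
    fun j => dmEquiv K _ Y
  have hθ : ∀ (j : ℕ) (g : (Fin (s.n j) → A) →ₗ[A] Y),
      dm K (s.d j) ∘ₗ (θ j g) = θ (j + 1) (g ∘ₗ s.d j) := fun j g => rfl
  cases i with
  | zero =>
    rw [s.res.zero_iff', t.zero_iff']
    show (∀ f : (Fin (s.n 0) → A) →ₗ[A] Y, f ∘ₗ s.d 0 = 0 → f = 0) ↔
      (∀ f : Dl K Y →ₗ[Aᵐᵒᵖ] Dl K (Fin (s.n 0) → A), dm K (s.d 0) ∘ₗ f = 0 → f = 0)
    constructor
    · intro h f hf
      obtain ⟨g, rfl⟩ := (θ 0).surjective f
      rw [hθ] at hf
      rw [h g ((θ 1).injective (hf.trans (map_zero _).symm)), map_zero]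
    · intro h f hf
      have h1 : dm K (s.d 0) ∘ₗ (θ 0 f) = 0 := by rw [hθ, hf, map_zero]
      exact (θ 0).injective ((h _ h1).trans (map_zero _).symm)
  | succ i =>
    rw [s.res.succ_iff i, t.succ_iff i]
    show (∀ f : (Fin (s.n (i + 1)) → A) →ₗ[A] Y, f ∘ₗ s.d (i + 1) = 0 →
        ∃ g : (Fin (s.n i) → A) →ₗ[A] Y, g ∘ₗ s.d i = f) ↔
      (∀ f : Dl K Y →ₗ[Aᵐᵒᵖ] Dl K (Fin (s.n (i + 1)) → A), dm K (s.d (i + 1)) ∘ₗ f = 0 →
        ∃ g : Dl K Y →ₗ[Aᵐᵒᵖ] Dl K (Fin (s.n i) → A), dm K (s.d i) ∘ₗ g = f)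
    constructor
    · intro h f hf
      obtain ⟨g, rfl⟩ := (θ (i + 1)).surjective f
      rw [hθ] at hf
      obtain ⟨g', hg'⟩ := h g ((θ (i + 1 + 1)).injective (hf.trans (map_zero _).symm))
      exact ⟨θ i g', by rw [hθ, hg']⟩
    · intro h f hf
      have h1 : dm K (s.d (i + 1)) ∘ₗ (θ (i + 1) f) = 0 := by rw [hθ, hf, map_zero]
      obtain ⟨g, hg⟩ := h _ h1
      obtain ⟨g', rfl⟩ := (θ i).surjective g
      rw [hθ] at hg
      exact ⟨g', (θ (i + 1)).injective hg⟩

/-- **`Ext_A^i(X, Y) = 0 ↔ Ext_{A^op}^i(DY, DX) = 0`** -/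
theorem dual_iff [IsNoetherianRing A] (X Y : Type u) [AddCommGroup X] [Module K X] [Module A X]
    [IsScalarTower K A X] [Module.Finite A X] [AddCommGroup Y] [Module K Y] [Module A Y]
    [IsScalarTower K A Y] [FiniteDimensional K Y] (i : ℕ) :
    E0 A X Y i ↔ E0 Aᵐᵒᵖ (Dl K Y) (Dl K X) i :=
  dual_iff_of_res X Y (freeRes ⟨X⟩) i

end main

end Crest.Agent.R186.Dual700
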