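import Mathlib
import Crest.Prelude.Def_GorProjVanishing
import Crest.Agent.R186.Sym_234

/-!
Row 186 (helper355): a module in perfect duality with a right module, both with vanishing
positive `Ext` against the ring, is Gorenstein-projective (in the literal sense of the prelude).
-/

set_option autoImplicit false
set_option linter.unusedSectionVars false
set_option linter.style.haveILetI false

universe v u

open CategoryTheory CategoryTheory.Abelian Crest.AlgebraR MulOpposite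

namespace Crest.Agent.R186.GP355

open Syz700 Sym234

section two

variable {A : Type u} [Ring A]

theorem gproj_two (t : Two A)
    (hE : ∀ (n : ℤ) (φ : t.X (n + 1) →ₗ[A] A), ∃ ψ : t.P n →ₗ[A] A, ∀ x, ψ (t.f n x) = φ x) :
    IsGorensteinProjective A (t.X 0) := by
  refine ⟨t.P, t.gP, t.mP, fun n => t.f n ∘ₗ t.g (n + 1), fun n => ⟨t.fin n, t.proj n⟩, ?_, ?_, ?_⟩
  · intro n y
    constructor
    · intro hy
      have h1 : t.g (n + 1) y = 0 := by
        apply t.fi n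
        rw [map_zero]
        exact hy
      obtain ⟨x, rfl⟩ := (t.ex (n + 1) y).1 h1
      obtain ⟨z, rfl⟩ := t.gs (n + 1 + 1) x
      exact ⟨z, rfl⟩
    · rintro ⟨z, rfl⟩
      show t.f n (t.g (n + 1) (t.f (n + 1) (t.g (n + 1 + 1) z))) = 0
      rw [(t.ex (n + 1) _).2 ⟨_, rfl⟩, map_zero]
  · intro n φ
    constructor
    · intro hφ
      have h0 : φ ∘ₗ (t.f (n + 1) ∘ₗ t.g (n + 1 + 1)) = 0 := hφ
      have h1 : ∀ x, φ (t.f (n + 1) x) = 0 := by
        intro x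
        obtain ⟨z, rfl⟩ := t.gs (n + 1 + 1) x
        exact LinearMap.congr_fun h0 z
      have hker : LinearMap.ker (t.g (n + 1)) ≤ LinearMap.ker φ := by
        intro y hy
        obtain ⟨x, rfl⟩ := (t.ex (n + 1) y).1 hy
        exact h1 x
      let e := LinearMap.quotKerEquivOfSurjective (t.g (n + 1)) (t.gs (n + 1))
      let φ' : t.X (n + 1) →ₗ[A] A := ((LinearMap.ker (t.g (n + 1))).liftQ φ hker) ∘ₗ
        e.symm.toLinearMap
      have h2 : ∀ y, φ' (t.g (n + 1) y) = φ y := by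
        intro y
        have h3 : e.symm (t.g (n + 1) y) = Submodule.Quotient.mk y := by
          rw [LinearEquiv.symm_apply_eq]
          rfl
        show (LinearMap.ker (t.g (n + 1))).liftQ φ hker (e.symm (t.g (n + 1) y)) = φ y
        rw [h3]
        rfl
      obtain ⟨ψ, hψ⟩ := hE n φ'
      refine ⟨ψ, LinearMap.ext fun y => ?_⟩
      show ψ (t.f n (t.g (n + 1) y)) = φ y
      rw [hψ, h2]
    · rintro ⟨ψ, rfl⟩
      refine LinearMap.ext fun z => ?_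
      show ψ (t.f n (t.g (n + 1) (t.f (n + 1) (t.g (n + 1 + 1) z)))) = 0
      rw [(t.ex (n + 1) _).2 ⟨_, rfl⟩, map_zero, map_zero]
  · have hk : LinearMap.range (t.f 0 ∘ₗ t.g (0 + 1)) = LinearMap.ker (t.g 0) := by
      ext y
      constructor
      · rintro ⟨z, rfl⟩
        exact (t.ex 0 _).2 ⟨_, rfl⟩
      · intro hy
        obtain ⟨x, rfl⟩ := (t.ex 0 y).1 hy
        obtain ⟨z, rfl⟩ := t.gs (0 + 1) x
        exact ⟨z, rfl⟩
    exact ⟨((Submodule.quotEquivOfEq _ _ hk).trans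
      (LinearMap.quotKerEquivOfSurjective (t.g 0) (t.gs 0))).symm⟩

end two

section syz

variable {A : Type u} [Ring A] [IsNoetherianRing A]

/-- the inclusion of the next syzygy, with syntactically better types -/
noncomputable def incO (M : FM A) (j : ℕ) : (Om M (j + 1)).X →ₗ[A] (Fin (Om M j).n → A) :=
  (Om M j).inc

theorem incO_inj (M : FM A) (j : ℕ) : Function.Injective (incO M j) := (Om M j).inc_inj

theorem cov_incO (M : FM A) (j : ℕ) (x : (Om M (j + 1)).X) : (Om M j).cov (incO M j x) = 0 :=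
  LinearMap.congr_fun (Om M j).cov_inc x

theorem exists_incO (M : FM A) (j : ℕ) (y : Fin (Om M j).n → A) (hy : (Om M j).cov y = 0) :
    ∃ x, incO M j x = y := (Om M j).exists_inc y hy

theorem lift_incO (M : FM A) (Y : Type u) [AddCommGroup Y] [Module A Y]
    (h : ∀ i : ℕ, 0 < i → Subsingleton (Ext (ModuleCat.of A M.X) (ModuleCat.of A Y) i)) (j : ℕ)
    (g : (Om M (j + 1)).X →ₗ[A] Y) :
    ∃ f : (Fin (Om M j).n → A) →ₗ[A] Y, ∀ x, f (incO M j x) = g x := by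
  obtain ⟨f, hf⟩ := lift_Om M Y h j g
  exact ⟨f, fun x => LinearMap.congr_fun hf x⟩

/-- factor a map through the free cover -/
theorem desc (M : FM A) (j : ℕ) (Y : Type u) [AddCommGroup Y] [Module A Y]
    (ψ : (Fin (Om M j).n → A) →ₗ[A] Y) (hψ : ∀ x, ψ (incO M j x) = 0) :
    ∃ χ : (Om M j).X →ₗ[A] Y, ∀ q, χ ((Om M j).cov q) = ψ q := by
  have hker : LinearMap.ker (Om M j).cov ≤ LinearMap.ker ψ := by
    intro q hq
    obtain ⟨x, rfl⟩ := exists_incO M j q hq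
    exact hψ x
  let e := LinearMap.quotKerEquivOfSurjective (Om M j).cov (Om M j).cov_surj
  refine ⟨((LinearMap.ker (Om M j).cov).liftQ ψ hker) ∘ₗ e.symm.toLinearMap, fun q => ?_⟩
  have h3 : e.symm ((Om M j).cov q) = Submodule.Quotient.mk q := by
    rw [LinearEquiv.symm_apply_eq]
    rfl
  show (LinearMap.ker (Om M j).cov).liftQ ψ hker (e.symm ((Om M j).cov q)) = ψ q
  rw [h3]
  rfl

end syz

section dual

variable {A : Type u} [Ring A]

/-- precomposition, as an `A`-linear map between duals of right modules -/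
def pre {M N : Type u} [AddCommGroup M] [AddCommGroup N] [Module Aᵐᵒᵖ M] [Module Aᵐᵒᵖ N]
    (h : N →ₗ[Aᵐᵒᵖ] M) : (M →ₗ[Aᵐᵒᵖ] A) →ₗ[A] (N →ₗ[Aᵐᵒᵖ] A) where
  toFun φ := φ ∘ₗ h
  map_add' _ _ := rfl
  map_smul' _ _ := rfl

theorem pre_apply {M N : Type u} [AddCommGroup M] [AddCommGroup N] [Module Aᵐᵒᵖ M]
    [Module Aᵐᵒᵖ N] (h : N →ₗ[Aᵐᵒᵖ] M) (φ : M →ₗ[Aᵐᵒᵖ] A) (x : N) : pre h φ x = φ (h x) := rfl

/-- evaluation -/
def ev {M : Type u} [AddCommGroup M] [Module Aᵐᵒᵖ M] (x : M) : (M →ₗ[Aᵐᵒᵖ] A) →ₗ[A] A where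
  toFun φ := φ x
  map_add' _ _ := rfl
  map_smul' _ _ := rfl

theorem ev_apply {M : Type u} [AddCommGroup M] [Module Aᵐᵒᵖ M] (x : M) (φ : M →ₗ[Aᵐᵒᵖ] A) :
    ev x φ = φ x := rfl

/-- the coordinate functionals -/
def eps {n : ℕ} (i : Fin n) : (Fin n → Aᵐᵒᵖ) →ₗ[Aᵐᵒᵖ] A where
  toFun q := unop (q i)
  map_add' _ _ := rfl
  map_smul' _ _ := rfl

theorem eps_apply {n : ℕ} (i : Fin n) (q : Fin n → Aᵐᵒᵖ) : eps i q = unop (q i) := rfl

theorem dual_eq {n : ℕ} (ψ : (Fin n → Aᵐᵒᵖ) →ₗ[Aᵐᵒᵖ] A) :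
    ψ = ∑ i, ψ (Pi.single i 1) • eps (A := A) i := by
  refine (Pi.basisFun Aᵐᵒᵖ (Fin n)).ext fun j => ?_
  rw [LinearMap.sum_apply, Pi.basisFun_apply]
  rw [Finset.sum_eq_single j]
  · rw [LinearMap.smul_apply, eps_apply, Pi.single_eq_same]
    simp
  · intro i _ hi
    rw [LinearMap.smul_apply, eps_apply, Pi.single_eq_of_ne hi]
    simp
  · intro h
    exact absurd (Finset.mem_univ j) h

/-- free right modules are reflexive -/
theorem free_refl {n : ℕ} (Φ : ((Fin n → Aᵐᵒᵖ) →ₗ[Aᵐᵒᵖ] A) →ₗ[A] A) :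
    ∃ q : Fin n → Aᵐᵒᵖ, ∀ ψ, Φ ψ = ψ q := by
  refine ⟨fun i => op (Φ (eps i)), fun ψ => ?_⟩
  conv_lhs => rw [dual_eq ψ]
  conv_rhs => rw [dual_eq ψ]
  rw [map_sum, LinearMap.sum_apply]
  refine Finset.sum_congr rfl fun i _ => ?_
  rw [map_smul, LinearMap.smul_apply, eps_apply, unop_op]

/-- the dual of a free right module of finite rank is a free left module -/
noncomputable def dualEquiv (n : ℕ) :
    (Fin n → A) ≃ₗ[A] ((Fin n → Aᵐᵒᵖ) →ₗ[Aᵐᵒᵖ] A) :=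
  (Pi.basisFun Aᵐᵒᵖ (Fin n)).constr A

theorem finite_dual (n : ℕ) : Module.Finite A ((Fin n → Aᵐᵒᵖ) →ₗ[Aᵐᵒᵖ] A) :=
  Module.Finite.equiv (dualEquiv (A := A) n)

theorem projective_dual (n : ℕ) : Module.Projective A ((Fin n → Aᵐᵒᵖ) →ₗ[Aᵐᵒᵖ] A) :=
  Module.Projective.of_equiv (dualEquiv (A := A) n)

end dual

section main

variable {A : Type u} [Ring A] [IsNoetherianRing A] [IsNoetherianRing Aᵐᵒᵖ]

variable (Z : FM A) (Y : FM Aᵐᵒᵖ) (β : Z.X →ₗ[A] (Y.X →ₗ[Aᵐᵒᵖ] A))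

/-- reflexivity of all syzygies of `Y` -/
theorem refl_Om (hs : Function.Surjective β)
    (hf : ∀ φ : Z.X →ₗ[A] A, ∃ y, ∀ z, φ z = β z y)
    (hi : ∀ y, (∀ z, β z y = 0) → y = 0)
    (eY : ∀ i : ℕ, 0 < i → Subsingleton (Ext (ModuleCat.of Aᵐᵒᵖ Y.X) (ModuleCat.of Aᵐᵒᵖ A) i))
    (j : ℕ) :
    (∀ φ : ((Om Y j).X →ₗ[Aᵐᵒᵖ] A) →ₗ[A] A, ∃ x, ∀ χ, φ χ = χ x) ∧
      (∀ x : (Om Y j).X, (∀ χ : (Om Y j).X →ₗ[Aᵐᵒᵖ] A, χ x = 0) → x = 0) := by
  induction j with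
  | zero =>
    constructor
    · intro φ
      obtain ⟨y, hy⟩ := hf (φ ∘ₗ β)
      refine ⟨y, fun χ => ?_⟩
      obtain ⟨z, rfl⟩ := hs χ
      exact hy z
    · intro y hy
      exact hi y fun z => hy (β z)
  | succ j ih =>
    obtain ⟨iha, ihb⟩ := ih
    constructor
    · intro φ
      obtain ⟨q, hq⟩ := free_refl (φ ∘ₗ pre (incO Y j))
      have h1 : (Om Y j).cov q = 0 := by
        apply ihb
        intro χ
        have h2 := hq (χ ∘ₗ (Om Y j).cov)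
        have h3 : pre (incO Y j) (χ ∘ₗ (Om Y j).cov) = 0 := by
          refine LinearMap.ext fun x => ?_
          rw [pre_apply]
          show χ ((Om Y j).cov (incO Y j x)) = 0
          rw [cov_incO, map_zero]
        rw [LinearMap.comp_apply, h3, map_zero] at h2
        exact h2.symm
      obtain ⟨x, hx⟩ := exists_incO Y j q h1
      refine ⟨x, fun χ => ?_⟩
      obtain ⟨ψ, hψ⟩ := lift_incO Y A eY j χ
      have h2 := hq ψ
      have h3 : pre (incO Y j) ψ = χ := LinearMap.ext hψ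
      rw [LinearMap.comp_apply, h3] at h2
      rw [h2, ← hx, hψ]
    · intro x hx
      apply incO_inj Y j
      rw [map_zero]
      funext i
      have h1 := hx (eps i ∘ₗ incO Y j)
      have h2 : unop (incO Y j x i) = 0 := h1
      exact (unop_eq_zero_iff _).1 h2

/-- the modules of the complete resolution -/
def XX : ℤ → Type u
  | Int.ofNat j => (Om Z j).X
  | Int.negSucc j => ((Om Y (j + 1)).X →ₗ[Aᵐᵒᵖ] A)

/-- the projectives of the complete resolution -/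
def PP : ℤ → Type u
  | Int.ofNat j => Fin (Om Z j).n → A
  | Int.negSucc j => ((Fin (Om Y j).n → Aᵐᵒᵖ) →ₗ[Aᵐᵒᵖ] A)

noncomputable instance gXX : ∀ j, AddCommGroup (XX Z Y j)
  | Int.ofNat j => inferInstanceAs (AddCommGroup (Om Z j).X)
  | Int.negSucc j => inferInstanceAs (AddCommGroup ((Om Y (j + 1)).X →ₗ[Aᵐᵒᵖ] A))

noncomputable instance mXX : ∀ j, Module A (XX Z Y j)
  | Int.ofNat j => inferInstanceAs (Module A (Om Z j).X)
  | Int.negSucc j => inferInstanceAs (Module A ((Om Y (j + 1)).X →ₗ[Aᵐᵒᵖ] A))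

noncomputable instance gPP : ∀ j, AddCommGroup (PP Z Y j)
  | Int.ofNat j => inferInstanceAs (AddCommGroup (Fin (Om Z j).n → A))
  | Int.negSucc j => inferInstanceAs (AddCommGroup ((Fin (Om Y j).n → Aᵐᵒᵖ) →ₗ[Aᵐᵒᵖ] A))

noncomputable instance mPP : ∀ j, Module A (PP Z Y j)
  | Int.ofNat j => inferInstanceAs (Module A (Fin (Om Z j).n → A))
  | Int.negSucc j => inferInstanceAs (Module A ((Fin (Om Y j).n → Aᵐᵒᵖ) →ₗ[Aᵐᵒᵖ] A))

theorem finPP : ∀ j, Module.Finite A (PP Z Y j)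
  | Int.ofNat j => inferInstanceAs (Module.Finite A (Fin (Om Z j).n → A))
  | Int.negSucc j => finite_dual (A := A) (Om Y j).n

theorem projPP : ∀ j, Module.Projective A (PP Z Y j)
  | Int.ofNat j => inferInstanceAs (Module.Projective A (Fin (Om Z j).n → A))
  | Int.negSucc j => projective_dual (A := A) (Om Y j).n

/-- the injections -/
noncomputable def ff : ∀ n : ℤ, XX Z Y (n + 1) →ₗ[A] PP Z Y n
  | Int.ofNat j => incO Z j
  | Int.negSucc 0 => pre Y.cov ∘ₗ β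
  | Int.negSucc (j + 1) => pre (Om Y (j + 1)).cov

/-- the surjections -/
noncomputable def gg : ∀ n : ℤ, PP Z Y n →ₗ[A] XX Z Y n
  | Int.ofNat j => (Om Z j).cov
  | Int.negSucc j => pre (incO Y j)

/-- surjectivity of precomposition detects zero -/
theorem pre_cov_inj (j : ℕ) : Function.Injective (pre (A := A) (Om Y j).cov) := by
  intro χ χ' h
  refine LinearMap.ext fun y => ?_
  obtain ⟨q, rfl⟩ := (Om Y j).cov_surj y
  exact LinearMap.congr_fun h q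

theorem ff_inj (hβ : Function.Injective β) : ∀ n : ℤ, Function.Injective (ff Z Y β n)
  | Int.ofNat j => incO_inj Z j
  | Int.negSucc 0 => fun _ _ h => hβ (pre_cov_inj Y 0 h)
  | Int.negSucc (j + 1) => pre_cov_inj Y (j + 1)

theorem gg_surj
    (eY : ∀ i : ℕ, 0 < i → Subsingleton (Ext (ModuleCat.of Aᵐᵒᵖ Y.X) (ModuleCat.of Aᵐᵒᵖ A) i)) :
    ∀ n : ℤ, Function.Surjective (gg Z Y n)
  | Int.ofNat j => (Om Z j).cov_surj
  | Int.negSucc j => fun χ => by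
    obtain ⟨ψ, hψ⟩ := lift_incO Y A eY j χ
    exact ⟨ψ, LinearMap.ext hψ⟩

theorem ex_fg (hs : Function.Surjective β) :
    ∀ (n : ℤ) (y : PP Z Y n), gg Z Y n y = 0 ↔ ∃ x, ff Z Y β n x = y
  | Int.ofNat j => fun y => ⟨fun h => exists_incO Z j y h, by
      rintro ⟨x, rfl⟩
      exact cov_incO Z j x⟩
  | Int.negSucc 0 => fun (y : (Fin (Om Y 0).n → Aᵐᵒᵖ) →ₗ[Aᵐᵒᵖ] A) => ⟨fun h => by
      obtain ⟨χ, hχ⟩ := desc Y 0 A y (fun x => LinearMap.congr_fun h x)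
      obtain ⟨z, rfl⟩ := hs χ
      exact ⟨z, LinearMap.ext hχ⟩, by
      rintro ⟨z, rfl⟩
      refine LinearMap.ext fun x => ?_
      show β z ((Om Y 0).cov (incO Y 0 x)) = 0
      rw [cov_incO]
      exact map_zero _⟩
  | Int.negSucc (j + 1) => fun (y : (Fin (Om Y (j + 1)).n → Aᵐᵒᵖ) →ₗ[Aᵐᵒᵖ] A) => ⟨fun h => by
      obtain ⟨χ, hχ⟩ := desc Y (j + 1) A y (fun x => LinearMap.congr_fun h x)
      exact ⟨χ, LinearMap.ext hχ⟩, by
      rintro ⟨z, rfl⟩
      refine LinearMap.ext fun x => ?_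
      let z' : (Om Y (j + 1)).X →ₗ[Aᵐᵒᵖ] A := z
      show z' ((Om Y (j + 1)).cov (incO Y (j + 1) x)) = 0
      rw [cov_incO]
      exact map_zero _⟩

theorem hE_ff (hs : Function.Surjective β)
    (hf : ∀ φ : Z.X →ₗ[A] A, ∃ y, ∀ z, φ z = β z y)
    (hi : ∀ y, (∀ z, β z y = 0) → y = 0)
    (eZ : ∀ i : ℕ, 0 < i → Subsingleton (Ext (ModuleCat.of A Z.X) (ModuleCat.of A A) i))
    (eY : ∀ i : ℕ, 0 < i → Subsingleton (Ext (ModuleCat.of Aᵐᵒᵖ Y.X) (ModuleCat.of Aᵐᵒᵖ A) i)) :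
    ∀ (n : ℤ) (φ : XX Z Y (n + 1) →ₗ[A] A), ∃ ψ : PP Z Y n →ₗ[A] A, ∀ x, ψ (ff Z Y β n x) = φ x
  | Int.ofNat j => fun φ => lift_incO Z A eZ j φ
  | Int.negSucc 0 => fun φ => by
    obtain ⟨y, hy⟩ := hf φ
    obtain ⟨q, hq⟩ := (Om Y 0).cov_surj y
    refine ⟨ev (A := A) q, fun x => ?_⟩
    have h1 : φ x = (β x : Y.X →ₗ[Aᵐᵒᵖ] A) y := hy x
    rw [h1, ← hq]
    rfl
  | Int.negSucc (j + 1) => fun φ => by
    obtain ⟨y, hy⟩ := (refl_Om Z Y β hs hf hi eY (j + 1)).1 φ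
    obtain ⟨q, hq⟩ := (Om Y (j + 1)).cov_surj y
    refine ⟨ev (A := A) q, fun x => ?_⟩
    let x' : (Om Y (j + 1)).X →ₗ[Aᵐᵒᵖ] A := x
    have h1 : φ x = x' y := hy x
    rw [h1, ← hq]
    rfl

/-- the complete resolution, as a two-sided system of short exact sequences -/
noncomputable def two (hβ : Function.Injective β) (hs : Function.Surjective β)
    (eY : ∀ i : ℕ, 0 < i → Subsingleton (Ext (ModuleCat.of Aᵐᵒᵖ Y.X) (ModuleCat.of Aᵐᵒᵖ A) i)) :
    Two A where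
  X := XX Z Y
  P := PP Z Y
  gX := gXX Z Y
  mX := mXX Z Y
  gP := gPP Z Y
  mP := mPP Z Y
  fin := finPP Z Y
  proj := projPP Z Y
  f := ff Z Y β
  g := gg Z Y
  fi := ff_inj Z Y β hβ
  gs := gg_surj Z Y eY
  ex := ex_fg Z Y β hs

/-- **Perfect duality and `Ext` vanishing on both sides give Gorenstein-projectivity.** -/
theorem gproj_of_pairing (hβ : Function.Injective β) (hs : Function.Surjective β)
    (hf : ∀ φ : Z.X →ₗ[A] A, ∃ y, ∀ z, φ z = β z y)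
    (hi : ∀ y, (∀ z, β z y = 0) → y = 0)
    (eZ : ∀ i : ℕ, 0 < i → Subsingleton (Ext (ModuleCat.of A Z.X) (ModuleCat.of A A) i))
    (eY : ∀ i : ℕ, 0 < i → Subsingleton (Ext (ModuleCat.of Aᵐᵒᵖ Y.X) (ModuleCat.of Aᵐᵒᵖ A) i)) :
    IsGorensteinProjective A Z.X :=
  gproj_two (two Z Y β hβ hs eY) (hE_ff Z Y β hs hf hi eZ eY)

end main

section fd

/-- `gproj_of_pairing` for a finite-dimensional algebra, unbundled -/
theorem gproj_of_pairing' (K : Type v) [Field K] (A : Type u) [Ring A] [Algebra K A]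
    [Module.Finite K A] (V Y : Type u) [AddCommGroup V] [Module A V] [Module.Finite A V]
    [AddCommGroup Y] [Module Aᵐᵒᵖ Y] [Module.Finite Aᵐᵒᵖ Y] (β : V →ₗ[A] (Y →ₗ[Aᵐᵒᵖ] A))
    (hβ : Function.Injective β) (hs : Function.Surjective β)
    (hf : ∀ φ : V →ₗ[A] A, ∃ y, ∀ z, φ z = β z y)
    (hi : ∀ y, (∀ z, β z y = 0) → y = 0)
    (eZ : ∀ i : ℕ, 0 < i → Subsingleton (Ext (ModuleCat.of A V) (ModuleCat.of A A) i))
    (eY : ∀ i : ℕ, 0 < i → Subsingleton (Ext (ModuleCat.of Aᵐᵒᵖ Y) (ModuleCat.of Aᵐᵒᵖ A) i)) :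
    IsGorensteinProjective A V := by
  have h1 : IsNoetherianRing A := isNoetherian_of_tower K inferInstance
  have h2 : Module.Finite K Aᵐᵒᵖ := Module.Finite.equiv (opLinearEquiv K : A ≃ₗ[K] Aᵐᵒᵖ)
  have h3 : IsNoetherianRing Aᵐᵒᵖ := isNoetherian_of_tower K inferInstance
  exact gproj_of_pairing (⟨V⟩ : FM A) (⟨Y⟩ : FM Aᵐᵒᵖ) β hβ hs hf hi eZ eY

end fd

end Crest.Agent.R186.GP355
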