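import Mathlib

/-!
Row 186, S0281 (helper355): the abstract cell structure on a ring `L` over a ring `G`
(`L = {(g, f) : G × Hom_k(M, E1) | p f = g s - s g}`), and its passage to the opposite rings.

The left presentation `0 → V → E1 → E2 → M → 0` (over `G`) and the right presentation
`0 → VR → F1 → F2 → MR → 0` (over `Gᵐᵒᵖ`) are linked by balanced pairings
`A : E1 × F2 → K`, `B : E2 × F1 → K` (= a morphism of 2-extensions from the first one to the
dual of the second one), with `VR = DM`, `MR = DV`.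
-/

set_option autoImplicit false
set_option linter.unusedSectionVars false

open MulOpposite

namespace Crest.Agent.R186.Glue355

universe v u₁ u₂ u₃ u₄ u₅ u₆ u₇ u₈ u₉ u₁₀ u₁₁

/-- an abstract cell: a ring `L` which is identified with
`{(g, f) | ∀ m, p (f m) = g • s m - s (g • m)}` and the product
`(g, f) (g', f') = (g g', g f' + f g')`. -/
structure CellStr (K : Type v) (G : Type u₁) (L : Type u₂) {M : Type u₃} {E1 : Type u₄}
    {E2 : Type u₅} [Field K] [Ring G] [Algebra K G] [Ring L] [Algebra K L]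
    [AddCommGroup M] [Module K M] [Module G M] [AddCommGroup E1] [Module K E1] [Module G E1]
    [AddCommGroup E2] [Module K E2] [Module G E2]
    (p : E1 →ₗ[G] E2) (s : M →ₗ[K] E2) where
  /-- the projection to `G` -/
  pi : L →ₐ[K] G
  /-- the second component -/
  F : L →ₗ[K] (M →ₗ[K] E1)
  mul : ∀ x y m, F (x * y) m = pi x • F y m + F x (pi y • m)
  inj : ∀ x, pi x = 0 → F x = 0 → x = 0
  rel : ∀ x m, p (F x m) = pi x • s m - s (pi x • m)
  surj : ∀ (g : G) (f : M →ₗ[K] E1), (∀ m, p (f m) = g • s m - s (g • m)) →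
    ∃ x, pi x = g ∧ F x = f

/-- the data of a left and of a right presentation, linked by balanced pairings -/
structure Link (K : Type v) (G : Type u₁) {V : Type u₂} {E1 : Type u₃} {E2 : Type u₄}
    {M : Type u₅} {VR : Type u₆} {F1 : Type u₇} {F2 : Type u₈} {MR : Type u₉}
    [Field K] [Ring G] [Algebra K G]
    [AddCommGroup V] [Module K V] [Module G V]
    [AddCommGroup E1] [Module K E1] [Module G E1]
    [AddCommGroup E2] [Module K E2] [Module G E2]
    [AddCommGroup M] [Module K M] [Module G M]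
    [AddCommGroup VR] [Module K VR] [Module Gᵐᵒᵖ VR]
    [AddCommGroup F1] [Module K F1] [Module Gᵐᵒᵖ F1]
    [AddCommGroup F2] [Module K F2] [Module Gᵐᵒᵖ F2]
    [AddCommGroup MR] [Module K MR] [Module Gᵐᵒᵖ MR]
    (i : V →ₗ[G] E1) (p : E1 →ₗ[G] E2) (q : E2 →ₗ[G] M) (s : M →ₗ[K] E2)
    (iR : VR →ₗ[Gᵐᵒᵖ] F1) (pR : F1 →ₗ[Gᵐᵒᵖ] F2) (qR : F2 →ₗ[Gᵐᵒᵖ] MR) (sR : MR →ₗ[K] F2) where
  ker_p : ∀ x, p x = 0 → ∃ v, i v = x
  ker_q : ∀ e, q e = 0 → ∃ x, p x = e
  pi0 : ∀ v, p (i v) = 0
  qs : ∀ m, q (s m) = m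
  ker_pR : ∀ x, pR x = 0 → ∃ v, iR v = x
  ker_qR : ∀ e, qR e = 0 → ∃ x, pR x = e
  piR0 : ∀ v, pR (iR v) = 0
  qsR : ∀ m, qR (sR m) = m
  /-- `VR = DM` -/
  PM : M →ₗ[K] VR →ₗ[K] K
  /-- `MR = DV` -/
  PV : V →ₗ[K] MR →ₗ[K] K
  A : E1 →ₗ[K] F2 →ₗ[K] K
  B : E2 →ₗ[K] F1 →ₗ[K] K
  bA : ∀ (g : G) x y, A (g • x) y = A x (op g • y)
  bB : ∀ (g : G) x y, B (g • x) y = B x (op g • y)
  hA : ∀ v y, A (i v) y = PV v (qR y)
  hAB : ∀ x z, A x (pR z) = B (p x) z
  hB : ∀ e w, B e (iR w) = PM (q e) w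
  PMsurj : ∀ φ : M →ₗ[K] K, ∃ w, ∀ m, PM m w = φ m
  PMinj : ∀ w, (∀ m, PM m w = 0) → w = 0
  PVsurj : ∀ φ : MR →ₗ[K] K, ∃ v, ∀ n, PV v n = φ n
  PVinj : ∀ v, (∀ n, PV v n = 0) → v = 0

section

variable {K : Type v} {G : Type u₁} {V : Type u₂} {E1 : Type u₃} {E2 : Type u₄}
    {M : Type u₅} {VR : Type u₆} {F1 : Type u₇} {F2 : Type u₈} {MR : Type u₉} {L : Type u₁₀}
    [Field K] [Ring G] [Algebra K G] [Ring L] [Algebra K L]
    [AddCommGroup V] [Module K V] [Module G V] [IsScalarTower K G V]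
    [AddCommGroup E1] [Module K E1] [Module G E1] [IsScalarTower K G E1]
    [AddCommGroup E2] [Module K E2] [Module G E2] [IsScalarTower K G E2]
    [AddCommGroup M] [Module K M] [Module G M] [IsScalarTower K G M]
    [AddCommGroup VR] [Module K VR] [Module Gᵐᵒᵖ VR] [IsScalarTower K Gᵐᵒᵖ VR]
    [AddCommGroup F1] [Module K F1] [Module Gᵐᵒᵖ F1] [IsScalarTower K Gᵐᵒᵖ F1]
    [AddCommGroup F2] [Module K F2] [Module Gᵐᵒᵖ F2] [IsScalarTower K Gᵐᵒᵖ F2]
    [AddCommGroup MR] [Module K MR] [Module Gᵐᵒᵖ MR] [IsScalarTower K Gᵐᵒᵖ MR]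
    {i : V →ₗ[G] E1} {p : E1 →ₗ[G] E2} {q : E2 →ₗ[G] M} {s : M →ₗ[K] E2}
    {iR : VR →ₗ[Gᵐᵒᵖ] F1} {pR : F1 →ₗ[Gᵐᵒᵖ] F2} {qR : F2 →ₗ[Gᵐᵒᵖ] MR} {sR : MR →ₗ[K] F2}

theorem Link.uniq (D : Link K G i p q s iR pR qR sR) (z : F1) (h : pR z = 0)
    (h' : ∀ m, D.B (s m) z = 0) : z = 0 := by
  obtain ⟨w, rfl⟩ := D.ker_pR z h
  have : w = 0 := D.PMinj w fun m => by
    rw [← D.qs m, ← D.hB, h']
  rw [this, map_zero]

theorem Link.uniqL (D : Link K G i p q s iR pR qR sR) (x : E1) (h : p x = 0)
    (h' : ∀ n, D.A x (sR n) = 0) : x = 0 := by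
  obtain ⟨w, rfl⟩ := D.ker_p x h
  have : w = 0 := D.PVinj w fun m => by
    rw [← D.qsR m, ← D.hA, h']
  rw [this, map_zero]

theorem Link.exists_z (D : Link K G i p q s iR pR qR sR) (c : CellStr K G L p s) (x : L)
    (n : MR) : ∃ z : F1, pR z = op (c.pi x) • sR n - sR (op (c.pi x) • n) ∧
      ∀ m, D.B (s m) z = D.A (c.F x m) (sR n) := by
  have h1 : qR (op (c.pi x) • sR n - sR (op (c.pi x) • n)) = 0 := by
    rw [map_sub, map_smul, D.qsR, D.qsR, sub_self]
  obtain ⟨z, hz⟩ := D.ker_qR _ h1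
  obtain ⟨w, hw⟩ := D.PMsurj
    ((D.A.flip (sR n)) ∘ₗ (c.F x) - (D.B.flip z) ∘ₗ s)
  refine ⟨z + iR w, ?_, fun m => ?_⟩
  · rw [map_add, D.piR0, add_zero, hz]
  · rw [map_add, D.hB, D.qs, hw]
    simp

theorem Link.exists_x (D : Link K G i p q s iR pR qR sR) (g : G) (fR : MR →ₗ[K] F1)
    (m : M) : ∃ z : E1, p z = g • s m - s (g • m) ∧
      ∀ n, D.A z (sR n) = D.B (s m) (fR n) := by
  have h1 : q (g • s m - s (g • m)) = 0 := by
    rw [map_sub, map_smul, D.qs, D.qs, sub_self]
  obtain ⟨z, hz⟩ := D.ker_q _ h1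
  obtain ⟨w, hw⟩ := D.PVsurj
    ((D.B (s m)) ∘ₗ fR - (D.A z) ∘ₗ sR)
  refine ⟨z + i w, ?_, fun n => ?_⟩
  · rw [map_add, D.pi0, add_zero, hz]
  · rw [map_add, LinearMap.add_apply, D.hA, D.qsR, hw]
    simp

/-- the value of the right component -/
noncomputable def Link.z (D : Link K G i p q s iR pR qR sR) (c : CellStr K G L p s) (x : L)
    (n : MR) : F1 := (D.exists_z c x n).choose

theorem Link.z_rel (D : Link K G i p q s iR pR qR sR) (c : CellStr K G L p s) (x : L)
    (n : MR) : pR (D.z c x n) = op (c.pi x) • sR n - sR (op (c.pi x) • n) :=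
  (D.exists_z c x n).choose_spec.1

theorem Link.z_B (D : Link K G i p q s iR pR qR sR) (c : CellStr K G L p s) (x : L)
    (n : MR) (m : M) : D.B (s m) (D.z c x n) = D.A (c.F x m) (sR n) :=
  (D.exists_z c x n).choose_spec.2 m

theorem Link.z_ext (D : Link K G i p q s iR pR qR sR) (c : CellStr K G L p s) (x : L)
    (n : MR) (z : F1) (h : pR z = op (c.pi x) • sR n - sR (op (c.pi x) • n))
    (h' : ∀ m, D.B (s m) z = D.A (c.F x m) (sR n)) : D.z c x n = z := by
  rw [← sub_eq_zero]
  apply D.uniq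
  · rw [map_sub, D.z_rel, h, sub_self]
  · intro m
    rw [map_sub, D.z_B, h', sub_self]

/-- the right component -/
noncomputable def Link.FR (D : Link K G i p q s iR pR qR sR) (c : CellStr K G L p s) :
    Lᵐᵒᵖ →ₗ[K] (MR →ₗ[K] F1) where
  toFun x :=
    { toFun := fun n => D.z c (unop x) n
      map_add' := fun n n' => by
        apply D.z_ext
        · rw [map_add, D.z_rel, D.z_rel, map_add, smul_add, smul_add, map_add]
          abel
        · intro m
          rw [map_add, D.z_B, D.z_B, map_add, map_add]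
      map_smul' := fun a n => by
        apply D.z_ext
        · rw [RingHom.id_apply, LinearMap.map_smul_of_tower pR, D.z_rel, sR.map_smul a n,
            smul_comm (op (c.pi (unop x))) a n, sR.map_smul a, smul_sub,
            smul_comm (op (c.pi (unop x))) a]
        · intro m
          rw [RingHom.id_apply, map_smul, D.z_B, sR.map_smul a n, map_smul] }
  map_add' x y := by
    refine LinearMap.ext fun n => ?_
    show D.z c (unop x + unop y) n = D.z c (unop x) n + D.z c (unop y) n
    apply D.z_ext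
    · rw [map_add, D.z_rel, D.z_rel, map_add, op_add, add_smul, add_smul, map_add]
      abel
    · intro m
      rw [map_add, D.z_B, D.z_B, map_add, LinearMap.add_apply, map_add, LinearMap.add_apply]
  map_smul' a x := by
    refine LinearMap.ext fun n => ?_
    show D.z c (a • unop x) n = a • D.z c (unop x) n
    apply D.z_ext
    · rw [LinearMap.map_smul_of_tower pR, D.z_rel, map_smul c.pi, op_smul, smul_assoc, smul_assoc,
        sR.map_smul a, smul_sub]
    · intro m
      rw [map_smul, D.z_B, map_smul c.F, LinearMap.smul_apply, map_smul, LinearMap.smul_apply]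

theorem Link.FR_apply (D : Link K G i p q s iR pR qR sR) (c : CellStr K G L p s) (x : Lᵐᵒᵖ)
    (n : MR) : D.FR c x n = D.z c (unop x) n := rfl

/-- **Glue**: a cell over `G` for the left presentation is a cell over `Gᵐᵒᵖ` for the right
presentation. -/
noncomputable def CellStr.mop (c : CellStr K G L p s) (D : Link K G i p q s iR pR qR sR) :
    CellStr K Gᵐᵒᵖ Lᵐᵒᵖ pR sR where
  pi := AlgHom.op c.pi
  F := D.FR c
  mul x y n := by
    have hx : AlgHom.op c.pi x = op (c.pi (unop x)) := rfl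
    have hy : AlgHom.op c.pi y = op (c.pi (unop y)) := rfl
    rw [D.FR_apply, D.FR_apply, D.FR_apply, hx, hy, unop_mul]
    apply D.z_ext
    · rw [map_add, map_smul, D.z_rel, D.z_rel, map_mul, op_mul, mul_smul, mul_smul, smul_sub]
      abel
    · intro m
      have e1 : D.B (s m) (op (c.pi (unop x)) • D.z c (unop y) n) =
          D.B (c.pi (unop x) • s m) (D.z c (unop y) n) := (D.bB _ _ _).symm
      have e2 : D.B (s m) (D.z c (unop x) (op (c.pi (unop y)) • n)) =
          D.A (c.F (unop x) m) (sR (op (c.pi (unop y)) • n)) := D.z_B _ _ _ _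
      have e3 : D.A (c.pi (unop y) • c.F (unop x) m) (sR n) =
          D.A (c.F (unop x) m) (op (c.pi (unop y)) • sR n) := D.bA _ _ _
      have e4 : D.A (c.F (unop y) (c.pi (unop x) • m)) (sR n) =
          D.B (s (c.pi (unop x) • m)) (D.z c (unop y) n) := (D.z_B _ _ _ _).symm
      have e5 : D.A (c.F (unop x) m) (op (c.pi (unop y)) • sR n) -
          D.A (c.F (unop x) m) (sR (op (c.pi (unop y)) • n)) =
          D.B (c.pi (unop x) • s m) (D.z c (unop y) n) -
          D.B (s (c.pi (unop x) • m)) (D.z c (unop y) n) := by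
        rw [← map_sub, ← D.z_rel, D.hAB, c.rel, map_sub, LinearMap.sub_apply]
      rw [map_add, e1, e2, c.mul, map_add, LinearMap.add_apply, e3, e4]
      linear_combination -e5
  inj x h h' := by
    have h1 : c.pi (unop x) = 0 := by
      have : op (c.pi (unop x)) = 0 := h
      exact (op_eq_zero_iff _).1 this
    have h2 : c.F (unop x) = 0 := by
      refine LinearMap.ext fun m => ?_
      apply D.uniqL
      · rw [c.rel, h1, zero_smul, zero_smul, map_zero, sub_zero]
      · intro n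
        have h3 : D.z c (unop x) n = 0 := LinearMap.congr_fun h' n
        rw [← D.z_B, h3, map_zero]
    have h4 := c.inj _ h1 h2
    exact (unop_eq_zero_iff _).1 h4
  rel x n := D.z_rel c (unop x) n
  surj g fR hfR := by
    choose f hf hf' using fun m => D.exists_x (unop g) fR m
    have hlin : ∀ m z, p z = unop g • s m - s (unop g • m) →
        (∀ n, D.A z (sR n) = D.B (s m) (fR n)) → f m = z := by
      intro m z h h'
      rw [← sub_eq_zero]
      apply D.uniqL
      · rw [map_sub, hf, h, sub_self]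
      · intro n
        rw [map_sub, LinearMap.sub_apply, hf', h', sub_self]
    let f' : M →ₗ[K] E1 :=
      { toFun := f
        map_add' := fun m m' => by
          apply hlin
          · rw [map_add, hf, hf, map_add, smul_add, smul_add, map_add]
            abel
          · intro n
            rw [map_add, LinearMap.add_apply, hf', hf', map_add, map_add, LinearMap.add_apply]
        map_smul' := fun a m => by
          apply hlin
          · rw [RingHom.id_apply, LinearMap.map_smul_of_tower p, hf, s.map_smul a m,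
              smul_comm (unop g) a m, s.map_smul a, smul_sub, smul_comm (unop g) a]
          · intro n
            rw [RingHom.id_apply, map_smul, LinearMap.smul_apply, hf', s.map_smul a m, map_smul,
              LinearMap.smul_apply] }
    obtain ⟨x, hx, hx'⟩ := c.surj (unop g) f' hf
    refine ⟨op x, ?_, LinearMap.ext fun n => ?_⟩
    · show op (c.pi x) = g
      rw [hx, op_unop]
    · show D.z c x n = fR n
      apply D.z_ext
      · rw [hx, op_unop]
        exact hfR n
      · intro m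
        rw [hx']
        exact (hf' m n).symm

end

end Crest.Agent.R186.Glue355
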