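import Mathlib
import Crest.Agent.R186.Glue_355
import Crest.Agent.R186.GP_355
import Crest.Agent.R186.Frame2_234
import Crest.Agent.R186.Spine_700

/-!
Row 186, S0281 (helper355): the concrete cell ring, the duality pairing of a cell, and the final
assembly `IsGorensteinProjective L V` from the two one-sided `Ext` statements.
-/

set_option autoImplicit false
set_option linter.unusedSectionVars false

open MulOpposite CategoryTheory CategoryTheory.Abelian Crest.AlgebraR

namespace Crest.Agent.R186.Glue2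

open Glue355

universe v u w u₁ u₂ u₃ u₄ u₅ u₆ u₇ u₈ u₉ u₁₀ u₁₁

/-! ### the concrete cell ring -/

section concrete

variable (K : Type v) (G : Type u₁) {M : Type u₂} {E1 : Type u₃} {E2 : Type u₄}
  [Field K] [Ring G] [Algebra K G]
  [AddCommGroup E1] [Module K E1] [Module G E1] [IsScalarTower K G E1]
  [AddCommGroup E2] [Module K E2] [Module G E2] [IsScalarTower K G E2]
  [AddCommGroup M] [Module K M] [Module G M] [IsScalarTower K G M]
  (p : E1 →ₗ[G] E2) (s : M →ₗ[K] E2)

/-- the concrete cell, as a subalgebra of `G × End_K (E1 × M)` -/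
def cellSub : Subalgebra K (G × Module.End K (E1 × M)) where
  carrier := {x | (∀ e, x.2 (e, 0) = (x.1 • e, 0)) ∧ (∀ m, (x.2 (0, m)).2 = x.1 • m) ∧
    (∀ m, p (x.2 (0, m)).1 = x.1 • s m - s (x.1 • m))}
  mul_mem' := by
    rintro x y ⟨hx1, hx2, hx3⟩ ⟨hy1, hy2, hy3⟩
    have key : ∀ m, x.2 (y.2 (0, m)) = (x.1 • (y.2 (0, m)).1 + (x.2 (0, y.1 • m)).1,
        x.1 • y.1 • m) := by
      intro m
      have h1 : y.2 (0, m) = ((y.2 (0, m)).1, 0) + (0, y.1 • m) := by
        ext
        · simp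
        · simp [hy2]
      rw [h1, map_add, hx1]
      ext
      · simp
      · simp [hx2]
    refine ⟨fun e => ?_, fun m => ?_, fun m => ?_⟩
    · show x.2 (y.2 (e, 0)) = ((x.1 * y.1) • e, 0)
      rw [hy1, hx1, mul_smul]
    · show (x.2 (y.2 (0, m))).2 = (x.1 * y.1) • m
      rw [key, mul_smul]
    · show p (x.2 (y.2 (0, m))).1 = (x.1 * y.1) • s m - s ((x.1 * y.1) • m)
      rw [key]
      show p (x.1 • (y.2 (0, m)).1 + (x.2 (0, y.1 • m)).1) = _
      rw [map_add, map_smul, hy3, hx3, mul_smul, mul_smul, smul_sub]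
      abel
  add_mem' := by
    rintro x y ⟨hx1, hx2, hx3⟩ ⟨hy1, hy2, hy3⟩
    refine ⟨fun e => ?_, fun m => ?_, fun m => ?_⟩
    · show x.2 (e, 0) + y.2 (e, 0) = ((x.1 + y.1) • e, 0)
      rw [hx1, hy1, add_smul]
      simp
    · show (x.2 (0, m) + y.2 (0, m)).2 = (x.1 + y.1) • m
      rw [Prod.snd_add, hx2, hy2, add_smul]
    · show p (x.2 (0, m) + y.2 (0, m)).1 = (x.1 + y.1) • s m - s ((x.1 + y.1) • m)
      rw [Prod.fst_add, map_add, hx3, hy3, add_smul, add_smul, map_add]
      abel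
  algebraMap_mem' a := by
    refine ⟨fun e => ?_, fun m => ?_, fun m => ?_⟩
    · show a • ((e, 0) : E1 × M) = (algebraMap K G a • e, 0)
      rw [algebraMap_smul]
      simp
    · show (a • ((0, m) : E1 × M)).2 = algebraMap K G a • m
      rw [algebraMap_smul]
      simp
    · show p (a • ((0, m) : E1 × M)).1 = algebraMap K G a • s m - s (algebraMap K G a • m)
      rw [algebraMap_smul, algebraMap_smul, s.map_smul]
      simp

/-- the endomorphism `(e, m) ↦ (g e + f m, g m)` -/
def endo (g : G) (f : M →ₗ[K] E1) : Module.End K (E1 × M) where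
  toFun x := (g • x.1 + f x.2, g • x.2)
  map_add' x y := by
    ext
    · simp only [Prod.fst_add, Prod.snd_add, smul_add, map_add]
      abel
    · simp
  map_smul' a x := by
    ext
    · simp only [Prod.smul_fst, Prod.smul_snd, map_smul, smul_add, RingHom.id_apply]
      rw [smul_comm g a]
    · simp only [Prod.smul_snd, RingHom.id_apply]
      rw [smul_comm g a]

/-- the cell structure of the concrete cell -/
def cellStr : CellStr K G (cellSub K G p s) p s where
  pi := (AlgHom.fst K G _).comp (cellSub K G p s).val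
  F :=
    { toFun := fun x => (LinearMap.fst K E1 M) ∘ₗ (x : G × Module.End K (E1 × M)).2 ∘ₗ
        (LinearMap.inr K E1 M)
      map_add' := fun _ _ => rfl
      map_smul' := fun _ _ => rfl }
  mul := by
    rintro ⟨x, hx1, hx2, hx3⟩ ⟨y, hy1, hy2, hy3⟩ m
    show (x.2 (y.2 (0, m))).1 = x.1 • (y.2 (0, m)).1 + (x.2 (0, y.1 • m)).1
    have h1 : y.2 (0, m) = ((y.2 (0, m)).1, 0) + (0, y.1 • m) := by
      ext
      · simp
      · simp [hy2]
    conv_lhs => rw [h1, map_add, hx1]
    rfl
  inj := by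
    rintro ⟨x, hx1, hx2, hx3⟩ h h'
    have h0 : x.1 = 0 := h
    apply Subtype.ext
    apply Prod.ext h0
    refine LinearMap.ext fun em => ?_
    obtain ⟨e, m⟩ := em
    have h1 : ((e, m) : E1 × M) = (e, 0) + (0, m) := by simp
    have h2 : (x.2 (0, m)).1 = 0 := LinearMap.congr_fun h' m
    show x.2 (e, m) = 0
    rw [h1, map_add, hx1, h0, zero_smul]
    ext
    · simpa using h2
    · simp [hx2, h0]
  rel := by
    rintro ⟨x, hx1, hx2, hx3⟩ m
    exact hx3 m
  surj g f hf := by
    refine ⟨⟨⟨g, endo K G g f⟩, ?_, ?_, ?_⟩, rfl, ?_⟩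
    · intro e
      show (g • e + f 0, g • (0 : M)) = (g • e, 0)
      simp
    · intro m
      rfl
    · intro m
      show p (g • (0 : E1) + f m) = g • s m - s (g • m)
      rw [smul_zero, zero_add, hf]
    · refine LinearMap.ext fun m => ?_
      show g • (0 : E1) + f m = f m
      rw [smul_zero, zero_add]

theorem finite_cellSub [Module.Finite K G] [Module.Finite K E1] [Module.Finite K M] :
    Module.Finite K (cellSub K G p s) :=
  FiniteDimensional.finiteDimensional_subalgebra (cellSub K G p s)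

end concrete

/-! ### properties of a cell -/

section cell

variable {K : Type v} {G : Type u₁} {V : Type u₂} {E1 : Type u₃} {E2 : Type u₄}
    {M : Type u₅} {VR : Type u₆} {F1 : Type u₇} {F2 : Type u₈} {MR : Type u₉} {L : Type u₁₀}
    [Field K] [Ring G] [Algebra K G] [Ring L] [Algebra K L]
    [AddCommGroup V] [Module K V] [Module G V] [IsScalarTower K G V]
    [AddCommGroup E1] [Module K E1] [Module G E1] [IsScalarTower K G E1]
    [AddCommGroup E2] [Module K E2] [Module G E2] [IsScalarTower K G E2]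
    [AddCommGroup M] [Module K M] [Module G M] [IsScalarTower K G M]
    [AddCommGroup VR] [Module K VR] [Module Gᵐᵒᵖ VR] [IsScalarTower K Gᵐᵒᵖ VR]
    [AddCommGroup F1] [Module K F1] [Module Gᵐᵒᵖ F1] [IsScalarTower K Gᵐᵒᵖ F1]
    [AddCommGroup F2] [Module K F2] [Module Gᵐᵒᵖ F2] [IsScalarTower K Gᵐᵒᵖ F2]
    [AddCommGroup MR] [Module K MR] [Module Gᵐᵒᵖ MR] [IsScalarTower K Gᵐᵒᵖ MR]
    {i : V →ₗ[G] E1} {p : E1 →ₗ[G] E2} {q : E2 →ₗ[G] M} {s : M →ₗ[K] E2}
    {iR : VR →ₗ[Gᵐᵒᵖ] F1} {pR : F1 →ₗ[Gᵐᵒᵖ] F2} {qR : F2 →ₗ[Gᵐᵒᵖ] MR} {sR : MR →ₗ[K] F2}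

/-- the projection of a cell is surjective -/
theorem pi_surj (c : CellStr K G L p s) (hq : ∀ e, q e = 0 → ∃ x, p x = e)
    (hs : ∀ m, q (s m) = m) : Function.Surjective c.pi := by
  intro g
  let P : E1 →ₗ[K] LinearMap.range (p.restrictScalars K) := (p.restrictScalars K).rangeRestrict
  let δ : M →ₗ[K] E2 :=
    { toFun := fun m => g • s m - s (g • m)
      map_add' := fun m m' => by
        rw [map_add, smul_add, smul_add, map_add]
        abel
      map_smul' := fun a m => by
        rw [s.map_smul a m, smul_comm g a, smul_comm g a, s.map_smul a, smul_sub,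
          RingHom.id_apply] }
  have hδ : ∀ m, δ m ∈ LinearMap.range (p.restrictScalars K) := by
    intro m
    obtain ⟨x, hx⟩ := hq (g • s m - s (g • m)) (by rw [map_sub, map_smul, hs, hs, sub_self])
    exact ⟨x, hx⟩
  obtain ⟨f, hf⟩ := Module.projective_lifting_property P (δ.codRestrict _ hδ)
    (LinearMap.surjective_rangeRestrict _)
  obtain ⟨x, hx, -⟩ := c.surj g f fun m => by
    have h1 := LinearMap.congr_fun hf m
    have h2 := congrArg Subtype.val h1
    exact h2
  exact ⟨x, hx⟩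

/-- the kernel is square zero -/
theorem mul_eq_zero (c : CellStr K G L p s) (x y : L) (hx : c.pi x = 0) (hy : c.pi y = 0) :
    x * y = 0 := by
  apply c.inj
  · rw [map_mul, hx, zero_mul]
  · refine LinearMap.ext fun m => ?_
    rw [c.mul, hx, hy, zero_smul, zero_smul, map_zero, add_zero]
    rfl

theorem simples (c : CellStr K G L p s) (hs : Function.Surjective c.pi) {n : ℕ}
    (h : Spine700.Simples K G n) : Spine700.Simples K L n := by
  obtain ⟨Q, hQ, hQ'⟩ := h
  refine ⟨Q.comp c.pi, hQ.comp hs, fun x hx => ?_⟩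
  obtain ⟨m, hm⟩ := hQ' (c.pi x) hx
  refine ⟨m + m, ?_⟩
  rw [pow_add]
  apply mul_eq_zero c <;> rw [map_pow, hm]

theorem i_inj (D : Link K G i p q s iR pR qR sR) (v : V) (h : i v = 0) : v = 0 := by
  apply D.PVinj
  intro n
  rw [← D.qsR n, ← D.hA, h, map_zero, LinearMap.zero_apply]

theorem PM_bal (D : Link K G i p q s iR pR qR sR) (g : G) (m : M) (w : VR) :
    D.PM (g • m) w = D.PM m (op g • w) := by
  have h1 : D.PM (g • m) w = D.B (g • s m) (iR w) := by rw [D.hB, q.map_smul, D.qs]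
  rw [h1, D.bB, ← iR.map_smul, D.hB, D.qs]

theorem PV_bal (D : Link K G i p q s iR pR qR sR) (g : G) (v : V) (n : MR) :
    D.PV (g • v) n = D.PV v (op g • n) := by
  have h1 : D.PV (g • v) n = D.A (g • i v) (sR n) := by rw [← i.map_smul, D.hA, D.qsR]
  rw [h1, D.bA, D.hA, qR.map_smul, D.qsR]

theorem exists_elt (D : Link K G i p q s iR pR qR sR) (c : CellStr K G L p s) (v : V) (w : VR) :
    ∃ x : L, c.pi x = 0 ∧ ∀ m, c.F x m = D.PM m w • i v := by
  obtain ⟨x, hx, hx'⟩ := c.surj 0 ((D.PM.flip w).smulRight (i v)) fun m => by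
    rw [LinearMap.smulRight_apply, LinearMap.map_smul_of_tower, D.pi0, zero_smul, zero_smul,
      map_zero, smul_zero, sub_zero]
  refine ⟨x, hx, fun m => ?_⟩
  rw [hx']
  rfl

/-- the element `v ⊗ w` of the cell -/
noncomputable def elt (D : Link K G i p q s iR pR qR sR) (c : CellStr K G L p s) (v : V)
    (w : VR) : L := (exists_elt D c v w).choose

theorem pi_elt (D : Link K G i p q s iR pR qR sR) (c : CellStr K G L p s) (v : V) (w : VR) :
    c.pi (elt D c v w) = 0 := (exists_elt D c v w).choose_spec.1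

theorem F_elt (D : Link K G i p q s iR pR qR sR) (c : CellStr K G L p s) (v : V) (w : VR)
    (m : M) : c.F (elt D c v w) m = D.PM m w • i v := (exists_elt D c v w).choose_spec.2 m

theorem elt_ext (D : Link K G i p q s iR pR qR sR) (c : CellStr K G L p s) (v : V) (w : VR)
    (x : L) (h : c.pi x = 0) (h' : ∀ m, c.F x m = D.PM m w • i v) : elt D c v w = x := by
  rw [← sub_eq_zero]
  apply c.inj
  · rw [map_sub, pi_elt, h, sub_zero]
  · refine LinearMap.ext fun m => ?_
    rw [map_sub, LinearMap.sub_apply, F_elt, h', sub_self, LinearMap.zero_apply]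

variable [Module L V] [Module Lᵐᵒᵖ VR]

/-- the duality pairing of a cell -/
noncomputable def beta (D : Link K G i p q s iR pR qR sR) (c : CellStr K G L p s)
    (hV : ∀ (x : L) (v : V), x • v = c.pi x • v)
    (hVR : ∀ (x : L) (w : VR), op x • w = op (c.pi x) • w) :
    V →ₗ[L] (VR →ₗ[Lᵐᵒᵖ] L) where
  toFun v :=
    { toFun := fun w => elt D c v w
      map_add' := fun w w' => by
        apply elt_ext
        · rw [map_add, pi_elt, pi_elt, add_zero]
        · intro m
          rw [map_add, LinearMap.add_apply, F_elt, F_elt, map_add, add_smul]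
      map_smul' := fun x w => by
        apply elt_ext
        · rw [RingHom.id_apply]
          show c.pi (elt D c v w * unop x) = 0
          rw [map_mul, pi_elt, zero_mul]
        · intro m
          rw [RingHom.id_apply]
          show c.F (elt D c v w * unop x) m = _
          rw [c.mul, pi_elt, zero_smul, zero_add, F_elt, PM_bal, ← hVR, op_unop] }
  map_add' v v' := by
    refine LinearMap.ext fun w => ?_
    show elt D c (v + v') w = elt D c v w + elt D c v' w
    apply elt_ext
    · rw [map_add, pi_elt, pi_elt, add_zero]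
    · intro m
      rw [map_add, LinearMap.add_apply, F_elt, F_elt, map_add, smul_add]
  map_smul' x v := by
    refine LinearMap.ext fun w => ?_
    show elt D c (x • v) w = x * elt D c v w
    apply elt_ext
    · rw [map_mul, pi_elt, mul_zero]
    · intro m
      rw [c.mul, pi_elt, zero_smul, map_zero, add_zero, F_elt, hV, map_smul, smul_comm]

theorem beta_apply (D : Link K G i p q s iR pR qR sR) (c : CellStr K G L p s)
    (hV : ∀ (x : L) (v : V), x • v = c.pi x • v)
    (hVR : ∀ (x : L) (w : VR), op x • w = op (c.pi x) • w) (v : V) (w : VR) :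
    beta D c hV hVR v w = elt D c v w := rfl

theorem beta_inj (D : Link K G i p q s iR pR qR sR) (c : CellStr K G L p s)
    (hV : ∀ (x : L) (v : V), x • v = c.pi x • v)
    (hVR : ∀ (x : L) (w : VR), op x • w = op (c.pi x) • w) [Nontrivial M] :
    Function.Injective (beta D c hV hVR) := by
  rw [injective_iff_map_eq_zero]
  intro v hv
  obtain ⟨m₀, hm₀⟩ := exists_ne (0 : M)
  obtain ⟨φ, hφ⟩ : ∃ φ : M →ₗ[K] K, φ m₀ ≠ 0 := by
    by_contra h
    push Not at h
    exact hm₀ ((Module.forall_dual_apply_eq_zero_iff K m₀).1 h)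
  obtain ⟨w, hw⟩ := D.PMsurj φ
  have h1 : elt D c v w = 0 := LinearMap.congr_fun hv w
  have h2 := F_elt D c v w m₀
  rw [h1, map_zero, LinearMap.zero_apply, hw] at h2
  apply i_inj D
  rcases smul_eq_zero.1 h2.symm with h | h
  · exact absurd h hφ
  · exact h

/-- a map `V → L` lands in the kernel -/
theorem pi_phi (c : CellStr K G L p s) (hπ : Function.Surjective c.pi)
    (hV : ∀ (x : L) (v : V), x • v = c.pi x • v) (hV0 : ∀ φ : V →ₗ[G] G, φ = 0)
    (φ : V →ₗ[L] L) (v : V) : c.pi (φ v) = 0 := by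
  let φ' : V →ₗ[G] G :=
    { toFun := fun v => c.pi (φ v)
      map_add' := fun v v' => by rw [map_add, map_add]
      map_smul' := fun g v => by
        obtain ⟨x, rfl⟩ := hπ g
        rw [← hV, map_smul, smul_eq_mul, map_mul, RingHom.id_apply, smul_eq_mul] }
  exact LinearMap.congr_fun (hV0 φ') v

theorem pi_psi (c : CellStr K G L p s) (hπ : Function.Surjective c.pi)
    (hVR : ∀ (x : L) (w : VR), op x • w = op (c.pi x) • w)
    (hVR0 : ∀ φ : VR →ₗ[Gᵐᵒᵖ] Gᵐᵒᵖ, φ = 0)
    (ψ : VR →ₗ[Lᵐᵒᵖ] L) (w : VR) : c.pi (ψ w) = 0 := by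
  let ψ' : VR →ₗ[Gᵐᵒᵖ] Gᵐᵒᵖ :=
    { toFun := fun w => op (c.pi (ψ w))
      map_add' := fun v v' => by rw [map_add, map_add, MulOpposite.op_add]
      map_smul' := fun g w => by
        obtain ⟨x, hx⟩ := hπ (unop g)
        have hg : g = op (c.pi x) := by rw [hx, op_unop]
        have h1 : ψ (op x • w) = ψ w * x := by
          rw [map_smul]
          rfl
        rw [hg, ← hVR, h1, map_mul, RingHom.id_apply, op_mul, smul_eq_mul] }
  have h2 : op (c.pi (ψ w)) = 0 := LinearMap.congr_fun (hVR0 ψ') w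
  exact (op_eq_zero_iff _).1 h2

theorem beta_f (D : Link K G i p q s iR pR qR sR) (c : CellStr K G L p s)
    (hπ : Function.Surjective c.pi)
    (hV : ∀ (x : L) (v : V), x • v = c.pi x • v)
    (hVR : ∀ (x : L) (w : VR), op x • w = op (c.pi x) • w) [Nontrivial V]
    (hV0 : ∀ φ : V →ₗ[G] G, φ = 0) (eV : ∀ T : V →ₗ[G] V, ∃ a : K, ∀ v, T v = a • v)
    (φ : V →ₗ[L] L) : ∃ w, ∀ v, φ v = beta D c hV hVR v w := by
  have h0 : ∀ v, c.pi (φ v) = 0 := pi_phi c hπ hV hV0 φ
  choose t ht using fun m v => D.ker_p (c.F (φ v) m) (by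
    rw [c.rel, h0, zero_smul, zero_smul, map_zero, sub_zero])
  have hi : ∀ v v', i v = i v' → v = v' := fun v v' h => by
    rw [← sub_eq_zero]
    exact i_inj D _ (by rw [map_sub, h, sub_self])
  let T : M → (V →ₗ[G] V) := fun m =>
    { toFun := t m
      map_add' := fun v v' => by
        apply hi
        rw [map_add, ht, ht, ht, map_add, map_add, LinearMap.add_apply]
      map_smul' := fun g v => by
        apply hi
        obtain ⟨x, rfl⟩ := hπ g
        rw [RingHom.id_apply, i.map_smul, ht, ht, ← hV, φ.map_smul, smul_eq_mul, c.mul, h0,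
          zero_smul, map_zero, add_zero] }
  choose a ha using fun m => eV (T m)
  have ha' : ∀ m v, t m v = a m • v := ha
  obtain ⟨v₀, hv₀⟩ := exists_ne (0 : V)
  have hcancel : ∀ a b : K, a • v₀ = b • v₀ → a = b := fun a b h => by
    rw [← sub_eq_zero, ← sub_smul] at h
    rcases smul_eq_zero.1 h with h | h
    · exact sub_eq_zero.1 h
    · exact absurd h hv₀
  let lam : M →ₗ[K] K :=
    { toFun := a
      map_add' := fun m m' => by
        apply hcancel
        apply hi
        rw [← ha', ht, map_add, add_smul, map_add, ← ha', ← ha', ht, ht]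
      map_smul' := fun b m => by
        apply hcancel
        apply hi
        rw [← ha', ht, (c.F (φ v₀)).map_smul, RingHom.id_apply, smul_eq_mul, mul_smul, ← ha',
          LinearMap.map_smul_of_tower i, ht] }
  obtain ⟨w, hw⟩ := D.PMsurj lam
  refine ⟨w, fun v => ?_⟩
  rw [beta_apply]
  symm
  apply elt_ext
  · exact h0 v
  · intro m
    rw [hw, ← ht, ha', LinearMap.map_smul_of_tower i]
    rfl

theorem beta_surj (D : Link K G i p q s iR pR qR sR) (c : CellStr K G L p s)
    (hπ : Function.Surjective c.pi)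
    (hV : ∀ (x : L) (v : V), x • v = c.pi x • v)
    (hVR : ∀ (x : L) (w : VR), op x • w = op (c.pi x) • w) [Nontrivial VR]
    (hVR0 : ∀ φ : VR →ₗ[Gᵐᵒᵖ] Gᵐᵒᵖ, φ = 0)
    (eVR : ∀ T : VR →ₗ[Gᵐᵒᵖ] VR, ∃ a : K, ∀ v, T v = a • v) :
    Function.Surjective (beta D c hV hVR) := by
  intro ψ
  have h0 : ∀ v, c.pi (ψ v) = 0 := pi_psi c hπ hVR hVR0 ψ
  choose t ht using fun w m => D.ker_p (c.F (ψ w) m) (by
    rw [c.rel, h0, zero_smul, zero_smul, map_zero, sub_zero])
  have hi : ∀ v v', i v = i v' → v = v' := fun v v' h => by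
    rw [← sub_eq_zero]
    exact i_inj D _ (by rw [map_sub, h, sub_self])
  have tadd : ∀ w m m', t w (m + m') = t w m + t w m' := fun w m m' => by
    apply hi
    rw [map_add, ht, ht, ht, map_add]
  have tsmul : ∀ w (b : K) m, t w (b • m) = b • t w m := fun w b m => by
    apply hi
    rw [LinearMap.map_smul_of_tower i, ht, ht, (c.F (ψ w)).map_smul]
  have tadd' : ∀ w w' m, t (w + w') m = t w m + t w' m := fun w w' m => by
    apply hi
    rw [map_add, ht, ht, ht, map_add, map_add, LinearMap.add_apply]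
  have tact : ∀ (g : G) w m, t (op g • w) m = t w (g • m) := fun g w m => by
    apply hi
    obtain ⟨x, rfl⟩ := hπ g
    have h1 : ψ (op x • w) = ψ w * x := by
      rw [map_smul]
      rfl
    rw [ht, ht, ← hVR, h1, c.mul, h0, zero_smul, zero_add]
  have hM : ∀ w w', (∀ m, D.PM m w = D.PM m w') → w = w' := fun w w' h => by
    rw [← sub_eq_zero]
    exact D.PMinj _ fun m => by rw [map_sub, h, sub_self]
  choose S hS using fun (n : MR) (w : VR) => D.PMsurj
    { toFun := fun m => D.PV (t w m) n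
      map_add' := fun m m' => by rw [tadd, map_add, LinearMap.add_apply]
      map_smul' := fun b m => by rw [tsmul, map_smul, LinearMap.smul_apply, RingHom.id_apply] }
  have hS' : ∀ n w m, D.PM m (S n w) = D.PV (t w m) n := hS
  let S' : MR → (VR →ₗ[Gᵐᵒᵖ] VR) := fun n =>
    { toFun := S n
      map_add' := fun w w' => by
        apply hM
        intro m
        rw [hS', map_add, hS', hS', tadd', map_add, LinearMap.add_apply]
      map_smul' := fun g w => by
        apply hM
        intro m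
        have hg : g = op (unop g) := (op_unop g).symm
        rw [RingHom.id_apply, hS', hg, tact, ← PM_bal, hS'] }
  choose b hb using fun n => eVR (S' n)
  have hb' : ∀ n w, S n w = b n • w := hb
  obtain ⟨w₀, hw₀⟩ := exists_ne (0 : VR)
  have hcancel : ∀ a b : K, a • w₀ = b • w₀ → a = b := fun a b h => by
    rw [← sub_eq_zero, ← sub_smul] at h
    rcases smul_eq_zero.1 h with h | h
    · exact sub_eq_zero.1 h
    · exact absurd h hw₀
  let mu : MR →ₗ[K] K :=
    { toFun := b
      map_add' := fun n n' => by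
        apply hcancel
        apply hM
        intro m
        rw [← hb', hS', map_add, add_smul, map_add, ← hb', ← hb', hS', hS']
      map_smul' := fun a n => by
        apply hcancel
        apply hM
        intro m
        rw [← hb', hS', map_smul, RingHom.id_apply, smul_assoc, map_smul, ← hb', hS'] }
  obtain ⟨v, hv⟩ := D.PVsurj mu
  refine ⟨v, LinearMap.ext fun w => ?_⟩
  rw [beta_apply]
  apply elt_ext
  · exact h0 w
  · intro m
    rw [← ht, ← LinearMap.map_smul_of_tower i]
    congr 1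
    rw [← sub_eq_zero]
    apply D.PVinj
    intro n
    have h3 : mu n = b n := rfl
    rw [map_sub, LinearMap.sub_apply, ← hS', hb', map_smul, map_smul, LinearMap.smul_apply, hv,
      h3, smul_eq_mul, smul_eq_mul, mul_comm, sub_self]

theorem beta_i (D : Link K G i p q s iR pR qR sR) (c : CellStr K G L p s)
    (hV : ∀ (x : L) (v : V), x • v = c.pi x • v)
    (hVR : ∀ (x : L) (w : VR), op x • w = op (c.pi x) • w) [Nontrivial V] (w : VR)
    (h : ∀ v, beta D c hV hVR v w = 0) : w = 0 := by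
  obtain ⟨v₀, hv₀⟩ := exists_ne (0 : V)
  apply D.PMinj
  intro m
  have h1 : elt D c v₀ w = 0 := h v₀
  have h2 := F_elt D c v₀ w m
  rw [h1, map_zero, LinearMap.zero_apply] at h2
  rcases smul_eq_zero.1 h2.symm with h3 | h3
  · exact h3
  · exact absurd (i_inj D _ h3) hv₀

theorem not_proj (c : CellStr K G L p s) (hπ : Function.Surjective c.pi)
    (hV : ∀ (x : L) (v : V), x • v = c.pi x • v) [Nontrivial V] [Module.Finite L V]
    (hV0 : ∀ φ : V →ₗ[G] G, φ = 0) : ¬ Module.Projective L V := by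
  intro hp
  obtain ⟨n, u, hu⟩ := Module.Finite.exists_fin' L V
  obtain ⟨σ, hσ⟩ := Module.projective_lifting_property u LinearMap.id hu
  obtain ⟨v, hv⟩ := exists_ne (0 : V)
  apply hv
  have h1 : u (σ v) = v := LinearMap.congr_fun hσ v
  rw [← h1, LinearMap.pi_apply_eq_sum_univ u (σ v)]
  refine Finset.sum_eq_zero fun j _ => ?_
  have h2 : c.pi (σ v j) = 0 := pi_phi c hπ hV hV0 ((LinearMap.proj j) ∘ₗ σ) v
  rw [hV, h2, zero_smul]

end cell

/-! ### the final assembly -/

section final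

/-- `L` is isomorphic to `Lᵐᵒᵖ` as a right `L`-module -/
def opEquiv (L : Type u) [Ring L] : Lᵐᵒᵖ ≃ₗ[Lᵐᵒᵖ] L where
  toFun x := unop x
  invFun x := op x
  map_add' _ _ := rfl
  map_smul' _ _ := rfl
  left_inv _ := rfl
  right_inv _ := rfl

variable {K : Type v} {G : Type u} {V : Type u} {E1 : Type u} {E2 : Type u}
    {M : Type u} {VR : Type u} {F1 : Type u} {F2 : Type u} {MR : Type u} {L : Type u}
    [Field K] [Ring G] [Algebra K G] [Ring L] [Algebra K L] [Module.Finite K L]
    [AddCommGroup V] [Module K V] [Module G V] [IsScalarTower K G V]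
    [AddCommGroup E1] [Module K E1] [Module G E1] [IsScalarTower K G E1]
    [AddCommGroup E2] [Module K E2] [Module G E2] [IsScalarTower K G E2]
    [AddCommGroup M] [Module K M] [Module G M] [IsScalarTower K G M]
    [AddCommGroup VR] [Module K VR] [Module Gᵐᵒᵖ VR] [IsScalarTower K Gᵐᵒᵖ VR]
    [AddCommGroup F1] [Module K F1] [Module Gᵐᵒᵖ F1] [IsScalarTower K Gᵐᵒᵖ F1]
    [AddCommGroup F2] [Module K F2] [Module Gᵐᵒᵖ F2] [IsScalarTower K Gᵐᵒᵖ F2]
    [AddCommGroup MR] [Module K MR] [Module Gᵐᵒᵖ MR] [IsScalarTower K Gᵐᵒᵖ MR]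
    {i : V →ₗ[G] E1} {p : E1 →ₗ[G] E2} {q : E2 →ₗ[G] M} {s : M →ₗ[K] E2}
    {iR : VR →ₗ[Gᵐᵒᵖ] F1} {pR : F1 →ₗ[Gᵐᵒᵖ] F2} {qR : F2 →ₗ[Gᵐᵒᵖ] MR} {sR : MR →ₗ[K] F2}
    [Module L V] [Module Lᵐᵒᵖ VR]

/-- **The socle module of a two-sided cell is Gorenstein-projective.** -/
theorem gproj_of_cell (D : Link K G i p q s iR pR qR sR) (c : CellStr K G L p s)
    (hV : ∀ (x : L) (v : V), x • v = c.pi x • v)
    (hVR : ∀ (x : L) (w : VR), op x • w = op (c.pi x) • w)
    [Nontrivial V] [Nontrivial VR] [Nontrivial M] [Module.Finite L V] [Module.Finite Lᵐᵒᵖ VR]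
    (hV0 : ∀ φ : V →ₗ[G] G, φ = 0) (hVR0 : ∀ φ : VR →ₗ[Gᵐᵒᵖ] Gᵐᵒᵖ, φ = 0)
    (eV : ∀ T : V →ₗ[G] V, ∃ a : K, ∀ v, T v = a • v)
    (eVR : ∀ T : VR →ₗ[Gᵐᵒᵖ] VR, ∃ a : K, ∀ v, T v = a • v)
    (xV : ∀ j : ℕ, 0 < j → Subsingleton (Ext (ModuleCat.of L V) (ModuleCat.of L L) j))
    (xVR : ∀ j : ℕ, 0 < j →
      Subsingleton (Ext (ModuleCat.of Lᵐᵒᵖ VR) (ModuleCat.of Lᵐᵒᵖ Lᵐᵒᵖ) j)) :
    IsGorensteinProjective L V := by
  have hπ := pi_surj c D.ker_q D.qs
  refine GP355.gproj_of_pairing' K L V VR (beta D c hV hVR) (beta_inj D c hV hVR)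
    (beta_surj D c hπ hV hVR hVR0 eVR) (beta_f D c hπ hV hVR hV0 eV) (beta_i D c hV hVR) xV ?_
  intro j hj
  exact Frame234.ext_iso_right ((opEquiv L).toModuleIso) j (xVR j hj)

end final

end Crest.Agent.R186.Glue2
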