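import Mathlib
import Crest.Agent.R186.Glue2_355
import Crest.Agent.R186.Cell_580
import Crest.Agent.R186.Dual_700

/-!
Row 186, S0281 (helper355): the complete CELL theorem, in terms of left modules over `G` only:
from a 2-extension `0 → V → E1 → E2 → M → 0` with `RHom(V, G) = 0`, `RHom(V, E2) = 0`,
`RHom(V, E1) = K i`, `RHom(D G, M) = 0`, `RHom(E1, M) = 0`, `RHom(E2, M) = K q` to `C0281`.
-/

set_option autoImplicit false
set_option linter.unusedSectionVars false
set_option linter.style.haveILetI false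

open MulOpposite CategoryTheory CategoryTheory.Abelian Crest.AlgebraR

namespace Crest.Agent.R186.CellFin

open Glue355 Glue2 Cell580 Syz700

universe v u w

/-! ### the structural input of the one-sided cell -/

section cellIn

variable {K : Type v} {G L : Type u} {V E1 E2 M : Type u}
    [Field K] [Ring G] [Algebra K G] [Ring L] [Algebra K L]
    [AddCommGroup V] [Module K V] [Module G V] [IsScalarTower K G V]
    [AddCommGroup E1] [Module K E1] [Module G E1] [IsScalarTower K G E1]
    [AddCommGroup E2] [Module K E2] [Module G E2] [IsScalarTower K G E2]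
    [AddCommGroup M] [Module K M] [Module G M] [IsScalarTower K G M]
    {p : E1 →ₗ[G] E2} {s : M →ₗ[K] E2}

/-- the module `Y = E1 × M` over the cell -/
def YY (_c : CellStr K G L p s) : Type u := E1 × M

instance (c : CellStr K G L p s) : AddCommGroup (YY c) := inferInstanceAs (AddCommGroup (E1 × M))

theorem F_one (c : CellStr K G L p s) : c.F 1 = 0 := by
  refine LinearMap.ext fun m => ?_
  have h1 := c.mul 1 1 m
  rw [mul_one, map_one c.pi, one_smul, one_smul] at h1
  exact left_eq_add.1 h1

instance (c : CellStr K G L p s) : Module L (YY c) where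
  smul x y := ((c.pi x • y.1 + c.F x y.2, c.pi x • y.2) : E1 × M)
  one_smul y := by
    show ((c.pi 1 • y.1 + c.F 1 y.2, c.pi 1 • y.2) : E1 × M) = y
    rw [F_one, map_one, one_smul, one_smul, LinearMap.zero_apply, add_zero]
    rfl
  mul_smul x y z := by
    show ((c.pi (x * y) • z.1 + c.F (x * y) z.2, c.pi (x * y) • z.2) : E1 × M) =
      (c.pi x • (c.pi y • z.1 + c.F y z.2) + c.F x (c.pi y • z.2), c.pi x • c.pi y • z.2)
    rw [c.mul, map_mul, mul_smul, mul_smul, smul_add]
    congr 1
    abel
  smul_zero x := by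
    show ((c.pi x • (0 : E1) + c.F x (0 : M), c.pi x • (0 : M)) : E1 × M) = 0
    simp
  smul_add x y z := by
    show ((c.pi x • (y.1 + z.1) + c.F x (y.2 + z.2), c.pi x • (y.2 + z.2)) : E1 × M) =
      (c.pi x • y.1 + c.F x y.2, c.pi x • y.2) + (c.pi x • z.1 + c.F x z.2, c.pi x • z.2)
    rw [smul_add, map_add, smul_add, Prod.mk_add_mk]
    congr 1
    abel
  add_smul x y z := by
    show ((c.pi (x + y) • z.1 + c.F (x + y) z.2, c.pi (x + y) • z.2) : E1 × M) =
      (c.pi x • z.1 + c.F x z.2, c.pi x • z.2) + (c.pi y • z.1 + c.F y z.2, c.pi y • z.2)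
    rw [map_add, map_add, add_smul, add_smul, LinearMap.add_apply, Prod.mk_add_mk]
    congr 1
    abel
  zero_smul y := by
    show ((c.pi 0 • y.1 + c.F 0 y.2, c.pi 0 • y.2) : E1 × M) = 0
    rw [map_zero, map_zero, zero_smul, zero_smul, LinearMap.zero_apply, add_zero]
    rfl

/-- a pair -/
def mk (c : CellStr K G L p s) (e : E1) (m : M) : YY c := ((e, m) : E1 × M)

/-- the first component -/
def fs (c : CellStr K G L p s) (y : YY c) : E1 := (show E1 × M from y).1

/-- the second component -/
def sn (c : CellStr K G L p s) (y : YY c) : M := (show E1 × M from y).2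

theorem mk_add (c : CellStr K G L p s) (e e' : E1) (m m' : M) :
    mk c (e + e') (m + m') = mk c e m + mk c e' m' := rfl

theorem smul_mk (c : CellStr K G L p s) (x : L) (e : E1) (m : M) :
    x • mk c e m = mk c (c.pi x • e + c.F x m) (c.pi x • m) := rfl

theorem mk_inj (c : CellStr K G L p s) {e e' : E1} {m m' : M} (h : mk c e m = mk c e' m') :
    e = e' ∧ m = m' := ⟨congrArg Prod.fst h, congrArg Prod.snd h⟩

theorem mk_fs_sn (c : CellStr K G L p s) (y : YY c) : mk c (fs c y) (sn c y) = y := rfl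

/-- the projection as a ring homomorphism -/
def ph (c : CellStr K G L p s) : L →+* G := c.pi.toRingHom

theorem ph_apply (c : CellStr K G L p s) (x : L) : ph c x = c.pi x := rfl

variable (i : V →ₗ[G] E1) [Module.Finite K M]

theorem exists_hh (c : CellStr K G L p s) (pi0 : ∀ v, p (i v) = 0)
    (x : Fin (Module.finrank K M) → V) :
    ∃ l : L, c.pi l = 0 ∧ ∀ m, c.F l m = ∑ k, (Module.finBasis K M).repr m k • i (x k) := by
  obtain ⟨l, hl, hl'⟩ := c.surj 0
    (∑ k, ((Module.finBasis K M).coord k).smulRight (i (x k))) fun m => by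
      rw [LinearMap.sum_apply, map_sum, zero_smul, zero_smul, map_zero, sub_zero]
      refine Finset.sum_eq_zero fun k _ => ?_
      rw [LinearMap.smulRight_apply, LinearMap.map_smul_of_tower, pi0, smul_zero]
  refine ⟨l, hl, fun m => ?_⟩
  rw [hl', LinearMap.sum_apply]
  rfl

/-- the element of the kernel with components `x` -/
noncomputable def hh (c : CellStr K G L p s) (pi0 : ∀ v, p (i v) = 0)
    (x : Fin (Module.finrank K M) → V) : L := (exists_hh i c pi0 x).choose

theorem pi_hh (c : CellStr K G L p s) (pi0 : ∀ v, p (i v) = 0)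
    (x : Fin (Module.finrank K M) → V) : c.pi (hh i c pi0 x) = 0 :=
  (exists_hh i c pi0 x).choose_spec.1

theorem F_hh (c : CellStr K G L p s) (pi0 : ∀ v, p (i v) = 0)
    (x : Fin (Module.finrank K M) → V) (m : M) :
    c.F (hh i c pi0 x) m = ∑ k, (Module.finBasis K M).repr m k • i (x k) :=
  (exists_hh i c pi0 x).choose_spec.2 m

theorem F_hh_basis (c : CellStr K G L p s) (pi0 : ∀ v, p (i v) = 0)
    (x : Fin (Module.finrank K M) → V) (k : Fin (Module.finrank K M)) :
    c.F (hh i c pi0 x) (Module.finBasis K M k) = i (x k) := by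
  rw [F_hh, Finset.sum_eq_single k]
  · rw [Module.Basis.repr_self, Finsupp.single_eq_same, one_smul]
  · intro j _ hj
    rw [Module.Basis.repr_self, Finsupp.single_eq_of_ne hj, zero_smul]
  · intro h
    exact absurd (Finset.mem_univ k) h

theorem hh_ext (c : CellStr K G L p s) (pi0 : ∀ v, p (i v) = 0)
    (x : Fin (Module.finrank K M) → V) (l : L) (h : c.pi l = 0)
    (h' : ∀ k, c.F l (Module.finBasis K M k) = i (x k)) : hh i c pi0 x = l := by
  rw [← sub_eq_zero]
  apply c.inj
  · rw [map_sub, pi_hh, h, sub_zero]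
  · refine (Module.finBasis K M).ext fun k => ?_
    rw [map_sub, LinearMap.sub_apply, F_hh_basis, h', sub_self, LinearMap.zero_apply]

variable [IsNoetherianRing G] [Module.Finite G V]

/-- the kernel as a power of `V` -/
noncomputable def hlin (c : CellStr K G L p s) (pi0 : ∀ v, p (i v) = 0) :
    (Fin (Module.finrank K M) → Res (ph c) V) →ₗ[L] L where
  toFun x := hh i c pi0 (fun k => ofRes (ph c) (x k))
  map_add' x y := by
    apply hh_ext
    · rw [map_add, pi_hh, pi_hh, add_zero]
    · intro k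
      rw [map_add, LinearMap.add_apply, F_hh_basis, F_hh_basis, Pi.add_apply, map_add, map_add]
  map_smul' l x := by
    apply hh_ext
    · rw [RingHom.id_apply, smul_eq_mul, map_mul, pi_hh, mul_zero]
    · intro k
      rw [RingHom.id_apply, smul_eq_mul, c.mul, F_hh_basis, pi_hh, zero_smul, map_zero, add_zero,
        Pi.smul_apply, ofRes_smul, map_smul]
      rfl

theorem hlin_apply (c : CellStr K G L p s) (pi0 : ∀ v, p (i v) = 0)
    (x : Fin (Module.finrank K M) → Res (ph c) V) :
    hlin i c pi0 x = hh i c pi0 (fun k => ofRes (ph c) (x k)) := rfl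

variable {i} in
/-- **the structural input of the one-sided cell, from a cell structure** -/
noncomputable def cellIn (c : CellStr K G L p s) (ii : Function.Injective i)
    (eip : Function.Exact i p) {q : E2 →ₗ[G] M} (epq : Function.Exact p q)
    (qs : ∀ m, q (s m) = m) [Nontrivial V]
    (hom : ∀ φ : V →ₗ[G] E1, ∃ a : K, ∀ v, φ v = a • i v) :
    CellIn (ph c) (⟨V⟩ : FM G) E1 E2 where
  hπ := pi_surj (q := q) c (fun e he => (epq e).1 he) qs
  m := Module.finrank K M
  h := hlin i c eip.apply_apply_eq_zero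
  hi := by
    rw [← LinearMap.ker_eq_bot, LinearMap.ker_eq_bot']
    intro x hx
    rw [hlin_apply] at hx
    funext k
    have h1 := F_hh_basis i c eip.apply_apply_eq_zero (fun k => ofRes (ph c) (x k)) k
    rw [hx, map_zero, LinearMap.zero_apply] at h1
    exact ii (h1.symm.trans (map_zero i).symm)
  hr := fun l => by
    constructor
    · intro hl
      have hl' : c.pi l = 0 := hl
      have h1 : ∀ k, ∃ v, i v = c.F l (Module.finBasis K M k) := fun k => (eip _).1 (by
        rw [c.rel, hl', zero_smul, zero_smul, map_zero, sub_zero])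
      choose x hx using h1
      exact ⟨fun k => toRes (ph c) (x k),
        hh_ext i c eip.apply_apply_eq_zero _ l hl' fun k => (hx k).symm⟩
    · rintro ⟨x, rfl⟩
      exact pi_hh i c eip.apply_apply_eq_zero _
  Y := YY c
  a :=
    { toFun := fun v => mk c (i (ofRes (ph c) v)) 0
      map_add' := fun v v' => by
        rw [map_add, map_add, ← mk_add, add_zero]
      map_smul' := fun l v => by
        rw [RingHom.id_apply, smul_mk, map_zero, add_zero, smul_zero, ofRes_smul, map_smul]
        rfl }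
  b :=
    { toFun := fun y => toRes (ph c) (p (fs c y) + s (sn c y))
      map_add' := fun y z => by
        show toRes (ph c) (p (fs c y + fs c z) + s (sn c y + sn c z)) =
          toRes (ph c) ((p (fs c y) + s (sn c y)) + (p (fs c z) + s (sn c z)))
        refine congrArg (toRes (ph c)) ?_
        rw [map_add, map_add]
        abel
      map_smul' := fun l y => by
        show toRes (ph c) (p (c.pi l • fs c y + c.F l (sn c y)) + s (c.pi l • sn c y)) =
          toRes (ph c) (c.pi l • (p (fs c y) + s (sn c y)))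
        refine congrArg (toRes (ph c)) ?_
        rw [map_add, c.rel, map_smul, smul_add]
        abel }
  ai := fun v v' h => ii (mk_inj c h).1
  bs := fun e => by
    obtain ⟨x, hx⟩ := (epq (ofRes (ph c) e - s (q (ofRes (ph c) e)))).1 (by
      rw [map_sub, qs, sub_self])
    refine ⟨mk c x (q (ofRes (ph c) e)), ?_⟩
    show toRes (ph c) (p x + s (q (ofRes (ph c) e))) = e
    rw [hx, sub_add_cancel]
    rfl
  ex := fun y => by
    constructor
    · intro h
      have h1 : p (fs c y) + s (sn c y) = 0 := h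
      have h2 : sn c y = 0 := by
        have h3 := congrArg q h1
        rw [map_add, qs, map_zero, epq.apply_apply_eq_zero, zero_add] at h3
        exact h3
      rw [h2, map_zero, add_zero] at h1
      obtain ⟨v, hv⟩ := (eip _).1 h1
      refine ⟨toRes (ph c) v, ?_⟩
      show mk c (i v) 0 = y
      rw [hv, ← h2]
      rfl
    · rintro ⟨v, rfl⟩
      show toRes (ph c) (p (i (ofRes (ph c) v)) + s 0) = 0
      rw [eip.apply_apply_eq_zero, map_zero, add_zero, map_zero]
  j :=
    { toFun := fun e => mk c (ofRes (ph c) e) 0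
      map_add' := fun v v' => by
        rw [map_add, ← mk_add, add_zero]
      map_smul' := fun l v => by
        rw [RingHom.id_apply, smul_mk, map_zero, add_zero, smul_zero, ofRes_smul]
        rfl }
  ji := fun v v' h => (mk_inj c h).1
  hj := fun y hy => by
    have hm : sn c y = 0 := by
      rw [← Module.forall_dual_apply_eq_zero_iff K (sn c y)]
      intro φ
      obtain ⟨v₀, hv₀⟩ := exists_ne (0 : V)
      obtain ⟨l, hl, hl'⟩ := c.surj 0 (φ.smulRight (i v₀)) fun m => by
        rw [LinearMap.smulRight_apply, LinearMap.map_smul_of_tower,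
          eip.apply_apply_eq_zero, zero_smul, zero_smul, map_zero, smul_zero, sub_zero]
      have h2 : c.pi l • fs c y + c.F l (sn c y) = 0 := congrArg Prod.fst (hy l hl)
      rw [hl, zero_smul, zero_add, hl', LinearMap.smulRight_apply] at h2
      rcases smul_eq_zero.1 h2 with h3 | h3
      · exact h3
      · exact absurd (ii (h3.trans (map_zero i).symm)) hv₀
    refine ⟨toRes (ph c) (fs c y), ?_⟩
    show mk c (fs c y) 0 = y
    rw [← hm]
    rfl
  α := fun φ => by
    -- the values of `φ` lie in `E1`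
    have hsn : ∀ x, sn c (φ x) = 0 := by
      intro x
      rw [← Module.forall_dual_apply_eq_zero_iff K (sn c (φ x))]
      intro ψ
      obtain ⟨v₀, hv₀⟩ := exists_ne (0 : V)
      obtain ⟨l, hl, hl'⟩ := c.surj 0 (ψ.smulRight (i v₀)) fun m => by
        rw [LinearMap.smulRight_apply, LinearMap.map_smul_of_tower,
          eip.apply_apply_eq_zero, zero_smul, zero_smul, map_zero, smul_zero, sub_zero]
      have h0 : l • x = 0 := by
        funext k
        show l • x k = 0
        have h1 : l • x k = toRes (ph c) (c.pi l • ofRes (ph c) (x k)) := rfl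
        rw [h1, hl, zero_smul, map_zero]
      have h1 : l • φ x = 0 := by rw [← map_smul, h0, map_zero]
      have h2 : c.pi l • fs c (φ x) + c.F l (sn c (φ x)) = 0 := congrArg Prod.fst h1
      rw [hl, zero_smul, zero_add, hl', LinearMap.smulRight_apply] at h2
      rcases smul_eq_zero.1 h2 with h3 | h3
      · exact h3
      · exact absurd (ii (h3.trans (map_zero i).symm)) hv₀
    have hπ := pi_surj (q := q) c (fun e he => (epq e).1 he) qs
    let φk : Fin (Module.finrank K M) → (V →ₗ[G] E1) := fun k =>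
      { toFun := fun v => fs c (φ (Pi.single k (toRes (ph c) v)))
        map_add' := fun v v' => by
          rw [map_add, Pi.single_add, map_add]
          rfl
        map_smul' := fun g v => by
          obtain ⟨l, rfl⟩ := hπ g
          have h1 : toRes (ph c) (c.pi l • v) = l • toRes (ph c) v := rfl
          rw [h1, Pi.single_smul, map_smul, RingHom.id_apply]
          show c.pi l • fs c _ + c.F l (sn c _) = _
          rw [hsn, map_zero, add_zero] }
    choose a ha using fun k => hom (φk k)
    refine ⟨mk c 0 (∑ k, a k • Module.finBasis K M k), fun x => ?_⟩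
    have h1 : φ x = ∑ k, φ (Pi.single k (x k)) := by
      conv_lhs => rw [← Finset.univ_sum_single x]
      rw [map_sum]
    have h2 : ∀ k, φ (Pi.single k (x k)) = mk c (a k • i (ofRes (ph c) (x k))) 0 := by
      intro k
      have h3 : fs c (φ (Pi.single k (x k))) = a k • i (ofRes (ph c) (x k)) :=
        ha k (ofRes (ph c) (x k))
      rw [← h3, ← hsn (Pi.single k (x k))]
      rfl
    have h3 : ∀ t : Finset (Fin (Module.finrank K M)), ∀ f : Fin (Module.finrank K M) → E1,
        (∑ k ∈ t, mk c (f k) 0) = mk c (∑ k ∈ t, f k) 0 := by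
      intro t f
      induction t using Finset.induction_on with
      | empty => rfl
      | insert k t hk ih => rw [Finset.sum_insert hk, Finset.sum_insert hk, ih, ← mk_add, add_zero]
    rw [h1, Finset.sum_congr rfl (fun k _ => h2 k), h3, hlin_apply, smul_mk, pi_hh, zero_smul,
      zero_smul, zero_add, map_sum]
    congr 1
    refine Finset.sum_congr rfl fun k _ => ?_
    rw [map_smul, F_hh_basis]

end cellIn

/-! ### the dual link -/

section link

open Dual700

variable {K : Type u} {G : Type u} {V E1 E2 M : Type u}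
    [Field K] [Ring G] [Algebra K G]
    [AddCommGroup V] [Module K V] [Module G V] [IsScalarTower K G V]
    [AddCommGroup E1] [Module K E1] [Module G E1] [IsScalarTower K G E1]
    [AddCommGroup E2] [Module K E2] [Module G E2] [IsScalarTower K G E2]
    [AddCommGroup M] [Module K M] [Module G M] [IsScalarTower K G M]

/-- evaluation -/
def evP (K : Type u) [Field K] (X : Type u) [AddCommGroup X] [Module K X] :
    X →ₗ[K] (Dl K X →ₗ[K] K) := Module.Dual.eval K X

theorem evP_apply (X : Type u) [AddCommGroup X] [Module K X] (x : X) (φ : Dl K X) :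
    evP K X x φ = φ x := rfl

/-- the link of a 2-extension of finite-dimensional modules with its dual -/
noncomputable def dualLink [FiniteDimensional K V] (i : V →ₗ[G] E1) (p : E1 →ₗ[G] E2)
    (q : E2 →ₗ[G] M)
    (s : M →ₗ[K] E2) (sR : Dl K V →ₗ[K] Dl K E1)
    (ii : Function.Injective i) (eip : Function.Exact i p) (epq : Function.Exact p q)
    (hq : Function.Surjective q) (qs : ∀ m, q (s m) = m)
    (qsR : ∀ φ, dm K i (sR φ) = φ) :
    Link K G i p q s (dm K q) (dm K p) (dm K i) sR where
  ker_p x hx := (eip x).1 hx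
  ker_q x hx := (epq x).1 hx
  pi0 := eip.apply_apply_eq_zero
  qs := qs
  ker_pR x hx := (dm_exact epq x).1 hx
  ker_qR x hx := (dm_exact eip x).1 hx
  piR0 := (dm_exact epq).apply_apply_eq_zero
  qsR := qsR
  PM := evP K M
  PV := evP K V
  A := evP K E1
  B := evP K E2
  bA _ _ _ := rfl
  bB _ _ _ := rfl
  hA _ _ := rfl
  hAB _ _ := rfl
  hB _ _ := rfl
  PMsurj φ := ⟨φ, fun _ => rfl⟩
  PMinj w h := Dl.ext h
  PVsurj φ := by
    refine ⟨(Module.evalEquiv K V).symm φ, fun n => ?_⟩
    have h1 : Module.evalEquiv K V ((Module.evalEquiv K V).symm φ) = φ :=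
      LinearEquiv.apply_symm_apply _ _
    exact LinearMap.congr_fun h1 n
  PVinj v h := (Module.forall_dual_apply_eq_zero_iff K v).1 h

end link

/-! ### the final theorem -/

section final

open Dual700 ExtRes700

/-- **the cell theorem.** -/
theorem cell {K : Type u} {G : Type u} [Field K] [Ring G] [Algebra K G] [FiniteDimensional K G]
    (V E1 E2 M : Type u)
    [AddCommGroup V] [Module K V] [Module G V] [IsScalarTower K G V] [FiniteDimensional K V]
    [AddCommGroup E1] [Module K E1] [Module G E1] [IsScalarTower K G E1] [FiniteDimensional K E1]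
    [AddCommGroup E2] [Module K E2] [Module G E2] [IsScalarTower K G E2] [FiniteDimensional K E2]
    [AddCommGroup M] [Module K M] [Module G M] [IsScalarTower K G M] [FiniteDimensional K M]
    [Nontrivial V] [Nontrivial M]
    (i : V →ₗ[G] E1) (p : E1 →ₗ[G] E2) (q : E2 →ₗ[G] M)
    (ii : Function.Injective i) (eip : Function.Exact i p) (epq : Function.Exact p q)
    (hq : Function.Surjective q)
    (hG : ∀ j, E0 G V G j) (hE2 : ∀ j, E0 G V E2 j) (hE1 : ∀ j, 0 < j → E0 G V E1 j)
    (hi : ∀ φ : V →ₗ[G] E1, ∃ a : K, ∀ v, φ v = a • i v)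
    (hM : ∀ j, E0 Gᵐᵒᵖ (Dl K M) Gᵐᵒᵖ j) (kE1 : ∀ j, E0 G E1 M j)
    (kE2 : ∀ j, 0 < j → E0 G E2 M j)
    (hhq : ∀ φ : E2 →ₗ[G] M, ∃ a : K, ∀ e, φ e = a • q e)
    {n : ℕ} (hn : Spine700.Simples K G n) :
    ∃ (L : Type u) (_ : Ring L) (_ : Algebra K L) (Z : Type u) (_ : AddCommGroup Z)
      (_ : Module L Z), FiniteDimensional K L ∧ Module.Finite L Z ∧ Spine700.Simples K L n ∧
      ¬ Module.Projective L Z ∧ IsGorensteinProjective L Z ∧
      (∀ j, 0 < j → E0 L Z Z j) ∧ (∀ j, 0 < j → E0 L Z L j) := by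
  haveI : IsNoetherianRing G := isNoetherian_of_tower K (inferInstance : IsNoetherian K G)
  haveI : Module.Finite K Gᵐᵒᵖ := Module.Finite.equiv (opLinearEquiv K : G ≃ₗ[K] Gᵐᵒᵖ)
  haveI : IsNoetherianRing Gᵐᵒᵖ := isNoetherian_of_tower K (inferInstance : IsNoetherian K Gᵐᵒᵖ)
  haveI : Module.Finite G V := Module.Finite.of_restrictScalars_finite K G V
  haveI : Module.Finite G E1 := Module.Finite.of_restrictScalars_finite K G E1
  haveI : Module.Finite G E2 := Module.Finite.of_restrictScalars_finite K G E2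
  haveI : Module.Finite K (Dl K M) := inferInstanceAs (Module.Finite K (M →ₗ[K] K))
  haveI : Module.Finite K (Dl K V) := inferInstanceAs (Module.Finite K (V →ₗ[K] K))
  haveI : Module.Finite Gᵐᵒᵖ (Dl K M) := Module.Finite.of_restrictScalars_finite K Gᵐᵒᵖ (Dl K M)
  haveI : Nontrivial (Dl K M) := inferInstanceAs (Nontrivial (Module.Dual K M))
  -- sections
  obtain ⟨s, hs⟩ := Module.projective_lifting_property (kl K q) LinearMap.id hq
  have qs : ∀ m, q (s m) = m := fun m => LinearMap.congr_fun hs m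
  obtain ⟨sR, hsR⟩ := Module.projective_lifting_property (kl (A := Gᵐᵒᵖ) K (dm K i))
    (LinearMap.id : Dl K V →ₗ[K] Dl K V) (dm_surj ii)
  have qsR : ∀ φ, dm K i (sR φ) = φ := fun φ => LinearMap.congr_fun hsR φ
  let D := dualLink i p q s sR ii eip epq hq qs qsR
  let L := cellSub K G p s
  let c : CellStr K G L p s := cellStr K G p s
  haveI fdL : Module.Finite K L := finite_cellSub K G p s
  let cR : CellStr K Gᵐᵒᵖ Lᵐᵒᵖ (dm K p) sR := c.mop D
  have hπ : Function.Surjective c.pi := pi_surj c D.ker_q D.qs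
  let inL := cellIn c ii eip epq qs hi
  have homR : ∀ φ : Dl K M →ₗ[Gᵐᵒᵖ] Dl K E2, ∃ a : K, ∀ v, φ v = a • dm K q v := by
    intro φ
    obtain ⟨f, rfl⟩ := dm_surjective φ
    obtain ⟨a, ha⟩ := hhq f
    refine ⟨a, fun v => Dl.ext fun e => ?_⟩
    rw [dm_apply, ha, Dl.map_ksmul, Dl.ksmul_apply, dm_apply]
  let inR := cellIn cR (dm_inj hq) (dm_exact epq) (dm_exact eip) qsR homR
  -- the modules over the cell
  letI mV : Module L V := Module.compHom V (ph c)
  letI mVR : Module Lᵐᵒᵖ (Dl K M) := Module.compHom (Dl K M) (ph cR)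
  have hV : ∀ (x : L) (v : V), x • v = c.pi x • v := fun _ _ => rfl
  have hVR : ∀ (x : L) (w : Dl K M), op x • w = op (c.pi x) • w := fun _ _ => rfl
  haveI : IsScalarTower K L V := ⟨fun a x v => by
    rw [hV, hV, map_smul, smul_assoc]⟩
  haveI : Module.Finite L V := Module.Finite.of_restrictScalars_finite K L V
  haveI : IsScalarTower K Lᵐᵒᵖ (Dl K M) := ⟨fun a x v => by
    have h1 : (a • x) • v = op (c.pi (unop (a • x))) • v := rfl
    have h2 : x • v = op (c.pi (unop x)) • v := rfl
    rw [h1, h2, unop_smul, map_smul, op_smul, smul_assoc]⟩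
  haveI : Module.Finite Lᵐᵒᵖ (Dl K M) :=
    Module.Finite.of_restrictScalars_finite K Lᵐᵒᵖ (Dl K M)
  have hV0 : ∀ φ : V →ₗ[G] G, φ = 0 := zero_iff.1 (hG 0)
  have hVR0 : ∀ φ : Dl K M →ₗ[Gᵐᵒᵖ] Gᵐᵒᵖ, φ = 0 := zero_iff.1 (hM 0)
  have eV : ∀ T : V →ₗ[G] V, ∃ a : K, ∀ v, T v = a • v := by
    intro T
    obtain ⟨a, ha⟩ := hi (i ∘ₗ T)
    refine ⟨a, fun v => ii ?_⟩
    rw [LinearMap.map_smul_of_tower, ← ha]
    rfl
  have eVR : ∀ T : Dl K M →ₗ[Gᵐᵒᵖ] Dl K M, ∃ a : K, ∀ v, T v = a • v := by
    intro T
    obtain ⟨a, ha⟩ := homR (dm K q ∘ₗ T)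
    refine ⟨a, fun v => dm_inj (K := K) hq ?_⟩
    rw [LinearMap.map_smul_of_tower, ← ha]
    rfl
  have kE1' : ∀ j, E0 Gᵐᵒᵖ (Dl K M) (Dl K E1) j := fun j => (dual_iff E1 M j).1 (kE1 j)
  have kE2' : ∀ j, 0 < j → E0 Gᵐᵒᵖ (Dl K M) (Dl K E2) j := fun j hj =>
    (dual_iff E2 M j).1 (kE2 j hj)
  have xVV : ∀ j, 0 < j → E0 L V V j := fun j hj => inL.ext_self hE2 hE1 j hj
  have xVL : ∀ j, 0 < j → E0 L V L j := fun j hj => inL.ext_ring hE2 hE1 hG j hj
  have xVR : ∀ j, 0 < j → E0 Lᵐᵒᵖ (Dl K M) Lᵐᵒᵖ j := fun j hj =>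
    inR.ext_ring kE1' kE2' hM j hj
  exact ⟨L, inferInstance, inferInstance, V, inferInstance, mV, fdL, inferInstance,
    simples c hπ hn, not_proj c hπ hV hV0,
    gproj_of_cell D c hV hVR hV0 hVR0 eV eVR xVL xVR, xVV, xVL⟩

/-- **S0281 (over `K`) from the cell input.** -/
theorem c0281_cell {K : Type} {G : Type} [Field K] [Ring G] [Algebra K G]
    [FiniteDimensional K G] (V E1 E2 M : Type)
    [AddCommGroup V] [Module K V] [Module G V] [IsScalarTower K G V] [FiniteDimensional K V]
    [AddCommGroup E1] [Module K E1] [Module G E1] [IsScalarTower K G E1] [FiniteDimensional K E1]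
    [AddCommGroup E2] [Module K E2] [Module G E2] [IsScalarTower K G E2] [FiniteDimensional K E2]
    [AddCommGroup M] [Module K M] [Module G M] [IsScalarTower K G M] [FiniteDimensional K M]
    [Nontrivial V] [Nontrivial M]
    (i : V →ₗ[G] E1) (p : E1 →ₗ[G] E2) (q : E2 →ₗ[G] M)
    (ii : Function.Injective i) (eip : Function.Exact i p) (epq : Function.Exact p q)
    (hq : Function.Surjective q)
    (hG : ∀ j, E0 G V G j) (hE2 : ∀ j, E0 G V E2 j) (hE1 : ∀ j, 0 < j → E0 G V E1 j)
    (hi : ∀ φ : V →ₗ[G] E1, ∃ a : K, ∀ v, φ v = a • i v)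
    (hM : ∀ j, E0 Gᵐᵒᵖ (Dl K M) Gᵐᵒᵖ j) (kE1 : ∀ j, E0 G E1 M j)
    (kE2 : ∀ j, 0 < j → E0 G E2 M j)
    (hhq : ∀ φ : E2 →ₗ[G] M, ∃ a : K, ∀ e, φ e = a • q e)
    {n : ℕ} (hn7 : n ≤ 7) (hn : Spine700.Simples K G n) : Spine700.C0281.{w} K := by
  obtain ⟨L, i1, i2, Z, i3, i4, f1, f2, hs, hp, hgp, hzz, -⟩ :=
    cell V E1 E2 M i p q ii eip epq hq hG hE2 hE1 hi hM kE1 kE2 hhq hn
  exact Spine700.c0281_gp L (Or.inl ⟨n, hn7, hs⟩) Z hp hgp hzz

end final

end Crest.Agent.R186.CellFin
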