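import Crest.Agent.R186.CellLam_580
import Crest.Agent.R186.GP_355
import Crest.Agent.R186.Spine_700

/-!
Row 186, S0281, block CELL (helper580): the two-sided cell theorem.
-/

set_option autoImplicit false
set_option linter.style.haveILetI false
set_option linter.unusedSectionVars false

universe u

open CategoryTheory CategoryTheory.Abelian MulOpposite

namespace Crest.Agent.R186.Cell580

open Syz700 Glue355 Crest.AlgebraR

section

variable {K : Type u} {G : Type u} {L : Type u} {V E1 E2 M VR F1 F2 MR : Type u}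
    [Field K] [Ring G] [Algebra K G] [Ring L] [Algebra K L]
    [AddCommGroup V] [Module K V] [Module G V] [IsScalarTower K G V]
    [AddCommGroup E1] [Module K E1] [Module G E1] [IsScalarTower K G E1]
    [AddCommGroup E2] [Module K E2] [Module G E2] [IsScalarTower K G E2]
    [AddCommGroup M] [Module K M] [Module G M] [IsScalarTower K G M]
    [AddCommGroup VR] [Module K VR] [Module Gᵐᵒᵖ VR] [IsScalarTower K Gᵐᵒᵖ VR]
    [AddCommGroup F1] [Module K F1] [Module Gᵐᵒᵖ F1] [IsScalarTower K Gᵐᵒᵖ F1]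
    [AddCommGroup F2] [Module K F2] [Module Gᵐᵒᵖ F2] [IsScalarTower K Gᵐᵒᵖ F2]
    [AddCommGroup MR] [Module K MR] [Module Gᵐᵒᵖ MR] [IsScalarTower K Gᵐᵒᵖ MR]
    {i : V →ₗ[G] E1} {p : E1 →ₗ[G] E2} {q : E2 →ₗ[G] M} {s : M →ₗ[K] E2}
    {iR : VR →ₗ[Gᵐᵒᵖ] F1} {pR : F1 →ₗ[Gᵐᵒᵖ] F2} {qR : F2 →ₗ[Gᵐᵒᵖ] MR} {sR : MR →ₗ[K] F2}

/-- homological hypotheses on one side of the cell -/
structure Half (K : Type u) (G : Type u) {V E1 E2 M : Type u} [Field K] [Ring G]
    [AddCommGroup V] [Module K V] [Module G V] [AddCommGroup E1] [Module G E1]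
    [AddCommGroup E2] [Module G E2] [AddCommGroup M] [Module G M]
    (i : V →ₗ[G] E1) (p : E1 →ₗ[G] E2) (q : E2 →ₗ[G] M) : Prop where
  ii : Function.Injective i
  ex₁ : Function.Exact i p
  ex₂ : Function.Exact p q
  /-- `Ext_G^*(V, G) = 0` -/
  null : ∀ n : ℕ, Subsingleton (Ext (ModuleCat.of G V) (ModuleCat.of G G) n)
  /-- `Ext_G^*(V, E₂) = 0` -/
  e2 : ∀ n : ℕ, Subsingleton (Ext (ModuleCat.of G V) (ModuleCat.of G E2) n)
  /-- `Ext_G^n(V, E₁) = 0`, `n > 0` -/
  e1 : ∀ n : ℕ, 0 < n → Subsingleton (Ext (ModuleCat.of G V) (ModuleCat.of G E1) n)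
  /-- `Hom_G (V, E₁) = K i` -/
  hom : ∀ φ : V →ₗ[G] E1, ∃ t : K, ∀ v, φ v = i (t • v)

variable (D : Link K G i p q s iR pR qR sR) (c : CellStr K G L p s)

/-- the pairing `V × DM → Hom_K (M, V) ⊆ L` as a map `M → V` -/
def rk (v : V) (w : VR) : M →ₗ[K] V := ((D.PM).flip w).smulRight v

theorem rk_apply (v : V) (w : VR) (m : M) : rk D v w m = D.PM m w • v := rfl

/-- the pairing -/
noncomputable def pr (v : V) (w : VR) : L := kap c D.pi0 (rk D v w)

theorem pi_pr (v : V) (w : VR) : c.pi (pr D c v w) = 0 := pi_kap c D.pi0 _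

theorem F_pr (v : V) (w : VR) (m : M) : c.F (pr D c v w) m = i (D.PM m w • v) :=
  F_kap c D.pi0 _ m

theorem pr_eq {x : L} (v : V) (w : VR) (h1 : c.pi x = 0)
    (h2 : ∀ m, c.F x m = i (D.PM m w • v)) : x = pr D c v w := kap_eq c D.pi0 _ h1 h2

/-- the value of the right component on the pairing -/
theorem FR_pr (v : V) (w : VR) (n : MR) :
    (c.mop D).F (op (pr D c v w)) n = iR (D.PV v n • w) := by
  change D.z c (pr D c v w) n = _
  apply D.z_ext
  · rw [D.piR0, pi_pr, op_zero, zero_smul, zero_smul, map_zero, sub_zero]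
  · intro m
    rw [D.hB, D.qs, map_smul, F_pr, D.hA, D.qsR, map_smul, LinearMap.smul_apply, smul_eq_mul,
      smul_eq_mul, mul_comm]

/-- scalars on the restricted module -/
instance instResK {π : L →+* G} : Module K (Res π V) := inferInstanceAs (Module K V)

instance instResTower (c : CellStr K G L p s) : IsScalarTower K L (Res (piC c) V) :=
  ⟨fun k l x => by
    change c.pi (k • l) • ofRes (piC c) x = k • (c.pi l • ofRes (piC c) x)
    rw [map_smul, smul_assoc]⟩

theorem finite_res [FiniteDimensional K V] (c : CellStr K G L p s) :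
    Module.Finite L (Res (piC c) V) := by
  haveI : Module.Finite K (Res (piC c) V) := inferInstanceAs (Module.Finite K V)
  exact Module.Finite.of_restrictScalars_finite K L (Res (piC c) V)

theorem pr_add_right (v : V) (w w' : VR) : pr D c v (w + w') = pr D c v w + pr D c v w' := by
  symm
  refine pr_eq D c v _ ?_ fun m => ?_
  · rw [map_add, pi_pr, pi_pr, add_zero]
  · rw [map_add, LinearMap.add_apply, F_pr, F_pr, map_add, add_smul, map_add]

theorem pr_add_left (v v' : V) (w : VR) : pr D c (v + v') w = pr D c v w + pr D c v' w := by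
  symm
  refine pr_eq D c _ _ ?_ fun m => ?_
  · rw [map_add, pi_pr, pi_pr, add_zero]
  · rw [map_add, LinearMap.add_apply, F_pr, F_pr, smul_add, map_add]

theorem mul_pr (x : L) (v : V) (w : VR) : x * pr D c v w = pr D c (c.pi x • v) w := by
  refine mul_kap c D.pi0 x _ _ fun m => ?_
  rw [rk_apply, rk_apply, gk]

/-- the pairing `PM` is balanced -/
theorem PM_bal (g : G) (m : M) (w : VR) : D.PM (g • m) w = D.PM m (op g • w) := by
  have h1 := D.hB (s m) (op g • w)
  have h2 := D.hB (g • s m) w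
  rw [D.qs] at h1
  rw [map_smul q, D.qs] at h2
  rw [← h1, ← h2, map_smul iR, ← D.bB]

theorem pr_mul (x : L) (v : V) (w : VR) : pr D c v w * x = pr D c v (op (c.pi x) • w) := by
  refine kap_mul c D.pi0 x _ _ fun m => ?_
  rw [rk_apply, rk_apply, PM_bal]

/-- the pairing, linear on both sides -/
noncomputable def betaL : Res (piC c) V →ₗ[L] (Res (piC (c.mop D)) VR →ₗ[Lᵐᵒᵖ] L) where
  toFun v :=
    { toFun := fun w => pr D c (ofRes (piC c) v) (ofRes (piC (c.mop D)) w)
      map_add' := fun w w' => pr_add_right D c _ _ _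
      map_smul' := fun a w => by
        rw [RingHom.id_apply]
        change _ = pr D c _ _ * unop a
        rw [pr_mul]
        rfl }
  map_add' v v' := LinearMap.ext fun w => pr_add_left D c _ _ _
  map_smul' l v := LinearMap.ext fun w => by
    change pr D c (c.pi l • ofRes (piC c) v) _ = l * pr D c _ _
    rw [mul_pr]

theorem betaL_apply (v : V) (w : VR) :
    betaL D c (toRes (piC c) v) (toRes (piC (c.mop D)) w) = pr D c v w := rfl

section Main

variable [FiniteDimensional K G] [FiniteDimensional K L] [FiniteDimensional K V]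
  [FiniteDimensional K M] [FiniteDimensional K VR] [FiniteDimensional K MR]

/-- the left module as a bundled module -/
abbrev fmV (K G V : Type u) [Field K] [Ring G] [Algebra K G] [AddCommGroup V] [Module K V]
    [Module G V] [IsScalarTower K G V] [FiniteDimensional K V] : FM G :=
  haveI : Module.Finite G V := Module.Finite.of_restrictScalars_finite K G V
  ⟨V⟩

/-- the left side -/
noncomputable def sideL (HL : Half K G i p q) (hqs : ∀ m, q (s m) = m)
    (c : CellStr K G L p s) : Side K (piC c) (fmV K G V) i p q :=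
  sideOf (V := fmV K G V) c HL.ii HL.ex₁ HL.ex₂ hqs HL.hom

/-- the right side -/
noncomputable def sideR (HR : Half K Gᵐᵒᵖ iR pR qR) (D : Link K G i p q s iR pR qR sR)
    (c : CellStr K G L p s) : Side K (piC (c.mop D)) (fmV K Gᵐᵒᵖ VR) iR pR qR :=
  sideOf (V := fmV K Gᵐᵒᵖ VR) (c.mop D) HR.ii HR.ex₁ HR.ex₂ D.qsR HR.hom

theorem beta_inj (HL : Half K G i p q) (hM : Nontrivial M) :
    Function.Injective (betaL D c) := by
  rw [← LinearMap.ker_eq_bot, LinearMap.ker_eq_bot']
  intro v hv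
  obtain ⟨m, hm⟩ := exists_ne (0 : M)
  obtain ⟨φ, hφ⟩ : ∃ φ : M →ₗ[K] K, φ m ≠ 0 := by
    by_contra hcon
    push Not at hcon
    exact hm ((Module.forall_dual_apply_eq_zero_iff K m).1 hcon)
  obtain ⟨w, hw⟩ := D.PMsurj φ
  have h1 := LinearMap.congr_fun hv (toRes (piC (c.mop D)) w)
  have h2 : pr D c (ofRes (piC c) v) w = 0 := h1
  have h3 := F_pr D c (ofRes (piC c) v) w m
  rw [h2, map_zero, LinearMap.zero_apply, hw] at h3
  have h4 : φ m • ofRes (piC c) v = 0 := HL.ii (h3.symm.trans (map_zero i).symm)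
  exact (smul_eq_zero.1 h4).resolve_left hφ

theorem beta_nondeg (HL : Half K G i p q) (hV : Nontrivial V) (w : VR)
    (hw : ∀ v, pr D c v w = 0) : w = 0 := by
  obtain ⟨v, hv⟩ := exists_ne (0 : V)
  refine D.PMinj w fun m => ?_
  have h3 := F_pr D c v w m
  rw [hw, map_zero, LinearMap.zero_apply] at h3
  have h4 : D.PM m w • v = 0 := HL.ii (h3.symm.trans (map_zero i).symm)
  exact (smul_eq_zero.1 h4).resolve_right hv

theorem hom_left (HL : Half K G i p q) (hV : Nontrivial V) (φ : Res (piC c) V →ₗ[L] L) :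
    ∃ w : VR, ∀ v : V, φ (toRes (piC c) v) = pr D c v w := by
  haveI : IsNoetherianRing G := isNoetherian_of_tower K inferInstance
  obtain ⟨t, ht⟩ := (sideL HL D.qs c).hom_ring (V := fmV K G V) hV (HL.null 0) φ
  obtain ⟨w, hw⟩ := D.PMsurj
    (∑ k, t k • ((LinearMap.proj k) ∘ₗ (Module.finBasis K M).equivFun.toLinearMap))
  refine ⟨w, fun v => ?_⟩
  refine pr_eq D c v w ?_ fun m => ?_
  · rw [ht]
    exact pi_kap c D.pi0 _
  · rw [ht]
    change c.F (kap c D.pi0 (coordT (V := fmV K G V) fun k => t k • v)) m = _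
    rw [F_kap, coordT_apply, hw, LinearMap.sum_apply, Finset.sum_smul]
    congr 1
    refine Finset.sum_congr rfl fun k _ => ?_
    rw [LinearMap.smul_apply, smul_smul, smul_eq_mul, mul_comm]
    rfl

theorem hom_right (HR : Half K Gᵐᵒᵖ iR pR qR) (hVR : Nontrivial VR)
    (φ : Res (piC (c.mop D)) VR →ₗ[Lᵐᵒᵖ] Lᵐᵒᵖ) :
    ∃ v : V, ∀ w : VR, φ (toRes (piC (c.mop D)) w) = op (pr D c v w) := by
  haveI : Module.Finite K Gᵐᵒᵖ := Module.Finite.equiv (opLinearEquiv K : G ≃ₗ[K] Gᵐᵒᵖ)
  haveI : IsNoetherianRing Gᵐᵒᵖ := isNoetherian_of_tower K inferInstance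
  obtain ⟨t, ht⟩ := (sideR HR D c).hom_ring (V := fmV K Gᵐᵒᵖ VR) hVR (HR.null 0) φ
  obtain ⟨v, hv⟩ := D.PVsurj
    (∑ k, t k • ((LinearMap.proj k) ∘ₗ (Module.finBasis K MR).equivFun.toLinearMap))
  refine ⟨v, fun w => ?_⟩
  refine CellStr.ext' (c.mop D) ?_ fun n => ?_
  · rw [ht]
    refine (pi_kap (c.mop D) D.piR0 _).trans ?_
    change (0 : Gᵐᵒᵖ) = op (c.pi (pr D c v w))
    rw [pi_pr, op_zero]
  · rw [ht, FR_pr]
    change (c.mop D).F (kap (c.mop D) D.piR0
      (coordT (V := fmV K Gᵐᵒᵖ VR) fun k => t k • w)) n = _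
    rw [F_kap, coordT_apply, hv, LinearMap.sum_apply, Finset.sum_smul]
    congr 1
    refine Finset.sum_congr rfl fun k _ => ?_
    rw [LinearMap.smul_apply, smul_smul, smul_eq_mul, mul_comm]
    rfl

/-- `Lᵐᵒᵖ` and `L` as right modules -/
def opE (L : Type u) [Ring L] : Lᵐᵒᵖ ≃ₗ[Lᵐᵒᵖ] L where
  toFun := unop
  invFun := op
  map_add' _ _ := rfl
  map_smul' _ _ := rfl
  left_inv _ := rfl
  right_inv _ := rfl

include D in
/-- **the two-sided cell theorem**: `V` is Gorenstein projective over the cell algebra. -/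
theorem cell_gp (HL : Half K G i p q) (HR : Half K Gᵐᵒᵖ iR pR qR) (hV : Nontrivial V)
    (hM : Nontrivial M) (hVR : Nontrivial VR) :
    IsGorensteinProjective L (Res (piC c) V) := by
  haveI : Module.Finite K Gᵐᵒᵖ := Module.Finite.equiv (opLinearEquiv K : G ≃ₗ[K] Gᵐᵒᵖ)
  haveI : IsNoetherianRing G := isNoetherian_of_tower K inferInstance
  haveI : IsNoetherianRing Gᵐᵒᵖ := isNoetherian_of_tower K inferInstance
  haveI : Module.Finite L (Res (piC c) V) := finite_res c
  haveI : Module.Finite K Lᵐᵒᵖ := Module.Finite.equiv (opLinearEquiv K : L ≃ₗ[K] Lᵐᵒᵖ)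
  haveI : Module.Finite Lᵐᵒᵖ (Res (piC (c.mop D)) VR) := finite_res (c.mop D)
  refine GP355.gproj_of_pairing' K L (Res (piC c) V) (Res (piC (c.mop D)) VR) (betaL D c)
    (beta_inj D c HL hM) ?_ ?_ ?_ ?_ ?_
  · intro ψ
    obtain ⟨v, hv⟩ := hom_right D c HR hVR ((opE L).symm.toLinearMap ∘ₗ ψ)
    refine ⟨toRes (piC c) v, LinearMap.ext fun w => ?_⟩
    have h1 := hv (ofRes _ w)
    have h2 : op (ψ w) = op (pr D c v (ofRes _ w)) := h1
    exact (op_injective h2).symm
  · intro φ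
    obtain ⟨w, hw⟩ := hom_left D c HL hV φ
    exact ⟨toRes _ w, fun z => hw (ofRes _ z)⟩
  · intro w hw
    exact beta_nondeg D c HL hV (ofRes _ w) fun v => hw (toRes _ v)
  · exact fun n hn => ((sideL HL D.qs c).toIn hV).ext_ring HL.e2 HL.e1 HL.null n hn
  · intro n hn
    exact (((sideR HR D c).toIn hVR).ext_ring HR.e2 HR.e1 HR.null n hn).congr₂ (opE L)

/-- no self-extensions -/
theorem cell_ext (HL : Half K G i p q) (hqs : ∀ m, q (s m) = m) (hV : Nontrivial V) (n : ℕ)
    (hn : 0 < n) :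
    Subsingleton (Ext (ModuleCat.of L (Res (piC c) V)) (ModuleCat.of L (Res (piC c) V)) n) := by
  haveI : IsNoetherianRing G := isNoetherian_of_tower K inferInstance
  exact ((sideL HL hqs c).toIn hV).ext_self HL.e2 HL.e1 n hn

/-- not projective -/
theorem cell_np (HL : Half K G i p q) (hqs : ∀ m, q (s m) = m) (hV : Nontrivial V) :
    ¬ Module.Projective L (Res (piC c) V) := by
  haveI : IsNoetherianRing G := isNoetherian_of_tower K inferInstance
  haveI : Nontrivial (fmV K G V).X := hV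
  exact ((sideL HL hqs c).toIn hV).not_proj (HL.null 0)

end Main

/-! ### simples of the cell algebra -/

theorem sq_zero (x : L) (hx : c.pi x = 0) : x * x = 0 := by
  refine c.inj _ ?_ (LinearMap.ext fun m => ?_)
  · rw [map_mul, hx, mul_zero]
  · rw [c.mul, hx, zero_smul, zero_smul, map_zero, add_zero, LinearMap.zero_apply]

theorem nil_lift {n : ℕ} (Q : G →ₐ[K] (Fin n → K)) (hq : ∀ x, Q x = 0 → IsNilpotent x) (x : L)
    (hx : (Q.comp c.pi) x = 0) : IsNilpotent x := by
  obtain ⟨m, hm⟩ := hq (c.pi x) hx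
  refine ⟨m + m, ?_⟩
  rw [pow_add]
  exact sq_zero c _ (by rw [map_pow, hm])

theorem eight_lift (hs : Function.Surjective c.pi) (h : Spine700.Eight K G) :
    Spine700.Eight K L := by
  rcases h with ⟨n, hn, Q, hQ, hq⟩ | ⟨Q, hQ, hq, a, b, c', d, ha, hb, hc, hd, hne⟩
  · exact Or.inl ⟨n, hn, Q.comp c.pi, hQ.comp hs, nil_lift c Q hq⟩
  · obtain ⟨a, rfl⟩ := hs a
    obtain ⟨b, rfl⟩ := hs b
    obtain ⟨c', rfl⟩ := hs c'
    obtain ⟨d, rfl⟩ := hs d
    refine Or.inr ⟨Q.comp c.pi, hQ.comp hs, nil_lift c Q hq, a, b, c', d, ha, hb, hc, hd,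
      fun h => hne ?_⟩
    rw [← map_mul, ← map_mul, ← map_mul, h, map_zero]

end

/-- **S0281 from a cell**: a finite-dimensional `Γ` with at most eight simples, a left
`2`-extension `0 → V → E₁ → E₂ → M → 0`, a right one `0 → DM → F₁ → F₂ → DV → 0`, linked by
pairings, with the one-sided hypotheses on both sides. -/
theorem c0281_cell {K G V E1 E2 M VR F1 F2 MR : Type}
    [Field K] [Ring G] [Algebra K G]
    [AddCommGroup V] [Module K V] [Module G V] [IsScalarTower K G V]
    [AddCommGroup E1] [Module K E1] [Module G E1] [IsScalarTower K G E1]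
    [AddCommGroup E2] [Module K E2] [Module G E2] [IsScalarTower K G E2]
    [AddCommGroup M] [Module K M] [Module G M] [IsScalarTower K G M]
    [AddCommGroup VR] [Module K VR] [Module Gᵐᵒᵖ VR] [IsScalarTower K Gᵐᵒᵖ VR]
    [AddCommGroup F1] [Module K F1] [Module Gᵐᵒᵖ F1] [IsScalarTower K Gᵐᵒᵖ F1]
    [AddCommGroup F2] [Module K F2] [Module Gᵐᵒᵖ F2] [IsScalarTower K Gᵐᵒᵖ F2]
    [AddCommGroup MR] [Module K MR] [Module Gᵐᵒᵖ MR] [IsScalarTower K Gᵐᵒᵖ MR]
    [FiniteDimensional K G] [FiniteDimensional K V] [FiniteDimensional K E1]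
    [FiniteDimensional K M] [FiniteDimensional K VR] [FiniteDimensional K MR]
    [Nontrivial V] [Nontrivial M] [Nontrivial VR]
    {i : V →ₗ[G] E1} {p : E1 →ₗ[G] E2} {q : E2 →ₗ[G] M} {s : M →ₗ[K] E2}
    {iR : VR →ₗ[Gᵐᵒᵖ] F1} {pR : F1 →ₗ[Gᵐᵒᵖ] F2} {qR : F2 →ₗ[Gᵐᵒᵖ] MR} {sR : MR →ₗ[K] F2}
    (D : Link K G i p q s iR pR qR sR) (h8 : Spine700.Eight K G)
    (HL : Half K G i p q) (HR : Half K Gᵐᵒᵖ iR pR qR) : Spine700.C0281.{u} K := by
  have hs := surj_pi (lamStr K p s) HL.ex₂ D.qs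
  haveI := finite_res (V := V) (lamStr K p s)
  exact Spine700.c0281_gp (LamT K p s) (eight_lift (lamStr K p s) hs h8)
    (Res (piC (lamStr K p s)) V)
    (cell_np (lamStr K p s) HL D.qs inferInstance)
    (cell_gp D (lamStr K p s) HL HR inferInstance inferInstance inferInstance)
    (fun n hn => cell_ext (lamStr K p s) HL D.qs inferInstance n hn)

end Crest.Agent.R186.Cell580
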