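import Crest.Agent.R186.CellTwo_580

/-!
Row 186, S0281, block CELL (helper580): the cell algebra
`Λ = {(g, f) ∈ Γ × Hom_K (M, E₁) : p f = g s - s g}` of a `2`-extension
`0 → V → E₁ → E₂ → M → 0` with `K`-linear section `s : M → E₂`.
-/

set_option autoImplicit false
set_option linter.style.haveILetI false
set_option linter.unusedSectionVars false

universe u

open CategoryTheory CategoryTheory.Abelian

namespace Crest.Agent.R186.Cell580

open Syz700

section Lam

variable (K : Type u) [Field K] {Γ : Type u} [Ring Γ] [Algebra K Γ]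
  {E₁ E₂ M : Type u} [AddCommGroup E₁] [AddCommGroup E₂] [AddCommGroup M]
  [Module Γ E₁] [Module Γ E₂] [Module Γ M] [Module K E₁] [Module K E₂] [Module K M]
  [IsScalarTower K Γ E₁] [IsScalarTower K Γ E₂] [IsScalarTower K Γ M]
  (p : E₁ →ₗ[Γ] E₂) (s : M →ₗ[K] E₂)

/-- `(e, m) ↦ p e + s m` -/
def bY : E₁ × M →ₗ[K] E₂ := (p.restrictScalars K).coprod s

theorem bY_apply (y : E₁ × M) : bY K p s y = p y.1 + s y.2 := rfl

/-- the cell algebra -/
def Lam : Subalgebra K (Γ × Module.End K (E₁ × M)) where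
  carrier := {x | (∀ e, x.2 (e, 0) = (x.1 • e, 0)) ∧ (∀ y, (x.2 y).2 = x.1 • y.2) ∧
    ∀ y, bY K p s (x.2 y) = x.1 • bY K p s y}
  mul_mem' := by
    rintro a b ⟨ha1, ha2, ha3⟩ ⟨hb1, hb2, hb3⟩
    refine ⟨fun e => ?_, fun y => ?_, fun y => ?_⟩
    · change a.2 (b.2 (e, 0)) = ((a.1 * b.1) • e, 0)
      rw [hb1, ha1, mul_smul]
    · change (a.2 (b.2 y)).2 = (a.1 * b.1) • y.2
      rw [ha2, hb2, mul_smul]
    · change bY K p s (a.2 (b.2 y)) = (a.1 * b.1) • bY K p s y
      rw [ha3, hb3, mul_smul]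
  add_mem' := by
    rintro a b ⟨ha1, ha2, ha3⟩ ⟨hb1, hb2, hb3⟩
    refine ⟨fun e => ?_, fun y => ?_, fun y => ?_⟩
    · change a.2 (e, 0) + b.2 (e, 0) = ((a.1 + b.1) • e, 0)
      rw [hb1, ha1, add_smul, Prod.mk_add_mk, add_zero]
    · change (a.2 y + b.2 y).2 = (a.1 + b.1) • y.2
      rw [Prod.snd_add, ha2, hb2, add_smul]
    · change bY K p s (a.2 y + b.2 y) = (a.1 + b.1) • bY K p s y
      rw [map_add, ha3, hb3, add_smul]
  algebraMap_mem' := by
    intro k
    refine ⟨fun e => ?_, fun y => ?_, fun y => ?_⟩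
    · change k • ((e, 0) : E₁ × M) = ((algebraMap K Γ k) • e, 0)
      rw [algebraMap_smul, Prod.smul_mk, smul_zero]
    · change (k • y).2 = (algebraMap K Γ k) • y.2
      rw [algebraMap_smul, Prod.smul_snd]
    · change bY K p s (k • y) = (algebraMap K Γ k) • bY K p s y
      rw [map_smul, algebraMap_smul]

/-- the cell algebra as a type -/
def LamT : Type u := Lam K p s

instance : Ring (LamT K p s) := inferInstanceAs (Ring (Lam K p s))

instance : Algebra K (LamT K p s) := inferInstanceAs (Algebra K (Lam K p s))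

variable {K p s}

theorem LamT.inl (x : LamT K p s) (e : E₁) : x.1.2 (e, 0) = (x.1.1 • e, 0) := x.2.1 e

theorem LamT.snd (x : LamT K p s) (y : E₁ × M) : (x.1.2 y).2 = x.1.1 • y.2 := x.2.2.1 y

theorem LamT.bY (x : LamT K p s) (y : E₁ × M) :
    bY K p s (x.1.2 y) = x.1.1 • bY K p s y := x.2.2.2 y

variable (K p s)

/-- the projection to `Γ` -/
def piA : LamT K p s →ₐ[K] Γ := (AlgHom.fst K Γ _).comp (Lam K p s).val

variable {K p s}

/-- the component `M → E₁` -/
def LamT.f (x : LamT K p s) : M →ₗ[K] E₁ := LinearMap.fst K E₁ M ∘ₗ x.1.2 ∘ₗ LinearMap.inr K E₁ M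

theorem LamT.apply (x : LamT K p s) (y : E₁ × M) :
    x.1.2 y = (x.1.1 • y.1 + x.f y.2, x.1.1 • y.2) := by
  have h1 : y = (y.1, 0) + (0, y.2) := by simp
  rw [h1, map_add, x.inl]
  refine Prod.ext ?_ ?_
  · simp [LamT.f]
  · rw [Prod.snd_add, x.snd]
    simp

theorem LamT.f_add (x y : LamT K p s) (m : M) : (x + y).f m = x.f m + y.f m := rfl

theorem LamT.f_mul (x y : LamT K p s) (m : M) :
    (x * y).f m = x.1.1 • y.f m + x.f (y.1.1 • m) := by
  change (x.1.2 (y.1.2 (0, m))).1 = _
  rw [LamT.apply y, LamT.apply x]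
  simp

theorem LamT.f_one (m : M) : (1 : LamT K p s).f m = 0 := rfl

theorem LamT.f_zero (m : M) : (0 : LamT K p s).f m = 0 := rfl

theorem LamT.p_f (x : LamT K p s) (m : M) : p (x.f m) = x.1.1 • s m - s (x.1.1 • m) := by
  have h := x.bY (0, m)
  rw [LamT.apply, bY_apply, bY_apply] at h
  simp only [smul_zero, zero_add, map_zero] at h
  rw [eq_sub_iff_add_eq]
  exact h

theorem LamT.ext {x y : LamT K p s} (h1 : x.1.1 = y.1.1) (h2 : ∀ m, x.f m = y.f m) : x = y := by
  refine Subtype.ext (Prod.ext h1 (LinearMap.ext fun z => ?_))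
  rw [LamT.apply, LamT.apply, h1, h2]

/-- construction of elements -/
def LamT.mk (g : Γ) (f : M →ₗ[K] E₁) (hf : ∀ m, p (f m) = g • s m - s (g • m)) : LamT K p s :=
  ⟨(g, { toFun := fun y => (g • y.1 + f y.2, g • y.2)
         map_add' := fun a b => by
          simp only [Prod.fst_add, Prod.snd_add, smul_add, map_add]
          refine Prod.ext ?_ rfl
          simp only [Prod.fst_add]
          abel
         map_smul' := fun k a => by
          simp only [Prod.smul_fst, Prod.smul_snd, map_smul, RingHom.id_apply]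
          refine Prod.ext ?_ ?_
          · simp only [Prod.smul_fst, smul_add]
            rw [← algebraMap_smul Γ k a.1, ← algebraMap_smul Γ k (g • a.1), ← mul_smul,
              ← mul_smul, Algebra.commutes]
          · simp only [Prod.smul_snd]
            rw [← algebraMap_smul Γ k a.2, ← algebraMap_smul Γ k (g • a.2), ← mul_smul,
              ← mul_smul, Algebra.commutes] }),
    ⟨fun e => by simp, fun y => rfl, fun y => by
      rw [bY_apply, bY_apply]
      simp only [LinearMap.coe_mk, AddHom.coe_mk, map_add, map_smul, hf, smul_add]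
      abel⟩⟩

theorem LamT.mk_fst (g : Γ) (f : M →ₗ[K] E₁) (hf : ∀ m, p (f m) = g • s m - s (g • m)) :
    (LamT.mk g f hf).1.1 = g := rfl

theorem LamT.mk_f (g : Γ) (f : M →ₗ[K] E₁) (hf : ∀ m, p (f m) = g • s m - s (g • m)) (m : M) :
    (LamT.mk g f hf).f m = f m := by
  change g • (0 : E₁) + f m = f m
  rw [smul_zero, zero_add]

variable (K p s)

/-- the second component, as a linear map -/
def LamF : LamT K p s →ₗ[K] (M →ₗ[K] E₁) where
  toFun x := x.f
  map_add' _ _ := rfl
  map_smul' _ _ := rfl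

/-- the cell structure -/
def lamStr : Glue355.CellStr K Γ (LamT K p s) p s where
  pi := piA K p s
  F := LamF K p s
  mul := LamT.f_mul
  inj _ h1 h2 := LamT.ext h1 fun m => LinearMap.congr_fun h2 m
  rel := LamT.p_f
  surj g f hf := ⟨LamT.mk g f hf, rfl, LinearMap.ext fun m => LamT.mk_f g f hf m⟩

instance [FiniteDimensional K Γ] [FiniteDimensional K E₁] [FiniteDimensional K M] :
    FiniteDimensional K (LamT K p s) :=
  inferInstanceAs (FiniteDimensional K (Lam K p s))

end Lam

end Crest.Agent.R186.Cell580
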