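import Crest.Agent.R186.Cell_580

/-!
Row 186, S0281, block CELL (helper580): one side of the cell from a `2`-extension.
-/

set_option autoImplicit false
set_option linter.style.haveILetI false
set_option linter.unusedSectionVars false

universe u

open CategoryTheory CategoryTheory.Abelian

namespace Crest.Agent.R186.Cell580

open Syz700

/-- one side of the cell: `0 → V → E₁ → E₂ → M → 0` over `G`, a surjection `π : L → G` whose
kernel is `Hom_K (M, V)`, and the `L`-module `Y` with subquotients `V, N, M` -/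
structure Side (K : Type u) [Field K] {L G : Type u} [Ring L] [Ring G] (π : L →+* G)
    (V : FM G) [Module K V.X] {E₁ E₂ M : Type u} [AddCommGroup E₁] [AddCommGroup E₂]
    [AddCommGroup M] [Module G E₁] [Module G E₂] [Module G M] [Module K M]
    (i : V.X →ₗ[G] E₁) (p : E₁ →ₗ[G] E₂) (q : E₂ →ₗ[G] M) where
  hπ : Function.Surjective π
  ii : Function.Injective i
  ex₁ : Function.Exact i p
  qs : Function.Surjective q
  /-- the dimension of `M` -/
  m : ℕ
  /-- coordinates on `M` -/
  c : M ≃ₗ[K] (Fin m → K)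
  /-- the kernel -/
  h : (Fin m → Res π V.X) →ₗ[L] L
  hi : Function.Injective h
  hr : ∀ l, π l = 0 ↔ l ∈ LinearMap.range h
  /-- the module `Y` -/
  Y : Type u
  [gY : AddCommGroup Y]
  [mY : Module L Y]
  /-- `E₁ → Y` -/
  j : Res π E₁ →ₗ[L] Y
  /-- `Y → E₂` -/
  b : Y →ₗ[L] Res π E₂
  ji : Function.Injective j
  bs : Function.Surjective b
  bj : ∀ e : E₁, b (j (toRes π e)) = toRes π (p e)
  rj : ∀ y, q (ofRes π (b y)) = 0 → y ∈ LinearMap.range j
  act : ∀ x y, h x • y =
    j (toRes π (i (∑ k, c (q (ofRes π (b y))) k • ofRes π (x k))))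
  hom : ∀ φ : V.X →ₗ[G] E₁, ∃ t : K, ∀ v, φ v = i (t • v)

attribute [instance] Side.gY Side.mY

section Side

variable {K : Type u} [Field K] {L G : Type u} [Ring L] [Ring G] {π : L →+* G}
    {V : FM G} [Module K V.X] {E₁ E₂ M : Type u} [AddCommGroup E₁] [AddCommGroup E₂]
    [AddCommGroup M] [Module G E₁] [Module G E₂] [Module G M] [Module K M]
    {i : V.X →ₗ[G] E₁} {p : E₁ →ₗ[G] E₂} {q : E₂ →ₗ[G] M} (S : Side K π V i p q)

include S

theorem Side.mem_j (hV : Nontrivial V.X) (y : S.Y) (hy : ∀ l, π l = 0 → l • y = 0) :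
    y ∈ LinearMap.range S.j := by
  refine S.rj y ?_
  obtain ⟨v, hv⟩ := exists_ne (0 : V.X)
  apply S.c.injective
  rw [map_zero]
  funext k
  have h1 := hy (S.h (Pi.single k (toRes π v))) ((S.hr _).2 ⟨_, rfl⟩)
  rw [S.act] at h1
  have h2 : (∑ k', S.c (q (ofRes π (S.b y))) k' •
      ofRes π ((Pi.single k (toRes π v) : Fin S.m → Res π V.X) k')) =
      S.c (q (ofRes π (S.b y))) k • v := by
    rw [Finset.sum_eq_single k]
    · rw [Pi.single_eq_same]
      rfl
    · intro k' _ hk
      rw [Pi.single_eq_of_ne hk]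
      exact smul_zero (A := V.X) (S.c (q (ofRes π (S.b y))) k')
    · intro hk
      exact absurd (Finset.mem_univ k) hk
  rw [h2] at h1
  have h3 : i (S.c (q (ofRes π (S.b y))) k • v) = 0 := S.ji (h1.trans (map_zero S.j).symm)
  have h4 := S.ii (h3.trans (map_zero i).symm)
  exact (smul_eq_zero.1 h4).resolve_right hv

theorem Side.exists_alpha (hV : Nontrivial V.X) (φ : (Fin S.m → Res π V.X) →ₗ[L] S.Y) :
    ∃ y, ∀ x, φ x = S.h x • y := by
  have key : ∀ k, ∃ t : K, ∀ v : V.X, φ (Pi.single k (toRes π v)) = S.j (toRes π (i (t • v))) := by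
    intro k
    let φk : Res π V.X →ₗ[L] S.Y := φ ∘ₗ LinearMap.single L (fun _ => Res π V.X) k
    have hφ : ∀ x, φk x ∈ LinearMap.range S.j := fun x => S.mem_j hV _ fun l hl => by
      rw [← map_smul]
      have : l • x = 0 := by
        have h1 : l • x = toRes π (π l • ofRes π x) := rfl
        rw [h1, hl, zero_smul, map_zero]
      rw [this, map_zero]
    let e := LinearEquiv.ofInjective S.j S.ji
    let φ' : Res π V.X →ₗ[L] Res π E₁ :=
      e.symm.toLinearMap ∘ₗ LinearMap.codRestrict (LinearMap.range S.j) φk hφ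
    obtain ⟨t, ht⟩ := S.hom (Res.unmap S.hπ φ')
    refine ⟨t, fun v => ?_⟩
    have h1 : S.j (φ' (toRes π v)) = φk (toRes π v) := by
      have := e.apply_symm_apply (LinearMap.codRestrict (LinearMap.range S.j) φk hφ (toRes π v))
      exact congrArg Subtype.val this
    have h2 : φ' (toRes π v) = toRes π (i (t • v)) := ht v
    rw [← h2, h1]
    rfl
  choose t ht using key
  obtain ⟨e₂, he₂⟩ := S.qs (S.c.symm t)
  obtain ⟨y, hy⟩ := S.bs (toRes π e₂)
  refine ⟨y, fun x => ?_⟩
  rw [S.act, hy, ofRes_toRes, he₂, LinearEquiv.apply_symm_apply]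
  have h1 : φ x = ∑ k, φ (Pi.single k (x k)) := by
    rw [← map_sum]
    congr 1
    exact (Finset.univ_sum_single x).symm
  rw [h1, map_sum i, map_sum (toRes π), map_sum S.j]
  refine Finset.sum_congr rfl fun k _ => ?_
  exact ht k (ofRes π (x k))

/-- the abstract cell input -/
def Side.toIn (hV : Nontrivial V.X) : CellIn π V E₁ E₂ where
  hπ := S.hπ
  m := S.m
  h := S.h
  hi := S.hi
  hr := S.hr
  Y := S.Y
  a := S.j ∘ₗ Res.map π i
  b := S.b
  ai := S.ji.comp S.ii
  bs := S.bs
  ex := by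
    intro y
    constructor
    · intro hy
      have h1 : q (ofRes π (S.b y)) = 0 := by
        rw [hy]
        exact map_zero q
      obtain ⟨e, rfl⟩ := S.rj y h1
      have h2 : p (ofRes π e) = 0 := (S.bj (ofRes π e)).symm.trans hy
      obtain ⟨v, hv⟩ := (S.ex₁ _).1 h2
      exact ⟨toRes π v, congrArg S.j (congrArg (toRes π) hv)⟩
    · rintro ⟨v, rfl⟩
      have h1 := S.bj (i (ofRes π v))
      have h2 : p (i (ofRes π v)) = 0 := (S.ex₁ _).2 ⟨_, rfl⟩
      rw [h2] at h1
      exact h1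
  j := S.j
  ji := S.ji
  hj := S.mem_j hV
  α := S.exists_alpha hV

/-- endomorphisms of `V` are scalars -/
theorem Side.end_scalar (φ : V.X →ₗ[G] V.X) : ∃ t : K, ∀ v, φ v = t • v := by
  obtain ⟨t, ht⟩ := S.hom (i ∘ₗ φ)
  exact ⟨t, fun v => S.ii (ht v)⟩

variable [IsNoetherianRing G]

/-- homomorphisms `V → L` -/
theorem Side.hom_ring (hV : Nontrivial V.X) (hG : EV G V.X G 0) (φ : Res π V.X →ₗ[L] L) :
    ∃ t : Fin S.m → K, ∀ v : V.X, φ (toRes π v) = S.h (fun k => toRes π (t k • v)) := by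
  have hk : ∀ v, φ v ∈ LinearMap.range S.h := fun v =>
    (S.hr _).1 ((S.toIn hV).hom_ker hG φ v)
  let e := LinearEquiv.ofInjective S.h S.hi
  let φ' : Res π V.X →ₗ[L] (Fin S.m → Res π V.X) :=
    e.symm.toLinearMap ∘ₗ LinearMap.codRestrict (LinearMap.range S.h) φ hk
  have key : ∀ k, ∃ t : K, ∀ v : V.X, φ' (toRes π v) k = toRes π (t • v) := by
    intro k
    obtain ⟨t, ht⟩ := S.end_scalar (Res.unmap S.hπ ((LinearMap.proj k) ∘ₗ φ'))
    exact ⟨t, ht⟩
  choose t ht using key
  refine ⟨t, fun v => ?_⟩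
  have h1 : S.h (φ' (toRes π v)) = φ (toRes π v) := by
    have := e.apply_symm_apply (LinearMap.codRestrict (LinearMap.range S.h) φ hk (toRes π v))
    exact congrArg Subtype.val this
  rw [← h1]
  congr 1
  funext k
  exact ht k v

end Side

end Crest.Agent.R186.Cell580
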