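import Crest.Agent.R186.CellSide_580
import Crest.Agent.R186.Glue_355

/-!
Row 186, S0281, block CELL (helper580): one side of the cell from 355's abstract cell structure.
-/

set_option autoImplicit false
set_option linter.style.haveILetI false
set_option linter.unusedSectionVars false

universe u

open CategoryTheory CategoryTheory.Abelian

namespace Crest.Agent.R186.Cell580

open Syz700 Glue355

theorem gk {K Γ X : Type u} [Field K] [Ring Γ] [Algebra K Γ] [AddCommGroup X] [Module Γ X]
    [Module K X] [IsScalarTower K Γ X] (g : Γ) (k : K) (x : X) : g • k • x = k • g • x := by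
  rw [← algebraMap_smul Γ k x, ← algebraMap_smul Γ k (g • x), ← mul_smul, ← mul_smul,
    Algebra.commutes]

theorem lk {K Γ X X' : Type u} [Field K] [Ring Γ] [Algebra K Γ] [AddCommGroup X] [Module Γ X]
    [Module K X] [IsScalarTower K Γ X] [AddCommGroup X'] [Module Γ X']
    [Module K X'] [IsScalarTower K Γ X'] (f : X →ₗ[Γ] X') (k : K) (x : X) :
    f (k • x) = k • f x := by
  rw [← algebraMap_smul Γ k x, map_smul, algebraMap_smul]

section

variable {K : Type u} {G : Type u} {L : Type u} {M : Type u} {E1 : Type u}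
    {E2 : Type u} [Field K] [Ring G] [Algebra K G] [Ring L] [Algebra K L]
    [AddCommGroup M] [Module K M] [Module G M] [AddCommGroup E1] [Module K E1] [Module G E1]
    [AddCommGroup E2] [Module K E2] [Module G E2]
    [IsScalarTower K G M] [IsScalarTower K G E1] [IsScalarTower K G E2]
    {p : E1 →ₗ[G] E2} {s : M →ₗ[K] E2}

/-- the module `E1 × M` -/
def YC (_c : CellStr K G L p s) : Type u := E1 × M

variable (c : CellStr K G L p s)

instance : AddCommGroup (YC c) := inferInstanceAs (AddCommGroup (E1 × M))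

/-- the identification -/
def toYC : (E1 × M) ≃+ YC c := AddEquiv.refl _

/-- the action -/
instance : SMul L (YC c) :=
  ⟨fun x y => toYC c (c.pi x • ((toYC c).symm y).1 + c.F x ((toYC c).symm y).2,
    c.pi x • ((toYC c).symm y).2)⟩

theorem smul_YC (x : L) (y : E1 × M) :
    x • (toYC c y) = toYC c (c.pi x • y.1 + c.F x y.2, c.pi x • y.2) := rfl

theorem CellStr.F_one : c.F 1 = 0 := by
  refine LinearMap.ext fun m => ?_
  have h := c.mul 1 1 m
  rw [mul_one, map_one c.pi, one_smul, one_smul] at h
  exact left_eq_add.1 h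

instance : Module L (YC c) where
  one_smul y := by
    change ((c.pi 1) • (y : E1 × M).1 + c.F 1 (y : E1 × M).2, (c.pi 1) • (y : E1 × M).2) =
      (y : E1 × M)
    rw [map_one, CellStr.F_one, LinearMap.zero_apply, add_zero, one_smul, one_smul]
    rfl
  mul_smul x x' y := by
    change ((c.pi (x * x') • (y : E1 × M).1 + c.F (x * x') (y : E1 × M).2,
      c.pi (x * x') • (y : E1 × M).2) : E1 × M) =
      (c.pi x • (c.pi x' • (y : E1 × M).1 + c.F x' (y : E1 × M).2) +
        c.F x (c.pi x' • (y : E1 × M).2), c.pi x • c.pi x' • (y : E1 × M).2)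
    rw [c.mul, map_mul, mul_smul, mul_smul, smul_add, add_assoc]
  smul_zero x := by
    change ((c.pi x • (0 : E1) + c.F x (0 : M), c.pi x • (0 : M)) : E1 × M) = (0, 0)
    rw [smul_zero, smul_zero, map_zero, add_zero]
  smul_add x y y' := by
    change ((c.pi x • ((y : E1 × M).1 + (y' : E1 × M).1) +
      c.F x ((y : E1 × M).2 + (y' : E1 × M).2),
      c.pi x • ((y : E1 × M).2 + (y' : E1 × M).2)) : E1 × M) =
      ((c.pi x • (y : E1 × M).1 + c.F x (y : E1 × M).2) +
        (c.pi x • (y' : E1 × M).1 + c.F x (y' : E1 × M).2),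
        c.pi x • (y : E1 × M).2 + c.pi x • (y' : E1 × M).2)
    rw [smul_add, smul_add, map_add]
    refine Prod.ext ?_ rfl
    dsimp only
    abel
  add_smul x x' y := by
    change ((c.pi (x + x') • (y : E1 × M).1 + c.F (x + x') (y : E1 × M).2,
      c.pi (x + x') • (y : E1 × M).2) : E1 × M) =
      ((c.pi x • (y : E1 × M).1 + c.F x (y : E1 × M).2) +
        (c.pi x' • (y : E1 × M).1 + c.F x' (y : E1 × M).2),
        c.pi x • (y : E1 × M).2 + c.pi x' • (y : E1 × M).2)
    rw [map_add, map_add, LinearMap.add_apply, add_smul, add_smul]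
    refine Prod.ext ?_ rfl
    dsimp only
    abel
  zero_smul y := by
    change ((c.pi 0 • (y : E1 × M).1 + c.F 0 (y : E1 × M).2,
      c.pi 0 • (y : E1 × M).2) : E1 × M) = (0, 0)
    rw [map_zero, map_zero, LinearMap.zero_apply, zero_smul, zero_smul, add_zero]

/-- the ring homomorphism -/
abbrev piC : L →+* G := c.pi.toRingHom

/-- `E1 → Y` -/
def jC : Res (piC c) E1 →ₗ[L] YC c where
  toFun e := toYC c (ofRes (piC c) e, 0)
  map_add' e e' := by
    rw [← map_add, Prod.mk_add_mk, add_zero, map_add]
  map_smul' x e := by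
    rw [RingHom.id_apply, smul_YC, map_zero, smul_zero, add_zero]
    rfl

/-- `Y → E2` -/
def bC : YC c →ₗ[L] Res (piC c) E2 where
  toFun y := toRes (piC c) (p ((toYC c).symm y).1 + s ((toYC c).symm y).2)
  map_add' y y' := by
    change toRes (piC c) (p (((toYC c).symm y).1 + ((toYC c).symm y').1) +
      s (((toYC c).symm y).2 + ((toYC c).symm y').2)) = _
    rw [← map_add, map_add p, map_add s]
    congr 1
    abel
  map_smul' x y := by
    change toRes (piC c) (p (c.pi x • ((toYC c).symm y).1 + c.F x ((toYC c).symm y).2) +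
      s (c.pi x • ((toYC c).symm y).2)) =
      toRes (piC c) (c.pi x • (p ((toYC c).symm y).1 + s ((toYC c).symm y).2))
    rw [map_add p, c.rel, map_smul p, smul_add]
    congr 1
    abel

theorem bC_apply (y : E1 × M) : bC c (toYC c y) = toRes (piC c) (p y.1 + s y.2) := rfl

theorem ofRes_bC (y : YC c) :
    ofRes (piC c) (bC c y) = p ((toYC c).symm y).1 + s ((toYC c).symm y).2 := rfl

theorem CellStr.ext' {x y : L} (h1 : c.pi x = c.pi y) (h2 : ∀ m, c.F x m = c.F y m) : x = y := by
  rw [← sub_eq_zero]
  refine c.inj _ ?_ (LinearMap.ext fun m => ?_)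
  · rw [map_sub, h1, sub_self]
  · rw [map_sub, LinearMap.sub_apply, h2, sub_self]
    rfl

section Kap

variable {V : Type u} [AddCommGroup V] [Module G V] [Module K V] [IsScalarTower K G V]
  {i : V →ₗ[G] E1} {q : E2 →ₗ[G] M} (ip : ∀ v, p (i v) = 0)

include ip in
theorem exists_kap (t : M →ₗ[K] V) : ∃ x : L, c.pi x = 0 ∧ ∀ m, c.F x m = i (t m) := by
  obtain ⟨x, h1, h2⟩ := c.surj 0 ((i.restrictScalars K) ∘ₗ t) (fun m => by
    rw [zero_smul, zero_smul, map_zero, sub_self]
    exact ip _)
  exact ⟨x, h1, fun m => by rw [h2]; rfl⟩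

/-- the elements of the kernel -/
noncomputable def kap (t : M →ₗ[K] V) : L := (exists_kap c ip t).choose

theorem pi_kap (t : M →ₗ[K] V) : c.pi (kap c ip t) = 0 := (exists_kap c ip t).choose_spec.1

theorem F_kap (t : M →ₗ[K] V) (m : M) : c.F (kap c ip t) m = i (t m) :=
  (exists_kap c ip t).choose_spec.2 m

theorem kap_eq {x : L} (t : M →ₗ[K] V) (h1 : c.pi x = 0) (h2 : ∀ m, c.F x m = i (t m)) :
    x = kap c ip t :=
  CellStr.ext' c (h1.trans (pi_kap c ip t).symm) fun m => (h2 m).trans (F_kap c ip t m).symm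

theorem kap_add (t t' : M →ₗ[K] V) : kap c ip (t + t') = kap c ip t + kap c ip t' := by
  symm
  refine kap_eq c ip _ ?_ fun m => ?_
  · rw [map_add, pi_kap, pi_kap, add_zero]
  · rw [map_add, LinearMap.add_apply, F_kap, F_kap, LinearMap.add_apply, map_add]

theorem kap_inj (ii : Function.Injective i) {t t' : M →ₗ[K] V}
    (h : kap c ip t = kap c ip t') : t = t' := by
  refine LinearMap.ext fun m => ii ?_
  rw [← F_kap c ip, ← F_kap c ip, h]

include ip in
theorem exists_of_ker (ex₁ : Function.Exact i p) (ii : Function.Injective i) (x : L)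
    (hx : c.pi x = 0) : ∃ t : M →ₗ[K] V, x = kap c ip t := by
  have h1 : ∀ m, ∃ v, i v = c.F x m := fun m => by
    refine (ex₁ _).1 ?_
    rw [c.rel, hx, zero_smul, zero_smul, map_zero, sub_self]
  choose t ht using h1
  refine ⟨{ toFun := t, map_add' := fun a b => ?_, map_smul' := fun k a => ?_ }, ?_⟩
  · apply ii
    rw [map_add, ht, ht, ht, map_add]
  · apply ii
    rw [RingHom.id_apply, lk, ht, ht, map_smul]
  · exact kap_eq c ip _ hx fun m => (ht m).symm

/-- left multiplication on the kernel -/
theorem mul_kap (x : L) (t t' : M →ₗ[K] V) (h : ∀ m, t' m = c.pi x • t m) :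
    x * kap c ip t = kap c ip t' := by
  refine kap_eq c ip _ ?_ fun m => ?_
  · rw [map_mul, pi_kap, mul_zero]
  · rw [c.mul, pi_kap, zero_smul, map_zero, add_zero, F_kap, h, map_smul]

/-- right multiplication on the kernel -/
theorem kap_mul (x : L) (t t' : M →ₗ[K] V) (h : ∀ m, t' m = t (c.pi x • m)) :
    kap c ip t * x = kap c ip t' := by
  refine kap_eq c ip _ ?_ fun m => ?_
  · rw [map_mul, pi_kap, zero_mul]
  · rw [c.mul, pi_kap, zero_smul, zero_add, F_kap, h]

theorem surj_pi (ex₂ : Function.Exact p q) (hs : ∀ m, q (s m) = m) :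
    Function.Surjective (piC c) := by
  intro g
  let T : M →ₗ[K] E2 :=
    { toFun := fun m => g • s m - s (g • m)
      map_add' := fun a b => by
        simp only [map_add, smul_add]
        abel
      map_smul' := fun k a => by
        rw [map_smul, gk, gk, map_smul, RingHom.id_apply, smul_sub] }
  have hT : ∀ m, T m ∈ LinearMap.range (p.restrictScalars K) := fun m => by
    have h1 : q (T m) = 0 := by
      change q (g • s m - s (g • m)) = 0
      rw [map_sub, map_smul, hs, hs, sub_self]
    obtain ⟨e, he⟩ := (ex₂ _).1 h1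
    exact ⟨e, he⟩
  obtain ⟨σ, hσ⟩ := LinearMap.exists_rightInverse_of_surjective
    (p.restrictScalars K).rangeRestrict (LinearMap.range_rangeRestrict _)
  let f : M →ₗ[K] E1 := σ ∘ₗ T.codRestrict _ hT
  have hf : ∀ m, p (f m) = g • s m - s (g • m) := fun m => by
    have h1 := LinearMap.congr_fun hσ (T.codRestrict _ hT m)
    exact congrArg Subtype.val h1
  obtain ⟨x, hx, -⟩ := c.surj g f hf
  exact ⟨x, hx⟩

end Kap

/-! ### the side -/

section SideOf

variable {V : FM G} [Module K V.X] [IsScalarTower K G V.X] {i : V.X →ₗ[G] E1} {q : E2 →ₗ[G] M}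

theorem ip_of (ex₁ : Function.Exact i p) (v : V.X) : p (i v) = 0 := (ex₁ _).2 ⟨v, rfl⟩

/-- coordinates of a map `M → V` -/
noncomputable def coordT [FiniteDimensional K M] (x : Fin (Module.finrank K M) → V.X) :
    M →ₗ[K] V.X :=
  ∑ k, ((LinearMap.proj k) ∘ₗ (Module.finBasis K M).equivFun.toLinearMap).smulRight (x k)

theorem coordT_apply [FiniteDimensional K M] (x : Fin (Module.finrank K M) → V.X) (m : M) :
    coordT (K := K) x m = ∑ k, (Module.finBasis K M).equivFun m k • x k := by
  rw [coordT, LinearMap.sum_apply]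
  rfl

/-- a presentation gives one side of the cell -/
noncomputable def sideOf [FiniteDimensional K M] (ii : Function.Injective i)
    (ex₁ : Function.Exact i p) (ex₂ : Function.Exact p q) (hs : ∀ m, q (s m) = m)
    (hom : ∀ φ : V.X →ₗ[G] E1, ∃ t : K, ∀ v, φ v = i (t • v)) :
    Side K (piC c) V i p q where
  hπ := surj_pi c ex₂ hs
  ii := ii
  ex₁ := ex₁
  qs := fun m => ⟨s m, hs m⟩
  m := Module.finrank K M
  c := (Module.finBasis K M).equivFun
  h :=
    { toFun := fun x => kap c (ip_of ex₁) (coordT fun k => ofRes (piC c) (x k))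
      map_add' := fun x y => by
        rw [← kap_add]
        congr 1
        refine LinearMap.ext fun m => ?_
        rw [LinearMap.add_apply, coordT_apply, coordT_apply, coordT_apply,
          ← Finset.sum_add_distrib]
        refine Finset.sum_congr rfl fun k _ => ?_
        rw [Pi.add_apply, map_add, smul_add]
      map_smul' := fun l x => by
        rw [RingHom.id_apply, smul_eq_mul]
        symm
        refine mul_kap c (ip_of ex₁) l _ _ fun m => ?_
        rw [coordT_apply, coordT_apply, Finset.smul_sum]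
        refine Finset.sum_congr rfl fun k _ => ?_
        rw [gk]
        rfl }
  hi := fun x y hxy => by
    have h1 := kap_inj c (ip_of ex₁) ii hxy
    funext k
    have h2 := LinearMap.congr_fun h1 ((Module.finBasis K M) k)
    rw [coordT_apply, coordT_apply] at h2
    simp only [Module.Basis.equivFun_self, ite_smul, one_smul, zero_smul, Finset.sum_ite_eq,
      Finset.mem_univ, if_true] at h2
    exact h2
  hr := fun l => by
    constructor
    · intro hl
      obtain ⟨t, rfl⟩ := exists_of_ker c (ip_of ex₁) ex₁ ii l hl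
      refine ⟨fun k => toRes (piC c) (t ((Module.finBasis K M) k)), ?_⟩
      change kap c (ip_of ex₁) (coordT fun k => t ((Module.finBasis K M) k)) = _
      congr 1
      refine LinearMap.ext fun m => ?_
      rw [coordT_apply]
      simp_rw [← map_smul t]
      rw [← map_sum, Module.Basis.sum_equivFun]
    · rintro ⟨x, rfl⟩
      exact pi_kap c (ip_of ex₁) _
  Y := YC c
  j := jC c
  b := bC c
  ji := fun x y hxy => (Prod.ext_iff.1 hxy).1
  bs := fun y => by
    obtain ⟨e, he⟩ := (ex₂ (ofRes (piC c) y - s (q (ofRes (piC c) y)))).1 (by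
      rw [map_sub, hs, sub_self])
    refine ⟨toYC c (e, q (ofRes (piC c) y)), ?_⟩
    rw [bC_apply]
    change toRes (piC c) (p e + s (q (ofRes (piC c) y))) = y
    rw [he, sub_add_cancel]
    rfl
  bj := fun e => by
    change toRes (piC c) (p e + s 0) = _
    rw [map_zero, add_zero]
  rj := fun y hy => by
    rw [ofRes_bC, map_add, hs, (ex₂ _).2 ⟨_, rfl⟩, zero_add] at hy
    exact ⟨toRes (piC c) ((toYC c).symm y).1, Prod.ext rfl hy.symm⟩
  act := fun x y => by
    have h1 : q (ofRes (piC c) (bC c y)) = ((toYC c).symm y).2 := by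
      rw [ofRes_bC, map_add, hs, (ex₂ _).2 ⟨_, rfl⟩, zero_add]
    rw [h1]
    change toYC c (c.pi (kap c (ip_of ex₁) _) • ((toYC c).symm y).1 +
      c.F (kap c (ip_of ex₁) _) ((toYC c).symm y).2,
      c.pi (kap c (ip_of ex₁) _) • ((toYC c).symm y).2) = toYC c (i _, 0)
    rw [pi_kap, zero_smul, zero_smul, zero_add, F_kap, coordT_apply]
  hom := hom

end SideOf

end

end Crest.Agent.R186.Cell580
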