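import Crest.Agent.R186.Chr_763
import Crest.Agent.R186.WL2_221
import Crest.Agent.R186.Res_255

/-!
# Row 186, half (A), leaf MQ (0) (helper763), part 2: torus characters on the windows, cells, `V_m`

* `hR t`, `hL t` : automorphisms (`Res255.Hm`) of the window algebras `L''`, `L`; `hPr : Hm L'' L`.
* `lresPush`, `rresPush` : a resolution stays a resolution after twisting cells and module by an
  automorphism, in particular `lresV` : cells of `V_m` twisted by a torus point are again cells of `V_m`.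
-/

set_option autoImplicit false
set_option linter.style.haveILetI false

noncomputable section

open MulOpposite

namespace Crest.Agent.R186.Chr763

open Crest.Agent.R186.DefsQ830 Crest.Agent.R186.Der580 Crest.Agent.R186.Win810
open Crest.Agent.R186.VOp220 Crest.Agent.R186.Vmod220 Crest.Agent.R186.WL221
open Crest.Agent.R186.Frame515 Crest.Agent.R186.Res255
open Crest.Agent.R186.SM890 (Tor tau tau_X tau_D)
open Crest.Agent.R186.C2b44 (kill)

variable {K : Type} [Field K] (π : Par K)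

/-! ### `R'` -/

/-- torus action on `R'` -/
def tauL (t : Tor K) : RL π →ₐ[K] RL π :=
  ((tau π t).comp (RL π).val).codRestrict (RL π) fun r => by
    change kill π (tau π t r.1) = tau π t r.1
    rw [kill_tau, kill_val]

@[simp] theorem tauL_val (t : Tor K) (r : RL π) : (tauL π t r : R π) = tau π t r.1 := rfl

theorem tauL_prL (t : Tor K) (r : R π) : tauL π t (prL π r) = prL π (tau π t r) := by
  apply Subtype.ext
  rw [tauL_val, prL_val, prL_val, kill_tau]

theorem tauL_mul (s t : Tor K) (r : RL π) : tauL π (mul s t) r = tauL π s (tauL π t r) :=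
  Subtype.ext (tau_mul π s t r.1)

theorem tauL_one (r : RL π) : tauL π (one K) r = r := Subtype.ext (tau_one π r.1)

@[simp] theorem tauL_inv_tauL (t : Tor K) (r : RL π) : tauL π (inv t) (tauL π t r) = r :=
  Subtype.ext (tau_inv_tau π t r.1)

@[simp] theorem tauL_tauL_inv (t : Tor K) (r : RL π) : tauL π t (tauL π (inv t) r) = r :=
  Subtype.ext (tau_tau_inv π t r.1)

theorem tauL_D (t : Tor K) (r : RL π) : tauL π t (DL π r) = DL π (tauL π t r) := by
  apply Subtype.ext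
  rw [tauL_val, DL_val, DL_val, tauL_val, ← kill_tau, tau_D]

theorem tauL_mem (t : Tor K) {P A C : ℤ} {r : RL π} (hr : r ∈ pcL π P A C) :
    tauL π t r ∈ pcL π P A C := tau_pcZ π t hr

/-! ### the windows -/

/-- torus action on `L''` -/
def hR (t : Tor K) : Hm (WR π).dga (WR π).dga where
  f := mapW (w := WR π) (w' := WR π) (tau π t) (Equiv.refl DefsQ830.Ob) fun _ _ _ _ ha =>
    tau_pcZ π t ha
  mem := fun h => mapW_mem (w := WR π) (w' := WR π) _ _ _ h
  D := mapW_D (w := WR π) (w' := WR π) _ _ _ (tau_D π t)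

/-- torus action on `L` -/
def hL (t : Tor K) : Hm (WL π).dga (WL π).dga where
  f := mapW (w := WL π) (w' := WL π) (tauL π t) (Equiv.refl DefsQ830.Ob) fun _ _ _ _ ha =>
    tauL_mem π t ha
  mem := fun h => mapW_mem (w := WL π) (w' := WL π) _ _ _ h
  D := mapW_D (w := WL π) (w' := WL π) _ _ _ (tauL_D π t)

/-- the projection `L'' → L` -/
def hPr : Hm (WR π).dga (WL π).dga where
  f := prW π
  mem := fun h => prW_mem h
  D := prW_D

theorem hR_apply (t : Tor K) (m : (WR π).Win) (i j : DefsQ830.Ob) :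
    ((hR π t).f m : (WR π).Win).1 i j = tau π t (m.1 i j) := rfl

theorem hL_apply (t : Tor K) (m : (WL π).Win) (i j : DefsQ830.Ob) :
    ((hL π t).f m : (WL π).Win).1 i j = tauL π t (m.1 i j) := rfl

theorem hPr_f (m : (WR π).Win) : (hPr π).f m = prW π m := rfl

theorem hL_hPr (t : Tor K) (m : (WR π).dga.C) : (hL π t).f ((hPr π).f m) = (hPr π).f ((hR π t).f m) := by
  apply Subtype.ext
  ext i j : 2
  exact tauL_prL π t _

theorem hR_mul (s t : Tor K) (m : (WR π).dga.C) : (hR π (mul s t)).f m = (hR π s).f ((hR π t).f m) := by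
  apply Subtype.ext
  ext i j : 2
  exact tau_mul π s t _

theorem hL_mul (s t : Tor K) (m : (WL π).dga.C) : (hL π (mul s t)).f m = (hL π s).f ((hL π t).f m) := by
  apply Subtype.ext
  ext i j : 2
  exact tauL_mul π s t _

@[simp] theorem hR_inv_hR (t : Tor K) (m : (WR π).dga.C) : (hR π (inv t)).f ((hR π t).f m) = m := by
  apply Subtype.ext
  ext i j : 2
  exact tau_inv_tau π t _

@[simp] theorem hR_hR_inv (t : Tor K) (m : (WR π).dga.C) : (hR π t).f ((hR π (inv t)).f m) = m := by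
  apply Subtype.ext
  ext i j : 2
  exact tau_tau_inv π t _

@[simp] theorem hL_inv_hL (t : Tor K) (m : (WL π).dga.C) : (hL π (inv t)).f ((hL π t).f m) = m := by
  apply Subtype.ext
  ext i j : 2
  exact tauL_inv_tauL π t _

@[simp] theorem hL_hL_inv (t : Tor K) (m : (WL π).dga.C) : (hL π t).f ((hL π (inv t)).f m) = m := by
  apply Subtype.ext
  ext i j : 2
  exact tauL_tauL_inv π t _

theorem hR_e (t : Tor K) (i : DefsQ830.Ob) : (hR π t).f (WD.e (w := WR π) i) = WD.e (w := WR π) i :=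
  mapW_e (w := WR π) (w' := WR π) (tau π t) (Equiv.refl DefsQ830.Ob)
    (fun _ _ _ _ ha => tau_pcZ π t ha) i

theorem hL_e (t : Tor K) (i : DefsQ830.Ob) : (hL π t).f (WD.e (w := WL π) i) = WD.e (w := WL π) i :=
  mapW_e (w := WL π) (w' := WL π) (tauL π t) (Equiv.refl DefsQ830.Ob)
    (fun _ _ _ _ ha => tauL_mem π t ha) i

/-! ### transport of resolutions along automorphisms (generic) -/

section generic

variable {A B : Hat827.DGA K}

/-- entrywise map of cell functions -/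
def mr (h : Hm A B) (ι : Type) : (ι →₀ A.C) →ₗ[K] (ι →₀ B.C) :=
  Finsupp.mapRange.linearMap h.f.toLinearMap

theorem mr_apply (h : Hm A B) {ι : Type} (x : ι →₀ A.C) (σ : ι) : mr h ι x σ = h.f (x σ) := rfl

theorem mr_supp (h : Hm A B) {ι : Type} (x : ι →₀ A.C) : (mr h ι x).support ⊆ x.support := by
  intro σ hσ
  rw [Finsupp.mem_support_iff, mr_apply] at hσ
  rw [Finsupp.mem_support_iff]
  intro h0
  exact hσ (by rw [h0, map_zero])

theorem mr_mr (h : Hm A B) (h' : Hm B A) (i1 : ∀ a, h'.f (h.f a) = a) {ι : Type} (x : ι →₀ A.C) :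
    mr h' ι (mr h ι x) = x := by
  ext σ
  rw [mr_apply, mr_apply, i1]

/-! #### left cells -/

theorem dG_apply (X : LCells A) (x : X.ι →₀ A.C) (S : Finset X.ι) (hS : x.support ⊆ S) (τ : X.ι) :
    (tG (selfR A) X).d x τ = A.D (x τ) + ∑ σ ∈ S, x σ * X.c σ τ :=
  (twG (selfR A) X).dd_apply' x S hS τ

theorem mem_grG (X : LCells A) {k : ℤ} {x : X.ι →₀ A.C} : x ∈ (tG (selfR A) X).gr k ↔
    ∀ σ, x σ ∈ A.G (k - X.s σ) ∧ x σ * X.e σ = x σ := Iff.rfl

theorem mr_dG (h : Hm A B) (X : LCells A) (x : X.ι →₀ A.C) :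
    mr h X.ι ((tG (selfR A) X).d x) = (tG (selfR B) (pushL h X)).d (mr h X.ι x) := by
  ext τ
  refine Eq.trans ?_ (dG_apply (pushL h X) (mr h X.ι x) x.support (mr_supp h x) τ).symm
  refine (congrArg h.f (dG_apply X x x.support (Finset.Subset.refl _) τ)).trans ?_
  refine (map_add h.f _ _).trans ?_
  refine congrArg₂ (· + ·) (h.D _) ?_
  refine (map_sum h.f _ _).trans ?_
  exact Finset.sum_congr rfl fun σ _ => map_mul h.f _ _

theorem mr_grG (h : Hm A B) (X : LCells A) {k : ℤ} {x : X.ι →₀ A.C}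
    (hx : x ∈ (tG (selfR A) X).gr k) : mr h X.ι x ∈ (tG (selfR B) (pushL h X)).gr k := by
  rw [mem_grG] at hx
  refine (mem_grG (pushL h X)).2 fun σ => ⟨h.mem (hx σ).1, ?_⟩
  change h.f (x σ) * h.f (X.e σ) = h.f (x σ)
  rw [← map_mul, (hx σ).2]

theorem mr_grG' (h : Hm A B) (h' : Hm B A) (i1 : ∀ a, h'.f (h.f a) = a) (X : LCells A) {k : ℤ}
    {x : X.ι →₀ B.C} (hx : x ∈ (tG (selfR B) (pushL h X)).gr k) :
    mr h' X.ι x ∈ (tG (selfR A) X).gr k := by
  have hx := (mem_grG (pushL h X)).1 hx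
  refine (mem_grG X).2 fun σ => ⟨h'.mem (hx σ).1, ?_⟩
  have h2 : x σ * h.f (X.e σ) = x σ := (hx σ).2
  rw [mr_apply, ← h2, map_mul, i1, mul_assoc, X.e_idem]

theorem augL_mr (h : Hm A B) {X : LCells A} {N : LM A} {N' : LM B} (T : N.X ≃ₗ[K] N'.X)
    (Ts : ∀ (a : A.C) (n : N.X), T (a • n) = h.f a • T n) (v : X.ι → N.X) (x : X.ι →₀ A.C) :
    T (augL X N v x) = augL (pushL h X) N' (fun σ => T (v σ)) (mr h X.ι x) := by
  have key : T.toLinearMap ∘ₗ augL X N v =
      augL (pushL h X) N' (fun σ => T (v σ)) ∘ₗ mr h X.ι := by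
    refine Finsupp.lhom_ext fun σ a => ?_
    have e1 : mr h X.ι (Finsupp.single σ a) = Finsupp.single σ (h.f a) := by
      simp [mr]
    refine (congrArg T (augL_single X N v σ a)).trans ?_
    refine (Ts a (v σ)).trans ?_
    refine (augL_single (pushL h X) N' (fun σ => T (v σ)) σ (h.f a)).symm.trans ?_
    exact congrArg (augL (pushL h X) N' fun σ => T (v σ)) e1.symm
  exact LinearMap.congr_fun key x

/-- **left resolutions twisted by an automorphism** -/
def lresPush (h : Hm A B) (h' : Hm B A) (i1 : ∀ a, h'.f (h.f a) = a) (i2 : ∀ b, h.f (h'.f b) = b)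
    {X : LCells A} {N : LM A} {N' : LM B} (T : N.X ≃ₗ[K] N'.X)
    (Tm : ∀ (k : ℤ) (n : N.X), n ∈ N.gr k → T n ∈ N'.gr k)
    (Tm' : ∀ (k : ℤ) (n : N'.X), n ∈ N'.gr k → T.symm n ∈ N.gr k)
    (Td : ∀ n, T (N.d n) = N'.d (T n)) (Ts : ∀ (a : A.C) (n : N.X), T (a • n) = h.f a • T n)
    (R : LRes X N) : LRes (pushL h X) N' where
  lo := R.lo
  v σ := T (R.v σ)
  v_mem σ := Tm _ _ (R.v_mem σ)
  v_e σ := by
    have := congrArg T (R.v_e σ)
    rw [Ts] at this
    exact this
  v_d σ := by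
    rw [← Td, R.v_d, map_sum]
    exact Finset.sum_congr rfl fun τ _ => Ts _ _
  ex := by
    intro k x n hx hdx hn he
    have hx1 : mr h X.ι (mr h' X.ι x) = x := mr_mr h' h i2 x
    have hd1 : (tG (selfR A) X).d (mr h' X.ι x) = 0 := by
      have h1 := mr_dG h X (mr h' X.ι x)
      rw [hx1, hdx] at h1
      have h2 := congrArg (mr h' X.ι) h1
      rw [mr_mr h h' i1] at h2
      exact h2.trans (map_zero _)
    have he1 : augL X N R.v (mr h' X.ι x) + N.d (T.symm n) = 0 := by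
      apply T.injective
      rw [map_add, augL_mr h T Ts, hx1, Td, T.apply_symm_apply, map_zero]
      exact he
    obtain ⟨y, hy, m, hm, e1, e2⟩ := R.ex k (mr h' X.ι x) (T.symm n) (mr_grG' h h' i1 X hx) hd1
      (Tm' _ _ hn) he1
    refine ⟨mr h X.ι y, mr_grG h X hy, T m, Tm _ _ hm, ?_, ?_⟩
    · rw [← mr_dG, e1, hx1]
    · rw [← augL_mr h T Ts, ← Td, ← map_add, ← e2, T.apply_symm_apply]

/-! #### right cells -/

theorem dY_apply (Y : RCells A) (x : Y.ι →₀ A.C) (S : Finset Y.ι) (hS : x.support ⊆ S) (τ : Y.ι) :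
    (tY Y (selfL A)).d x τ = A.D (x τ) + ∑ σ ∈ S, Y.c τ σ * x σ :=
  (twY Y (selfL A)).dd_apply' x S hS τ

theorem mem_grY (Y : RCells A) {k : ℤ} {x : Y.ι →₀ A.C} : x ∈ (tY Y (selfL A)).gr k ↔
    ∀ σ, x σ ∈ A.G (k - Y.s σ) ∧ Y.e σ * x σ = x σ := Iff.rfl

theorem mr_dY (h : Hm A B) (Y : RCells A) (x : Y.ι →₀ A.C) :
    mr h Y.ι ((tY Y (selfL A)).d x) = (tY (pushR h Y) (selfL B)).d (mr h Y.ι x) := by
  ext τ
  refine Eq.trans ?_ (dY_apply (pushR h Y) (mr h Y.ι x) x.support (mr_supp h x) τ).symm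
  refine (congrArg h.f (dY_apply Y x x.support (Finset.Subset.refl _) τ)).trans ?_
  refine (map_add h.f _ _).trans ?_
  refine congrArg₂ (· + ·) (h.D _) ?_
  refine (map_sum h.f _ _).trans ?_
  exact Finset.sum_congr rfl fun σ _ => map_mul h.f _ _

theorem mr_grY (h : Hm A B) (Y : RCells A) {k : ℤ} {x : Y.ι →₀ A.C}
    (hx : x ∈ (tY Y (selfL A)).gr k) : mr h Y.ι x ∈ (tY (pushR h Y) (selfL B)).gr k := by
  rw [mem_grY] at hx
  refine (mem_grY (pushR h Y)).2 fun σ => ⟨h.mem (hx σ).1, ?_⟩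
  change h.f (Y.e σ) * h.f (x σ) = h.f (x σ)
  rw [← map_mul, (hx σ).2]

theorem mr_grY' (h : Hm A B) (h' : Hm B A) (i1 : ∀ a, h'.f (h.f a) = a) (Y : RCells A) {k : ℤ}
    {x : Y.ι →₀ B.C} (hx : x ∈ (tY (pushR h Y) (selfL B)).gr k) :
    mr h' Y.ι x ∈ (tY Y (selfL A)).gr k := by
  have hx := (mem_grY (pushR h Y)).1 hx
  refine (mem_grY Y).2 fun σ => ⟨h'.mem (hx σ).1, ?_⟩
  have h2 : h.f (Y.e σ) * x σ = x σ := (hx σ).2
  rw [mr_apply, ← h2, map_mul, i1, ← mul_assoc, Y.e_idem]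

theorem augR_mr (h : Hm A B) {Y : RCells A} {G : RM A} {G' : RM B} (T : G.X ≃ₗ[K] G'.X)
    (Ts : ∀ (a : A.C) (n : G.X), T (op a • n) = op (h.f a) • T n) (v : Y.ι → G.X)
    (x : Y.ι →₀ A.C) :
    T (augR Y G v x) = augR (pushR h Y) G' (fun σ => T (v σ)) (mr h Y.ι x) := by
  have key : T.toLinearMap ∘ₗ augR Y G v =
      augR (pushR h Y) G' (fun σ => T (v σ)) ∘ₗ mr h Y.ι := by
    refine Finsupp.lhom_ext fun σ a => ?_
    have e1 : mr h Y.ι (Finsupp.single σ a) = Finsupp.single σ (h.f a) := by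
      simp [mr]
    refine (congrArg T (augR_single Y G v σ a)).trans ?_
    refine (Ts a (v σ)).trans ?_
    refine (augR_single (pushR h Y) G' (fun σ => T (v σ)) σ (h.f a)).symm.trans ?_
    exact congrArg (augR (pushR h Y) G' fun σ => T (v σ)) e1.symm
  exact LinearMap.congr_fun key x

/-- **right resolutions twisted by an automorphism** -/
def rresPush (h : Hm A B) (h' : Hm B A) (i1 : ∀ a, h'.f (h.f a) = a) (i2 : ∀ b, h.f (h'.f b) = b)
    {Y : RCells A} {G : RM A} {G' : RM B} (T : G.X ≃ₗ[K] G'.X)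
    (Tm : ∀ (k : ℤ) (n : G.X), n ∈ G.gr k → T n ∈ G'.gr k)
    (Tm' : ∀ (k : ℤ) (n : G'.X), n ∈ G'.gr k → T.symm n ∈ G.gr k)
    (Td : ∀ n, T (G.d n) = G'.d (T n)) (Ts : ∀ (a : A.C) (n : G.X), T (op a • n) = op (h.f a) • T n)
    (R : RRes Y G) : RRes (pushR h Y) G' where
  lo := R.lo
  v σ := T (R.v σ)
  v_mem σ := Tm _ _ (R.v_mem σ)
  v_e σ := by
    have := congrArg T (R.v_e σ)
    rw [Ts] at this
    exact this
  v_d σ := by
    rw [← Td, R.v_d, map_sum]
    exact Finset.sum_congr rfl fun τ _ => Ts _ _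
  ex := by
    intro k x n hx hdx hn he
    have hx1 : mr h Y.ι (mr h' Y.ι x) = x := mr_mr h' h i2 x
    have hd1 : (tY Y (selfL A)).d (mr h' Y.ι x) = 0 := by
      have h1 := mr_dY h Y (mr h' Y.ι x)
      rw [hx1, hdx] at h1
      have h2 := congrArg (mr h' Y.ι) h1
      rw [mr_mr h h' i1] at h2
      exact h2.trans (map_zero _)
    have he1 : augR Y G R.v (mr h' Y.ι x) + G.d (T.symm n) = 0 := by
      apply T.injective
      rw [map_add, augR_mr h T Ts, hx1, Td, T.apply_symm_apply, map_zero]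
      exact he
    obtain ⟨y, hy, m, hm, e1, e2⟩ := R.ex k (mr h' Y.ι x) (T.symm n) (mr_grY' h h' i1 Y hx) hd1
      (Tm' _ _ hn) he1
    refine ⟨mr h Y.ι y, mr_grY h Y hy, T m, Tm _ _ hm, ?_, ?_⟩
    · rw [← mr_dY, e1, hx1]
    · rw [← augR_mr h T Ts, ← Td, ← map_add, ← e2, T.apply_symm_apply]

end generic

/-! ### the modules `V_m` -/

/-- rescaling of `V_m` (window module) -/
def tauVM (t : Tor K) (m : ℤ) : (VWL (hr π) m).VM ≃ₗ[K] (VWL (hr π) m).VM where
  toFun v := fun i => ⟨tauV t (v i).1, tauV_mem t (v i).2⟩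
  invFun v := fun i => ⟨tauV (inv t) (v i).1, tauV_mem (inv t) (v i).2⟩
  map_add' u v := by
    funext i
    exact Subtype.ext (map_add (tauV t) _ _)
  map_smul' c v := by
    funext i
    exact Subtype.ext (map_smul (tauV t) c _)
  left_inv v := by
    funext i
    exact Subtype.ext (tauV_inv_tauV t _)
  right_inv v := by
    funext i
    exact Subtype.ext (tauV_tauV_inv t _)

theorem tauVM_apply (t : Tor K) (m : ℤ) (v : (VWL (hr π) m).VM) (i : DefsQ830.Ob) :
    (tauVM π t m v i).1 = tauV t (v i).1 := rfl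

theorem tauVM_symm_apply (t : Tor K) (m : ℤ) (v : (VWL (hr π) m).VM) (i : DefsQ830.Ob) :
    ((tauVM π t m).symm v i).1 = tauV (inv t) (v i).1 := rfl

/-- **`V_m` twisted by a torus point is isomorphic to `V_m`** -/
theorem tauVM_smul (t : Tor K) (m : ℤ) (a : (WL π).dga.C) (v : (VWL (hr π) m).VM) :
    tauVM π t m (a • v) = (hL π t).f a • tauVM π t m v := by
  apply (VWL (hr π) m).vext
  intro i
  refine Eq.trans ?_ ((VWL (hr π) m).smul_apply ((hL π t).f a) (tauVM π t m v) i).symm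
  refine (congrArg (tauV t) ((VWL (hr π) m).smul_apply a v i)).trans ?_
  refine (map_sum (tauV t) _ _).trans ?_
  exact Finset.sum_congr rfl fun j _ => tauV_rep π t _ _

end Crest.Agent.R186.Chr763
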