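import Crest.Agent.R186.Tau_890
import Crest.Agent.R186.KOSZ_296
import Crest.Agent.R186.QB_735
import Crest.Agent.R186.WinR_810

/-!
# Row 186, half (A), leaf MQ (0) (helper763): torus characters of `R''`

On 890's `Tor` / `tau`: group law, pieces, the ideal `J` / `kill`, the character of a basis element of
`Q` (`VQ735.tw π q r = kill (tau (torQ π q) r)`), monomial rescaling of the modules `V_m`.
-/

set_option autoImplicit false

noncomputable section

namespace Crest.Agent.R186.Chr763

open Crest.Agent.R186.DefsQ830 Crest.Agent.R186.DefsQ830.Gen Crest.Agent.R186.Der580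
open Crest.Agent.R186.VOp220 Crest.Agent.R186.Vmod220
open Crest.Agent.R186.Cells221 (f2)
open Crest.Agent.R186.SM890 (Tor tau tau_X tau_D)
open Crest.Agent.R186.C2b44 (kill kill_X kg)
open Crest.Agent.R186.VQ735 (Bt ln lp pw ch pz)

variable {K : Type} [Field K] (π : Par K)

/-- algebra maps out of `R''` are determined by the letters -/
theorem hom_ext {B : Type*} [Semiring B] [Algebra K B] {f g : R π →ₐ[K] B}
    (h : ∀ a, f (X π a) = g (X π a)) (r : R π) : f r = g r := by
  induction r using R_ind π with
  | hc c => rw [AlgHom.commutes, AlgHom.commutes]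
  | hX a => exact h a
  | ha a b ha hb => rw [map_add, map_add, ha, hb]
  | hm a b ha hb => rw [map_mul, map_mul, ha, hb]

/-! ### the group law -/

variable (K) in
/-- neutral point -/
def one : Tor K := ⟨1, 1, 1, one_ne_zero, one_ne_zero, one_ne_zero⟩

/-- product -/
def mul (s t : Tor K) : Tor K :=
  ⟨s.a0 * t.a0, s.a1 * t.a1, s.b * t.b, mul_ne_zero s.h0 t.h0, mul_ne_zero s.h1 t.h1,
    mul_ne_zero s.hb t.hb⟩

/-- inverse -/
def inv (t : Tor K) : Tor K :=
  ⟨t.a0⁻¹, t.a1⁻¹, t.b⁻¹, inv_ne_zero t.h0, inv_ne_zero t.h1, inv_ne_zero t.hb⟩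

theorem tw_one (a : Gen) : SM890.tw (one K) a = 1 := by
  cases a <;> simp [SM890.tw, one, sg]

theorem tw_mul (s t : Tor K) (a : Gen) : SM890.tw (mul s t) a = SM890.tw s a * SM890.tw t a := by
  cases a <;> simp only [SM890.tw, mul, sg, mul_one] <;> (try split) <;> simp [mul_comm]

theorem tw_inv (t : Tor K) (a : Gen) : SM890.tw (inv t) a = (SM890.tw t a)⁻¹ := by
  cases a <;> simp only [SM890.tw, inv, sg, inv_one] <;> (try split) <;> simp

theorem tau_one (r : R π) : tau π (one K) r = r := by
  have := hom_ext π (f := tau π (one K)) (g := AlgHom.id K (R π)) (fun a => by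
    rw [tau_X, tw_one, one_smul]; rfl) r
  exact this

theorem tau_mul (s t : Tor K) (r : R π) : tau π (mul s t) r = tau π s (tau π t r) := by
  have := hom_ext π (f := tau π (mul s t)) (g := (tau π s).comp (tau π t)) (fun a => by
    rw [tau_X, tw_mul, AlgHom.comp_apply, tau_X, map_smul, tau_X, smul_smul, mul_comm]) r
  exact this

theorem inv_mul_eq (t : Tor K) : mul (inv t) t = one K := by
  have h0 := t.h0
  have h1 := t.h1
  have hb := t.hb
  simp [mul, inv, one, h0, h1, hb]

theorem mul_inv_eq (t : Tor K) : mul t (inv t) = one K := by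
  have h0 := t.h0
  have h1 := t.h1
  have hb := t.hb
  simp [mul, inv, one, h0, h1, hb]

@[simp] theorem tau_inv_tau (t : Tor K) (r : R π) : tau π (inv t) (tau π t r) = r := by
  rw [← tau_mul, inv_mul_eq, tau_one]

@[simp] theorem tau_tau_inv (t : Tor K) (r : R π) : tau π t (tau π (inv t) r) = r := by
  rw [← tau_mul, mul_inv_eq, tau_one]

/-- `tau` as an automorphism -/
def tauE (t : Tor K) : R π ≃ₐ[K] R π :=
  AlgEquiv.ofAlgHom (tau π t) (tau π (inv t)) (AlgHom.ext fun r => tau_tau_inv π t r)
    (AlgHom.ext fun r => tau_inv_tau π t r)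

@[simp] theorem tauE_apply (t : Tor K) (r : R π) : tauE π t r = tau π t r := rfl

@[simp] theorem tauE_symm_apply (t : Tor K) (r : R π) : (tauE π t).symm r = tau π (inv t) r := rfl

/-! ### words and pieces -/

/-- weight of a word -/
def tww (t : Tor K) (w : List Gen) : K := (w.map (SM890.tw t)).prod

theorem tau_wd (t : Tor K) (w : List Gen) : tau π t (wd π w) = tww t w • wd π w := by
  induction w with
  | nil => rw [wd_nil, map_one, tww, List.map_nil, List.prod_nil, one_smul]
  | cons a w ih =>
    rw [wd_cons, map_mul, ih, tau_X, smul_mul_smul_comm, tww, tww, List.map_cons, List.prod_cons]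

theorem tau_pz (t : Tor K) {P A C : ℤ} {r : R π} (hr : r ∈ pz π P A C) : tau π t r ∈ pz π P A C := by
  induction hr using Submodule.span_induction with
  | mem a h =>
    obtain ⟨w, h1, h2, h3, rfl⟩ := h
    rw [tau_wd]
    exact Submodule.smul_mem _ _ (Submodule.subset_span ⟨w, h1, h2, h3, rfl⟩)
  | zero => rw [map_zero]; exact Submodule.zero_mem _
  | add x y _ _ hx hy => rw [map_add]; exact Submodule.add_mem _ hx hy
  | smul c x _ hx => rw [map_smul]; exact Submodule.smul_mem _ _ hx

theorem tau_pc (t : Tor K) {P : ℤ} {A C : ℕ} {r : R π} (hr : r ∈ pc π P A C) :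
    tau π t r ∈ pc π P A C := by
  rw [← VQ735.pz_eq_pc] at hr ⊢
  exact tau_pz π t hr

theorem tau_pcZ (t : Tor K) {P A C : ℤ} {r : R π} (hr : r ∈ Win810.pcZ π P A C) :
    tau π t r ∈ Win810.pcZ π P A C := by
  rcases Win810.pcZ_cases π hr with rfl | ⟨A1, C1, hA, hC, h⟩
  · rw [map_zero]; exact Submodule.zero_mem _
  · subst hA hC
    rw [Win810.pcZ_nat]
    exact tau_pc π t h

/-! ### the ideal `J` -/

theorem kill_tau (t : Tor K) (r : R π) : kill π (tau π t r) = tau π t (kill π r) := by
  have := hom_ext π (f := (kill π).comp (tau π t)) (g := (tau π t).comp (kill π)) (fun a => by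
    rw [AlgHom.comp_apply, AlgHom.comp_apply, tau_X, map_smul, kill_X]
    cases a <;> simp [kg]) r
  exact this

theorem tau_mem_J {t : Tor K} {r : R π} (hr : r ∈ C2b362.J π) : tau π t r ∈ C2b362.J π := by
  rw [KOS296.mem_J_iff_kill] at hr ⊢
  rw [kill_tau, hr, map_zero]

theorem tau_mem_J_iff {t : Tor K} {r : R π} : tau π t r ∈ C2b362.J π ↔ r ∈ C2b362.J π := by
  refine ⟨fun h => ?_, tau_mem_J π⟩
  have := tau_mem_J π (t := inv t) h
  rwa [tau_inv_tau] at this

/-! ### the characters of `Q` -/

theorem pw_ne_zero {s : Loc261.Lt → K} (hs : ∀ l, s l ≠ 0) (m : Multiset Loc261.Lt) : pw s m ≠ 0 := by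
  unfold pw
  apply Multiset.prod_ne_zero
  intro h
  obtain ⟨l, _, hl⟩ := Multiset.mem_map.1 h
  exact hs l hl

/-- the torus point of a content -/
def torM (m : Multiset Loc261.Lt) : Tor K where
  a0 := (π.c 0)⁻¹ ^ m.card
  a1 := (π.c 1)⁻¹ ^ m.card
  b := pw (lp π).c m
  h0 := pow_ne_zero _ (inv_ne_zero (VQ735.c_ne π 0))
  h1 := pow_ne_zero _ (inv_ne_zero (VQ735.c_ne π 1))
  hb := pw_ne_zero (fun l => (lp π).c_ne l) m

/-- the torus point of a basis element of `Q` -/
def torQ (q : Bt π) : Tor K := torM π q.1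

theorem pw_sg (m : Multiset Loc261.Lt) (s : Fin 2) :
    pw (fun l => sg ((lp π).c l) s) m = sg (pw (lp π).c m) s := by
  rcases f2 s with rfl | rfl
  · rfl
  · simp only [sg, if_neg (show ¬ ((1 : Fin 2) = 0) by decide)]
    unfold pw
    exact Multiset.prod_map_inv

theorem ch_eq (m : Multiset Loc261.Lt) (a : Gen) (ha : a.isW = false) :
    ch π m a = SM890.tw (torM π m) a := by
  have h1 : (1 : Fin 2) ≠ 0 := by decide
  cases a with
  | x i => rcases f2 i with rfl | rfl <;> simp [ch, SM890.tw, torM]
  | h => rfl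
  | d j => rcases f2 j with rfl | rfl <;> simp [ch, SM890.tw, torM]
  | f => rfl
  | z j => rcases f2 j with rfl | rfl <;> simp [ch, SM890.tw, torM, Par.cz, Par.c]
  | zc => rfl
  | u s => exact pw_sg π m s
  | e j => rcases f2 j with rfl | rfl <;> simp [ch, SM890.tw, torM]
  | gj j => rcases f2 j with rfl | rfl <;> simp [ch, SM890.tw, torM, Par.cz, Par.c]
  | gc => rfl
  | v s => exact pw_sg π m s
  | y s => simp [Gen.isW] at ha
  | yb s => simp [Gen.isW] at ha

/-- **the diagonal of the right action of `R''` on `R'' ⊗ Q^*`** -/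
theorem tw_eq (q : Bt π) (r : R π) : VQ735.tw π q r = kill π (tau π (torQ π q) r) := by
  have := hom_ext π (f := VQ735.tw π q) (g := (kill π).comp (tau π (torQ π q))) (fun a => by
    rw [VQ735.tw_X, AlgHom.comp_apply, tau_X, map_smul, kill_X]
    by_cases ha : a.isW = true
    · have h1 : ch π q.1 a = 0 := by cases a <;> simp_all [Gen.isW, ch]
      have h2 : kg π a = 0 := C2b44.kg_W π ha
      rw [h1, h2, zero_smul, smul_zero]
    · have ha' : a.isW = false := by simpa using ha
      rw [ch_eq π q.1 a ha', C2b44.kg_of π ha']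
      rfl) r
  exact this

/-! ### monomial rescaling of `V_m` -/

/-- monomial rescaling -/
def tauV (t : Tor K) : Pol K →ₗ[K] Pol K := op (fun a b => t.a0 ^ a * t.a1 ^ b) (fun a => a) (fun b => b)

@[simp] theorem tauV_mon (t : Tor K) (a b : ℕ) :
    tauV t (mon K a b) = (t.a0 ^ a * t.a1 ^ b) • mon K a b := by
  simp [tauV]

theorem tauV_mem (t : Tor K) {m : ℤ} {v : Pol K} (hv : v ∈ hom K m) : tauV t v ∈ hom K m := by
  have : hom K m ≤ (hom K m).comap (tauV t) := hom_le fun a b hab => by
    rw [Submodule.mem_comap, tauV_mon]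
    exact Submodule.smul_mem _ _ (mon_mem hab)
  exact this hv

theorem tauV_mul (s t : Tor K) (v : Pol K) : tauV (mul s t) v = tauV s (tauV t v) := by
  have : tauV (mul s t) = (tauV s) ∘ₗ (tauV t) := by
    apply ext_mon
    intro a b
    rw [LinearMap.comp_apply, tauV_mon, tauV_mon, map_smul, tauV_mon, smul_smul]
    congr 1
    simp only [mul, mul_pow]
    ring
  exact LinearMap.congr_fun this v

theorem tauV_one (v : Pol K) : tauV (one K) v = v := by
  have : tauV (one K) = LinearMap.id := by
    apply ext_mon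
    intro a b
    simp [one]
  exact LinearMap.congr_fun this v

@[simp] theorem tauV_inv_tauV (t : Tor K) (v : Pol K) : tauV (inv t) (tauV t v) = v := by
  rw [← tauV_mul, inv_mul_eq, tauV_one]

@[simp] theorem tauV_tauV_inv (t : Tor K) (v : Pol K) : tauV t (tauV (inv t) v) = v := by
  rw [← tauV_mul, mul_inv_eq, tauV_one]

theorem tauV_letter (t : Tor K) (a : Gen) (v : Pol K) :
    tauV t (rep π (X π a) v) = rep π (tau π t (X π a)) (tauV t v) := by
  have h1 : (1 : Fin 2) ≠ 0 := by decide
  have t0 := t.h0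
  have t1 := t.h1
  rw [tau_X, map_smul, rep_X]
  have key : (tauV t) ∘ₗ (opG π.g a) = SM890.tw t a • ((opG π.g a) ∘ₗ (tauV t)) := by
    apply ext_mon
    intro i j
    rw [LinearMap.comp_apply, LinearMap.smul_apply, LinearMap.comp_apply]
    cases a with
    | x s =>
      rcases f2 s with rfl | rfl
      · simp [opG, SM890.tw, smul_smul]; ring_nf
      · simp [opG, SM890.tw, smul_smul]; ring_nf
    | h => simp [opG, SM890.tw]
    | d s =>
      rcases f2 s with rfl | rfl
      · rcases i with _ | i
        · simp [opG, SM890.tw, E0, smul_smul]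
        · simp only [opG, SM890.tw, E0, if_true, LinearMap.smul_apply, D0_mon, map_smul, tauV_mon,
            smul_smul, Nat.add_sub_cancel]
          congr 1
          field_simp
          ring
      · rcases j with _ | j
        · simp [opG, SM890.tw, E1, smul_smul]
        · simp only [opG, SM890.tw, E1, if_neg h1, LinearMap.smul_apply, D1_mon, map_smul, tauV_mon,
            smul_smul, Nat.add_sub_cancel]
          congr 1
          field_simp
          ring
    | _ => simp [opG]
  exact LinearMap.congr_fun key v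

/-- **rescaling intertwines the action with its twist** -/
theorem tauV_rep (t : Tor K) (r : R π) (v : Pol K) :
    tauV t (rep π r v) = rep π (tau π t r) (tauV t v) := by
  induction r using R_ind π generalizing v with
  | hc c =>
    rw [AlgHom.commutes, AlgHom.commutes, AlgHom.commutes]
    exact map_smul (tauV t) c v
  | hX a => exact tauV_letter π t a v
  | ha a b ha hb =>
    rw [map_add, map_add, map_add, LinearMap.add_apply, LinearMap.add_apply, map_add, ha, hb]
  | hm a b ha hb =>
    rw [map_mul, map_mul, map_mul, Module.End.mul_apply, Module.End.mul_apply, ha, hb]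

end Crest.Agent.R186.Chr763
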