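import Crest.Agent.R186.TR_810

/-!
Row 186 (A) (helper296): a basis `u k` of `S` over `S / J` (free as a right module, triangular left
multiplication) gives the filtration fields of 810's `TRD`.
-/

set_option autoImplicit false

noncomputable section

namespace Crest.Agent.R186.CoTRD296

open Hat827 Hat827.DGA Frame515 Win810 TR810

variable {K : Type} [Field K]

/-- coordinates of `S` over `S / J` -/
structure Co (w : WD K) where
  Q : Type
  [fQ : Fintype Q]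
  [dQ : DecidableEq Q]
  /-- level -/
  l : Q → ℕ
  k0 : Q
  l0 : ∀ k, l k = 0 ↔ k = k0
  r : ℕ
  lr : ∀ k, l k ≤ r
  u : Q → w.S
  uP : Q → ℤ
  uP01 : ∀ k, uP k = 0 ∨ uP k = 1
  uC : Q → ℕ
  u_mem : ∀ k, u k ∈ w.pc (-uP k) 0 (uC k)
  D_u : ∀ k, w.D (u k) = 0
  co : Q → w.S →ₗ[K] w.S
  sum_co : ∀ x, x = ∑ k, u k * co k x
  co_u : ∀ k k' z, l k ≤ l k' → co k (u k' * z) = if k = k' then co k0 z else 0
  co_l : ∀ k k' s, l k < l k' → co k (s * u k') = 0
  co_mem : ∀ k {P A C : ℤ} {x : w.S}, x ∈ w.pc P A C → co k x ∈ w.pc (P + uP k) A (C - uC k)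

attribute [instance] Co.fQ Co.dQ

variable {w : WD K} (c : Co w)

namespace Co

/-- the filtration -/
def Fl (i : ℕ) : Submodule K w.S where
  carrier := {x | ∀ k, c.l k ≤ i → c.co k x = 0}
  zero_mem' := fun _ _ => map_zero _
  add_mem' := fun {a b} ha hb k hk => by rw [map_add, ha k hk, hb k hk, add_zero]
  smul_mem' := fun r a ha k hk => by rw [map_smul, ha k hk, smul_zero]

theorem mem_Fl {i : ℕ} {x : w.S} : x ∈ c.Fl i ↔ ∀ k, c.l k ≤ i → c.co k x = 0 := Iff.rfl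

theorem mem_Fl0 {x : w.S} : x ∈ c.Fl 0 ↔ c.co c.k0 x = 0 := by
  constructor
  · intro h
    exact h c.k0 (le_of_eq ((c.l0 c.k0).2 rfl))
  · intro h k hk
    rw [(c.l0 k).1 (Nat.le_zero.1 hk)]
    exact h

theorem Fl_r_bot : c.Fl c.r = ⊥ := by
  rw [eq_bot_iff]
  intro x hx
  rw [Submodule.mem_bot, c.sum_co x]
  exact Finset.sum_eq_zero fun k _ => by rw [hx k (c.lr k), mul_zero]

theorem Fl_anti (i : ℕ) : c.Fl (i + 1) ≤ c.Fl i := fun _ h k hk => h k (hk.trans (Nat.le_succ i))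

theorem u_mul_mem (k : c.Q) (z : w.S) {i : ℕ} (h : i < c.l k) : c.u k * z ∈ c.Fl i := by
  intro k' hk'
  rw [c.co_u k' k z (hk'.trans h.le), if_neg]
  rintro rfl
  omega

theorem Fl_right {i : ℕ} (s : w.S) {a : w.S} (ha : a ∈ c.Fl i) : a * s ∈ c.Fl i := by
  rw [c.sum_co a, Finset.sum_mul]
  refine Submodule.sum_mem _ fun k _ => ?_
  by_cases h : c.l k ≤ i
  · rw [ha k h, mul_zero, zero_mul]; exact Submodule.zero_mem _
  · rw [mul_assoc]
    exact c.u_mul_mem k _ (by omega)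

theorem Fl_left {i : ℕ} (s : w.S) {a : w.S} (ha : a ∈ c.Fl i) : s * a ∈ c.Fl i := by
  rw [c.sum_co a, Finset.mul_sum]
  refine Submodule.sum_mem _ fun k _ => ?_
  by_cases h : c.l k ≤ i
  · rw [ha k h, mul_zero, mul_zero]; exact Submodule.zero_mem _
  · rw [← mul_assoc]
    refine c.Fl_right _ ?_
    intro k' hk'
    exact c.co_l k' k s (by omega)

theorem Fl_D {i : ℕ} {a : w.S} (ha : a ∈ c.Fl i) : w.D a ∈ c.Fl i := by
  rw [c.sum_co a, map_sum]
  refine Submodule.sum_mem _ fun k _ => ?_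
  rw [w.D_mul, c.D_u, zero_mul, zero_add]
  by_cases h : c.l k ≤ i
  · rw [ha k h, map_zero, mul_zero]; exact Submodule.zero_mem _
  · exact c.u_mul_mem k _ (by omega)

/-- letters of level `i + 1` -/
abbrev kap (i : ℕ) : Type := {k : c.Q // c.l k = i + 1}

theorem u_J {i : ℕ} (k : c.kap i) {s : w.S} (hs : s ∈ c.Fl 0) : c.u k.1 * s ∈ c.Fl (i + 1) := by
  intro k' hk'
  rw [c.co_u k' k s (hk'.trans (le_of_eq k.2.symm)), (c.mem_Fl0).1 hs, ite_self]

theorem sum_kap (i : ℕ) (f : c.Q → w.S) :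
    ∑ k : c.kap i, f k.1 = ∑ k : c.Q, if c.l k = i + 1 then f k else 0 := by
  rw [← Finset.sum_filter]
  exact (Finset.sum_subtype _ (fun k => by simp) f).symm

theorem gen {i : ℕ} {P A C : ℤ} {x : w.S} (hx : x ∈ c.Fl i) (hp : x ∈ w.pc P A C) :
    ∃ z : c.kap i → w.S, (∀ k, z k ∈ w.pc (P + c.uP k.1) A (C - c.uC k.1)) ∧
      x - ∑ k : c.kap i, c.u k.1 * z k ∈ c.Fl (i + 1) := by
  refine ⟨fun k => c.co k.1 x, fun k => c.co_mem k.1 hp, ?_⟩
  rw [c.sum_kap i (fun k => c.u k * c.co k x)]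
  conv => arg 2; arg 1; rw [c.sum_co x]
  rw [← Finset.sum_sub_distrib]
  refine Submodule.sum_mem _ fun k _ => ?_
  by_cases h1 : c.l k = i + 1
  · rw [if_pos h1, sub_self]; exact Submodule.zero_mem _
  · rw [if_neg h1, sub_zero]
    by_cases h2 : c.l k ≤ i
    · rw [hx k h2, mul_zero]; exact Submodule.zero_mem _
    · exact c.u_mul_mem k _ (by omega)

theorem uniq {i : ℕ} (z : c.kap i → w.S) (h : ∑ k : c.kap i, c.u k.1 * z k ∈ c.Fl (i + 1))
    (k : c.kap i) : z k ∈ c.Fl 0 := by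
  rw [c.mem_Fl0]
  have h1 := h k.1 (le_of_eq k.2)
  rw [map_sum, Finset.sum_eq_single k] at h1
  · rwa [c.co_u k k _ le_rfl, if_pos rfl] at h1
  · intro k' _ hk
    rw [c.co_u k k' _ (by rw [k.2, k'.2]), if_neg]
    intro h
    exact hk (Subtype.ext h.symm)
  · intro h0; exact absurd (Finset.mem_univ _) h0

end Co

end Crest.Agent.R186.CoTRD296
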