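import Crest.Agent.R186.ExtRes_700

/-!
Row 186 (helper328), S0281, block LINK: coinduction along a ring map.

`A → G` a ring map (given as `Module A G` with `IsScalarTower A G G`), `W` a left `A`-module,
`Co A G W = Hom_A(G, W)` with `(x • φ) g = φ (g * x)`.  If `Ext^j_A(G, W) = 0` for `j > 0`, then for
every `G`-module `Z` (with `IsScalarTower A G Z`): `Ext^i_G(Z, Co W) = 0 ↔ Ext^i_A(Z, W) = 0`.
-/

set_option autoImplicit false
set_option linter.style.haveILetI false
set_option linter.unusedSectionVars false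

universe u v

open CategoryTheory CategoryTheory.Abelian

namespace Crest.Agent.R186.Coind328

open ExtRes700

/-! ### one short exact sequence with injective middle term -/

section ses

variable {R : Type u} [Ring R]
variable {Y I Y' : Type u} [AddCommGroup Y] [Module R Y] [AddCommGroup I] [Module R I]
  [AddCommGroup Y'] [Module R Y'] (f : Y →ₗ[R] I) (g : I →ₗ[R] Y')
  (hf : Function.Injective f) (hg : Function.Surjective g) (he : Function.Exact f g)
  {X : Type u} [AddCommGroup X] [Module R X]

include hf hg he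

theorem ses_one (hI : E0 R X I 1) : E0 R X Y 1 ↔
    ∀ φ : X →ₗ[R] Y', ∃ ψ : X →ₗ[R] I, g ∘ₗ ψ = φ := by
  have hse := se f g hf hg he
  constructor
  · intro h φ
    let x : Ext (ModuleCat.of R X) (ModuleCat.of R Y') 0 := Ext.mk₀ (ModuleCat.ofHom φ)
    have h0 : x.comp hse.extClass (zero_add 1) = 0 := h.elim _ _
    obtain ⟨y, hy⟩ := Ext.covariant_sequence_exact₃ (ModuleCat.of R X) hse x (zero_add 1) h0
    obtain ⟨ψ, rfl⟩ := Ext.homEquiv₀.symm.surjective y
    rw [Ext.homEquiv₀_symm_apply, Ext.mk₀_comp_mk₀] at hy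
    have h1 := Ext.homEquiv₀.symm.injective
      (a₁ := ψ ≫ ModuleCat.ofHom g) (a₂ := ModuleCat.ofHom φ)
      (by simpa [Ext.homEquiv₀_symm_apply] using hy)
    exact ⟨ψ.hom, congrArg ModuleCat.Hom.hom h1⟩
  · intro h
    apply sub_of_zero
    intro x
    have h0 : x.comp (Ext.mk₀ (ModuleCat.ofHom f)) (add_zero 1) = 0 := hI.elim _ _
    obtain ⟨y, hy⟩ := Ext.covariant_sequence_exact₁ (ModuleCat.of R X) hse x h0 (zero_add 1)
    obtain ⟨φ, rfl⟩ := Ext.homEquiv₀.symm.surjective y
    obtain ⟨ψ, hψ⟩ := h φ.hom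
    have h1 : φ = ModuleCat.ofHom ψ ≫ ModuleCat.ofHom g := by
      ext1
      exact hψ.symm
    rw [← hy, Ext.homEquiv₀_symm_apply, h1, ← Ext.mk₀_comp_mk₀]
    rw [Ext.comp_assoc (Ext.mk₀ (ModuleCat.ofHom ψ))
      (Ext.mk₀ (ModuleCat.ofHom g)) hse.extClass
      (zero_add 0) (zero_add 1) (by omega)]
    have h2 : (Ext.mk₀ (ModuleCat.ofHom g)).comp hse.extClass
      (zero_add 1) = 0 := hse.comp_extClass
    rw [h2, Ext.comp_zero]

theorem ses_succ (hI : ∀ j, 0 < j → E0 R X I j) (i : ℕ) :
    E0 R X Y (i + 2) ↔ E0 R X Y' (i + 1) := by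
  constructor
  · intro h
    exact cright f g hf hg he (i + 1) (hI _ (by omega)) h
  · intro h
    exact cleft f g hf hg he (i + 1) h (hI _ (by omega))

end ses

/-- enough injectives, unbundled -/
theorem exists_emb (A : Type u) [Ring A] (W : Type u) [AddCommGroup W] [Module A W] :
    ∃ (I : Type u) (_ : AddCommGroup I) (_ : Module A I), Module.Injective A I ∧
      ∃ η : W →ₗ[A] I, Function.Injective η := by
  let J : ModuleCat.{u} A := Injective.under (ModuleCat.of A W)
  let j : ModuleCat.of A W ⟶ J := Injective.ι (ModuleCat.of A W)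
  refine ⟨J, inferInstance, inferInstance, ?_, j.hom, ?_⟩
  · apply (Module.injective_iff_injective_object A J).2
    exact (inferInstance : Injective J)
  · exact (ModuleCat.mono_iff_injective j).1 inferInstance

/-! ### coinduction -/

section co

variable (A G : Type u) [Ring A] [Ring G] [Module A G] [IsScalarTower A G G]

/-- the coinduced module -/
def Co (W : Type u) [AddCommGroup W] [Module A W] : Type u := G →ₗ[A] W

variable {A G}
variable {W : Type u} [AddCommGroup W] [Module A W]

namespace Co

instance : AddCommGroup (Co A G W) := inferInstanceAs (AddCommGroup (G →ₗ[A] W))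

/-- the underlying map -/
def ev (φ : Co A G W) : G →ₗ[A] W := φ

/-- from a linear map -/
def of (φ : G →ₗ[A] W) : Co A G W := φ

@[simp] theorem ev_of (φ : G →ₗ[A] W) : ev (of φ) = φ := rfl
@[simp] theorem of_ev (φ : Co A G W) : of (ev φ) = φ := rfl

@[ext] theorem ext {φ ψ : Co A G W} (h : ∀ g, φ.ev g = ψ.ev g) : φ = ψ := LinearMap.ext h

@[simp] theorem ev_add (φ ψ : Co A G W) : (φ + ψ).ev = φ.ev + ψ.ev := rfl
@[simp] theorem ev_zero : (0 : Co A G W).ev = 0 := rfl
@[simp] theorem ev_sub (φ ψ : Co A G W) : (φ - ψ).ev = φ.ev - ψ.ev := rfl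

/-- right multiplication -/
def rm (x : G) : G →ₗ[A] G where
  toFun g := g * x
  map_add' a b := add_mul a b x
  map_smul' a b := smul_mul_assoc a b x

@[simp] theorem rm_apply (x g : G) : rm (A := A) x g = g * x := rfl

instance : Module G (Co A G W) where
  smul x φ := of (φ.ev ∘ₗ rm x)
  one_smul φ := by
    apply ext
    intro g
    change φ.ev (g * 1) = φ.ev g
    rw [mul_one]
  mul_smul x y φ := by
    apply ext
    intro g
    change φ.ev (g * (x * y)) = φ.ev (g * x * y)
    rw [mul_assoc]
  smul_zero x := rfl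
  smul_add x φ ψ := rfl
  add_smul x y φ := by
    apply ext
    intro g
    change φ.ev (g * (x + y)) = φ.ev (g * x) + φ.ev (g * y)
    rw [mul_add, map_add]
  zero_smul φ := by
    apply ext
    intro g
    change φ.ev (g * 0) = 0
    rw [mul_zero, map_zero]

@[simp] theorem ev_smul (x : G) (φ : Co A G W) (g : G) : (x • φ).ev g = φ.ev (g * x) := rfl

variable {W' : Type u} [AddCommGroup W'] [Module A W']

/-- functoriality -/
def map (h : W →ₗ[A] W') : Co A G W →ₗ[G] Co A G W' where
  toFun φ := of (h ∘ₗ φ.ev)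
  map_add' φ ψ := by
    apply ext
    intro g
    exact map_add h _ _
  map_smul' x φ := rfl

@[simp] theorem ev_map (h : W →ₗ[A] W') (φ : Co A G W) (g : G) :
    (map h φ).ev g = h (φ.ev g) := rfl

theorem map_inj {h : W →ₗ[A] W'} (hh : Function.Injective h) :
    Function.Injective (map (G := G) h) := by
  intro φ ψ e
  apply ext
  intro g
  apply hh
  exact LinearMap.congr_fun (congrArg ev e) g

section adj

variable {Z : Type u} [AddCommGroup Z] [Module G Z] [Module A Z] [IsScalarTower A G Z]

/-- `Hom_A(Z, W) → Hom_G(Z, Co W)` -/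
def up (ψ : Z →ₗ[A] W) : Z →ₗ[G] Co A G W where
  toFun z := of
    { toFun := fun g => ψ (g • z)
      map_add' := fun a b => by rw [add_smul, map_add]
      map_smul' := fun a b => by
        rw [RingHom.id_apply, smul_assoc, map_smul] }
  map_add' y z := by
    apply ext
    intro g
    change ψ (g • (y + z)) = ψ (g • y) + ψ (g • z)
    rw [smul_add, map_add]
  map_smul' x z := by
    apply ext
    intro g
    change ψ (g • x • z) = ψ ((g * x) • z)
    rw [mul_smul]

@[simp] theorem ev_up (ψ : Z →ₗ[A] W) (z : Z) (g : G) : (up (G := G) ψ z).ev g = ψ (g • z) := rfl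

/-- `Hom_G(Z, Co W) → Hom_A(Z, W)` -/
def down (Φ : Z →ₗ[G] Co A G W) : Z →ₗ[A] W where
  toFun z := (Φ z).ev 1
  map_add' y z := by rw [map_add, ev_add, LinearMap.add_apply]
  map_smul' a z := by
    have h1 : a • z = (a • (1 : G)) • z := by rw [smul_assoc, one_smul]
    rw [h1, map_smul, ev_smul, one_mul, map_smul, RingHom.id_apply]

@[simp] theorem down_apply (Φ : Z →ₗ[G] Co A G W) (z : Z) : down Φ z = (Φ z).ev 1 := rfl

theorem up_down (Φ : Z →ₗ[G] Co A G W) : up (down Φ) = Φ := by
  apply LinearMap.ext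
  intro z
  apply ext
  intro g
  rw [ev_up, down_apply, map_smul, ev_smul, one_mul]

theorem down_up (ψ : Z →ₗ[A] W) : down (up (G := G) ψ) = ψ := by
  apply LinearMap.ext
  intro z
  rw [down_apply, ev_up, one_smul]

theorem map_up (h : W →ₗ[A] W') (ψ : Z →ₗ[A] W) : map h ∘ₗ up (G := G) ψ = up (h ∘ₗ ψ) := rfl

end adj

/-- the ring map -/
def toG (A G : Type u) [Ring A] [Ring G] [Module A G] [IsScalarTower A G G] : A →+* G where
  toFun a := a • (1 : G)
  map_one' := one_smul A 1
  map_mul' a b := by rw [smul_mul_assoc, one_mul, mul_smul]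
  map_zero' := zero_smul A 1
  map_add' a b := add_smul a b 1

theorem inj_co (hW : Module.Injective A W) : Module.Injective G (Co A G W) := by
  constructor
  intro X Y _ _ _ _ f hf g
  letI mX : Module A X := Module.compHom X (toG A G)
  letI mY : Module A Y := Module.compHom Y (toG A G)
  haveI tX : IsScalarTower A G X := ⟨fun a x y => by
    change (a • x) • y = (a • (1 : G)) • (x • y)
    rw [← mul_smul, smul_mul_assoc, one_mul]⟩
  haveI tY : IsScalarTower A G Y := ⟨fun a x y => by
    change (a • x) • y = (a • (1 : G)) • (x • y)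
    rw [← mul_smul, smul_mul_assoc, one_mul]⟩
  let f' : X →ₗ[A] Y :=
    { toFun := f
      map_add' := map_add f
      map_smul' := fun a x => by
        change f ((a • (1 : G)) • x) = (a • (1 : G)) • f x
        rw [map_smul] }
  obtain ⟨h, hh⟩ := hW.out f' hf (down g)
  refine ⟨up h, fun x => ?_⟩
  apply ext
  intro b
  rw [ev_up]
  have h1 : b • f x = f' (b • x) := (map_smul f b x).symm
  rw [h1, hh, down_apply, map_smul, ev_smul, one_mul]

end Co

end co

/-! ### the theorem -/

section main

variable {A G : Type u} [Ring A] [Ring G] [Module A G] [IsScalarTower A G G]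

theorem zero_iff_co {W : Type u} [AddCommGroup W] [Module A W]
    {Z : Type u} [AddCommGroup Z] [Module G Z] [Module A Z] [IsScalarTower A G Z] :
    E0 G Z (Co A G W) 0 ↔ E0 A Z W 0 := by
  rw [zero_iff, zero_iff]
  constructor
  · intro h f
    have h1 := h (Co.up f)
    rw [← Co.down_up (G := G) f, h1]
    rfl
  · intro h f
    rw [← Co.up_down f, h (Co.down f)]
    apply LinearMap.ext
    intro z
    apply Co.ext
    intro g
    rfl

/-- **coinduction and `Ext`.** -/
theorem ext_co (i : ℕ) : ∀ (W : Type u) [AddCommGroup W] [Module A W]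
    (_ : ∀ j, 0 < j → E0 A G W j)
    (Z : Type u) [AddCommGroup Z] [Module G Z] [Module A Z] [IsScalarTower A G Z],
    E0 G Z (Co A G W) i ↔ E0 A Z W i := by
  induction i with
  | zero =>
    intro W _ _ _ Z _ _ _ _
    exact zero_iff_co
  | succ i ih =>
    intro W _ _ hW Z _ _ _ _
    obtain ⟨I, _, _, hI, η, hη⟩ := exists_emb A W
    let W' := I ⧸ LinearMap.range η
    let π : I →ₗ[A] W' := (LinearMap.range η).mkQ
    have hπ : Function.Surjective π := Submodule.mkQ_surjective _
    have hex : Function.Exact η π := by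
      intro x
      change (Submodule.Quotient.mk x : W') = 0 ↔ _
      rw [Submodule.Quotient.mk_eq_zero]
      rfl
    have hW' : ∀ j, 0 < j → E0 A G W' j := fun j hj =>
      cright η π hη hπ hex j (by
        obtain ⟨k, rfl⟩ := Nat.exists_eq_add_of_le' hj
        exact inj hI k) (hW (j + 1) (by omega))
    have hl : ∀ φ : G →ₗ[A] W', ∃ ψ : G →ₗ[A] I, π ∘ₗ ψ = φ :=
      (ses_one η π hη hπ hex (inj hI 0)).1 (hW 1 one_pos)
    have cη := Co.map_inj (G := G) hη
    have cπ : Function.Surjective (Co.map (G := G) π) := by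
      intro φ
      obtain ⟨ψ, hψ⟩ := hl φ.ev
      refine ⟨Co.of ψ, ?_⟩
      apply Co.ext
      intro g
      exact LinearMap.congr_fun hψ g
    have cex : Function.Exact (Co.map (G := G) η) (Co.map (G := G) π) := by
      intro φ
      constructor
      · intro h
        have h1 : ∀ g, φ.ev g ∈ LinearMap.range η := by
          intro g
          have h2 : π (φ.ev g) = 0 := LinearMap.congr_fun (congrArg Co.ev h) g
          exact (hex _).1 h2
        let e := LinearEquiv.ofInjective η hη
        refine ⟨Co.of (e.symm.toLinearMap ∘ₗ (φ.ev.codRestrict _ h1)), ?_⟩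
        apply Co.ext
        intro g
        have h3 : e (e.symm (φ.ev.codRestrict _ h1 g)) = φ.ev.codRestrict _ h1 g :=
          e.apply_symm_apply _
        exact congrArg Subtype.val h3
      · rintro ⟨ψ, rfl⟩
        apply Co.ext
        intro g
        exact hex.apply_apply_eq_zero (ψ.ev g)
    have cI : Module.Injective G (Co A G I) := Co.inj_co hI
    cases i with
    | zero =>
      change E0 G Z (Co A G W) 1 ↔ E0 A Z W 1
      rw [ses_one _ _ cη cπ cex (inj cI 0), ses_one η π hη hπ hex (inj hI 0)]
      constructor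
      · intro h φ
        obtain ⟨Ψ, hΨ⟩ := h (Co.up φ)
        refine ⟨Co.down Ψ, ?_⟩
        apply LinearMap.ext
        intro z
        have h1 := LinearMap.congr_fun (congrArg Co.ev (LinearMap.congr_fun hΨ z)) 1
        change π ((Ψ z).ev 1) = φ z
        have h2 : (Co.up (G := G) φ z).ev 1 = φ z := by rw [Co.ev_up, one_smul]
        rw [← h2]
        exact h1
      · intro h Φ
        obtain ⟨ψ, hψ⟩ := h (Co.down Φ)
        refine ⟨Co.up ψ, ?_⟩
        rw [Co.map_up, hψ, Co.up_down]
    | succ i =>
      rw [ses_succ _ _ cη cπ cex (fun j hj => by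
        obtain ⟨k, rfl⟩ := Nat.exists_eq_add_of_le' hj
        exact inj cI k) i, ses_succ η π hη hπ hex (fun j hj => by
        obtain ⟨k, rfl⟩ := Nat.exists_eq_add_of_le' hj
        exact inj hI k) i]
      exact ih W' hW' Z

end main

end Crest.Agent.R186.Coind328
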