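import Mathlib

/-!
# Row 186, S0281 base, nullness block for `s = 1` (helper113): the column `O(-2)`

The complex `Hom_A(K'(n), A e_2)` in coordinates (index `j` = exponent of `x1`, `lam m = c_m`):

* `C^1` : `ζ_j`, `j < n` (the map `(a,b) ⊗ u ↦ ζ(u) (a x0 + b x1)` on `K₂ ⊗ [n-1]`);
* `C^2` : `Z^e_j`, `e = 0, 1`, `j ≤ n` (the same on `K₁' ⊗ [n]²`), `Z^e(v) = -ζ(d_e v)`;
* `C^3` : `e ⊗ v ↦ e (α(v) + β0(v) x0 + β1(v) x1)` on `O(-2) ⊗ [n]`, `α = 0`,
  `β0(v) = -Z^0(d1 x1 v) + Z^1(d0 x1 v)`, `β1(v) = Z^0(d1 x0 v) - Z^1(d0 x0 v)`.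

Exactness at `C^1`, `C^2`, and the image of `C^2 → C^3`.
-/

set_option autoImplicit false

namespace Crest.Agent.R186.Col113

variable {K : Type*} [Field K] (lam : ℕ → K) (n : ℕ)

/-- `Z^e(v) = -ζ(d_e v)` -/
def zz (ζ : ℕ → K) (e : Fin 2) (j : ℕ) : K :=
  if e = 0 then -(lam (n - j) * ζ j) else -(lam j * ζ (j - 1))

/-- the coefficient of `x0` -/
def be0 (Z : Fin 2 → ℕ → K) (j : ℕ) : K := -(lam (j + 1) * Z 0 j) + lam (n - j) * Z 1 (j + 1)

/-- the coefficient of `x1` -/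
def be1 (Z : Fin 2 → ℕ → K) (j : ℕ) : K := lam j * Z 0 (j - 1) - lam (n + 1 - j) * Z 1 j

variable {lam n}

theorem zz0 (ζ : ℕ → K) (j : ℕ) : zz lam n ζ 0 j = -(lam (n - j) * ζ j) := rfl

theorem zz1 (ζ : ℕ → K) (j : ℕ) : zz lam n ζ 1 j = -(lam j * ζ (j - 1)) := rfl

/-- the relation between the two coefficients -/
theorem be_add (Z : Fin 2 → ℕ → K) {j : ℕ} (hj : j < n) :
    be0 lam n Z j + be1 lam n Z (j + 1) = 0 := by
  simp only [be0, be1, Nat.add_sub_cancel, show n + 1 - (j + 1) = n - j by omega]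
  ring

/-- the square is zero -/
theorem be_zz (h0 : lam 0 = 0) (ζ : ℕ → K) {j : ℕ} (hj : j ≤ n) :
    be0 lam n (zz lam n ζ) j = 0 ∧ be1 lam n (zz lam n ζ) j = 0 := by
  constructor
  · simp only [be0, zz0, zz1, Nat.add_sub_cancel]
    ring
  · rcases j with _ | j
    · simp only [be1, zz0, zz1, h0]
      ring
    · simp only [be1, zz0, zz1, Nat.add_sub_cancel, show n + 1 - (j + 1) = n - j by omega]
      ring

/-- exactness at `C^1` -/
theorem inj (hlam : ∀ m, 0 < m → m ≤ n + 1 → lam m ≠ 0) (ζ : ℕ → K)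
    (h : ∀ j ≤ n, zz lam n ζ 0 j = 0) : ∀ j < n, ζ j = 0 := by
  intro j hj
  have h1 := h j hj.le
  rw [zz0, neg_eq_zero] at h1
  exact (mul_eq_zero.mp h1).resolve_left (hlam _ (by omega) (by omega))

/-- exactness at `C^2` -/
theorem mid (hlam : ∀ m, 0 < m → m ≤ n + 1 → lam m ≠ 0) (h0 : lam 0 = 0)
    (Z : Fin 2 → ℕ → K) (h : ∀ j ≤ n, be0 lam n Z j = 0 ∧ be1 lam n Z j = 0) :
    ∃ ζ : ℕ → K, ∀ e, ∀ j ≤ n, Z e j = zz lam n ζ e j := by
  have hZ0 : Z 0 n = 0 := by
    have h1 := (h n le_rfl).1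
    rw [be0, Nat.sub_self, h0, zero_mul, add_zero, neg_eq_zero] at h1
    exact (mul_eq_zero.mp h1).resolve_left (hlam _ (by omega) le_rfl)
  have hZ1 : Z 1 0 = 0 := by
    have h1 := (h 0 (Nat.zero_le _)).2
    rw [be1, h0, zero_mul, zero_sub, neg_eq_zero, Nat.sub_zero] at h1
    exact (mul_eq_zero.mp h1).resolve_left (hlam _ (by omega) le_rfl)
  refine ⟨fun j => -((lam (n - j))⁻¹ * Z 0 j), ?_⟩
  intro e j hj
  fin_cases e
  · simp only [Fin.zero_eta, Fin.isValue]
    rw [zz0]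
    rcases Nat.lt_or_ge j n with hlt | hge
    · have hl : lam (n - j) ≠ 0 := hlam _ (by omega) (by omega)
      field_simp
    · obtain rfl : j = n := by omega
      rw [hZ0, Nat.sub_self, h0]
      ring
  · simp only [Fin.mk_one, Fin.isValue]
    rw [zz1]
    rcases j with _ | j
    · rw [hZ1, h0]
      ring
    · have h1 := (h j (by omega)).1
      rw [be0] at h1
      have hl : lam (n - j) ≠ 0 := hlam _ (by omega) (by omega)
      rw [Nat.add_sub_cancel]
      have h2 : lam (n - j) * Z 1 (j + 1) = lam (j + 1) * Z 0 j := by linear_combination h1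
      field_simp
      linear_combination h2

/-- the image of `C^2 → C^3` -/
theorem ev_iff (hlam : ∀ m, 0 < m → m ≤ n + 1 → lam m ≠ 0) (h0 : lam 0 = 0) (b0 b1 : ℕ → K) :
    (∃ Z : Fin 2 → ℕ → K, ∀ j ≤ n, b0 j = be0 lam n Z j ∧ b1 j = be1 lam n Z j) ↔
      ∀ j < n, b0 j + b1 (j + 1) = 0 := by
  constructor
  · rintro ⟨Z, hZ⟩ j hj
    rw [(hZ j hj.le).1, (hZ (j + 1) (by omega)).2, be_add Z hj]
  · intro h
    refine ⟨fun e j => if e = 0 then -((lam (j + 1))⁻¹ * b0 j) else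
      (if j = 0 then -((lam (n + 1))⁻¹ * b1 0) else 0), ?_⟩
    intro j hj
    have hl : lam (j + 1) ≠ 0 := hlam _ (by omega) (by omega)
    have hn : lam (n + 1) ≠ 0 := hlam _ (by omega) le_rfl
    constructor
    · simp only [be0, if_true, one_ne_zero, if_false, Fin.isValue, Nat.succ_ne_zero, mul_zero,
        add_zero]
      field_simp
    · rcases j with _ | j
      · simp only [be1, if_true, one_ne_zero, if_false, Fin.isValue, h0, Nat.sub_zero]
        field_simp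
        ring
      · have hl' : lam (j + 1) ≠ 0 := hlam _ (by omega) (by omega)
        simp only [be1, if_true, one_ne_zero, if_false, Fin.isValue, Nat.succ_ne_zero, mul_zero,
          sub_zero, Nat.add_sub_cancel]
        have h1 := h j (by omega)
        field_simp
        linear_combination h1

end Crest.Agent.R186.Col113
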