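import Crest.Agent.R186.ColAd_977
import Crest.Agent.R186.Col_921
import Crest.Agent.R186.MW_890

/-!
# Row 186, half (A), leaf V3, adapter (helper977), part 2: columns of the bimodule `M`

* `lbD D : LB w` : 921's left module of 44's bimodule `D : BD w`.
* `MF D P` : `P : BM w.dga D.ext.dga` in matrix form.
* `MF.col o : Col P (colL (lbD D) (w.P o) (w.A o)) (WD.e o)`.
* `MF.colH o o' s` : right multiplication by `s` at `(o, o')`.
-/

set_option autoImplicit false
set_option linter.style.haveILetI false
set_option linter.unusedSectionVars false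

open MulOpposite

noncomputable section

namespace Crest.Agent.R186.ColAd977

open Frame515 Hat827 TB143 Win810 Col921 SExt44

variable {K : Type} [Field K] {w : WD K}

/-- 44's bimodule as a left module -/
@[reducible] def modD (D : BD w) : Module w.S D.M := Module.compHom D.M D.lM.toRingHom

/-- 921's form of the left module -/
def lbD (D : BD w) : LB w :=
  letI := modD D
  { B := D.M
    act := modD D
    tower := ⟨fun r a m => by
      show D.lM (r • a) m = r • D.lM a m
      rw [map_smul]
      rfl⟩
    pb := D.pcM
    smul_mem := fun ha hm => D.lM_mem ha hm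
    d := D.DM
    d_smul := fun a m => D.DM_l a m
    d_d := D.DM_DM
    d_mem := fun h => D.DM_mem h }

theorem lbD_smul (D : BD w) (a : w.S) (m : D.M) :
    (show (lbD D).B from a • (show (lbD D).B from m)) = D.lM a m := rfl

theorem cvx {D : BD w} {v v' : Cv (lbD D)} (h : ∀ i, v i = v' i) : v = v' := funext h

/-- a bimodule in matrix form -/
structure MF (D : BD w) (P : BM w.dga D.ext.dga) where
  en : P.X ≃ₗ[K] (w.Ob → w.Ob → D.M)
  mem_gr : ∀ {k : ℤ} {x : P.X}, x ∈ P.gr k ↔
    ∀ i j, en x i j ∈ D.pcM (w.P i - w.P j) (w.A i - w.A j) k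
  en_d : ∀ (x : P.X) (i j : w.Ob), en (P.d x) i j = D.DM (en x i j)
  en_l : ∀ (a : w.dga.C) (x : P.X) (i j : w.Ob),
    en (a • x) i j = ∑ l, D.lM ((a : w.Win).1 i l) (en x l j)
  en_r : ∀ (b : D.ext.dga.C) (x : P.X) (i j : w.Ob),
    en (op b • x) i j = ∑ l : w.Ob, D.rM ((show D.Car from (b : D.ext.Win).1 l j).1) (en x i l)

namespace MF

variable {D : BD w} {P : BM w.dga D.ext.dga} (F : MF D P)

/-- right multiplication by a matrix unit -/
theorem en_ws (o o' : w.Ob) (s : D.Car) (hs : s ∈ D.ext.E o o') (x : P.X) (i j : w.Ob) :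
    F.en (op (show D.ext.dga.C from WD.ws (w := D.ext) o o' s hs) • x) i j =
      if o' = j then D.rM s.1 (F.en x i o) else 0 := by
  rw [F.en_r]
  have h1 : ∀ l : w.Ob, D.rM ((show D.Car from
      ((show D.ext.dga.C from WD.ws (w := D.ext) o o' s hs) : D.ext.Win).1 l j).1) (F.en x i l) =
      if o = l then (if o' = j then D.rM s.1 (F.en x i o) else 0) else 0 := by
    intro l
    have h2 : (show D.Car from
      ((show D.ext.dga.C from WD.ws (w := D.ext) o o' s hs) : D.ext.Win).1 l j) =
      if o = l ∧ o' = j then s else 0 := WD.ws_apply (w := D.ext) o o' s hs l j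
    rw [h2]
    by_cases ho : o = l
    · subst ho
      by_cases hj : o' = j
      · rw [if_pos ⟨rfl, hj⟩, if_pos rfl, if_pos hj]
      · rw [if_neg (fun h => hj h.2), if_pos rfl, if_neg hj]
        show D.rM (0 : w.S) _ = 0
        rw [map_zero]
        rfl
    · rw [if_neg (fun h => ho h.1), if_neg ho]
      show D.rM (0 : w.S) _ = 0
      rw [map_zero]
      rfl
  rw [Finset.sum_congr rfl fun l _ => h1 l, Finset.sum_ite_eq]
  simp

theorem en_e (o : w.Ob) (x : P.X) (i j : w.Ob) :
    F.en (op (show D.ext.dga.C from WD.e (w := D.ext) o) • x) i j =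
      if o = j then F.en x i o else 0 := by
  have h := F.en_ws o o (1 : D.Car) (WD.q_le (w := D.ext) o o 0 (WD.q_one (w := D.ext) o)) x i j
  refine h.trans ?_
  by_cases hj : o = j
  · rw [if_pos hj, if_pos hj]
    exact D.rM_one _
  · rw [if_neg hj, if_neg hj]

theorem en_ext {x y : P.X} (h : ∀ i j, F.en x i j = F.en y i j) : x = y :=
  F.en.injective (funext fun i => funext fun j => h i j)

/-- the column map -/
def cMap (o : w.Ob) : P.X →ₗ[K] Cv (lbD D) where
  toFun x := fun i => F.en x i o
  map_add' x y := by
    refine cvx fun i => ?_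
    show F.en (x + y) i o = F.en x i o + F.en y i o
    rw [map_add]
    rfl
  map_smul' r x := by
    refine cvx fun i => ?_
    show F.en (r • x) i o = r • F.en x i o
    rw [map_smul]
    rfl

/-- the inclusion of a column -/
def iMap (o : w.Ob) : Cv (lbD D) →ₗ[K] P.X where
  toFun v := F.en.symm fun i j => if o = j then (show D.M from v i) else 0
  map_add' v v' := by
    rw [← map_add]
    congr 1
    funext i j
    show (if o = j then (show D.M from v i + v' i) else 0) =
      (if o = j then (show D.M from v i) else 0) + (if o = j then (show D.M from v' i) else 0)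
    split_ifs
    · rfl
    · rw [add_zero]
  map_smul' r v := by
    rw [RingHom.id_apply, ← map_smul]
    congr 1
    funext i j
    show (if o = j then (show D.M from r • v i) else 0) =
      r • (if o = j then (show D.M from v i) else 0)
    split_ifs
    · rfl
    · rw [smul_zero]

theorem en_iMap (o : w.Ob) (v : Cv (lbD D)) (i j : w.Ob) :
    F.en (F.iMap o v) i j = if o = j then (show D.M from v i) else 0 := by
  show F.en (F.en.symm _) i j = _
  rw [LinearEquiv.apply_symm_apply]

/-- **the column of `M`** -/
def col (o : w.Ob) : Col P (colL (lbD D) (w.P o) (w.A o))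
    (show D.ext.dga.C from WD.e (w := D.ext) o) where
  c :=
    { f := F.cMap o
      f_mem := fun {k x} hx i => (F.mem_gr.1 hx) i o
      f_d := fun x => by
        refine cvx fun i => ?_
        exact F.en_d x i o
      smul := fun a x => by
        refine cvx fun i => ?_
        exact F.en_l a x i o }
  i :=
    { f := F.iMap o
      f_mem := fun {k v} hv => F.mem_gr.2 fun i j => by
        rw [F.en_iMap]
        split_ifs with h
        · subst h
          exact hv i
        · exact Submodule.zero_mem _
      f_d := fun v => F.en_ext fun i j => by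
        rw [F.en_iMap, F.en_d, F.en_iMap]
        split_ifs
        · rfl
        · rw [map_zero]
      smul := fun a v => F.en_ext fun i j => by
        rw [F.en_iMap, F.en_l]
        have h1 : ∀ l, D.lM ((a : w.Win).1 i l) (F.en (F.iMap o v) l j) =
            if o = j then D.lM ((a : w.Win).1 i l) (show D.M from v l) else 0 := by
          intro l
          rw [F.en_iMap]
          split_ifs
          · rfl
          · rw [map_zero]
        rw [Finset.sum_congr rfl fun l _ => h1 l]
        split_ifs
        · rfl
        · rw [Finset.sum_const_zero] }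
  ci v := by
    refine cvx fun i => ?_
    show F.en (F.iMap o v) i o = v i
    rw [F.en_iMap, if_pos rfl]
  ic x := F.en_ext fun i j => by
    show F.en (F.iMap o (F.cMap o x)) i j = _
    rw [F.en_iMap, F.en_e]
    rfl

/-- right multiplication by `s`, on columns -/
def rMap (D : BD w) (s : w.S) : Cv (lbD D) →ₗ[K] Cv (lbD D) where
  toFun v := fun i => D.rM s (v i)
  map_add' v v' := by
    refine cvx fun i => ?_
    exact map_add (D.rM s) _ _
  map_smul' r v := by
    refine cvx fun i => ?_
    exact map_smul (D.rM s) _ _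

/-- right multiplication by `s : (o, o')` as a morphism of columns -/
def rHom (D : BD w) {o o' : w.Ob} {s : w.S} (hs : s ∈ w.q o o' 0) (h0 : w.D s = 0) :
    LMHom (colL (lbD D) (w.P o) (w.A o)) (colL (lbD D) (w.P o') (w.A o')) where
  f := rMap D s
  f_mem {k v} hv := fun i => by
    have h := D.rM_mem (hv i) hs
    have e1 : w.P i - w.P o + (w.P o - w.P o') = w.P i - w.P o' := by ring
    have e2 : w.A i - w.A o + (w.A o - w.A o') = w.A i - w.A o' := by ring
    rw [e1, e2, add_zero] at h
    exact h
  f_d v := by
    refine cvx fun i => ?_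
    show D.rM s (D.DM (v i)) = D.DM (D.rM s (v i))
    rw [D.DM_r, h0, map_zero]
    exact (add_zero _).symm
  smul a v := by
    refine cvx fun i => ?_
    show D.rM s (∑ l, D.lM ((a : w.Win).1 i l) (v l)) = ∑ l, D.lM ((a : w.Win).1 i l) (D.rM s (v l))
    rw [map_sum]
    exact Finset.sum_congr rfl fun l _ => (D.comm _ _ _).symm

theorem mem_E {o o' : w.Ob} {s : w.S} (hs : s ∈ w.q o o' 0) : D.el s 0 ∈ D.ext.E o o' :=
  WD.q_le (w := D.ext) o o' 0 (show D.el s 0 ∈ D.pcS _ _ _ from ⟨hs, Submodule.zero_mem _⟩)

/-- the element of the window algebra -/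
def hEl (D : BD w) {o o' : w.Ob} {s : w.S} (hs : s ∈ w.q o o' 0) : D.ext.dga.C :=
  WD.ws (w := D.ext) o o' (D.el s 0) (mem_E hs)

/-- **right multiplication by `s` from the column `o` to the column `o'`** -/
def colH {o o' : w.Ob} {s : w.S} (hs : s ∈ w.q o o' 0) (h0 : w.D s = 0) :
    ColH (F.col o) (F.col o') (hEl D hs) where
  η := rHom D hs h0
  link p := by
    refine cvx fun i => ?_
    show F.en (op (hEl D hs) • p) i o' = D.rM s (F.en p i o)
    have h := F.en_ws o o' (D.el s 0) (mem_E hs) p i o'
    rw [if_pos rfl] at h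
    exact h
  he := (WD.col_iff (w := D.ext) o' (hEl D hs)).2 fun i' j' hj => by
    refine (WD.ws_apply (w := D.ext) o o' (D.el s 0) (mem_E hs) i' j').trans ?_
    rw [if_neg fun h => hj h.2]
  eh := (WD.row_iff (w := D.ext) o (hEl D hs)).2 fun i' j' hj => by
    refine (WD.ws_apply (w := D.ext) o o' (D.el s 0) (mem_E hs) i' j').trans ?_
    rw [if_neg fun h => hj h.1]

end MF

/-- **163's all-matrix window of `M` is in matrix form** -/
def mfT (D : BD w) : MF D (Res255.resBR (SM890.fstH D) (SM890.tbOf D).win) where
  en := LinearEquiv.refl K (w.Ob → w.Ob → D.M)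
  mem_gr {k x} := by
    constructor
    · intro h i j
      have := h i j
      rwa [SM890.q_tbOf] at this
    · intro h i j
      have := h i j
      rwa [← SM890.q_tbOf] at this
  en_d _ _ _ := rfl
  en_l _ _ _ _ := rfl
  en_r _ _ _ _ := rfl

end Crest.Agent.R186.ColAd977
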