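import Crest.Agent.R186.TB4_143
import Crest.Agent.R186.Frame2_515

/-!
# Row 186, half (A), leaf V3, adapter (helper977): columns of `Y ⊗ P`

`Col P N e` : the left module `N` is the column `P e` of the bimodule `P`.
* `Col.ac` : `Y ⊗ N` acyclic ⟹ every `e`-fixed cycle of `Y ⊗ P` is `d` of an `e`-fixed element.
* `ColH.surj / inj` : right multiplication by `h : B.C` from the column `e` to the column `e'`
  is a quasi-isomorphism on `Y ⊗ P` as soon as `Y ⊗ η` is one (`η : N → N'`).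
-/

set_option autoImplicit false
set_option linter.style.haveILetI false
set_option linter.unusedSectionVars false

open MulOpposite

namespace Crest.Agent.R186.ColAd977

open Frame515 Hat827 TB143

variable {K : Type} [Field K] {A B : DGA K}

/-- the column of a bimodule at an idempotent -/
structure Col (P : BM A B) (N : LM A) (e : B.C) where
  c : LMHom P.toLM N
  i : LMHom N P.toLM
  ci : ∀ n, c.f (i.f n) = n
  ic : ∀ p : P.X, i.f (c.f p) = op e • p

section one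

variable {P : BM A B} {N N' : LM A} {e e' : B.C}

theorem Col.map_i_c (C : Col P N e) (Y : RCells A) (x : Y.ι →₀ P.X) :
    (tYmap Y C.i).f ((tYmap Y C.c).f x) = (op e • (show (tQ Y P).X from x) : (tQ Y P).X) := by
  refine Finsupp.ext fun σ => ?_
  have h1 := tYmap_apply Y C.i ((tYmap Y C.c).f x) σ
  have h2 := tYmap_apply Y C.c x σ
  refine h1.trans ?_
  refine (congrArg C.i.f h2).trans ?_
  exact C.ic (x σ)

theorem Col.map_c_i (C : Col P N e) (Y : RCells A) (x : Y.ι →₀ N.X) :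
    (tYmap Y C.c).f ((tYmap Y C.i).f x) = x := by
  refine Finsupp.ext fun σ => ?_
  have h1 := tYmap_apply Y C.c ((tYmap Y C.i).f x) σ
  have h2 := tYmap_apply Y C.i x σ
  refine h1.trans ?_
  refine (congrArg C.c.f h2).trans ?_
  exact C.ci (x σ)

/-- elements from the column are fixed -/
theorem Col.fix (C : Col P N e) (Y : RCells A) (x : Y.ι →₀ N.X) :
    (op e • (show (tQ Y P).X from (tYmap Y C.i).f x) : (tQ Y P).X) = (tYmap Y C.i).f x := by
  rw [← C.map_i_c Y, C.map_c_i Y]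

/-- **columns of `Y ⊗ P`** -/
theorem Col.ac (C : Col P N e) (Y : RCells A) (h : Ac (tY Y N)) (k : ℤ) (x : (tQ Y P).X)
    (hx : x ∈ (tQ Y P).gr k) (he : op e • x = x) (hd : (tQ Y P).d x = 0) :
    ∃ y ∈ (tQ Y P).gr (k + 1), op e • y = y ∧ (tQ Y P).d y = x := by
  obtain ⟨z, hz, e1⟩ := h k ((tYmap Y C.c).f x) ((tYmap Y C.c).f_mem hx) (by
    have := (tYmap Y C.c).f_d x
    rw [← this]
    have e2 : (tY Y P.toLM).d x = 0 := hd
    rw [e2, map_zero])
  refine ⟨(tYmap Y C.i).f z, (tYmap Y C.i).f_mem hz, C.fix Y z, ?_⟩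
  have e2 : (tQ Y P).d ((tYmap Y C.i).f z) = (tYmap Y C.i).f ((tY Y N).d z) :=
    ((tYmap Y C.i).f_d z).symm
  rw [e2, e1, C.map_i_c Y]
  exact he

/-- degreewise version -/
theorem Col.ac_at (C : Col P N e) (Y : RCells A) (k : ℤ) (h : Z (tY Y N) k) (x : (tQ Y P).X)
    (hx : x ∈ (tQ Y P).gr k) (he : op e • x = x) (hd : (tQ Y P).d x = 0) :
    ∃ y ∈ (tQ Y P).gr (k + 1), op e • y = y ∧ (tQ Y P).d y = x := by
  obtain ⟨z, hz, e1⟩ := h ((tYmap Y C.c).f x) ((tYmap Y C.c).f_mem hx) (by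
    have := (tYmap Y C.c).f_d x
    rw [← this]
    have e2 : (tY Y P.toLM).d x = 0 := hd
    rw [e2, map_zero])
  refine ⟨(tYmap Y C.i).f z, (tYmap Y C.i).f_mem hz, C.fix Y z, ?_⟩
  have e2 : (tQ Y P).d ((tYmap Y C.i).f z) = (tYmap Y C.i).f ((tY Y N).d z) :=
    ((tYmap Y C.i).f_d z).symm
  rw [e2, e1, C.map_i_c Y]
  exact he

/-- right multiplication by `h` from the column `e` to the column `e'` -/
structure ColH (C : Col P N e) (C' : Col P N' e') (h : B.C) where
  η : LMHom N N'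
  link : ∀ p : P.X, C'.c.f (op h • p) = η.f (C.c.f p)
  he : h * e' = h
  eh : e * h = h

variable {C : Col P N e} {C' : Col P N' e'} {h : B.C}

theorem ColH.linkY (H : ColH C C' h) (Y : RCells A) (x : (tQ Y P).X) :
    (tYmap Y C'.c).f (op h • x : (tQ Y P).X) = (tYmap Y H.η).f ((tYmap Y C.c).f x) := by
  refine Finsupp.ext fun σ => ?_
  refine (tYmap_apply Y C'.c (op h • x : (tQ Y P).X) σ).trans ?_
  have h1 := tYmap_apply Y H.η ((tYmap Y C.c).f x) σ
  have h2 := tYmap_apply Y C.c x σ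
  refine Eq.trans ?_ h1.symm
  refine Eq.trans ?_ (congrArg H.η.f h2).symm
  exact H.link _

theorem ColH.linkI (H : ColH C C' h) (Y : RCells A) (u : Y.ι →₀ N.X) :
    (tYmap Y C'.i).f ((tYmap Y H.η).f u) =
      (op h • (show (tQ Y P).X from (tYmap Y C.i).f u) : (tQ Y P).X) := by
  have e1 := H.linkY Y ((tYmap Y C.i).f u)
  rw [C.map_c_i Y] at e1
  rw [← e1, C'.map_i_c Y]
  refine (smul_smul (op e') (op h) _).trans ?_
  rw [← op_mul, H.he]
  rfl

/-- surjectivity on classes -/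
theorem ColH.surj (H : ColH C C' h) (Y : RCells A) (hq : QI (tYmap Y H.η)) (k : ℤ)
    (y : (tQ Y P).X) (hy : y ∈ (tQ Y P).gr k) (hye : op e' • y = y) (hd : (tQ Y P).d y = 0) :
    ∃ x ∈ (tQ Y P).gr k, op e • x = x ∧ (tQ Y P).d x = 0 ∧
      ∃ z ∈ (tQ Y P).gr (k + 1), op e' • z = z ∧ y = op h • x + (tQ Y P).d z := by
  obtain ⟨u, hu, hud, z, hz, e1⟩ := hq.surj k ((tYmap Y C'.c).f y) ((tYmap Y C'.c).f_mem hy) (by
    rw [← (tYmap Y C'.c).f_d y]
    have e2 : (tY Y P.toLM).d y = 0 := hd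
    rw [e2, map_zero])
  refine ⟨(tYmap Y C.i).f u, (tYmap Y C.i).f_mem hu, C.fix Y u, ?_,
    (tYmap Y C'.i).f z, (tYmap Y C'.i).f_mem hz, C'.fix Y z, ?_⟩
  · have e2 : (tQ Y P).d ((tYmap Y C.i).f u) = (tYmap Y C.i).f ((tY Y N).d u) :=
      ((tYmap Y C.i).f_d u).symm
    rw [e2, hud, map_zero]
    rfl
  · have e2 : (tQ Y P).d ((tYmap Y C'.i).f z) = (tYmap Y C'.i).f ((tY Y N').d z) :=
      ((tYmap Y C'.i).f_d z).symm
    rw [e2]
    have e3 := congrArg (tYmap Y C'.i).f e1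
    rw [map_add, C'.map_i_c Y, H.linkI Y u] at e3
    exact hye.symm.trans e3

/-- injectivity on classes -/
theorem ColH.inj (H : ColH C C' h) (Y : RCells A) (hq : QI (tYmap Y H.η)) (k : ℤ)
    (x : (tQ Y P).X) (hx : x ∈ (tQ Y P).gr k) (hxe : op e • x = x) (hd : (tQ Y P).d x = 0)
    (hz : ∃ z ∈ (tQ Y P).gr (k + 1), op h • x = (tQ Y P).d z) :
    ∃ w ∈ (tQ Y P).gr (k + 1), op e • w = w ∧ x = (tQ Y P).d w := by
  obtain ⟨z, hz, ez⟩ := hz
  obtain ⟨w, hw, e1⟩ := hq.inj k ((tYmap Y C.c).f x) ((tYmap Y C.c).f_mem hx) (by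
    rw [← (tYmap Y C.c).f_d x]
    have e2 : (tY Y P.toLM).d x = 0 := hd
    rw [e2, map_zero]) ⟨(tYmap Y C'.c).f z, (tYmap Y C'.c).f_mem hz, by
      rw [← H.linkY Y x, ez]
      exact (tYmap Y C'.c).f_d z⟩
  refine ⟨(tYmap Y C.i).f w, (tYmap Y C.i).f_mem hw, C.fix Y w, ?_⟩
  have e2 : (tQ Y P).d ((tYmap Y C.i).f w) = (tYmap Y C.i).f ((tY Y N).d w) :=
    ((tYmap Y C.i).f_d w).symm
  rw [e2]
  have e3 := congrArg (tYmap Y C.i).f e1
  rw [C.map_i_c Y] at e3
  exact hxe.symm.trans e3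

end one

/-! ### the cone of a morphism of left modules -/

section cone

variable {N N' : LM A}

/-- the cone as a left module -/
def coneL (f : LMHom N N') : LM A where
  toGC := cone f.toGCHom
  act := (inferInstance : Module A.C (N.X × N'.X))
  tower := (inferInstance : IsScalarTower K A.C (N.X × N'.X))
  smul_mem {k l a x} ha hx := by
    obtain ⟨h1, h2⟩ := hx
    refine ⟨?_, N'.smul_mem ha h2⟩
    have := N.smul_mem ha h1
    exact gr_cast this (by ring)
  leib a x := by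
    obtain ⟨x, y⟩ := x
    have t := LM.two N
    have tw : ∀ z : N.X, -z = z := fun z => (eq_neg_of_add_eq_zero_left (t z)).symm
    refine Prod.ext ?_ ?_
    · show -N.d (a • x) = A.D a • x + a • (-N.d x)
      rw [tw, tw, N.leib]
    · show f.f (a • x) + N'.d (a • y) = A.D a • y + a • (f.f x + N'.d y)
      rw [f.smul, N'.leib, smul_add]
      abel

/-- `Y ⊗ cone f` acyclic ⟹ `Y ⊗ f` is a quasi-isomorphism -/
theorem qi_of_cone (f : LMHom N N') (Y : RCells A) (h : Ac (tY Y (coneL f))) :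
    QI (tYmap Y f) := by
  rw [← ac_cone]
  have e : Ac ((twYhom Y f).cn (LM.two N)).cx := by
    intro k x hx hd
    obtain ⟨y, hy, e⟩ := h k x hx hd
    exact ⟨y, hy, e⟩
  exact (QI.ac ((twYhom Y f).g_qi (LM.two N))).2 e

end cone

end Crest.Agent.R186.ColAd977
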