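import Crest.Agent.R186.Col_921

/-!
Row 186 (A), leaf V3 (helper921), part 2: cones, the chain for `M`.
-/

set_option autoImplicit false
set_option linter.style.haveILetI false
set_option linter.unusedSectionVars false

open MulOpposite

namespace Crest.Agent.R186.Col921

open Hat827 Hat827.DGA Frame515 Win810 TR810

variable {K : Type} [Field K] {w : WD K}

/-! ### cones -/

/-- a central cycle of tri-degree `(0, 1, 0)` -/
structure Ce (w : WD K) extends Th w where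
  comm : ∀ s : w.S, t * s = s * t

/-- the cone of a central cycle -/
def LB.cone (B : LB w) (θ : Ce w) : LB w where
  B := B.B × B.B
  pb P A C := (B.pb P (A - 1) (C - 1)).prod (B.pb P A C)
  smul_mem {P A C P' A' C' a b} ha hb := by
    refine ⟨?_, ?_⟩
    · exact B.cast (B.smul_mem ha hb.1) rfl (by ring) (by ring)
    · exact B.smul_mem ha hb.2
  d :=
    { toFun := fun x => (B.d x.1, θ.t • x.1 + B.d x.2)
      map_add' := fun x y => by
        refine Prod.ext ?_ ?_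
        · exact map_add B.d _ _
        · change θ.t • (x.1 + y.1) + B.d (x.2 + y.2) = _
          rw [smul_add, map_add]
          change _ = (θ.t • x.1 + B.d x.2) + (θ.t • y.1 + B.d y.2)
          abel
      map_smul' := fun r x => by
        refine Prod.ext ?_ ?_
        · exact map_smul B.d _ _
        · change θ.t • (r • x.1) + B.d (r • x.2) = r • (θ.t • x.1 + B.d x.2)
          rw [map_smul, smul_add, smul_comm] }
  d_smul a x := by
    refine Prod.ext ?_ ?_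
    · exact B.d_smul _ _
    · change θ.t • (a • x.1) + B.d (a • x.2) = w.D a • x.2 + a • (θ.t • x.1 + B.d x.2)
      rw [B.d_smul, smul_add, smul_smul, smul_smul, θ.comm]
      abel
  d_d x := by
    refine Prod.ext ?_ ?_
    · exact B.d_d _
    · change θ.t • B.d x.1 + B.d (θ.t • x.1 + B.d x.2) = 0
      rw [map_add, B.d_smul, B.d_d, θ.D0, zero_smul, zero_add, add_zero]
      exact B.two _
  d_mem {P A C x} hx := by
    refine ⟨?_, ?_⟩
    · exact B.cast (B.d_mem hx.1) rfl rfl (by ring)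
    · refine Submodule.add_mem _ ?_ (B.d_mem hx.2)
      exact B.cast (B.smul_mem θ.mem hx.1) (by ring) (by ring) (by ring)

section cone

variable {S0 B B' : LB w} {dP dC uP : ℤ} (θ : Ce w)

theorem cone_d (x : (B.cone θ).B) : (B.cone θ).d x = (B.d x.1, θ.t • x.1 + B.d x.2) := rfl

/-- first component -/
def c1L (B : LB w) : (B.cone θ).B →ₗ[K] B.B where
  toFun x := x.1
  map_add' _ _ := rfl
  map_smul' _ _ := rfl

/-- second component -/
def c2L (B : LB w) : (B.cone θ).B →ₗ[K] B.B where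
  toFun x := x.2
  map_add' _ _ := rfl
  map_smul' _ _ := rfl

theorem c1L_apply (x : (B.cone θ).B) : c1L θ B x = x.1 := rfl
theorem c2L_apply (x : (B.cone θ).B) : c2L θ B x = x.2 := rfl

/-- pairs with entries in `F` -/
def P2 (F : Submodule K B.B) : Submodule K (B.cone θ).B where
  carrier := {x | x.1 ∈ F ∧ x.2 ∈ F}
  zero_mem' := ⟨Submodule.zero_mem _, Submodule.zero_mem _⟩
  add_mem' h h' := ⟨Submodule.add_mem _ h.1 h'.1, Submodule.add_mem _ h.2 h'.2⟩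
  smul_mem' r _ h := ⟨Submodule.smul_mem _ r h.1, Submodule.smul_mem _ r h.2⟩

theorem mem_P2 {F : Submodule K B.B} {x : (B.cone θ).B} : x ∈ P2 θ F ↔
    c1L θ B x ∈ F ∧ c2L θ B x ∈ F := Iff.rfl

theorem P2_mono {F F' : Submodule K B.B} (h : F ≤ F') : P2 θ F ≤ P2 θ F' :=
  fun _ hx => ⟨h hx.1, h hx.2⟩

theorem P2_top : P2 θ (⊤ : Submodule K B.B) = ⊤ := by
  rw [eq_top_iff]
  intro x _
  exact ⟨Submodule.mem_top, Submodule.mem_top⟩

theorem P2_bot : P2 θ (⊥ : Submodule K B.B) = ⊥ := by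
  rw [eq_bot_iff]
  intro x hx
  rw [Submodule.mem_bot]
  exact Prod.ext ((Submodule.mem_bot K).1 hx.1) ((Submodule.mem_bot K).1 hx.2)

/-- cones are functorial -/
def LH.cone (f : LH B B' dP dC) : LH (B.cone θ) (B'.cone θ) dP dC where
  f :=
    { toFun := fun x => (f.f x.1, f.f x.2)
      map_add' := fun x y => Prod.ext (map_add f.f _ _) (map_add f.f _ _)
      map_smul' := fun r x => Prod.ext (map_smul f.f _ _) (map_smul f.f _ _) }
  smul a b := Prod.ext (f.smul _ _) (f.smul _ _)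
  comm b := by
    refine Prod.ext (f.comm _) ?_
    change θ.t • f.f b.1 + B'.d (f.f b.2) = f.f (θ.t • b.1 + B.d b.2)
    rw [map_add, f.smul, f.comm]
  mem {P A C b} hb := by
    refine ⟨?_, ?_⟩
    · exact B'.cast (f.mem hb.1) rfl rfl (by ring)
    · exact f.mem hb.2

theorem LH.cone_1 (f : LH B B' dP dC) (x : (B.cone θ).B) :
    c1L θ B' ((f.cone θ).f x) = f.f (c1L θ B x) := rfl
theorem LH.cone_2 (f : LH B B' dP dC) (x : (B.cone θ).B) :
    c2L θ B' ((f.cone θ).f x) = f.f (c2L θ B x) := rfl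

theorem Stab.cone {F : Submodule K B.B} (h : Stab B F) : Stab (B.cone θ) (P2 θ F) where
  smul a {b} hb := ⟨h.smul a hb.1, h.smul a hb.2⟩
  d {b} hb := ⟨h.d hb.1, Submodule.add_mem _ (h.smul _ hb.1) (h.d hb.2)⟩

/-- pairs -/
def mk2 (B : LB w) (a b : B.B) : (B.cone θ).B := (a, b)

theorem mk2_1 (a b : B.B) : c1L θ B (mk2 θ B a b) = a := rfl
theorem mk2_2 (a b : B.B) : c2L θ B (mk2 θ B a b) = b := rfl

/-- copies for cones -/
def Cop.cone {J0 : Submodule K S0.B} {F F' : Submodule K B.B} (h : Cop S0 J0 B F F' uP) :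
    Cop (S0.cone θ) (P2 θ J0) (B.cone θ) (P2 θ F) (P2 θ F') uP where
  κ := h.κ
  uC := h.uC
  u k := (h.u k).cone θ
  st := h.st.cone θ
  u_F k z := ⟨h.u_F k _, h.u_F k _⟩
  u_J k z hz := ⟨h.u_J k _ hz.1, h.u_J k _ hz.2⟩
  gen {P A C x} hF hx := by
    obtain ⟨z1, h1, h2⟩ := h.gen hF.1 hx.1
    obtain ⟨z2, h3, h4⟩ := h.gen hF.2 hx.2
    refine ⟨fun k => mk2 θ S0 (z1 k) (z2 k), fun k => ⟨?_, h3 k⟩, ?_⟩
    · exact S0.cast (h1 k) rfl rfl (by ring)
    · rw [mem_P2, map_sub, map_sub, map_sum, map_sum]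
      exact ⟨h2, h4⟩
  uniq z hz k := by
    rw [mem_P2, map_sum, map_sum] at hz
    exact ⟨h.uniq (fun k => c1L θ S0 (z k)) hz.1 k, h.uniq (fun k => c2L θ S0 (z k)) hz.2 k⟩

/-- Koszul column for cones -/
def Kz.cone {J : Submodule K S0.B} (h : Kz S0 J) : Kz (S0.cone θ) (P2 θ J) where
  x j := (h.x j).cone θ
  kk j := (h.kk j).cone θ
  st := h.st.cone θ
  x_J j z hz := ⟨h.x_J j _ hz.1, h.x_J j _ hz.2⟩
  k_J j z hz := ⟨h.k_J j _ hz.1, h.k_J j _ hz.2⟩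
  xk z := by
    rw [mem_P2, map_sum, map_sum]
    exact ⟨h.xk _, h.xk _⟩
  gen {P A C y} hP hy := by
    obtain ⟨z1, h1, h2⟩ := h.gen hP hy.1
    obtain ⟨z2, h3, h4⟩ := h.gen hP hy.2
    refine ⟨fun k => mk2 θ S0 (z1 k) (z2 k), fun k => ⟨h1 k, h3 k⟩, ?_⟩
    rw [mem_P2, map_sub, map_sub, map_sum, map_sum]
    exact ⟨h2, h4⟩
  ker {P A C} z hz hJ := by
    rw [mem_P2, map_sum, map_sum] at hJ
    obtain ⟨s1, h1, h2⟩ := h.ker (fun j => c1L θ S0 (z j)) (fun j => (hz j).1) hJ.1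
    obtain ⟨s2, h3, h4⟩ := h.ker (fun j => c2L θ S0 (z j)) (fun j => (hz j).2) hJ.2
    exact ⟨mk2 θ S0 s1 s2, ⟨h1, h3⟩, fun j => ⟨h2 j, h4 j⟩⟩
  inj {s} hs := ⟨h.inj hs.1, h.inj hs.2⟩

end cone

/-! ### the data -/

/-- everything about `S0 = R''` and `B = M` -/
structure Dat (S0 B : LB w) where
  neg : ∀ {P A C : ℤ}, C < 0 → S0.pb P A C = ⊥
  J : Submodule K S0.B
  F1 : Submodule K S0.B
  F2 : Submodule K S0.B
  hJ : F1 ≤ J
  hF2 : F2 = ⊥
  c1 : Cop S0 J S0 J F1 0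
  c2 : Cop S0 J S0 F1 F2 0
  n1 : ∀ k, 0 ≤ c1.uC k
  n2 : ∀ k, 0 ≤ c2.uC k
  kz : Kz S0 J
  G0 : Submodule K B.B
  G1 : Submodule K B.B
  G2 : Submodule K B.B
  G3 : Submodule K B.B
  hG0 : G0 = ⊤
  hG3 : G3 = ⊥
  g1 : G1 ≤ G0
  g2 : G2 ≤ G1
  m1 : Cop S0 J B G0 G1 (-1)
  m2 : Cop S0 J B G1 G2 (-1)
  m3 : Cop S0 J B G2 G3 (-1)

namespace Dat

variable {S0 B : LB w} {Y : RCells w.dga}

/-- the data for cones -/
def cone (h : Dat S0 B) (θ : Ce w) : Dat (S0.cone θ) (B.cone θ) where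
  neg {P A C} hC := by
    rw [eq_bot_iff]
    intro x hx
    have h1 : x.1 ∈ S0.pb P (A - 1) (C - 1) := hx.1
    have h2 : x.2 ∈ S0.pb P A C := hx.2
    rw [h.neg (by omega : C - 1 < 0)] at h1
    rw [h.neg hC] at h2
    rw [Submodule.mem_bot]
    exact Prod.ext ((Submodule.mem_bot K).1 h1) ((Submodule.mem_bot K).1 h2)
  J := P2 θ h.J
  F1 := P2 θ h.F1
  F2 := P2 θ h.F2
  hJ := P2_mono θ h.hJ
  hF2 := by rw [h.hF2]; exact P2_bot θ
  c1 := h.c1.cone θ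
  c2 := h.c2.cone θ
  n1 := h.n1
  n2 := h.n2
  kz := h.kz.cone θ
  G0 := P2 θ h.G0
  G1 := P2 θ h.G1
  G2 := P2 θ h.G2
  G3 := P2 θ h.G3
  hG0 := by rw [h.hG0]; exact P2_top θ
  hG3 := by rw [h.hG3]; exact P2_bot θ
  g1 := P2_mono θ h.g1
  g2 := P2_mono θ h.g2
  m1 := h.m1.cone θ
  m2 := h.m2.cone θ
  m3 := h.m3.cone θ

theorem cF1 (h : Dat S0 B) {p a n : ℤ} (ih : ∀ k : ℤ, k ≤ n → AcQ (Sc Y S0 p a) ⊤ (TFc Y S0 h.J) k) :
    AcQ (Sc Y S0 p a) (TFc Y S0 h.J) (TFc Y S0 h.F1) n := by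
  refine h.c1.ac fun k => ?_
  rw [add_zero]
  have := h.n1 k
  exact ih _ (by omega)

theorem cF2 (h : Dat S0 B) {p a n : ℤ} (ih : ∀ k : ℤ, k ≤ n → AcQ (Sc Y S0 p a) ⊤ (TFc Y S0 h.J) k) :
    AcQ (Sc Y S0 p a) (TFc Y S0 h.F1) (TFc Y S0 h.F2) n := by
  refine h.c2.ac fun k => ?_
  rw [add_zero]
  have := h.n2 k
  exact ih _ (by omega)

theorem TF2 (h : Dat S0 B) : TFc Y S0 h.F2 = ⊥ := by rw [h.hF2, TFc_bot]

theorem TG0 (h : Dat S0 B) : TFc Y B h.G0 = ⊤ := by rw [h.hG0, TFc_top]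

theorem TG3 (h : Dat S0 B) : TFc Y B h.G3 = ⊥ := by rw [h.hG3, TFc_bot]

theorem acJ (h : Dat S0 B) {p a n : ℤ} (ih : ∀ k : ℤ, k ≤ n → AcQ (Sc Y S0 p a) ⊤ (TFc Y S0 h.J) k) :
    AcQ (Sc Y S0 p a) (TFc Y S0 h.J) ⊥ n := by
  have h2 := h.cF2 ih
  rw [h.TF2] at h2
  exact AcQ.trans (TFc_mono h.hJ) bot_le (h.cF1 ih) h2

theorem ac_iff (X : GC K) : Ac X ↔ ∀ n, AcQ X ⊤ ⊥ n := by
  constructor
  · intro base n x hx _ hd
    obtain ⟨y, hy, e⟩ := base n x hx ((Submodule.mem_bot K).1 hd)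
    exact ⟨y, hy, Submodule.mem_top, by rw [e, sub_self]; exact Submodule.zero_mem _⟩
  · intro h n x hx hd
    obtain ⟨y, hy, _, e⟩ := h n x hx Submodule.mem_top (by rw [hd]; exact Submodule.zero_mem _)
    exact ⟨y, hy, (sub_eq_zero.1 ((Submodule.mem_bot K).1 e)).symm⟩

/-- `S0` acyclic at `(p, a)` implies `S0 / J` acyclic at `(p, a)` -/
theorem acL (h : Dat S0 B) {p a : ℤ} (base : Ac (Sc Y S0 p a)) (n : ℤ) :
    AcQ (Sc Y S0 p a) ⊤ (TFc Y S0 h.J) n := by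
  have b := (ac_iff (Sc Y S0 p a)).1 base
  have key : ∀ (N : ℕ) (n : ℤ), n < N → AcQ (Sc Y S0 p a) ⊤ (TFc Y S0 h.J) n := by
    intro N
    induction N with
    | zero =>
      intro n hn x hx _ _
      refine ⟨0, Submodule.zero_mem _, Submodule.mem_top, ?_⟩
      rw [map_zero, sub_zero]
      intro σ i
      have h1 := (mem_Sc.1 hx σ).1 i
      rw [h.neg (by push_cast at hn; omega)] at h1
      rw [(Submodule.mem_bot K).1 h1]
      exact Submodule.zero_mem _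
    | succ N ih =>
      intro n hn
      have h3 : AcQ (Sc Y S0 p a) (TFc Y S0 h.J) ⊥ (n - 1) :=
        h.acJ fun k hk => ih k (by push_cast at hn; omega)
      have h4 := AcQ.quot (Y := Sc Y S0 p a) (F := ⊤) (F' := TFc Y S0 h.J) (F'' := ⊥) (n := n - 1)
        le_top bot_le (b _) h3
      rwa [sub_add_cancel] at h4
  exact key (n.toNat + 1) n (by push_cast; omega)

/-- `S0 / J` acyclic at `(p - 1, a)` implies `B` acyclic at `(p, a)` -/
theorem acB (h : Dat S0 B) {p a : ℤ} (hL : ∀ n, AcQ (Sc Y S0 (p + -1) a) ⊤ (TFc Y S0 h.J) n) :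
    Ac (Sc Y B p a) := by
  rw [ac_iff]
  intro n
  have h1 : AcQ (Sc Y B p a) (TFc Y B h.G0) (TFc Y B h.G1) n := h.m1.ac fun k => hL _
  have h2 : AcQ (Sc Y B p a) (TFc Y B h.G1) (TFc Y B h.G2) n := h.m2.ac fun k => hL _
  have h3 : AcQ (Sc Y B p a) (TFc Y B h.G2) (TFc Y B h.G3) n := h.m3.ac fun k => hL _
  rw [h.TG0] at h1
  rw [h.TG3] at h3
  exact AcQ.trans le_top bot_le h1 (AcQ.trans (TFc_mono h.g2) bot_le h2 h3)

/-- **(1)**: `S0` acyclic at `(0, a)` implies `B` acyclic at `(1, a)` -/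
theorem ac1 (h : Dat S0 B) {a : ℤ} (base : Ac (Sc Y S0 0 a)) : Ac (Sc Y B 1 a) := by
  refine h.acB (p := 1) fun n => ?_
  have e : (1 : ℤ) + -1 = 0 := by norm_num
  rw [e]
  exact h.acL base n

/-- **(2)**: `S0` acyclic at `(0, a)` and `(1, a)` implies `B` acyclic at `(0, a)` -/
theorem ac0 (h : Dat S0 B) (hP : ∀ i, 0 ≤ w.P i) {a : ℤ} (b0 : Ac (Sc Y S0 0 a))
    (b1 : Ac (Sc Y S0 1 a)) : Ac (Sc Y B 0 a) := by
  refine h.acB (p := 0) fun n => ?_
  have e : (0 : ℤ) + -1 = 0 - 1 := by norm_num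
  rw [e]
  refine h.kz.ac (p := 0) hP (h.acL b0 n) ?_
  have e2 : (0 : ℤ) + 1 = 1 := by norm_num
  rw [e2]
  exact h.acL b1 (n - 1)

end Dat

end Crest.Agent.R186.Col921
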