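import Crest.Agent.R186.ColB_790
import Crest.Agent.R186.ColB_921

/-!
Row 186 (A), leaf V3 (helper790): cones of a central element on columns.

* `ac_cone` : acyclicity of the columns of the cone of `θ` from the elementwise statement;
* `of_ac_cone` : the converse;
* `baseC` : the base of the column induction for the cone.
-/

set_option autoImplicit false
set_option linter.style.haveILetI false
set_option linter.unusedSectionVars false

open MulOpposite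

namespace Crest.Agent.R186.ColBC790

open Hat827 Hat827.DGA Frame515 Res255 Win810 TR810 Col921 ColS790 ColB790

variable {K : Type} [Field K] {w : WD K}


section

variable {Y : RCells w.dga} {B B' : LB w}

theorem cm_smul' (f : B.B →ₗ[K] B'.B) (hs : ∀ (a : w.S) (b : B.B), f (a • b) = a • f b)
    (m : w.dga.C) (v : Cv B) : cm f (m • v) = m • cm f v := by
  ext i
  rw [cm_apply, Cv.act_apply, Cv.act_apply, map_sum]
  exact Finset.sum_congr rfl fun l _ => hs _ _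

/-- the differential of an entrywise map -/
theorem mp_dg (f g : B.B →ₗ[K] B'.B) (hs : ∀ (a : w.S) (b : B.B), f (a • b) = a • f b)
    (hd : ∀ b : B.B, B'.d (f b) = f (B.d b) + g b) (p a p' a' : ℤ) (x : Y.ι →₀ Cv B) :
    (Sc Y B' p' a').d (mp Y f x) = mp Y f ((Sc Y B p a).d x) + mp Y g x := by
  refine Finsupp.ext fun τ => ?_
  have hs' : (mp Y f x).support ⊆ x.support := by
    intro σ hσ
    rw [Finsupp.mem_support_iff] at hσ ⊢
    intro h0
    apply hσ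
    rw [mp_apply', h0, map_zero]
  have e1 := Sc_d (Y := Y) (B := B') p' a' (mp Y f x) x.support hs' τ
  have e2 := Sc_d (Y := Y) (B := B) p a x x.support (Finset.Subset.refl _) τ
  refine (show (show Y.ι →₀ Cv B' from (Sc Y B' p' a').d (mp Y f x)) τ =
    mp Y f (show Y.ι →₀ Cv B from (Sc Y B p a).d x) τ + mp Y g x τ from ?_)
  rw [e1, mp_apply' f (show Y.ι →₀ Cv B from (Sc Y B p a).d x) τ, e2, map_add, map_sum]
  have e3 : dc B' (mp Y f x τ) = cm f (dc B (x τ)) + mp Y g x τ := by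
    ext i
    rw [dc_apply, Cv.add_apply, mp_apply, mp_apply, cm_apply, dc_apply]
    exact hd _
  have e4 : ∑ σ ∈ x.support, Y.c τ σ • mp Y f x σ = ∑ σ ∈ x.support, cm f (Y.c τ σ • x σ) := by
    refine Finset.sum_congr rfl fun σ _ => ?_
    rw [mp_apply', cm_smul' f hs]
  rw [e3, e4]
  abel

theorem mp_gr' (f : B.B →ₗ[K] B'.B) (hs : ∀ (a : w.S) (b : B.B), f (a • b) = a • f b)
    {p a k p' a' k' : ℤ}
    (hm : ∀ (i : w.Ob) (c : ℤ) (b : B.B), b ∈ B.pb (w.P i - p) (w.A i - a) (k - c) →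
      f b ∈ B'.pb (w.P i - p') (w.A i - a') (k' - c))
    {x : Y.ι →₀ Cv B} (hx : x ∈ (Sc Y B p a).gr k) : mp Y f x ∈ (Sc Y B' p' a').gr k' := by
  rw [mem_Sc] at hx ⊢
  intro σ
  refine ⟨fun i => ?_, ?_⟩
  · rw [mp_apply]
    exact hm i _ _ ((hx σ).1 i)
  · rw [mp_apply', ← cm_smul' f hs, (hx σ).2]

theorem mp_comp {B'' : LB w} (f : B.B →ₗ[K] B'.B) (g : B'.B →ₗ[K] B''.B) (x : Y.ι →₀ Cv B) :
    mp Y g (mp Y f x) = mp Y (g ∘ₗ f) x := by
  refine Finsupp.ext fun σ => ?_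
  ext i
  rw [mp_apply, mp_apply, mp_apply]
  rfl

theorem mp_addf (f g : B.B →ₗ[K] B'.B) (x : Y.ι →₀ Cv B) :
    mp Y (f + g) x = mp Y f x + mp Y g x := by
  refine Finsupp.ext fun σ => ?_
  ext i
  rw [Finsupp.add_apply, Cv.add_apply, mp_apply, mp_apply, mp_apply]
  rfl

theorem mp_zf (x : Y.ι →₀ Cv B) : mp Y (0 : B.B →ₗ[K] B'.B) x = 0 := by
  refine Finsupp.ext fun σ => ?_
  ext i
  rw [mp_apply]
  rfl

theorem dblF (x : Y.ι →₀ Cv B) : x + x = 0 := by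
  refine Finsupp.ext fun σ => ?_
  ext i
  exact B.two _

/-- multiplication by `θ` on the module -/
def tL (B : LB w) (θ : Ce w) : B.B →ₗ[K] B.B where
  toFun b := θ.t • b
  map_add' := smul_add _
  map_smul' _ _ := smul_comm _ _ _

theorem tL_apply (θ : Ce w) (b : B.B) : tL B θ b = θ.t • b := rfl

theorem tL_smul (θ : Ce w) (a : w.S) (b : B.B) : tL B θ (a • b) = a • tL B θ b := by
  rw [tL_apply, tL_apply, smul_smul, smul_smul, θ.comm]

theorem tL_d (θ : Ce w) (b : B.B) : B.d (tL B θ b) = tL B θ (B.d b) := by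
  rw [tL_apply, B.d_smul, θ.D0, zero_smul, zero_add, tL_apply]

variable (B) in
/-- first injection -/
def i1 (θ : Ce w) : B.B →ₗ[K] (B.cone θ).B := LinearMap.inl K B.B B.B
variable (B) in
/-- second injection -/
def i2 (θ : Ce w) : B.B →ₗ[K] (B.cone θ).B := LinearMap.inr K B.B B.B
variable (B) in
/-- first projection -/
def p1 (θ : Ce w) : (B.cone θ).B →ₗ[K] B.B := LinearMap.fst K B.B B.B
variable (B) in
/-- second projection -/
def p2 (θ : Ce w) : (B.cone θ).B →ₗ[K] B.B := LinearMap.snd K B.B B.B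

theorem d_i1 (θ : Ce w) (p a p' a' : ℤ) (x : Y.ι →₀ Cv B) :
    (Sc Y (B.cone θ) p a).d (mp Y (i1 B θ) x) =
      mp Y (i1 B θ) ((Sc Y B p' a').d x) + mp Y (i2 B θ) (mp Y (tL B θ) x) := by
  rw [mp_dg (i1 B θ) (i2 B θ ∘ₗ tL B θ) (fun a b => ?_) (fun b => ?_) p' a' p a x, mp_comp]
  · refine Prod.ext rfl ?_
    change (0 : B.B) = a • 0
    rw [smul_zero]
  · refine Prod.ext ?_ ?_
    · change B.d b = B.d b + 0
      rw [add_zero]
    · change θ.t • b + B.d 0 = 0 + θ.t • b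
      rw [map_zero, add_zero, zero_add]

theorem d_i2 (θ : Ce w) (p a p' a' : ℤ) (x : Y.ι →₀ Cv B) :
    (Sc Y (B.cone θ) p a).d (mp Y (i2 B θ) x) = mp Y (i2 B θ) ((Sc Y B p' a').d x) := by
  rw [mp_dg (i2 B θ) 0 (fun a b => ?_) (fun b => ?_) p' a' p a x, mp_zf, add_zero]
  · refine Prod.ext ?_ rfl
    change (0 : B.B) = a • 0
    rw [smul_zero]
  · refine Prod.ext ?_ ?_
    · change B.d 0 = 0 + 0
      rw [map_zero, add_zero]
    · change θ.t • (0 : B.B) + B.d b = B.d b + 0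
      rw [smul_zero, add_zero, zero_add]

theorem d_p1 (θ : Ce w) (p a p' a' : ℤ) (x : Y.ι →₀ Cv (B.cone θ)) :
    (Sc Y B p' a').d (mp Y (p1 B θ) x) = mp Y (p1 B θ) ((Sc Y (B.cone θ) p a).d x) := by
  rw [mp_dg (p1 B θ) 0 (fun a b => rfl) (fun b => ?_) p a p' a' x, mp_zf, add_zero]
  change B.d b.1 = B.d b.1 + 0
  rw [add_zero]

theorem d_p2 (θ : Ce w) (p a p' a' : ℤ) (x : Y.ι →₀ Cv (B.cone θ)) :
    (Sc Y B p' a').d (mp Y (p2 B θ) x) =
      mp Y (p2 B θ) ((Sc Y (B.cone θ) p a).d x) + mp Y (tL B θ) (mp Y (p1 B θ) x) := by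
  rw [mp_dg (p2 B θ) (tL B θ ∘ₗ p1 B θ) (fun a b => rfl) (fun b => ?_) p a p' a' x, mp_comp]
  change B.d b.2 = (θ.t • b.1 + B.d b.2) + θ.t • b.1
  rw [add_comm (θ.t • b.1), add_assoc, B.two, add_zero]

theorem split (θ : Ce w) (x : Y.ι →₀ Cv (B.cone θ)) :
    x = mp Y (i1 B θ) (mp Y (p1 B θ) x) + mp Y (i2 B θ) (mp Y (p2 B θ) x) := by
  rw [mp_comp, mp_comp, ← mp_addf]
  refine Finsupp.ext fun σ => ?_
  refine Cv.ext fun i => ?_
  rw [mp_apply]
  refine Prod.ext ?_ ?_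
  · change (x σ i).1 = (x σ i).1 + 0
    rw [add_zero]
  · change (x σ i).2 = 0 + (x σ i).2
    rw [zero_add]

theorem p1_i (θ : Ce w) (x y : Y.ι →₀ Cv B) :
    mp Y (p1 B θ) (mp Y (i1 B θ) x + mp Y (i2 B θ) y) = x := by
  refine Finsupp.ext fun σ => ?_
  ext i
  rw [mp_apply, Finsupp.add_apply, Cv.add_apply, mp_apply, mp_apply]
  change x σ i + 0 = x σ i
  rw [add_zero]

theorem p2_i (θ : Ce w) (x y : Y.ι →₀ Cv B) :
    mp Y (p2 B θ) (mp Y (i1 B θ) x + mp Y (i2 B θ) y) = y := by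
  refine Finsupp.ext fun σ => ?_
  ext i
  rw [mp_apply, Finsupp.add_apply, Cv.add_apply, mp_apply, mp_apply]
  change 0 + y σ i = y σ i
  rw [zero_add]

theorem i1_gr (θ : Ce w) {p a k : ℤ} {x : Y.ι →₀ Cv B} (hx : x ∈ (Sc Y B p (a + 1)).gr (k - 1)) :
    mp Y (i1 B θ) x ∈ (Sc Y (B.cone θ) p a).gr k := by
  refine mp_gr' (i1 B θ) (fun a b => ?_) (fun i c b hb => ?_) hx
  · refine Prod.ext rfl ?_
    change (0 : B.B) = a • 0
    rw [smul_zero]
  · exact ⟨B.cast hb rfl (by ring) (by ring), Submodule.zero_mem _⟩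

theorem i2_gr (θ : Ce w) {p a k : ℤ} {x : Y.ι →₀ Cv B} (hx : x ∈ (Sc Y B p a).gr k) :
    mp Y (i2 B θ) x ∈ (Sc Y (B.cone θ) p a).gr k := by
  refine mp_gr' (i2 B θ) (fun a b => ?_) (fun i c b hb => ?_) hx
  · refine Prod.ext ?_ rfl
    change (0 : B.B) = a • 0
    rw [smul_zero]
  · exact ⟨Submodule.zero_mem _, hb⟩

theorem p1_gr (θ : Ce w) {p a k : ℤ} {x : Y.ι →₀ Cv (B.cone θ)}
    (hx : x ∈ (Sc Y (B.cone θ) p a).gr k) :
    mp Y (p1 B θ) x ∈ (Sc Y B p (a + 1)).gr (k - 1) :=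
  mp_gr' (p1 B θ) (fun _ _ => rfl) (fun _ _ _ hb => B.cast hb.1 rfl (by ring) (by ring)) hx

theorem p2_gr (θ : Ce w) {p a k : ℤ} {x : Y.ι →₀ Cv (B.cone θ)}
    (hx : x ∈ (Sc Y (B.cone θ) p a).gr k) :
    mp Y (p2 B θ) x ∈ (Sc Y B p a).gr k :=
  mp_gr' (p2 B θ) (fun _ _ => rfl) (fun _ _ _ hb => hb.2) hx

/-- **the columns of the cone are acyclic if multiplication by `θ` is a quasi-isomorphism** -/
theorem ac_cone (θ : Ce w) (p a : ℤ)
    (H : ∀ (k : ℤ) (x y : Y.ι →₀ Cv B), x ∈ (Sc Y B p (a + 1)).gr k →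
      (Sc Y B p (a + 1)).d x = 0 → y ∈ (Sc Y B p a).gr (k + 1) →
      mp Y (tL B θ) x = (Sc Y B p a).d y →
      ∃ x' ∈ (Sc Y B p (a + 1)).gr (k + 1), ∃ y' ∈ (Sc Y B p a).gr (k + 2),
        x = (Sc Y B p (a + 1)).d x' ∧ y = mp Y (tL B θ) x' + (Sc Y B p a).d y') :
    Ac (Sc Y (B.cone θ) p a) := by
  intro k x hx hdx
  let X : Y.ι →₀ Cv (B.cone θ) := x
  have h1 : (Sc Y B p (a + 1)).d (mp Y (p1 B θ) X) = 0 := by
    rw [d_p1 θ p a p (a + 1) X, show (Sc Y (B.cone θ) p a).d X = 0 from hdx]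
    exact map_zero _
  have h2 : (Sc Y B p a).d (mp Y (p2 B θ) X) = mp Y (tL B θ) (mp Y (p1 B θ) X) := by
    rw [d_p2 θ p a p a X, show (Sc Y (B.cone θ) p a).d X = 0 from hdx]
    exact (congrArg (· + _) (map_zero (mp Y (p2 B θ)))).trans (zero_add _)
  obtain ⟨x', hx', y', hy', e1, e2⟩ := H (k - 1) (mp Y (p1 B θ) X) (mp Y (p2 B θ) X)
    (p1_gr θ hx) h1 (by rw [sub_add_cancel]; exact p2_gr θ hx) h2.symm
  refine ⟨mp Y (i1 B θ) x' + mp Y (i2 B θ) y', Submodule.add_mem _ (i1_gr θ ?_) (i2_gr θ ?_), ?_⟩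
  · rwa [sub_add_cancel, ← add_sub_cancel_right k 1] at hx'
  · rwa [show k - 1 + 2 = k + 1 by ring] at hy'
  · refine (map_add _ _ _).trans ?_
    rw [d_i1 θ p a p (a + 1) x', d_i2 θ p a p a y']
    refine Eq.trans ?_ (split θ X).symm
    rw [add_assoc]
    refine congrArg₂ (· + ·) ?_ ?_
    · exact congrArg (mp Y (i1 B θ)) e1.symm
    · rw [← map_add]
      exact congrArg (mp Y (i2 B θ)) e2.symm

/-- **the converse** -/
theorem of_ac_cone (θ : Ce w) {p a : ℤ} (h : Ac (Sc Y (B.cone θ) p a))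
    (k : ℤ) (x y : Y.ι →₀ Cv B) (hx : x ∈ (Sc Y B p (a + 1)).gr k)
    (hdx : (Sc Y B p (a + 1)).d x = 0) (hy : y ∈ (Sc Y B p a).gr (k + 1))
    (hxy : mp Y (tL B θ) x = (Sc Y B p a).d y) :
    ∃ x' ∈ (Sc Y B p (a + 1)).gr (k + 1), ∃ y' ∈ (Sc Y B p a).gr (k + 2),
      x = (Sc Y B p (a + 1)).d x' ∧ y = mp Y (tL B θ) x' + (Sc Y B p a).d y' := by
  have hd : (Sc Y (B.cone θ) p a).d (mp Y (i1 B θ) x + mp Y (i2 B θ) y) = 0 := by
    refine (map_add _ _ _).trans ?_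
    rw [d_i1 θ p a p (a + 1) x, d_i2 θ p a p a y, hxy]
    rw [show (Sc Y B p (a + 1)).d x = 0 from hdx]
    rw [add_assoc]
    refine (congrArg₂ (· + ·) (map_zero (mp Y (i1 B θ))) (dblF _)).trans (add_zero _)
  obtain ⟨z, hz, hzd⟩ := h (k + 1) (mp Y (i1 B θ) x + mp Y (i2 B θ) y)
    (Submodule.add_mem _ (i1_gr θ (by rwa [add_sub_cancel_right])) (i2_gr θ hy)) hd
  let Z : Y.ι →₀ Cv (B.cone θ) := z
  have hZ : (Sc Y (B.cone θ) p a).d Z = mp Y (i1 B θ) x + mp Y (i2 B θ) y := hzd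
  refine ⟨mp Y (p1 B θ) Z, ?_, mp Y (p2 B θ) Z, ?_, ?_, ?_⟩
  · have := p1_gr θ hz
    rwa [add_sub_cancel_right] at this
  · have := p2_gr θ hz
    rwa [show k + 1 + 1 = k + 2 by ring] at this
  · rw [d_p1 θ p a p (a + 1) Z, hZ]
    exact (p1_i θ x y).symm
  · rw [d_p2 θ p a p a Z, hZ, p2_i θ x y, add_comm, add_assoc, dblF, add_zero]

end

/-- **base of the column induction for the cone** -/
theorem baseC {Y : RCells w.dga} {o o' : w.Ob} (θ : Ce w) {G : RM w.dga} (r : RRes Y G)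
    (hP : w.P o' = w.P o) (hA : w.A o' + 1 = w.A o)
    (hN : ∀ (k : ℤ) (n n1 : G.X), n ∈ G.gr k → op (we o) • n = n → G.d n = 0 → n1 ∈ G.gr (k + 1) →
      op (we o') • n1 = n1 → op (wth θ.toTh o o' hP hA) • n = G.d n1 →
      ∃ n' ∈ G.gr (k + 1), op (we o) • n' = n' ∧ ∃ n1' ∈ G.gr (k + 2), op (we o') • n1' = n1' ∧
        n = G.d n' ∧ n1 = op (wth θ.toTh o o' hP hA) • n' + G.d n1') :
    Ac (Sc Y ((selfLB w).cone θ) (w.P o') (w.A o')) := by
  have hh : ∀ x : Y.ι →₀ Cv (selfLB w), mp Y (tL (selfLB w) θ) x = hF Y θ.t x := by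
    intro x
    refine Finsupp.ext fun σ => ?_
    ext i
    rw [hF_apply, mp_apply]
    exact θ.comm _
  refine ac_cone θ _ _ fun k x y hx hdx hy hxy => ?_
  rw [hP, hA] at hx
  rw [hh] at hxy
  obtain ⟨x', hx', y', hy', e1, e2⟩ := base θ.toTh r hP hA hN k x y hx hdx hy hxy
  refine ⟨x', ?_, y', hy', e1, ?_⟩
  · rw [hP, hA]
    exact hx'
  · rw [hh]
    exact e2

end Crest.Agent.R186.ColBC790
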