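import Crest.Agent.R186.Res_255

/-!
Row 186 (A), leaf V3 (helper790): the start of the column induction, mirror of `TRin_772`.

If `Y → G` is a right cell resolution and `th : A e_i → A e_j` (right multiplication by a degree
zero element) has an acyclic cone `G e_i → G e_j`, then it has an acyclic cone on the columns of `Y`.
-/

set_option autoImplicit false
set_option linter.style.haveILetI false
set_option linter.unusedSectionVars false

open MulOpposite

namespace Crest.Agent.R186.ColS790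

open Hat827 Hat827.DGA Frame515 Res255

variable {K : Type} [Field K] {A : DGA K}

/-- the differential of the cells -/
noncomputable def dY (Y : RCells A) : (Y.ι →₀ A.C) →ₗ[K] (Y.ι →₀ A.C) := (tY Y (selfL A)).d

/-- the grading of the cells -/
noncomputable def gY (Y : RCells A) (k : ℤ) : Submodule K (Y.ι →₀ A.C) := (tY Y (selfL A)).gr k

theorem mem_gY (Y : RCells A) {k : ℤ} {x : Y.ι →₀ A.C} :
    x ∈ gY Y k ↔ ∀ σ, x σ ∈ A.G (k - Y.s σ) ∧ Y.e σ * x σ = x σ := Iff.rfl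

/-- right multiplication on the cells -/
noncomputable def rY (Y : RCells A) (a : A.C) : (Y.ι →₀ A.C) →ₗ[K] (Y.ι →₀ A.C) :=
  Finsupp.mapRange.linearMap (LinearMap.mulRight K a)

@[simp] theorem rY_apply (Y : RCells A) (a : A.C) (x : Y.ι →₀ A.C) (σ : Y.ι) :
    rY Y a x σ = x σ * a := rfl

theorem rY_mul (Y : RCells A) (a b : A.C) (x : Y.ι →₀ A.C) : rY Y a (rY Y b x) = rY Y (b * a) x := by
  ext σ
  simp [mul_assoc]

theorem rY_mem (Y : RCells A) {a : A.C} {k l : ℤ} (ha : a ∈ A.G l) {x : Y.ι →₀ A.C}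
    (hx : x ∈ gY Y k) : rY Y a x ∈ gY Y (k + l) := by
  intro σ
  obtain ⟨h1, h2⟩ := hx σ
  refine ⟨?_, ?_⟩
  · change x σ * a ∈ A.G (k + l - Y.s σ)
    have := A.mul_mem h1 ha
    rwa [show (k - (Y.s σ : ℤ)) + l = k + l - Y.s σ by ring] at this
  · change Y.e σ * (x σ * a) = x σ * a
    change Y.e σ * x σ = x σ at h2
    rw [← mul_assoc, h2]

theorem rY_mem0 (Y : RCells A) {a : A.C} {k : ℤ} (ha : a ∈ A.G 0) {x : Y.ι →₀ A.C}
    (hx : x ∈ gY Y k) : rY Y a x ∈ gY Y k := by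
  have := rY_mem Y ha hx
  rwa [add_zero] at this

theorem d_apply (Y : RCells A) (x : Y.ι →₀ A.C) (τ : Y.ι) :
    dY Y x τ = A.D (x τ) + x.sum fun σ g => Y.c τ σ * g :=
  (twY Y (selfL A)).dd_apply x τ

/-- degree zero elements are cycles -/
theorem D_zero {a : A.C} (ha : a ∈ A.G 0) : A.D a = 0 := D_neg ha (by omega)

theorem rY_d (Y : RCells A) {a : A.C} (ha : a ∈ A.G 0) (x : Y.ι →₀ A.C) :
    dY Y (rY Y a x) = rY Y a (dY Y x) := by
  ext τ
  rw [d_apply, rY_apply, rY_apply, d_apply, A.D_mul, D_zero ha, mul_zero, add_zero, add_mul]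
  congr 1
  rw [Finsupp.sum_of_support_subset (s := x.support) _ ?_ _ (fun σ _ => mul_zero _), Finsupp.sum,
    Finset.sum_mul]
  · refine Finset.sum_congr rfl fun σ _ => ?_
    rw [rY_apply, mul_assoc]
  · intro σ hσ
    rw [Finsupp.mem_support_iff] at hσ ⊢
    intro h
    apply hσ
    rw [rY_apply, h, zero_mul]

theorem aug_rY (Y : RCells A) (G : RM A) (v : Y.ι → G.X) (a : A.C) (x : Y.ι →₀ A.C) :
    augR Y G v (rY Y a x) = op a • augR Y G v x := by
  have h : augR Y G v ∘ₗ rY Y a = rmul G a ∘ₗ augR Y G v := by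
    refine Finsupp.lhom_ext fun σ b => ?_
    rw [LinearMap.comp_apply, LinearMap.comp_apply, augR_single, rmul_apply]
    have : rY Y a (Finsupp.single σ b) = Finsupp.single σ (b * a) := by
      simp [rY]
    rw [this, augR_single, op_mul, mul_smul]
  exact LinearMap.congr_fun h x

theorem dblG (G : RM A) (n : G.X) : n + n = 0 := by
  have h : n = (1 : A.Cᵐᵒᵖ) • n := by rw [one_smul]
  have h2 : (1 : A.Cᵐᵒᵖ) + 1 = 0 := by
    apply unop_injective
    exact A.two 1
  rw [h, ← add_smul, h2, zero_smul]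

theorem dblY (Y : RCells A) (x : Y.ι →₀ A.C) : x + x = 0 := by
  ext σ
  exact A.two _

theorem aug_mem (Y : RCells A) (G : RM A) (r : RAug Y G) {k : ℤ} {x : Y.ι →₀ A.C}
    (hx : x ∈ gY Y k) : augR Y G r.v x ∈ G.gr (r.lo + k) := by
  have e : augR Y G r.v x = x.sum fun σ a => op a • r.v σ := by
    simp [augR, Finsupp.lsum_apply]
  rw [e]
  refine Submodule.sum_mem _ fun σ _ => ?_
  have := G.smul_mem (hx σ).1 (r.v_mem σ)
  rwa [show k - (Y.s σ : ℤ) + (r.lo + Y.s σ) = r.lo + k by ring] at this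

theorem aug_d (Y : RCells A) (G : RM A) (r : RAug Y G) (x : Y.ι →₀ A.C) :
    augR Y G r.v (dY Y x) = G.d (augR Y G r.v x) := by
  have h : augR Y G r.v ∘ₗ dY Y = G.d ∘ₗ augR Y G r.v := by
    refine Finsupp.lhom_ext fun σ b => ?_
    rw [LinearMap.comp_apply, LinearMap.comp_apply, augR_single, G.leib, r.v_d]
    have h1 : dY Y (Finsupp.single σ b) = Finsupp.single σ (A.D b) +
        ∑ τ ∈ Y.F (Y.s σ), Finsupp.single τ (Y.c τ σ * b) := (twY Y (selfL A)).dd_single σ b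
    rw [h1, map_add, map_sum, augR_single, Finset.smul_sum]
    congr 1
    refine Finset.sum_congr rfl fun τ _ => ?_
    rw [augR_single, op_mul, mul_smul]
  exact LinearMap.congr_fun h x

theorem res_ex (Y : RCells A) (G : RM A) (r : RRes Y G) (k : ℤ) (x : Y.ι →₀ A.C) (n : G.X)
    (hx : x ∈ gY Y (k - 1)) (hd : dY Y x = 0) (hn : n ∈ G.gr (r.lo + k))
    (h : augR Y G r.v x + G.d n = 0) :
    ∃ y ∈ gY Y k, ∃ n' ∈ G.gr (r.lo + k + 1), dY Y y = x ∧ n = augR Y G r.v y + G.d n' :=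
  r.ex k x n hx hd hn h

/-- **the start of the column induction** -/
theorem startR {Y : RCells A} {G : RM A} (r : RRes Y G) {th ei ej : A.C} (hth : th ∈ A.G 0)
    (hei : ei ∈ A.G 0) (hej : ej ∈ A.G 0) (hii : ei * ei = ei) (hjj : ej * ej = ej)
    (hl : th * ej = th)
    (hN : ∀ (k : ℤ) (n n1 : G.X), n ∈ G.gr k → op ei • n = n → G.d n = 0 → n1 ∈ G.gr (k + 1) →
      op ej • n1 = n1 → op th • n = G.d n1 →
      ∃ n' ∈ G.gr (k + 1), op ei • n' = n' ∧ ∃ n1' ∈ G.gr (k + 2), op ej • n1' = n1' ∧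
        n = G.d n' ∧ n1 = op th • n' + G.d n1')
    (k : ℤ) (x y : Y.ι →₀ A.C) (hx : x ∈ gY Y k) (hxi : ∀ σ, x σ * ei = x σ)
    (hdx : dY Y x = 0) (hy : y ∈ gY Y (k + 1))
    (hyj : ∀ σ, y σ * ej = y σ) (hxy : rY Y th x = dY Y y) :
    ∃ x' ∈ gY Y (k + 1), (∀ σ, x' σ * ei = x' σ) ∧
      ∃ y' ∈ gY Y (k + 2), (∀ σ, y' σ * ej = y' σ) ∧
        x = dY Y x' ∧ y = rY Y th x' + dY Y y' := by
  have hxi' : rY Y ei x = x := by ext σ; exact hxi σ
  have hyj' : rY Y ej y = y := by ext σ; exact hyj σ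
  have e1 : op ei • augR Y G r.v x = augR Y G r.v x := by rw [← aug_rY, hxi']
  have e2 : op ej • augR Y G r.v y = augR Y G r.v y := by rw [← aug_rY, hyj']
  obtain ⟨n', hn', hn'i, n1', hn1', hn1'j, h1, h2⟩ := hN (r.lo + k) (augR Y G r.v x)
    (augR Y G r.v y) (aug_mem Y G r.toRAug hx) e1
    (by rw [← aug_d, hdx, map_zero])
    (by
      have := aug_mem Y G r.toRAug hy
      rwa [← add_assoc] at this) e2
    (by rw [← aug_rY, hxy, aug_d])
  -- lift of `n'`
  obtain ⟨x0, hx0, n'', hn'', h3, h4⟩ := res_ex Y G r (k + 1) x n'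
    (by rwa [add_sub_cancel_right]) hdx
    (by rwa [← add_assoc]) (by rw [h1]; exact dblG G _)
  have hx0' : rY Y ei x0 ∈ gY Y (k + 1) := rY_mem0 Y hei hx0
  have h3' : dY Y (rY Y ei x0) = x := by rw [rY_d Y hei, h3, hxi']
  have h4' : n' = augR Y G r.v (rY Y ei x0) + G.d (op ei • n'') := by
    rw [aug_rY, G.leib, D_zero hei, op_zero, zero_smul, zero_add, ← smul_add, ← h4, hn'i]
  -- the cycle `z`
  have hz : y + rY Y th (rY Y ei x0) ∈ gY Y (k + 1) :=
    Submodule.add_mem _ hy (rY_mem0 Y hth hx0')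
  have hdz : dY Y (y + rY Y th (rY Y ei x0)) = 0 := by
    rw [map_add, rY_d Y hth, h3', ← hxy]
    exact dblY Y _
  have haz : augR Y G r.v (y + rY Y th (rY Y ei x0)) + G.d (n1' + op th • (op ei • n'')) = 0 := by
    rw [map_add, h2, aug_rY, map_add G.d, G.leib th, D_zero hth, op_zero, zero_smul, zero_add]
    have h5 : op th • n' = op th • augR Y G r.v (rY Y ei x0) + op th • G.d (op ei • n'') := by
      rw [← smul_add, ← h4']
    rw [h5]
    have h6 := dblG G (op th • augR Y G r.v (rY Y ei x0))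
    have h7 := dblG G (op th • G.d (op ei • n''))
    have h8 := dblG G (G.d n1')
    calc op th • augR Y G r.v (rY Y ei x0) + op th • G.d (op ei • n'') + G.d n1' +
          op th • augR Y G r.v (rY Y ei x0) + (G.d n1' + op th • G.d (op ei • n''))
        = (op th • augR Y G r.v (rY Y ei x0) + op th • augR Y G r.v (rY Y ei x0)) +
          (op th • G.d (op ei • n'') + op th • G.d (op ei • n'')) + (G.d n1' + G.d n1') := by abel
      _ = 0 := by rw [h6, h7, h8, add_zero, add_zero]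
  have hmm : n1' + op th • (op ei • n'') ∈ G.gr (r.lo + (k + 2)) := by
    refine Submodule.add_mem _ ?_ ?_
    · rwa [← add_assoc]
    · have h9 := G.smul_mem hth (G.smul_mem hei hn'')
      rw [zero_add, zero_add] at h9
      rwa [show r.lo + (k + 1) + 1 = r.lo + (k + 2) by ring] at h9
  obtain ⟨y0, hy0, n3, -, h10, -⟩ := res_ex Y G r (k + 2) (y + rY Y th (rY Y ei x0))
    (n1' + op th • (op ei • n'')) (by rwa [show k + 2 - 1 = k + 1 by ring]) hdz hmm haz
  have hthj : rY Y ej (rY Y th (rY Y ei x0)) = rY Y th (rY Y ei x0) := by rw [rY_mul Y ej th, hl]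
  refine ⟨rY Y ei x0, hx0', fun σ => ?_, rY Y ej y0, rY_mem0 Y hej hy0, fun σ => ?_, h3'.symm, ?_⟩
  · rw [rY_apply, mul_assoc, hii]
  · rw [rY_apply, mul_assoc, hjj]
  · rw [rY_d Y hej, h10, map_add, hyj', hthj]
    rw [add_comm y, ← add_assoc, dblY, zero_add]

/-- the hypothesis for an honest module in one degree -/
theorem honestR (G : RM A) (hd : ∀ n, G.d n = 0) (h0 : ∀ k : ℤ, k ≠ 0 → G.gr k = ⊥) {th ei ej : A.C}
    (hinj : ∀ n ∈ G.gr 0, op ei • n = n → op th • n = 0 → n = 0)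
    (hsur : ∀ n ∈ G.gr 0, op ej • n = n → ∃ n' ∈ G.gr 0, op ei • n' = n' ∧ op th • n' = n)
    (k : ℤ) (n n1 : G.X) (hn : n ∈ G.gr k) (hni : op ei • n = n) (_ : G.d n = 0)
    (hn1 : n1 ∈ G.gr (k + 1)) (hn1j : op ej • n1 = n1) (h : op th • n = G.d n1) :
    ∃ n' ∈ G.gr (k + 1), op ei • n' = n' ∧ ∃ n1' ∈ G.gr (k + 2), op ej • n1' = n1' ∧
      n = G.d n' ∧ n1 = op th • n' + G.d n1' := by
  have hnz : n = 0 := by
    by_cases hk : k = 0
    · subst hk
      exact hinj n hn hni (by rw [h, hd])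
    · rw [h0 k hk] at hn
      exact (Submodule.mem_bot K).1 hn
  by_cases hk : k + 1 = 0
  · rw [hk] at hn1 ⊢
    obtain ⟨n', hn', h1, h2⟩ := hsur n1 hn1 hn1j
    refine ⟨n', hn', h1, 0, Submodule.zero_mem _, smul_zero _, ?_, ?_⟩
    · rw [hnz, hd]
    · rw [h2, map_zero, add_zero]
  · have : n1 = 0 := by
      rw [h0 _ hk] at hn1
      exact (Submodule.mem_bot K).1 hn1
    refine ⟨0, Submodule.zero_mem _, smul_zero _, 0, Submodule.zero_mem _, smul_zero _, ?_, ?_⟩
    · rw [hnz, map_zero]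
    · rw [this, smul_zero, map_zero, add_zero]

/-- one column, no cone -/
theorem startR0 {Y : RCells A} {G : RM A} (r : RRes Y G) {ei : A.C}
    (hei : ei ∈ A.G 0) (hii : ei * ei = ei)
    (hN : ∀ (k : ℤ) (n : G.X), n ∈ G.gr k → op ei • n = n → G.d n = 0 →
      ∃ n' ∈ G.gr (k + 1), op ei • n' = n' ∧ n = G.d n')
    (k : ℤ) (x : Y.ι →₀ A.C) (hx : x ∈ gY Y k) (hxi : ∀ σ, x σ * ei = x σ)
    (hdx : dY Y x = 0) :
    ∃ x' ∈ gY Y (k + 1), (∀ σ, x' σ * ei = x' σ) ∧ x = dY Y x' := by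
  obtain ⟨x', hx', e, y', -, -, h, -⟩ := startR (th := 0) (ei := ei) (ej := 0) r
    (Submodule.zero_mem _) hei (Submodule.zero_mem _) hii (mul_zero _) (mul_zero _)
    (fun k n n1 hn hni hdn _ h1 _ => by
      obtain ⟨n', hn', a, b⟩ := hN k n hn hni hdn
      rw [op_zero, zero_smul] at h1
      refine ⟨n', hn', a, 0, Submodule.zero_mem _, smul_zero _, b, ?_⟩
      rw [← h1, op_zero, zero_smul, map_zero, add_zero])
    k x 0 hx hxi hdx (Submodule.zero_mem _) (fun σ => by rw [Finsupp.zero_apply, zero_mul])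
    (by
      rw [map_zero]
      ext σ
      rw [rY_apply, mul_zero, Finsupp.zero_apply])
  exact ⟨x', hx', e, h⟩

end Crest.Agent.R186.ColS790
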