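import Crest.Agent.R186.Col_921
import Crest.Agent.R186.ColS_790

/-!
Row 186 (A), leaf V3 (helper790): the base of the column induction in 921's form.

`selfLB w` : the algebra of a window datum as a tri-graded left module; `base`, `base0` : for a right
cell resolution `Y → G` the columns `Y ⊗ (S e_o)` are acyclic when `G e_o` is, and right
multiplication by `θ` between two columns is a quasi-isomorphism when `G e_o → G e_o'` is.
-/

set_option autoImplicit false
set_option linter.style.haveILetI false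
set_option linter.unusedSectionVars false

open MulOpposite

namespace Crest.Agent.R186.ColB790

open Hat827 Hat827.DGA Frame515 Res255 Win810 TR810 Col921 ColS790

variable {K : Type} [Field K] {w : WD K}

/-- the algebra as a left module -/
abbrev selfLB (w : WD K) : LB w where
  B := w.S
  pb := w.pc
  smul_mem ha hb := w.mul_mem ha hb
  d := w.D
  d_smul a b := w.D_mul a b
  d_d := w.D_D
  d_mem h := w.D_mem h

/-! ### columns of the window algebra -/

theorem mc_mem {o : w.Ob} {f : w.Ob → w.S} {c : ℤ} (h : ∀ i, f i ∈ w.q i o c) :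
    (Matrix.of fun i j => if j = o then f i else 0 : Matrix w.Ob w.Ob w.S) ∈ w.Win := by
  intro i j
  change (if j = o then f i else 0) ∈ _
  split_ifs with hj
  · subst hj
    exact WD.q_le _ _ c (h i)
  · exact Submodule.zero_mem _

/-- the element of the window algebra with one column -/
def wcl (o : w.Ob) (f : w.Ob → w.S) (c : ℤ) (h : ∀ i, f i ∈ w.q i o c) : w.Win :=
  ⟨Matrix.of fun i j => if j = o then f i else 0, mc_mem h⟩

theorem wcl_val (o : w.Ob) (f : w.Ob → w.S) (c : ℤ) (h : ∀ i, f i ∈ w.q i o c) (i j : w.Ob) :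
    (wcl o f c h).1 i j = if j = o then f i else 0 := rfl

theorem wcl_G (o : w.Ob) (f : w.Ob → w.S) (c : ℤ) (h : ∀ i, f i ∈ w.q i o c) :
    wcl o f c h ∈ w.G c := by
  intro i j
  rw [wcl_val]
  split_ifs with hj
  · subst hj
    exact h i
  · exact Submodule.zero_mem _

theorem mul_ws (a b : w.Ob) (s : w.S) (h : s ∈ w.E a b) (m : w.Win) (i j : w.Ob) :
    (m * WD.ws a b s h).1 i j = if b = j then m.1 i a * s else 0 := by
  change (m.1 * Matrix.single a b s) i j = _
  rw [Matrix.mul_apply]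
  split_ifs with hj
  · subst hj
    rw [Finset.sum_eq_single a]
    · rw [Matrix.single_apply, if_pos ⟨rfl, rfl⟩]
    · intro l _ hl
      rw [Matrix.single_apply, if_neg (fun h => hl h.1.symm), mul_zero]
    · intro h
      exact absurd (Finset.mem_univ _) h
  · refine Finset.sum_eq_zero fun l _ => ?_
    rw [Matrix.single_apply, if_neg (fun h => hj h.2), mul_zero]

/-- the idempotent of an object -/
def we (o : w.Ob) : w.dga.C := WD.ws o o 1 (WD.q_le o o 0 (WD.q_one o))

theorem th_E (θ : Th w) {o o' : w.Ob} (hP : w.P o' = w.P o) (hA : w.A o' + 1 = w.A o) :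
    θ.t ∈ w.E o o' :=
  WD.q_le o o' 0 (pc_cast θ.mem (by rw [hP]; ring) (by rw [← hA]; ring) rfl)

/-- the one entry matrix of `θ` -/
def wth (θ : Th w) (o o' : w.Ob) (hP : w.P o' = w.P o) (hA : w.A o' + 1 = w.A o) : w.dga.C :=
  WD.ws o o' θ.t (th_E θ hP hA)

theorem we_G (o : w.Ob) : we o ∈ w.dga.G 0 := by
  intro i j
  change Matrix.single o o (1 : w.S) i j ∈ _
  rw [Matrix.single_apply]
  split_ifs with h
  · obtain ⟨rfl, rfl⟩ := h
    exact WD.q_one _
  · exact Submodule.zero_mem _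

theorem wth_G (θ : Th w) {o o' : w.Ob} (hP : w.P o' = w.P o) (hA : w.A o' + 1 = w.A o) :
    wth θ o o' hP hA ∈ w.dga.G 0 := by
  intro i j
  change Matrix.single o o' θ.t i j ∈ _
  rw [Matrix.single_apply]
  split_ifs with h
  · obtain ⟨rfl, rfl⟩ := h
    exact pc_cast θ.mem (by rw [hP]; ring) (by rw [← hA]; ring) rfl
  · exact Submodule.zero_mem _

theorem mul_we (o : w.Ob) (m : w.dga.C) (i j : w.Ob) :
    ((m * we o : w.dga.C) : w.Win).1 i j = if o = j then (m : w.Win).1 i o else 0 := by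
  have h := mul_ws o o 1 (WD.q_le o o 0 (WD.q_one o)) m i j
  rw [mul_one] at h
  exact h

theorem mul_wth (θ : Th w) {o o' : w.Ob} (hP : w.P o' = w.P o) (hA : w.A o' + 1 = w.A o)
    (m : w.dga.C) (i j : w.Ob) :
    ((m * wth θ o o' hP hA : w.dga.C) : w.Win).1 i j =
      if o' = j then (m : w.Win).1 i o * θ.t else 0 :=
  mul_ws o o' θ.t (th_E θ hP hA) m i j

theorem we_we (o : w.Ob) : we o * we o = we o := by
  apply Subtype.ext
  ext i j
  refine (mul_we o (we o) i j).trans ?_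
  change (if o = j then Matrix.single o o (1 : w.S) i o else 0) = Matrix.single o o (1 : w.S) i j
  rw [Matrix.single_apply, Matrix.single_apply]
  by_cases h1 : o = i <;> by_cases h2 : o = j <;> simp [h1, h2]

theorem wth_we (θ : Th w) {o o' : w.Ob} (hP : w.P o' = w.P o) (hA : w.A o' + 1 = w.A o) :
    wth θ o o' hP hA * we o' = wth θ o o' hP hA := by
  apply Subtype.ext
  ext i j
  refine (mul_we o' (wth θ o o' hP hA) i j).trans ?_
  change (if o' = j then Matrix.single o o' θ.t i o' else 0) = Matrix.single o o' θ.t i j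
  rw [Matrix.single_apply, Matrix.single_apply]
  by_cases h1 : o = i <;> by_cases h2 : o' = j <;> simp [h1, h2]

/-! ### the translation -/

section tr

variable {Y : RCells w.dga} {o o' : w.Ob}

/-- the column `o` of an element of the window algebra -/
def cO (o : w.Ob) : w.dga.C →ₗ[K] Cv (selfLB w) where
  toFun m := fun i => (m : w.Win).1 i o
  map_add' _ _ := rfl
  map_smul' _ _ := rfl

theorem cO_apply (o : w.Ob) (m : w.dga.C) (i : w.Ob) : cO o m i = (m : w.Win).1 i o := rfl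

theorem cO_mul (o : w.Ob) (c m : w.dga.C) : cO o (c * m) = c • cO o m := by
  ext i
  rw [Cv.act_apply]
  change ((c : w.Win).1 * (m : w.Win).1) i o = _
  rw [Matrix.mul_apply]
  rfl

theorem eq_zero_of_cO {m : w.dga.C} (h : m * we o = m) (h0 : cO o m = 0) : m = 0 := by
  rw [← h]
  apply Subtype.ext
  ext i j
  refine (mul_we o m i j).trans ?_
  split_ifs with hj
  · exact congrFun h0 i
  · rfl

/-- columns of a family -/
noncomputable def cF (Y : RCells w.dga) (o : w.Ob) : (Y.ι →₀ w.dga.C) →ₗ[K] (Y.ι →₀ Cv (selfLB w)) :=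
  Finsupp.mapRange.linearMap (cO o)

theorem cF_apply (o : w.Ob) (u : Y.ι →₀ w.dga.C) (σ : Y.ι) : cF Y o u σ = cO o (u σ) := by
  rw [cF, Finsupp.mapRange.linearMap_apply, Finsupp.mapRange_apply]

theorem cF_gr {u : Y.ι →₀ w.dga.C} {n : ℤ} (hu : u ∈ gY Y n) :
    cF Y o u ∈ (Sc Y (selfLB w) (w.P o) (w.A o)).gr n := by
  rw [mem_Sc]
  intro σ
  rw [cF_apply]
  refine ⟨fun i => (hu σ).1 i o, ?_⟩
  rw [← cO_mul]
  exact congrArg (cO o) (hu σ).2

theorem cF_d (u : Y.ι →₀ w.dga.C) (p a : ℤ) :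
    (Sc Y (selfLB w) p a).d (cF Y o u) = cF Y o (dY Y u) := by
  refine Finsupp.ext fun τ => ?_
  have hs : (cF Y o u).support ⊆ u.support := by
    intro σ hσ
    rw [Finsupp.mem_support_iff] at hσ ⊢
    intro h
    apply hσ
    rw [cF_apply, h, map_zero]
  have e1 := Sc_d (Y := Y) (B := selfLB w) p a (cF Y o u) u.support hs τ
  have e2 : dY Y u τ = w.dga.D (u τ) + ∑ σ ∈ u.support, Y.c τ σ * u σ :=
    (twY Y (selfL w.dga)).dd_apply' u u.support (Finset.Subset.refl _) τ
  refine (show (show Y.ι →₀ Cv (selfLB w) from (Sc Y (selfLB w) p a).d (cF Y o u)) τ =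
    cF Y o (dY Y u) τ from ?_)
  rw [e1, cF_apply, cF_apply, e2, map_add, map_sum]
  refine congrArg₂ (· + ·) rfl (Finset.sum_congr rfl fun σ _ => ?_)
  rw [cF_apply, cO_mul]

theorem lift_c {x : Y.ι →₀ Cv (selfLB w)} {n : ℤ}
    (hx : x ∈ (Sc Y (selfLB w) (w.P o) (w.A o)).gr n) :
    ∃ u ∈ gY Y n, (∀ σ, u σ * we o = u σ) ∧ cF Y o u = x := by
  classical
  have hx' := mem_Sc.1 hx
  let u : Y.ι →₀ w.dga.C := Finsupp.onFinset x.support
    (fun σ => wcl o (fun i => x σ i) _ (hx' σ).1) (by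
      intro σ hσ
      rw [Finsupp.mem_support_iff]
      intro h
      apply hσ
      apply Subtype.ext
      ext i j
      change (if j = o then (show w.S from x σ i) else 0) = 0
      have e0 : (show w.S from x σ i) = 0 := congrFun h i
      rw [e0, ite_self])
  have hu : ∀ σ i j, (u σ : w.Win).1 i j = if j = o then (show w.S from x σ i) else 0 :=
    fun σ i j => rfl
  refine ⟨u, ?_, ?_, ?_⟩
  · intro σ
    refine ⟨wcl_G _ _ _ (hx' σ).1, ?_⟩
    change Y.e σ * u σ = u σ
    apply Subtype.ext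
    ext i j
    have e1 : ((Y.e σ * u σ : w.dga.C) : w.Win).1 i j = ∑ l, (Y.e σ : w.Win).1 i l * (u σ : w.Win).1 l j := by
      change ((Y.e σ : w.Win).1 * (u σ : w.Win).1) i j = _
      rw [Matrix.mul_apply]
    rw [e1, hu]
    by_cases hj : j = o
    · rw [if_pos hj]
      have e2 := congrFun (hx' σ).2 i
      rw [Cv.act_apply] at e2
      rw [← e2]
      refine Finset.sum_congr rfl fun l _ => ?_
      rw [hu, if_pos hj]
      rfl
    · rw [if_neg hj]
      refine Finset.sum_eq_zero fun l _ => ?_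
      rw [hu, if_neg hj]
      exact mul_zero _
  · intro σ
    apply Subtype.ext
    ext i j
    refine (mul_we o (u σ) i j).trans ?_
    rw [hu, hu, if_pos rfl]
    by_cases hj : o = j
    · subst hj
      rfl
    · exact (if_neg hj).trans (if_neg (fun h => hj h.symm)).symm
  · refine Finsupp.ext fun σ => ?_
    ext i
    rw [cF_apply, cO_apply, hu, if_pos rfl]

theorem eq_of_cF {u v : Y.ι →₀ w.dga.C} (hu : ∀ σ, u σ * we o = u σ) (hv : ∀ σ, v σ * we o = v σ)
    (h : cF Y o u = cF Y o v) : u = v := by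
  refine Finsupp.ext fun σ => ?_
  rw [← sub_eq_zero]
  refine eq_zero_of_cO (o := o) (by rw [sub_mul, hu, hv]) ?_
  rw [map_sub, ← cF_apply, ← cF_apply, h, sub_self]

/-- right multiplication by `θ` on families of columns -/
noncomputable def hF (Y : RCells w.dga) (t : w.S) :
    (Y.ι →₀ Cv (selfLB w)) →ₗ[K] (Y.ι →₀ Cv (selfLB w)) :=
  mp Y (B := selfLB w) (B' := selfLB w)
    (show (selfLB w).B →ₗ[K] (selfLB w).B from (LinearMap.mulRight K t : w.S →ₗ[K] w.S))

theorem hF_apply (t : w.S) (x : Y.ι →₀ Cv (selfLB w)) (σ : Y.ι) (i : w.Ob) :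
    hF Y t x σ i = (show w.S from x σ i) * t := by
  refine (mp_apply (Y := Y) (B := selfLB w) (B' := selfLB w) _ x σ i).trans ?_
  rfl

theorem cF_th (θ : Th w) (hP : w.P o' = w.P o) (hA : w.A o' + 1 = w.A o) (u : Y.ι →₀ w.dga.C) :
    cF Y o' (rY Y (wth θ o o' hP hA) u) = hF Y θ.t (cF Y o u) := by
  refine Finsupp.ext fun σ => ?_
  ext i
  rw [hF_apply, cF_apply, cF_apply, cO_apply, rY_apply]
  refine (mul_wth θ hP hA (u σ) i o').trans ?_
  rw [if_pos rfl]
  rfl

theorem rY_we (o : w.Ob) {u : Y.ι →₀ w.dga.C} (hu : ∀ σ, u σ * we o = u σ) : rY Y (we o) u = u := by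
  ext σ
  exact hu σ

theorem dY_we {u : Y.ι →₀ w.dga.C} (hu : ∀ σ, u σ * we o = u σ) (σ : Y.ι) :
    dY Y u σ * we o = dY Y u σ := by
  have h := rY_d Y (we_G o) u
  rw [rY_we o hu] at h
  exact (congrArg (fun z => z σ) h).symm

/-- **base of the column induction, with a cone** -/
theorem base (θ : Th w) {G : RM w.dga} (r : RRes Y G) (hP : w.P o' = w.P o)
    (hA : w.A o' + 1 = w.A o)
    (hN : ∀ (k : ℤ) (n n1 : G.X), n ∈ G.gr k → op (we o) • n = n → G.d n = 0 → n1 ∈ G.gr (k + 1) →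
      op (we o') • n1 = n1 → op (wth θ o o' hP hA) • n = G.d n1 →
      ∃ n' ∈ G.gr (k + 1), op (we o) • n' = n' ∧ ∃ n1' ∈ G.gr (k + 2), op (we o') • n1' = n1' ∧
        n = G.d n' ∧ n1 = op (wth θ o o' hP hA) • n' + G.d n1')
    (k : ℤ) (x y : Y.ι →₀ Cv (selfLB w)) (hx : x ∈ (Sc Y (selfLB w) (w.P o) (w.A o)).gr k)
    (hdx : (Sc Y (selfLB w) (w.P o) (w.A o)).d x = 0)
    (hy : y ∈ (Sc Y (selfLB w) (w.P o') (w.A o')).gr (k + 1))
    (hxy : hF Y θ.t x = (Sc Y (selfLB w) (w.P o') (w.A o')).d y) :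
    ∃ x' ∈ (Sc Y (selfLB w) (w.P o) (w.A o)).gr (k + 1),
      ∃ y' ∈ (Sc Y (selfLB w) (w.P o') (w.A o')).gr (k + 2),
        x = (Sc Y (selfLB w) (w.P o) (w.A o)).d x' ∧
        y = hF Y θ.t x' + (Sc Y (selfLB w) (w.P o') (w.A o')).d y' := by
  obtain ⟨u, hu, hu2, rfl⟩ := lift_c hx
  obtain ⟨v, hv, hv2, rfl⟩ := lift_c hy
  have hdu : dY Y u = 0 := by
    refine eq_of_cF (o := o) (dY_we hu2) (fun σ => ?_) ?_
    · rw [Finsupp.zero_apply, zero_mul]
    · rw [map_zero, ← cF_d u (w.P o) (w.A o)]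
      exact hdx
  have huv : rY Y (wth θ o o' hP hA) u = dY Y v := by
    refine eq_of_cF (o := o') (fun σ => ?_) (dY_we hv2) ?_
    · rw [rY_apply, mul_assoc, wth_we]
    · rw [cF_th, ← cF_d v (w.P o') (w.A o')]
      exact hxy
  obtain ⟨x', hx', -, y', hy', -, e1, e2⟩ := startR r (wth_G θ hP hA) (we_G o) (we_G o')
    (we_we o) (we_we o') (wth_we θ hP hA) hN k u v hu hu2 hdu hv hv2 huv
  refine ⟨cF Y o x', cF_gr hx', cF Y o' y', cF_gr hy', ?_, ?_⟩
  · rw [e1]
    exact (cF_d x' (w.P o) (w.A o)).symm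
  · rw [e2, map_add, cF_th]
    congr 1
    exact (cF_d y' (w.P o') (w.A o')).symm

/-- **base of the column induction** -/
theorem base0 {G : RM w.dga} (r : RRes Y G)
    (hN : ∀ (k : ℤ) (n : G.X), n ∈ G.gr k → op (we o) • n = n → G.d n = 0 →
      ∃ n' ∈ G.gr (k + 1), op (we o) • n' = n' ∧ n = G.d n') :
    Ac (Sc Y (selfLB w) (w.P o) (w.A o)) := by
  intro k x hx hdx
  obtain ⟨u, hu, hu2, e⟩ := lift_c (Y := Y) (o := o) (x := x) hx
  have hdu : dY Y u = 0 := by
    refine eq_of_cF (o := o) (dY_we hu2) (fun σ => ?_) ?_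
    · rw [Finsupp.zero_apply, zero_mul]
    · rw [map_zero, ← cF_d u (w.P o) (w.A o), e]
      exact hdx
  obtain ⟨x', hx', -, e1⟩ := startR0 r (we_G o) (we_we o) hN k u hu hu2 hdu
  refine ⟨cF Y o x', cF_gr hx', ?_⟩
  rw [← e, e1]
  exact cF_d x' (w.P o) (w.A o)

end tr

end Crest.Agent.R186.ColB790
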