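import Crest.Agent.R186.ColM_790
import Crest.Agent.R186.ColB_921
import Crest.Agent.R186.KOSZ_296

/-!
Row 186 (A), leaf V3 (helper439, second hand of 925): the `R''` side of 921's `Dat`: the layers
`J / J²`-ish, `copR n : Cop RB J RB (FR n) (FR (n+1)) 0` by right multiplication with `wq q`, and the
right Koszul structure `kzR : Kz RB J`.
-/

set_option autoImplicit false
set_option linter.style.haveILetI false
set_option linter.unusedSectionVars false

open MulOpposite

namespace Crest.Agent.R186.ColE439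

open Hat827 Hat827.DGA Frame515 Res255 Win810 TR810 Col921 ColB790
open DefsQ830 DefsQ830.Gen PBW128 SM890 C2b362 C1R808
open Crest.Agent.R186.ColM790 (lev RB MB FM copM lev_one)
open Crest.Agent.R186.C2b44 (kill)

variable {K : Type} [Field K] (π : Par K)

theorem wk2_lev (w q : Wb) (h : wk2 π w q ≠ 0) : lev (wt2 w q) = lev w + lev q := by
  cases w with
  | one => cases q <;> simp [wt2, lev]
  | y a =>
    rcases fin2 a with rfl | rfl <;> cases q with
    | one => simp [wt2, lev]
    | y b => simp [wt2, lev]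
    | yb b => simp [wk2] at h
    | pi => simp [wk2] at h
  | yb a => cases q <;> simp_all [wk2, wt2, lev]
  | pi => cases q <;> simp_all [wk2, wt2, lev]

/-- coordinates of `r * wq q` -/
theorem zc_RR (q q' : Wb) (r : R π) : zc π q' (r * wq π q) =
    ∑ w, wk2 π w q • (if wt2 w q = q' then zc π w r else 0) := by
  have e : r * wq π q = ∑ w, wk2 π w q • (zc π w r * wq π (wt2 w q)) := by
    conv_lhs => rw [← zc_sum π r]
    rw [Finset.sum_mul]
    refine Finset.sum_congr rfl fun w _ => ?_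
    rw [mul_assoc, wq_mul_wq, mul_smul_comm]
  rw [e, map_sum]
  refine Finset.sum_congr rfl fun w _ => ?_
  rw [map_smul, zc_mul_wq π q' (wt2 w q) (zc_mem π w r)]

theorem zc_RR_lo {q q' : Wb} (h : lev q' < lev q) (r : R π) : zc π q' (r * wq π q) = 0 := by
  rw [zc_RR]
  refine Finset.sum_eq_zero fun w _ => ?_
  by_cases hk : wk2 π w q = 0
  · rw [hk, zero_smul]
  · rw [if_neg, smul_zero]
    intro he
    have := wk2_lev π w q hk
    rw [he] at this
    omega

theorem zc_RR_eq {q q' : Wb} (h : lev q' = lev q) (r : R π) :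
    zc π q' (r * wq π q) = if q = q' then zc π .one r else 0 := by
  rw [zc_RR, Finset.sum_eq_single Wb.one]
  · have e1 : wk2 π Wb.one q = 1 := by cases q <;> rfl
    have e2 : wt2 Wb.one q = q := by cases q <;> rfl
    rw [e1, e2, one_smul]
  · intro w _ hw
    by_cases hk : wk2 π w q = 0
    · rw [hk, zero_smul]
    · rw [if_neg, smul_zero]
      intro he
      have h2 := wk2_lev π w q hk
      rw [he] at h2
      exact hw (lev_one (by omega))
  · intro hh
    exact absurd (Finset.mem_univ _) hh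

theorem zc_RR_J {q q' : Wb} (h : lev q' ≤ lev q) {r : R π} (hr : r ∈ J π) :
    zc π q' (r * wq π q) = 0 := by
  rcases Nat.lt_or_ge (lev q') (lev q) with h1 | h1
  · exact zc_RR_lo π h1 r
  · rw [zc_RR_eq π (le_antisymm h h1), (mem_J_iff_zc π).1 hr, ite_self]

/-- **the filtration of `R''` by the `W`-degree** -/
def FR (n : ℕ) : Submodule K (R π) where
  carrier := {r | ∀ q, lev q < n → zc π q r = 0}
  zero_mem' := fun q _ => map_zero (zc π q)
  add_mem' := by
    intro a b ha hb q hq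
    rw [map_add, ha q hq, hb q hq, add_zero]
  smul_mem' := by
    intro r a ha q hq
    rw [map_smul, ha q hq, smul_zero]

theorem mem_FR {n : ℕ} {r : R π} : r ∈ FR π n ↔ ∀ q, lev q < n → zc π q r = 0 := Iff.rfl

theorem mem_FR_one {r : R π} : r ∈ FR π 1 ↔ r ∈ J π := by
  rw [mem_J_iff_zc]
  constructor
  · intro h
    exact h .one (by simp [lev])
  · intro h q hq
    have : q = .one := lev_one (by omega)
    rw [this]
    exact h

theorem FR_one : FR π 1 = J π := Submodule.ext fun _ => mem_FR_one π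

theorem FR_three : FR π 3 = ⊥ := by
  rw [eq_bot_iff]
  intro r hr
  rw [Submodule.mem_bot, ← zc_sum π r]
  refine Finset.sum_eq_zero fun q _ => ?_
  rw [hr q (by cases q <;> simp [lev]), zero_mul]

theorem FR_anti {n m : ℕ} (h : n ≤ m) : FR π m ≤ FR π n := fun _ hx q hq => hx q (by omega)

theorem RR_FR (q : Wb) {n : ℕ} (h : n ≤ lev q) (r : R π) : r * wq π q ∈ FR π n :=
  fun _ hq => zc_RR_lo π (lt_of_lt_of_le hq h) r

theorem FR_smul {n : ℕ} (a : R π) {r : R π} (hr : r ∈ FR π n) : a * r ∈ FR π n := by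
  rw [← zc_sum π r, Finset.mul_sum]
  refine Submodule.sum_mem _ fun q _ => ?_
  by_cases hq : lev q < n
  · rw [hr q hq, zero_mul, mul_zero]
    exact Submodule.zero_mem _
  · rw [← mul_assoc]
    exact RR_FR π q (not_lt.1 hq) _

theorem FR_d {n : ℕ} {r : R π} (hr : r ∈ FR π n) : Der580.D π r ∈ FR π n := by
  rw [← zc_sum π r, map_sum]
  refine Submodule.sum_mem _ fun q _ => ?_
  rw [RW_D π]
  by_cases hq : lev q < n
  · rw [hr q hq, map_zero, zero_mul]
    exact Submodule.zero_mem _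
  · exact RR_FR π q (not_lt.1 hq) _

theorem stR (n : ℕ) : Stab (RB π) (FR π n) where
  smul a _ hb := FR_smul π a hb
  d hb := FR_d π hb

theorem wq_pcZ (q : Wb) : wq π q ∈ pcZ π 0 0 (wC q.word) := by
  have h1 : wq π q ∈ pc π (wP q.word) (wA q.word) (wC q.word) :=
    Submodule.subset_span ⟨q.word, rfl, rfl, rfl, rfl⟩
  rw [wP_word, wA_word] at h1
  have e : Win810.pcZ π 0 ((0 : ℕ) : ℤ) ((wC q.word : ℕ) : ℤ) = pc π 0 0 (wC q.word) := by
    rw [KOS296.pcZ_eq_pz, C2b362.pz_eq]
    simp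
  have e2 := e ▸ h1
  simpa using e2

/-- right multiplication by `wq q` -/
noncomputable def uR (q : Wb) : LH (RB π) (RB π) 0 (wC q.word) where
  f := LinearMap.mulRight K (wq π q)
  smul a b := mul_assoc a b _
  comm b := RW_D π b q
  mem {P A C b} hb := by
    have h := pcZ_mul π (show b ∈ pcZ π P A C from hb) (wq_pcZ π q)
    rw [add_zero A] at h
    exact h

theorem uniqR (n : ℕ) (z : {q : Wb // lev q = n} → R π)
    (hz : ∑ k, z k * wq π k.1 ∈ FR π (n + 1)) (q : {q : Wb // lev q = n}) : z q ∈ J π := by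
  refine (mem_J_iff_zc π).2 ?_
  have h := hz q.1 (by rw [q.2]; omega)
  rw [map_sum, Finset.sum_eq_single q] at h
  · rw [zc_RR_eq π rfl, if_pos rfl] at h
    exact h
  · intro k _ hk
    rw [zc_RR_eq π (q.2.trans k.2.symm), if_neg]
    intro he
    exact hk (Subtype.ext he)
  · intro hh
    exact absurd (Finset.mem_univ _) hh

theorem genR (n : ℕ) {P A C : ℤ} {x : R π} (hx : x ∈ FR π n) (hxP : x ∈ pcZ π P A C) :
    ∃ z : {q : Wb // lev q = n} → R π, (∀ q, z q ∈ pcZ π (P - 0) A (C - (wC q.1.word : ℤ))) ∧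
      x - ∑ q, z q * wq π q.1 ∈ FR π (n + 1) := by
  refine ⟨fun q => C1R808.zc π q.1 x, fun q => ?_, fun q' hq' => ?_⟩
  · have h := zc_pcZ π q.1 hxP
    rw [sub_zero]
    exact h
  · rw [map_sub, map_sum]
    rcases Nat.lt_or_ge (lev q') n with h1 | h1
    · rw [hx q' h1, Finset.sum_eq_zero, sub_zero]
      intro q _
      exact zc_RR_lo π (by rw [q.2]; exact h1) _
    · have h2 : lev q' = n := by omega
      rw [Finset.sum_eq_single (⟨q', h2⟩ : {q : Wb // lev q = n})]
      · rw [zc_mul_wq π q' q' (zc_mem π q' x), if_pos rfl, sub_self]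
      · intro q _ hq
        rw [zc_mul_wq π q' q.1 (zc_mem π q.1 x), if_neg]
        intro he
        exact hq (Subtype.ext he)
      · intro hh
        exact absurd (Finset.mem_univ _) hh

/-- **the layers of `R''`** -/
noncomputable def copR (n : ℕ) : Cop (RB π) (J π) (RB π) (FR π n) (FR π (n + 1)) 0 where
  κ := {q : Wb // lev q = n}
  uC q := wC q.1.word
  u q := uR π q.1
  st := stR π (n + 1)
  u_F q z := RR_FR π q.1 (by rw [q.2]) z
  u_J q z hz := fun q' hq' => zc_RR_J π (by rw [q.2]; omega) hz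
  gen hx hxP := genR π n hx hxP
  uniq z hz q := uniqR π n z hz q

/-! ### Koszul -/

theorem x_pcZ (j : Fin 2) : X π (.x j) ∈ pcZ π 1 0 0 := by
  have := X_mem_pc π (.x j)
  rw [← pcZ_nat] at this
  exact this

theorem D_x (j : Fin 2) : Der580.D π (X π (.x j)) = 0 := by
  rw [Der580.D_X]
  simp [dGen]

theorem D_mul_x (j : Fin 2) (b : R π) :
    Der580.D π (b * X π (.x j)) = Der580.D π b * X π (.x j) := by
  rw [Der580.D_mul, D_x, mul_zero, add_zero]

/-- right multiplication by `x_j` -/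
noncomputable def xR (j : Fin 2) : LH (RB π) (RB π) 1 0 where
  f := LinearMap.mulRight K (X π (.x j))
  smul a b := mul_assoc a b _
  comm b := D_mul_x π j b
  mem {P A C b} hb := by
    have h := pcZ_mul π (show b ∈ pcZ π P A C from hb) (x_pcZ π j)
    rw [add_zero A] at h
    exact h

theorem J_x (j : Fin 2) {z : R π} (hz : z ∈ J π) : z * X π (.x j) ∈ J π := by
  rw [KOS296.mem_J_iff_kill] at hz ⊢
  rw [map_mul, hz, zero_mul]

theorem xkR (z : R π) : ∑ j : Fin 2, z * X π (.x (1 - j)) * X π (.x j) ∈ J π := by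
  rw [Fin.sum_univ_two]
  have e : z * X π (.x (1 - 0)) * X π (.x 0) + z * X π (.x (1 - 1)) * X π (.x 1) = 0 := by
    change z * X π (.x 1) * X π (.x 0) + z * X π (.x 0) * X π (.x 1) = 0
    rw [mul_assoc, mul_assoc, Der580.r_xx, Der580.add_self]
  rw [e]
  exact Submodule.zero_mem _

theorem genK {P A C : ℤ} {y : R π} (hP : 1 ≤ P) (hy : y ∈ pcZ π P A C) :
    ∃ z : Fin 2 → R π, (∀ j, z j ∈ pcZ π (P - 1) A C) ∧ y - ∑ j, z j * X π (.x j) ∈ J π := by
  rw [KOS296.pcZ_eq_pz] at hy
  obtain ⟨a, ha, b, hb, e⟩ := KOS296.xr_surZ π hP hy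
  rw [← KOS296.pcZ_eq_pz] at ha hb
  refine ⟨![a, b], ?_, ?_⟩
  · intro j
    rcases fin2 j with rfl | rfl
    · exact ha
    · exact hb
  · rw [Fin.sum_univ_two]
    change y - (a * X π (.x 0) + b * X π (.x 1)) ∈ J π
    rw [e, sub_self]
    exact Submodule.zero_mem _

theorem kerK {P A C : ℤ} (z : Fin 2 → R π) (hz : ∀ j, z j ∈ pcZ π P A C)
    (h : ∑ j, z j * X π (.x j) ∈ J π) :
    ∃ c ∈ pcZ π (P - 1) A C, ∀ j : Fin 2, z j - c * X π (.x (1 - j)) ∈ J π := by
  have two : ∀ r : R π, r + r = 0 := Der580.add_self π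
  have neg : ∀ r : R π, -r = r := fun r => neg_eq_of_add_eq_zero_left (two r)
  rw [Fin.sum_univ_two] at h
  have h1 := hz 1
  rw [KOS296.pcZ_eq_pz] at h1
  have h2 : z 1 * X π (.x 1) - z 0 * X π (.x 0) ∈ J π := by
    rw [sub_eq_add_neg, neg, add_comm]
    exact h
  obtain ⟨c, hc, e1, e2⟩ := KOS296.jr_ker π h1 h2
  rw [← KOS296.pcZ_eq_pz] at hc
  refine ⟨c, hc, ?_⟩
  intro j
  rcases fin2 j with rfl | rfl
  · exact e2
  · exact e1

theorem stJ : Stab (RB π) (J π) := by
  have h := stR π 1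
  rw [FR_one] at h
  exact h

/-- **right Koszul structure** -/
noncomputable def kzR : Kz (RB π) (J π) where
  x := xR π
  kk j := xR π (1 - j)
  st := stJ π
  x_J j _ hz := J_x π j hz
  k_J j _ hz := J_x π (1 - j) hz
  xk z := xkR π z
  gen hP hy := genK π hP hy
  ker z hz h := kerK π z hz h
  inj h := KOS296.jr_inj π 1 h

/-! ### the instance -/

/-- the layer `J / FR 2` -/
noncomputable def copR1 : Cop (RB π) (J π) (RB π) (J π) (FR π 2) 0 where
  κ := {q : Wb // lev q = 1}
  uC q := wC q.1.word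
  u q := uR π q.1
  st := stR π 2
  u_F q z := (mem_FR_one π).1 (RR_FR π q.1 (by rw [q.2]) z)
  u_J q z hz := fun q' hq' => zc_RR_J π (by rw [q.2]; omega) hz
  gen hx hxP := genR π 1 ((mem_FR_one π).2 hx) hxP
  uniq z hz q := uniqR π 1 z hz q

/-- **921's `Dat` for `R''` and `M`** -/
noncomputable def dat (s : ℕ) : Dat (RB π) (MB π s) where
  neg hC := pcZ_neg π (Or.inr hC)
  J := J π
  F1 := FR π 2
  F2 := FR π 3
  hJ := (FR_anti π (by omega)).trans (FR_one π).le
  hF2 := FR_three π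
  c1 := copR1 π
  c2 := copR π 2
  n1 k := Int.natCast_nonneg (wC k.1.word)
  n2 k := Int.natCast_nonneg (wC k.1.word)
  kz := kzR π
  G0 := FM π 3
  G1 := FM π 2
  G2 := FM π 1
  G3 := FM π 0
  hG0 := ColM790.FM_three π
  hG3 := ColM790.FM_zero π
  g1 := ColM790.FM_mono π (by omega)
  g2 := ColM790.FM_mono π (by omega)
  m1 := copM π s 2
  m2 := copM π s 1
  m3 := copM π s 0

end Crest.Agent.R186.ColE439
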