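import Crest.Agent.R186.SM_890

/-!
Row 186, half (A) (helper925): right `W`-coordinates of `R''` and of `M = R'' ⊗_W DW`, entry level.

`N1 K` = coordinates of the `W`-free part, `psiR : N1 → R''`, `lcR q : R'' → N1`
(`r = ∑ q, psiR (lcR q r) * wq q`), `lcM q : M → N1` (`m = ∑ q, oM q (psiR (lcM q m))`).
-/

set_option autoImplicit false

noncomputable section

namespace Crest.Agent.R186.Ent925

open DefsQ830 PBW128 Win810 SM890

variable {K : Type} [Field K]

/-- index set of the `W`-free part -/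
abbrev I1 : Type := ℕ × ℕ × ℕ × List E

variable (K) in
/-- coordinates of the `W`-free part -/
abbrev N1 : Type := I1 →₀ K

variable (K) in
/-- pieces of `N1` -/
def NZ (P A C : ℤ) : Submodule K (N1 K) :=
  Finsupp.supported K K {μ : I1 | dPx (μ.1, μ.2.1, μ.2.2.1, μ.2.2.2, .one) = P ∧
    (dAx (μ.1, μ.2.1, μ.2.2.1, μ.2.2.2, .one) : ℤ) = A ∧
    (dCx (μ.1, μ.2.1, μ.2.2.1, μ.2.2.2, .one) : ℤ) = C}

theorem single_mem_NZ {P A C : ℤ} {μ : I1} {c : K}
    (h : c ≠ 0 → dPx (μ.1, μ.2.1, μ.2.2.1, μ.2.2.2, .one) = P ∧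
      (dAx (μ.1, μ.2.1, μ.2.2.1, μ.2.2.2, .one) : ℤ) = A ∧
      (dCx (μ.1, μ.2.1, μ.2.2.1, μ.2.2.2, .one) : ℤ) = C) :
    Finsupp.single μ c ∈ NZ K P A C := by
  by_cases hc : c = 0
  · rw [hc, Finsupp.single_zero]; exact Submodule.zero_mem _
  · exact Finsupp.single_mem_supported K c (h hc)

variable (K) in
/-- the `q`-coordinate -/
def lcN (q : Wb) : N K →ₗ[K] N1 K :=
  Finsupp.linearCombination K (fun ν : Ix =>
    if ν.2.2.2.2 = q then Finsupp.single (ν.1, ν.2.1, ν.2.2.1, ν.2.2.2.1) (1 : K) else 0)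

theorem lcN_bv (q : Wb) (i j k : ℕ) (w : List E) (q' : Wb) :
    lcN K q (bv K i j k w q') = if q' = q then Finsupp.single (i, j, k, w) (1 : K) else 0 := by
  simp [lcN, bv]

variable (π : Par K)

/-- the `W`-free part of `R''` -/
def psiR : N1 K →ₗ[K] R π :=
  Finsupp.linearCombination K (fun μ : I1 => nf1 π μ.1 μ.2.1 μ.2.2.1 μ.2.2.2)

theorem psiR_single (μ : I1) : psiR π (Finsupp.single μ 1) = nf1 π μ.1 μ.2.1 μ.2.2.1 μ.2.2.2 := by
  simp [psiR]

/-- coordinates of `R''` -/
def lcR (q : Wb) : R π →ₗ[K] N1 K := lcN K q ∘ₗ ev π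

theorem lcR_apply (q : Wb) (r : R π) : lcR π q r = lcN K q (ev π r) := rfl

theorem lcR_nf (q : Wb) (i j k : ℕ) (w : List E) (q' : Wb) :
    lcR π q (nf1 π i j k w * wq π q') = if q' = q then Finsupp.single (i, j, k, w) (1 : K) else 0 := by
  rw [lcR_apply, ← nf_eq, ev_nf, lcN_bv]

/-- right multiplication by a basis element of `W` -/
def RR (q : Wb) : R π →ₗ[K] R π := LinearMap.mulRight K (wq π q)

theorem RR_apply (q : Wb) (r : R π) : RR π q r = r * wq π q := rfl

/-- product of basis elements of `W`: target and coefficient -/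
def tt : Wb → Wb → Wb
  | .one, q => q
  | q, .one => q
  | _, _ => .pi

def ct : Wb → Wb → K
  | .one, _ => 1
  | _, .one => 1
  | .y s, .y t => if s = 0 ∧ t = 1 then 1 else if s = 1 ∧ t = 0 then π.p else 0
  | _, _ => 0

theorem wq_mul (q j : Wb) : wq π q * wq π j = ct π q j • wq π (tt q j) := by
  have hyp : ∀ s : Fin 2, X π (.y s) * (X π (.y 0) * X π (.y 1)) = 0 := by
    intro s
    rcases fin2 s with rfl | rfl
    · rw [← mul_assoc, ryy, zero_mul]
    · rw [← mul_assoc, ry10, smul_mul_assoc, mul_assoc, ryy, mul_zero, smul_zero]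
  have hybp : ∀ s : Fin 2, X π (.yb s) * (X π (.y 0) * X π (.y 1)) = 0 := by
    intro s
    rw [← mul_assoc, ryby, zero_mul]
  have hpy : ∀ s : Fin 2, X π (.y 0) * X π (.y 1) * X π (.y s) = 0 := by
    intro s
    rcases fin2 s with rfl | rfl
    · rw [mul_assoc, ry10, mul_smul_comm, ← mul_assoc, ryy, zero_mul, smul_zero]
    · rw [mul_assoc, ryy, mul_zero]
  have hpyb : ∀ s : Fin 2, X π (.y 0) * X π (.y 1) * X π (.yb s) = 0 := by
    intro s
    rw [mul_assoc, ryyb, mul_zero]
  cases q with
  | one => rw [wq_one, one_mul]; simp [ct, tt]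
  | y s =>
    cases j with
    | one => rw [wq_one, mul_one]; simp [ct, tt]
    | y t =>
      rw [wq_y, wq_y]
      rcases fin2 s with rfl | rfl <;> rcases fin2 t with rfl | rfl
      · rw [ryy]; simp [ct]
      · simp [ct, tt, wq_pi]
      · rw [ry10]; simp [ct, tt, wq_pi]
      · rw [ryy]; simp [ct]
    | yb t => rw [wq_y, wq_yb, ryyb]; simp [ct]
    | pi => rw [wq_y, wq_pi, hyp]; simp [ct]
  | yb s =>
    cases j with
    | one => rw [wq_one, mul_one]; simp [ct, tt]
    | y t => rw [wq_yb, wq_y, ryby]; simp [ct]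
    | yb t => rw [wq_yb, wq_yb, rybyb]; simp [ct]
    | pi => rw [wq_yb, wq_pi, hybp]; simp [ct]
  | pi =>
    cases j with
    | one => rw [wq_one, mul_one]; simp [ct, tt]
    | y t => rw [wq_pi, wq_y, hpy]; simp [ct]
    | yb t => rw [wq_pi, wq_yb, hpyb]; simp [ct]
    | pi => rw [wq_pi, ← mul_assoc, hpy]; simp [ct]

/-- rank in `W` -/
def rk : Wb → ℕ
  | .one => 0
  | .y _ => 1
  | .yb _ => 1
  | .pi => 2

/-- rank in `DW` -/
def rk' : Wb → ℕ
  | .one => 2
  | .y _ => 1
  | .yb _ => 1
  | .pi => 0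

theorem tabR (q j : Wb) (h : q ≠ .one) (hc : ct π q j ≠ 0) : rk j < rk (tt q j) := by
  cases q <;> cases j <;> simp_all [ct, tt, rk]

theorem tabM (q j : Wb) (h : q ≠ .one) (hc : cW π q j ≠ 0) : rk' j < rk' (tW q j) := by
  rcases q with _ | s | s | _ <;> rcases j with _ | t | t | _ <;>
    (try rcases fin2 s with rfl | rfl) <;> (try rcases fin2 t with rfl | rfl) <;>
    first
    | exact absurd rfl h
    | (exfalso; apply hc; simp [cW, dk, dt]; done)
    | simp [tW, dt, rk']

theorem tabD (q j : Wb) (hc : cW π q j ≠ 0) :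
    wC (tW q j).word + wC q.word = wC j.word := by
  rcases q with _ | s | s | _ <;> rcases j with _ | t | t | _ <;>
    (try rcases fin2 s with rfl | rfl) <;> (try rcases fin2 t with rfl | rfl) <;>
    first
    | (exfalso; apply hc; simp [cW, dk, dt]; done)
    | simp [tW, dt, wC, Wb.word, Gen.dC]

/-! ### the identities for `R''` -/

theorem lcR_psi (i j : Wb) (b : N1 K) :
    lcR π i (RR π j (psiR π b)) = if i = j then b else 0 := by
  have h : lcR π i ∘ₗ RR π j ∘ₗ psiR π = if i = j then LinearMap.id else 0 := by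
    refine Finsupp.lhom_ext' fun μ => LinearMap.ext_ring ?_
    show lcR π i (psiR π (Finsupp.single μ 1) * wq π j) = _
    rw [psiR_single, lcR_nf]
    by_cases hij : i = j
    · rw [if_pos hij.symm, if_pos hij]; rfl
    · rw [if_neg (Ne.symm hij), if_neg hij]; rfl
  have := LinearMap.congr_fun h b
  rw [show (lcR π i ∘ₗ RR π j ∘ₗ psiR π) b = lcR π i (RR π j (psiR π b)) from rfl] at this
  rw [this]
  split_ifs <;> rfl

theorem sumR (r : R π) : ∑ j, RR π j (psiR π (lcR π j r)) = r := by
  have h : ∑ j, RR π j ∘ₗ psiR π ∘ₗ lcR π j = LinearMap.id := by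
    apply nf_ext π
    intro i j k w q
    rw [LinearMap.sum_apply, Finset.sum_eq_single q]
    · show psiR π (lcR π q (nf1 π i j k w * wq π q)) * wq π q = _
      rw [lcR_nf, if_pos rfl, psiR_single]
      rfl
    · intro q' _ hq
      show psiR π (lcR π q' (nf1 π i j k w * wq π q)) * wq π q' = 0
      rw [lcR_nf, if_neg (Ne.symm hq), map_zero, zero_mul]
    · intro h
      exact absurd (Finset.mem_univ _) h
  have := LinearMap.congr_fun h r
  rwa [LinearMap.sum_apply] at this

theorem lcR_RR (i j : Wb) (hr : i = j ∨ rk i ≤ rk j) (r : R π) :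
    lcR π i (RR π j r) = if i = j then lcR π .one r else 0 := by
  have h : lcR π i ∘ₗ RR π j = if i = j then lcR π .one else 0 := by
    apply nf_ext π
    intro a b c w q
    show lcR π i (nf1 π a b c w * wq π q * wq π j) = _
    rw [mul_assoc, wq_mul, mul_smul_comm, map_smul, lcR_nf]
    by_cases hq : q = .one
    · subst hq
      have h1 : ct π .one j = 1 := by cases j <;> rfl
      have h2 : tt .one j = j := by cases j <;> rfl
      rw [h1, h2, one_smul]
      by_cases hij : i = j
      · rw [if_pos hij.symm, if_pos hij, lcR_nf, if_pos rfl]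
      · rw [if_neg (Ne.symm hij), if_neg hij]; rfl
    · have hz : ct π q j • (if tt q j = i then Finsupp.single (a, b, c, w) (1 : K) else 0) = 0 := by
        by_cases hc : ct π q j = 0
        · rw [hc, zero_smul]
        · rw [if_neg, smul_zero]
          intro he
          have := tabR π q j hq hc
          rw [he] at this
          rcases hr with rfl | hr
          · exact lt_irrefl _ this
          · omega
      rw [hz]
      by_cases hij : i = j
      · rw [if_pos hij, lcR_nf, if_neg hq]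
      · rw [if_neg hij]; rfl
  have := LinearMap.congr_fun h r
  rw [show (lcR π i ∘ₗ RR π j) r = lcR π i (RR π j r) from rfl] at this
  rw [this]
  split_ifs <;> rfl

theorem RR_D (q : Wb) (r : R π) : RR π q (Der580.D π r) = Der580.D π (RR π q r) := by
  rw [RR_apply, RR_apply, Der580.D_mul, D_wq, mul_zero, add_zero]

theorem RR_mul (q : Wb) (r s : R π) : RR π q (r * s) = r * RR π q s := by
  rw [RR_apply, RR_apply, mul_assoc]

/-! ### the identities for `M` -/

/-- coordinates of `M` -/
def lcM (q : Wb) : MM π →ₗ[K] N1 K := lcN K q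

theorem lcM_bv (q : Wb) (i j k : ℕ) (w : List E) (q' : Wb) :
    lcM π q (bv K i j k w q') = if q' = q then Finsupp.single (i, j, k, w) (1 : K) else 0 :=
  lcN_bv q i j k w q'

theorem oM_nf (i j k : ℕ) (w : List E) (q1 q : Wb) :
    oM π q (nf1 π i j k w * wq π q1) = (cW π q1 q • bv K i j k w (tW q1 q) : N K) := repM_nf π i j k w q1 q

theorem oM_nf1 (i j k : ℕ) (w : List E) (q : Wb) :
    oM π q (nf1 π i j k w) = (bv K i j k w q : N K) := repM_nf1 π i j k w q

theorem lcM_psi (i j : Wb) (b : N1 K) :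
    lcM π i (oM π j (psiR π b)) = if i = j then b else 0 := by
  have h : lcM π i ∘ₗ oM π j ∘ₗ psiR π = if i = j then LinearMap.id else 0 := by
    refine Finsupp.lhom_ext' fun μ => LinearMap.ext_ring ?_
    show lcM π i (oM π j (psiR π (Finsupp.single μ 1))) = _
    rw [psiR_single, oM_nf1, lcM_bv]
    by_cases hij : i = j
    · rw [if_pos hij.symm, if_pos hij]; rfl
    · rw [if_neg (Ne.symm hij), if_neg hij]; rfl
  have := LinearMap.congr_fun h b
  rw [show (lcM π i ∘ₗ oM π j ∘ₗ psiR π) b = lcM π i (oM π j (psiR π b)) from rfl] at this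
  rw [this]
  split_ifs <;> rfl

theorem sumM_bv (i j k : ℕ) (w : List E) (q : Wb) :
    ∑ j', oM π j' (psiR π (lcM π j' (bv K i j k w q))) = (bv K i j k w q : N K) := by
  refine (Finset.sum_eq_single q ?_ ?_).trans ?_
  · intro q' _ hq
    rw [lcM_bv, if_neg (Ne.symm hq), map_zero, map_zero]
  · intro h
    exact absurd (Finset.mem_univ _) h
  · rw [lcM_bv, if_pos rfl, psiR_single]
    exact oM_nf1 π i j k w q

theorem sumM (m : MM π) : ∑ j, oM π j (psiR π (lcM π j m)) = m := by
  let φ : MM π →ₗ[K] MM π := ∑ j, oM π j ∘ₗ psiR π ∘ₗ lcM π j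
  have hφ : ∀ x, φ x = ∑ j, oM π j (psiR π (lcM π j x)) := fun x => LinearMap.sum_apply _ _ _
  have h : (φ : N K →ₗ[K] N K) = LinearMap.id := by
    apply ext_bv
    intro i j k w q
    exact (hφ _).trans (sumM_bv π i j k w q)
  rw [← hφ]
  exact LinearMap.congr_fun h m

theorem lcM_oM (i j : Wb) (hr : i = j ∨ rk' i ≤ rk' j) (r : R π) :
    lcM π i (oM π j r) = if i = j then lcR π .one r else 0 := by
  have h : lcM π i ∘ₗ oM π j = if i = j then lcR π .one else 0 := by
    apply nf_ext π
    intro a b c w q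
    show lcM π i (oM π j (nf1 π a b c w * wq π q)) = _
    rw [oM_nf]
    have e1 : lcM π i (cW π q j • bv K a b c w (tW q j) : N K) =
        cW π q j • (if tW q j = i then Finsupp.single (a, b, c, w) (1 : K) else 0) := by
      rw [← lcM_bv π i a b c w (tW q j)]
      exact map_smul (lcM π i) _ _
    rw [e1]
    by_cases hq : q = .one
    · subst hq
      have h1 : cW π .one j = 1 := rfl
      have h2 : tW .one j = j := rfl
      rw [h1, h2, one_smul]
      by_cases hij : i = j
      · rw [if_pos hij.symm, if_pos hij, lcR_nf, if_pos rfl]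
      · rw [if_neg (Ne.symm hij), if_neg hij]; rfl
    · have hz : cW π q j • (if tW q j = i then Finsupp.single (a, b, c, w) (1 : K) else 0) = 0 := by
        by_cases hc : cW π q j = 0
        · rw [hc, zero_smul]
        · rw [if_neg, smul_zero]
          intro he
          have := tabM π q j hq hc
          rw [he] at this
          rcases hr with rfl | hr
          · exact lt_irrefl _ this
          · omega
      rw [hz]
      by_cases hij : i = j
      · rw [if_pos hij, lcR_nf, if_neg hq]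
      · rw [if_neg hij]; rfl
  have := LinearMap.congr_fun h r
  rw [show (lcM π i ∘ₗ oM π j) r = lcM π i (oM π j r) from rfl] at this
  rw [this]
  split_ifs <;> rfl

/-! ### degrees -/

theorem dCx_q (i j k : ℕ) (w : List E) (q : Wb) :
    dCx (i, j, k, w, q) = dCx (i, j, k, w, .one) + wC q.word := by
  simp [dCx, Wb.word, wC]

theorem psiR_mem {P A C : ℤ} {b : N1 K} (hb : b ∈ NZ K P A C) : psiR π b ∈ pcZ π P A C := by
  have h : NZ K P A C ≤ (pcZ π P A C).comap (psiR π) := by
    rw [NZ, Finsupp.supported_eq_span_single, Submodule.span_le]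
    rintro _ ⟨μ, ⟨h1, h2, h3⟩, rfl⟩
    show psiR π (Finsupp.single μ 1) ∈ pcZ π P A C
    rw [psiR_single, ← h2, ← h3, pcZ_nat, ← h1]
    exact nf_mem_pc π _
  exact h hb

theorem lcN_mem {P A C : ℤ} {A' C' : ℕ} (hA : (A' : ℤ) = A) (q : Wb)
    (hC : (C' : ℤ) = C + wC q.word) {n : N K} (hn : n ∈ NS K P A' C') : lcN K q n ∈ NZ K P A C := by
  have h : NS K P A' C' ≤ (NZ K P A C).comap (lcN K q) := by
    rw [NS, Finsupp.supported_eq_span_single, Submodule.span_le]
    rintro _ ⟨⟨i, j, k, w, q'⟩, ⟨h1, h2, h3⟩, rfl⟩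
    show lcN K q (bv K i j k w q') ∈ NZ K P A C
    rw [lcN_bv]
    split_ifs with h
    · subst h
      refine single_mem_NZ fun _ => ⟨h1, ?_, ?_⟩
      · rw [← hA, ← h2]; rfl
      · have := dCx_q i j k w q'
        rw [h3] at this
        push_cast [this] at hC
        show (dCx (i, j, k, w, .one) : ℤ) = C
        linarith
    · exact Submodule.zero_mem _
  exact h hn

theorem lcR_mem {P A C : ℤ} (q : Wb) {r : R π} (hr : r ∈ pcZ π P A C) :
    lcR π q r ∈ NZ K P A (C - wC q.word) := by
  rcases pcZ_cases π hr with rfl | ⟨A', C', rfl, rfl, h⟩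
  · rw [map_zero]; exact Submodule.zero_mem _
  · exact lcN_mem rfl q (by ring) ((mem_pc_iff π).1 h)

theorem wq_mem (q : Wb) : wq π q ∈ pcZ π 0 0 (wC q.word) := by
  have h := nf_mem_pc π (0, 0, 0, [], q)
  have e : nf π (0, 0, 0, [], q) = wq π q := by simp [nf, we_nil]
  rw [e] at h
  have e1 : dPx (0, 0, 0, ([] : List E), q) = 0 := by simp [dPx]
  have e2 : dAx (0, 0, 0, ([] : List E), q) = 0 := by simp [dAx]
  have e3 : dCx (0, 0, 0, ([] : List E), q) = wC q.word := by simp [dCx]
  rw [e1, e2, e3] at h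
  rw [show (0 : ℤ) = ((0 : ℕ) : ℤ) from rfl, pcZ_nat]
  exact h

theorem RR_mem {P A C : ℤ} (q : Wb) {r : R π} (hr : r ∈ pcZ π P A C) :
    RR π q r ∈ pcZ π P A (C + wC q.word) := by
  have := pcZ_mul π hr (wq_mem π q)
  rwa [add_zero, add_zero] at this

theorem oM_mem (s : ℕ) {P A C : ℤ} (q : Wb) {r : R π} (hr : r ∈ pcZ π P A C) :
    oM π q r ∈ pcM π s (P - 1) A (C + (s - wC q.word)) := by
  refine mem_pcM π s q (C' := C) ?_ (by ring)
  rwa [sub_add_cancel]

theorem lcM_mem (s : ℕ) {P A C : ℤ} (i : Wb) {m : MM π} (hm : m ∈ pcM π s P A C) :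
    lcM π i m ∈ NZ K (P + 1) A (C - (s - wC i.word)) := by
  have h : pcM π s P A C ≤ (NZ K (P + 1) A (C - (s - wC i.word))).comap (lcM π i) := by
    apply pcM_ind
    intro q t ht
    show lcM π i (oM π q t) ∈ NZ K (P + 1) A (C - (s - wC i.word))
    rcases pcZ_cases π ht with rfl | ⟨A', C', rfl, hC', h⟩
    · rw [map_zero, map_zero]; exact Submodule.zero_mem _
    · have h0 := (mem_pc_iff π).1 h
      have e : t = Psi π (ev π t) := (Psi_ev π t).symm
      rw [e]
      have h1 : NS K (P + 1) A' C' ≤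
          (NZ K (P + 1) (A' : ℤ) (C - (s - wC i.word))).comap (lcM π i ∘ₗ oM π q ∘ₗ Psi π) := by
        rw [NS, Finsupp.supported_eq_span_single, Submodule.span_le]
        rintro _ ⟨⟨a, b, c, w, q1⟩, ⟨h1, h2, h3⟩, rfl⟩
        show lcM π i (oM π q (Psi π (bv K a b c w q1))) ∈
          NZ K (P + 1) (A' : ℤ) (C - (s - wC i.word))
        rw [Psi_bv, nf_eq, oM_nf]
        have e1 : lcM π i (cW π q1 q • bv K a b c w (tW q1 q) : N K) =
            cW π q1 q • (if tW q1 q = i then Finsupp.single (a, b, c, w) (1 : K) else 0) := by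
          rw [← lcM_bv π i a b c w (tW q1 q)]
          exact map_smul (lcM π i) _ _
        rw [e1]
        by_cases hc : cW π q1 q = 0
        · rw [hc, zero_smul]; exact Submodule.zero_mem _
        · refine Submodule.smul_mem _ _ ?_
          split_ifs with hi
          · have h4 := tabD π q1 q hc
            rw [hi] at h4
            have h5 := dCx_q a b c w q1
            rw [h3] at h5
            refine single_mem_NZ fun _ => ⟨h1, ?_, ?_⟩
            · rw [← h2]; rfl
            · show (dCx (a, b, c, w, .one) : ℤ) = _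
              push_cast [h5, ← h4] at hC'
              linarith
          · exact Submodule.zero_mem _
      exact h1 h0
  exact h hm

end Crest.Agent.R186.Ent925
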