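import Crest.Agent.R186.ColB_921
import Crest.Agent.R186.ColM_790
import Crest.Agent.R186.Ent_925

/-!
Row 186 (A), leaf V3 (helper925): the layers `c1`, `c2` of `R''` over itself, the right Koszul column
`kz`, and the instance `dat π s hs : Dat (RB π) (MB π s)` of helper921's `Dat`
(`m1 m2 m3` = helper790's `copM`).
-/

set_option autoImplicit false
set_option linter.style.haveILetI false
set_option linter.unusedSectionVars false
set_option maxHeartbeats 400000

noncomputable section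

open MulOpposite

namespace Crest.Agent.R186.ColE925

open DefsQ830 PBW128 Hat827 Hat827.DGA Frame515 Win810 TR810 Col921 ColB790 ColM790 SM890 Ent925
open C2b362 (J)
open C2b44 (kill)

variable {K : Type} [Field K] (π : Par K)

/-- the filtration of `R''` -/
def FR (n : ℕ) : Submodule K (R π) where
  carrier := {r | ∀ q, rk q < n → lcR π q r = 0}
  zero_mem' := fun q _ => map_zero (lcR π q)
  add_mem' := by
    intro a b ha hb q hq
    rw [map_add, ha q hq, hb q hq, add_zero]
  smul_mem' := by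
    intro r a ha q hq
    rw [map_smul, ha q hq, smul_zero]

theorem mem_FR {n : ℕ} {r : R π} : r ∈ FR π n ↔ ∀ q, rk q < n → lcR π q r = 0 := Iff.rfl

theorem psi_lc_one (r : R π) : psiR π (lcR π .one r) = kill π r := by
  have h : psiR π ∘ₗ lcR π .one = (kill π).toLinearMap := by
    apply nf_ext π
    intro i j k w q
    have h2 := WLF296.kill_nf' π i j k w q
    rw [SM890.nf_eq] at h2
    refine Eq.trans ?_ h2.symm
    change psiR π (lcR π .one (nf1 π i j k w * wq π q)) = _
    rw [lcR_nf]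
    by_cases hq : q = .one
    · rw [if_pos hq, if_pos hq, psiR_single, hq, wq_one, mul_one]
    · rw [if_neg hq, if_neg hq, map_zero]
  exact LinearMap.congr_fun h r

theorem psi_inj {b : N1 K} (h : psiR π b = 0) : b = 0 := by
  have h2 := lcR_psi π .one .one b
  rw [h, map_zero, map_zero, if_pos rfl] at h2
  exact h2.symm

theorem mem_J_iff {r : R π} : r ∈ J π ↔ lcR π .one r = 0 := by
  rw [KOS296.mem_J_iff_kill, ← psi_lc_one]
  exact ⟨fun h => psi_inj π h, fun h => by rw [h, map_zero]⟩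

theorem rk_zero {q : Wb} (h : rk q < 1) : q = .one := by
  cases q <;> simp [rk] at h ⊢

theorem FR_one : FR π 1 = J π := by
  ext r
  rw [mem_J_iff, mem_FR]
  constructor
  · intro h
    exact h .one (by simp [rk])
  · intro h q hq
    rw [rk_zero hq]
    exact h

theorem FR_zero : FR π 0 = ⊤ := by
  rw [eq_top_iff]
  intro r _ q hq
  omega

theorem FR_three : FR π 3 = ⊥ := by
  rw [eq_bot_iff]
  intro r hr
  rw [Submodule.mem_bot, ← sumR π r]
  refine Finset.sum_eq_zero fun q _ => ?_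
  rw [hr q (by cases q <;> simp [rk]), map_zero, map_zero]

theorem FR_anti {n m : ℕ} (h : n ≤ m) : FR π m ≤ FR π n := fun _ hx q hq => hx q (lt_of_lt_of_le hq h)

theorem RR_FR {q : Wb} {n : ℕ} (h : n ≤ rk q) (r : R π) : RR π q r ∈ FR π n := by
  intro q' hq'
  rw [lcR_RR π q' q (Or.inr (by omega)), if_neg]
  rintro rfl
  omega

theorem FR_lin {n : ℕ} (T : R π →ₗ[K] R π) (hT : ∀ q z, T (RR π q z) = RR π q (T z)) {r : R π}
    (hr : r ∈ FR π n) : T r ∈ FR π n := by
  have e : T r = ∑ q, RR π q (T (psiR π (lcR π q r))) := by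
    conv_lhs => rw [← sumR π r]
    rw [map_sum]
    exact Finset.sum_congr rfl fun q _ => hT q _
  rw [e]
  refine Submodule.sum_mem _ fun q _ => ?_
  by_cases hq : rk q < n
  · rw [hr q hq, map_zero, map_zero, map_zero]
    exact Submodule.zero_mem _
  · exact RR_FR π (by omega) _

theorem stR (n : ℕ) : Stab (RB π) (FR π n) where
  smul a b hb := FR_lin π (LinearMap.mulLeft K (a : R π))
    (fun q z => (RR_mul π q a z).symm) (r := b) hb
  d {b} hb := FR_lin π (Der580.D π) (fun q z => (RR_D π q z).symm) (r := b) hb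

/-- right multiplication by a basis element of `W` -/
def uR (q : Wb) : LH (RB π) (RB π) 0 (wC q.word : ℤ) where
  f := (RR π q : R π →ₗ[K] R π)
  smul a b := RR_mul π q a b
  comm b := (RR_D π q b).symm
  mem {P A C b} hb := by
    have h := RR_mem π q (P := P) (A := A) (C := C) (r := b) hb
    rw [← add_zero P] at h
    exact h

theorem copR_gen (n : ℕ) {P A C : ℤ} {x : R π} (hx : x ∈ FR π n) (hxP : x ∈ pcZ π P A C) :
    ∃ z : {q : Wb // rk q = n} → R π, (∀ q, z q ∈ pcZ π (P - 0) A (C - (wC q.1.word : ℤ))) ∧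
      x - ∑ q, RR π q.1 (z q) ∈ FR π (n + 1) := by
  refine ⟨fun q => psiR π (lcR π q.1 x), fun q => ?_, fun q' hq' => ?_⟩
  · rw [sub_zero]
    exact psiR_mem π (lcR_mem π q.1 hxP)
  · rw [map_sub, map_sum]
    rcases Nat.lt_or_ge (rk q') n with h1 | h1
    · rw [hx q' h1, Finset.sum_eq_zero, sub_zero]
      intro q _
      rw [lcR_psi, if_neg]
      intro he
      rw [he, q.2] at h1
      exact lt_irrefl _ h1
    · have h2 : rk q' = n := by omega
      rw [Finset.sum_eq_single (⟨q', h2⟩ : {q : Wb // rk q = n})]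
      · rw [lcR_psi, if_pos rfl, sub_self]
      · intro q _ hq
        rw [lcR_psi, if_neg]
        intro he
        exact hq (Subtype.ext he.symm)
      · intro hh
        exact absurd (Finset.mem_univ _) hh

theorem copR_uniq (n : ℕ) (z : {q : Wb // rk q = n} → R π)
    (hz : ∑ q, RR π q.1 (z q) ∈ FR π (n + 1)) (q : {q : Wb // rk q = n}) : z q ∈ J π := by
  refine (mem_J_iff π).2 ?_
  have h := hz q.1 (by rw [q.2]; omega)
  rw [map_sum, Finset.sum_eq_single q] at h
  · rw [lcR_RR π q.1 q.1 (Or.inl rfl), if_pos rfl] at h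
    exact h
  · intro k _ hk
    rw [lcR_RR π q.1 k.1 (Or.inr (by rw [q.2, k.2])), if_neg]
    intro he
    exact hk (Subtype.ext he.symm)
  · intro hh
    exact absurd (Finset.mem_univ _) hh

theorem RR_J {q : Wb} {n : ℕ} (hq : rk q = n) {z : R π} (hz : z ∈ J π) :
    RR π q z ∈ FR π (n + 1) := by
  intro q' hq'
  have h := (mem_J_iff π).1 hz
  rw [lcR_RR π q' q (Or.inr (by rw [hq]; omega)), h, ite_self]

/-- **the layers of `R''` over itself** -/
def copR (n : ℕ) : Cop (RB π) (J π) (RB π) (FR π n) (FR π (n + 1)) 0 where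
  κ := {q : Wb // rk q = n}
  uC q := (wC q.1.word : ℤ)
  u q := uR π q.1
  st := stR π (n + 1)
  u_F q z := RR_FR π (le_of_eq q.2.symm) z
  u_J q z hz := RR_J π q.2 hz
  gen {P A C x} hx hxP := copR_gen π n (P := P) (A := A) (C := C) (x := x) hx hxP
  uniq z hz q := copR_uniq π n z hz q

/-! ### the right Koszul column -/

theorem D_x (j : Fin 2) : Der580.D π (X π (.x j)) = 0 := by
  rw [Der580.D_X]
  simp [dGen]

theorem x_mem (j : Fin 2) : X π (.x j) ∈ pcZ π 1 0 0 := by
  have h := X_mem_pc π (.x j)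
  rw [← pcZ_nat] at h
  exact h

theorem x_comm (j : Fin 2) (b : R π) :
    Der580.D π (b * X π (.x j)) = Der580.D π b * X π (.x j) := by
  rw [Der580.D_mul, D_x, mul_zero, add_zero]

/-- right multiplication by `x_j` -/
def xR (j : Fin 2) : LH (RB π) (RB π) 1 0 where
  f := (LinearMap.mulRight K (X π (.x j)) : R π →ₗ[K] R π)
  smul a b := mul_assoc (G := R π) a b (X π (.x j))
  comm b := x_comm π j b
  mem {P A C b} hb := by
    have h := pcZ_mul π (P := P) (A := A) (C := C) (a := b) hb (x_mem π j)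
    rw [add_zero A] at h
    exact h

theorem xR_J (j : Fin 2) {z : R π} (hz : z ∈ J π) : z * X π (.x j) ∈ J π := by
  rw [KOS296.mem_J_iff_kill] at hz ⊢
  rw [map_mul, hz, zero_mul]

theorem kz_xk (z : R π) :
    z * X π (.x 1) * X π (.x 0) + z * X π (.x 0) * X π (.x 1) ∈ J π := by
  rw [mul_assoc, mul_assoc, ← rxx, Der580.add_self]
  exact Submodule.zero_mem _

theorem kz_gen {P A C : ℤ} {y : R π} (hP : 1 ≤ P) (hy : y ∈ pcZ π P A C) :
    ∃ z : Fin 2 → R π, (∀ j, z j ∈ pcZ π (P - 1) A C) ∧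
      y - (z 0 * X π (.x 0) + z 1 * X π (.x 1)) ∈ J π := by
  rw [KOS296.pcZ_eq_pz] at hy
  obtain ⟨a, ha, b, hb, h⟩ := KOS296.xr_surZ π hP hy
  rw [← KOS296.pcZ_eq_pz] at ha hb
  refine ⟨![a, b], ?_, ?_⟩
  · intro j
    have hj : j = 0 ∨ j = 1 := by omega
    rcases hj with rfl | rfl
    · exact ha
    · exact hb
  · change y - (a * X π (.x 0) + b * X π (.x 1)) ∈ J π
    rw [← h, sub_self]
    exact Submodule.zero_mem _

theorem kz_ker {P A C : ℤ} (z : Fin 2 → R π) (hz : ∀ j, z j ∈ pcZ π P A C)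
    (h : z 0 * X π (.x 0) + z 1 * X π (.x 1) ∈ J π) :
    ∃ s ∈ pcZ π (P - 1) A C, z 0 - s * X π (.x 1) ∈ J π ∧ z 1 - s * X π (.x 0) ∈ J π := by
  have e : z 1 * X π (.x 1) - z 0 * X π (.x 0) = z 0 * X π (.x 0) + z 1 * X π (.x 1) := by
    rw [sub_eq_add_neg, neg_eq_of_add_eq_zero_left (Der580.add_self π _), add_comm]
  rw [← e] at h
  have hz1 := hz 1
  rw [KOS296.pcZ_eq_pz] at hz1
  obtain ⟨c, hc, h1, h2⟩ := KOS296.jr_ker π hz1 h
  rw [← KOS296.pcZ_eq_pz] at hc
  exact ⟨c, hc, h2, h1⟩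

/-- **the right Koszul column of `R'' / J`** -/
def kz : Kz (RB π) (J π) where
  x j := xR π j
  kk j := xR π (1 - j)
  st := by
    have h := stR π 1
    rw [FR_one] at h
    exact h
  x_J j z hz := xR_J π j hz
  k_J j z hz := xR_J π (1 - j) hz
  xk z := by
    rw [Fin.sum_univ_two]
    exact kz_xk π z
  gen {P A C y} hP hy := by
    obtain ⟨z, h1, h2⟩ := kz_gen π (P := P) (A := A) (C := C) (y := y) hP hy
    refine ⟨z, h1, ?_⟩
    rw [Fin.sum_univ_two]
    exact h2
  ker {P A C} z hz h := by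
    rw [Fin.sum_univ_two] at h
    obtain ⟨c, hc, h1, h2⟩ := kz_ker π (P := P) (A := A) (C := C) z hz h
    refine ⟨c, hc, fun j => ?_⟩
    have hj : j = 0 ∨ j = 1 := by omega
    rcases hj with rfl | rfl
    · exact h1
    · exact h2
  inj {s} hs := KOS296.jr_inj π 1 (r := s) hs

/-! ### the data -/

/-- the layer `J / F1` -/
def c1R : Cop (RB π) (J π) (RB π) (J π) (FR π 2) 0 where
  κ := {q : Wb // rk q = 1}
  uC q := (wC q.1.word : ℤ)
  u q := uR π q.1
  st := stR π 2
  u_F q z := by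
    have h := RR_FR π (q := q.1) (n := 1) (le_of_eq q.2.symm) z
    rw [FR_one] at h
    exact h
  u_J q z hz := RR_J π q.2 hz
  gen {P A C x} hx hxP := copR_gen π 1 (P := P) (A := A) (C := C) (x := x)
    (by rw [FR_one]; exact hx) hxP
  uniq z hz q := copR_uniq π 1 z hz q

/-- **`Dat` of `R''` and `M`** -/
def dat (s : ℕ) : Dat (RB π) (MB π s) where
  neg {P A C} hC := pcZ_neg π (Or.inr hC)
  J := J π
  F1 := FR π 2
  F2 := FR π 3
  hJ := by
    rw [← FR_one]
    exact FR_anti π (by omega)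
  hF2 := FR_three π
  c1 := c1R π
  c2 := copR π 2
  n1 k := Int.natCast_nonneg _
  n2 k := Int.natCast_nonneg _
  kz := kz π
  G0 := FM π 3
  G1 := FM π 2
  G2 := FM π 1
  G3 := FM π 0
  hG0 := FM_three π
  hG3 := FM_zero π
  g1 := FM_mono π (by omega)
  g2 := FM_mono π (by omega)
  m1 := copM π s 2
  m2 := copM π s 1
  m3 := copM π s 0

end Crest.Agent.R186.ColE925
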