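import Crest.Agent.R186.WinR_810

/-!
# Row 186, half (A) (helper701): facts about the window module `V_{-1}`

`VM = (VR π (-1)).VM`: entries at `(0, b)` vanish, entries at `(1, b)` are constants, the letter `h`
carries the generator at `(1, 0)` to the generator at `(1, b)`.
`end_scalar` : every `K`-linear endomorphism commuting with the window algebra is a scalar.
-/

set_option autoImplicit false

noncomputable section

namespace Crest.Agent.R186.VEnd701

open Crest.Agent.R186.DefsQ830
open Crest.Agent.R186.Win810 Crest.Agent.R186.VOp220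

variable {K : Type} [Field K] (π : Par K)

/-- the underlying space of `V_{-1}` in the window -/
abbrev VM : Type := (VR π (-1)).VM

/-- vertices -/
def ob (i : Fin 2) (b : Fin 4) : (WR π).Ob := ((i, b) : DefsQ830.Ob)

theorem ob_inj {i i' : Fin 2} {b b' : Fin 4} (h : ob π i b = ob π i' b') : i = i' ∧ b = b' :=
  Prod.mk.inj (h : ((i, b) : DefsQ830.Ob) = (i', b'))

theorem ob_cases (j : (WR π).Ob) : (∃ b, j = ob π 0 b) ∨ ∃ b, j = ob π 1 b := by
  obtain ⟨a, b⟩ : DefsQ830.Ob := j
  have ha : a = 0 ∨ a = 1 := by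
    fin_cases a
    · exact Or.inl rfl
    · exact Or.inr rfl
  rcases ha with rfl | rfl
  · exact Or.inl ⟨b, rfl⟩
  · exact Or.inr ⟨b, rfl⟩

theorem h_pow_mem (b : ℕ) : (X π .h) ^ b ∈ pcZ π 0 b 0 := by
  induction b with
  | zero =>
    rw [pow_zero]
    exact pcZ_one π
  | succ n ih =>
    rw [pow_succ]
    have h1 : X π .h ∈ pcZ π 0 1 0 := by
      have := PBW128.X_mem_pc π .h
      rw [← pcZ_nat] at this
      exact this
    have := pcZ_mul π ih h1
    rw [show (0 : ℤ) + 0 = 0 from rfl] at this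
    rw [Nat.cast_add, Nat.cast_one]
    exact this

/-- the element `h^(b - b')` from `(i, b')` to `(i, b)` -/
theorem h_pow_E (i : Fin 2) {b b' : Fin 4} (h : b' ≤ b) :
    (X π .h) ^ (b.val - b'.val) ∈ (WR π).E (ob π i b) (ob π i b') := by
  refine WD.q_le (w := WR π) _ _ 0 ?_
  change (X π .h) ^ (b.val - b'.val) ∈ pcZ π ((i.val : ℤ) - (i.val : ℤ))
    ((b.val : ℤ) - (b'.val : ℤ)) 0
  have := h_pow_mem π (b.val - b'.val)
  rw [sub_self]
  rwa [Nat.cast_sub (by exact_mod_cast h)] at this

/-- the window element `h^(b - b')` from `(i, b')` to `(i, b)` -/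
def hW (i : Fin 2) {b b' : Fin 4} (h : b' ≤ b) : (WR π).Win :=
  WD.ws (w := WR π) (ob π i b) (ob π i b') ((X π .h) ^ (b.val - b'.val)) (h_pow_E π i h)

variable {π}

/-- the entry of a vector -/
def en (v : VM π) (i : Fin 2) (b : Fin 4) : Pol K := (v (ob π i b)).1

theorem vext' {u v : VM π} (h : ∀ i b, en u i b = en v i b) : u = v := by
  apply (VR π (-1)).vext
  intro j
  rcases ob_cases π j with ⟨b, rfl⟩ | ⟨b, rfl⟩
  · exact h 0 b
  · exact h 1 b

theorem en_add (u v : VM π) (i : Fin 2) (b : Fin 4) : en (u + v) i b = en u i b + en v i b := rfl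
theorem en_smul (r : K) (v : VM π) (i : Fin 2) (b : Fin 4) : en (r • v) i b = r • en v i b := rfl
theorem en_zero (i : Fin 2) (b : Fin 4) : en (0 : VM π) i b = 0 := rfl

theorem en_sum {κ : Type} (s : Finset κ) (f : κ → VM π) (i : Fin 2) (b : Fin 4) :
    en (∑ k ∈ s, f k) i b = ∑ k ∈ s, en (f k) i b := by
  classical
  induction s using Finset.induction_on with
  | empty => rfl
  | insert a s ha ih => rw [Finset.sum_insert ha, Finset.sum_insert ha, ← ih, en_add]

/-- **entries at `(0, b)` vanish** -/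
theorem v0 (v : VM π) (b : Fin 4) : en v 0 b = 0 := by
  have h := (v (ob π 0 b)).2
  change en v 0 b ∈ hom K (-1 + (((0 : Fin 2).val : ℕ) : ℤ)) at h
  rw [hom_neg (by simp)] at h
  exact (Submodule.mem_bot K).1 h

/-- constants -/
theorem hom_zero {p : Pol K} (hp : p ∈ hom K (0 : ℤ)) : p = p (0, 0) • mon K 0 0 := by
  have h : hom K (0 : ℤ) ≤ Submodule.span K {mon K 0 0} := by
    refine hom_le fun a b hab => ?_
    have ha : a = 0 := by omega
    have hb : b = 0 := by omega
    subst ha hb
    exact Submodule.mem_span_singleton_self _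
  obtain ⟨c, rfl⟩ := Submodule.mem_span_singleton.1 (h hp)
  congr 1
  simp [mon]

theorem v1_mem (v : VM π) (b : Fin 4) : en v 1 b ∈ hom K (0 : ℤ) := by
  have h := (v (ob π 1 b)).2
  change en v 1 b ∈ hom K (-1 + (((1 : Fin 2).val : ℕ) : ℤ)) at h
  simpa using h

/-- coordinates -/
def co (b : Fin 4) : VM π →ₗ[K] K where
  toFun v := en v 1 b (0, 0)
  map_add' _ _ := rfl
  map_smul' _ _ := rfl

/-- **entries at `(1, b)` are constants** -/
theorem v1 (v : VM π) (b : Fin 4) : en v 1 b = co b v • mon K 0 0 := hom_zero (v1_mem v b)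

theorem mon_W (b : Fin 4) : mon K 0 0 ∈ (VR π (-1)).W (ob π 1 b) := by
  change mon K 0 0 ∈ hom K (-1 + (((1 : Fin 2).val : ℕ) : ℤ))
  exact mon_mem (by simp)

variable (π) in
/-- the generator at `(1, b)` -/
def u (b : Fin 4) : VM π := (VR π (-1)).mkV (ob π 1 b) (mon K 0 0) (mon_W b)

theorem en_u (b : Fin 4) (i : Fin 2) (b' : Fin 4) :
    en (u π b) i b' = if ob π 1 b = ob π i b' then mon K 0 0 else 0 := rfl

theorem en_u1 (b b' : Fin 4) : en (u π b) 1 b' = if b = b' then mon K 0 0 else 0 := by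
  rw [en_u]
  by_cases h : b = b'
  · subst h
    rw [if_pos rfl, if_pos rfl]
  · rw [if_neg h, if_neg fun h' => h (ob_inj π h').2]

theorem co_u (b b' : Fin 4) : co b' (u π b) = if b = b' then (1 : K) else 0 := by
  change en (u π b) 1 b' (0, 0) = _
  rw [en_u1]
  split_ifs
  · simp [mon]
  · rfl

theorem eq_sum (v : VM π) : v = ∑ b : Fin 4, co b v • u π b := by
  apply vext'
  intro i b
  rw [en_sum]
  simp only [en_smul]
  rcases (show i = 0 ∨ i = 1 by omega) with rfl | rfl
  · rw [v0]
    symm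
    exact Finset.sum_eq_zero fun b' _ => by rw [v0, smul_zero]
  · rw [v1 v b, Finset.sum_eq_single b]
    · rw [en_u1, if_pos rfl]
    · intro b' _ hb'
      rw [en_u1, if_neg hb', smul_zero]
    · intro h
      exact absurd (Finset.mem_univ _) h

theorem co_ext {u v : VM π} (h : ∀ b, co b u = co b v) : u = v := by
  rw [eq_sum u, eq_sum v]
  exact Finset.sum_congr rfl fun b _ => by rw [h]

theorem e_u (b : Fin 4) : (WD.e (w := WR π) (ob π 1 b)) • u π b = u π b := by
  refine ((VR π (-1)).e_smul_iff _ _).2 fun j hj => ?_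
  exact if_neg hj

/-- an element at `(1, b)` is a multiple of the generator -/
theorem of_e {v : VM π} {b : Fin 4}
    (h : (WD.e (w := WR π) (ob π 1 b)) • v = v) : v = co b v • u π b := by
  have h1 := ((VR π (-1)).e_smul_iff _ _).1 h
  apply co_ext
  intro b'
  rw [map_smul, co_u]
  by_cases hb : b = b'
  · subst hb
    rw [if_pos rfl, smul_eq_mul, mul_one]
  · rw [if_neg hb, smul_zero]
    have h2 : en v 1 b' = 0 := h1 (ob π 1 b') (fun h0 => hb (ob_inj π h0).2)
    change en v 1 b' (0, 0) = 0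
    rw [h2]
    rfl

/-- an element at `(0, b)` vanishes -/
theorem of_e0 {v : VM π} {b : Fin 4}
    (h : (WD.e (w := WR π) (ob π 0 b)) • v = v) : v = 0 := by
  have h1 := ((VR π (-1)).e_smul_iff _ _).1 h
  apply co_ext
  intro b'
  have h2 : en v 1 b' = 0 := h1 (ob π 1 b') (fun h0 => absurd (ob_inj π h0).1 (by decide))
  change en v 1 b' (0, 0) = 0
  rw [h2]
  rfl

theorem rep_h_pow (n : ℕ) : (VR π (-1)).rho ((X π .h) ^ n) = 1 := by
  change Vmod220.rep π ((X π .h) ^ n) = 1
  rw [map_pow, Vmod220.rep_h, one_pow]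

/-- `h` on a general element -/
theorem hW_smul {b b' : Fin 4} (h : b' ≤ b) (v : VM π) : hW π 1 h • v = co b' v • u π b := by
  apply (VR π (-1)).vext
  intro l
  refine ((VR π (-1)).ws_smul _ _ l).trans ?_
  change (if ob π 1 b = l then ((VR π (-1)).rho ((X π .h) ^ (b.val - b'.val))) (en v 1 b') else 0)
    = co b' v • (if ob π 1 b = l then mon K 0 0 else 0)
  rw [rep_h_pow]
  by_cases h1 : ob π 1 b = l
  · rw [if_pos h1, if_pos h1]
    exact v1 v b'
  · rw [if_neg h1, if_neg h1]
    exact (smul_zero _).symm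

/-- **`h` carries generators to generators** -/
theorem hW_u {b b' : Fin 4} (h : b' ≤ b) : hW π 1 h • u π b' = u π b := by
  rw [hW_smul, co_u, if_pos rfl, one_smul]

/-- **endomorphisms of `V_{-1}` are scalars** -/
theorem end_scalar (f : VM π →ₗ[K] VM π)
    (hf : ∀ (a : (WR π).Win) (v : VM π), f (a • v) = a • f v) : ∃ r : K, ∀ v, f v = r • v := by
  refine ⟨co 0 (f (u π 0)), fun v => ?_⟩
  have hu : ∀ b : Fin 4, f (u π b) = co 0 (f (u π 0)) • u π b := by
    intro b
    have hb : (0 : Fin 4) ≤ b := Fin.zero_le b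
    conv_lhs => rw [← hW_u (π := π) hb, hf, hW_smul hb]
  conv_lhs => rw [eq_sum v]
  conv_rhs => rw [eq_sum v]
  rw [map_sum, Finset.smul_sum]
  refine Finset.sum_congr rfl fun b _ => ?_
  rw [map_smul, hu, smul_comm]

/-- the same along any surjection `q` onto the window algebra -/
theorem end_scalar' {C : Type} (q : C → (WR π).Win) (hq : Function.Surjective q)
    (f : VM π →ₗ[K] VM π) (hf : ∀ (a : C) (v : VM π), f (q a • v) = q a • f v) :
    ∃ r : K, ∀ v, f v = r • v :=
  end_scalar f fun a v => by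
    obtain ⟨a, rfl⟩ := hq a
    exact hf a v

theorem u_ne (b : Fin 4) : u π b ≠ 0 := by
  intro h
  have h1 : co b (u π b) = 0 := by rw [h, map_zero]
  rw [co_u, if_pos rfl] at h1
  exact one_ne_zero h1

instance : Nontrivial (VM π) := ⟨u π 0, 0, u_ne 0⟩

/-- coordinates as an equivalence -/
def coE : VM π ≃ₗ[K] (Fin 4 → K) where
  toFun v b := co b v
  map_add' _ _ := rfl
  map_smul' _ _ := rfl
  invFun c := ∑ b : Fin 4, c b • u π b
  left_inv v := (eq_sum v).symm
  right_inv c := by
    funext b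
    change co b (∑ b : Fin 4, c b • u π b) = c b
    rw [map_sum]
    simp only [map_smul, co_u]
    rw [Finset.sum_eq_single b]
    · rw [if_pos rfl, smul_eq_mul, mul_one]
    · intro b' _ hb'
      rw [if_neg hb', smul_zero]
    · intro h
      exact absurd (Finset.mem_univ _) h

/-- the letter `t` acts as `g⁻²` times the unit -/
theorem rep_t (v : VM π) (b : Fin 4) :
    (VR π (-1)).rho (mk π (tF π)) (en v 1 b) = (π.g⁻¹) ^ 2 • en v 1 b := by
  have h := Vmod220.rep_t (π := π) (m := 0) (v := en v 1 b) (by simpa using v1_mem v b)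
  exact h

end Crest.Agent.R186.VEnd701
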