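import Crest.Agent.R186.ColBC_790
import Crest.Agent.R186.EndV_448
import Crest.Agent.R186.VEnd_701

/-!
Row 186 (A), leaf V3 (helper790): the bases of the column induction for `Y → D V_{-1}`.

* `hC π : Ce (WR π)` : the central cycle `h`;
* `g0`, `g1` : columns of the right module `D V_{-1} = DR (V2 π)`;
* `base_r`, `base_c` : the columns `(0, b)` of `R''` and of the cone of `h` at `(0, b)`, `(1, b)`.
-/

set_option autoImplicit false
set_option linter.style.haveILetI false
set_option linter.unusedSectionVars false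

open MulOpposite

namespace Crest.Agent.R186.ColG790

open Hat827 Hat827.DGA Frame515 Res255 Win810 TR810 Col921 ColS790 ColB790 ColBC790
open DefsQ830 DefsQ830.Gen PBW128 FinV988 EndV448 VEnd701 VOp220

variable {K : Type} [Field K] (π : Par K)

theorem h_pcZ : X π .h ∈ pcZ π 0 1 0 := by
  have := X_mem_pc π .h
  rw [← pcZ_nat] at this
  exact this

theorem D_h : Der580.D π (X π .h) = 0 := by
  rw [Der580.D_X]
  simp [dGen]

/-- **the central cycle `h`** -/
noncomputable def hC : Ce (WR π) where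
  t := X π .h
  mem := h_pcZ π
  D0 := D_h π
  comm s := Der580.h_comm π s

theorem hC_t : (hC π).t = X π .h := rfl

/-- a matrix unit acting as the identity of the constants -/
theorem ws_V {b b' : Fin 4} (a : (WR π).S) (ha : a ∈ (WR π).E (ob π 1 b) (ob π 1 b'))
    (h1 : (VR π (-1)).rho a = 1) (v : VM π) :
    (WD.ws (w := WR π) (ob π 1 b) (ob π 1 b') a ha) • v = co b' v • u π b := by
  apply (VR π (-1)).vext
  intro l
  refine ((VR π (-1)).ws_smul _ _ l).trans ?_
  change (if ob π 1 b = l then ((VR π (-1)).rho a) (en v 1 b') else 0)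
    = co b' v • (if ob π 1 b = l then mon K 0 0 else 0)
  rw [h1]
  by_cases h2 : ob π 1 b = l
  · rw [if_pos h2, if_pos h2]
    exact v1 v b'
  · rw [if_neg h2, if_neg h2]
    exact (smul_zero _).symm

/-- a matrix unit starting at `(0, b')` acts by zero -/
theorem ws_V0 {o : (WR π).Ob} {b' : Fin 4} (a : (WR π).S) (ha : a ∈ (WR π).E o (ob π 0 b'))
    (v : VM π) : (WD.ws (w := WR π) o (ob π 0 b') a ha) • v = 0 := by
  apply (VR π (-1)).vext
  intro l
  refine ((VR π (-1)).ws_smul _ _ l).trans ?_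
  change (if o = l then ((VR π (-1)).rho a) (en v 0 b') else 0) = 0
  rw [v0]
  have e : ((VR π (-1)).rho a) (show (VR π (-1)).V from (0 : Pol K)) = 0 :=
    map_zero ((VR π (-1)).rho a)
  split_ifs
  · exact e
  · rfl

theorem we_V (b : Fin 4) (v : VM π) :
    (show VM π from (we (ob π 1 b) : (WR π).dga.C) • v) = co b v • u π b :=
  ws_V π (1 : R π) _ (map_one _) v

theorem we_V0 (b : Fin 4) (v : VM π) :
    (show VM π from (we (ob π 0 b) : (WR π).dga.C) • v) = 0 :=
  ws_V0 π (1 : R π) _ v

theorem hPo (i : Fin 2) (b : Fin 3) : (WR π).P (ob π i b.castSucc) = (WR π).P (ob π i b.succ) := rfl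

theorem hAo (i : Fin 2) (b : Fin 3) :
    (WR π).A (ob π i b.castSucc) + 1 = (WR π).A (ob π i b.succ) := by
  change (((b.castSucc : Fin 4).val : ℕ) : ℤ) + 1 = (((b.succ : Fin 4).val : ℕ) : ℤ)
  rw [Fin.val_succ, Fin.val_castSucc]
  push_cast
  ring

theorem wth_V (b : Fin 3) (v : VM π) :
    (show VM π from (wth (hC π).toTh (ob π 1 b.succ) (ob π 1 b.castSucc) (hPo π 1 b) (hAo π 1 b) :
      (WR π).dga.C) • v) = co b.castSucc v • u π b.succ :=
  ws_V π (X π .h) _ (by
    have h := rep_h_pow (π := π) 1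
    rwa [pow_one] at h) v

/-- the right module `D V_{-1}` -/
noncomputable abbrev GV : RM (WR π).dga := DR (V2 π)

theorem GV_smul (a : (WR π).dga.C) (f : (GV π).X) (z : VM π) :
    (show (V2 π).X →ₗ[K] K from op a • f) z =
      (show (V2 π).X →ₗ[K] K from f) (show (V2 π).X from (show VM π from a • z)) := rfl

theorem GV_ext {f g : (GV π).X} (h : ∀ z : VM π, (show (V2 π).X →ₗ[K] K from f) z =
    (show (V2 π).X →ₗ[K] K from g) z) : f = g := LinearMap.ext h

theorem GV_d (f : (GV π).X) : (GV π).d f = 0 := by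
  refine GV_ext π fun z => ?_
  have e : (V2 π).d (show (V2 π).X from z) = 0 := (deg0_V2 π).d _
  refine (congrArg (show (V2 π).X →ₗ[K] K from f) e).trans ?_
  exact map_zero (show (V2 π).X →ₗ[K] K from f)

theorem GV_gr {k : ℤ} (hk : k ≠ 0) : (GV π).gr k = ⊥ := by
  rw [eq_bot_iff]
  intro f hf
  rw [Submodule.mem_bot]
  refine GV_ext π fun z => ?_
  exact hf 0 z ((deg0_V2 π).top z) (by omega)

theorem GV_gr0 (f : (GV π).X) : f ∈ (GV π).gr 0 := by
  intro l z hz hl
  have : z = 0 := (deg0_V2 π).bot hz (by omega)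
  rw [this]
  exact map_zero (show (V2 π).X →ₗ[K] K from f)

/-- **the columns `(0, b)` of `D V_{-1}` vanish** -/
theorem g0 (b : Fin 4) (f : (GV π).X) (h : op (we (ob π 0 b)) • f = f) : f = 0 := by
  refine GV_ext π fun z => ?_
  have h1 := congrArg (fun g : (GV π).X => (show (V2 π).X →ₗ[K] K from g) z) h
  refine h1.symm.trans ((GV_smul π _ f z).trans ?_)
  rw [show (show VM π from (we (ob π 0 b) : (WR π).dga.C) • z) = 0 from we_V0 π b z]
  exact map_zero (show (V2 π).X →ₗ[K] K from f)

/-- the functional `z ↦ f (co (b + 1) z • u b)` -/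
noncomputable def tr (b : Fin 3) (f : (GV π).X) : (GV π).X :=
  show (V2 π).X →ₗ[K] K from
  { toFun := fun z => (show (V2 π).X →ₗ[K] K from f)
      (show (V2 π).X from (co (π := π) b.succ (show VM π from z) • u π b.castSucc))
    map_add' := fun z z' => by
      rw [← map_add]
      refine congrArg _ ?_
      change co (π := π) b.succ ((show VM π from z) + (show VM π from z')) • u π b.castSucc = _
      rw [map_add, add_smul]
      rfl
    map_smul' := fun r z => by
      rw [RingHom.id_apply, ← map_smul]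
      refine congrArg _ ?_
      change co (π := π) b.succ (r • (show VM π from z)) • u π b.castSucc = _
      rw [map_smul, smul_assoc]
      rfl }

theorem tr_apply (b : Fin 3) (f : (GV π).X) (z : VM π) :
    (show (V2 π).X →ₗ[K] K from tr π b f) z = (show (V2 π).X →ₗ[K] K from f)
      (show (V2 π).X from (co (π := π) b.succ z • u π b.castSucc)) := rfl

/-- **the cone of `h` on the columns `(1, b + 1) → (1, b)` of `D V_{-1}`** -/
theorem g1 (b : Fin 3) (k : ℤ) (n n1 : (GV π).X) (hn : n ∈ (GV π).gr k)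
    (hni : op (we (ob π 1 b.succ)) • n = n) (hd : (GV π).d n = 0) (hn1 : n1 ∈ (GV π).gr (k + 1))
    (hn1j : op (we (ob π 1 b.castSucc)) • n1 = n1)
    (h : op (wth (hC π).toTh (ob π 1 b.succ) (ob π 1 b.castSucc) (hPo π 1 b) (hAo π 1 b)) • n =
      (GV π).d n1) :
    ∃ n' ∈ (GV π).gr (k + 1), op (we (ob π 1 b.succ)) • n' = n' ∧ ∃ n1' ∈ (GV π).gr (k + 2),
      op (we (ob π 1 b.castSucc)) • n1' = n1' ∧ n = (GV π).d n' ∧
      n1 = op (wth (hC π).toTh (ob π 1 b.succ) (ob π 1 b.castSucc) (hPo π 1 b) (hAo π 1 b)) • n' +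
        (GV π).d n1' := by
  refine honestR (GV π) (GV_d π) (fun k hk => GV_gr π hk) ?_ ?_ k n n1 hn hni hd hn1 hn1j h
  · intro f _ hf h0
    refine GV_ext π fun z => ?_
    have h1 := congrArg (fun g : (GV π).X => (show (V2 π).X →ₗ[K] K from g) z) hf
    refine h1.symm.trans ((GV_smul π _ f z).trans ?_)
    rw [show (show VM π from (we (ob π 1 b.succ) : (WR π).dga.C) • z) = co b.succ z • u π b.succ
      from we_V π b.succ z]
    have h2 := congrArg (fun g : (GV π).X => (show (V2 π).X →ₗ[K] K from g) (u π b.castSucc)) h0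
    have h3 := (GV_smul π _ f (u π b.castSucc)).symm.trans h2
    rw [wth_V π b (u π b.castSucc), co_u, if_pos rfl, one_smul] at h3
    refine (map_smul (show (V2 π).X →ₗ[K] K from f) _ _).trans ?_
    refine (congrArg (co b.succ z • ·) h3).trans ?_
    exact smul_zero _
  · intro f _ hf
    refine ⟨tr π b f, GV_gr0 π _, ?_, ?_⟩
    · refine GV_ext π fun z => ?_
      refine (GV_smul π _ (tr π b f) z).trans ?_
      rw [show (show VM π from (we (ob π 1 b.succ) : (WR π).dga.C) • z) = co b.succ z • u π b.succ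
        from we_V π b.succ z]
      refine (tr_apply π b f _).trans ((tr_apply π b f z).symm ▸ ?_)
      refine congrArg (show (V2 π).X →ₗ[K] K from f) ?_
      change co b.succ (co b.succ z • u π b.succ) • u π b.castSucc = co b.succ z • u π b.castSucc
      rw [map_smul, co_u, if_pos rfl, smul_eq_mul, mul_one]
    · refine GV_ext π fun z => ?_
      refine (GV_smul π _ (tr π b f) z).trans ?_
      rw [wth_V π b z]
      refine (tr_apply π b f _).trans ?_
      have h1 := congrArg (fun g : (GV π).X => (show (V2 π).X →ₗ[K] K from g) z) hf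
      refine Eq.trans ?_ h1
      refine Eq.trans ?_ (GV_smul π _ f z).symm
      rw [show (show VM π from (we (ob π 1 b.castSucc) : (WR π).dga.C) • z) =
        co b.castSucc z • u π b.castSucc from we_V π b.castSucc z]
      refine congrArg (show (V2 π).X →ₗ[K] K from f) ?_
      change co b.succ (co b.castSucc z • u π b.succ) • u π b.castSucc =
        co b.castSucc z • u π b.castSucc
      rw [map_smul, co_u, if_pos rfl, smul_eq_mul, mul_one]

/-- the cone hypothesis on row `0` -/
theorem g0c (b : Fin 3) (k : ℤ) (n n1 : (GV π).X) (_ : n ∈ (GV π).gr k)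
    (hni : op (we (ob π 0 b.succ)) • n = n) (_ : (GV π).d n = 0) (_ : n1 ∈ (GV π).gr (k + 1))
    (hn1j : op (we (ob π 0 b.castSucc)) • n1 = n1)
    (_ : op (wth (hC π).toTh (ob π 0 b.succ) (ob π 0 b.castSucc) (hPo π 0 b) (hAo π 0 b)) • n =
      (GV π).d n1) :
    ∃ n' ∈ (GV π).gr (k + 1), op (we (ob π 0 b.succ)) • n' = n' ∧ ∃ n1' ∈ (GV π).gr (k + 2),
      op (we (ob π 0 b.castSucc)) • n1' = n1' ∧ n = (GV π).d n' ∧
      n1 = op (wth (hC π).toTh (ob π 0 b.succ) (ob π 0 b.castSucc) (hPo π 0 b) (hAo π 0 b)) • n' +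
        (GV π).d n1' := by
  refine ⟨0, Submodule.zero_mem _, smul_zero _, 0, Submodule.zero_mem _, smul_zero _, ?_, ?_⟩
  · rw [g0 π b.succ n hni, map_zero]
  · rw [g0 π b.castSucc n1 hn1j, smul_zero, map_zero, add_zero]

variable {Y : RCells (WR π).dga}

/-- **base at the columns `(0, b)`** -/
theorem base_r (r : RRes Y (DR (V2 π))) (b : Fin 4) :
    Ac (Sc Y (selfLB (WR π)) ((WR π).P (ob π 0 b)) ((WR π).A (ob π 0 b))) :=
  base0 r fun _ n _ hni _ => ⟨0, Submodule.zero_mem _, smul_zero _, by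
    rw [g0 π b n hni, map_zero]⟩

/-- **base for the cone of `h` at `(i, b)`** -/
theorem base_c (r : RRes Y (DR (V2 π))) (i : Fin 2) (b : Fin 3) :
    Ac (Sc Y ((selfLB (WR π)).cone (hC π)) ((WR π).P (ob π i b.castSucc))
      ((WR π).A (ob π i b.castSucc))) := by
  rcases (show i = 0 ∨ i = 1 by omega) with rfl | rfl
  · exact baseC (hC π) r (hPo π 0 b) (hAo π 0 b) (g0c π b)
  · exact baseC (hC π) r (hPo π 1 b) (hAo π 1 b) (g1 π b)

end Crest.Agent.R186.ColG790
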