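import Crest.Agent.R186.VT_339

/-!
Row 186 (helper339), half (A), leaf (V2)(c): the reduction of `Ac (G ⊗ X)` to the window data
`e b`, `H b b' = h^(b'-b)`, `y`, `fs` (sum of the idempotents of the column `P = 1`).
-/

set_option autoImplicit false
set_option linter.style.haveILetI false
set_option linter.unusedSectionVars false
set_option linter.unusedSimpArgs false

open MulOpposite

namespace Crest.Agent.R186.VT339

open Hat827 Hat827.DGA Frame515

variable {K : Type} [Field K] {A : DGA K}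

/-- elements that pass through the idempotent `fs` -/
def thru (A : DGA K) (fs : A.C) : Submodule K A.C :=
  Submodule.span K {r | ∃ s ∈ A.G 0, ∃ t ∈ A.G 0, r = s * fs * t}

/-- window data in degree `0` -/
structure Wdat (A : DGA K) where
  ι : Type
  [fin : Fintype ι]
  [dec : DecidableEq ι]
  o : ι
  e : ι → A.C
  fs : A.C
  H : ι → ι → A.C
  T : ι → ι → K
  y : A.C
  e_mem : ∀ b, e b ∈ A.G 0
  fs_mem : fs ∈ A.G 0
  H_mem : ∀ b b', H b b' ∈ A.G 0
  y_mem : y ∈ A.G 0
  one : ∑ b, e b + fs = 1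
  e_e : ∀ b b', e b * e b' = if b = b' then e b else 0
  e_H : ∀ b b', e b * H b b' = H b b'
  H_e : ∀ b b', H b b' * e b' = H b b'
  H_H : ∀ b b', H o b * H b b' = T b b' • H o b'
  T_o : ∀ b, T o b = 1
  H_o : H o o = e o
  y_y : y * y = 0
  y_H : ∀ b b', y * H b b' = H b b' * y
  y_e : ∀ b, y * e b = e b * y
  split : ∀ a ∈ A.G 0, ∀ b b', ∃ (l m : K), e b * a * e b' - (l • H b b' + m • (y * H b b')) ∈
    thru A fs

attribute [instance] Wdat.fin Wdat.dec

/-- the module `P` -/
structure PB (W : Wdat A) (P : RM A) where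
  v : Module.Basis W.ι K P.X
  v_e : ∀ b, op (W.e b) • v b = v b
  v_H : ∀ b b', op (W.H b b') • v b = W.T b b' • v b'
  p_fs : ∀ p : P.X, op W.fs • p = 0
  p_y : ∀ p : P.X, op W.y • p = 0

variable (W : Wdat A)

theorem thru_act {G : RM A} {F F' : Submodule K G.X} (hF : ∀ x ∈ F, ∀ a ∈ A.G 0, op a • x ∈ F)
    (hF' : ∀ x ∈ F', ∀ a ∈ A.G 0, op a • x ∈ F') {fs : A.C}
    (hf : ∀ z ∈ F, op fs • z ∈ F') {r : A.C} (hr : r ∈ thru A fs) {z : G.X} (hz : z ∈ F) :
    op r • z ∈ F' := by
  induction hr using Submodule.span_induction with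
  | mem r hr =>
    obtain ⟨s, hs, t, ht, rfl⟩ := hr
    rw [op_mul, op_mul, mul_smul, mul_smul]
    exact hF' _ (hf _ (hF _ hz _ hs)) _ ht
  | zero => rw [op_zero, zero_smul]; exact Submodule.zero_mem _
  | add a b _ _ ha hb => rw [op_add, add_smul]; exact Submodule.add_mem _ ha hb
  | smul c a _ ha =>
    rw [op_smul, smul_assoc]
    exact Submodule.smul_mem _ c ha

theorem thru_P {P : RM A} {W : Wdat A} (B : PB W P) {r : A.C} (hr : r ∈ thru A W.fs) (p : P.X) :
    op r • p = 0 := by
  induction hr using Submodule.span_induction with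
  | mem r hr =>
    obtain ⟨s, hs, t, ht, rfl⟩ := hr
    rw [op_mul, op_mul, mul_smul, mul_smul, B.p_fs, smul_zero]
  | zero => rw [op_zero, zero_smul]
  | add a b _ _ ha hb => rw [op_add, add_smul, ha, hb, add_zero]
  | smul c a _ ha => rw [op_smul, smul_assoc, ha, smul_zero]

/-- a layer -/
structure LayH (G : RM A) (F F' : Submodule K G.X) : Prop where
  sF : ∀ x ∈ F, ∀ a ∈ A.G 0, op a • x ∈ F
  sF' : ∀ x ∈ F', ∀ a ∈ A.G 0, op a • x ∈ F'
  le : F' ≤ F
  hf : ∀ z ∈ F, op W.fs • z ∈ F'
  hy : ∀ z ∈ F, op W.y • z ∈ F'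
  hs : ∀ b, ∀ z ∈ F, ∃ z0 ∈ F, op (W.e b) • z + op (W.H W.o b) • z0 ∈ F'
  hi : ∀ b, ∀ z ∈ F, op (W.H W.o b) • z ∈ F' → op (W.e W.o) • z ∈ F'

theorem eo_H (b : W.ι) : W.e W.o * W.H W.o b = W.H W.o b := W.e_H _ _

/-- expansion of `op (H o b * a) • u` -/
theorem expand {G : RM A} {F F' : Submodule K G.X} (h : LayH W G F F') (b : W.ι) {a : A.C}
    (ha : a ∈ A.G 0) (l m : W.ι → K)
    (hl : ∀ b', W.e b * a * W.e b' - (l b' • W.H b b' + m b' • (W.y * W.H b b')) ∈ thru A W.fs)
    {u : G.X} (hu : u ∈ F) :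
    op a • (op (W.H W.o b) • u) + ∑ b', (l b' * W.T b b') • (op (W.H W.o b') • u) ∈ F' := by
  have hHu : op (W.H W.o b) • u ∈ F := h.sF _ hu _ (W.H_mem _ _)
  have h0 : ∀ x : G.X, x = ∑ b', op (W.e b') • x + op W.fs • x := by
    intro x
    have h1 : op (∑ b', W.e b' + W.fs) • x = x := by rw [W.one, op_one, one_smul]
    rw [op_add, add_smul, show op (∑ b', W.e b') = ∑ b', op (W.e b') from
      map_sum (opAddEquiv (α := A.C)) _ _, Finset.sum_smul] at h1
    exact h1.symm
  have h1 : op a • (op (W.H W.o b) • u) =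
      ∑ b', op (W.e b * a * W.e b') • (op (W.H W.o b) • u) +
        op W.fs • (op a • (op (W.H W.o b) • u)) := by
    conv_lhs => rw [h0 (op a • (op (W.H W.o b) • u))]
    congr 1
    refine Finset.sum_congr rfl fun b' _ => ?_
    rw [op_mul, op_mul, mul_smul, mul_smul, ← mul_smul (op (W.e b)), ← op_mul, W.H_e]
  rw [h1, add_right_comm]
  refine Submodule.add_mem _ ?_ (h.hf _ (h.sF _ hHu _ ha))
  rw [← Finset.sum_add_distrib]
  refine Submodule.sum_mem _ fun b' _ => ?_
  have h2 := thru_act h.sF h.sF' h.hf (hl b') hHu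
  rw [op_sub, sub_smul, op_add, add_smul, op_smul, op_smul, smul_assoc, smul_assoc] at h2
  have h3 : op (W.H b b') • (op (W.H W.o b) • u) = W.T b b' • (op (W.H W.o b') • u) := by
    rw [← mul_smul, ← op_mul, W.H_H, op_smul, smul_assoc]
  have h4 : op (W.y * W.H b b') • (op (W.H W.o b) • u) ∈ F' := by
    rw [op_mul, mul_smul]
    exact h.sF' _ (h.hy _ hHu) _ (W.H_mem _ _)
  have h6 : l b' • W.T b b' • (op (W.H W.o b') • u) = (l b' * W.T b b') • (op (W.H W.o b') • u) :=
    (mul_smul _ _ _).symm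
  rw [h3, h6] at h2
  have h5 := Submodule.add_mem _ h2 (Submodule.smul_mem _ (m b') h4)
  rw [sub_G] at h5
  rwa [show op (W.e b * a * W.e b') • op (W.H W.o b) • u +
      ((l b' * W.T b b') • op (W.H W.o b') • u + m b' • op (W.y * W.H b b') •
        op (W.H W.o b) • u) + m b' • op (W.y * W.H b b') • op (W.H W.o b) • u =
      op (W.e b * a * W.e b') • op (W.H W.o b) • u + (l b' * W.T b b') • op (W.H W.o b') • u +
      (m b' • op (W.y * W.H b b') • op (W.H W.o b) • u +
        m b' • op (W.y * W.H b b') • op (W.H W.o b) • u) by abel, two_G, add_zero] at h5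

/-- the same expansion in `P` -/
theorem expandP {P : RM A} {W : Wdat A} (B : PB W P) (b : W.ι) {a : A.C} (l m : W.ι → K)
    (hl : ∀ b', W.e b * a * W.e b' - (l b' • W.H b b' + m b' • (W.y * W.H b b')) ∈ thru A W.fs) :
    op a • B.v b = ∑ b', (l b' * W.T b b') • B.v b' := by
  have h1 : op a • B.v b =
      ∑ b', op (W.e b * a * W.e b') • B.v b + op W.fs • (op a • B.v b) := by
    have h0 : op (∑ b', W.e b' + W.fs) • (op a • B.v b) = op a • B.v b := by
      rw [W.one, op_one, one_smul]
    rw [op_add, add_smul, show op (∑ b', W.e b') = ∑ b', op (W.e b') from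
      map_sum (opAddEquiv (α := A.C)) _ _, Finset.sum_smul] at h0
    rw [← h0]
    congr 1
    · refine Finset.sum_congr rfl fun b' _ => ?_
      rw [op_mul, op_mul, mul_smul, mul_smul, B.v_e]
    · rw [h0]
  rw [h1, B.p_fs, add_zero]
  refine Finset.sum_congr rfl fun b' _ => ?_
  have h2 := thru_P B (hl b') (B.v b)
  rw [op_sub, sub_smul, op_add, add_smul, op_smul, op_smul, smul_assoc, smul_assoc, op_mul W.y,
    mul_smul, B.p_y, smul_zero, smul_zero, add_zero, B.v_H, ← mul_smul] at h2
  exact sub_eq_zero.1 h2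

open Classical in
/-- **the layer is a direct sum of copies of `P`** -/
theorem exists_lay {P G : RM A} {W : Wdat A} (B : PB W P) {F F' : Submodule K G.X}
    (h : LayH W G F F') : Nonempty (Lay G P F F') := by
  -- the space `F e_o` and its quotient
  let V0 : Submodule K G.X :=
    { carrier := {z | z ∈ F ∧ op (W.e W.o) • z = z}
      zero_mem' := ⟨Submodule.zero_mem _, smul_zero _⟩
      add_mem' := fun {x y} hx hy =>
        ⟨Submodule.add_mem _ hx.1 hy.1, by rw [smul_add, hx.2, hy.2]⟩
      smul_mem' := fun r x hx => ⟨Submodule.smul_mem _ r hx.1, by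
        have := (rmul G (W.e W.o)).map_smul r x
        rw [rmul_apply, rmul_apply, hx.2] at this
        exact this⟩ }
  let S : Submodule K V0 := F'.comap V0.subtype
  let b0 := Module.Basis.ofVectorSpace K (V0 ⧸ S)
  have hu : ∀ i, ∃ u : V0, S.mkQ u = b0 i := fun i => Submodule.mkQ_surjective S (b0 i)
  choose u hu using hu
  let c : (Module.Basis.ofVectorSpaceIndex K (V0 ⧸ S)) → G.X := fun i => (u i : G.X)
  have hc : ∀ i, c i ∈ F ∧ op (W.e W.o) • c i = c i := fun i => (u i).2
  let φ : (Module.Basis.ofVectorSpaceIndex K (V0 ⧸ S)) → P.X →ₗ[K] G.X := fun i =>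
    ∑ b, (B.v.coord b).smulRight (op (W.H W.o b) • c i)
  have hφ : ∀ i p, φ i p = ∑ b, B.v.repr p b • (op (W.H W.o b) • c i) := by
    intro i p
    simp [φ, LinearMap.sum_apply]
  have hφv : ∀ i b, φ i (B.v b) = op (W.H W.o b) • c i := by
    intro i b
    rw [hφ, Finset.sum_eq_single b]
    · rw [Module.Basis.repr_self, Finsupp.single_eq_same, one_smul]
    · intro b' _ hb
      rw [Module.Basis.repr_self, Finsupp.single_apply, if_neg (Ne.symm hb), zero_smul]
    · intro hb
      exact absurd (Finset.mem_univ _) hb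
  -- a family of coefficients at one vertex
  let U : ((Module.Basis.ofVectorSpaceIndex K (V0 ⧸ S)) →₀ K) →ₗ[K] G.X :=
    Finsupp.linearCombination K c
  have hU : ∀ k, U k ∈ F ∧ op (W.e W.o) • U k = U k := by
    intro k
    have h1 : U k = ((Finsupp.linearCombination K u k : V0) : G.X) := by
      simp only [U, c, Finsupp.linearCombination_apply, Finsupp.sum]
      rw [← Submodule.coe_subtype, map_sum]
      simp
    rw [h1]
    exact (Finsupp.linearCombination K u k : V0).2
  have hU0 : ∀ k, U k ∈ F' → k = 0 := by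
    intro k hk
    have h1 : U k = ((Finsupp.linearCombination K u k : V0) : G.X) := by
      simp only [U, c, Finsupp.linearCombination_apply, Finsupp.sum]
      rw [← Submodule.coe_subtype, map_sum]
      simp
    have h2 : (Finsupp.linearCombination K u k : V0) ∈ S := by
      change ((Finsupp.linearCombination K u k : V0) : G.X) ∈ F'
      rwa [← h1]
    have h3 : S.mkQ (Finsupp.linearCombination K u k) = 0 := (Submodule.Quotient.mk_eq_zero S).2 h2
    have h4 : S.mkQ (Finsupp.linearCombination K u k) = Finsupp.linearCombination K b0 k := by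
      rw [Finsupp.linearCombination_apply, Finsupp.linearCombination_apply, Finsupp.sum,
        Finsupp.sum, map_sum]
      exact Finset.sum_congr rfl fun i _ => by rw [map_smul, hu]
    rw [h4] at h3
    exact (linearIndependent_iff.1 b0.linearIndependent) k h3
  have hUs : ∀ z ∈ F, op (W.e W.o) • z = z → ∃ k, z + U k ∈ F' := by
    intro z hz hz'
    let k := b0.repr (S.mkQ ⟨z, hz, hz'⟩)
    refine ⟨k, ?_⟩
    have h1 : U k = ((Finsupp.linearCombination K u k : V0) : G.X) := by
      simp only [U, c, Finsupp.linearCombination_apply, Finsupp.sum]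
      rw [← Submodule.coe_subtype, map_sum]
      simp
    have h4 : S.mkQ (Finsupp.linearCombination K u k) = Finsupp.linearCombination K b0 k := by
      rw [Finsupp.linearCombination_apply, Finsupp.linearCombination_apply, Finsupp.sum,
        Finsupp.sum, map_sum]
      exact Finset.sum_congr rfl fun i _ => by rw [map_smul, hu]
    have h5 : Finsupp.linearCombination K b0 k = S.mkQ ⟨z, hz, hz'⟩ :=
      b0.linearCombination_repr _
    rw [h5] at h4
    have h6 : (⟨z, hz, hz'⟩ : V0) - Finsupp.linearCombination K u k ∈ S := by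
      have h8 : S.mkQ ((⟨z, hz, hz'⟩ : V0) - Finsupp.linearCombination K u k) = 0 := by
        rw [map_sub, h4, sub_self]
      exact (Submodule.Quotient.mk_eq_zero S).1 h8
    have h7 : z - U k ∈ F' := by
      rw [h1]
      exact h6
    rwa [sub_G] at h7
  -- sums over the basis
  have hsum : ∀ p : (Module.Basis.ofVectorSpaceIndex K (V0 ⧸ S)) →₀ P.X,
      p.sum (fun i q => φ i q) =
        ∑ b, op (W.H W.o b) • U (Finsupp.mapRange.linearMap (B.v.coord b) p) := by
    intro p
    induction p using Finsupp.induction_linear with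
    | zero => simp
    | add f g hf hg =>
      rw [Finsupp.sum_add_index' (fun i => map_zero _) (fun i => map_add _), hf, hg,
        ← Finset.sum_add_distrib]
      exact Finset.sum_congr rfl fun b _ => by rw [map_add, map_add, smul_add]
    | single i q =>
      rw [Finsupp.sum_single_index (h := fun i q => φ i q) (map_zero (φ i)), hφ]
      refine Finset.sum_congr rfl fun b _ => ?_
      have h1 : Finsupp.mapRange.linearMap (B.v.coord b) (Finsupp.single i q) =
          Finsupp.single i (B.v.repr q b) := by simp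
      rw [h1]
      have h2 : U (Finsupp.single i (B.v.repr q b)) = (B.v.repr q b) • c i := by
        simp [U]
      rw [h2]
      exact ((rmul G (W.H W.o b)).map_smul _ _).symm
  refine ⟨⟨_, φ, ?_, ?_, ?_, ?_⟩⟩
  · -- mem
    intro i p
    rw [hφ]
    exact Submodule.sum_mem _ fun b _ => Submodule.smul_mem _ _ (h.sF _ (hc i).1 _ (W.H_mem _ _))
  · -- act
    intro i p a ha
    have key : ∀ b, φ i (op a • B.v b) + op a • φ i (B.v b) ∈ F' := by
      intro b
      choose l m hl using fun b' => W.split a ha b b'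
      have h1 := expand W h b ha l m hl (hc i).1
      rw [expandP B b l m hl, map_sum, hφv, add_comm]
      have h2 : ∑ b', φ i ((l b' * W.T b b') • B.v b') =
          ∑ b', (l b' * W.T b b') • (op (W.H W.o b') • c i) := by
        refine Finset.sum_congr rfl fun b' _ => ?_
        rw [map_smul, hφv]
      rw [h2]
      exact h1
    have hlin : ∀ q : P.X, φ i (op a • q) + op a • φ i q =
        (φ i ∘ₗ rmul P a + rmul G a ∘ₗ φ i) q := fun q => rfl
    rw [hlin, ← B.v.sum_repr p, map_sum]
    refine Submodule.sum_mem _ fun b _ => ?_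
    rw [map_smul, ← hlin]
    exact Submodule.smul_mem _ _ (key b)
  · -- sur
    intro z hz
    have h1 : ∀ b, ∃ k, op (W.e b) • z + op (W.H W.o b) • U k ∈ F' := by
      intro b
      obtain ⟨z0, hz0, h2⟩ := h.hs b z hz
      have h3 : op (W.H W.o b) • z0 = op (W.H W.o b) • (op (W.e W.o) • z0) := by
        rw [← mul_smul, ← op_mul, eo_H]
      obtain ⟨k, hk⟩ := hUs (op (W.e W.o) • z0) (h.sF _ hz0 _ (W.e_mem _)) (by
        rw [← mul_smul, ← op_mul, W.e_e, if_pos rfl])
      refine ⟨k, ?_⟩
      have h4 := h.sF' _ hk _ (W.H_mem W.o b)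
      rw [smul_add, ← h3] at h4
      have h5 := Submodule.add_mem _ h2 h4
      rwa [show op (W.e b) • z + op (W.H W.o b) • z0 + (op (W.H W.o b) • z0 +
        op (W.H W.o b) • U k) = op (W.e b) • z + op (W.H W.o b) • U k +
        (op (W.H W.o b) • z0 + op (W.H W.o b) • z0) by abel, two_G, add_zero] at h5
    choose k hk using h1
    let p : (Module.Basis.ofVectorSpaceIndex K (V0 ⧸ S)) →₀ P.X :=
      ∑ b, Finsupp.mapRange.linearMap ((LinearMap.id : K →ₗ[K] K).smulRight (B.v b)) (k b)
    refine ⟨p, ?_⟩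
    have h2 : ∀ b, Finsupp.mapRange.linearMap (B.v.coord b) p = k b := by
      intro b
      refine Finsupp.ext fun i => ?_
      simp only [p, map_sum]
      rw [Finset.sum_apply', Finset.sum_eq_single b]
      · simp
      · intro b' _ hb
        simp [Finsupp.single_apply, hb]
      · intro hb
        exact absurd (Finset.mem_univ _) hb
    rw [hsum]
    simp only [h2]
    have h3 : z = ∑ b, op (W.e b) • z + op W.fs • z := by
      have h1 : op (∑ b', W.e b' + W.fs) • z = z := by rw [W.one, op_one, one_smul]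
      rw [op_add, add_smul, show op (∑ b', W.e b') = ∑ b', op (W.e b') from
        map_sum (opAddEquiv (α := A.C)) _ _, Finset.sum_smul] at h1
      exact h1.symm
    have h5 : z + ∑ b, op (W.H W.o b) • U (k b) =
        ∑ b, (op (W.e b) • z + op (W.H W.o b) • U (k b)) + op W.fs • z := by
      rw [Finset.sum_add_distrib]
      conv_lhs => enter [1]; rw [h3]
      rw [add_right_comm]
    rw [h5]
    exact Submodule.add_mem _ (Submodule.sum_mem _ fun b _ => hk b) (h.hf z hz)
  · -- inj
    intro p hp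
    rw [hsum] at hp
    have h1 : ∀ b, Finsupp.mapRange.linearMap (B.v.coord b) p = 0 := by
      intro b
      apply hU0
      have h2 := h.sF' _ hp _ (W.e_mem b)
      rw [Finset.smul_sum, Finset.sum_eq_single b] at h2
      · rw [← mul_smul, ← op_mul, W.H_e] at h2
        have h3 := h.hi b _ (hU _).1 h2
        rwa [(hU _).2] at h3
      · intro b' _ hb
        rw [← mul_smul, ← op_mul, ← W.H_e W.o b', mul_assoc, W.e_e, if_neg hb, mul_zero, op_zero,
          zero_smul]
      · intro hb
        exact absurd (Finset.mem_univ _) hb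
    refine Finsupp.ext fun i => ?_
    apply B.v.ext_elem
    intro b
    have := DFunLike.congr_fun (h1 b) i
    simpa using this

/-! ### the two layers from `cyc`, `bd` -/

/-- hypotheses on the cycles of degree `n`: zero at `fs`, `h` bijective on homology -/
structure HB (G : RM A) (n : ℤ) : Prop where
  hf : ∀ z ∈ cyc G n, op W.fs • z ∈ bd G n
  hs : ∀ b, ∀ z ∈ cyc G n, ∃ z0 ∈ cyc G n, op (W.e b) • z + op (W.H W.o b) • z0 ∈ bd G n
  hi : ∀ b, ∀ z ∈ cyc G n, op (W.H W.o b) • z ∈ bd G n → op (W.e W.o) • z ∈ bd G n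

/-- `bd + cyc · y` -/
def mid (G : RM A) (n : ℤ) : Submodule K G.X where
  carrier := {x | ∃ w ∈ cyc G n, x + op W.y • w ∈ bd G n}
  zero_mem' := ⟨0, Submodule.zero_mem _, by rw [smul_zero, add_zero]; exact Submodule.zero_mem _⟩
  add_mem' := by
    rintro x y ⟨w, hw, hx⟩ ⟨v, hv, hy⟩
    refine ⟨w + v, Submodule.add_mem _ hw hv, ?_⟩
    rw [smul_add, add_add_add_comm]
    exact Submodule.add_mem _ hx hy
  smul_mem' := by
    rintro r x ⟨w, hw, hx⟩
    refine ⟨r • w, Submodule.smul_mem _ r hw, ?_⟩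
    have h1 := (rmul G W.y).map_smul r w
    rw [rmul_apply, rmul_apply] at h1
    rw [h1, ← smul_add]
    exact Submodule.smul_mem _ r hx

theorem bd_le_mid (G : RM A) (n : ℤ) : bd G n ≤ mid W G n := fun x hx =>
  ⟨0, Submodule.zero_mem _, by rwa [smul_zero, add_zero]⟩

theorem mid_le_cyc (G : RM A) (n : ℤ) : mid W G n ≤ cyc G n := by
  rintro x ⟨w, hw, hx⟩
  have h1 := Submodule.add_mem _ (bd_le_cyc G n hx) (cyc_act hw W.y_mem)
  rwa [add_assoc, two_G, add_zero] at h1

variable {W}

theorem y_mem_mid {G : RM A} {n : ℤ} {w : G.X} (hw : w ∈ cyc G n) : op W.y • w ∈ mid W G n :=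
  ⟨w, hw, by rw [two_G]; exact Submodule.zero_mem _⟩

theorem cyc_thru {G : RM A} {n : ℤ} (h : HB W G n) {r : A.C} (hr : r ∈ thru A W.fs) {z : G.X}
    (hz : z ∈ cyc G n) : op r • z ∈ bd G n :=
  thru_act (fun _ hx _ ha => cyc_act hx ha) (fun _ hx _ ha => bd_act hx ha) h.hf hr hz

theorem mid_act {G : RM A} {n : ℤ} (h : HB W G n) {x : G.X} (hx : x ∈ mid W G n) {a : A.C}
    (ha : a ∈ A.G 0) : op a • x ∈ mid W G n := by
  obtain ⟨w, hw, hx⟩ := hx
  have h1 := bd_le_mid W G n (bd_act hx ha)
  rw [smul_add] at h1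
  suffices h2 : op a • (op W.y • w) ∈ mid W G n by
    have h3 := Submodule.add_mem _ h1 h2
    rwa [add_assoc, two_G, add_zero] at h3
  -- decompose `y w` and `a`
  have h0 : ∀ x : G.X, x = ∑ b', op (W.e b') • x + op W.fs • x := by
    intro x
    have h1 : op (∑ b', W.e b' + W.fs) • x = x := by rw [W.one, op_one, one_smul]
    rw [op_add, add_smul, show op (∑ b', W.e b') = ∑ b', op (W.e b') from
      map_sum (opAddEquiv (α := A.C)) _ _, Finset.sum_smul] at h1
    exact h1.symm
  have hyw := cyc_act hw W.y_mem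
  rw [h0 (op W.y • w), smul_add, Finset.smul_sum]
  refine Submodule.add_mem _ (Submodule.sum_mem _ fun b _ => ?_)
    (bd_le_mid W G n (bd_act (h.hf _ hyw) ha))
  rw [h0 (op a • (op (W.e b) • (op W.y • w)))]
  refine Submodule.add_mem _ (Submodule.sum_mem _ fun b' _ => ?_)
    (bd_le_mid W G n (h.hf _ (cyc_act (cyc_act hyw (W.e_mem b)) ha)))
  rw [← mul_smul, ← mul_smul, ← op_mul, ← op_mul, ← mul_assoc]
  obtain ⟨l, m, hl⟩ := W.split a ha b b'
  have h2 := cyc_thru h hl hyw
  rw [op_sub, sub_smul, op_add, add_smul, op_smul, op_smul, smul_assoc, smul_assoc] at h2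
  have h3 : op (W.y * W.H b b') • (op W.y • w) = 0 := by
    rw [← mul_smul, ← op_mul, ← mul_assoc, W.y_y, zero_mul, op_zero, zero_smul]
  rw [h3, smul_zero, add_zero, sub_G] at h2
  have h4 : op (W.H b b') • (op W.y • w) ∈ mid W G n := by
    rw [← mul_smul, ← op_mul, W.y_H, op_mul, mul_smul]
    exact y_mem_mid (cyc_act hw (W.H_mem _ _))
  have h5 := Submodule.add_mem _ (bd_le_mid W G n h2) (Submodule.smul_mem _ l h4)
  rwa [add_assoc, two_G, add_zero] at h5

theorem layH_top {G : RM A} {n : ℤ} (h : HB W G n) : LayH W G (cyc G n) (mid W G n) where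
  sF _ hx _ ha := cyc_act hx ha
  sF' _ hx _ ha := mid_act h hx ha
  le := mid_le_cyc W G n
  hf z hz := bd_le_mid W G n (h.hf z hz)
  hy z hz := y_mem_mid hz
  hs b z hz := by
    obtain ⟨z0, h0, h1⟩ := h.hs b z hz
    exact ⟨z0, h0, bd_le_mid W G n h1⟩
  hi b z hz hx := by
    obtain ⟨w, hw, hx⟩ := hx
    obtain ⟨w0, hw0, h1⟩ := h.hs b w hw
    -- `op (H o b) • (z + y w0) ∈ bd`
    have h2 := bd_act hx (W.e_mem b)
    rw [smul_add, ← mul_smul, ← op_mul, W.H_e, ← mul_smul, ← op_mul, W.y_e, op_mul, mul_smul] at h2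
    have h3 := bd_act h1 W.y_mem
    rw [smul_add, ← mul_smul (op W.y) (op (W.H W.o b)), ← op_mul, ← W.y_H, op_mul, mul_smul] at h3
    have h4 := Submodule.add_mem _ h2 h3
    rw [show op (W.H W.o b) • z + op W.y • op (W.e b) • w + (op W.y • op (W.e b) • w +
      op (W.H W.o b) • op W.y • w0) = op (W.H W.o b) • z + op (W.H W.o b) • op W.y • w0 +
      (op W.y • op (W.e b) • w + op W.y • op (W.e b) • w) by abel, two_G, add_zero,
      ← smul_add] at h4
    have h5 := h.hi b _ (Submodule.add_mem _ hz (cyc_act hw0 W.y_mem)) h4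
    rw [smul_add, ← mul_smul (op (W.e W.o)) (op W.y), ← op_mul, W.y_e, op_mul, mul_smul] at h5
    exact ⟨op (W.e W.o) • w0, cyc_act hw0 (W.e_mem _), h5⟩

theorem layH_bot {G : RM A} {n : ℤ} (h : HB W G n) : LayH W G (mid W G n) (bd G n) where
  sF _ hx _ ha := mid_act h hx ha
  sF' _ hx _ ha := bd_act hx ha
  le := bd_le_mid W G n
  hf z hz := h.hf z (mid_le_cyc W G n hz)
  hy z hz := by
    obtain ⟨w, hw, hx⟩ := hz
    have h1 := bd_act hx W.y_mem
    rwa [smul_add, ← mul_smul, ← op_mul, W.y_y, op_zero, zero_smul, add_zero] at h1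
  hs b z hz := by
    obtain ⟨w, hw, hx⟩ := hz
    obtain ⟨w0, hw0, h1⟩ := h.hs b w hw
    refine ⟨op W.y • w0, y_mem_mid hw0, ?_⟩
    have h2 := bd_act hx (W.e_mem b)
    rw [smul_add, ← mul_smul (op (W.e b)) (op W.y), ← op_mul, W.y_e, op_mul, mul_smul] at h2
    have h3 := bd_act h1 W.y_mem
    rw [smul_add, ← mul_smul (op W.y) (op (W.H W.o b)), ← op_mul, ← W.y_H, op_mul, mul_smul] at h3
    have h4 := Submodule.add_mem _ h2 h3
    rwa [show op (W.e b) • z + op W.y • op (W.e b) • w + (op W.y • op (W.e b) • w +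
      op (W.H W.o b) • op W.y • w0) = op (W.e b) • z + op (W.H W.o b) • op W.y • w0 +
      (op W.y • op (W.e b) • w + op W.y • op (W.e b) • w) by abel, two_G, add_zero] at h4
  hi b z hz := h.hi b z (mid_le_cyc W G n hz)

/-- **(V2)(c)**: the homology of `G` is supported at the vertices `e b`, `h` is bijective on it;
`P ⊗ X` is acyclic. Then `G ⊗ X` is acyclic. -/
theorem ac_of_win {P G : RM A} (B : PB W P) (hP1 : One P) {X : LCells A} (hP : Ac (tG P X))
    (h : ∀ n, HB W G n) : Ac (tG G X) :=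
  ac_of_two hP1 hP (mid W G) (bd_le_mid W G) (mid_le_cyc W G)
    (fun n _ hx _ ha => mid_act (h n) hx ha)
    (fun n => (exists_lay B (layH_top (h n))).some)
    (fun n => (exists_lay B (layH_bot (h n))).some)

end Crest.Agent.R186.VT339
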