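import Crest.Agent.R186.V2k_981
import Crest.Agent.R186.VTc_339
import Crest.Agent.R186.WinA_810
import Crest.Agent.R186.SMp_890
import Crest.Agent.R186.Res_255

/-!
Row 186, half (A), leaf (V2) (helper510), concrete part: the degree-zero part of the window algebra
`L''` (and of `Γ`) seen by right modules supported on the row `i = 0`.
-/

set_option autoImplicit false
set_option linter.style.haveILetI false
set_option linter.unusedSectionVars false
set_option linter.unusedSimpArgs false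

open MulOpposite

namespace Crest.Agent.R186.V2c510

open Hat827 Hat827.DGA Win810 DefsQ830 DefsQ830.Gen PBW128 Res255

variable {K : Type} [Field K]

/-- the data of the window seen by right modules supported on the row `i = 0`:
`e b` = idempotent of `(0,b)`, `f` = idempotent of the row `i = 1`, `h b' b` = the element
`h^(b'-b)` from `(0,b)` to `(0,b')`, `y` = the element `y_0` (everywhere) -/
structure W2 (A : DGA K) where
  e : Fin 4 → A.C
  f : A.C
  e_mem : ∀ b, e b ∈ A.G 0
  f_mem : f ∈ A.G 0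
  sum_ef : ∑ b, e b + f = 1
  e_e : ∀ b, e b * e b = e b
  f_f : f * f = f
  e_ne : ∀ b b', b ≠ b' → e b * e b' = 0
  e_f : ∀ b, e b * f = 0
  f_e : ∀ b, f * e b = 0
  h : Fin 4 → Fin 4 → A.C
  h_mem : ∀ b' b, h b' b ∈ A.G 0
  e_h : ∀ b' b, e b' * h b' b = h b' b
  h_e : ∀ b' b, h b' b * e b = h b' b
  h_self : ∀ b, h b b = e b
  h_h : ∀ b' c b, b ≤ c → c ≤ b' → h b' c * h c b = h b' b
  h_zero : ∀ b' b, ¬ b ≤ b' → h b' b = 0
  y : A.C
  y_mem : y ∈ A.G 0
  y_e : ∀ b, y * e b = e b * y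
  y_f : y * f = f * y
  y_y : y * y = 0
  y_h : ∀ b' b, y * h b' b = h b' b * y
  dec0 : ∀ a ∈ A.G 0, ∀ b' b, ¬ b ≤ b' → e b' * a * e b = 0
  dec : ∀ a ∈ A.G 0, ∀ b' b, b ≤ b' → ∃ c c' : K, ∃ u v : Fin 2 → A.C,
    (∀ j, u j ∈ A.G 0) ∧ (∀ j, v j ∈ A.G 0) ∧
    e b' * a * e b = c • h b' b + c' • (h b' b * y) + ∑ j, u j * f * v j

/-- transport along a map which is onto in degree `0` -/
def W2.map {A B : DGA K} (W : W2 A) (φ : Hm A B)
    (onto : ∀ b ∈ B.G 0, ∃ a ∈ A.G 0, φ.f a = b) : W2 B where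
  e b := φ.f (W.e b)
  f := φ.f W.f
  e_mem b := φ.mem (W.e_mem b)
  f_mem := φ.mem W.f_mem
  sum_ef := by rw [← map_sum, ← map_add, W.sum_ef, map_one]
  e_e b := by rw [← map_mul, W.e_e]
  f_f := by rw [← map_mul, W.f_f]
  e_ne b b' hb := by rw [← map_mul, W.e_ne b b' hb, map_zero]
  e_f b := by rw [← map_mul, W.e_f, map_zero]
  f_e b := by rw [← map_mul, W.f_e, map_zero]
  h b' b := φ.f (W.h b' b)
  h_mem b' b := φ.mem (W.h_mem b' b)
  e_h b' b := by rw [← map_mul, W.e_h]
  h_e b' b := by rw [← map_mul, W.h_e]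
  h_self b := by rw [W.h_self]
  h_h b' c b h1 h2 := by rw [← map_mul, W.h_h b' c b h1 h2]
  h_zero b' b hb := by rw [W.h_zero b' b hb, map_zero]
  y := φ.f W.y
  y_mem := φ.mem W.y_mem
  y_e b := by rw [← map_mul, ← map_mul, W.y_e]
  y_f := by rw [← map_mul, ← map_mul, W.y_f]
  y_y := by rw [← map_mul, W.y_y, map_zero]
  y_h b' b := by rw [← map_mul, ← map_mul, W.y_h]
  dec0 a ha b' b hb := by
    obtain ⟨a', ha', rfl⟩ := onto a ha
    rw [← map_mul, ← map_mul, W.dec0 a' ha' b' b hb, map_zero]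
  dec a ha b' b hb := by
    obtain ⟨a', ha', rfl⟩ := onto a ha
    obtain ⟨c, c', u, v, hu, hv, he⟩ := W.dec a' ha' b' b hb
    refine ⟨c, c', fun j => φ.f (u j), fun j => φ.f (v j), fun j => φ.mem (hu j),
      fun j => φ.mem (hv j), ?_⟩
    rw [← map_mul, ← map_mul, he, map_add, map_add, map_smul, map_smul, map_mul, map_sum]
    simp only [map_mul]

section gen

variable {w : WD K}

/-- a diagonal matrix of the window -/
def dg (x : w.Ob → w.S) (hx : ∀ o, x o ∈ w.pc 0 0 0) : w.Win :=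
  ⟨Matrix.diagonal x, by
    intro i j
    rw [Matrix.diagonal_apply]
    split_ifs with h
    · subst h
      refine WD.q_le i i 0 ?_
      unfold WD.q
      rw [sub_self, sub_self]
      exact hx i
    · exact Submodule.zero_mem _⟩

theorem dg_mem (x : w.Ob → w.S) (hx : ∀ o, x o ∈ w.pc 0 0 0) : dg x hx ∈ w.G 0 := by
  intro i j
  change Matrix.diagonal x i j ∈ _
  rw [Matrix.diagonal_apply]
  split_ifs with h
  · subst h
    unfold WD.q
    rw [sub_self, sub_self]
    exact hx i
  · exact Submodule.zero_mem _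

theorem dg_mul (x : w.Ob → w.S) (hx : ∀ o, x o ∈ w.pc 0 0 0) (m : w.Win)
    (i j : w.Ob) : (dg x hx * m).1 i j = x i * m.1 i j := by
  change (Matrix.diagonal x * m.1) i j = _
  rw [Matrix.diagonal_mul]

theorem mul_dg (x : w.Ob → w.S) (hx : ∀ o, x o ∈ w.pc 0 0 0) (m : w.Win)
    (i j : w.Ob) : (m * dg x hx).1 i j = m.1 i j * x j := by
  change (m.1 * Matrix.diagonal x) i j = _
  rw [Matrix.mul_diagonal]

theorem e_apply (o i j : w.Ob) : (WD.e o).1 i j = if o = i ∧ o = j then 1 else 0 := by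
  unfold WD.e
  rw [WD.ws_apply]

/-- two elements of the window are equal if their entries are -/
theorem win_ext {a b : w.Win} (h : ∀ i j, a.1 i j = b.1 i j) : a = b := by
  apply Subtype.ext
  ext i j
  exact h i j

variable (w)

/-- the letters of the window -/
structure Lt where
  o : Fin 4 → w.Ob
  o_inj : ∀ b b', o b = o b' → b = b'
  r1 : w.Ob → Prop
  [dr : DecidablePred r1]
  o_r1 : ∀ b, ¬ r1 (o b)
  cov : ∀ x, ¬ r1 x → ∃ b, x = o b
  H : ℕ → w.S
  H_mem : ∀ b' b : Fin 4, b ≤ b' → H ((b' : ℕ) - (b : ℕ)) ∈ w.q (o b') (o b) 0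
  H_zero : H 0 = 1
  H_add : ∀ m n, H m * H n = H (m + n)
  y : w.S
  y_mem : y ∈ w.pc 0 0 0
  y_H : ∀ n, y * H n = H n * y
  y_y : y * y = 0
  z0 : ∀ b' b : Fin 4, ¬ b ≤ b' → ∀ r ∈ w.q (o b') (o b) 0, r = 0
  sp : ∀ b' b : Fin 4, b ≤ b' → ∀ r ∈ w.q (o b') (o b) 0, ∃ c c' : K, ∃ k : w.Ob, r1 k ∧
    ∃ u v : Fin 2 → w.S, (∀ j, u j ∈ w.q (o b') k 0) ∧ (∀ j, v j ∈ w.q k (o b) 0) ∧
      r = c • H ((b' : ℕ) - (b : ℕ)) + c' • (H ((b' : ℕ) - (b : ℕ)) * y) + ∑ j, u j * v j

attribute [instance] Lt.dr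

variable {w} (L : Lt w)

namespace Lt

/-- the indicator of the row `1` -/
def row (o : w.Ob) : w.S := if L.r1 o then 1 else 0

theorem row_mem (o : w.Ob) : L.row o ∈ w.pc 0 0 0 := by
  unfold row
  split_ifs
  · exact w.one_mem
  · exact Submodule.zero_mem _

/-- `f` -/
def fW : w.Win := dg L.row L.row_mem

/-- `y` -/
def yW : w.Win := dg (fun _ => L.y) fun _ => L.y_mem

/-- `h b' b` -/
def hW (b' b : Fin 4) : w.Win :=
  if hb : b ≤ b' then WD.ws (L.o b') (L.o b) (L.H ((b' : ℕ) - (b : ℕ)))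
    (WD.q_le _ _ 0 (L.H_mem b' b hb)) else 0

theorem hW_apply (b' b : Fin 4) (hb : b ≤ b') (i j : w.Ob) : (L.hW b' b).1 i j =
    if L.o b' = i ∧ L.o b = j then L.H ((b' : ℕ) - (b : ℕ)) else 0 := by
  rw [hW, dif_pos hb, WD.ws_apply]

theorem hW_zero (b' b : Fin 4) (hb : ¬ b ≤ b') : L.hW b' b = 0 := by
  rw [hW, dif_neg hb]

theorem hW_mem (b' b : Fin 4) : L.hW b' b ∈ w.G 0 := by
  by_cases hb : b ≤ b'
  · rw [hW, dif_pos hb]
    exact WD.ws_mem_G (L.H_mem b' b hb)
  · rw [L.hW_zero b' b hb]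
    exact Submodule.zero_mem _

theorem sum_e (i j : w.Ob) : (∑ b, WD.e (L.o b) + L.fW).1 i j = (1 : w.Win).1 i j := by
  change ((∑ b, WD.e (L.o b) : w.Win).1 + L.fW.1) i j = (1 : Matrix w.Ob w.Ob w.S) i j
  rw [Matrix.add_apply, Matrix.one_apply]
  have h1 : (∑ b, WD.e (L.o b) : w.Win).1 i j = ∑ b, (WD.e (L.o b)).1 i j := by
    have := map_sum w.Win.val (fun b => WD.e (L.o b)) Finset.univ
    have h2 := congrFun (congrFun this i) j
    rw [Matrix.sum_apply] at h2
    exact h2
  rw [h1]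
  simp only [e_apply]
  have h3 : L.fW.1 i j = if i = j then L.row i else 0 := Matrix.diagonal_apply _ _ _
  rw [h3]
  by_cases hij : i = j
  · subst hij
    rw [if_pos rfl, if_pos rfl]
    unfold row
    by_cases hr : L.r1 i
    · rw [if_pos hr, Finset.sum_eq_zero, zero_add]
      intro b _
      rw [if_neg]
      rintro ⟨h4, -⟩
      exact L.o_r1 b (h4 ▸ hr)
    · rw [if_neg hr, add_zero]
      obtain ⟨b, rfl⟩ := L.cov i hr
      rw [Finset.sum_eq_single b]
      · rw [if_pos ⟨rfl, rfl⟩]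
      · intro b' _ hb'
        rw [if_neg]
        rintro ⟨h4, -⟩
        exact hb' (L.o_inj _ _ h4)
      · intro h; exact absurd (Finset.mem_univ _) h
  · rw [if_neg hij, if_neg hij, add_zero, Finset.sum_eq_zero]
    intro b _
    rw [if_neg]
    rintro ⟨h4, h5⟩
    exact hij (h4.symm.trans h5)

/-- the row-zero data of the window algebra -/
def w2 : W2 w.dga where
  e b := WD.e (L.o b)
  f := L.fW
  e_mem b := WD.e_mem _
  f_mem := dg_mem _ _
  sum_ef := win_ext fun i j => L.sum_e i j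
  e_e b := WD.e_mul_e _
  f_f := win_ext fun i j => by
    refine (dg_mul _ _ _ i j).trans ?_
    change L.row i * Matrix.diagonal L.row i j = Matrix.diagonal L.row i j
    rw [Matrix.diagonal_apply]
    split_ifs with h
    · unfold row
      split_ifs
      · exact mul_one _
      · exact zero_mul _
    · exact mul_zero _
  e_ne b b' hb := win_ext fun i j => by
    refine (WD.e_mul_apply _ _ i j).trans ?_
    rw [e_apply]
    change _ = (0 : w.S)
    split_ifs with h1 h2
    · exact absurd (L.o_inj _ _ (h1.trans h2.1.symm)) hb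
    · rfl
    · rfl
  e_f b := win_ext fun i j => by
    refine (WD.e_mul_apply _ _ i j).trans ?_
    change (if L.o b = i then Matrix.diagonal L.row i j else 0) = (0 : w.S)
    rw [Matrix.diagonal_apply]
    split_ifs with h1 h2
    · subst h1
      exact if_neg (L.o_r1 b)
    · rfl
    · rfl
  f_e b := win_ext fun i j => by
    refine (WD.mul_e_apply _ _ i j).trans ?_
    change (if L.o b = j then Matrix.diagonal L.row i j else 0) = (0 : w.S)
    rw [Matrix.diagonal_apply]
    split_ifs with h1 h2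
    · subst h2
      rw [← h1]
      exact if_neg (L.o_r1 b)
    · rfl
    · rfl
  h := L.hW
  h_mem := L.hW_mem
  e_h b' b := by
    by_cases hb : b ≤ b'
    · refine win_ext fun i j => ?_
      refine (WD.e_mul_apply _ _ i j).trans ?_
      rw [L.hW_apply b' b hb]
      split_ifs with h1 h2 h3 <;> first | rfl | (exact absurd h3.1 h1)
    · rw [L.hW_zero b' b hb]
      exact mul_zero _
  h_e b' b := by
    by_cases hb : b ≤ b'
    · refine win_ext fun i j => ?_
      refine (WD.mul_e_apply _ _ i j).trans ?_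
      rw [L.hW_apply b' b hb]
      split_ifs with h1 h2 h3 <;> first | rfl | (exact absurd h3.2 h1)
    · rw [L.hW_zero b' b hb]
      exact zero_mul _
  h_self b := by
    refine win_ext fun i j => ?_
    rw [L.hW_apply b b le_rfl, Nat.sub_self, L.H_zero]
    exact (e_apply _ _ _).symm
  h_h b' c b h1 h2 := by
    have e : ((b' : ℕ) - (c : ℕ)) + ((c : ℕ) - (b : ℕ)) = (b' : ℕ) - (b : ℕ) := by
      have h3 : (b : ℕ) ≤ c := h1
      have h4 : (c : ℕ) ≤ b' := h2
      omega
    rw [hW, dif_pos h2, hW, dif_pos h1, hW, dif_pos (h1.trans h2)]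
    refine (WD.ws_mul _ _).trans ?_
    congr 1
    rw [L.H_add, e]
  h_zero := L.hW_zero
  y := L.yW
  y_mem := dg_mem _ _
  y_e b := win_ext fun i j => by
    refine (dg_mul _ _ _ i j).trans (Eq.trans ?_ (mul_dg _ _ _ i j).symm)
    rw [e_apply]
    split_ifs
    · rw [mul_one, one_mul]
    · rw [mul_zero, zero_mul]
  y_f := win_ext fun i j => by
    refine (dg_mul _ _ _ i j).trans (Eq.trans ?_ (mul_dg _ _ _ i j).symm)
    change L.y * Matrix.diagonal L.row i j = Matrix.diagonal L.row i j * L.y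
    rw [Matrix.diagonal_apply]
    split_ifs
    · unfold row
      split_ifs
      · rw [mul_one, one_mul]
      · rw [mul_zero, zero_mul]
    · rw [mul_zero, zero_mul]
  y_y := win_ext fun i j => by
    refine (dg_mul _ _ _ i j).trans ?_
    change L.y * Matrix.diagonal (fun _ => L.y) i j = (0 : w.S)
    rw [Matrix.diagonal_apply]
    split_ifs
    · exact L.y_y
    · exact mul_zero _
  y_h b' b := by
    by_cases hb : b ≤ b'
    · refine win_ext fun i j => ?_
      refine (dg_mul _ _ _ i j).trans (Eq.trans ?_ (mul_dg _ _ _ i j).symm)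
      rw [L.hW_apply b' b hb]
      split_ifs
      · exact L.y_H _
      · rw [mul_zero, zero_mul]
    · rw [L.hW_zero b' b hb]
      exact (mul_zero _).trans (zero_mul _).symm
  dec0 a ha b' b hb := by
    refine win_ext fun i j => ?_
    refine (WD.mul_e_apply _ _ i j).trans ?_
    split_ifs with h1
    · refine (WD.e_mul_apply _ _ i j).trans ?_
      split_ifs with h2
      · subst h1 h2
        exact L.z0 b' b hb _ (ha _ _)
      · rfl
    · rfl
  dec a ha b' b hb := by
    obtain ⟨c, c', k, hk, u, v, hu, hv, he⟩ := L.sp b' b hb _ (ha (L.o b') (L.o b))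
    refine ⟨c, c', fun j => WD.ws (L.o b') k (u j) (WD.q_le _ _ 0 (hu j)),
      fun j => WD.ws k (L.o b) (v j) (WD.q_le _ _ 0 (hv j)), fun j => WD.ws_mem_G (hu j),
      fun j => WD.ws_mem_G (hv j), ?_⟩
    have h1 : ∀ j, WD.ws (L.o b') k (u j) (WD.q_le _ _ 0 (hu j)) * L.fW =
        WD.ws (L.o b') k (u j) (WD.q_le _ _ 0 (hu j)) := by
      intro j
      refine win_ext fun i l => ?_
      refine (mul_dg _ _ _ i l).trans ?_
      rw [WD.ws_apply]
      split_ifs with h
      · rw [← h.2, row, if_pos hk, mul_one]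
      · rw [zero_mul]
    have h2 : WD.e (L.o b') * (show w.Win from a) * WD.e (L.o b) =
        WD.ws (L.o b') (L.o b) ((show w.Win from a).1 (L.o b') (L.o b))
          ((show w.Win from a).2 _ _) := by
      refine win_ext fun i l => ?_
      rw [WD.mul_e_apply, WD.e_mul_apply, WD.ws_apply]
      by_cases h3 : L.o b = l
      · by_cases h4 : L.o b' = i
        · subst h3 h4
          rw [if_pos rfl, if_pos rfl, if_pos ⟨rfl, rfl⟩]
        · rw [if_pos h3, if_neg h4, if_neg (fun h => h4 h.1)]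
      · rw [if_neg h3, if_neg (fun h => h3 h.2)]
    refine (show _ = _ from h2).trans ?_
    refine win_ext fun i l => ?_
    have h5 : ∀ x y z : w.Win, (x + y + z).1 i l = x.1 i l + y.1 i l + z.1 i l := fun _ _ _ => rfl
    refine Eq.trans ?_ (h5 _ _ _).symm
    have h6 : (∑ j, WD.ws (L.o b') k (u j) (WD.q_le _ _ 0 (hu j)) * L.fW *
        WD.ws k (L.o b) (v j) (WD.q_le _ _ 0 (hv j)) : w.Win).1 i l =
        if L.o b' = i ∧ L.o b = l then ∑ j, u j * v j else 0 := by
      have h7 := map_sum w.Win.val (fun j => WD.ws (L.o b') k (u j) (WD.q_le _ _ 0 (hu j)) * L.fW *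
        WD.ws k (L.o b) (v j) (WD.q_le _ _ 0 (hv j))) Finset.univ
      have h8 := congrFun (congrFun h7 i) l
      rw [Matrix.sum_apply] at h8
      refine h8.trans ?_
      by_cases h : L.o b' = i ∧ L.o b = l
      · rw [if_pos h]
        refine Finset.sum_congr rfl fun j _ => ?_
        rw [h1, WD.ws_mul]
        change (WD.ws (L.o b') (L.o b) (u j * v j) (WD.E_mul (WD.q_le _ _ 0 (hu j))
          (WD.q_le _ _ 0 (hv j)))).1 i l = _
        rw [WD.ws_apply, if_pos h]
      · rw [if_neg h]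
        refine Finset.sum_eq_zero fun j _ => ?_
        rw [h1, WD.ws_mul]
        change (WD.ws (L.o b') (L.o b) (u j * v j) (WD.E_mul (WD.q_le _ _ 0 (hu j))
          (WD.q_le _ _ 0 (hv j)))).1 i l = _
        rw [WD.ws_apply, if_neg h]
    refine Eq.trans ?_ (congrArg₂ (· + ·) (congrArg₂ (· + ·)
      (show c • (L.hW b' b).1 i l = _ from rfl)
      (show c' • (L.hW b' b * L.yW).1 i l = _ from rfl)) h6.symm)
    rw [WD.ws_apply, L.hW_apply b' b hb]
    have h9 : (L.hW b' b * L.yW).1 i l = (L.hW b' b).1 i l * L.y := mul_dg _ _ _ i l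
    rw [h9, L.hW_apply b' b hb]
    by_cases h : L.o b' = i ∧ L.o b = l
    · rw [if_pos h, if_pos h, if_pos h]
      exact he
    · rw [if_neg h, if_neg h, if_neg h, zero_mul, smul_zero, smul_zero, add_zero, add_zero]

end Lt

end gen

/-! ### 339's form -/

/-- the window data in 339's form -/
def W2.wdat {A : DGA K} (W : W2 A) : VT339.Wdat A where
  ι := Fin 4
  o := 3
  e := W.e
  fs := W.f
  H := W.h
  T b b' := if b' ≤ b then 1 else 0
  y := W.y
  e_mem := W.e_mem
  fs_mem := W.f_mem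
  H_mem := W.h_mem
  y_mem := W.y_mem
  one := W.sum_ef
  e_e b b' := by
    split_ifs with h
    · subst h; exact W.e_e b
    · exact W.e_ne b b' h
  e_H := W.e_h
  H_e := W.h_e
  H_H b b' := by
    split_ifs with h
    · rw [one_smul]
      exact W.h_h 3 b b' h (Fin.le_last b)
    · rw [W.h_zero b b' h, mul_zero, zero_smul]
  T_o b := if_pos (Fin.le_last b)
  H_o := W.h_self 3
  y_y := W.y_y
  y_H := W.y_h
  y_e := W.y_e
  split a ha b b' := by
    by_cases h : b' ≤ b
    · obtain ⟨c, c', u, v, hu, hv, he⟩ := W.dec a ha b b' h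
      refine ⟨c, c', ?_⟩
      rw [he, W.y_h, add_sub_cancel_left]
      exact Submodule.sum_mem _ fun j _ => Submodule.subset_span ⟨u j, hu j, v j, hv j, rfl⟩
    · refine ⟨0, 0, ?_⟩
      rw [W.dec0 a ha b b' h, zero_smul, zero_smul, add_zero, sub_zero]
      exact Submodule.zero_mem _

/-! ### the concrete letters -/

section conc

variable (π : Par K)

theorem y0_mem : X π (.y 0) ∈ pcZ π 0 0 0 := by
  have h : X π (.y 0) ∈ pc π 0 0 0 := Submodule.subset_span ⟨[.y 0], by simp [wP, dP],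
    by simp [wA, dA], by simp [wC, dC], by simp [wd]⟩
  have := pcZ_nat π 0 0 0
  rw [← this] at h
  exact_mod_cast h

theorem hpow_mem (n : ℕ) : X π .h ^ n ∈ pcZ π 0 n 0 := by
  have h : X π .h ^ n ∈ pc π 0 n 0 := Submodule.subset_span ⟨List.replicate n .h, by simp [wP, dP],
    by simp [wA, dA], by simp [wC, dC], by simp [wd]⟩
  have := pcZ_nat π 0 n 0
  rw [← this] at h
  exact_mod_cast h

theorem d_mem (j : Fin 2) : X π (.d j) ∈ pcZ π (-1) 1 0 := by
  have h : X π (.d j) ∈ pc π (-1) 1 0 := Submodule.subset_span ⟨[.d j], by simp [wP, dP],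
    by simp [wA, dA], by simp [wC, dC], by simp [wd]⟩
  have := pcZ_nat π (-1) 1 0
  rw [← this] at h
  exact_mod_cast h

/-- the vertex `(i, b)` -/
def ob (i : Fin 2) (b : Fin 4) : (WR π).Ob := (i, b)

theorem q_ob {i i' : Fin 2} {b b' : Fin 4} {C : ℤ} {r : R π} :
    (show (WR π).S from r) ∈ (WR π).q (ob π i' b') (ob π i b) C ↔
      r ∈ pcZ π ((i' : ℤ) - (i : ℤ)) ((b' : ℤ) - (b : ℤ)) C := Iff.rfl

/-- **the letters of the window of `R''`** -/
def ltR : Lt (WR π) where
  o b := ob π 0 b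
  o_inj b b' h := congrArg Prod.snd h
  r1 o := (show DefsQ830.Ob from o).1 = 1
  dr := fun o => inferInstanceAs (Decidable ((show DefsQ830.Ob from o).1 = 1))
  o_r1 b := by
    change ¬ (0 : Fin 2) = 1
    decide
  cov x hx := by
    obtain ⟨i, b⟩ := x
    refine ⟨b, ?_⟩
    have : i = 0 := by
      rcases PBW128.fin2 i with h | h
      · exact h
      · exact absurd h hx
    subst this
    rfl
  H n := (show R π from X π .h ^ n)
  H_mem b' b hb := by
    have h := hpow_mem π ((b' : ℕ) - (b : ℕ))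
    have h1 : (b : ℕ) ≤ b' := hb
    have e : ((((b' : ℕ) - (b : ℕ) : ℕ)) : ℤ) = (b' : ℤ) - (b : ℤ) := by omega
    rw [e] at h
    refine (q_ob π).2 ?_
    rw [sub_self]
    exact h
  H_zero := pow_zero _
  H_add m n := (pow_add _ m n).symm
  y := X π (.y 0)
  y_mem := y0_mem π
  y_H n := ((comm_h π (.y 0)).symm.pow_right n).eq
  y_y := by
    have := mk_rel π (Rel.yy (π := π) 0)
    rw [map_mul, map_zero] at this
    exact this
  z0 b' b hb r hr := by
    have h := (q_ob π).1 hr
    rw [pcZ_neg π (Or.inl (by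
      have h1 : ¬ (b : ℕ) ≤ b' := hb
      omega))] at h
    exact (Submodule.mem_bot K).1 h
  sp b' b hb r hr := by
    have h := (q_ob π).1 hr
    have h1 : (b : ℕ) ≤ b' := hb
    have e : (b' : ℤ) - (b : ℤ) = (((b' : ℕ) - (b : ℕ) : ℕ) : ℤ) := by omega
    rw [sub_self, e] at h
    have h2 : r ∈ pc π 0 ((b' : ℕ) - (b : ℕ)) 0 := by
      have := pcZ_nat π 0 ((b' : ℕ) - (b : ℕ)) 0
      rw [← this]
      exact_mod_cast h
    obtain ⟨c, c', s, hs, he⟩ := V2k981.split_zero π h2
    by_cases hn : (b' : ℕ) = b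
    · refine ⟨c, c', ob π 1 b', rfl, 0, 0, fun _ => Submodule.zero_mem _,
        fun _ => Submodule.zero_mem _, ?_⟩
      have hs0 : ∀ j, s j = 0 := by
        intro j
        have := hs j
        rw [pcZ_neg π (Or.inl (by omega))] at this
        exact (Submodule.mem_bot K).1 this
      rw [hs0, hs0, mul_zero, mul_zero, add_zero, add_zero] at he
      simp only [Pi.zero_apply, mul_zero, Finset.sum_const_zero, add_zero]
      exact he
    · let b1 : Fin 4 := ⟨(b' : ℕ) - 1, by have := b'.2; omega⟩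
      have hb1 : ((b1 : ℕ) : ℤ) = (b' : ℤ) - 1 := by
        change (((b' : ℕ) - 1 : ℕ) : ℤ) = _
        omega
      refine ⟨c, c', ob π 1 b1, rfl, fun j => (show R π from X π (.d j)),
        fun j => (show R π from s j), fun j => ?_, fun j => ?_, ?_⟩
      · refine (q_ob π).2 ?_
        have h3 := d_mem π j
        rw [hb1]
        have e1 : ((0 : Fin 2) : ℤ) - ((1 : Fin 2) : ℤ) = -1 := by decide
        have e2 : (b' : ℤ) - ((b' : ℤ) - 1) = 1 := by ring
        rw [e2]
        convert h3 using 2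
      · refine (q_ob π).2 ?_
        have h3 := hs j
        rw [hb1]
        have e2 : (b' : ℤ) - 1 - (b : ℤ) = (((b' : ℕ) - (b : ℕ) : ℕ) : ℤ) - 1 := by omega
        rw [e2]
        convert h3 using 2
        simp
      · rw [Fin.sum_univ_two]
        exact he

variable (s : ℕ) (hs : 2 ≤ s)

/-- in degree `0` there is nothing of `M` -/
theorem onto0 (h3 : 3 ≤ s) (b : (SM890.Gm π s hs).C) (hb : b ∈ (SM890.Gm π s hs).G 0) :
    ∃ a ∈ (WR π).dga.G 0, (SM890.HmI π s hs).f a = b := by
  refine ⟨(SM890.HmP π s hs).f b, (SM890.HmP π s hs).mem hb, ?_⟩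
  refine win_ext fun i j => ?_
  refine SExt44.BD.Car.ext _ rfl ?_
  have h1 := (SM890.bdM π s hs).snd_mem (hb i j)
  have h2 : SM890.pcM π s ((WR π).P i - (WR π).P j) ((WR π).A i - (WR π).A j) 0 = ⊥ := by
    apply SM890.pcM_bot
    intro q
    have := wC_word_le q
    exact pcZ_neg π (Or.inr (by omega))
  have h3 : ((show Matrix (WR π).Ob (WR π).Ob (SM890.bdM π s hs).Car from b.1) i j).2 = 0 := by
    have h4 : ((show Matrix (WR π).Ob (WR π).Ob (SM890.bdM π s hs).Car from b.1) i j).2 ∈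
      SM890.pcM π s ((WR π).P i - (WR π).P j) ((WR π).A i - (WR π).A j) 0 := h1
    rw [h2] at h4
    exact (Submodule.mem_bot K).1 h4
  exact h3.symm

/-- **the row-zero data of `Γ`** -/
noncomputable def w2G (h3 : 3 ≤ s) : W2 (SM890.Gm π s hs) := (ltR π).w2.map (SM890.HmI π s hs) (onto0 π s hs h3)

/-- **the window data of `Γ` in 339's form** -/
noncomputable def wdatG (h3 : 3 ≤ s) : VT339.Wdat (SM890.Gm π s hs) := (w2G π s hs h3).wdat

end conc

end Crest.Agent.R186.V2c510
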