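import Crest.Agent.R186.ColAd2_977
import Crest.Agent.R186.V2c_510
import Crest.Agent.R186.VH_339

/-!
# Row 186, half (A), leaf (V), plug HB (helper977): 339's `HB` for `Y ⊗ M` from the columns of `M`

* `MF.colE / MF.colHE` : `Col` / `ColH` for arbitrary elements given by their entries.
* `hb_cols` : `HB (wdatG ..) (tQ Y (resBR (fstH ..) (tbOf ..).win)) n` from
  `Ac (tY Y (colL MB (P (1,b)) (A (1,b))))` (`b : Fin 4`) and
  `QI (tYmap Y (rHom h : column (0,b+1) → column (0,b)))` (`b < 3`).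
-/

set_option autoImplicit false
set_option linter.style.haveILetI false
set_option linter.unusedSectionVars false

open MulOpposite

noncomputable section

namespace Crest.Agent.R186.ColAd977

open Frame515 Hat827 TB143 Win810 Col921 SExt44

section gen

variable {K : Type} [Field K] {w : WD K} {D : BD w} {P : BM w.dga D.ext.dga}

/-- the first component of `a` is the matrix with the single entry `s` at `(o, o')` -/
def At (D : BD w) (o o' : w.Ob) (s : w.S) (a : D.ext.dga.C) : Prop :=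
  ∀ l j, (show D.Car from (a : D.ext.Win).1 l j).1 = if o = l ∧ o' = j then s else 0

variable (F : MF D P)

theorem MF.en_at {o o' : w.Ob} {s : w.S} {a : D.ext.dga.C} (ha : At D o o' s a) (x : P.X)
    (i j : w.Ob) : F.en (op a • x) i j = if o' = j then D.rM s (F.en x i o) else 0 := by
  rw [F.en_r]
  have h1 : ∀ l : w.Ob, D.rM ((show D.Car from (a : D.ext.Win).1 l j).1) (F.en x i l) =
      if o = l then (if o' = j then D.rM s (F.en x i o) else 0) else 0 := by
    intro l
    rw [ha l j]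
    by_cases ho : o = l
    · subst ho
      by_cases hj : o' = j
      · rw [if_pos ⟨rfl, hj⟩, if_pos rfl, if_pos hj]
      · rw [if_neg (fun h => hj h.2), if_pos rfl, if_neg hj, map_zero]
        rfl
    · rw [if_neg (fun h => ho h.1), if_neg ho, map_zero]
      rfl
  rw [Finset.sum_congr rfl fun l _ => h1 l, Finset.sum_ite_eq]
  simp

/-- the column of `P` at an idempotent given by its entries -/
def MF.colE {o : w.Ob} {e : D.ext.dga.C} (he : At D o o 1 e) :
    Col P (colL (lbD D) (w.P o) (w.A o)) e where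
  c := (F.col o).c
  i := (F.col o).i
  ci := (F.col o).ci
  ic x := F.en_ext fun i j => by
    show F.en (F.iMap o (F.cMap o x)) i j = _
    rw [F.en_iMap, F.en_at he]
    by_cases hj : o = j
    · rw [if_pos hj, if_pos hj]
      exact (D.rM_one _).symm
    · rw [if_neg hj, if_neg hj]

/-- right multiplication by an element given by its entries -/
def MF.colHE {o o' : w.Ob} {s : w.S} (hs : s ∈ w.q o o' 0) (h0 : w.D s = 0) {e e' h : D.ext.dga.C}
    (he : At D o o 1 e) (he' : At D o' o' 1 e') (hh : At D o o' s h) (h1 : h * e' = h)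
    (h2 : e * h = h) : ColH (F.colE he) (F.colE he') h where
  η := MF.rHom D hs h0
  link p := by
    refine cvx fun i => ?_
    show F.en (op h • p) i o' = D.rM s (F.en p i o)
    rw [F.en_at hh, if_pos rfl]
  he := h1
  eh := h2

theorem At.inlW {o o' : w.Ob} {s : w.S} {a : w.dga.C} (ha : ∀ l j, (show w.Win from a).1 l j =
    if o = l ∧ o' = j then s else 0) : At D o o' s (show D.ext.dga.C from D.inlW a) := fun l j => ha l j

/-! ### the sum of the columns -/

/-- acyclic columns for a family of idempotents: their sum kills homology -/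
theorem sum_bd {A : DGA K} {G : RM A} {n : ℤ} {γ : Type} (t : Finset γ) (f : γ → A.C)
    (hG : ∀ c, f c ∈ A.G 0) (hff : ∀ c, f c * f c = f c)
    (hac : ∀ c, ∀ x ∈ G.gr n, op (f c) • x = x → G.d x = 0 → ∃ y ∈ G.gr (n + 1), G.d y = x)
    (z : G.X) (hz : z ∈ VT339.cyc G n) : op (∑ c ∈ t, f c) • z ∈ VT339.bd G n := by
  rw [show op (∑ c ∈ t, f c) = ∑ c ∈ t, op (f c) from map_sum (opAddEquiv (α := A.C)) _ _,
    Finset.sum_smul]
  refine Submodule.sum_mem _ fun c _ => ?_
  have h1 := VT339.cyc_act hz (hG c)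
  obtain ⟨y, hy, e⟩ := hac c _ h1.1 (by rw [← mul_smul, ← op_mul, hff]) h1.2
  exact ⟨y, hy, e⟩

end gen

/-! ### the concrete window of `M` -/

section conc

open V2c510 VT339 DefsQ830 DefsQ830.Gen PBW128

variable {K : Type} [Field K] (π : Par K) (s : ℕ) (hs : 2 ≤ s)

/-- 921's form of 153's bimodule `M` -/
abbrev MB : LB (WR π) := lbD (SM890.bdM π s hs)

/-- `h` goes from `(0,b+1)` to `(0,b)` -/
theorem h_q (b : Fin 3) :
    (show (WR π).S from X π .h) ∈ (WR π).q (ob π 0 b.succ) (ob π 0 b.castSucc) 0 := by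
  refine (q_ob π).2 ?_
  have h := hpow_mem π 1
  rw [pow_one] at h
  have e : (((b.succ : Fin 4) : ℕ) : ℤ) - (((b.castSucc : Fin 4) : ℕ) : ℤ) = ((1 : ℕ) : ℤ) := by
    rw [Fin.val_succ, Fin.val_castSucc]
    push_cast
    ring
  rw [sub_self, e]
  exact h

theorem h_D : (WR π).D (show (WR π).S from X π .h) = 0 := by
  change Der580.D π (X π .h) = 0
  rw [Der580.D_X]
  simp [dGen]

/-- **right multiplication by `h` on the columns of `M`, `(0,b+1) → (0,b)`** -/
def hSt (b : Fin 3) : LMHom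
    (colL (MB π s hs) ((WR π).P (ob π 0 b.succ)) ((WR π).A (ob π 0 b.succ)))
    (colL (MB π s hs) ((WR π).P (ob π 0 b.castSucc)) ((WR π).A (ob π 0 b.castSucc))) :=
  MF.rHom (SM890.bdM π s hs) (h_q π b) (h_D π)

/-- the all-matrix window of `M` over `(L'', Γ)` -/
abbrev MT : BM (WR π).dga (SM890.Gm π s hs) :=
  Res255.resBR (SM890.fstH (SM890.bdM π s hs)) (SM890.tbOf (SM890.bdM π s hs)).win

/-- the idempotent of `(i,b)` in `Γ` -/
def eG (i : Fin 2) (b : Fin 4) : (SM890.Gm π s hs).C :=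
  (SM890.HmI π s hs).f (show (WR π).dga.C from WD.e (ob π i b))

theorem eG_at (i : Fin 2) (b : Fin 4) :
    At (SM890.bdM π s hs) (ob π i b) (ob π i b) 1 (eG π s hs i b) :=
  At.inlW fun l j => e_apply (ob π i b) l j

theorem eG_mem (i : Fin 2) (b : Fin 4) : eG π s hs i b ∈ (SM890.Gm π s hs).G 0 :=
  (SM890.HmI π s hs).mem (WD.e_mem _)

theorem eG_eG (i : Fin 2) (b : Fin 4) : eG π s hs i b * eG π s hs i b = eG π s hs i b := by
  unfold eG
  rw [← map_mul]
  congr 1
  exact WD.e_mul_e _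

theorem sum_e1 : (ltR π).fW = ∑ b : Fin 4, (show (WR π).Win from WD.e (ob π 1 b)) := by
  refine win_ext fun i j => ?_
  have h1 : (∑ b, (show (WR π).Win from WD.e (ob π 1 b))).1 i j =
      ∑ b, (WD.e (ob π 1 b)).1 i j := by
    have := map_sum (WR π).Win.val (fun b => WD.e (ob π 1 b)) Finset.univ
    have h2 := congrFun (congrFun this i) j
    rw [Matrix.sum_apply] at h2
    exact h2
  rw [h1]
  simp only [e_apply]
  have h3 : (ltR π).fW.1 i j = if i = j then (ltR π).row i else 0 := Matrix.diagonal_apply _ _ _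
  rw [h3]
  by_cases hij : i = j
  · subst hij
    rw [if_pos rfl]
    by_cases hr : (ltR π).r1 i
    · rw [Lt.row, if_pos hr]
      obtain ⟨i1, b1⟩ := i
      have hr' : i1 = 1 := hr
      subst hr'
      rw [Finset.sum_eq_single b1]
      · rw [if_pos ⟨rfl, rfl⟩]
      · intro b' _ hb'
        rw [if_neg]
        rintro ⟨h4, -⟩
        exact hb' (congrArg Prod.snd h4)
      · intro h; exact absurd (Finset.mem_univ _) h
    · rw [Lt.row, if_neg hr, Finset.sum_eq_zero]
      intro b _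
      rw [if_neg]
      rintro ⟨h4, -⟩
      exact hr (congrArg Prod.fst h4.symm)
  · rw [if_neg hij, Finset.sum_eq_zero]
    intro b _
    rw [if_neg]
    rintro ⟨h4, h5⟩
    exact hij (h4.symm.trans h5)

/-- one step -/
theorem stp_h (h3 : 3 ≤ s) (Y : RCells (WR π).dga) (b : Fin 3)
    (h2 : QI (tYmap Y (hSt π s hs b))) (n : ℤ) :
    Stp (tQ Y (MT π s hs)) n ((w2G π s hs h3).e b.succ) ((w2G π s hs h3).e b.castSucc)
      ((w2G π s hs h3).h b.succ b.castSucc) := by
  have hle : b.castSucc ≤ b.succ := Fin.castSucc_lt_succ.le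
  have e1 : ((b.succ : Fin 4) : ℕ) - ((b.castSucc : Fin 4) : ℕ) = 1 := by
    rw [Fin.val_succ, Fin.val_castSucc]
    omega
  have hh : At (SM890.bdM π s hs) (ob π 0 b.succ) (ob π 0 b.castSucc) (show (WR π).S from X π .h)
      ((w2G π s hs h3).h b.succ b.castSucc) := by
    refine At.inlW (a := (ltR π).hW b.succ b.castSucc) fun l j => ?_
    rw [(ltR π).hW_apply _ _ hle, e1]
    show (if _ then (show R π from X π .h ^ 1) else 0) = _
    rw [pow_one]
    rfl
  let H := (mfT (SM890.bdM π s hs)).colHE (h_q π b) (h_D π) (eG_at π s hs 0 b.succ)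
    (eG_at π s hs 0 b.castSucc) hh ((w2G π s hs h3).h_e _ _) ((w2G π s hs h3).e_h _ _)
  refine Stp.of_col ((w2G π s hs h3).e_mem _) ((w2G π s hs h3).e_mem _) ((w2G π s hs h3).e_e _)
    ((w2G π s hs h3).e_e _) ((w2G π s hs h3).e_h _ _) ?_ ?_
  · intro z hz hd he
    obtain ⟨x, hx, -, hxd, y, hy, -, e⟩ := H.surj Y h2 n z hz he hd
    exact ⟨x, hx, hxd, y, hy, e⟩
  · intro z hz hd he hb
    obtain ⟨y, hy, -, e⟩ := H.inj Y h2 n z hz he hd hb
    exact ⟨y, hy, e⟩

/-- **plug HB of leaf (V), from the columns of `M`** -/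
theorem hb_cols (h3 : 3 ≤ s) (Y : RCells (WR π).dga)
    (h1 : ∀ b : Fin 4, Ac (tY Y (colL (MB π s hs) ((WR π).P (ob π 1 b)) ((WR π).A (ob π 1 b)))))
    (h2 : ∀ b : Fin 3, QI (tYmap Y (hSt π s hs b))) (n : ℤ) :
    HB (wdatG π s hs h3) (tQ Y (MT π s hs)) n := by
  refine HB.of_four (W := wdatG π s hs h3) ?_ (fun i : Fin 4 => i) rfl (fun i => ⟨i, rfl⟩)
    (stp_h π s hs h3 Y 2 (h2 2) n) (stp_h π s hs h3 Y 1 (h2 1) n) (stp_h π s hs h3 Y 0 (h2 0) n)
    (show (if (1 : Fin 4) ≤ 2 then (1 : K) else 0) = 1 from if_pos (by decide))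
    (show (if (0 : Fin 4) ≤ 1 then (1 : K) else 0) = 1 from if_pos (by decide))
  intro z hz
  have hf : (wdatG π s hs h3).fs = ∑ b : Fin 4, eG π s hs 1 b := by
    show (SM890.HmI π s hs).f (ltR π).fW = _
    rw [sum_e1]
    exact map_sum (SM890.HmI π s hs).f _ _
  rw [hf]
  refine sum_bd Finset.univ (eG π s hs 1) (eG_mem π s hs 1) (eG_eG π s hs 1) ?_ z hz
  intro b x hx he hd
  obtain ⟨y, hy, -, e⟩ := ((mfT (SM890.bdM π s hs)).colE (eG_at π s hs 1 b)).ac Y (h1 b) n x hx he hd
  exact ⟨y, hy, e⟩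

end conc

end Crest.Agent.R186.ColAd977
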