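import Crest.Agent.R186.HatA_827

/-!
Row 186, leaf R3 (helper810): the window algebra of a tri-graded differential algebra, model-independent.

`WD K` : a `K`-algebra `S` of characteristic two with pieces `pc P A C` (P-degree, Adams degree,
minus cohomological degree), a differential `D`, and a finite window `Ob` with positions `P, A`.
`WD.Win` : the subalgebra of `Matrix Ob Ob S` with entries `(i, j)` in
`⨆ C, pc (P i - P j) (A i - A j) C` (row = target, column = source, left modules).
`WD.dga` : the structure `Hat827.DGA` of 827.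
-/

set_option autoImplicit false
set_option linter.style.haveILetI false

namespace Crest.Agent.R186.Win810

open Hat827

/-- tri-graded differential algebra in characteristic two with a finite window -/
structure WD (K : Type) [Field K] where
  S : Type
  [ring : Ring S]
  [alg : Algebra K S]
  two : ∀ a : S, a + a = 0
  pc : ℤ → ℤ → ℤ → Submodule K S
  one_mem : (1 : S) ∈ pc 0 0 0
  mul_mem : ∀ {P A C P' A' C' : ℤ} {a b : S}, a ∈ pc P A C → b ∈ pc P' A' C' →
    a * b ∈ pc (P + P') (A + A') (C + C')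
  D : S →ₗ[K] S
  D_mul : ∀ a b : S, D (a * b) = D a * b + a * D b
  D_D : ∀ a : S, D (D a) = 0
  D_mem : ∀ {P A C : ℤ} {a : S}, a ∈ pc P A C → D a ∈ pc P A (C - 1)
  Ob : Type
  [fo : Fintype Ob]
  [de : DecidableEq Ob]
  P : Ob → ℤ
  A : Ob → ℤ
  N : ℕ
  neg : ∀ (i j : Ob) (C : ℤ), C < 0 → pc (P i - P j) (A i - A j) C = ⊥
  big : ∀ (i j : Ob) (C : ℤ), (N : ℤ) < C → pc (P i - P j) (A i - A j) C = ⊥
  fin : ∀ (i j : Ob) (C : ℤ), Module.Finite K (pc (P i - P j) (A i - A j) C)

attribute [instance] WD.ring WD.alg WD.fo WD.de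

variable {K : Type} [Field K]

namespace WD

variable (w : WD K)

/-- entries of cohomological degree `-C` -/
def q (i j : w.Ob) (C : ℤ) : Submodule K w.S := w.pc (w.P i - w.P j) (w.A i - w.A j) C

/-- entries -/
def E (i j : w.Ob) : Submodule K w.S := ⨆ C : ℤ, w.q i j C

variable {w}

theorem q_le (i j : w.Ob) (C : ℤ) : w.q i j C ≤ w.E i j := le_iSup (fun C => w.q i j C) C

theorem q_mul {i j l : w.Ob} {C C' : ℤ} {a b : w.S} (ha : a ∈ w.q i j C) (hb : b ∈ w.q j l C') :
    a * b ∈ w.q i l (C + C') := by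
  have h := w.mul_mem ha hb
  unfold q
  rwa [show w.P i - w.P j + (w.P j - w.P l) = w.P i - w.P l by ring,
    show w.A i - w.A j + (w.A j - w.A l) = w.A i - w.A l by ring] at h

theorem q_one (i : w.Ob) : (1 : w.S) ∈ w.q i i 0 := by
  unfold q
  rw [sub_self, sub_self]
  exact w.one_mem

theorem q_D {i j : w.Ob} {C : ℤ} {a : w.S} (ha : a ∈ w.q i j C) : w.D a ∈ w.q i j (C - 1) :=
  w.D_mem ha

theorem E_mul {i j l : w.Ob} {a b : w.S} (ha : a ∈ w.E i j) (hb : b ∈ w.E j l) :
    a * b ∈ w.E i l := by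
  have key : w.E i j * w.E j l ≤ w.E i l := by
    unfold E
    rw [Submodule.iSup_mul]
    refine iSup_le fun C => ?_
    rw [Submodule.mul_iSup]
    refine iSup_le fun C' => ?_
    refine Submodule.mul_le.2 fun a ha b hb => ?_
    exact q_le i l (C + C') (q_mul ha hb)
  exact key (Submodule.mul_mem_mul ha hb)

theorem E_D {i j : w.Ob} {a : w.S} (ha : a ∈ w.E i j) : w.D a ∈ w.E i j := by
  have key : w.E i j ≤ (w.E i j).comap w.D := by
    refine iSup_le fun C => ?_
    intro x hx
    exact q_le i j (C - 1) (q_D hx)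
  exact key ha

theorem E_eq (i j : w.Ob) : w.E i j = ⨆ C : Fin (w.N + 1), w.q i j (C : ℕ) := by
  apply le_antisymm
  · refine iSup_le fun C => ?_
    by_cases h0 : C < 0
    · rw [show w.q i j C = ⊥ from w.neg i j C h0]
      exact bot_le
    · by_cases h1 : (w.N : ℤ) < C
      · rw [show w.q i j C = ⊥ from w.big i j C h1]
        exact bot_le
      · obtain ⟨m, rfl⟩ : ∃ m : ℕ, C = m := ⟨C.toNat, by omega⟩
        exact le_iSup (fun C : Fin (w.N + 1) => w.q i j (C : ℕ)) ⟨m, by omega⟩
  · exact iSup_le fun C => q_le i j _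

instance finE (i j : w.Ob) : Module.Finite K (w.E i j) := by
  rw [E_eq]
  haveI : ∀ C : Fin (w.N + 1), Module.Finite K (w.q i j (C : ℕ)) := fun C => w.fin i j _
  exact Submodule.finite_iSup _

variable (w)

/-- the window algebra -/
def Win : Subalgebra K (Matrix w.Ob w.Ob w.S) where
  carrier := {m | ∀ i j, m i j ∈ w.E i j}
  mul_mem' := by
    intro a b ha hb i j
    rw [Matrix.mul_apply]
    exact Submodule.sum_mem _ fun l _ => E_mul (ha i l) (hb l j)
  add_mem' := by
    intro a b ha hb i j
    exact Submodule.add_mem _ (ha i j) (hb i j)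
  algebraMap_mem' := by
    intro r i j
    rw [Matrix.algebraMap_matrix_apply]
    split_ifs with h
    · subst h
      rw [Algebra.algebraMap_eq_smul_one]
      exact Submodule.smul_mem _ _ (q_le i i 0 (q_one i))
    · exact Submodule.zero_mem _

variable {w}

theorem mem_Win {m : Matrix w.Ob w.Ob w.S} : m ∈ w.Win ↔ ∀ i j, m i j ∈ w.E i j := Iff.rfl

/-- the coordinates of the window algebra -/
def co : w.Win →ₗ[K] (∀ i j : w.Ob, w.E i j) where
  toFun m := fun i j => ⟨m.1 i j, m.2 i j⟩
  map_add' _ _ := rfl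
  map_smul' _ _ := rfl

instance finWin : Module.Finite K w.Win := by
  refine Module.Finite.of_injective (co (w := w)) ?_
  intro a b hab
  apply Subtype.ext
  ext i j
  exact congrArg Subtype.val (congrFun (congrFun hab i) j)

/-- a matrix unit -/
def sg (i j : w.Ob) (a : w.S) : Matrix w.Ob w.Ob w.S := Matrix.single i j a

theorem sg_mem {i j : w.Ob} {a : w.S} (ha : a ∈ w.E i j) : sg i j a ∈ w.Win := by
  intro i' j'
  unfold sg
  rw [Matrix.single_apply]
  split_ifs with h
  · obtain ⟨rfl, rfl⟩ := h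
    exact ha
  · exact Submodule.zero_mem _

/-- a matrix unit in the window algebra -/
def ws (i j : w.Ob) (a : w.S) (ha : a ∈ w.E i j) : w.Win := ⟨sg i j a, sg_mem ha⟩

variable (w)

/-- homogeneous elements -/
def G (k : ℤ) : Submodule K w.Win where
  carrier := {m | ∀ i j, m.1 i j ∈ w.q i j k}
  add_mem' := by
    intro a b ha hb i j
    exact Submodule.add_mem _ (ha i j) (hb i j)
  zero_mem' := by
    intro i j
    exact Submodule.zero_mem _
  smul_mem' := by
    intro r a ha i j
    exact Submodule.smul_mem _ _ (ha i j)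

/-- the differential -/
def DW : w.Win →ₗ[K] w.Win where
  toFun m := ⟨Matrix.of fun i j => w.D (m.1 i j), fun i j => E_D (m.2 i j)⟩
  map_add' a b := by
    apply Subtype.ext
    ext i j
    exact map_add w.D _ _
  map_smul' r a := by
    apply Subtype.ext
    ext i j
    exact map_smul w.D _ _

variable {w}

theorem mem_G {k : ℤ} {m : w.Win} : m ∈ w.G k ↔ ∀ i j, m.1 i j ∈ w.q i j k := Iff.rfl

@[simp] theorem DW_apply (m : w.Win) (i j : w.Ob) : (w.DW m).1 i j = w.D (m.1 i j) := rfl

theorem G_sum {k l : ℤ} {a b : w.Win} (ha : a ∈ w.G k) (hb : b ∈ w.G l) : a * b ∈ w.G (k + l) := by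
  intro i j
  change (a.1 * b.1) i j ∈ _
  rw [Matrix.mul_apply]
  exact Submodule.sum_mem _ fun m _ => q_mul (ha i m) (hb m j)

theorem G_bot {k : ℤ} (h : ∀ i j : w.Ob, w.q i j k = ⊥) : w.G k = ⊥ := by
  rw [eq_bot_iff]
  intro m hm
  rw [Submodule.mem_bot]
  apply Subtype.ext
  ext i j
  have := hm i j
  rw [h i j] at this
  exact (Submodule.mem_bot K).1 this

theorem G_one : (1 : w.Win) ∈ w.G 0 := by
  intro i j
  change (1 : Matrix w.Ob w.Ob w.S) i j ∈ _
  rw [Matrix.one_apply]
  split_ifs with h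
  · subst h
    exact q_one i
  · exact Submodule.zero_mem _

theorem DW_mul (a b : w.Win) : w.DW (a * b) = w.DW a * b + a * w.DW b := by
  apply Subtype.ext
  ext i j
  change w.D ((a.1 * b.1) i j) = ((w.DW a).1 * b.1) i j + (a.1 * (w.DW b).1) i j
  rw [Matrix.mul_apply, Matrix.mul_apply, Matrix.mul_apply, map_sum, ← Finset.sum_add_distrib]
  exact Finset.sum_congr rfl fun l _ => w.D_mul _ _

theorem DW_DW (a : w.Win) : w.DW (w.DW a) = 0 := by
  apply Subtype.ext
  ext i j
  exact w.D_D _

variable (w)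

/-- the dg algebra of the window, in the form consumed by the hat -/
def dga : DGA K where
  C := w.Win
  two := by
    intro a
    apply Subtype.ext
    ext i j
    exact w.two _
  N := w.N
  G := w.G
  G_neg k hk := G_bot fun i j => w.neg i j k hk
  G_big k hk := G_bot fun i j => w.big i j k hk
  one_mem := G_one
  mul_mem := G_sum
  D := w.DW
  D_mul := DW_mul
  D_D := DW_DW
  D_mem ha := fun i j => q_D (ha i j)

end WD

end Crest.Agent.R186.Win810
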