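import Crest.Agent.R186.Frame_515
import Crest.Agent.R186.Win_810

/-!
Row 186 (A) (helper810): the devissage theorem (TR) of 306, abstract form.

* `AcQ Y F F' n` : acyclicity of the subquotient `F / F'` of a complex in degree `n`.
* `AcQ.trans`, `AcQ.quot`, `AcQ.copies`, `AcQ.koszul`.
* `CRM θ p a` : the right module `cone (θ : row (p, a) → row (p, a + 1))` of a window algebra.
* `TRD w` : the algebraic hypotheses;  `TRD.main`.
-/

set_option autoImplicit false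
set_option linter.style.haveILetI false

open MulOpposite

namespace Crest.Agent.R186.TR810

open Hat827 Hat827.DGA Frame515 Win810

variable {K : Type} [Field K]

/-- `F / F'` is acyclic in degree `n` -/
def AcQ (Y : GC K) (F F' : Submodule K Y.X) (n : ℤ) : Prop :=
  ∀ x ∈ Y.gr n, x ∈ F → Y.d x ∈ F' → ∃ y ∈ Y.gr (n + 1), y ∈ F ∧ x - Y.d y ∈ F'

section abs

variable {Y : GC K}

theorem gr_d' {n : ℤ} {y : Y.X} (hy : y ∈ Y.gr (n + 1)) : Y.d y ∈ Y.gr n := by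
  have := Y.d_mem hy
  rwa [add_sub_cancel_right] at this

theorem AcQ.trans {F F' F'' : Submodule K Y.X} {n : ℤ} (h1 : F' ≤ F) (h2 : F'' ≤ F')
    (a : AcQ Y F F' n) (b : AcQ Y F' F'' n) : AcQ Y F F'' n := by
  intro x hx hF hd
  obtain ⟨y, hy, hyF, hz⟩ := a x hx hF (h2 hd)
  obtain ⟨y', hy', hyF', hz'⟩ := b (x - Y.d y) (Submodule.sub_mem _ hx (gr_d' hy)) hz
    (by rw [map_sub, Y.d_d, sub_zero]; exact hd)
  refine ⟨y + y', Submodule.add_mem _ hy hy', Submodule.add_mem _ hyF (h1 hyF'), ?_⟩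
  rw [map_add, ← sub_sub]
  exact hz'

theorem AcQ.refl (F : Submodule K Y.X) (n : ℤ) : AcQ Y F F n := by
  intro x _ hF _
  exact ⟨0, Submodule.zero_mem _, Submodule.zero_mem _, by rw [map_zero, sub_zero]; exact hF⟩

theorem AcQ.quot {F F' F'' : Submodule K Y.X} {n : ℤ} (h1 : F' ≤ F) (h2 : F'' ≤ F')
    (a : AcQ Y F F'' (n + 1)) (b : AcQ Y F' F'' n) : AcQ Y F F' (n + 1) := by
  intro x hx hF hd
  obtain ⟨y, hy, hyF, hz⟩ := b (Y.d x) (gr_d' hx) hd (by rw [Y.d_d]; exact Submodule.zero_mem _)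
  obtain ⟨z, hz1, hz2, hz3⟩ := a (x - y) (Submodule.sub_mem _ hx hy)
    (Submodule.sub_mem _ hF (h1 hyF)) (by rw [map_sub]; exact hz)
  refine ⟨z, hz1, hz2, ?_⟩
  have e : x - Y.d z = (x - y - Y.d z) + y := by abel
  rw [e]
  exact Submodule.add_mem _ (h2 hz3) hyF

/-- a graded piece which is a finite sum of shifted copies -/
theorem AcQ.copies {κ : Type} [Fintype κ] {F F' : Submodule K Y.X} {n : ℤ}
    (hF' : ∀ x ∈ F', Y.d x ∈ F')
    (Z : κ → GC K) (J : ∀ k, Submodule K (Z k).X) (h : κ → ℤ) (u : ∀ k, (Z k).X →ₗ[K] Y.X)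
    (u_gr : ∀ k (m : ℤ) (z : (Z k).X), z ∈ (Z k).gr m → u k z ∈ Y.gr (m + h k))
    (u_F : ∀ k z, u k z ∈ F) (u_J : ∀ k z, z ∈ J k → u k z ∈ F')
    (u_d : ∀ k z, Y.d (u k z) - u k ((Z k).d z) ∈ F')
    (gen : ∀ x ∈ Y.gr n, x ∈ F → ∃ z : ∀ k, (Z k).X, (∀ k, z k ∈ (Z k).gr (n - h k)) ∧
      x - ∑ k, u k (z k) ∈ F')
    (uniq : ∀ z : ∀ k, (Z k).X, (∀ k, z k ∈ (Z k).gr (n - 1 - h k)) → ∑ k, u k (z k) ∈ F' →
      ∀ k, z k ∈ J k)
    (ac : ∀ k, AcQ (Z k) ⊤ (J k) (n - h k)) : AcQ Y F F' n := by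
  intro x hx hF hd
  obtain ⟨z, hz, hxz⟩ := gen x hx hF
  have h1 : ∑ k, u k ((Z k).d (z k)) ∈ F' := by
    have e : ∑ k, u k ((Z k).d (z k)) = Y.d x - Y.d (x - ∑ k, u k (z k)) -
        ∑ k, (Y.d (u k (z k)) - u k ((Z k).d (z k))) := by
      rw [map_sub, map_sum, Finset.sum_sub_distrib]
      abel
    rw [e]
    exact Submodule.sub_mem _ (Submodule.sub_mem _ hd (hF' _ hxz))
      (Submodule.sum_mem _ fun k _ => u_d k _)
  have h2 := uniq (fun k => (Z k).d (z k)) (fun k => by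
    have := (Z k).d_mem (hz k)
    rwa [show n - h k - 1 = n - 1 - h k by ring] at this) h1
  have h3 : ∀ k, ∃ y ∈ (Z k).gr (n - h k + 1), z k - (Z k).d y ∈ J k := by
    intro k
    obtain ⟨y, hy, _, hy2⟩ := ac k (z k) (hz k) Submodule.mem_top (h2 k)
    exact ⟨y, hy, hy2⟩
  choose y hy hyJ using h3
  refine ⟨∑ k, u k (y k), Submodule.sum_mem _ fun k _ => ?_, Submodule.sum_mem _ fun k _ => u_F k _,
    ?_⟩
  · have := u_gr k _ _ (hy k)
    rwa [show n - h k + 1 + h k = n + 1 by ring] at this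
  · have e : x - Y.d (∑ k, u k (y k)) = (x - ∑ k, u k (z k)) + ∑ k, u k (z k - (Z k).d (y k)) -
        ∑ k, (Y.d (u k (y k)) - u k ((Z k).d (y k))) := by
      simp only [map_sub, map_sum, Finset.sum_sub_distrib]
      abel
    rw [e]
    exact Submodule.sub_mem _ (Submodule.add_mem _ hxz
      (Submodule.sum_mem _ fun k _ => u_J k _ (hyJ k))) (Submodule.sum_mem _ fun k _ => u_d k _)

/-- Koszul step: `0 → Z0 / J0 → (Z1 / J1)² → Y / J → 0` -/
theorem AcQ.koszul {J : Submodule K Y.X} {n : ℤ} (hJ : ∀ x ∈ J, Y.d x ∈ J)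
    (Z1 Z0 : GC K) (J1 : Submodule K Z1.X) (J0 : Submodule K Z0.X) (hJ1 : ∀ x ∈ J1, Z1.d x ∈ J1)
    (x : Fin 2 → Z1.X →ₗ[K] Y.X) (k : Fin 2 → Z0.X →ₗ[K] Z1.X)
    (x_gr : ∀ j (m : ℤ) z, z ∈ Z1.gr m → x j z ∈ Y.gr m)
    (k_gr : ∀ j (m : ℤ) z, z ∈ Z0.gr m → k j z ∈ Z1.gr m)
    (x_J : ∀ j z, z ∈ J1 → x j z ∈ J) (k_J : ∀ j z, z ∈ J0 → k j z ∈ J1)
    (x_d : ∀ j z, Y.d (x j z) - x j (Z1.d z) ∈ J)
    (k_d : ∀ j z, Z1.d (k j z) - k j (Z0.d z) ∈ J1)
    (xk : ∀ z, ∑ j, x j (k j z) ∈ J)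
    (gen : ∀ y ∈ Y.gr n, ∃ z : Fin 2 → Z1.X, (∀ j, z j ∈ Z1.gr n) ∧ y - ∑ j, x j (z j) ∈ J)
    (ker : ∀ z : Fin 2 → Z1.X, (∀ j, z j ∈ Z1.gr (n - 1)) → ∑ j, x j (z j) ∈ J →
      ∃ s ∈ Z0.gr (n - 1), ∀ j, z j - k j s ∈ J1)
    (inj : ∀ s, s ∈ Z0.gr (n - 1 - 1) → k 0 s ∈ J1 → s ∈ J0)
    (a1 : AcQ Z1 ⊤ J1 n) (a0 : AcQ Z0 ⊤ J0 (n - 1)) : AcQ Y ⊤ J n := by
  intro y hy _ hd
  obtain ⟨z, hz, hyz⟩ := gen y hy
  have h1 : ∑ j, x j (Z1.d (z j)) ∈ J := by
    have e : ∑ j, x j (Z1.d (z j)) = Y.d y - Y.d (y - ∑ j, x j (z j)) -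
        ∑ j, (Y.d (x j (z j)) - x j (Z1.d (z j))) := by
      rw [map_sub, map_sum, Finset.sum_sub_distrib]
      abel
    rw [e]
    exact Submodule.sub_mem _ (Submodule.sub_mem _ hd (hJ _ hyz))
      (Submodule.sum_mem _ fun j _ => x_d j _)
  obtain ⟨s, hs, hs2⟩ := ker (fun j => Z1.d (z j)) (fun j => Z1.d_mem (hz j)) h1
  have h2 : k 0 (Z0.d s) ∈ J1 := by
    have e : k 0 (Z0.d s) = Z1.d (k 0 s) - (Z1.d (k 0 s) - k 0 (Z0.d s)) := by abel
    have e2 : Z1.d (k 0 s) = -Z1.d (Z1.d (z 0) - k 0 s) := by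
      rw [map_sub, Z1.d_d]
      abel
    rw [e]
    refine Submodule.sub_mem _ ?_ (k_d 0 s)
    rw [e2]
    exact Submodule.neg_mem _ (hJ1 _ (hs2 0))
  have h3 := inj _ (Z0.d_mem hs) h2
  obtain ⟨v, hv, _, hv2⟩ := a0 s hs Submodule.mem_top h3
  rw [sub_add_cancel] at hv
  have h4 : ∀ j, ∃ w ∈ Z1.gr (n + 1), z j - k j v - Z1.d w ∈ J1 := by
    intro j
    obtain ⟨w, hw, _, hw2⟩ := a1 (z j - k j v) (Submodule.sub_mem _ (hz j) (k_gr j _ _ hv))
      Submodule.mem_top (by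
        have e : Z1.d (z j - k j v) = (Z1.d (z j) - k j s) + k j (s - Z0.d v) -
            (Z1.d (k j v) - k j (Z0.d v)) := by
          rw [map_sub, map_sub]
          abel
        rw [e]
        exact Submodule.sub_mem _ (Submodule.add_mem _ (hs2 j) (k_J j _ hv2)) (k_d j v))
    exact ⟨w, hw, hw2⟩
  choose w hw hwJ using h4
  refine ⟨∑ j, x j (w j), Submodule.sum_mem _ fun j _ => x_gr j _ _ (hw j), Submodule.mem_top, ?_⟩
  have e : y - Y.d (∑ j, x j (w j)) = (y - ∑ j, x j (z j)) +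
      ∑ j, x j (z j - k j v - Z1.d (w j)) + ∑ j, x j (k j v) -
      ∑ j, (Y.d (x j (w j)) - x j (Z1.d (w j))) := by
    simp only [map_sub, map_sum, Finset.sum_sub_distrib]
    abel
  rw [e]
  exact Submodule.sub_mem _ (Submodule.add_mem _ (Submodule.add_mem _ hyz
    (Submodule.sum_mem _ fun j _ => x_J j _ (hwJ j))) (xk v)) (Submodule.sum_mem _ fun j _ => x_d j _)

end abs

/-! ### pairs of rows -/

section rows

variable (w : WD K)

/-- an element of tri-degree `(0, 1, 0)` and differential zero -/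
structure Th where
  t : w.S
  mem : t ∈ w.pc 0 1 0
  D0 : w.D t = 0

/-- pairs of rows -/
def CR : Type := Bool → w.Ob → w.S

instance : AddCommGroup (CR w) := inferInstanceAs (AddCommGroup (Bool → w.Ob → w.S))
instance : Module K (CR w) := inferInstanceAs (Module K (Bool → w.Ob → w.S))

variable {w}

@[ext] theorem CR.ext {v v' : CR w} (h : ∀ β j, v β j = v' β j) : v = v' :=
  funext fun β => funext fun j => h β j

@[simp] theorem CR.add_apply (v v' : CR w) (β : Bool) (j : w.Ob) : (v + v') β j = v β j + v' β j := rfl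
@[simp] theorem CR.sub_apply (v v' : CR w) (β : Bool) (j : w.Ob) : (v - v') β j = v β j - v' β j := rfl
@[simp] theorem CR.zero_apply (β : Bool) (j : w.Ob) : (0 : CR w) β j = 0 := rfl
@[simp] theorem CR.smul_apply (r : K) (v : CR w) (β : Bool) (j : w.Ob) : (r • v) β j = r • v β j := rfl
/-- evaluation at an entry -/
def CR.evL (β : Bool) (j : w.Ob) : CR w →ₗ[K] w.S where
  toFun v := v β j
  map_add' _ _ := rfl
  map_smul' _ _ := rfl

theorem CR.sum_apply {α : Type} (s : Finset α) (f : α → CR w) (β : Bool) (j : w.Ob) :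
    (∑ i ∈ s, f i) β j = ∑ i ∈ s, f i β j := map_sum (CR.evL β j) f s

theorem pc_cast {P P' A A' C C' : ℤ} {x : w.S} (h : x ∈ w.pc P A C) (hP : P = P') (hA : A = A')
    (hC : C = C') : x ∈ w.pc P' A' C' := by
  subst hP hA hC
  exact h

instance : SMul (w.dga.C)ᵐᵒᵖ (CR w) := ⟨fun m v β j => ∑ l, v β l * (unop m : w.Win).1 l j⟩

theorem CR.act_apply (m : w.dga.C) (v : CR w) (β : Bool) (j : w.Ob) :
    (op m • v) β j = ∑ l, v β l * (m : w.Win).1 l j := rfl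

instance : Module (w.dga.C)ᵐᵒᵖ (CR w) where
  one_smul v := by
    ext β j
    change ∑ l, v β l * (1 : Matrix w.Ob w.Ob w.S) l j = v β j
    simp only [Matrix.one_apply, mul_ite, mul_one, mul_zero]
    rw [Finset.sum_ite_eq' Finset.univ j]
    simp
  mul_smul m m' v := by
    ext β j
    change ∑ l, v β l * ((unop m' : w.Win).1 * (unop m : w.Win).1) l j =
      ∑ l, (∑ l', v β l' * (unop m' : w.Win).1 l' l) * (unop m : w.Win).1 l j
    simp only [Matrix.mul_apply, Finset.mul_sum, Finset.sum_mul]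
    rw [Finset.sum_comm]
    refine Finset.sum_congr rfl fun i _ => Finset.sum_congr rfl fun l _ => ?_
    rw [mul_assoc]
  smul_zero m := by
    ext β j
    change ∑ l, (0 : w.S) * (unop m : w.Win).1 l j = 0
    simp
  smul_add m v v' := by
    ext β j
    change ∑ l, (v β l + v' β l) * (unop m : w.Win).1 l j = ∑ l, v β l * (unop m : w.Win).1 l j +
      ∑ l, v' β l * (unop m : w.Win).1 l j
    simp only [add_mul, Finset.sum_add_distrib]
  add_smul m m' v := by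
    ext β j
    change ∑ l, v β l * ((unop m : w.Win).1 l j + (unop m' : w.Win).1 l j) =
      ∑ l, v β l * (unop m : w.Win).1 l j + ∑ l, v β l * (unop m' : w.Win).1 l j
    simp only [mul_add, Finset.sum_add_distrib]
  zero_smul v := by
    ext β j
    change ∑ l, v β l * (0 : w.S) = 0
    simp

instance : IsScalarTower K (w.dga.C)ᵐᵒᵖ (CR w) where
  smul_assoc r m v := by
    ext β j
    change ∑ l, v β l * (r • (unop m : w.Win).1 l j) = r • ∑ l, v β l * (unop m : w.Win).1 l j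
    rw [Finset.smul_sum]
    exact Finset.sum_congr rfl fun l _ => mul_smul_comm _ _ _

/-- shift of the Adams position -/
def ab : Bool → ℤ
  | true => 1
  | false => 0

/-- shift of the degree -/
def cb : Bool → ℤ
  | true => 0
  | false => 1

/-- the entries of the cone differential -/
def tb (t : w.S) : Bool → w.S
  | true => t
  | false => 0

variable (w) in
/-- homogeneous pairs of rows -/
def grC (p a k : ℤ) : Submodule K (CR w) where
  carrier := {v | ∀ β j, v β j ∈ w.pc (p - w.P j) (a + ab β - w.A j) (k - cb β)}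
  zero_mem' := fun _ _ => Submodule.zero_mem _
  add_mem' := fun h h' β j => Submodule.add_mem _ (h β j) (h' β j)
  smul_mem' := fun r _ h β j => Submodule.smul_mem _ r (h β j)

theorem mem_grC {p a k : ℤ} {v : CR w} : v ∈ grC w p a k ↔
    ∀ β j, v β j ∈ w.pc (p - w.P j) (a + ab β - w.A j) (k - cb β) := Iff.rfl

/-- the differential -/
def dC (θ : Th w) : CR w →ₗ[K] CR w where
  toFun v := fun β j => w.D (v β j) + tb θ.t β * v false j
  map_add' v v' := by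
    ext β j
    change w.D (v β j + v' β j) + tb θ.t β * (v false j + v' false j) = _ + _
    rw [map_add, mul_add]
    change _ = (w.D (v β j) + tb θ.t β * v false j) + (w.D (v' β j) + tb θ.t β * v' false j)
    abel
  map_smul' r v := by
    ext β j
    change w.D (r • v β j) + tb θ.t β * (r • v false j) = r • (w.D (v β j) + tb θ.t β * v false j)
    rw [map_smul, mul_smul_comm, smul_add]

theorem dC_apply (θ : Th w) (v : CR w) (β : Bool) (j : w.Ob) :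
    dC θ v β j = w.D (v β j) + tb θ.t β * v false j := rfl

theorem D_tb (θ : Th w) (β : Bool) : w.D (tb θ.t β) = 0 := by
  cases β
  · exact map_zero _
  · exact θ.D0

/-- cone of the multiplication by `θ` on rows -/
def CRM (θ : Th w) (p a : ℤ) : RM w.dga where
  X := CR w
  gr := grC w p a
  d := dC θ
  d_mem {k v} hv := by
    intro β j
    rw [dC_apply]
    refine Submodule.add_mem _ (pc_cast (w.D_mem (hv β j)) rfl rfl (by ring)) ?_
    cases β
    · change (0 : w.S) * _ ∈ _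
      rw [zero_mul]
      exact Submodule.zero_mem _
    · exact pc_cast (w.mul_mem θ.mem (hv false j)) (by ring) (by simp only [ab]; ring)
        (by simp only [cb]; ring)
  d_d v := by
    ext β j
    rw [dC_apply, dC_apply, dC_apply, map_add, w.D_D, w.D_mul, D_tb]
    change 0 + (0 * v false j + tb θ.t β * w.D (v false j)) +
      tb θ.t β * (w.D (v false j) + 0 * v false j) = 0
    rw [zero_mul, add_zero, zero_add, zero_add]
    exact w.two _
  smul_mem {k l a' v} ha hv := by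
    intro β j
    rw [CR.act_apply]
    exact Submodule.sum_mem _ fun i _ => pc_cast (w.mul_mem (hv β i) (ha i j)) (by ring) (by ring)
      (by ring)
  leib m v := by
    ext β j
    rw [dC_apply, CR.add_apply, CR.act_apply, CR.act_apply, CR.act_apply, CR.act_apply, map_sum,
      Finset.mul_sum, ← Finset.sum_add_distrib, ← Finset.sum_add_distrib]
    refine Finset.sum_congr rfl fun l _ => ?_
    rw [dC_apply, w.D_mul, add_mul, mul_assoc]
    change w.D (v β l) * _ + v β l * _ + _ = v β l * w.D _ + _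
    abel

/-- the complex `cone (θ : row (p, a) → row (p, a + 1)) ⊗ X` -/
noncomputable def Yc (θ : Th w) (p a : ℤ) (X : LCells w.dga) : GC K := tG (CRM θ p a) X

/-- families with entries in `F` -/
def TF (X : LCells w.dga) (F : Submodule K w.S) : Submodule K (X.ι →₀ CR w) where
  carrier := {x | ∀ σ β j, x σ β j ∈ F}
  zero_mem' := fun _ _ _ => Submodule.zero_mem _
  add_mem' := fun h h' σ β j => Submodule.add_mem _ (h σ β j) (h' σ β j)
  smul_mem' := fun r _ h σ β j => Submodule.smul_mem _ r (h σ β j)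

theorem mem_TF {X : LCells w.dga} {F : Submodule K w.S} {x : X.ι →₀ CR w} :
    x ∈ TF X F ↔ ∀ σ β j, x σ β j ∈ F := Iff.rfl

end rows

/-- the algebraic hypotheses of (TR): a finite filtration of `J = Fl 0` by two-sided ideals whose
graded pieces are sums of shifted copies `u * (S / J)`, and the left Koszul row -/
structure TRD (w : WD K) where
  lo : ℤ
  neg : ∀ {P A C : ℤ}, C < lo → w.pc P A C = ⊥
  r : ℕ
  Fl : ℕ → Submodule K w.S
  Fr : Fl r = ⊥
  anti : ∀ i, Fl (i + 1) ≤ Fl i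
  Fl_l : ∀ (i : ℕ) (s : w.S) {a : w.S}, a ∈ Fl i → s * a ∈ Fl i
  Fl_r : ∀ (i : ℕ) (s : w.S) {a : w.S}, a ∈ Fl i → a * s ∈ Fl i
  Fl_D : ∀ (i : ℕ) {a : w.S}, a ∈ Fl i → w.D a ∈ Fl i
  κ : ℕ → Type
  [fκ : ∀ i, Fintype (κ i)]
  u : ∀ i, κ i → w.S
  uP : ∀ i, κ i → ℤ
  uP01 : ∀ i k, uP i k = 0 ∨ uP i k = 1
  uC : ∀ i, κ i → ℕ
  u_mem : ∀ i k, u i k ∈ w.pc (-uP i k) 0 (uC i k)
  u_F : ∀ i k, u i k ∈ Fl i
  u_J : ∀ i k {s : w.S}, s ∈ Fl 0 → u i k * s ∈ Fl (i + 1)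
  u_D : ∀ i k, w.D (u i k) ∈ Fl (i + 1)
  gen : ∀ (i : ℕ) {P A C : ℤ} {x : w.S}, i < r → x ∈ Fl i → x ∈ w.pc P A C →
    ∃ z : κ i → w.S, (∀ k, z k ∈ w.pc (P + uP i k) A (C - uC i k)) ∧
      x - ∑ k, u i k * z k ∈ Fl (i + 1)
  uniq : ∀ (i : ℕ) {P A C : ℤ} (z : κ i → w.S), i < r →
    (∀ k, z k ∈ w.pc (P + uP i k) A (C - uC i k)) → ∑ k, u i k * z k ∈ Fl (i + 1) →
      ∀ k, z k ∈ Fl 0
  T0 : Th w → Prop
  T1 : Th w → Prop
  T2 : Th w → Prop
  T01 : ∀ θ, T0 θ → T1 θ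
  T12 : ∀ θ, T1 θ → T2 θ
  u_th : ∀ (θ : Th w), T2 θ → ∀ i k, θ.t * u i k - u i k * θ.t ∈ Fl (i + 1)
  x : Fin 2 → w.S
  x_mem : ∀ j, x j ∈ w.pc 1 0 0
  x_D : ∀ j, w.D (x j) = 0
  kk : Fin 2 → w.S
  kk_mem : ∀ j, kk j ∈ w.pc 1 0 0
  kk_D : ∀ j, w.D (kk j) = 0
  x_kk : ∑ j, x j * kk j ∈ Fl 0
  T2x : ∀ θ : Th w, T2 θ → ∃ θ' : Th w, T1 θ' ∧ (∀ j, θ.t * x j - x j * θ'.t ∈ Fl 0) ∧
    ∃ θ'' : Th w, T0 θ'' ∧ ∀ j, θ'.t * kk j - kk j * θ''.t ∈ Fl 0
  x_gen : ∀ {P A C : ℤ} {y : w.S}, 1 ≤ P → y ∈ w.pc P A C →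
    ∃ z : Fin 2 → w.S, (∀ j, z j ∈ w.pc (P - 1) A C) ∧ y - ∑ j, x j * z j ∈ Fl 0
  x_ker : ∀ {P A C : ℤ} (z : Fin 2 → w.S), (∀ j, z j ∈ w.pc (P - 1) A C) →
    ∑ j, x j * z j ∈ Fl 0 → ∃ s ∈ w.pc (P - 2) A C, ∀ j, z j - kk j * s ∈ Fl 0
  x_inj : ∀ {s : w.S}, kk 0 * s ∈ Fl 0 → s ∈ Fl 0

attribute [instance] TRD.fκ

end Crest.Agent.R186.TR810
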