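import Crest.Agent.R186.RowsM_377
import Crest.Agent.R186.TR_810

/-!
Row 186, half (A), helper306's short road (helper377): **the instance `trd` of helper810's structure
`TRD`** for the window data `(SM890.bdM π s hs).ext` of `S = R'' ⊕ M`.

* `Fl 0 = J ⊕ M`, `Fl 1 = (π) ⊕ M`, `Fl 2 = M`, `Fl 3`, `Fl 4` the socle filtration of `M`, `Fl 5 = 0`;
* `thetas`: `ThI h`, `theta_e = t - g^(-e-2) h`, up to nonzero scalars (`TP n`).
-/

set_option autoImplicit false
set_option linter.unusedSimpArgs false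

noncomputable section

namespace Crest.Agent.R186.TRDi377

open Crest.Agent.R186.DefsQ830 Crest.Agent.R186.PBW128 Crest.Agent.R186.SM890
open Crest.Agent.R186.Win810 Crest.Agent.R186.TR810 Crest.Agent.R186.SExt44
open Crest.Agent.R186.C2b362 (pz J NZ mem_NZ mem_pz mem_pz_nat mem_J pz_neg)
open Crest.Agent.R186.C2b44 (kill kill_mem kill_x kill_h kill_kill kill_nf kill_D)
open Crest.Agent.R186.KOS296 (kill_pz mem_J_iff_kill pcZ_eq_pz)
open Crest.Agent.R186.WLF296 (lev lq sum_lq kill_lq lq_mem wq_mul lq_wq_mul mem_Fl_one Fl_three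
  lq_mul_of_mem Fl_mul Fl_D Fl_anti wq_mem_Fl h_wq t_wq)
open Crest.Agent.R186.RowsM377
open Crest.Agent.R186.Cells221 (tR)

variable {K : Type} [Field K] (π : Par K)

/-! ### the `W`-filtration of `R''` is two-sided -/

theorem gen_W (a : Gen) (h : ¬ nonW a = true) : ∃ b : Y, X π a = wq π (yw b) := by
  cases a with
  | y s => exact ⟨.y s, (wq_yw π (.y s)).symm⟩
  | yb s => exact ⟨.yb s, (wq_yw π (.yb s)).symm⟩
  | _ => exact absurd rfl h

variable {π}

theorem Fl_X (a : Gen) {n : ℕ} {r : R π} (hr : r ∈ WLF296.Fl π n) : X π a * r ∈ WLF296.Fl π n := by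
  rw [sum_lq π r, Finset.mul_sum]
  refine Submodule.sum_mem _ fun q _ => ?_
  by_cases hq : lev q < n
  · rw [hr q hq, mul_zero, mul_zero]
    exact Submodule.zero_mem _
  · rw [← mul_assoc]
    by_cases ha : nonW a = true
    · rw [← wq_nonW π q a ha, smul_mul_assoc, mul_assoc]
      exact Submodule.smul_mem _ _ (Fl_anti (not_lt.1 hq) (wq_mem_Fl q _))
    · obtain ⟨b, hb⟩ := gen_W π a ha
      obtain ⟨c, q2, h1, h2⟩ := wq_mul π (yw b) q
      rw [hb, h1, smul_mul_assoc]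
      rcases h2 with h2 | h2
      · rw [h2, zero_smul]
        exact Submodule.zero_mem _
      · exact Submodule.smul_mem _ _ (Fl_anti (by omega) (wq_mem_Fl q2 _))

theorem Fl_left {n : ℕ} (t : R π) : ∀ {r : R π}, r ∈ WLF296.Fl π n → t * r ∈ WLF296.Fl π n := by
  refine PBW128.R_ind π (P := fun t => ∀ {r : R π}, r ∈ WLF296.Fl π n → t * r ∈ WLF296.Fl π n)
    ?_ ?_ ?_ ?_ t
  · intro c r hr
    rw [← Algebra.smul_def]
    exact Submodule.smul_mem _ _ hr
  · intro a r hr
    exact Fl_X a hr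
  · intro a b ha hb r hr
    rw [mul_assoc]
    exact ha (hb hr)
  · intro a b ha hb r hr
    rw [add_mul]
    exact Submodule.add_mem _ (ha hr) (hb hr)

theorem lev_le (q : Wb) : lev q ≤ 2 := by cases q <;> simp [lev]

variable (π)

/-! ### thetas -/

/-- `theta_e` -/
def theta (e : ℤ) : R π := tR π - π.g ^ (-e - 2) • X π .h

theorem h_memZ : X π .h ∈ pcZ π 0 1 0 := by
  have := X_mem_pc π .h
  have h2 := pcZ_nat π 0 1 0
  rw [show ((1 : ℕ) : ℤ) = 1 from rfl, show ((0 : ℕ) : ℤ) = 0 from rfl] at h2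
  rw [h2]
  exact this

theorem t_memZ : tR π ∈ pcZ π 0 1 0 := by
  have := Cells221.tR_mem π
  have h2 := pcZ_nat π 0 1 0
  rw [show ((1 : ℕ) : ℤ) = 1 from rfl, show ((0 : ℕ) : ℤ) = 0 from rfl] at h2
  rw [h2]
  exact this

theorem theta_mem (e : ℤ) : theta π e ∈ pcZ π 0 1 0 :=
  Submodule.sub_mem _ (t_memZ π) (Submodule.smul_mem _ _ (h_memZ π))

theorem D_h : Der580.D π (X π .h) = 0 := by
  rw [Der580.D_X]; simp [dGen]

theorem D_theta (e : ℤ) : Der580.D π (theta π e) = 0 := by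
  rw [theta, map_sub, map_smul, D_h, smul_zero, Cells221.D_tR, sub_zero]

theorem theta_wq (e : ℤ) (q : Wb) : theta π e * wq π q = wq π q * theta π e := by
  rw [theta, sub_mul, mul_sub, t_wq, smul_mul_assoc, mul_smul_comm, h_wq]

theorem theta_x (e : ℤ) (j : Fin 2) :
    theta π e * X π (.x j) = π.g⁻¹ • (X π (.x j) * theta π (e - 1)) := by
  have hg := π.g0
  have h1 : X π .h * X π (.x j) = X π (.x j) * X π .h := (comm_h π (.x j)).eq
  have h2 : π.g⁻¹ * π.g ^ (-(e - 1) - 2) = π.g ^ (-e - 2) := by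
    rw [← zpow_neg_one, ← zpow_add₀ hg]
    congr 1
    ring
  rw [theta, theta, sub_mul, mul_sub, smul_sub, VQ735.x_tR, smul_smul, inv_mul_cancel₀ hg, one_smul,
    smul_mul_assoc, mul_smul_comm, smul_smul, h2, h1]

theorem tau_tR (t : Tor K) : tau π t (tR π) = tR π := by
  have h0 := t.h0
  have h1 := t.h1
  simp only [tR, map_add, map_smul, map_mul, tau_X, tw]
  simp [h0, h1, smul_smul]

theorem tau_theta (t : Tor K) (e : ℤ) : tau π t (theta π e) = theta π e := by
  rw [theta, map_sub, map_smul, tau_tR, tau_X]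
  simp [tw]

theorem theta_oo (e : ℤ) (q : Wb) : repM π (theta π e) (oo K q) = rho π (theta π e) (oo K q) := by
  rw [rho_oo, tau_theta]

theorem h_oo (q : Wb) : repM π (X π .h) (oo K q) = rho π (X π .h) (oo K q) := by
  rw [rho_oo, tau_X]
  simp [tw]

variable (s : ℕ) (hs : 2 ≤ s)

/-- the window data of `S = R'' ⊕ M` -/
abbrev ws : WD K := (bdM π s hs).ext

/-- `Th` from an element of `R''` -/
def ThI (t : R π) (ht : t ∈ pcZ π 0 1 0) (hD : Der580.D π t = 0) : Th (ws π s hs) where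
  t := (bdM π s hs).inl t
  mem := (bdM π s hs).inl_mem ht
  D0 := by
    have h := (bdM π s hs).D_inl t
    have e : (WR π).D t = 0 := hD
    rw [e, map_zero] at h
    exact h

/-- the admissible multiplications: scalar multiples of `h` and of `theta_e`, `e ≤ n` -/
def TP (n : ℤ) (θ : Th (ws π s hs)) : Prop :=
  ∃ c : K, c ≠ 0 ∧ (θ.t = (bdM π s hs).inl (c • X π .h) ∨
    ∃ e : ℤ, e ≤ n ∧ θ.t = (bdM π s hs).inl (c • theta π e))

theorem TP_mono {m n : ℤ} (h : m ≤ n) (θ : Th (ws π s hs)) (H : TP π s hs m θ) : TP π s hs n θ := by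
  obtain ⟨c, hc, H⟩ := H
  refine ⟨c, hc, ?_⟩
  rcases H with H | ⟨e, he, H⟩
  · exact Or.inl H
  · exact Or.inr ⟨e, he.trans h, H⟩

/-- one step down along `x_j` -/
theorem TP_x {n : ℤ} {θ : Th (ws π s hs)} (H : TP π s hs n θ) :
    ∃ θ' : Th (ws π s hs), TP π s hs (n - 1) θ' ∧
      ∀ j : Fin 2, θ.t * (bdM π s hs).inl (X π (.x j)) = (bdM π s hs).inl (X π (.x j)) * θ'.t := by
  obtain ⟨c, hc, H | ⟨e, he, H⟩⟩ := H
  · refine ⟨ThI π s hs (c • X π .h) (Submodule.smul_mem _ _ (h_memZ π)) (by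
      rw [map_smul, D_h, smul_zero]), ⟨c, hc, Or.inl rfl⟩, fun j => ?_⟩
    rw [H]
    show _ = (bdM π s hs).inl (X π (.x j)) * (bdM π s hs).inl (c • X π .h)
    have h1 : X π .h * X π (.x j) = X π (.x j) * X π .h := (comm_h π (.x j)).eq
    have e2 : c • X π .h * X π (.x j) = X π (.x j) * c • X π .h := by
      rw [smul_mul_assoc, mul_smul_comm, h1]
    exact ((bdM π s hs).inl.map_mul _ _).symm.trans
      ((congrArg (bdM π s hs).inl e2).trans ((bdM π s hs).inl.map_mul _ _))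
  · refine ⟨ThI π s hs ((c * π.g⁻¹) • theta π (e - 1)) (Submodule.smul_mem _ _ (theta_mem π _)) (by
      rw [map_smul, D_theta, smul_zero]), ⟨c * π.g⁻¹, mul_ne_zero hc (inv_ne_zero π.g0),
        Or.inr ⟨e - 1, by omega, rfl⟩⟩, fun j => ?_⟩
    rw [H]
    show _ = (bdM π s hs).inl (X π (.x j)) * (bdM π s hs).inl ((c * π.g⁻¹) • theta π (e - 1))
    have e2 : c • theta π e * X π (.x j) = X π (.x j) * (c * π.g⁻¹) • theta π (e - 1) := by
      rw [smul_mul_assoc, theta_x, smul_smul, mul_smul_comm]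
    exact ((bdM π s hs).inl.map_mul _ _).symm.trans
      ((congrArg (bdM π s hs).inl e2).trans ((bdM π s hs).inl.map_mul _ _))

theorem rho_of_zero {r : R π} (h : r = 0) (m : N K) (F : Submodule K (N K)) : rho π r m ∈ F := by
  rw [h, map_zero]
  exact F.zero_mem

theorem repM_of_zero {r : R π} (h : r = 0) (m : N K) (F : Submodule K (N K)) :
    repM π r m ∈ F := by
  rw [h, map_zero]
  exact F.zero_mem

/-! ### the filtration -/

/-- the filtration of `S = R'' ⊕ M` -/
def FS (i : ℕ) : Submodule K (ws π s hs).S where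
  carrier := {x | x.1 ∈ WLF296.Fl π (i + 1) ∧ x.2 ∈ MF π (i - 2)}
  zero_mem' := ⟨Submodule.zero_mem (WLF296.Fl π (i + 1)), Submodule.zero_mem (MF π (i - 2))⟩
  add_mem' ha hb := ⟨Submodule.add_mem (WLF296.Fl π (i + 1)) ha.1 hb.1,
    Submodule.add_mem (MF π (i - 2)) ha.2 hb.2⟩
  smul_mem' c _ ha := ⟨Submodule.smul_mem (WLF296.Fl π (i + 1)) c ha.1,
    Submodule.smul_mem (MF π (i - 2)) c ha.2⟩

theorem mem_FS {i : ℕ} {x : (ws π s hs).S} :
    x ∈ FS π s hs i ↔ x.1 ∈ WLF296.Fl π (i + 1) ∧ x.2 ∈ MF π (i - 2) := Iff.rfl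

theorem mem_FS0 {x : (ws π s hs).S} : x ∈ FS π s hs 0 ↔ x.1 ∈ J π := by
  rw [mem_FS]
  constructor
  · intro h
    exact mem_Fl_one.1 h.1
  · intro h
    exact ⟨mem_Fl_one.2 h, MF_zero π _⟩

theorem FS_five : FS π s hs 5 = ⊥ := by
  rw [eq_bot_iff]
  rintro x ⟨h1, h2⟩
  rw [Submodule.mem_bot]
  apply BD.Car.ext
  · exact Fl_three (Fl_anti (by omega) h1)
  · exact MF_three π (n := 3) le_rfl h2

theorem FS_anti (i : ℕ) : FS π s hs (i + 1) ≤ FS π s hs i := by
  rintro x ⟨h1, h2⟩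
  exact ⟨Fl_anti (by omega) h1, MF_anti π (by omega) h2⟩

theorem FS_l (i : ℕ) (t : (ws π s hs).S) {a : (ws π s hs).S} (ha : a ∈ FS π s hs i) :
    t * a ∈ FS π s hs i := by
  refine ⟨Fl_left t.1 ha.1, ?_⟩
  show repM π t.1 a.2 + rho π a.1 t.2 ∈ MF π (i - 2)
  refine Submodule.add_mem _ (MF_left π t.1 ha.2) ?_
  by_cases hi : i ≤ 2
  · rw [show i - 2 = 0 by omega]
    exact MF_zero π _
  · exact rho_of_zero π (Fl_three (Fl_anti (by omega) ha.1)) _ _

theorem FS_r (i : ℕ) (t : (ws π s hs).S) {a : (ws π s hs).S} (ha : a ∈ FS π s hs i) :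
    a * t ∈ FS π s hs i := by
  refine ⟨Fl_mul ha.1 t.1, ?_⟩
  show repM π a.1 t.2 + rho π t.1 a.2 ∈ MF π (i - 2)
  refine Submodule.add_mem _ ?_ (MF_right π t.1 ha.2)
  by_cases hi : i ≤ 2
  · rw [show i - 2 = 0 by omega]
    exact MF_zero π _
  · exact repM_of_zero π (Fl_three (Fl_anti (by omega) ha.1)) _ _

theorem FS_D (i : ℕ) {a : (ws π s hs).S} (ha : a ∈ FS π s hs i) :
    (ws π s hs).D a ∈ FS π s hs i :=
  ⟨Fl_D ha.1, MF_D π ha.2⟩

/-! ### the cells of the filtration -/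

/-- indices -/
abbrev kap (i : ℕ) : Type := {q : Wb // lev q = i + 1} ⊕ {q : Wb // mv q + 2 = i}

/-- generators -/
def uu (i : ℕ) : kap i → (ws π s hs).S
  | .inl q => (bdM π s hs).inl (wq π q.1)
  | .inr q => (bdM π s hs).inr (oo K q.1)

/-- `P`-degrees -/
def uuP (i : ℕ) : kap i → ℤ
  | .inl _ => 0
  | .inr _ => 1

/-- `C`-degrees -/
def uuC (i : ℕ) : kap i → ℕ
  | .inl q => wC q.1.word
  | .inr q => s - wC q.1.word

theorem wq_memZ (q : Wb) : wq π q ∈ pcZ π 0 0 (wC q.word) := by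
  have h := C2b44.nf_mem_pcZ π (0, 0, 0, [], q) (P := 0) (A := 0) (C := (wC q.word : ℤ))
    (by simp [dPx]) (by simp [dAx]) (by simp [dCx])
  simpa [nf, we, wd] using h

theorem oo_memM (q : Wb) : oo K q ∈ pcM π s (-1) 0 (s - wC q.word) := by
  have h := mem_pcM π s (P := -1) (A := 0) (C := s - wC q.word) (C' := 0) q (t := 1)
    (by rw [show (-1 : ℤ) + 1 = 0 by norm_num]; exact pcZ_one π) (by ring)
  have e : oM π q 1 = oo K q := by rw [oM_apply, map_one]; rfl
  rw [e] at h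
  exact h

theorem uu_mem (i : ℕ) (k : kap i) :
    uu π s hs i k ∈ (ws π s hs).pc (-uuP i k) 0 (uuC s i k) := by
  rcases k with q | q
  · exact pc_cast (w := ws π s hs) ((bdM π s hs).inl_mem (wq_memZ π q.1)) (by simp [uuP]) rfl rfl
  · refine pc_cast (w := ws π s hs) ((bdM π s hs).inr_mem (oo_memM π s q.1)) rfl rfl ?_
    have := wC_word_le q.1
    show _ = (((s - wC q.1.word : ℕ)) : ℤ)
    push_cast [show wC q.1.word ≤ s by omega]
    rfl

theorem uu_F (i : ℕ) (k : kap i) : uu π s hs i k ∈ FS π s hs i := by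
  rcases k with q | q
  · refine ⟨?_, Submodule.zero_mem (MF π (i - 2))⟩
    have := wq_mem_Fl (π := π) q.1 1
    rw [mul_one, q.2] at this
    exact this
  · refine ⟨Submodule.zero_mem (WLF296.Fl π (i + 1)), ?_⟩
    have := repM_oo_MF π 1 q.1
    rw [map_one] at this
    rw [show i - 2 = mv q.1 by have := q.2; omega]
    exact this

/-- `wq q * r ∈ Fl (lev q + 1)` for `r ∈ J` -/
theorem wq_mul_J {q : Wb} {r : R π} (hr : kill π r = 0) : wq π q * r ∈ WLF296.Fl π (lev q + 1) := by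
  intro q' hq'
  rw [lq_wq_mul π q q' r (by omega), hr, ite_self]

/-- `o_q * r ∈ MF (mv q + 1)` for `r ∈ J` -/
theorem rho_oo_J {q : Wb} {r : R π} (hr : kill π r = 0) : rho π r (oo K q) ∈ MF π (mv q + 1) := by
  intro q' hq'
  rw [rho_oo, cq_repM π _ q' q (by omega), tau_kill, hr, map_zero, ite_self]

theorem uu_J (i : ℕ) (k : kap i) {t : (ws π s hs).S} (ht : t ∈ FS π s hs 0) :
    uu π s hs i k * t ∈ FS π s hs (i + 1) := by
  have h0 : kill π t.1 = 0 := (mem_J_iff_kill π).1 ((mem_FS0 π s hs).1 ht)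
  rcases k with q | q
  · refine ⟨?_, ?_⟩
    · have := wq_mul_J π (q := q.1) h0
      rw [q.2] at this
      exact this
    · have := lev_le q.1
      have := q.2
      rw [show i + 1 - 2 = 0 by omega]
      exact MF_zero π _
  · refine ⟨?_, ?_⟩
    · have e : (uu π s hs i (Sum.inr q) * t).1 = (0 : R π) := zero_mul (M₀ := R π) t.1
      rw [e]
      exact Submodule.zero_mem _
    · show repM π 0 t.2 + rho π t.1 (oo K q.1) ∈ MF π (i + 1 - 2)
      have := q.2
      rw [show i + 1 - 2 = mv q.1 + 1 by omega]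
      exact Submodule.add_mem _ (repM_of_zero π rfl _ _) (rho_oo_J π h0)

theorem dM_oo (q : Wb) : dM π (oo K q) = 0 := by
  have h := dM_repM π 1 q
  rw [map_one] at h
  have h1 : Der580.D π (1 : R π) = 0 := by
    have := WLF296.D_wq (π := π) .one
    rwa [wq_one] at this
  rw [h1, map_zero] at h
  exact h

theorem uu_D (i : ℕ) (k : kap i) : (ws π s hs).D (uu π s hs i k) = 0 := by
  rcases k with q | q
  · apply BD.Car.ext
    · exact WLF296.D_wq (π := π) q.1
    · exact map_zero (dM π)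
  · apply BD.Car.ext
    · exact map_zero (Der580.D π)
    · exact dM_oo π q.1

/-- central type elements commute with the generators -/
theorem uu_c (t : R π) (h1 : ∀ q, t * wq π q = wq π q * t)
    (h2 : ∀ q, repM π t (oo K q) = rho π t (oo K q)) (i : ℕ) (k : kap i) :
    (bdM π s hs).inl t * uu π s hs i k = uu π s hs i k * (bdM π s hs).inl t := by
  rcases k with q | q
  · apply BD.Car.ext
    · exact h1 q.1
    · show repM π t 0 + rho π (wq π q.1) 0 = repM π (wq π q.1) 0 + rho π t 0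
      simp only [map_zero]
  · apply BD.Car.ext
    · show t * 0 = 0 * t
      rw [mul_zero, zero_mul]
    · show repM π t (oo K q.1) + rho π 0 0 = repM π 0 0 + rho π t (oo K q.1)
      simp only [map_zero, add_zero, zero_add]
      exact h2 q.1

theorem uu_th {n : ℤ} (θ : Th (ws π s hs)) (H : TP π s hs n θ) (i : ℕ) (k : kap i) :
    θ.t * uu π s hs i k = uu π s hs i k * θ.t := by
  obtain ⟨c, hc, H | ⟨e, he, H⟩⟩ := H
  · rw [H]
    refine uu_c π s hs _ (fun q => ?_) (fun q => ?_) i k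
    · rw [smul_mul_assoc, mul_smul_comm, h_wq]
    · rw [map_smul, map_smul, LinearMap.smul_apply, LinearMap.smul_apply, h_oo]
  · rw [H]
    refine uu_c π s hs _ (fun q => ?_) (fun q => ?_) i k
    · rw [smul_mul_assoc, mul_smul_comm, theta_wq]
    · rw [map_smul, map_smul, LinearMap.smul_apply, LinearMap.smul_apply, theta_oo]

theorem gen_R {n : ℕ} {r : R π} (hr : r ∈ WLF296.Fl π n) :
    r - ∑ q : {q : Wb // lev q = n}, wq π q.1 * lq π q.1 r ∈ WLF296.Fl π (n + 1) := by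
  intro q' hq'
  rw [map_sub, map_sum, sub_eq_zero]
  by_cases h : lev q' = n
  · rw [Finset.sum_eq_single (⟨q', h⟩ : {q : Wb // lev q = n})]
    · rw [lq_wq_mul π q' q' _ le_rfl, if_pos rfl, kill_lq]
    · rintro ⟨q, hq⟩ _ hne
      rw [lq_wq_mul π q q' _ (by rw [h, hq]), if_neg]
      rintro rfl
      exact hne rfl
    · intro h0; exact absurd (Finset.mem_univ _) h0
  · have h1 : lev q' < n := by omega
    rw [hr q' h1]
    symm
    refine Finset.sum_eq_zero ?_
    rintro ⟨q, hq⟩ _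
    rw [lq_wq_mul π q q' _ (show lev q' ≤ lev q by omega), if_neg]
    rintro rfl
    exact h hq

theorem uniq_R {n : ℕ} (a : {q : Wb // lev q = n} → R π)
    (h : ∑ q : {q : Wb // lev q = n}, wq π q.1 * a q ∈ WLF296.Fl π (n + 1))
    (q : {q : Wb // lev q = n}) : kill π (a q) = 0 := by
  have h1 := h q.1 (by rw [q.2]; omega)
  rw [map_sum, Finset.sum_eq_single q] at h1
  · rw [lq_wq_mul π _ _ _ le_rfl, if_pos rfl] at h1
    exact h1
  · intro q' _ hne
    rw [lq_wq_mul π _ _ _ (by rw [q.2, q'.2]), if_neg]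
    intro h2
    exact hne (Subtype.ext h2.symm)
  · intro h0; exact absurd (Finset.mem_univ _) h0

theorem gen_M {i n : ℕ} (hi : i = n + 2) {m : N K} (hm : m ∈ MF π n) :
    m - ∑ q : {q : Wb // mv q + 2 = i}, rho π (lM π q.1 m) (oo K q.1) ∈ MF π (n + 1) := by
  have e : ∑ q : {q : Wb // mv q + 2 = i}, rho π (lM π q.1 m) (oo K q.1) =
      ∑ q : {q : Wb // mv q = n}, rho π (lM π q.1 m) (oo K q.1) :=
    Fintype.sum_equiv (Equiv.subtypeEquivRight (fun q => by omega)) _ _ (fun q => rfl)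
  rw [e]
  exact MF_gen π hm

theorem uniq_M {i n : ℕ} (hi : i = n + 2) (a : {q : Wb // mv q + 2 = i} → R π)
    (h : ∑ q : {q : Wb // mv q + 2 = i}, rho π (a q) (oo K q.1) ∈ MF π (n + 1))
    (q : {q : Wb // mv q + 2 = i}) : kill π (a q) = 0 := by
  have e : ∑ q : {q : Wb // mv q + 2 = i}, rho π (a q) (oo K q.1) =
      ∑ q : {q : Wb // mv q = n}, rho π (a ⟨q.1, by rw [hi, q.2]⟩) (oo K q.1) :=
    Fintype.sum_equiv (Equiv.subtypeEquivRight (fun q => by omega)) _ _ (fun q => rfl)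
  rw [e] at h
  exact MF_uniq π (fun q : {q : Wb // mv q = n} => a ⟨q.1, by rw [hi, q.2]⟩) h
    ⟨q.1, by have := q.2; omega⟩

/-- first component -/
def p1 : (ws π s hs).S →ₗ[K] R π where
  toFun x := x.1
  map_add' _ _ := rfl
  map_smul' _ _ := rfl

/-- second component -/
def p2 : (ws π s hs).S →ₗ[K] N K where
  toFun x := x.2
  map_add' _ _ := rfl
  map_smul' _ _ := rfl

theorem sum1 (i : ℕ) (z : kap i → (ws π s hs).S) : p1 π s hs (∑ k, uu π s hs i k * z k) =
    ∑ q : {q : Wb // lev q = i + 1}, wq π q.1 * p1 π s hs (z (.inl q)) := by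
  rw [map_sum, Fintype.sum_sum_type]
  have h2 : ∑ q : {q : Wb // mv q + 2 = i}, p1 π s hs (uu π s hs i (.inr q) * z (.inr q)) = 0 :=
    Finset.sum_eq_zero fun q _ => zero_mul (M₀ := R π) _
  rw [h2, add_zero]
  rfl

theorem sum2 (i : ℕ) (z : kap i → (ws π s hs).S) : p2 π s hs (∑ k, uu π s hs i k * z k) =
    (∑ q : {q : Wb // lev q = i + 1}, repM π (wq π q.1) (p2 π s hs (z (.inl q)))) +
    ∑ q : {q : Wb // mv q + 2 = i}, rho π (p1 π s hs (z (.inr q))) (oo K q.1) := by
  rw [map_sum, Fintype.sum_sum_type]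
  congr 1
  · refine Finset.sum_congr rfl fun q _ => ?_
    show repM π (wq π q.1) (p2 π s hs (z (.inl q))) + rho π (p1 π s hs (z (.inl q))) 0 = _
    rw [map_zero, add_zero]
  · refine Finset.sum_congr rfl fun q _ => ?_
    show repM π 0 (p2 π s hs (z (.inr q))) + rho π (p1 π s hs (z (.inr q))) (oo K q.1) = _
    rw [map_zero, LinearMap.zero_apply, zero_add]

theorem mem_FSp {i : ℕ} {x : (ws π s hs).S} :
    x ∈ FS π s hs i ↔ p1 π s hs x ∈ WLF296.Fl π (i + 1) ∧ p2 π s hs x ∈ MF π (i - 2) := Iff.rfl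

theorem gen_S (i : ℕ) {P A C : ℤ} {x : (ws π s hs).S} (hx : x ∈ FS π s hs i)
    (hd : x ∈ (ws π s hs).pc P A C) :
    ∃ z : kap i → (ws π s hs).S,
      (∀ k, z k ∈ (ws π s hs).pc (P + uuP i k) A (C - uuC s i k)) ∧
        x - ∑ k, uu π s hs i k * z k ∈ FS π s hs (i + 1) := by
  rw [mem_FSp] at hx
  refine ⟨Sum.elim (fun q => (bdM π s hs).inl (lq π q.1 (p1 π s hs x)))
    (fun q => (bdM π s hs).inl (lM π q.1 (p2 π s hs x))), ?_, ?_⟩
  · rintro (q | q)
    · refine pc_cast (w := ws π s hs) ((bdM π s hs).inl_mem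
        (show lq π q.1 (p1 π s hs x) ∈ pcZ π P A (C - wC q.1.word) from ?_)) (add_zero P).symm rfl rfl
      rw [pcZ_eq_pz]
      refine lq_mem π ?_ q.1
      rw [← pcZ_eq_pz]
      exact hd.1
    · refine pc_cast (w := ws π s hs) ((bdM π s hs).inl_mem (lM_mem π s hd.2 q.1)) rfl rfl ?_
      have := wC_word_le q.1
      show _ = C - (((s - wC q.1.word : ℕ)) : ℤ)
      push_cast [show wC q.1.word ≤ s by omega]
      ring
  · rw [mem_FSp, map_sub, map_sub, sum1, sum2]
    refine ⟨gen_R π hx.1, ?_⟩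
    have h0 : (∑ q : {q : Wb // lev q = i + 1}, repM π (wq π q.1) (p2 π s hs
        ((Sum.elim (fun q : {q : Wb // lev q = i + 1} => (bdM π s hs).inl (lq π q.1 (p1 π s hs x)))
        (fun q : {q : Wb // mv q + 2 = i} => (bdM π s hs).inl (lM π q.1 (p2 π s hs x))) :
          kap i → (ws π s hs).S) (.inl q)))) = 0 :=
      Finset.sum_eq_zero fun q _ => map_zero (repM π (wq π q.1))
    rw [h0, zero_add]
    by_cases hi : i < 2
    · rw [show i + 1 - 2 = 0 by omega]
      exact MF_zero π _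
    · obtain ⟨n, rfl⟩ : ∃ n, i = n + 2 := ⟨i - 2, by omega⟩
      have h3 := gen_M π (i := n + 2) (n := n) rfl (m := p2 π s hs x) hx.2
      exact h3

theorem uniq_S (i : ℕ) (z : kap i → (ws π s hs).S)
    (h : ∑ k, uu π s hs i k * z k ∈ FS π s hs (i + 1)) (k : kap i) : z k ∈ FS π s hs 0 := by
  rw [mem_FSp, sum1, sum2] at h
  have key : kill π (p1 π s hs (z k)) = 0 := by
    rcases k with q | q
    · exact uniq_R π (fun q => p1 π s hs (z (.inl q))) h.1 q
    · have hi := q.2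
      obtain ⟨n, hn⟩ : ∃ n, i = n + 2 := ⟨i - 2, by omega⟩
      have h0 : (∑ q : {q : Wb // lev q = i + 1}, repM π (wq π q.1) (p2 π s hs (z (.inl q)))) = 0 :=
        Finset.sum_eq_zero fun q' _ => absurd q'.2 (by have := lev_le q'.1; omega)
      rw [h0, zero_add, show i + 1 - 2 = n + 1 by omega] at h
      exact uniq_M π hn (fun q => p1 π s hs (z (.inr q))) h.2 q
  rw [mem_FS0]
  exact (mem_J_iff_kill π).2 key

/-! ### the Koszul row and the instance -/

theorem two_x (j : Fin 2) : X π (.x j) ∈ pcZ π 1 0 0 := by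
  have := X_mem_pc π (.x j)
  have h2 := pcZ_nat π 1 0 0
  rw [show ((0 : ℕ) : ℤ) = 0 from rfl] at h2
  rw [h2]
  exact this

theorem D_x (j : Fin 2) : Der580.D π (X π (.x j)) = 0 := by
  rw [Der580.D_X]; simp [dGen]

/-- the letters `x_j` in `S` -/
def xx (j : Fin 2) : (ws π s hs).S := (bdM π s hs).inl (X π (.x j))

theorem xx_mem (j : Fin 2) : xx π s hs j ∈ (ws π s hs).pc 1 0 0 := (bdM π s hs).inl_mem (two_x π j)

theorem xx_D (j : Fin 2) : (ws π s hs).D (xx π s hs j) = 0 := by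
  apply BD.Car.ext
  · exact D_x π j
  · exact map_zero (dM π)

theorem p1_mul (a b : (ws π s hs).S) :
    p1 π s hs (a * b) = p1 π s hs a * p1 π s hs b := rfl

theorem p1_xx (j : Fin 2) : p1 π s hs (xx π s hs j) = X π (.x j) := rfl

theorem mem_FS0p {x : (ws π s hs).S} : x ∈ FS π s hs 0 ↔ p1 π s hs x ∈ J π := mem_FS0 π s hs

theorem sub_add (a b : R π) : a - b = a + b := by
  have := Der580.add_self π b
  rw [sub_eq_iff_eq_add, add_assoc, this, add_zero]

theorem pc_neg {P A C : ℤ} (hC : C < 0) : (ws π s hs).pc P A C = ⊥ := by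
  rw [eq_bot_iff]
  rintro x ⟨h1, h2⟩
  have e1 : pcZ π P A C = ⊥ := pcZ_neg π (Or.inr hC)
  have e2 : pcM π s P A C = ⊥ := by
    apply pcM_bot
    intro q
    have := wC_word_le q
    exact pcZ_neg π (Or.inr (by omega))
  rw [Submodule.mem_bot]
  apply BD.Car.ext
  · exact (Submodule.mem_bot K).1 (e1 ▸ (show x.1 ∈ pcZ π P A C from h1))
  · exact (Submodule.mem_bot K).1 (e2 ▸ (show x.2 ∈ pcM π s P A C from h2))

/-- **the instance of 810's `TRD`** -/
def trd : TRD (ws π s hs) where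
  lo := 0
  neg hC := pc_neg π s hs hC
  r := 5
  Fl := FS π s hs
  Fr := FS_five π s hs
  anti := FS_anti π s hs
  Fl_l i t _ ha := FS_l π s hs i t ha
  Fl_r i t _ ha := FS_r π s hs i t ha
  Fl_D i _ ha := FS_D π s hs i ha
  κ := kap
  fκ i := inferInstance
  u := uu π s hs
  uP _ := uuP _
  uP01 i k := by
    rcases k with q | q
    · exact Or.inl rfl
    · exact Or.inr rfl
  uC := uuC s
  u_mem := uu_mem π s hs
  u_F := uu_F π s hs
  u_J i k _ ht := uu_J π s hs i k ht
  u_D i k := by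
    rw [uu_D]
    exact Submodule.zero_mem _
  gen i _ _ _ _ _ hx hd := gen_S π s hs i hx hd
  uniq i _ _ _ z _ _ h := uniq_S π s hs i z h
  T0 := TP π s hs (-2)
  T1 := TP π s hs (-1)
  T2 := TP π s hs 0
  T01 θ h := TP_mono π s hs (by norm_num) θ h
  T12 θ h := TP_mono π s hs (by norm_num) θ h
  u_th θ H i k := by
    rw [uu_th π s hs θ H, sub_self]
    exact Submodule.zero_mem _
  x := xx π s hs
  x_mem := xx_mem π s hs
  x_D := xx_D π s hs
  kk j := if j = 0 then xx π s hs 1 else xx π s hs 0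
  kk_mem j := by
    split_ifs
    · exact xx_mem π s hs 1
    · exact xx_mem π s hs 0
  kk_D j := by
    split_ifs
    · exact xx_D π s hs 1
    · exact xx_D π s hs 0
  x_kk := by
    rw [Fin.sum_univ_two, if_pos rfl, if_neg (by decide)]
    have e : xx π s hs 0 * xx π s hs 1 + xx π s hs 1 * xx π s hs 0 = 0 := by
      have h1 : xx π s hs 1 * xx π s hs 0 = xx π s hs 0 * xx π s hs 1 := by
        have := (comm_xx π).eq
        exact ((bdM π s hs).inl.map_mul _ _).symm.trans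
          ((congrArg (bdM π s hs).inl this.symm).trans ((bdM π s hs).inl.map_mul _ _))
      rw [h1]
      exact (ws π s hs).two _
    rw [e]
    exact Submodule.zero_mem _
  T2x θ H := by
    obtain ⟨θ', h', e'⟩ := TP_x π s hs H
    obtain ⟨θ'', h'', e''⟩ := TP_x π s hs h'
    refine ⟨θ', by simpa using h', fun j => ?_, θ'', by simpa using h'', fun j => ?_⟩
    · have := e' j
      rw [show xx π s hs j = (bdM π s hs).inl (X π (.x j)) from rfl, this, sub_self]
      exact Submodule.zero_mem _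
    · split_ifs
      · rw [show xx π s hs 1 = (bdM π s hs).inl (X π (.x 1)) from rfl, e'' 1, sub_self]
        exact Submodule.zero_mem _
      · rw [show xx π s hs 0 = (bdM π s hs).inl (X π (.x 0)) from rfl, e'' 0, sub_self]
        exact Submodule.zero_mem _
  x_gen {P A C y} hP hy := by
    have h1 : p1 π s hs y ∈ pz π P A C := by
      rw [← pcZ_eq_pz]; exact hy.1
    obtain ⟨a, ha, b, hb, e⟩ := Kos374.xl_surZ π hP h1
    rw [← pcZ_eq_pz] at ha hb
    refine ⟨fun j => if j = 0 then (bdM π s hs).inl a else (bdM π s hs).inl b, fun j => ?_, ?_⟩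
    · beta_reduce
      split_ifs
      · exact (bdM π s hs).inl_mem ha
      · exact (bdM π s hs).inl_mem hb
    · rw [Fin.sum_univ_two, mem_FS0p, map_sub, map_add, p1_mul, p1_mul]
      have e2 : p1 π s hs y - (p1 π s hs (xx π s hs 0) * p1 π s hs (if (0 : Fin 2) = 0 then
          (bdM π s hs).inl a else (bdM π s hs).inl b) + p1 π s hs (xx π s hs 1) *
          p1 π s hs (if (1 : Fin 2) = 0 then (bdM π s hs).inl a else (bdM π s hs).inl b)) = 0 := by
        rw [if_pos rfl, if_neg (by decide)]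
        exact sub_eq_zero.2 e
      rw [e2]
      exact Submodule.zero_mem _
  x_ker {P A C} z hz h := by
    rw [Fin.sum_univ_two, mem_FS0p, map_add, p1_mul, p1_mul, p1_xx, p1_xx] at h
    have h0 : p1 π s hs (z 1) ∈ pz π (P - 1) A C := by
      rw [← pcZ_eq_pz]; exact (hz 1).1
    obtain ⟨c, hc, c1, c2⟩ := Kos374.jl_ker π (a := p1 π s hs (z 1)) (b := p1 π s hs (z 0)) h0 (by
      rw [sub_add, add_comm]; exact h)
    rw [← pcZ_eq_pz] at hc
    refine ⟨(bdM π s hs).inl c, pc_cast (w := ws π s hs) ((bdM π s hs).inl_mem hc) (by ring) rfl rfl,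
      fun j => ?_⟩
    rw [mem_FS0p]
    rcases fin2 j with rfl | rfl
    · rw [if_pos rfl]
      exact c2
    · rw [if_neg (by decide)]
      exact c1
  x_inj {t} h := by
    rw [mem_FS0p] at h ⊢
    rw [if_pos rfl, p1_mul] at h
    exact Kos374.jl_inj π 1 h

end Crest.Agent.R186.TRDi377
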