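import Crest.Agent.R186.TB3_143
import Crest.Agent.R186.Frame2_515

/-!
Row 186 (helper143): `P ⊗ X` and `Y ⊗ P` as functors of the bimodule `P`, in the cells frame.
-/

set_option autoImplicit false
set_option linter.style.haveILetI false
set_option linter.unusedSectionVars false

open MulOpposite

namespace Crest.Agent.R186.TB143

open Frame515 Hat827

variable {K : Type} [Field K] {A B : DGA K}

/-- short exact sequences of bimodules -/
structure BSES (P P' P'' : BM A B) extends SES P.toGC P'.toGC P''.toGC where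
  smul_i : ∀ (a : A.C) (x : P.X), i.f (a • x) = a • i.f x
  smul_p : ∀ (a : A.C) (x : P'.X), p.f (a • x) = a • p.f x
  smulR_i : ∀ (b : B.C) (x : P.X), i.f (op b • x) = op b • i.f x
  smulR_p : ∀ (b : B.C) (x : P'.X), p.f (op b • x) = op b • p.f x

/-- the underlying sequence of left modules -/
def BSES.toL {P P' P'' : BM A B} (S : BSES P P' P'') : LSES P.toLM P'.toLM P''.toLM where
  toSES := S.toSES
  smul_i := S.smul_i
  smul_p := S.smul_p

/-- the underlying sequence of right modules -/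
def BSES.toR {P P' P'' : BM A B} (S : BSES P P' P'') : RSES P.toRM P'.toRM P''.toRM where
  toSES := S.toSES
  smul_i := S.smulR_i
  smul_p := S.smulR_p

section tP

variable (X : LCells B) {P P' P'' : BM A B}

/-- `f ⊗ X` as a map of left modules -/
noncomputable def tPmap (f : BMHom P P') : LMHom (tP P X) (tP P' X) where
  toGCHom := tGmap X f.toR
  smul a x := by
    refine Finsupp.ext fun τ => ?_
    have h1 := (twGhom X f.toR).lin_apply (show X.ι →₀ P.X from a • (show X.ι →₀ P.X from x)) τ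
    have h2 := (twGhom X f.toR).lin_apply (show X.ι →₀ P.X from x) τ
    exact h1.trans ((f.smul a _).trans (congrArg (fun y => a • y) h2.symm))

theorem tP_qi {f : BMHom P P'} (h : QI f.toGCHom) : QI (tPmap X f).toGCHom := tG_qi X (f := f.toR) h

/-- exactness of `- ⊗ X` on bimodules -/
noncomputable def tPses (S : BSES P P' P'') : LSES (tP P X) (tP P' X) (tP P'' X) where
  toSES := tGses X S.toR
  smul_i a x := (tPmap X (⟨S.i, S.smul_i, S.smulR_i⟩ : BMHom P P')).smul a x
  smul_p a x := (tPmap X (⟨S.p, S.smul_p, S.smulR_p⟩ : BMHom P' P'')).smul a x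

end tP

section tQ

variable (Y : RCells A) {P P' P'' : BM A B}

/-- `Y ⊗ f` as a map of right modules -/
noncomputable def tQmap (f : BMHom P P') : RMHom (tQ Y P) (tQ Y P') where
  toGCHom := tYmap Y f.toL
  smul b x := by
    refine Finsupp.ext fun τ => ?_
    have h1 := (twYhom Y f.toL).lin_apply
      (show Y.ι →₀ P.X from op b • (show Y.ι →₀ P.X from x)) τ
    have h2 := (twYhom Y f.toL).lin_apply (show Y.ι →₀ P.X from x) τ
    exact h1.trans ((f.smulR b _).trans (congrArg (fun y => op b • y) h2.symm))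

theorem tQ_qi {f : BMHom P P'} (h : QI f.toGCHom) : QI (tQmap Y f).toGCHom := tY_qi Y (f := f.toL) h

/-- exactness of `Y ⊗ -` on bimodules -/
noncomputable def tQses (S : BSES P P' P'') : RSES (tQ Y P) (tQ Y P') (tQ Y P'') where
  toSES := tYses Y S.toL
  smul_i b x := (tQmap Y (⟨S.i, S.smul_i, S.smulR_i⟩ : BMHom P P')).smul b x
  smul_p b x := (tQmap Y (⟨S.p, S.smul_p, S.smulR_p⟩ : BMHom P' P'')).smul b x

end tQ

/-! ### five lemma -/

section five

variable {X Y W X' Y' W' : GC K} (S : SES X Y W) (S' : SES X' Y' W')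
  (a : GCHom X X') (b : GCHom Y Y') (c : GCHom W W')
  (h1 : ∀ x, b.f (S.i.f x) = S'.i.f (a.f x)) (h2 : ∀ y, c.f (S.p.f y) = S'.p.f (b.f y))

/-- the short exact sequence of the cones -/
def coneSES : SES (cone a) (cone b) (cone c) where
  i := ⟨S.i.f.prodMap S'.i.f, fun {k x} hx => ⟨S.i.f_mem hx.1, S'.i.f_mem hx.2⟩, fun x => by
    refine Prod.ext ?_ ?_
    · show S.i.f (-X.d x.1) = -Y.d (S.i.f x.1)
      rw [map_neg, S.i.f_d]
    · show S'.i.f (a.f x.1 + X'.d x.2) = b.f (S.i.f x.1) + Y'.d (S'.i.f x.2)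
      rw [map_add, S'.i.f_d, h1]⟩
  p := ⟨S.p.f.prodMap S'.p.f, fun {k x} hx => ⟨S.p.f_mem hx.1, S'.p.f_mem hx.2⟩, fun x => by
    refine Prod.ext ?_ ?_
    · show S.p.f (-Y.d x.1) = -W.d (S.p.f x.1)
      rw [map_neg, S.p.f_d]
    · show S'.p.f (b.f x.1 + Y'.d x.2) = c.f (S.p.f x.1) + W'.d (S'.p.f x.2)
      rw [map_add, S'.p.f_d, h2]⟩
  zero := fun {k x} hx => Prod.ext (S.zero hx.1) (S'.zero hx.2)
  inj := fun {k x} hx e => Prod.ext (S.inj hx.1 (congrArg Prod.fst e))
    (S'.inj hx.2 (congrArg Prod.snd e))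
  ex := by
    rintro k ⟨y, y'⟩ ⟨hy, hy'⟩ e
    obtain ⟨x, hx, ex⟩ := S.ex hy (congrArg Prod.fst e)
    obtain ⟨x', hx', ex'⟩ := S'.ex hy' (congrArg Prod.snd e)
    exact ⟨(x, x'), ⟨hx, hx'⟩, Prod.ext ex ex'⟩
  sur := by
    rintro k ⟨z, z'⟩ ⟨hz, hz'⟩
    obtain ⟨y, hy, ey⟩ := S.sur hz
    obtain ⟨y', hy', ey'⟩ := S'.sur hz'
    exact ⟨(y, y'), ⟨hy, hy'⟩, Prod.ext ey ey'⟩

include h1 h2

theorem five_mid (ha : QI a) (hc : QI c) : QI b :=
  ac_cone.1 ((coneSES S S' a b c h1 h2).ac_mid (ac_cone.2 ha) (ac_cone.2 hc))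

theorem five_right (ha : QI a) (hb : QI b) : QI c :=
  ac_cone.1 ((coneSES S S' a b c h1 h2).ac_right (ac_cone.2 hb) (ac_cone.2 ha))

theorem five_left (hb : QI b) (hc : QI c) : QI a :=
  ac_cone.1 ((coneSES S S' a b c h1 h2).ac_left (ac_cone.2 hb) (ac_cone.2 hc))

end five

end Crest.Agent.R186.TB143
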