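import Crest.Agent.R186.VTc_339
import Crest.Agent.R186.TB4_143
import Crest.Agent.R186.Core_890

/-!
Row 186 (helper429), half (A), leaf (V), plug (2) of 143's HM: `HB W (Y ⊗ M) n` from the columns.

* `HB_of_inc` : transport of `HB` along a map of right modules bijective in every degree;
* `incB` : 890's core `winS T` into 163's window `T.win`, `incQ` the same after `resBR` and `Y ⊗`;
* `HB_of_cols` : `HB` from [columns `f b` acyclic] and [steps `st b : e (b+1) → e b` bijective on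
  classes].
-/

set_option autoImplicit false
set_option linter.style.haveILetI false
set_option linter.unusedSectionVars false

open MulOpposite

namespace Crest.Agent.R186.VHM429

open Hat827 Hat827.DGA Frame515 TB143 VT339

variable {K : Type} [Field K] {A : DGA K}

theorem mem_cyc {G : RM A} {n : ℤ} {x : G.X} : x ∈ cyc G n ↔ x ∈ G.gr n ∧ G.d x = 0 := Iff.rfl

theorem mem_bd {G : RM A} {n : ℤ} {x : G.X} : x ∈ bd G n ↔ ∃ y ∈ G.gr (n + 1), G.d y = x := Iff.rfl

/-- transport along a map bijective in every degree -/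
theorem HB_of_inc {W : Wdat A} {G G' : RM A} (ι : RMHom G G')
    (inj : ∀ x, ι.f x = 0 → x = 0) (sur : ∀ k, ∀ y ∈ G'.gr k, ∃ x ∈ G.gr k, ι.f x = y)
    {n : ℤ} (h : HB W G' n) : HB W G n := by
  have hc : ∀ z ∈ cyc G n, ι.f z ∈ cyc G' n := fun z hz =>
    ⟨ι.f_mem hz.1, by rw [← ι.f_d, hz.2, map_zero]⟩
  have hb : ∀ z, ι.f z ∈ bd G' n → z ∈ bd G n := by
    rintro z ⟨y, hy, e⟩
    obtain ⟨x, hx, rfl⟩ := sur _ y hy
    refine ⟨x, hx, ?_⟩
    have h1 : ι.f (G.d x - z) = 0 := by rw [map_sub, ι.f_d, e, sub_self]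
    exact sub_eq_zero.1 (inj _ h1)
  refine ⟨fun z hz => ?_, fun b z hz => ?_, fun b z hz hzb => ?_⟩
  · apply hb
    rw [ι.smul]
    exact h.hf _ (hc z hz)
  · obtain ⟨z0, hz0, hz1⟩ := h.hs b _ (hc z hz)
    obtain ⟨x, hx, rfl⟩ := sur _ z0 hz0.1
    refine ⟨x, ⟨hx, ?_⟩, ?_⟩
    · apply inj
      rw [ι.f_d]
      exact hz0.2
    · apply hb
      rw [map_add, ι.smul, ι.smul]
      exact hz1
  · apply hb
    rw [ι.smul]
    refine h.hi b _ (hc z hz) ?_
    obtain ⟨y, hy, e⟩ := hzb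
    refine ⟨ι.f y, ι.f_mem hy, ?_⟩
    rw [← ι.f_d, e, ι.smul]

/-! ### the core of a window -/

section core

open Win810 WBM163 Core890 Res255

variable {w w' : WD K} (T : TB w w')

/-- the inclusion of the core as a map of bimodules -/
def incB : BMHom (winS T) T.win where
  toGCHom := incS T
  smul _ _ := rfl
  smulR _ _ := rfl

/-- after restriction on the right -/
def incBR {C : DGA K} (h : Hm C w'.dga) : BMHom (resBR h (winS T)) (resBR h T.win) where
  toGCHom := incS T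
  smul _ _ := rfl
  smulR _ _ := rfl

theorem tQmap_apply {A B : DGA K} (Y : RCells A) {P P' : BM A B} (f : BMHom P P')
    (x : Y.ι →₀ P.X) (σ : Y.ι) :
    (show Y.ι →₀ P'.X from (tQmap Y f).f (show (tQ Y P).X from x)) σ = f.f (x σ) :=
  tYmap_apply Y f.toL x σ

variable {C : DGA K} (h : Hm C w'.dga) (Y : RCells w.dga)

theorem incQ_inj (x : (tQ Y (resBR h (winS T))).X)
    (hx : (tQmap Y (incBR T h)).f x = 0) : x = 0 := by
  refine Finsupp.ext fun σ => ?_
  have h1 := tQmap_apply Y (incBR T h) x σ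
  rw [hx] at h1
  exact Subtype.ext h1.symm

theorem incQ_sur (k : ℤ) (y : (tQ Y (resBR h T.win)).X) (hy : y ∈ (tQ Y (resBR h T.win)).gr k) :
    ∃ x ∈ (tQ Y (resBR h (winS T))).gr k, (tQmap Y (incBR T h)).f x = y := by
  classical
  have hm : ∀ σ, (show Y.ι →₀ T.X from y) σ ∈ Xs T := fun σ => gr_le_Xs T _ (hy σ).1
  let x : Y.ι →₀ Xs T := Finsupp.onFinset (show Y.ι →₀ T.X from y).support
    (fun σ => ⟨(show Y.ι →₀ T.X from y) σ, hm σ⟩) fun σ hσ => by
      rw [Finsupp.mem_support_iff]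
      intro h0
      exact hσ (Subtype.ext h0)
  refine ⟨x, fun σ => ⟨(hy σ).1, Subtype.ext (hy σ).2⟩, ?_⟩
  refine Finsupp.ext fun σ => ?_
  exact tQmap_apply Y (incBR T h) x σ

/-- **`HB` may be checked on 163's window** -/
theorem HB_core {W : Wdat C} {n : ℤ} (hW : HB W (tQ Y (resBR h T.win)) n) :
    HB W (tQ Y (resBR h (winS T))) n :=
  HB_of_inc (tQmap Y (incBR T h)) (incQ_inj T h Y) (incQ_sur T h Y) hW

end core

/-! ### `HB` from the columns -/

theorem cyc_op {G : RM A} {n : ℤ} {z : G.X} (hz : z ∈ cyc G n) {c : A.C} (hc : c ∈ A.G 0) :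
    op c • z ∈ cyc G n := by
  refine ⟨?_, ?_⟩
  · have := G.smul_mem hc hz.1
    rwa [zero_add] at this
  · rw [G.leib, hz.2, smul_zero, add_zero, D_neg hc (by norm_num), op_zero, zero_smul]

theorem bd_op {G : RM A} {n : ℤ} {z : G.X} (hz : z ∈ bd G n) {c : A.C} (hc : c ∈ A.G 0) :
    op c • z ∈ bd G n := by
  obtain ⟨y, hy, rfl⟩ := hz
  refine ⟨op c • y, ?_, ?_⟩
  · have := G.smul_mem hc hy
    rwa [zero_add] at this
  · rw [G.leib, D_neg hc (by norm_num), op_zero, zero_smul, zero_add]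

theorem add_selfG (G : RM A) (x : G.X) : x + x = 0 := by
  have : x = op (1 : A.C) • x := by rw [op_one, one_smul]
  rw [this, ← add_smul, ← op_add, A.two, op_zero, zero_smul]

/-- columns data: idempotents `ec k`, `k ≤ m`, steps `st k` from `ec (k+1)` to `ec k`, products
`Hc k` from `ec m` to `ec k` -/
structure Steps (A : DGA K) (m : ℕ) where
  ec : ℕ → A.C
  st : ℕ → A.C
  Hc : ℕ → A.C
  ec_mem : ∀ k, ec k ∈ A.G 0
  st_mem : ∀ k, st k ∈ A.G 0
  ee : ∀ k, ec k * ec k = ec k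
  es : ∀ k, k < m → ec (k + 1) * st k = st k
  se : ∀ k, k < m → st k * ec k = st k
  H_top : Hc m = ec m
  H_st : ∀ k, k < m → Hc (k + 1) * st k = Hc k

variable {m : ℕ} (S : Steps A m)

theorem Steps.H_e (k : ℕ) (hk : k ≤ m) : S.Hc k * S.ec k = S.Hc k := by
  rcases Nat.lt_or_ge k m with h | h
  · rw [← S.H_st k h, mul_assoc, S.se k h]
  · have : k = m := le_antisymm hk h
    subst this
    rw [S.H_top, S.ee]

theorem Steps.e_H (k : ℕ) (hk : k ≤ m) : S.ec m * S.Hc k = S.Hc k := by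
  induction hk using Nat.decreasingInduction with
  | self => rw [S.H_top, S.ee]
  | of_succ k hk ih => rw [← S.H_st k hk, ← mul_assoc, ih]

theorem Steps.H_mem (k : ℕ) (hk : k ≤ m) : S.Hc k ∈ A.G 0 := by
  induction hk using Nat.decreasingInduction with
  | self => rw [S.H_top]; exact S.ec_mem m
  | of_succ k hk ih =>
    rw [← S.H_st k hk]
    have := A.mul_mem ih (S.st_mem k)
    rwa [zero_add] at this

/-- the steps are bijective on classes of degree `n` -/
structure Steps.Bij (G : RM A) (n : ℤ) : Prop where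
  inj : ∀ k, k < m → ∀ z ∈ cyc G n, op (S.ec (k + 1)) • z = z → op (S.st k) • z ∈ bd G n →
    z ∈ bd G n
  sur : ∀ k, k < m → ∀ z ∈ cyc G n, op (S.ec k) • z = z → ∃ x ∈ cyc G n,
    op (S.ec (k + 1)) • x = x ∧ z + op (S.st k) • x ∈ bd G n

theorem Steps.Bij.inj' {S : Steps A m} {G : RM A} {n : ℤ} (h : S.Bij G n) (k : ℕ) (hk : k ≤ m) :
    ∀ z ∈ cyc G n, op (S.ec m) • z = z → op (S.Hc k) • z ∈ bd G n → z ∈ bd G n := by
  induction hk using Nat.decreasingInduction with
  | self =>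
    intro z _ he hb
    rwa [S.H_top, he] at hb
  | of_succ k hk ih =>
    intro z hz he hb
    refine ih z hz he ?_
    refine h.inj k hk _ (cyc_op hz (S.H_mem (k + 1) hk)) ?_ ?_
    · rw [smul_smul, ← op_mul, S.H_e (k + 1) hk]
    · rwa [smul_smul, ← op_mul, S.H_st k hk]

theorem Steps.Bij.sur' {S : Steps A m} {G : RM A} {n : ℤ} (h : S.Bij G n) (k : ℕ) (hk : k ≤ m) :
    ∀ z ∈ cyc G n, op (S.ec k) • z = z → ∃ x ∈ cyc G n, op (S.ec m) • x = x ∧
      z + op (S.Hc k) • x ∈ bd G n := by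
  induction hk using Nat.decreasingInduction with
  | self =>
    intro z hz he
    refine ⟨z, hz, he, ?_⟩
    rw [S.H_top, he, add_selfG]
    exact Submodule.zero_mem _
  | of_succ k hk ih =>
    intro z hz he
    obtain ⟨x, hx, hxe, hxb⟩ := h.sur k hk z hz he
    obtain ⟨y, hy, hye, hyb⟩ := ih x hx hxe
    refine ⟨y, hy, hye, ?_⟩
    have h1 := bd_op hyb (S.st_mem k)
    rw [smul_add, smul_smul, ← op_mul, S.H_st k hk] at h1
    have h2 := Submodule.add_mem _ hxb h1
    rw [add_assoc, ← add_assoc (op (S.st k) • x), add_selfG, zero_add] at h2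
    exact h2

/-- **`HB` from the columns** -/
theorem HB_of_cols (W : Wdat A) (G : RM A) (n : ℤ) (bb : W.ι → ℕ) (hbb : ∀ b, bb b ≤ m)
    (he : ∀ b, W.e b = S.ec (bb b)) (hH : ∀ b, W.H W.o b = S.Hc (bb b)) (ho : bb W.o = m)
    {γ : Type} [Fintype γ] (f : γ → A.C) (hf : W.fs = ∑ c, f c) (hfG : ∀ c, f c ∈ A.G 0)
    (hff : ∀ c, f c * f c = f c)
    (hac : ∀ c, ∀ z ∈ cyc G n, op (f c) • z = z → z ∈ bd G n)
    (h : S.Bij G n) : HB W G n := by
  refine ⟨fun z hz => ?_, fun b z hz => ?_, fun b z hz hb => ?_⟩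
  · rw [hf, show op (∑ c, f c) = ∑ c, op (f c) from map_sum (opAddEquiv (α := A.C)) _ _,
      Finset.sum_smul]
    refine Submodule.sum_mem _ fun c _ => hac c _ (cyc_op hz (hfG c)) ?_
    rw [smul_smul, ← op_mul, hff]
  · obtain ⟨x, hx, hxe, hxb⟩ := h.sur' (bb b) (hbb b) (op (S.ec (bb b)) • z)
      (cyc_op hz (S.ec_mem _)) (by rw [smul_smul, ← op_mul, S.ee])
    refine ⟨x, hx, ?_⟩
    rw [he, hH]
    exact hxb
  · rw [he, ho]
    refine h.inj' (bb b) (hbb b) _ (cyc_op hz (S.ec_mem m)) (by rw [smul_smul, ← op_mul, S.ee]) ?_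
    rw [smul_smul, ← op_mul, S.e_H _ (hbb b), ← hH]
    exact hb

end Crest.Agent.R186.VHM429
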