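import Crest.Agent.R186.ColHB_977
import Crest.Agent.R186.ColM_790
import Crest.Agent.R186.ColB_921
import Crest.Agent.R186.TRDi_377
import Crest.Agent.R186.VHM_429

/-!
# Row 186, half (A), leaf (V), plug HB (helper977), part 2: binding to 790's / 921's columns of `M`
-/

set_option autoImplicit false
set_option linter.style.haveILetI false
set_option linter.unusedSectionVars false

open MulOpposite

noncomputable section

namespace Crest.Agent.R186.ColAd977

open Frame515 Hat827 TB143 Win810 Col921 SExt44 TR810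

section gen

variable {K : Type} [Field K] {A : DGA K}

/-- retracts of left modules -/
theorem ac_retr {N N' : LM A} (Y : RCells A) (f : LMHom N' N) (g : LMHom N N')
    (e : ∀ x, g.f (f.f x) = x) (h : Ac (tY Y N)) : Ac (tY Y N') := by
  intro k x hx hd
  obtain ⟨y, hy, e1⟩ := h k ((tYmap Y f).f x) ((tYmap Y f).f_mem hx)
    (by rw [← (tYmap Y f).f_d, hd, map_zero])
  refine ⟨(tYmap Y g).f y, (tYmap Y g).f_mem hy, ?_⟩
  rw [← (tYmap Y g).f_d, e1]
  refine Finsupp.ext fun σ => ?_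
  have h1 := tYmap_apply Y g ((tYmap Y f).f x) σ
  have h2 := tYmap_apply Y f x σ
  refine h1.trans ?_
  refine (congrArg g.f h2).trans ?_
  exact e _

end gen

/-! ### columns of the cone -/

section cone

variable {K : Type} [Field K] {w : WD K} (B : LB w) (θ : Ce w) {p1 a1 p0 a0 : ℤ}

/-- first components -/
def k1 (v : Cv (B.cone θ)) : Cv B := fun i => c1L θ B (v i)

/-- second components -/
def k2 (v : Cv (B.cone θ)) : Cv B := fun i => c2L θ B (v i)

theorem k1_smul (m : w.dga.C) (v : Cv (B.cone θ)) : k1 B θ (m • v) = m • k1 B θ v := by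
  funext i
  show c1L θ B ((m • v) i) = (m • k1 B θ v) i
  rw [Cv.act_apply, Cv.act_apply, map_sum]
  rfl

theorem k2_smul (m : w.dga.C) (v : Cv (B.cone θ)) : k2 B θ (m • v) = m • k2 B θ v := by
  funext i
  show c2L θ B ((m • v) i) = (m • k2 B θ v) i
  rw [Cv.act_apply, Cv.act_apply, map_sum]
  rfl

/-- pairs -/
def k12 (v v' : Cv B) : Cv (B.cone θ) := fun i => mk2 θ B (v i) (v' i)

/-- the cone of `θ` between two columns is the column of the cone -/
def ofC (ψ : LMHom (colL B p1 a1) (colL B p0 a0)) (hψ : ∀ v i, ψ.f v i = θ.t • v i)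
    (hp : p1 = p0) (ha : a1 = a0 + 1) : LMHom (colL (B.cone θ) p0 a0) (coneL ψ) where
  f :=
    { toFun := fun v => (k1 B θ v, k2 B θ v)
      map_add' := fun _ _ => rfl
      map_smul' := fun _ _ => rfl }
  f_mem {k v} hv := by
    refine ⟨fun i => ?_, fun i => ?_⟩
    · exact B.cast (hv i).1 (by rw [hp]) (by rw [ha]; ring) rfl
    · exact (hv i).2
  f_d v := by
    refine Prod.ext ?_ ?_
    · funext i
      exact (eq_neg_of_add_eq_zero_left (B.two (B.d (c1L θ B (v i)))))
    · funext i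
      exact (congrArg (· + B.d (c2L θ B (v i))) (hψ (k1 B θ v) i)).symm
  smul m v := Prod.ext (k1_smul B θ m v) (k2_smul B θ m v)

/-- the inverse -/
def toC (ψ : LMHom (colL B p1 a1) (colL B p0 a0)) (hψ : ∀ v i, ψ.f v i = θ.t • v i)
    (hp : p1 = p0) (ha : a1 = a0 + 1) : LMHom (coneL ψ) (colL (B.cone θ) p0 a0) where
  f :=
    { toFun := fun v => k12 B θ v.1 v.2
      map_add' := fun _ _ => rfl
      map_smul' := fun _ _ => rfl }
  f_mem {k v} hv := by
    intro i
    exact ⟨B.cast (hv.1 i) (by rw [hp]) (by rw [ha]; ring) rfl, hv.2 i⟩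
  f_d v := by
    funext i
    refine Prod.ext ?_ ?_
    · exact (eq_neg_of_add_eq_zero_left (B.two (B.d (v.1 i)))).symm
    · exact congrArg (· + B.d (v.2 i)) (hψ v.1 i)
  smul m v := by
    funext i
    refine Prod.ext ?_ ?_
    · exact (congrFun (k1_smul B θ m (k12 B θ v.1 v.2)) i).symm
    · exact (congrFun (k2_smul B θ m (k12 B θ v.1 v.2)) i).symm

theorem ac_coneL (ψ : LMHom (colL B p1 a1) (colL B p0 a0)) (hψ : ∀ v i, ψ.f v i = θ.t • v i)
    (hp : p1 = p0) (ha : a1 = a0 + 1) (Y : RCells w.dga) (h : Ac (tY Y (colL (B.cone θ) p0 a0))) :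
    Ac (tY Y (coneL ψ)) :=
  ac_retr Y (toC B θ ψ hψ hp ha) (ofC B θ ψ hψ hp ha) (fun _ => rfl) h

end cone

section conc

open V2c510 VT339 DefsQ830 DefsQ830.Gen PBW128 SM890 ColM790

variable {K : Type} [Field K] (π : Par K) (s : ℕ) (hs : 2 ≤ s)

/-- `h` is central on `M` -/
theorem rho_h (m : N K) : rho π (X π .h) m = repM π (X π .h) m := by
  have h1 : ∀ q (r : R π), rho π (X π .h) (repM π r (oo K q)) =
      repM π (X π .h) (repM π r (oo K q)) := by
    intro q r
    rw [← rho_comm, ← TRDi377.h_oo, repM_repM, repM_repM, Der580.h_comm]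
  rw [← C1R808.mc_sum π m]
  rw [map_sum, map_sum]
  exact Finset.sum_congr rfl fun q _ => h1 q _

/-- `h` as a central element -/
def hCe : Ce (WR π) where
  t := (show R π from X π .h)
  mem := TRDi377.h_memZ π
  D0 := h_D π
  comm r := Der580.h_comm π r

/-- 790's and 153's columns agree -/
theorem ac_790 (Y : RCells (WR π).dga) (p a : ℤ) (h : Ac (Sc Y (ColM790.MB π s) p a)) :
    Ac (tY Y (colL (MB π s hs) p a)) := h

/-- **the step of `h` from the column of the cone** -/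
theorem qi_h (Y : RCells (WR π).dga) (b : Fin 3)
    (h : Ac (Sc Y ((ColM790.MB π s).cone (hCe π)) 0 ((b : ℕ) : ℤ))) :
    QI (tYmap Y (hSt π s hs b)) := by
  refine qi_of_cone (hSt π s hs b) Y (ac_coneL (MB π s hs) (hCe π) (hSt π s hs b) ?_ ?_ ?_ Y ?_)
  · intro v i
    exact rho_h π (v i)
  · rfl
  · show (((b.succ : Fin 4) : ℕ) : ℤ) = (((b.castSucc : Fin 4) : ℕ) : ℤ) + 1
    rw [Fin.val_succ, Fin.val_castSucc]
    push_cast
    ring
  · exact h

/-- **plug HB from the columns in 790's / 921's form** -/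
theorem hb_ends (h3 : 3 ≤ s) (Y : RCells (WR π).dga)
    (h1 : ∀ b : Fin 4, Ac (Sc Y (ColM790.MB π s) 1 ((b : ℕ) : ℤ)))
    (h2 : ∀ b : Fin 3, Ac (Sc Y ((ColM790.MB π s).cone (hCe π)) 0 ((b : ℕ) : ℤ))) (n : ℤ) :
    HB (wdatG π s hs h3) (tQ Y (MT π s hs)) n :=
  hb_cols π s hs h3 Y (fun b => h1 b) (fun b => qi_h π s hs Y b (h2 b)) n

/-- **the same for the bimodule `M` of `EndP_448`** -/
theorem hb_MW (h3 : 3 ≤ s) (Y : RCells (WR π).dga)
    (h1 : ∀ b : Fin 4, Ac (Sc Y (ColM790.MB π s) 1 ((b : ℕ) : ℤ)))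
    (h2 : ∀ b : Fin 3, Ac (Sc Y ((ColM790.MB π s).cone (hCe π)) 0 ((b : ℕ) : ℤ))) (n : ℤ) :
    HB (wdatG π s hs h3) (tQ Y (Res255.resBR (HmP π s hs) (MW π s hs))) n :=
  VHM429.HB_core (tbOf (bdM π s hs)) (fstH (bdM π s hs)) Y (hb_ends π s hs h3 Y h1 h2 n)

end conc

end Crest.Agent.R186.ColAd977
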