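import Mathlib

/-!
Row 186, half (A) (helper925): LEMMA W.

`B` a graded `K`-space bounded below with an operator `δ`; a *triangular family* over `B` is a
finite index set `ι` with a rank, nonnegative shifts `sh`, and operators `E i j : B → B`
(`rank j < rank i`); its total complex is `ι → B` with `(d t) i = δ (t i) + ∑ j, E i j (t j)`.

* `Tri.exact_of_base` : `B` exact in the degrees `m - sh i` ⇒ the family is exact in degree `m`;
* `Tri.base_exact` : the family acyclic with one index of rank `0` (shift `0`) ⇒ `B` acyclic;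
* `Tri.transfer` : the family of `B ⊗ W` acyclic ⇒ the family of `B ⊗ N` acyclic.
-/

set_option autoImplicit false

namespace Crest.Agent.R186.LemW925

variable {K : Type} [Field K]

/-- `(B, δ)` is exact in degree `m` -/
def ExB {B : Type} [AddCommGroup B] [Module K B] (gr : ℤ → Submodule K B) (δ : B →ₗ[K] B)
    (m : ℤ) : Prop :=
  ∀ b ∈ gr m, δ b = 0 → ∃ c ∈ gr (m + 1), δ c = b

/-- a triangular family of operators over a graded space -/
structure Tri (K : Type) [Field K] (B : Type) [AddCommGroup B] [Module K B]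
    (gr : ℤ → Submodule K B) (δ : B →ₗ[K] B) where
  ι : Type
  [fin : Fintype ι]
  [dec : DecidableEq ι]
  rank : ι → ℕ
  sh : ι → ℤ
  E : ι → ι → (B →ₗ[K] B)
  tri : ∀ i j, rank i ≤ rank j → E i j = 0
  δ_mem : ∀ (k : ℤ) (b : B), b ∈ gr k → δ b ∈ gr (k - 1)
  E_mem : ∀ (i j : ι) (k : ℤ) (b : B), b ∈ gr (k - sh j) → E i j b ∈ gr (k - 1 - sh i)
  sq : ∀ (t : ι → B) (i : ι),
    δ (δ (t i) + ∑ j, E i j (t j)) + ∑ j, E i j (δ (t j) + ∑ l, E j l (t l)) = 0

attribute [instance] Tri.fin Tri.dec

namespace Tri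

variable {B : Type} [AddCommGroup B] [Module K B] {gr : ℤ → Submodule K B} {δ : B →ₗ[K] B}

/-- the differential of the total complex -/
def d (T : Tri K B gr δ) (t : T.ι → B) (i : T.ι) : B := δ (t i) + ∑ j, T.E i j (t j)

variable (T : Tri K B gr δ)

/-- homogeneous elements of the total complex -/
def Hom (m : ℤ) (t : T.ι → B) : Prop := ∀ i, t i ∈ gr (m - T.sh i)

theorem d_d (t : T.ι → B) : T.d (T.d t) = 0 := by
  funext i
  exact T.sq t i

theorem d_add (t u : T.ι → B) : T.d (t + u) = T.d t + T.d u := by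
  funext i
  simp only [d, Pi.add_apply, map_add, Finset.sum_add_distrib]
  abel

theorem d_neg (t : T.ι → B) : T.d (-t) = - T.d t := by
  funext i
  simp only [d, Pi.neg_apply, map_neg, Finset.sum_neg_distrib]
  abel

theorem d_sub (t u : T.ι → B) : T.d (t - u) = T.d t - T.d u := by
  rw [sub_eq_add_neg, d_add, d_neg, ← sub_eq_add_neg]

theorem Hom.add {m : ℤ} {t u : T.ι → B} (ht : T.Hom m t) (hu : T.Hom m u) : T.Hom m (t + u) :=
  fun i => Submodule.add_mem _ (ht i) (hu i)

theorem Hom.sub {m : ℤ} {t u : T.ι → B} (ht : T.Hom m t) (hu : T.Hom m u) : T.Hom m (t - u) :=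
  fun i => Submodule.sub_mem _ (ht i) (hu i)

theorem Hom.d {m : ℤ} {t : T.ι → B} (ht : T.Hom m t) : T.Hom (m - 1) (T.d t) := by
  intro i
  refine Submodule.add_mem _ ?_ (Submodule.sum_mem _ fun j _ => T.E_mem i j m _ (ht j))
  have := T.δ_mem _ _ (ht i)
  rwa [show m - T.sh i - 1 = m - 1 - T.sh i by ring] at this

/-- coordinates of small rank do not see the larger ones -/
theorem d_apply_of (t : T.ι → B) (r : ℕ) (ht : ∀ i, T.rank i < r → t i = 0) (i : T.ι)
    (hi : T.rank i ≤ r) : T.d t i = δ (t i) := by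
  unfold Tri.d
  rw [Finset.sum_eq_zero, add_zero]
  intro j _
  by_cases hj : T.rank j < r
  · rw [ht j hj, map_zero]
  · rw [T.tri i j (by omega)]
    rfl

/-- exactness of the family in one degree from exactness of the base; version for elements
vanishing in small ranks, staying in the complement of a set of indices -/
theorem exact_aux (m : ℤ) (P : T.ι → Prop) [DecidablePred P]
    (hb : ∀ i, P i → ExB gr δ (m - T.sh i)) :
    ∀ (N r : ℕ), (∀ i, T.rank i < r + N) → ∀ t : T.ι → B, T.Hom m t → (∀ i, ¬ P i → t i = 0) →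
      (∀ i, ¬ P i → ∀ j, T.rank j < T.rank i → P j → T.E i j = 0) →
      (∀ i, T.rank i < r → t i = 0) → T.d t = 0 →
      ∃ s : T.ι → B, T.Hom (m + 1) s ∧ (∀ i, ¬ P i → s i = 0) ∧ T.d s = t := by
  intro N
  induction N with
  | zero =>
    intro r hr t ht _ _ h0 _
    refine ⟨0, fun i => Submodule.zero_mem _, fun _ _ => rfl, ?_⟩
    funext i
    rw [h0 i (by simpa using hr i)]
    simp [Tri.d]
  | succ N ih =>
    intro r hr t ht hP hE h0 hd
    have hex : ∀ i, ∃ c ∈ gr (m - T.sh i + 1), T.rank i = r → P i → δ c = t i := by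
      intro i
      by_cases hi : T.rank i = r ∧ P i
      · have hz : δ (t i) = 0 := by
          rw [← T.d_apply_of t r h0 i (by omega), hd]
          rfl
        obtain ⟨c, hc, hc'⟩ := hb i hi.2 (t i) (ht i) hz
        exact ⟨c, hc, fun _ _ => hc'⟩
      · exact ⟨0, Submodule.zero_mem _, fun h1 h2 => absurd ⟨h1, h2⟩ hi⟩
    choose c hc hc' using hex
    let s : T.ι → B := fun i => if T.rank i = r ∧ P i then c i else 0
    have hs : T.Hom (m + 1) s := by
      intro i
      show (if T.rank i = r ∧ P i then c i else 0) ∈ _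
      split_ifs
      · rw [show m + 1 - T.sh i = m - T.sh i + 1 by ring]
        exact hc i
      · exact Submodule.zero_mem _
    have hsP : ∀ i, ¬ P i → s i = 0 := by
      intro i hi
      show (if T.rank i = r ∧ P i then c i else 0) = 0
      rw [if_neg (fun h => hi h.2)]
    have hs0 : ∀ i, T.rank i < r → s i = 0 := by
      intro i hi
      show (if T.rank i = r ∧ P i then c i else 0) = 0
      rw [if_neg (fun h => absurd h.1 (by omega))]
    have hds : T.Hom m (T.d s) := by
      have := Hom.d T hs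
      rwa [show m + 1 - 1 = m by ring] at this
    have hdsP : ∀ i, ¬ P i → T.d s i = 0 := by
      intro i hi
      unfold Tri.d
      rw [hsP i hi, map_zero, zero_add]
      refine Finset.sum_eq_zero fun j _ => ?_
      by_cases hj : P j
      · by_cases hr' : T.rank j < T.rank i
        · rw [hE i hi j hr' hj]; rfl
        · rw [T.tri i j (by omega)]; rfl
      · rw [hsP j hj, map_zero]
    have hle : ∀ i, T.rank i < r + 1 → T.d s i = t i := by
      intro i hi
      rw [T.d_apply_of s r hs0 i (by omega)]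
      by_cases h1 : T.rank i < r
      · rw [hs0 i h1, h0 i h1, map_zero]
      · by_cases h2 : P i
        · show δ (if T.rank i = r ∧ P i then c i else 0) = t i
          rw [if_pos ⟨by omega, h2⟩]
          exact hc' i (by omega) h2
        · rw [hsP i h2, hP i h2, map_zero]
    obtain ⟨s', hs', hs'P, hs'd⟩ := ih (r + 1) (fun i => by have := hr i; omega) (t - T.d s)
      (Hom.sub T ht hds) (fun i hi => by rw [Pi.sub_apply, hP i hi, hdsP i hi, sub_zero]) hE
      (fun i hi => by rw [Pi.sub_apply, hle i hi, sub_self])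
      (by rw [T.d_sub, T.d_d, hd, sub_zero])
    refine ⟨s + s', Hom.add T hs hs', fun i hi => by
      rw [Pi.add_apply, hsP i hi, hs'P i hi, add_zero], ?_⟩
    rw [T.d_add, hs'd]
    abel

theorem rank_lt (i : T.ι) : T.rank i < 0 + (∑ j, T.rank j + 1) := by
  have := Finset.single_le_sum (f := T.rank) (fun _ _ => Nat.zero_le _) (Finset.mem_univ i)
  omega

/-- **exactness of the family in one degree** -/
theorem exact_of_base (m : ℤ) (hb : ∀ i, ExB gr δ (m - T.sh i)) (t : T.ι → B) (ht : T.Hom m t)
    (hd : T.d t = 0) : ∃ s : T.ι → B, T.Hom (m + 1) s ∧ T.d s = t := by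
  obtain ⟨s, hs, _, h⟩ := T.exact_aux m (fun _ => True) (fun i _ => hb i) _ 0 T.rank_lt t ht
    (fun i hi => absurd trivial hi) (fun i hi => absurd trivial hi) (fun i hi => absurd hi (by omega))
    hd
  exact ⟨s, hs, h⟩

/-- **the base is acyclic when the family is** -/
theorem base_exact (lo : ℤ) (hlo : ∀ k < lo, gr k = ⊥) (i0 : T.ι) (h0 : T.rank i0 = 0)
    (hs0 : T.sh i0 = 0) (hs : ∀ i, 0 ≤ T.sh i)
    (hT : ∀ (m : ℤ) (t : T.ι → B), T.Hom m t → T.d t = 0 → ∃ s : T.ι → B, T.Hom (m + 1) s ∧ T.d s = t)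
    (m : ℤ) : ExB gr δ m := by
  have key : ∀ (n : ℕ) (m : ℤ), m < lo + n → ExB gr δ m := by
    intro n
    induction n with
    | zero =>
      intro m hm b hb _
      rw [hlo m (by simpa using hm)] at hb
      exact ⟨0, Submodule.zero_mem _, by rw [(Submodule.mem_bot K).1 hb, map_zero]⟩
    | succ n ih =>
      intro m hm z hz hdz
      let t : T.ι → B := fun i => if i = i0 then z else 0
      have ht0 : t i0 = z := if_pos rfl
      have ht : T.Hom m t := by
        intro i
        show (if i = i0 then z else 0) ∈ _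
        split_ifs with h
        · rw [h, hs0, sub_zero]; exact hz
        · exact Submodule.zero_mem _
      have hdt0 : T.d t i0 = 0 := by
        rw [T.d_apply_of t 0 (fun i hi => absurd hi (by omega)) i0 (by omega), ht0, hdz]
      have hE : ∀ i, ¬ (i ≠ i0) → ∀ j, T.rank j < T.rank i → j ≠ i0 → T.E i j = 0 := by
        intro i hi j hj _
        rw [not_not] at hi
        rw [hi, h0] at hj
        exact absurd hj (by omega)
      obtain ⟨w, hw, hwP, hwd⟩ := T.exact_aux (m - 1) (fun i => i ≠ i0)
        (fun i _ => ih _ (by have := hs i; push_cast at hm; omega)) _ 0 T.rank_lt (T.d t)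
        (Hom.d T ht) (fun i hi => by rw [not_not] at hi; rw [hi, hdt0]) hE
        (fun i hi => absurd hi (by omega)) (T.d_d t)
      rw [show m - 1 + 1 = m by ring] at hw
      have hw0 : w i0 = 0 := hwP i0 (by simp)
      obtain ⟨v, hv, hvd⟩ := hT m (t - w) (Hom.sub T ht hw) (by rw [T.d_sub, hwd, sub_self])
      refine ⟨v i0, ?_, ?_⟩
      · have := hv i0
        rwa [hs0, sub_zero] at this
      · rw [← T.d_apply_of v 0 (fun i hi => absurd hi (by omega)) i0 (by omega), hvd, Pi.sub_apply,
          ht0, hw0, sub_zero]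
  exact key (m - lo + 1).toNat m (by omega)

/-- **LEMMA W**: two triangular families over the same base; the first acyclic (one index of rank
`0`, nonnegative shifts) ⇒ the second acyclic -/
theorem transfer (T' : Tri K B gr δ) (lo : ℤ) (hlo : ∀ k < lo, gr k = ⊥) (i0 : T.ι)
    (h0 : T.rank i0 = 0) (hs0 : T.sh i0 = 0) (hs : ∀ i, 0 ≤ T.sh i)
    (hT : ∀ (m : ℤ) (t : T.ι → B), T.Hom m t → T.d t = 0 → ∃ s : T.ι → B, T.Hom (m + 1) s ∧ T.d s = t)
    (m : ℤ) (t : T'.ι → B) (ht : T'.Hom m t) (hd : T'.d t = 0) :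
    ∃ s : T'.ι → B, T'.Hom (m + 1) s ∧ T'.d s = t :=
  T'.exact_of_base m (fun _ => T.base_exact lo hlo i0 h0 hs0 hs hT _) t ht hd

end Tri

end Crest.Agent.R186.LemW925
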