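import Crest.Agent.R186.Frame_515
import Crest.Agent.R186.LemW_925

/-!
Row 186, half (A) (helper925): Lemma W on the complexes of `Frame_515`.

`WF L T` : `T` is graded-free over a letter system `L` (the basis of `W`);
`WT F L' T'` : `T'` is "`T ⊗_W N`" (`L'` = basis of `N`).
`WT.ac : Ac T → Ac T'`.  Cones of compatible maps carry the same structure.
-/

set_option autoImplicit false
set_option linter.style.haveILetI false

namespace Crest.Agent.R186.ColW925

open Crest.Agent.R186.Frame515 Crest.Agent.R186.LemW925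

variable {K : Type} [Field K]

/-- a letter system: finite index set, rank, degree -/
structure Lett where
  I : Type
  [fin : Fintype I]
  [dec : DecidableEq I]
  rank : I → ℕ
  sh : I → ℤ

attribute [instance] Lett.fin Lett.dec

/-- graded-free `W`-module structure on a complex -/
structure WF (L : Lett) (T : GC K) where
  one : L.I
  rank_one : L.rank one = 0
  sh_one : L.sh one = 0
  sh_nn : ∀ i, 0 ≤ L.sh i
  B : Type
  [grp : AddCommGroup B]
  [mod : Module K B]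
  gr : ℤ → Submodule K B
  lo : ℤ
  hlo : ∀ k < lo, gr k = ⊥
  ψ : B →ₗ[K] T.X
  ψ_mem : ∀ {k : ℤ} {b : B}, b ∈ gr k → ψ b ∈ T.gr k
  lc : L.I → T.X →ₗ[K] B
  lc_mem : ∀ (i : L.I) {k : ℤ} {x : T.X}, x ∈ T.gr k → lc i x ∈ gr (k - L.sh i)
  R : L.I → T.X →ₗ[K] T.X
  R_mem : ∀ (i : L.I) {k : ℤ} {x : T.X}, x ∈ T.gr k → R i x ∈ T.gr (k + L.sh i)
  R_d : ∀ i x, R i (T.d x) = T.d (R i x)
  diag : ∀ j t, lc j (R j t) = lc one t
  tri : ∀ i j, i ≠ j → L.rank i ≤ L.rank j → ∀ t, lc i (R j t) = 0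
  sum : ∀ x, ∑ j, R j (ψ (lc j x)) = x
  lcψ : ∀ i j b, lc i (R j (ψ b)) = if i = j then b else 0

attribute [instance] WF.grp WF.mod

/-- `T' = T ⊗_W N` -/
structure WT {L : Lett} {T : GC K} (F : WF L T) (L' : Lett) (T' : GC K) where
  lc : L'.I → T'.X →ₗ[K] F.B
  lc_mem : ∀ (i : L'.I) {k : ℤ} {x : T'.X}, x ∈ T'.gr k → lc i x ∈ F.gr (k - L'.sh i)
  O : L'.I → T.X →ₗ[K] T'.X
  O_mem : ∀ (i : L'.I) {k : ℤ} {x : T.X}, x ∈ T.gr k → O i x ∈ T'.gr (k + L'.sh i)
  O_d : ∀ i x, O i (T.d x) = T'.d (O i x)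
  diag : ∀ j t, lc j (O j t) = F.lc F.one t
  tri : ∀ i j, i ≠ j → L'.rank i ≤ L'.rank j → ∀ t, lc i (O j t) = 0
  sum : ∀ x, ∑ j, O j (F.ψ (lc j x)) = x
  lcψ : ∀ i j b, lc i (O j (F.ψ b)) = if i = j then b else 0

namespace WF

variable {L : Lett} {T : GC K} (F : WF L T)

/-- the base differential -/
def δ : F.B →ₗ[K] F.B := F.lc F.one ∘ₗ T.d ∘ₗ F.ψ

theorem δ_apply (b : F.B) : F.δ b = F.lc F.one (T.d (F.ψ b)) := rfl

/-- `T` as tensor product with itself -/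
def self : WT F L T where
  lc := F.lc
  lc_mem := F.lc_mem
  O := F.R
  O_mem := F.R_mem
  O_d := F.R_d
  diag := F.diag
  tri := F.tri
  sum := F.sum
  lcψ := F.lcψ

end WF

namespace WT

variable {L : Lett} {T : GC K} {F : WF L T} {L' : Lett} {T' : GC K} (G : WT F L' T')

/-- assembling coordinates -/
def asm (t : L'.I → F.B) : T'.X := ∑ j, G.O j (F.ψ (t j))

theorem lc_asm (t : L'.I → F.B) (i : L'.I) : G.lc i (G.asm t) = t i := by
  unfold asm
  rw [map_sum, Finset.sum_eq_single i]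
  · rw [G.lcψ, if_pos rfl]
  · intro j _ hj
    rw [G.lcψ, if_neg (Ne.symm hj)]
  · intro h
    exact absurd (Finset.mem_univ _) h

theorem asm_lc (x : T'.X) : G.asm (fun i => G.lc i x) = x := G.sum x

theorem asm_mem {k : ℤ} {t : L'.I → F.B} (ht : ∀ i, t i ∈ F.gr (k - L'.sh i)) :
    G.asm t ∈ T'.gr k := by
  unfold asm
  refine Submodule.sum_mem _ fun j _ => ?_
  have := G.O_mem j (F.ψ_mem (ht j))
  rwa [show k - L'.sh j + L'.sh j = k by ring] at this

/-- the operators of the triangular family -/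
def E (i j : L'.I) : F.B →ₗ[K] F.B :=
  if i = j then 0 else G.lc i ∘ₗ G.O j ∘ₗ T.d ∘ₗ F.ψ

theorem lc_d_asm (t : L'.I → F.B) (i : L'.I) :
    G.lc i (T'.d (G.asm t)) = F.δ (t i) + ∑ j, G.E i j (t j) := by
  unfold asm
  rw [map_sum, map_sum]
  have h : ∀ j, G.lc i (T'.d (G.O j (F.ψ (t j)))) =
      (if i = j then F.δ (t i) else 0) + G.E i j (t j) := by
    intro j
    rw [← G.O_d]
    by_cases hij : i = j
    · subst hij
      rw [if_pos rfl, G.diag]
      unfold E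
      rw [if_pos rfl, LinearMap.zero_apply, add_zero]
      rfl
    · rw [if_neg hij, zero_add]
      unfold E
      rw [if_neg hij]
      rfl
  rw [Finset.sum_congr rfl (fun j _ => h j), Finset.sum_add_distrib, Finset.sum_ite_eq,
    if_pos (Finset.mem_univ _)]

/-- the triangular family of `T'` -/
def toTri : Tri K F.B F.gr F.δ where
  ι := L'.I
  rank := L'.rank
  sh := L'.sh
  E := G.E
  tri i j h := by
    unfold E
    split_ifs with hij
    · rfl
    · ext b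
      exact G.tri i j hij h _
  δ_mem k b hb := by
    have := F.lc_mem F.one (T.d_mem (F.ψ_mem hb))
    rwa [F.sh_one, sub_zero] at this
  E_mem i j k b hb := by
    unfold E
    split_ifs with hij
    · exact Submodule.zero_mem _
    · have := G.lc_mem i (G.O_mem j (T.d_mem (F.ψ_mem hb)))
      rwa [show k - L'.sh j - 1 + L'.sh j - L'.sh i = k - 1 - L'.sh i by ring] at this
  sq t i := by
    have h1 : ∀ i, F.δ (t i) + ∑ j, G.E i j (t j) = G.lc i (T'.d (G.asm t)) := fun i =>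
      (G.lc_d_asm t i).symm
    simp only [h1]
    rw [← G.lc_d_asm (fun i => G.lc i (T'.d (G.asm t))) i, G.asm_lc, T'.d_d, map_zero]

theorem toTri_d (t : L'.I → F.B) (i : L'.I) :
    G.toTri.d t i = G.lc i (T'.d (G.asm t)) := (G.lc_d_asm t i).symm

/-- family acyclic from complex acyclic -/
theorem tri_of_ac (h : Ac T') (m : ℤ) (t : L'.I → F.B) (ht : G.toTri.Hom m t)
    (hd : G.toTri.d t = 0) : ∃ s : L'.I → F.B, G.toTri.Hom (m + 1) s ∧ G.toTri.d s = t := by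
  have h0 : T'.d (G.asm t) = 0 := by
    rw [← G.asm_lc (T'.d (G.asm t))]
    refine Finset.sum_eq_zero fun j _ => ?_
    have h1 : G.lc j (T'.d (G.asm t)) = 0 := by
      rw [← toTri_d G t j, hd]
      rfl
    change (G.O j) (F.ψ (G.lc j (T'.d (G.asm t)))) = 0
    rw [h1, map_zero, map_zero]
  obtain ⟨y, hy, hy'⟩ := h m (G.asm t) (G.asm_mem ht) h0
  refine ⟨fun i => G.lc i y, fun i => G.lc_mem i hy, ?_⟩
  funext i
  rw [toTri_d, G.asm_lc, hy', G.lc_asm]

/-- complex acyclic from family acyclic -/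
theorem ac_of_tri (h : ∀ (m : ℤ) (t : L'.I → F.B), G.toTri.Hom m t → G.toTri.d t = 0 →
    ∃ s : L'.I → F.B, G.toTri.Hom (m + 1) s ∧ G.toTri.d s = t) : Ac T' := by
  intro k x hx hd
  have hz : G.toTri.d (fun i => G.lc i x) = 0 := by
    funext i
    have h1 : G.asm (fun i => G.lc i x) = x := G.asm_lc x
    refine (G.toTri_d (fun i => G.lc i x) i).trans ?_
    rw [h1, hd, map_zero]
    rfl
  obtain ⟨s, hs, hs'⟩ := h k (fun i => G.lc i x) (fun i => G.lc_mem i hx) hz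
  refine ⟨G.asm s, G.asm_mem hs, ?_⟩
  rw [← G.asm_lc (T'.d (G.asm s)), ← G.asm_lc x]
  congr 1
  funext i
  have := congrFun hs' i
  rwa [toTri_d] at this

/-- **LEMMA W**: a graded-free acyclic `W`-complex stays acyclic after `⊗_W N` -/
theorem ac {L : Lett} {T : GC K} {F : WF L T} {L' : Lett} {T' : GC K} (G : WT F L' T')
    (h : Ac T) : Ac T' :=
  G.ac_of_tri fun m t ht hd =>
    F.self.toTri.transfer G.toTri F.lo F.hlo F.one F.rank_one F.sh_one F.sh_nn
      (F.self.tri_of_ac h) m t ht hd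

end WT

/-! ### cones -/

section cone

variable {T₁ T₂ : GC K} (h2 : (2 : K) = 0)

/-- the cone of a map of complexes, `(x, y) ↦ (d x, f x + d y)`, `x` of degree `k - 1` -/
abbrev coneG (h2 : (2 : K) = 0) (f : GCHom T₁ T₂) : GC K where
  X := T₁.X × T₂.X
  gr k := (T₁.gr (k - 1)).prod (T₂.gr k)
  d := LinearMap.prod (T₁.d ∘ₗ LinearMap.fst K T₁.X T₂.X)
    (f.f ∘ₗ LinearMap.fst K T₁.X T₂.X + T₂.d ∘ₗ LinearMap.snd K T₁.X T₂.X)
  d_mem {k x} hx := ⟨T₁.d_mem hx.1, Submodule.add_mem _ (f.f_mem hx.1) (T₂.d_mem hx.2)⟩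
  d_d x := by
    refine Prod.ext (T₁.d_d _) ?_
    change f.f (T₁.d x.1) + T₂.d (f.f x.1 + T₂.d x.2) = 0
    rw [map_add, T₂.d_d, add_zero, f.f_d, ← two_smul K, h2, zero_smul]

theorem coneG_d (f : GCHom T₁ T₂) (x : T₁.X × T₂.X) :
    (coneG h2 f).d x = (T₁.d x.1, f.f x.1 + T₂.d x.2) := rfl

/-- cone of a `W`-linear map -/
abbrev WF.cone {L : Lett} (F₁ : WF L T₁) (F₂ : WF L T₂) (f : GCHom T₁ T₂)
    (h1 : F₁.one = F₂.one) (hf : ∀ i x, f.f (F₁.R i x) = F₂.R i (f.f x)) :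
    WF L (coneG h2 f) where
  one := F₁.one
  rank_one := F₁.rank_one
  sh_one := F₁.sh_one
  sh_nn := F₁.sh_nn
  B := F₁.B × F₂.B
  gr k := (F₁.gr (k - 1)).prod (F₂.gr k)
  lo := min F₁.lo F₂.lo
  hlo k hk := by
    rw [F₁.hlo (k - 1) (by have := min_le_left F₁.lo F₂.lo; omega),
      F₂.hlo k (by have := min_le_right F₁.lo F₂.lo; omega)]
    exact Submodule.prod_bot
  ψ := LinearMap.prodMap F₁.ψ F₂.ψ
  ψ_mem hb := ⟨F₁.ψ_mem hb.1, F₂.ψ_mem hb.2⟩
  lc i := LinearMap.prodMap (F₁.lc i) (F₂.lc i)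
  lc_mem i {k x} hx := by
    refine ⟨?_, F₂.lc_mem i hx.2⟩
    have := F₁.lc_mem i hx.1
    rwa [show k - 1 - L.sh i = k - L.sh i - 1 by ring] at this
  R i := LinearMap.prodMap (F₁.R i) (F₂.R i)
  R_mem i {k x} hx := by
    refine ⟨?_, F₂.R_mem i hx.2⟩
    have := F₁.R_mem i hx.1
    rwa [show k - 1 + L.sh i = k + L.sh i - 1 by ring] at this
  R_d i x := by
    refine Prod.ext (F₁.R_d i x.1) ?_
    change F₂.R i (f.f x.1 + T₂.d x.2) = f.f (F₁.R i x.1) + T₂.d (F₂.R i x.2)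
    rw [map_add, hf, F₂.R_d]
  diag j t := Prod.ext (F₁.diag j t.1) (by
    have := F₂.diag j t.2
    rw [← h1] at this
    exact this)
  tri i j hij hr t := Prod.ext (F₁.tri i j hij hr t.1) (F₂.tri i j hij hr t.2)
  sum x := by
    refine Prod.ext ?_ ?_
    · rw [Prod.fst_sum]
      exact F₁.sum x.1
    · rw [Prod.snd_sum]
      exact F₂.sum x.2
  lcψ i j b := by
    refine Prod.ext ?_ ?_
    · refine (F₁.lcψ i j b.1).trans ?_
      split_ifs <;> rfl
    · refine (F₂.lcψ i j b.2).trans ?_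
      split_ifs <;> rfl

/-- tensor product of a cone -/
def WT.cone {L L' : Lett} {F₁ : WF L T₁} {F₂ : WF L T₂} {T₁' T₂' : GC K} (G₁ : WT F₁ L' T₁')
    (G₂ : WT F₂ L' T₂') (f : GCHom T₁ T₂) (f' : GCHom T₁' T₂')
    (h1 : F₁.one = F₂.one) (hf : ∀ i x, f.f (F₁.R i x) = F₂.R i (f.f x))
    (hf' : ∀ i x, f'.f (G₁.O i x) = G₂.O i (f.f x)) :
    WT (WF.cone h2 F₁ F₂ f h1 hf) L' (coneG h2 f') where
  lc i := LinearMap.prodMap (G₁.lc i) (G₂.lc i)
  lc_mem i {k x} hx := by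
    refine ⟨?_, G₂.lc_mem i hx.2⟩
    have := G₁.lc_mem i hx.1
    rwa [show k - 1 - L'.sh i = k - L'.sh i - 1 by ring] at this
  O i := LinearMap.prodMap (G₁.O i) (G₂.O i)
  O_mem i {k x} hx := by
    refine ⟨?_, G₂.O_mem i hx.2⟩
    have := G₁.O_mem i hx.1
    rwa [show k - 1 + L'.sh i = k + L'.sh i - 1 by ring] at this
  O_d i x := by
    refine Prod.ext (G₁.O_d i x.1) ?_
    change G₂.O i (f.f x.1 + T₂.d x.2) = f'.f (G₁.O i x.1) + T₂'.d (G₂.O i x.2)
    rw [map_add, hf', G₂.O_d]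
  diag j t := Prod.ext (G₁.diag j t.1) (by
    have := G₂.diag j t.2
    rw [← h1] at this
    exact this)
  tri i j hij hr t := Prod.ext (G₁.tri i j hij hr t.1) (G₂.tri i j hij hr t.2)
  sum x := by
    refine Prod.ext ?_ ?_
    · rw [Prod.fst_sum]
      exact G₁.sum x.1
    · rw [Prod.snd_sum]
      exact G₂.sum x.2
  lcψ i j b := by
    refine Prod.ext ?_ ?_
    · refine (G₁.lcψ i j b.1).trans ?_
      split_ifs <;> rfl
    · refine (G₂.lcψ i j b.2).trans ?_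
      split_ifs <;> rfl

end cone

end Crest.Agent.R186.ColW925
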