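import Crest.Agent.R186.V3b_726
import Crest.Agent.R186.ColBC_790
import Crest.Agent.R186.ColM_790
import Crest.Agent.R186.TB3_143
import Crest.Agent.R186.SMp_890

/-!
Row 186 (A), leaf V3 (helper339): bridge between 726's windows `(V.T c p a).win` (theorems `colM`,
`coneM`) and the columns `Sc Y B p a` of 921 / 790.
-/

set_option autoImplicit false
set_option linter.style.haveILetI false
set_option linter.unusedSectionVars false

noncomputable section

namespace Crest.Agent.R186.ColX339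

open DefsQ830 DefsQ830.Gen PBW128 SM890 Win810 Frame515 WBM163 Hat827 TB143 Col921 ColB790 ColM790
open V3x726 (VW vR vM)

variable {K : Type} [Field K] {π : Par K}

/-- a map bijective on every piece -/
theorem qi_bij {X Y : GC K} (φ : GCHom X Y) (hs : ∀ k, ∀ y ∈ Y.gr k, ∃ x ∈ X.gr k, φ.f x = y)
    (hi : Function.Injective φ.f) : QI φ where
  surj k y hy hd := by
    obtain ⟨x, hx, rfl⟩ := hs k y hy
    refine ⟨x, hx, hi (by rw [φ.f_d, hd, map_zero]), 0, Submodule.zero_mem _, ?_⟩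
    rw [map_zero, add_zero]
  inj k x hx hd := by
    rintro ⟨z, hz, e⟩
    obtain ⟨w, hw, rfl⟩ := hs _ z hz
    exact ⟨w, hw, hi (by rw [e, φ.f_d])⟩

/-- `AcQ ⊤ ⊥` in all degrees is acyclicity -/
theorem acQ_iff {A : DGA K} {Y : RCells A} {N : LM A} :
    (∀ n, AcY726.AcQ Y N ⊤ ⊥ n) ↔ Ac (tY Y N) := by
  constructor
  · intro h k x hx hd
    have hd' : (tY Y N).d x = 0 := hd
    obtain ⟨y, hy, -, hy'⟩ := h k x hx (fun σ => Submodule.mem_top)
      (fun σ => by rw [hd']; exact Submodule.zero_mem _)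
    refine ⟨y, hy, ?_⟩
    refine Finsupp.ext fun σ => ?_
    have h1 := (Submodule.mem_bot A.C).1 (hy' σ)
    exact (sub_eq_zero.1 h1).symm
  · intro h k x hx _ hd
    have hd' : (tY Y N).d x = 0 := Finsupp.ext fun σ => (Submodule.mem_bot A.C).1 (hd σ)
    obtain ⟨y, hy, e⟩ := h k x hx hd'
    refine ⟨y, hy, fun σ => Submodule.mem_top, fun σ => ?_⟩
    rw [e, sub_self]
    exact Submodule.zero_mem _

/-- identification of `B` with `V` -/
structure Br (B : LB (WR π)) (V : VW π) where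
  φ : B.B ≃ₗ[K] N K
  l : ∀ (r : (WR π).S) (b : B.B), φ (r • b) = V.ρ (show R π from r) (φ b)
  d : ∀ b : B.B, φ (B.d b) = V.dV (φ b)
  p : ∀ {P A C : ℤ} {b : B.B}, b ∈ B.pb P A C ↔ φ b ∈ V.NV P A C

namespace Br

variable {B : LB (WR π)} {V : VW π} (I : Br B V)

/-- columns -/
def f0 (p a : ℤ) : LMHom (colL B p a) (V.T false p a).win where
  f :=
    { toFun := fun v => (fun i => ((0 : N K), I.φ (v i)) : (WR π).Ob → N K × N K)
      map_add' := fun v v' => funext fun i => Prod.ext (add_zero _).symm (map_add I.φ _ _)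
      map_smul' := fun c v => funext fun i => Prod.ext (smul_zero _).symm (map_smul I.φ _ _) }
  f_mem {k v} hv := V.T_mem.2 fun i => ⟨Submodule.zero_mem _, I.p.1 (hv i)⟩
  f_d v := by
    funext i
    refine Prod.ext ?_ ?_
    · exact (map_zero V.dV).symm
    · show I.φ (B.d (v i)) = V.dV (I.φ (v i)) + V.ρ (X π .h) 0
      rw [map_zero, add_zero, I.d]
  smul m v := by
    funext i
    refine Prod.ext ?_ ?_
    · refine Eq.symm ((V.T_smul1 _ _ i).trans (Finset.sum_eq_zero fun l _ => ?_))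
      exact map_zero _
    · refine Eq.trans ?_ (V.T_smul2 _ _ i).symm
      show I.φ ((m • v) i) = _
      rw [Cv.act_apply, map_sum]
      exact Finset.sum_congr rfl fun l _ => I.l _ _

theorem f0_qi (p a : ℤ) : QI (I.f0 p a).toGCHom := by
  refine qi_bij _ (fun k y hy => ?_) (fun v v' h => ?_)
  · have hy' := V.T_mem.1 hy
    refine ⟨fun i => I.φ.symm (y i).2, fun i => ?_, funext fun i => Prod.ext ?_ ?_⟩
    · refine I.p.2 ?_
      rw [I.φ.apply_symm_apply]
      exact (hy' i).2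
    · exact ((Submodule.mem_bot K).1 (hy' i).1).symm
    · exact I.φ.apply_symm_apply _
  · funext i
    exact I.φ.injective (congrArg Prod.snd (congrFun h i))

/-- cones -/
def f1 (θ : Ce (WR π)) (hθ : θ.t = (show (WR π).S from X π .h)) (p a : ℤ) :
    LMHom (colL (B.cone θ) p a) (V.T true p a).win where
  f :=
    { toFun := fun v => (fun i => (I.φ (v i).1, I.φ (v i).2) : (WR π).Ob → N K × N K)
      map_add' := fun v v' => funext fun i => Prod.ext (map_add I.φ _ _) (map_add I.φ _ _)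
      map_smul' := fun c v => funext fun i => Prod.ext (map_smul I.φ _ _) (map_smul I.φ _ _) }
  f_mem {k v} hv := V.T_mem.2 fun i => ⟨I.p.1 (hv i).1, I.p.1 (hv i).2⟩
  f_d v := by
    funext i
    refine Prod.ext (I.d _) ?_
    show I.φ (θ.t • (v i).1 + B.d (v i).2) = V.dV (I.φ (v i).2) + V.ρ (X π .h) (I.φ (v i).1)
    rw [map_add, I.l, I.d, hθ, add_comm]
  smul m v := by
    funext i
    refine Prod.ext ?_ ?_
    · refine Eq.trans ?_ (V.T_smul1 _ _ i).symm
      show I.φ ((m • v) i).1 = _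
      rw [Cv.act_apply]
      have e := map_sum (LinearMap.fst K B.B B.B)
        (fun l => (show B.B × B.B from ((m : (WR π).Win).1 i l • v l : (B.cone θ).B))) Finset.univ
      refine ((congrArg I.φ e).trans (map_sum I.φ _ _)).trans ?_
      exact Finset.sum_congr rfl fun l _ => I.l _ _
    · refine Eq.trans ?_ (V.T_smul2 _ _ i).symm
      show I.φ ((m • v) i).2 = _
      rw [Cv.act_apply]
      have e := map_sum (LinearMap.snd K B.B B.B)
        (fun l => (show B.B × B.B from ((m : (WR π).Win).1 i l • v l : (B.cone θ).B))) Finset.univ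
      refine ((congrArg I.φ e).trans (map_sum I.φ _ _)).trans ?_
      exact Finset.sum_congr rfl fun l _ => I.l _ _

theorem f1_qi (θ : Ce (WR π)) (hθ : θ.t = (show (WR π).S from X π .h)) (p a : ℤ) :
    QI (I.f1 θ hθ p a).toGCHom := by
  refine qi_bij _ (fun k y hy => ?_) (fun v v' h => ?_)
  · have hy' := V.T_mem.1 hy
    refine ⟨fun i => (I.φ.symm (y i).1, I.φ.symm (y i).2), fun i => ⟨?_, ?_⟩,
      funext fun i => Prod.ext ?_ ?_⟩
    · refine I.p.2 ?_
      show I.φ (I.φ.symm (y i).1) ∈ _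
      rw [I.φ.apply_symm_apply]
      exact (hy' i).1
    · refine I.p.2 ?_
      show I.φ (I.φ.symm (y i).2) ∈ _
      rw [I.φ.apply_symm_apply]
      exact (hy' i).2
    · exact I.φ.apply_symm_apply _
    · exact I.φ.apply_symm_apply _
  · funext i
    exact Prod.ext (I.φ.injective (congrArg Prod.fst (congrFun h i)))
      (I.φ.injective (congrArg Prod.snd (congrFun h i)))

variable {Y : RCells (WR π).dga}

include I

theorem ac0 (p a : ℤ) : Ac (Sc Y B p a) ↔ ∀ n, AcY726.AcQ Y (V.T false p a).win ⊤ ⊥ n :=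
  (tY_ac_iff Y (I.f0_qi p a)).trans acQ_iff.symm

theorem ac1 (θ : Ce (WR π)) (hθ : θ.t = (show (WR π).S from X π .h)) (p a : ℤ) :
    Ac (Sc Y (B.cone θ) p a) ↔ ∀ n, AcY726.AcQ Y (V.T true p a).win ⊤ ⊥ n :=
  (tY_ac_iff Y (I.f1_qi θ hθ p a)).trans acQ_iff.symm

end Br

theorem brR_d (b : R π) : ev π (Der580.D π b) = (vR π).dV (ev π b) := by
  rw [V3x726.vR_dV, Psi_ev]

theorem brR_p {P A C : ℤ} {b : R π} : b ∈ pcZ π P A C ↔ ev π b ∈ (vR π).NV P A C := by
  rw [V3x726.vR_NV, Psi_ev, KOS296.pcZ_eq_pz]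

theorem brM_p (s : ℕ) (hs : 2 ≤ s) {P A C : ℤ} {b : N K} :
    b ∈ (show Submodule K (N K) from pcM π s P A C) ↔ b ∈ (vM π s hs).NV P A C := by
  rw [show (show Submodule K (N K) from pcM π s P A C) =
    (Finsupp.supported K K (mI s P A C) : Submodule K (N K)) from pcM_supported π s P A C,
    Finsupp.mem_supported', VW.mem_NV]
  refine forall_congr' fun ν => ?_
  rw [not_imp_comm]
  refine imp_congr_right fun _ => ?_
  have e1 : (vM π s hs).pV = -1 := rfl
  have e2 : (vM π s hs).cV ν.2.2.2.2 = (s : ℤ) - wC ν.2.2.2.2.word := rfl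
  rw [e1, e2]
  show mP ν = P ∧ (dAx ν : ℤ) = A ∧ mC s ν = C ↔ _
  unfold mP mC
  have e3 : V3x726.d1C ν = (ν.2.2.2.1.map (fun l => l.toGen.dC)).sum := rfl
  rw [e3]
  constructor
  · rintro ⟨h1, h2, h3⟩
    exact ⟨by omega, h2, by omega⟩
  · rintro ⟨h1, h2, h3⟩
    exact ⟨by omega, h2, by omega⟩

/-- `R''` -/
def brR : Br (selfLB (WR π)) (vR π) where
  φ := PBW128.coord π
  l r b := PBW128.ev_mul π r b
  d b := brR_d b
  p := brR_p

/-- `M` -/
def brM (s : ℕ) (hs : 2 ≤ s) : Br (MB π s) (vM π s hs) where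
  φ := LinearEquiv.refl K (N K)
  l _ _ := rfl
  d _ := rfl
  p := brM_p s hs

variable {Y : RCells (WR π).dga}

/-- **columns `(1,a)` of `M` from columns `(0,a)` of `R''`** -/
theorem col1 (s : ℕ) (hs : 2 ≤ s) {a : ℤ} (h : Ac (Sc Y (selfLB (WR π)) 0 a)) :
    Ac (Sc Y (MB π s) 1 a) :=
  ((brM s hs).ac0 1 a).2 (V3x726.colM s hs ((brR.ac0 0 a).1 h))

/-- **cones of `h` on the columns `(0,a+1) → (0,a)` of `M`** -/
theorem cone0 (s : ℕ) (hs : 2 ≤ s) (θ : Ce (WR π)) (hθ : θ.t = (show (WR π).S from X π .h)) {a : ℤ}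
    (h0 : Ac (Sc Y ((selfLB (WR π)).cone θ) 0 a)) (h1 : Ac (Sc Y ((selfLB (WR π)).cone θ) 1 a)) :
    Ac (Sc Y ((MB π s).cone θ) 0 a) :=
  ((brM s hs).ac1 θ hθ 0 a).2
    (V3x726.coneM s hs ((brR.ac1 θ hθ 0 a).1 h0) ((brR.ac1 θ hθ 1 a).1 h1))

end Crest.Agent.R186.ColX339
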