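import Mathlib

/-!
Row 186, leaf HAT, part 1 (helper827): `Ext` out of an explicit projective resolution.

`ext_of_res` : `... → T 1 → T 0 → X → 0` exact, `T m` projective, every cocycle `T (i+1) → M` is a
coboundary; then `Ext^(i+1)(X, M) = 0`.
-/

set_option autoImplicit false
set_option linter.style.haveILetI false

universe u

open CategoryTheory CategoryTheory.Abelian

namespace Crest.Agent.R186.Res827

variable {A : Type u} [Ring A]

section step

variable {P X : Type u} [AddCommGroup P] [Module A P] [AddCommGroup X] [Module A X]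
  (ε : P →ₗ[A] X) (hε : Function.Surjective ε)

/-- `Ext^1 = 0` if every map out of the syzygy extends -/
theorem ext_one [hP : Module.Projective A P] (hε : Function.Surjective ε) (M : Type u)
    [AddCommGroup M] [Module A M]
    (h : ∀ g : LinearMap.ker ε →ₗ[A] M, ∃ f : P →ₗ[A] M, f ∘ₗ (LinearMap.ker ε).subtype = g) :
    Subsingleton (Ext (ModuleCat.of A X) (ModuleCat.of A M) 1) := by
  let S : ShortComplex (ModuleCat.{u} A) := ε.shortComplexKer
  have hS : S.ShortExact := LinearMap.shortExact_shortComplexKer hε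
  have : Projective S.X₂ := (IsProjective.iff_projective (ModuleCat.of A P)).1 inferInstance
  have hz : ∀ x : Ext S.X₃ (ModuleCat.of A M) 1, x = 0 := by
    intro x
    have h0 : (Ext.mk₀ S.g).comp x (zero_add 1) = 0 := Ext.eq_zero_of_projective _
    obtain ⟨y, hy⟩ := Ext.contravariant_sequence_exact₃ hS (ModuleCat.of A M) x h0 (add_zero 1)
    obtain ⟨φ, rfl⟩ := Ext.homEquiv₀.symm.surjective y
    obtain ⟨f, hf⟩ := h φ.hom
    have h1 : φ = S.f ≫ ModuleCat.ofHom f := by
      apply ModuleCat.hom_ext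
      exact hf.symm
    rw [Ext.homEquiv₀_symm_apply, h1, ← Ext.mk₀_comp_mk₀] at hy
    rw [← hy, ← Ext.comp_assoc (X := S.X₃) (Y := S.X₁) (Z := S.X₂) hS.extClass (Ext.mk₀ S.f)
      (Ext.mk₀ (ModuleCat.ofHom f)) (add_zero 1) (zero_add 0) (by omega), hS.extClass_comp,
      Ext.zero_comp]
  exact ⟨fun a b => by rw [hz a, hz b]⟩

/-- dimension shift -/
theorem ext_succ [hP : Module.Projective A P] (hε : Function.Surjective ε) (M : Type u)
    [AddCommGroup M] [Module A M] (i : ℕ)
    (h : Subsingleton (Ext (ModuleCat.of A (LinearMap.ker ε)) (ModuleCat.of A M) (i + 1))) :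
    Subsingleton (Ext (ModuleCat.of A X) (ModuleCat.of A M) (i + 2)) := by
  let S : ShortComplex (ModuleCat.{u} A) := ε.shortComplexKer
  have hS : S.ShortExact := LinearMap.shortExact_shortComplexKer hε
  have : Projective S.X₂ := (IsProjective.iff_projective (ModuleCat.of A P)).1 inferInstance
  have hz : ∀ x : Ext S.X₃ (ModuleCat.of A M) (i + 2), x = 0 := by
    intro x
    have h0 : (Ext.mk₀ S.g).comp x (zero_add (i + 2)) = 0 := Ext.eq_zero_of_projective _
    obtain ⟨y, hy⟩ := Ext.contravariant_sequence_exact₃ hS (ModuleCat.of A M) x h0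
      (show 1 + (i + 1) = i + 2 by omega)
    have : Subsingleton (Ext S.X₁ (ModuleCat.of A M) (i + 1)) := h
    rw [← hy, this.elim y 0, Ext.comp_zero]
  exact ⟨fun a b => by rw [hz a, hz b]⟩

/-- transport along a linear equivalence -/
theorem ext_equiv {X Y : Type u} [AddCommGroup X] [Module A X] [AddCommGroup Y] [Module A Y]
    (e : X ≃ₗ[A] Y) (M : Type u) [AddCommGroup M] [Module A M] (i : ℕ)
    (h : Subsingleton (Ext (ModuleCat.of A X) (ModuleCat.of A M) i)) :
    Subsingleton (Ext (ModuleCat.of A Y) (ModuleCat.of A M) i) := by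
  have hz : ∀ x : Ext (ModuleCat.of A Y) (ModuleCat.of A M) i, x = 0 := by
    intro x
    have h1 : (Ext.mk₀ (e.toModuleIso.hom)).comp x (zero_add i) = 0 := h.elim _ _
    have h2 : (Ext.mk₀ (e.toModuleIso.inv)).comp
        ((Ext.mk₀ (e.toModuleIso.hom)).comp x (zero_add i)) (zero_add i) = x := by
      rw [Ext.mk₀_comp_mk₀_assoc, e.toModuleIso.inv_hom_id, Ext.mk₀_id_comp]
    rw [← h2, h1, Ext.comp_zero]
  exact ⟨fun a b => by rw [hz a, hz b]⟩

end step

/-- **`Ext` from a projective resolution.** -/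
theorem ext_of_res (i : ℕ) : ∀ (T : ℕ → Type u) [∀ m, AddCommGroup (T m)] [∀ m, Module A (T m)]
    [∀ m, Module.Projective A (T m)] (d : ∀ m, T (m + 1) →ₗ[A] T m)
    (hd : ∀ m (x : T (m + 1)), d m x = 0 ↔ ∃ y, d (m + 1) y = x)
    (X : Type u) [AddCommGroup X] [Module A X] (ε : T 0 →ₗ[A] X) (_ : Function.Surjective ε)
    (_ : ∀ x, ε x = 0 ↔ ∃ y, d 0 y = x)
    (M : Type u) [AddCommGroup M] [Module A M]
    (_ : ∀ f : T (i + 1) →ₗ[A] M, f ∘ₗ d (i + 1) = 0 → ∃ g : T i →ₗ[A] M, f = g ∘ₗ d i),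
    Subsingleton (Ext (ModuleCat.of A X) (ModuleCat.of A M) (i + 1)) := by
  induction i with
  | zero =>
    intro T _ _ _ d hd X _ _ ε hε he M _ _ h
    refine ext_one ε hε M ?_
    intro g
    let d' : T 1 →ₗ[A] LinearMap.ker ε :=
      LinearMap.codRestrict _ (d 0) (fun y => (he _).2 ⟨y, rfl⟩)
    obtain ⟨f, hf⟩ := h (g ∘ₗ d') (by
      ext y
      have : d' (d 1 y) = 0 := by
        apply Subtype.ext
        exact (hd 0 _).2 ⟨y, rfl⟩
      simp [this])
    refine ⟨f, ?_⟩
    ext x
    obtain ⟨y, hy⟩ := (he x.1).1 x.2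
    have h1 := LinearMap.congr_fun hf y
    have h2 : d' y = x := Subtype.ext hy
    simp only [LinearMap.comp_apply, h2] at h1
    rw [hy] at h1
    exact h1.symm
  | succ i ih =>
    intro T _ _ _ d hd X _ _ ε hε he M _ _ h
    refine ext_succ ε hε M i ?_
    let d' : T 1 →ₗ[A] LinearMap.ker ε :=
      LinearMap.codRestrict _ (d 0) (fun y => (he _).2 ⟨y, rfl⟩)
    refine ih (fun m => T (m + 1)) (fun m => d (m + 1)) (fun m x => hd (m + 1) x)
      (LinearMap.ker ε) d' ?_ ?_ M h
    · intro x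
      obtain ⟨y, hy⟩ := (he x.1).1 x.2
      exact ⟨y, Subtype.ext hy⟩
    · intro x
      have : d' x = 0 ↔ d 0 x = 0 := by
        constructor
        · intro h0
          exact congrArg Subtype.val h0
        · intro h0
          exact Subtype.ext h0
      rw [this]
      exact hd 0 x

end Crest.Agent.R186.Res827
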