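import Mathlib

/-!
Row 186 (A), closing (helper462): exactness of a complex of vector spaces modulo a subspace gives a
linear homotopy.
-/

set_option autoImplicit false

namespace Crest.Agent.R186.HomA462

variable {K E : Type*} [Field K] [AddCommGroup E] [Module K E]

/-- a projection onto `B` which moves `B ⊔ L` only by elements of `L` -/
theorem exists_proj (B L : Submodule K E) : ∃ q : E →ₗ[K] E, (∀ x, q x ∈ B) ∧
    (∀ x ∈ B, q x = x) ∧ ∀ b ∈ B, ∀ l ∈ L, b + l - q (b + l) ∈ L := by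
  obtain ⟨T, hT⟩ := Submodule.exists_isCompl (L.map B.mkQ)
  obtain ⟨s1, hs1⟩ := LinearMap.exists_rightInverse_of_surjective (B.mkQ.submoduleMap L)
    (LinearMap.range_eq_top.2 (B.mkQ.submoduleMap_surjective L))
  obtain ⟨s0, hs0⟩ := LinearMap.exists_rightInverse_of_surjective B.mkQ
    (LinearMap.range_eq_top.2 B.mkQ_surjective)
  set P1 : (E ⧸ B) →ₗ[K] (L.map B.mkQ) := Submodule.linearProjOfIsCompl _ _ hT with hP1
  set s : (E ⧸ B) →ₗ[K] E := L.subtype ∘ₗ s1 ∘ₗ P1 +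
    s0 ∘ₗ (LinearMap.id - (L.map B.mkQ).subtype ∘ₗ P1) with hs
  have e1 : ∀ x : L.map B.mkQ, B.mkQ (s1 x : E) = x := fun x => by
    have := congrArg Subtype.val (LinearMap.congr_fun hs1 x)
    simpa using this
  have e0 : ∀ x, B.mkQ (s0 x) = x := fun x => by
    have := LinearMap.congr_fun hs0 x
    simpa using this
  have h1 : ∀ x, B.mkQ (s x) = x := by
    intro x
    simp only [hs, LinearMap.add_apply, LinearMap.comp_apply, Submodule.subtype_apply, map_add,
      e1, e0, LinearMap.sub_apply, LinearMap.id_apply]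
    abel
  have h2 : ∀ x ∈ L.map B.mkQ, s x ∈ L := by
    intro x hx
    have : P1 x = ⟨x, hx⟩ := Submodule.linearProjOfIsCompl_apply_left hT ⟨x, hx⟩
    simp only [hs, LinearMap.add_apply, LinearMap.comp_apply, Submodule.subtype_apply,
      LinearMap.sub_apply, LinearMap.id_apply, this, sub_self, map_zero, add_zero]
    exact (s1 _).2
  refine ⟨LinearMap.id - s ∘ₗ B.mkQ, fun x => ?_, fun x hx => ?_, fun b hb l hl => ?_⟩
  · rw [← Submodule.Quotient.mk_eq_zero, ← Submodule.mkQ_apply]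
    simp only [LinearMap.sub_apply, LinearMap.id_apply, LinearMap.comp_apply, map_sub, h1,
      sub_self]
  · have : B.mkQ x = 0 := by rw [Submodule.mkQ_apply, Submodule.Quotient.mk_eq_zero]; exact hx
    simp only [LinearMap.sub_apply, LinearMap.id_apply, LinearMap.comp_apply, this, map_zero,
      sub_zero]
  · have : B.mkQ b = 0 := by rw [Submodule.mkQ_apply, Submodule.Quotient.mk_eq_zero]; exact hb
    simp only [LinearMap.sub_apply, LinearMap.id_apply, LinearMap.comp_apply, map_add, this,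
      zero_add, sub_sub_cancel, add_sub_cancel_left]
    have h3 : s (B.mkQ l) ∈ L := h2 _ ⟨l, hl, rfl⟩
    simpa using h3

/-- a linear section of a linear map over its image -/
theorem exists_sec (Z : Submodule K E) (d : E →ₗ[K] E) : ∃ s : E →ₗ[K] E, (∀ x, s x ∈ Z) ∧
    ∀ x ∈ Z, d (s (d x)) = d x := by
  obtain ⟨q, hq1, hq2, -⟩ := exists_proj (Z.map d) ⊥
  obtain ⟨g, hg⟩ := LinearMap.exists_rightInverse_of_surjective (d.submoduleMap Z)
    (LinearMap.range_eq_top.2 (d.submoduleMap_surjective Z))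
  refine ⟨Z.subtype ∘ₗ g ∘ₗ q.codRestrict _ hq1, fun x => (g _).2, fun x hx => ?_⟩
  have h1 : (q.codRestrict _ hq1) (d x) = ⟨d x, ⟨x, hx, rfl⟩⟩ := by
    apply Subtype.ext
    exact hq2 _ ⟨x, hx, rfl⟩
  have h2 := congrArg Subtype.val (LinearMap.congr_fun hg ⟨d x, ⟨x, hx, rfl⟩⟩)
  simp only [LinearMap.comp_apply, h1, Submodule.subtype_apply]
  simpa using h2

/-- **linear homotopy** -/
theorem exists_homotopy (Z L : ℤ → Submodule K E) (d : ℤ → E →ₗ[K] E)
    (h2 : ∀ p, ∀ x ∈ Z p, d (p + 1) (d p x) = 0)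
    (h3 : ∀ p, ∀ x ∈ Z (p + 1), d (p + 1) x = 0 → ∃ y ∈ Z p, x - d p y ∈ L (p + 1)) :
    ∃ h : ℤ → E →ₗ[K] E, (∀ p x, h p x ∈ Z p) ∧
      ∀ p, ∀ x ∈ Z (p + 1), x - (d p (h p x) + h (p + 1) (d (p + 1) x)) ∈ L (p + 1) := by
  choose s hs1 hs2 using fun p => exists_sec (Z p) (d p)
  choose q hq1 hq2 hq3 using fun p => exists_proj ((Z p).map (d p)) (L (p + 1))
  refine ⟨fun p => s p ∘ₗ q p ∘ₗ (LinearMap.id - s (p + 1) ∘ₗ d (p + 1)),
    fun p x => hs1 _ _, fun p x hx => ?_⟩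
  have e1 : ∀ w, w ∈ (Z p).map (d p) → d p (s p w) = w := by
    rintro _ ⟨y, hy, rfl⟩
    exact hs2 p y hy
  simp only [LinearMap.comp_apply, LinearMap.sub_apply, LinearMap.id_apply]
  rw [e1 _ (hq1 _ _), h2 (p + 1) x hx, map_zero, sub_zero,
    hq2 (p + 1) (d (p + 1) x) ⟨x, hx, rfl⟩]
  set w := x - s (p + 1) (d (p + 1) x) with hw
  have hz : w ∈ Z (p + 1) := Submodule.sub_mem _ hx (hs1 _ _)
  have h0 : d (p + 1) w = 0 := by rw [hw, map_sub, hs2 _ _ hx, sub_self]
  obtain ⟨y, hy, hl⟩ := h3 p w hz h0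
  have h5 := hq3 p (d p y) ⟨y, hy, rfl⟩ _ hl
  rw [add_sub_cancel] at h5
  have : x - (q p w + s (p + 1) (d (p + 1) x)) = w - q p w := by rw [hw]; abel
  rw [this]
  exact h5

end Crest.Agent.R186.HomA462
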