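import Crest.Agent.R186.ConeAlg_462
import Crest.Agent.R186.HomA_462
import Crest.Agent.R186.HatC_827

/-!
Row 186 (A), closing (helper462): cells of `Γ` and the two acyclicity lemmas for the ideal
`J = (K ⊗ H)[1]` of the cone algebra.
-/

set_option autoImplicit false

open Matrix

namespace Crest.Agent.R186.ConeHyp462

open Hat827 ConeAlg462

variable {K : Type} [Field K]

/-- `Hat827.Cells` without `exC` -/
structure PCells (A : DGA K) where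
  V : Type
  [grp : AddCommGroup V]
  [modK : Module K V]
  [modC : Module A.C V]
  [tower : IsScalarTower K A.C V]
  [finV : Module.Finite K V]
  [nt : Nontrivial V]
  dpos : ∀ x ∈ A.G 1, ∀ w : V, A.D x • w = 0
  ι : Type
  s : ι → ℕ
  F : ℕ → Finset ι
  mem_F : ∀ m σ, σ ∈ F m ↔ s σ ≤ m
  e : ι → A.C
  e_mem : ∀ σ, e σ ∈ A.G 0
  e_idem : ∀ σ, e σ * e σ = e σ
  c : ι → ι → A.C
  c_mem : ∀ σ τ, c σ τ ∈ A.G ((s σ : ℤ) - s τ - 1)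
  c_left : ∀ σ τ, e σ * c σ τ = c σ τ
  c_right : ∀ σ τ, c σ τ * e τ = c σ τ
  mc : ∀ σ τ, A.D (c σ τ) + ∑ ρ ∈ F (s σ), c σ ρ * c ρ τ = 0
  v : ι → V
  v_e : ∀ σ, e σ • v σ = v σ
  v_zero : ∀ σ, s σ ≠ 0 → v σ = 0
  v_aug : ∀ σ, s σ = 1 → ∑ τ ∈ F 0, c σ τ • v τ = 0
  exR : ∀ (m : ℕ) (x : ι → A.C), (∀ σ, x σ ∈ A.G ((m : ℤ) + 1 - s σ)) →
    (∀ σ, x σ * e σ = x σ) → (∀ τ, A.D (x τ) + ∑ σ ∈ F (m + 1), x σ * c σ τ = 0) →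
    ∃ y : ι → A.C, (∀ σ, y σ ∈ A.G ((m : ℤ) + 2 - s σ)) ∧ (∀ σ, y σ * e σ = y σ) ∧
      ∀ τ, x τ = A.D (y τ) + ∑ σ ∈ F (m + 2), y σ * c σ τ
  exR0 : ∀ x : ι → A.C, (∀ σ, x σ ∈ A.G (-(s σ : ℤ))) → (∀ σ, x σ * e σ = x σ) →
    ∑ σ ∈ F 0, x σ • v σ = 0 →
    ∃ y : ι → A.C, (∀ σ, y σ ∈ A.G ((1 : ℤ) - s σ)) ∧ (∀ σ, y σ * e σ = y σ) ∧
      ∀ τ, x τ = A.D (y τ) + ∑ σ ∈ F 1, y σ * c σ τ
  gen : ∀ w : V, ∃ x : ι → A.C, (∀ σ, x σ ∈ A.G (-(s σ : ℤ))) ∧ ∑ σ ∈ F 0, x σ • v σ = w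
  exV : ∀ (m : ℕ) (φ : ι → V), (∀ σ, s σ ≠ m + 1 → φ σ = 0) → (∀ σ, e σ • φ σ = φ σ) →
    (∀ σ, s σ = m + 2 → ∑ τ ∈ F (m + 1), c σ τ • φ τ = 0) →
    ∃ ψ : ι → V, (∀ σ, s σ ≠ m → ψ σ = 0) ∧ ∀ σ, s σ = m + 1 → φ σ = ∑ τ ∈ F m, c σ τ • ψ τ

attribute [instance] PCells.grp PCells.modK PCells.modC PCells.tower PCells.finV PCells.nt

variable {A : DGA K} (S : Data A) (X : PCells A)

/-! ### the complex `H ⊗ X` -/

/-- tuples with values in `H` of total degree `n` -/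
def Y (n : ℤ) : Submodule K (X.ι → S.γ → K) where
  carrier := {y | (∀ σ c, y σ c ≠ 0 → S.dh c + X.s σ = n) ∧ ∀ σ, y σ ᵥ* S.σ (X.e σ) = y σ}
  add_mem' {x y} hx hy := by
    refine ⟨fun σ c h => ?_, fun σ => ?_⟩
    · by_contra hne
      have h1 : x σ c = 0 := by_contra fun h' => hne (hx.1 σ c h')
      have h2 : y σ c = 0 := by_contra fun h' => hne (hy.1 σ c h')
      exact h (by rw [Pi.add_apply, Pi.add_apply, h1, h2, add_zero])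
    · rw [Pi.add_apply, Matrix.add_vecMul, hx.2, hy.2]
  zero_mem' := ⟨fun σ c h => absurd rfl h, fun σ => by rw [Pi.zero_apply, Matrix.zero_vecMul]⟩
  smul_mem' r x hx := ⟨fun σ c h => hx.1 σ c fun h' => h (by
    rw [Pi.smul_apply, Pi.smul_apply, h', smul_zero]), fun σ => by
    rw [Pi.smul_apply, Matrix.smul_vecMul, hx.2]⟩

theorem mem_Y {n : ℤ} {y : X.ι → S.γ → K} : y ∈ Y S X n ↔
    (∀ σ c, y σ c ≠ 0 → S.dh c + X.s σ = n) ∧ ∀ σ, y σ ᵥ* S.σ (X.e σ) = y σ := Iff.rfl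

/-- the differential of `H ⊗ X`, cells of degree at most `M` -/
def dYM (M : ℕ) : (X.ι → S.γ → K) →ₗ[K] (X.ι → S.γ → K) where
  toFun y τ := y τ ᵥ* S.ε + ∑ σ ∈ X.F M, y σ ᵥ* S.σ (X.c σ τ)
  map_add' x y := by
    funext τ
    simp only [Pi.add_apply, Matrix.add_vecMul, Finset.sum_add_distrib]
    abel
  map_smul' r x := by
    funext τ
    simp only [Pi.smul_apply, Matrix.smul_vecMul, RingHom.id_apply, Finset.smul_sum, smul_add]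

theorem dYM_apply (M : ℕ) (y : X.ι → S.γ → K) (τ : X.ι) :
    dYM S X M y τ = y τ ᵥ* S.ε + ∑ σ ∈ X.F M, y σ ᵥ* S.σ (X.c σ τ) := rfl

/-- the differential of `H ⊗ X` on `Y m` -/
def dY (m : ℤ) : (X.ι → S.γ → K) →ₗ[K] (X.ι → S.γ → K) := dYM S X m.toNat

/-! ### the complex `Hom(X, K)` -/

/-- tuples with values in `K`, maps of degree `-p` -/
def Z (p : ℤ) : Submodule K (X.ι → S.β → K) where
  carrier := {κ | (∀ σ b, κ σ b ≠ 0 → S.dk b = X.s σ - p) ∧ ∀ σ, S.ρ (X.e σ) *ᵥ κ σ = κ σ}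
  add_mem' {x y} hx hy := by
    refine ⟨fun σ c h => ?_, fun σ => ?_⟩
    · by_contra hne
      have h1 : x σ c = 0 := by_contra fun h' => hne (hx.1 σ c h')
      have h2 : y σ c = 0 := by_contra fun h' => hne (hy.1 σ c h')
      exact h (by rw [Pi.add_apply, Pi.add_apply, h1, h2, add_zero])
    · rw [Pi.add_apply, Matrix.mulVec_add, hx.2, hy.2]
  zero_mem' := ⟨fun σ c h => absurd rfl h, fun σ => by rw [Pi.zero_apply, Matrix.mulVec_zero]⟩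
  smul_mem' r x hx := ⟨fun σ c h => hx.1 σ c fun h' => h (by
    rw [Pi.smul_apply, Pi.smul_apply, h', smul_zero]), fun σ => by
    rw [Pi.smul_apply, Matrix.mulVec_smul, hx.2]⟩

theorem mem_Z {p : ℤ} {κ : X.ι → S.β → K} : κ ∈ Z S X p ↔
    (∀ σ b, κ σ b ≠ 0 → S.dk b = X.s σ - p) ∧ ∀ σ, S.ρ (X.e σ) *ᵥ κ σ = κ σ := Iff.rfl

/-- the differential of `Hom(X, K)` -/
def dZ : (X.ι → S.β → K) →ₗ[K] (X.ι → S.β → K) where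
  toFun κ σ := S.δ *ᵥ κ σ + ∑ τ ∈ X.F (X.s σ), S.ρ (X.c σ τ) *ᵥ κ τ
  map_add' x y := by
    funext τ
    simp only [Pi.add_apply, Matrix.mulVec_add, Finset.sum_add_distrib]
    abel
  map_smul' r x := by
    funext τ
    simp only [Pi.smul_apply, Matrix.mulVec_smul, RingHom.id_apply, Finset.smul_sum, smul_add]

theorem dZ_apply (κ : X.ι → S.β → K) (σ : X.ι) :
    dZ S X κ σ = S.δ *ᵥ κ σ + ∑ τ ∈ X.F (X.s σ), S.ρ (X.c σ τ) *ᵥ κ τ := rfl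

variable (A) in
/-- `Hom(X, Γ)`: the coboundary condition `φ = D ψ + Σ c ψ` -/
def IsCob (X : PCells A) (p : ℤ) (φ : X.ι → A.C) : Prop :=
  ∃ ψ : X.ι → A.C, (∀ σ, ψ σ ∈ A.G ((X.s σ : ℤ) - p + 1)) ∧ (∀ σ, X.e σ * ψ σ = ψ σ) ∧
    ∀ σ, φ σ = A.D (ψ σ) + ∑ τ ∈ X.F (X.s σ), X.c σ τ * ψ τ

/-- the hypotheses on `(K, H, ev)` over `Γ` -/
structure Hyp where
  /-- `H ⊗ X` is acyclic -/
  H : ∀ (m : ℕ) (y : X.ι → S.γ → K), y ∈ Y S X m → dY S X m y = 0 →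
    ∃ z ∈ Y S X (m + 1), y = dY S X (m + 1) z
  /-- the class of `Hom(X, K)` -/
  kt : X.ι → S.β → K
  kt_mem : kt ∈ Z S X 0
  kt_d : dZ S X kt = 0
  kt_ne : kt ≠ 0
  /-- `Hom(X, K)` has cohomology spanned by `kt` -/
  KX : ∀ (p : ℤ) (κ : X.ι → S.β → K), κ ∈ Z S X p → dZ S X κ = 0 →
    ∃ ψ ∈ Z S X (p - 1), ∃ r : K, (p ≠ 0 → r = 0) ∧ κ = r • kt + dZ S X ψ
  /-- `H → Hom(X, Γ)` is onto on cohomology -/
  D1 : ∀ (p : ℤ) (φ : X.ι → A.C), (∀ σ, φ σ ∈ A.G ((X.s σ : ℤ) - p)) →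
    (∀ σ, X.e σ * φ σ = φ σ) → (∀ σ, A.D (φ σ) + ∑ τ ∈ X.F (X.s σ), X.c σ τ * φ τ = 0) →
    ∃ η : S.γ → K, (∀ c, η c ≠ 0 → S.dh c = -p) ∧ η ᵥ* S.ε = 0 ∧
      IsCob A X p (fun σ => φ σ + S.ev (vecMulVec (kt σ) η))
  /-- `H → Hom(X, Γ)` is injective on cohomology -/
  D2 : ∀ (p : ℤ) (η : S.γ → K), (∀ c, η c ≠ 0 → S.dh c = -p) → η ᵥ* S.ε = 0 →
    IsCob A X p (fun σ => S.ev (vecMulVec (kt σ) η)) →
    ∃ η' : S.γ → K, (∀ c, η' c ≠ 0 → S.dh c = -p + 1) ∧ η = η' ᵥ* S.ε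

end Crest.Agent.R186.ConeHyp462
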