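import Crest.Agent.R186.HatC_827
import Crest.Agent.R186.ConeHyp_462

/-!
Row 186 (A), closing (helper384): cells over the cone algebra `C = Γ ⊕ (K ⊗ H)[1]`
from cells over `Γ`.
-/

set_option autoImplicit false

open Matrix

namespace Crest.Agent.R186.ConeCells384

open Hat827 ConeAlg462 ConeHyp462

variable {K : Type} [Field K]

variable {A : DGA K} (S : Data A) (X : PCells A)

/-- `ev` kills `V` in degree `0` (needed for the dg module `V` over the cone) -/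
def EvV : Prop := ∀ t ∈ S.J 1, ∀ w : X.V, S.ev t • w = 0

/-- acyclicity of the rows of `J ⊗ X` -/
def JRt : Prop :=
  ∀ (m : ℕ) (t : X.ι → Matrix S.β S.γ K), (∀ σ, t σ ∈ S.J ((m : ℤ) + 1 - X.s σ)) →
    (∀ σ, t σ * S.σ (X.e σ) = t σ) →
    (∀ τ, S.dJ (t τ) + ∑ σ ∈ X.F (m + 1), t σ * S.σ (X.c σ τ) = 0) →
    ∃ t' : X.ι → Matrix S.β S.γ K, (∀ σ, t' σ ∈ S.J ((m : ℤ) + 2 - X.s σ)) ∧
      (∀ σ, t' σ * S.σ (X.e σ) = t' σ) ∧
      ∀ τ, t τ = S.dJ (t' τ) + ∑ σ ∈ X.F (m + 2), t' σ * S.σ (X.c σ τ)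

/-- `Hom(X, J)` through `kt` -/
def JKt (kt : X.ι → S.β → K) : Prop :=
  ∀ (p : ℤ) (t : X.ι → Matrix S.β S.γ K), (∀ σ, t σ ∈ S.J ((X.s σ : ℤ) - p)) →
    (∀ σ, S.ρ (X.e σ) * t σ = t σ) →
    (∀ σ, S.dJ (t σ) + ∑ τ ∈ X.F (X.s σ), S.ρ (X.c σ τ) * t τ = 0) →
    ∃ (t' : X.ι → Matrix S.β S.γ K) (η : S.γ → K), (∀ σ, t' σ ∈ S.J ((X.s σ : ℤ) - p + 1)) ∧
      (∀ σ, S.ρ (X.e σ) * t' σ = t' σ) ∧ (∀ c, η c ≠ 0 → S.dh c = -p - 1) ∧ η ᵥ* S.ε = 0 ∧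
      ∀ σ, t σ = S.dJ (t' σ) + ∑ τ ∈ X.F (X.s σ), S.ρ (X.c σ τ) * t' τ + vecMulVec (kt σ) η

/-- the columns: everything needed for `exC` over the cone -/
structure KHyp where
  kt : X.ι → S.β → K
  kt_mem : kt ∈ Z S X 0
  kt_d : dZ S X kt = 0
  JK : JKt S X kt
  D1 : ∀ (p : ℤ) (φ : X.ι → A.C), (∀ σ, φ σ ∈ A.G ((X.s σ : ℤ) - p)) →
    (∀ σ, X.e σ * φ σ = φ σ) → (∀ σ, A.D (φ σ) + ∑ τ ∈ X.F (X.s σ), X.c σ τ * φ τ = 0) →
    ∃ η : S.γ → K, (∀ c, η c ≠ 0 → S.dh c = -p) ∧ η ᵥ* S.ε = 0 ∧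
      IsCob A X p (fun σ => φ σ + S.ev (vecMulVec (kt σ) η))
  D2 : ∀ (p : ℤ) (η : S.γ → K), (∀ c, η c ≠ 0 → S.dh c = -p) → η ᵥ* S.ε = 0 →
    IsCob A X p (fun σ => S.ev (vecMulVec (kt σ) η)) →
    ∃ η' : S.γ → K, (∀ c, η' c ≠ 0 → S.dh c = -p + 1) ∧ η = η' ᵥ* S.ε

variable {S X}

theorem J_nonpos {m : ℤ} {t : Matrix S.β S.γ K} (ht : t ∈ S.J m) (hm : m ≤ 0) : t = 0 := by
  ext b c
  by_contra hne
  have h3 := ht b c hne
  have h4 := S.dk_nn b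
  have h5 := S.dh_nn c
  omega

/-- projection to `Γ` -/
def pr : S.dga.C →ₐ[K] A.C where
  toFun x := x.1
  map_one' := rfl
  map_mul' _ _ := rfl
  map_zero' := rfl
  map_add' _ _ := rfl
  commutes' r := by
    rw [Algebra.algebraMap_eq_smul_one, Algebra.algebraMap_eq_smul_one]
    rfl

theorem pr_apply (x : S.dga.C) : pr x = x.1 := rfl

/-- elements of the cone -/
def cl (S : Data A) (a : A.C) (t : Matrix S.β S.γ K) : S.dga.C := S.el a t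

theorem DC_def (x : S.dga.C) : S.dga.D x = S.DC x := rfl

/-- the inclusion of `Γ` -/
def inc : A.C →+ S.dga.C where
  toFun a := S.el a 0
  map_zero' := rfl
  map_add' a b := by
    apply Data.Car.ext
    · rfl
    · exact (add_zero _).symm

theorem fst_sum {ι' : Type} (s : Finset ι') (f : ι' → S.dga.C) :
    (∑ i ∈ s, f i).1 = ∑ i ∈ s, (f i).1 := map_sum (pr (S := S)) f s

/-- second projection -/
def pr2 : S.dga.C →+ Matrix S.β S.γ K where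
  toFun x := x.2
  map_zero' := rfl
  map_add' _ _ := rfl

theorem snd_sum {ι' : Type} (s : Finset ι') (f : ι' → S.dga.C) :
    (∑ i ∈ s, f i).2 = ∑ i ∈ s, (f i).2 := map_sum (pr2 (S := S)) f s

variable (S X) in
/-- the module over the cone -/
def Vc (_ : Data A) (X : PCells A) : Type := X.V

instance : AddCommGroup (Vc S X) := X.grp
instance : Module K (Vc S X) := X.modK
instance : Module.Finite K (Vc S X) := X.finV
instance : Nontrivial (Vc S X) := X.nt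

noncomputable instance : Module S.dga.C (Vc S X) :=
  Module.compHom (M := X.V) (pr (S := S)).toRingHom

theorem smul_def (x : S.dga.C) (w : Vc S X) :
    x • w = (show X.V from x.1 • (show X.V from w)) := rfl

instance : IsScalarTower K S.dga.C (Vc S X) where
  smul_assoc r x w := by
    rw [smul_def, smul_def]
    exact smul_assoc (M := K) (N := A.C) (α := X.V) r x.1 w

/-! ### rows -/

/-- in characteristic two -/
theorem eq_of_add {B : Type} [AddCommGroup B] (two : ∀ b : B, b + b = 0) {a b : B}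
    (hab : a + b = 0) : a = b := by
  have := two b
  calc a = a + (b + b) := by rw [this, add_zero]
    _ = (a + b) + b := by abel
    _ = b := by rw [hab, zero_add]

theorem cyc_fst {m : ℕ} {x : X.ι → S.dga.C} {τ : X.ι}
    (hx : S.dga.D (x τ) + ∑ σ ∈ X.F m, x σ * (cl S (X.c σ τ) 0) = 0) :
    A.D (x τ).1 + S.ev (x τ).2 + ∑ σ ∈ X.F m, (x σ).1 * X.c σ τ = 0 := by
  have h1 := congrArg (fun y : S.dga.C => y.1) hx
  have h2 : (S.dga.D (x τ)).1 + (∑ σ ∈ X.F m, x σ * (cl S (X.c σ τ) 0)).1 = 0 := h1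
  rw [fst_sum] at h2
  exact h2

theorem cyc_snd {m : ℕ} {x : X.ι → S.dga.C} {τ : X.ι}
    (hx : S.dga.D (x τ) + ∑ σ ∈ X.F m, x σ * (cl S (X.c σ τ) 0) = 0) :
    S.dJ (x τ).2 + ∑ σ ∈ X.F m, (x σ).2 * S.σ (X.c σ τ) = 0 := by
  have h1 := congrArg (fun y : S.dga.C => y.2) hx
  have h2 : (S.dga.D (x τ)).2 + (∑ σ ∈ X.F m, x σ * (cl S (X.c σ τ) 0)).2 = 0 := h1
  rw [snd_sum] at h2
  have h3 : ∀ σ, (x σ * (cl S (X.c σ τ) 0)).2 = (x σ).2 * S.σ (X.c σ τ) := by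
    intro σ
    change S.ρ (x σ).1 * 0 + (x σ).2 * S.σ (X.c σ τ) = _
    rw [Matrix.mul_zero, zero_add]
  simp only [h3] at h2
  exact h2

theorem mul_e_fst {x : S.dga.C} {a : A.C} (hx : x * (cl S a 0) = x) : x.1 * a = x.1 :=
  congrArg (fun y : S.dga.C => y.1) hx

theorem mul_e_snd {x : S.dga.C} {a : A.C} (hx : x * (cl S a 0) = x) :
    x.2 * S.σ a = x.2 := by
  have h1 : S.ρ x.1 * (0 : Matrix S.β S.γ K) + x.2 * S.σ a = x.2 :=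
    congrArg (fun y : S.dga.C => y.2) hx
  rwa [Matrix.mul_zero, zero_add] at h1

theorem e_mul_fst {x : S.dga.C} {a : A.C} (hx : (cl S a 0) * x = x) : a * x.1 = x.1 :=
  congrArg (fun y : S.dga.C => y.1) hx

theorem e_mul_snd {x : S.dga.C} {a : A.C} (hx : (cl S a 0) * x = x) :
    S.ρ a * x.2 = x.2 := by
  have h1 : S.ρ a * x.2 + (0 : Matrix S.β S.γ K) * S.σ x.1 = x.2 :=
    congrArg (fun y : S.dga.C => y.2) hx
  rwa [Matrix.zero_mul, add_zero] at h1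

theorem F_sub (m : ℕ) : X.F m ⊆ X.F (m + 1) := by
  intro σ hσ
  rw [X.mem_F] at hσ ⊢
  omega

theorem exR (jr : JRt S X) (m : ℕ) (x : X.ι → S.dga.C) (hx : ∀ σ, x σ ∈ S.dga.G ((m : ℤ) + 1 - X.s σ))
    (he : ∀ σ, x σ * (cl S (X.e σ) 0) = x σ)
    (hc : ∀ τ, S.dga.D (x τ) + ∑ σ ∈ X.F (m + 1), x σ * (cl S (X.c σ τ) 0) = 0) :
    ∃ y : X.ι → S.dga.C, (∀ σ, y σ ∈ S.dga.G ((m : ℤ) + 2 - X.s σ)) ∧
      (∀ σ, y σ * (cl S (X.e σ) 0) = y σ) ∧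
      ∀ τ, x τ = S.dga.D (y τ) + ∑ σ ∈ X.F (m + 2), y σ * (cl S (X.c σ τ) 0) := by
  obtain ⟨t', ht1, ht2, ht3⟩ := jr m (fun σ => (x σ).2) (fun σ => (hx σ).2)
    (fun σ => mul_e_snd (he σ)) (fun τ => cyc_snd (hc τ))
  have hev : ∀ σ, X.s σ = m + 2 → t' σ = 0 := by
    intro σ hσ
    exact J_nonpos (ht1 σ) (by rw [hσ]; push_cast; omega)
  have hsum : ∀ τ, ∑ σ ∈ X.F (m + 2), t' σ * S.σ (X.c σ τ) =
      ∑ σ ∈ X.F (m + 1), t' σ * S.σ (X.c σ τ) := by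
    intro τ
    symm
    apply Finset.sum_subset (F_sub (m + 1))
    intro σ h1 h2
    rw [X.mem_F] at h1 h2
    rw [hev σ (by omega), Matrix.zero_mul]
  obtain ⟨y, hy1, hy2, hy3⟩ := X.exR m (fun σ => (x σ).1 + S.ev (t' σ))
    (fun σ => by
      refine Submodule.add_mem _ (hx σ).1 ?_
      have := S.ev_mem (ht1 σ)
      rwa [show (m : ℤ) + 2 - X.s σ - 1 = m + 1 - X.s σ by ring] at this)
    (fun σ => by
      rw [add_mul, mul_e_fst (he σ), ← S.ev_r, ht2])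
    (fun τ => by
      have h1 := cyc_fst (hc τ)
      have h3 := congrArg S.ev (ht3 τ)
      rw [hsum, map_add, map_sum] at h3
      simp only [map_add, add_mul, Finset.sum_add_distrib]
      rw [← S.ev_dJ]
      simp only [S.ev_r] at h3
      have h4 := A.two (S.ev (x τ).2)
      calc _ = (A.D (x τ).1 + ∑ σ ∈ X.F (m + 1), (x σ).1 * X.c σ τ) +
          (S.ev (S.dJ (t' τ)) + ∑ σ ∈ X.F (m + 1), S.ev (t' σ) * X.c σ τ) := by abel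
        _ = (A.D (x τ).1 + ∑ σ ∈ X.F (m + 1), (x σ).1 * X.c σ τ) + S.ev (x τ).2 := by rw [← h3]
        _ = A.D (x τ).1 + S.ev (x τ).2 + ∑ σ ∈ X.F (m + 1), (x σ).1 * X.c σ τ := by abel
        _ = 0 := h1)
  refine ⟨fun σ => cl S (y σ) (t' σ), fun σ => ⟨hy1 σ, ht1 σ⟩, fun σ => ?_, fun τ => ?_⟩
  · apply Data.Car.ext
    · exact hy2 σ
    · change S.ρ (y σ) * 0 + t' σ * S.σ (X.e σ) = t' σ
      rw [Matrix.mul_zero, zero_add, ht2]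
  · apply Data.Car.ext
    · change (x τ).1 = (S.dga.D (cl S (y τ) (t' τ))).1 + (∑ σ ∈ X.F (m + 2),
        (cl S (y σ) (t' σ)) * (cl S (X.c σ τ) 0)).1
      rw [fst_sum]
      change (x τ).1 = A.D (y τ) + S.ev (t' τ) + ∑ σ ∈ X.F (m + 2), y σ * X.c σ τ
      have h5 := hy3 τ
      have h6 := A.two (S.ev (t' τ))
      calc (x τ).1 = ((x τ).1 + S.ev (t' τ)) + S.ev (t' τ) := by rw [add_assoc, h6, add_zero]
        _ = _ := by rw [h5]; abel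
    · change (x τ).2 = (S.dga.D (cl S (y τ) (t' τ))).2 + (∑ σ ∈ X.F (m + 2),
        (cl S (y σ) (t' σ)) * (cl S (X.c σ τ) 0)).2
      rw [snd_sum]
      change (x τ).2 = S.dJ (t' τ) + ∑ σ ∈ X.F (m + 2), (S.ρ (y σ) * 0 + t' σ * S.σ (X.c σ τ))
      simp only [Matrix.mul_zero, zero_add]
      exact ht3 τ

theorem exR0 (x : X.ι → S.dga.C) (hx : ∀ σ, x σ ∈ S.dga.G (-(X.s σ : ℤ)))
    (he : ∀ σ, x σ * (cl S (X.e σ) 0) = x σ)
    (hc : ∑ σ ∈ X.F 0, (x σ).1 • X.v σ = 0) :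
    ∃ y : X.ι → S.dga.C, (∀ σ, y σ ∈ S.dga.G ((1 : ℤ) - X.s σ)) ∧
      (∀ σ, y σ * (cl S (X.e σ) 0) = y σ) ∧
      ∀ τ, x τ = S.dga.D (y τ) + ∑ σ ∈ X.F 1, y σ * (cl S (X.c σ τ) 0) := by
  obtain ⟨y, hy1, hy2, hy3⟩ := X.exR0 (fun σ => (x σ).1) (fun σ => (hx σ).1)
    (fun σ => mul_e_fst (he σ)) hc
  refine ⟨fun σ => cl S (y σ) 0, fun σ => ⟨hy1 σ, Submodule.zero_mem _⟩, fun σ => ?_, fun τ => ?_⟩
  · apply Data.Car.ext
    · exact hy2 σ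
    · change S.ρ (y σ) * 0 + 0 * S.σ (X.e σ) = 0
      rw [Matrix.mul_zero, zero_add, Matrix.zero_mul]
  · apply Data.Car.ext
    · change (x τ).1 = (S.dga.D (cl S (y τ) 0)).1 + (∑ σ ∈ X.F 1,
        (cl S (y σ) 0) * (cl S (X.c σ τ) 0)).1
      rw [fst_sum]
      change (x τ).1 = A.D (y τ) + S.ev 0 + ∑ σ ∈ X.F 1, y σ * X.c σ τ
      rw [map_zero, add_zero]
      exact hy3 τ
    · change (x τ).2 = (S.dga.D (cl S (y τ) 0)).2 + (∑ σ ∈ X.F 1,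
        (cl S (y σ) 0) * (cl S (X.c σ τ) 0)).2
      rw [snd_sum]
      change (x τ).2 = S.dJ 0 + ∑ σ ∈ X.F 1, (S.ρ (y σ) * 0 + 0 * S.σ (X.c σ τ))
      simp only [Matrix.mul_zero, zero_add, Matrix.zero_mul, map_zero, Finset.sum_const_zero]
      exact J_nonpos (hx τ).2 (by omega)

/-! ### columns -/

theorem cocyc_fst {x : X.ι → S.dga.C} {σ : X.ι}
    (hx : S.dga.D (x σ) + ∑ τ ∈ X.F (X.s σ), (cl S (X.c σ τ) 0) * x τ = 0) :
    A.D (x σ).1 + S.ev (x σ).2 + ∑ τ ∈ X.F (X.s σ), X.c σ τ * (x τ).1 = 0 := by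
  have h1 := congrArg (fun y : S.dga.C => y.1) hx
  have h2 : (S.dga.D (x σ)).1 + (∑ τ ∈ X.F (X.s σ), (cl S (X.c σ τ) 0) * x τ).1 = 0 := h1
  rw [fst_sum] at h2
  exact h2

theorem cocyc_snd {x : X.ι → S.dga.C} {σ : X.ι}
    (hx : S.dga.D (x σ) + ∑ τ ∈ X.F (X.s σ), (cl S (X.c σ τ) 0) * x τ = 0) :
    S.dJ (x σ).2 + ∑ τ ∈ X.F (X.s σ), S.ρ (X.c σ τ) * (x τ).2 = 0 := by
  have h1 := congrArg (fun y : S.dga.C => y.2) hx
  have h2 : (S.dga.D (x σ)).2 + (∑ τ ∈ X.F (X.s σ), (cl S (X.c σ τ) 0) * x τ).2 = 0 := h1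
  rw [snd_sum] at h2
  have h3 : ∀ τ, ((cl S (X.c σ τ) 0) * x τ).2 = S.ρ (X.c σ τ) * (x τ).2 := by
    intro τ
    change S.ρ (X.c σ τ) * (x τ).2 + 0 * S.σ (x τ).1 = _
    rw [Matrix.zero_mul, add_zero]
  simp only [h3] at h2
  exact h2

namespace KHyp

variable (h : KHyp S X)

/-- `kt ⊗ η` -/
def kw (η : S.γ → K) (σ : X.ι) : Matrix S.β S.γ K := vecMulVec (h.kt σ) η

theorem kw_mem {η : S.γ → K} {n : ℤ} (hη : ∀ c, η c ≠ 0 → S.dh c = n) (σ : X.ι) :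
    h.kw η σ ∈ S.J ((X.s σ : ℤ) + n + 1) := by
  intro b c hne
  change h.kt σ b * η c ≠ 0 at hne
  have h1 := h.kt_mem.1 σ b (left_ne_zero_of_mul hne)
  have h2 := hη c (right_ne_zero_of_mul hne)
  omega

theorem kw_e (η : S.γ → K) (σ : X.ι) : S.ρ (X.e σ) * h.kw η σ = h.kw η σ := by
  unfold kw
  rw [Matrix.mul_vecMulVec, h.kt_mem.2]

theorem kw_d (η : S.γ → K) (σ : X.ι) :
    S.dJ (h.kw η σ) + ∑ τ ∈ X.F (X.s σ), S.ρ (X.c σ τ) * h.kw η τ = h.kw (η ᵥ* S.ε) σ := by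
  have h1 : S.δ *ᵥ h.kt σ + ∑ τ ∈ X.F (X.s σ), S.ρ (X.c σ τ) *ᵥ h.kt τ = 0 := by
    have := congrFun h.kt_d σ
    rwa [dZ_apply] at this
  have h2 : ∀ τ, S.ρ (X.c σ τ) * h.kw η τ = vecMulVec (S.ρ (X.c σ τ) *ᵥ h.kt τ) η := fun τ => by
    unfold kw; rw [Matrix.mul_vecMulVec]
  have h3 : S.dJ (h.kw η σ) = vecMulVec (S.δ *ᵥ h.kt σ) η + h.kw (η ᵥ* S.ε) σ := by
    unfold kw
    rw [Data.dJ_apply, Matrix.mul_vecMulVec, Matrix.vecMulVec_mul]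
  have h4 : ∑ τ ∈ X.F (X.s σ), vecMulVec (S.ρ (X.c σ τ) *ᵥ h.kt τ) η =
      vecMulVec (∑ τ ∈ X.F (X.s σ), S.ρ (X.c σ τ) *ᵥ h.kt τ) η := by
    ext b c
    rw [Matrix.sum_apply]
    simp only [vecMulVec_apply, Finset.sum_apply, Finset.sum_mul]
  simp only [h2, h3, h4]
  have h5 : vecMulVec (S.δ *ᵥ h.kt σ) η +
      vecMulVec (∑ τ ∈ X.F (X.s σ), S.ρ (X.c σ τ) *ᵥ h.kt τ) η = 0 := by
    rw [← Matrix.add_vecMulVec, h1, Matrix.zero_vecMulVec]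
  calc _ = (vecMulVec (S.δ *ᵥ h.kt σ) η +
      vecMulVec (∑ τ ∈ X.F (X.s σ), S.ρ (X.c σ τ) *ᵥ h.kt τ) η) + h.kw (η ᵥ* S.ε) σ := by abel
    _ = _ := by rw [h5, zero_add]

include h in
theorem exC (p : ℤ) (φ : X.ι → S.dga.C) (hφ : ∀ σ, φ σ ∈ S.dga.G ((X.s σ : ℤ) - p))
    (he : ∀ σ, (cl S (X.e σ) 0) * φ σ = φ σ)
    (hc : ∀ σ, S.dga.D (φ σ) + ∑ τ ∈ X.F (X.s σ), (cl S (X.c σ τ) 0) * φ τ = 0) :
    ∃ ψ : X.ι → S.dga.C, (∀ σ, ψ σ ∈ S.dga.G ((X.s σ : ℤ) - p + 1)) ∧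
      (∀ σ, (cl S (X.e σ) 0) * ψ σ = ψ σ) ∧
      ∀ σ, φ σ = S.dga.D (ψ σ) + ∑ τ ∈ X.F (X.s σ), (cl S (X.c σ τ) 0) * ψ τ := by
  obtain ⟨t', η, ht1, ht2, hη1, hη2, ht3⟩ := h.JK p (fun σ => (φ σ).2) (fun σ => (hφ σ).2)
    (fun σ => e_mul_snd (he σ)) (fun σ => cocyc_snd (hc σ))
  -- the class of `η` is a boundary
  obtain ⟨η', hη'1, hη'2⟩ := h.D2 (p + 1) η
    (fun c hne => by have := hη1 c hne; omega) hη2
    ⟨(fun σ => (φ σ).1 + S.ev (t' σ)), (fun σ => by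
      rw [show (X.s σ : ℤ) - (p + 1) + 1 = X.s σ - p by ring]
      refine Submodule.add_mem _ (hφ σ).1 ?_
      have := S.ev_mem (ht1 σ)
      rwa [show (X.s σ : ℤ) - p + 1 - 1 = X.s σ - p by ring] at this),
    (fun σ => by rw [mul_add, e_mul_fst (he σ), ← S.ev_l, ht2]),
    (fun σ => by
      have h1 := cocyc_fst (hc σ)
      have h3 := congrArg S.ev (ht3 σ)
      rw [map_add, map_add, map_sum] at h3
      simp only [S.ev_l] at h3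
      simp only [map_add, mul_add, Finset.sum_add_distrib]
      rw [← S.ev_dJ]
      have h4 := A.two (S.ev (S.dJ (t' σ)) + ∑ τ ∈ X.F (X.s σ), X.c σ τ * S.ev (t' τ))
      have h6 : A.D (φ σ).1 + ∑ τ ∈ X.F (X.s σ), X.c σ τ * (φ τ).1 = S.ev (φ σ).2 := by
        apply eq_of_add A.two
        rw [← h1]; abel
      calc S.ev (vecMulVec (h.kt σ) η)
          = (S.ev (S.dJ (t' σ)) + ∑ τ ∈ X.F (X.s σ), X.c σ τ * S.ev (t' τ)) +
            (S.ev (S.dJ (t' σ)) + ∑ τ ∈ X.F (X.s σ), X.c σ τ * S.ev (t' τ) +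
              S.ev (vecMulVec (h.kt σ) η)) := by
            rw [← add_assoc, h4, zero_add]
        _ = (S.ev (S.dJ (t' σ)) + ∑ τ ∈ X.F (X.s σ), X.c σ τ * S.ev (t' τ)) + S.ev (φ σ).2 := by
            rw [h3]
        _ = _ := by rw [← h6]; abel)⟩
  -- the corrected cocycle over `Γ`
  have hη'3 : ∀ σ, S.dJ (h.kw η' σ) + ∑ τ ∈ X.F (X.s σ), S.ρ (X.c σ τ) * h.kw η' τ =
      vecMulVec (h.kt σ) η := fun σ => by rw [h.kw_d, ← hη'2]; rfl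
  have hev' : ∀ σ, h.kw η' σ ∈ S.J ((X.s σ : ℤ) - p + 1) := fun σ => by
    have h1 := h.kw_mem (n := -p) (fun c hne => by have := hη'1 c hne; omega) σ
    rwa [show (X.s σ : ℤ) + -p + 1 = X.s σ - p + 1 by ring] at h1
  obtain ⟨η1, hη11, hη12, ψ1, hψ1, hψ2, hψ3⟩ := h.D1 p
    (fun σ => (φ σ).1 + S.ev (t' σ) + S.ev (h.kw η' σ))
    (fun σ => by
      refine Submodule.add_mem _ (Submodule.add_mem _ (hφ σ).1 ?_) ?_
      · have := S.ev_mem (ht1 σ)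
        rwa [show (X.s σ : ℤ) - p + 1 - 1 = X.s σ - p by ring] at this
      · have := S.ev_mem (hev' σ)
        rwa [show (X.s σ : ℤ) - p + 1 - 1 = X.s σ - p by ring] at this)
    (fun σ => by rw [mul_add, mul_add, e_mul_fst (he σ), ← S.ev_l, ht2, ← S.ev_l, h.kw_e])
    (fun σ => by
      have h1 := cocyc_fst (hc σ)
      have h3 := congrArg S.ev (ht3 σ)
      rw [← hη'3 σ] at h3
      rw [map_add, map_add, map_add, map_sum, map_sum] at h3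
      simp only [S.ev_l] at h3
      simp only [map_add, mul_add, Finset.sum_add_distrib]
      rw [← S.ev_dJ, ← S.ev_dJ]
      calc _ = (A.D (φ σ).1 + ∑ τ ∈ X.F (X.s σ), X.c σ τ * (φ τ).1) +
          (S.ev (S.dJ (t' σ)) + ∑ τ ∈ X.F (X.s σ), X.c σ τ * S.ev (t' τ) +
            (S.ev (S.dJ (h.kw η' σ)) + ∑ τ ∈ X.F (X.s σ), X.c σ τ * S.ev (h.kw η' τ))) := by abel
        _ = (A.D (φ σ).1 + ∑ τ ∈ X.F (X.s σ), X.c σ τ * (φ τ).1) + S.ev (φ σ).2 := by rw [← h3]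
        _ = A.D (φ σ).1 + S.ev (φ σ).2 + ∑ τ ∈ X.F (X.s σ), X.c σ τ * (φ τ).1 := by abel
        _ = 0 := h1)
  have hev1 : ∀ σ, h.kw η1 σ ∈ S.J ((X.s σ : ℤ) - p + 1) := fun σ => by
    have h1 := h.kw_mem (n := -p) (fun c hne => by have := hη11 c hne; omega) σ
    rwa [show (X.s σ : ℤ) + -p + 1 = X.s σ - p + 1 by ring] at h1
  have hη13 : ∀ σ, S.dJ (h.kw η1 σ) + ∑ τ ∈ X.F (X.s σ), S.ρ (X.c σ τ) * h.kw η1 τ = 0 := by
    intro σ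
    rw [h.kw_d, hη12]
    ext b c
    change h.kt σ b * 0 = 0
    exact mul_zero _
  refine ⟨fun σ => cl S (ψ1 σ) (t' σ + h.kw η' σ + h.kw η1 σ), fun σ => ⟨hψ1 σ, ?_⟩, fun σ => ?_,
    fun σ => ?_⟩
  · exact Submodule.add_mem _ (Submodule.add_mem _ (ht1 σ) (hev' σ)) (hev1 σ)
  · apply Data.Car.ext
    · exact hψ2 σ
    · change S.ρ (X.e σ) * (t' σ + h.kw η' σ + h.kw η1 σ) + 0 * S.σ (ψ1 σ) =
        t' σ + h.kw η' σ + h.kw η1 σ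
      rw [Matrix.zero_mul, add_zero, Matrix.mul_add, Matrix.mul_add, ht2, h.kw_e, h.kw_e]
  · apply Data.Car.ext
    · change (φ σ).1 = (S.dga.D (cl S (ψ1 σ) (t' σ + h.kw η' σ + h.kw η1 σ))).1 +
        (∑ τ ∈ X.F (X.s σ), (cl S (X.c σ τ) 0) *
          (cl S (ψ1 τ) (t' τ + h.kw η' τ + h.kw η1 τ))).1
      rw [fst_sum]
      change (φ σ).1 = A.D (ψ1 σ) + S.ev (t' σ + h.kw η' σ + h.kw η1 σ) +
        ∑ τ ∈ X.F (X.s σ), X.c σ τ * ψ1 τ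
      rw [map_add, map_add]
      have h50 : (φ σ).1 + S.ev (t' σ) + S.ev (h.kw η' σ) + S.ev (h.kw η1 σ) =
        A.D (ψ1 σ) + ∑ τ ∈ X.F (X.s σ), X.c σ τ * ψ1 τ := hψ3 σ
      have h5 : (φ σ).1 + S.ev (t' σ) + S.ev (h.kw η' σ) =
        A.D (ψ1 σ) + ∑ τ ∈ X.F (X.s σ), X.c σ τ * ψ1 τ + S.ev (h.kw η1 σ) := by
        rw [← h50, add_assoc _ _ (S.ev (h.kw η1 σ)), A.two, add_zero]
      have h6 := A.two (S.ev (t' σ) + S.ev (h.kw η' σ))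
      calc (φ σ).1 = ((φ σ).1 + S.ev (t' σ) + S.ev (h.kw η' σ)) +
            (S.ev (t' σ) + S.ev (h.kw η' σ)) := by
            rw [add_assoc (φ σ).1, add_assoc, h6, add_zero]
        _ = _ := by rw [h5]; abel
    · change (φ σ).2 = (S.dga.D (cl S (ψ1 σ) (t' σ + h.kw η' σ + h.kw η1 σ))).2 +
        (∑ τ ∈ X.F (X.s σ), (cl S (X.c σ τ) 0) *
          (cl S (ψ1 τ) (t' τ + h.kw η' τ + h.kw η1 τ))).2
      rw [snd_sum]
      change (φ σ).2 = S.dJ (t' σ + h.kw η' σ + h.kw η1 σ) +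
        ∑ τ ∈ X.F (X.s σ), (S.ρ (X.c σ τ) * (t' τ + h.kw η' τ + h.kw η1 τ) + 0 * S.σ (ψ1 τ))
      simp only [Matrix.zero_mul, add_zero, Matrix.mul_add, Finset.sum_add_distrib, map_add]
      have h7 := ht3 σ
      have h8 := hη'3 σ
      have h9 := hη13 σ
      calc (φ σ).2 = S.dJ (t' σ) + ∑ τ ∈ X.F (X.s σ), S.ρ (X.c σ τ) * t' τ +
            (S.dJ (h.kw η' σ) + ∑ τ ∈ X.F (X.s σ), S.ρ (X.c σ τ) * h.kw η' τ) +
            (S.dJ (h.kw η1 σ) + ∑ τ ∈ X.F (X.s σ), S.ρ (X.c σ τ) * h.kw η1 τ) := by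
            rw [h9, add_zero, h8]; exact h7
        _ = _ := by abel

end KHyp

variable (S X) in
/-- the last field of `Cells` over the cone -/
def ExC : Prop := ∀ (p : ℤ) (φ : X.ι → S.dga.C), (∀ σ, φ σ ∈ S.dga.G ((X.s σ : ℤ) - p)) →
    (∀ σ, (cl S (X.e σ) 0) * φ σ = φ σ) →
    (∀ σ, S.dga.D (φ σ) + ∑ τ ∈ X.F (X.s σ), (cl S (X.c σ τ) 0) * φ τ = 0) →
    ∃ ψ : X.ι → S.dga.C, (∀ σ, ψ σ ∈ S.dga.G ((X.s σ : ℤ) - p + 1)) ∧
      (∀ σ, (cl S (X.e σ) 0) * ψ σ = ψ σ) ∧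
      ∀ σ, φ σ = S.dga.D (ψ σ) + ∑ τ ∈ X.F (X.s σ), (cl S (X.c σ τ) 0) * ψ τ

/-- **cells over the cone** -/
noncomputable def cells0 (evV : EvV S X) (jr : JRt S X) (ec : ExC S X) : Cells S.dga where
  V := Vc S X
  dpos x hx w := by
    rw [smul_def]
    change (A.D x.1 + S.ev x.2) • (show X.V from w) = 0
    rw [add_smul, X.dpos _ hx.1, evV _ hx.2, add_zero]
  ι := X.ι
  s := X.s
  F := X.F
  mem_F := X.mem_F
  e σ := cl S (X.e σ) 0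
  e_mem σ := ⟨X.e_mem σ, Submodule.zero_mem _⟩
  e_idem σ := by
    apply Data.Car.ext
    · exact X.e_idem σ
    · change S.ρ (X.e σ) * 0 + 0 * S.σ (X.e σ) = 0
      rw [Matrix.mul_zero, zero_add, Matrix.zero_mul]
  c σ τ := cl S (X.c σ τ) 0
  c_mem σ τ := ⟨X.c_mem σ τ, Submodule.zero_mem _⟩
  c_left σ τ := by
    apply Data.Car.ext
    · exact X.c_left σ τ
    · change S.ρ (X.e σ) * 0 + 0 * S.σ (X.c σ τ) = 0
      rw [Matrix.mul_zero, zero_add, Matrix.zero_mul]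
  c_right σ τ := by
    apply Data.Car.ext
    · exact X.c_right σ τ
    · change S.ρ (X.c σ τ) * 0 + 0 * S.σ (X.e τ) = 0
      rw [Matrix.mul_zero, zero_add, Matrix.zero_mul]
  mc σ τ := by
    apply Data.Car.ext
    · change (S.dga.D (cl S (X.c σ τ) 0)).1 + (∑ ρ ∈ X.F (X.s σ),
        (cl S (X.c σ ρ) 0) * (cl S (X.c ρ τ) 0)).1 = 0
      rw [fst_sum]
      change A.D (X.c σ τ) + S.ev 0 + ∑ ρ ∈ X.F (X.s σ), X.c σ ρ * X.c ρ τ = 0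
      rw [map_zero, add_zero]
      exact X.mc σ τ
    · change (S.dga.D (cl S (X.c σ τ) 0)).2 + (∑ ρ ∈ X.F (X.s σ),
        (cl S (X.c σ ρ) 0) * (cl S (X.c ρ τ) 0)).2 = 0
      rw [snd_sum]
      change S.dJ 0 + ∑ ρ ∈ X.F (X.s σ), (S.ρ (X.c σ ρ) * 0 + 0 * S.σ (X.c ρ τ)) = 0
      simp only [Matrix.mul_zero, zero_add, Matrix.zero_mul, map_zero, Finset.sum_const_zero]
  v := X.v
  v_e := X.v_e
  v_zero := X.v_zero
  v_aug := X.v_aug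
  exR := exR jr
  exR0 := exR0
  gen w := by
    obtain ⟨x, hx1, hx2⟩ := X.gen w
    exact ⟨fun σ => cl S (x σ) 0, fun σ => ⟨hx1 σ, Submodule.zero_mem _⟩, hx2⟩
  exV := X.exV
  exC := ec

theorem exC_of (h : KHyp S X) : ExC S X := h.exC

/-- **cells over the cone**, from `kt` -/
noncomputable def cells (evV : EvV S X) (jr : JRt S X) (h : KHyp S X) : Cells S.dga :=
  cells0 evV jr (exC_of h)

end Crest.Agent.R186.ConeCells384
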