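import Crest.Agent.R186.TB3_143
import Crest.Agent.R186.FDual_162
import Crest.Agent.R186.FinV_988
import Crest.Agent.R186.GrP_44

/-!
Row 186 (A) (helper328): the HOMOGENEOUS CORE of a graded complex / dg module on `Frame515`.

163's windows `T.win` have carrier all functions; only the span of the pieces matters for tensor
products, but the dual `D(-)` must be taken of the core `coreL N` = span of the pieces.
-/

set_option autoImplicit false
set_option linter.style.haveILetI false
set_option linter.unusedSectionVars false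

open MulOpposite

namespace Crest.Agent.R186.Core328

open Hat827 Frame515 TB143

variable {K : Type} [Field K]

/-- the algebra is spanned by its pieces -/
def SpA (A : DGA K) : Prop := ∀ a : A.C, a ∈ ⨆ k, A.G k

theorem spA_of_grP {A : DGA K} (g : GrP44.GrP A) : SpA A := fun a => by
  rw [← g.sum a]
  exact Submodule.sum_mem _ fun k _ => (le_iSup A.G (k : ℤ)) (g.mem _ _)

/-- the span of the pieces -/
def sp (X : GC K) : Submodule K X.X := ⨆ k, X.gr k

theorem gr_le (X : GC K) (k : ℤ) : X.gr k ≤ sp X := le_iSup X.gr k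

theorem sp_le {X : GC K} {S : Submodule K X.X} (h : ∀ k, X.gr k ≤ S) : sp X ≤ S := iSup_le h

theorem sp_d (X : GC K) : ∀ x ∈ sp X, X.d x ∈ sp X := by
  have h : sp X ≤ (sp X).comap X.d := sp_le fun k x hx => gr_le X (k - 1) (X.d_mem hx)
  exact fun x hx => h hx

/-- the core of a complex -/
def core (X : GC K) : GC K where
  X := sp X
  gr k := (X.gr k).comap (sp X).subtype
  d := X.d.restrict (sp_d X)
  d_mem := fun hx => X.d_mem hx
  d_d := fun x => Subtype.ext (X.d_d x.1)

theorem mem_core {X : GC K} {k : ℤ} {x : (core X).X} : x ∈ (core X).gr k ↔ x.1 ∈ X.gr k := Iff.rfl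

/-- a homogeneous element of the core -/
def mk {X : GC K} {k : ℤ} (x : X.X) (hx : x ∈ X.gr k) : (core X).X := ⟨x, gr_le X k hx⟩

theorem core_spans (X : GC K) : FDual162.Spans (core X).gr := by
  rintro ⟨x, hx⟩
  have h1 : ∀ (y : X.X) (hy : y ∈ sp X), (⟨y, hy⟩ : (core X).X) ∈ ⨆ k, (core X).gr k := by
    intro y hy
    unfold sp at hy
    induction hy using Submodule.iSup_induction' with
    | mem k y hy' => exact (le_iSup (core X).gr k) (show (⟨y, _⟩ : (core X).X) ∈ (core X).gr k from hy')
    | zero => exact Submodule.zero_mem _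
    | add y z hy' hz' h1 h2 => exact Submodule.add_mem _ h1 h2
  exact h1 x hx

/-- the inclusion -/
def inc (X : GC K) : GCHom (core X) X where
  f := (sp X).subtype
  f_mem := fun hx => hx
  f_d := fun _ => rfl

theorem inc_qi (X : GC K) : QI (inc X) where
  surj k y hy hd := ⟨mk y hy, hy, Subtype.ext hd, 0, Submodule.zero_mem _, by
    rw [map_zero, add_zero]; rfl⟩
  inj k x hx hd := by
    rintro ⟨z, hz, h⟩
    exact ⟨mk z hz, hz, Subtype.ext h⟩

theorem core_ac {X : GC K} : Ac (core X) ↔ Ac X := by
  constructor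
  · intro h k x hx hd
    obtain ⟨y, hy, e⟩ := h k (mk x hx) hx (Subtype.ext hd)
    exact ⟨y.1, hy, congrArg Subtype.val e⟩
  · intro h k x hx hd
    obtain ⟨y, hy, e⟩ := h k x.1 hx (congrArg Subtype.val hd)
    exact ⟨mk y hy, hy, Subtype.ext e⟩

/-- the core of a map -/
def coreMap {X Y : GC K} (φ : GCHom X Y) : GCHom (core X) (core Y) where
  f := φ.f.restrict (by
    have h : sp X ≤ (sp Y).comap φ.f := sp_le fun k x hx => gr_le Y k (φ.f_mem hx)
    exact fun x hx => h hx)
  f_mem := fun hx => φ.f_mem hx
  f_d := fun x => Subtype.ext (φ.f_d x.1)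

theorem coreMap_qi {X Y : GC K} (φ : GCHom X Y) : QI (coreMap φ) ↔ QI φ := by
  constructor
  · intro h
    refine ⟨fun k y hy hd => ?_, fun k x hx hd hz => ?_⟩
    · obtain ⟨x, hx, hxd, z, hz, e⟩ := h.surj k (mk y hy) hy (Subtype.ext hd)
      exact ⟨x.1, hx, congrArg Subtype.val hxd, z.1, hz, congrArg Subtype.val e⟩
    · obtain ⟨z, hz, e⟩ := hz
      obtain ⟨w, hw, e'⟩ := h.inj k (mk x hx) hx (Subtype.ext hd) ⟨mk z hz, hz, Subtype.ext e⟩
      exact ⟨w.1, hw, congrArg Subtype.val e'⟩
  · intro h
    refine ⟨fun k y hy hd => ?_, fun k x hx hd hz => ?_⟩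
    · obtain ⟨x, hx, hxd, z, hz, e⟩ := h.surj k y.1 hy (congrArg Subtype.val hd)
      exact ⟨mk x hx, hx, Subtype.ext hxd, mk z hz, hz, Subtype.ext e⟩
    · obtain ⟨z, hz, e⟩ := hz
      obtain ⟨w, hw, e'⟩ := h.inj k x.1 hx (congrArg Subtype.val hd) ⟨z.1, hz, congrArg Subtype.val e⟩
      exact ⟨mk w hw, hw, Subtype.ext e'⟩

/-- projections of the core from projections of the pieces -/
def corePrG {X : GC K} (p : ℤ → X.X →ₗ[K] X.X) (same : ∀ {k : ℤ} {x : X.X}, x ∈ X.gr k → p k x = x)
    (ne : ∀ {k l : ℤ} {x : X.X}, x ∈ X.gr l → k ≠ l → p k x = 0) :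
    FDual162.PrG (core X).gr where
  pr k := (p k).restrict (by
    have h : sp X ≤ (sp X).comap (p k) := sp_le fun l x hx => by
      by_cases hkl : k = l
      · subst hkl
        rw [Submodule.mem_comap, same hx]
        exact gr_le X k hx
      · rw [Submodule.mem_comap, ne hx hkl]
        exact Submodule.zero_mem _
    exact fun x hx => h hx)
  same := fun hx => Subtype.ext (same hx)
  diff := fun hx hkl => Subtype.ext (ne hx hkl)

/-- bounded finite-dimensional pieces: the core is finite-dimensional -/
theorem core_finite (X : GC K) (s : Finset ℤ) (h0 : ∀ k, k ∉ s → X.gr k = ⊥)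
    (hf : ∀ k, Module.Finite K (X.gr k)) : Module.Finite K (core X).X := by
  have e : sp X = ⨆ k : s, X.gr k := by
    apply le_antisymm
    · refine sp_le fun k => ?_
      by_cases hk : k ∈ s
      · exact le_iSup (fun k : s => X.gr k) ⟨k, hk⟩
      · rw [h0 k hk]
        exact bot_le
    · exact iSup_le fun k => gr_le X k
  change Module.Finite K (sp X)
  rw [e]
  haveI : ∀ k : s, Module.Finite K (X.gr k) := fun k => hf k
  exact Submodule.finite_iSup _

theorem core_pr_mem {X : GC K} (P : FDual162.PrG (core X).gr) (k : ℤ) (z : (core X).X) :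
    P.pr k z ∈ (core X).gr k := by
  have hz := core_spans X z
  induction hz using Submodule.iSup_induction' with
  | mem l x hx =>
    by_cases hkl : k = l
    · subst hkl
      rw [P.same hx]
      exact hx
    · rw [P.diff hx hkl]
      exact Submodule.zero_mem _
  | zero =>
    rw [map_zero]
    exact Submodule.zero_mem _
  | add x y _ _ h1 h2 =>
    rw [map_add]
    exact Submodule.add_mem _ h1 h2

theorem core_pr_sum {X : GC K} (P : FDual162.PrG (core X).gr) (s : Finset ℤ)
    (bot : ∀ k, k ∉ s → X.gr k = ⊥) (z : (core X).X) : ∑ k ∈ s, P.pr k z = z := by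
  have hz := core_spans X z
  induction hz using Submodule.iSup_induction' with
  | mem l x hx =>
    by_cases hl : l ∈ s
    · rw [Finset.sum_eq_single l]
      · exact P.same hx
      · intro k _ hk
        exact P.diff hx hk
      · intro h
        exact absurd hl h
    · have h0 : x = 0 := by
        have h1 : x.1 ∈ X.gr l := hx
        rw [bot l hl] at h1
        exact Subtype.ext ((Submodule.mem_bot K).1 h1)
      rw [h0]
      exact Finset.sum_eq_zero fun k _ => map_zero _
  | zero => exact Finset.sum_eq_zero fun k _ => map_zero _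
  | add x y _ _ h1 h2 =>
    calc ∑ k ∈ s, P.pr k (x + y) = ∑ k ∈ s, P.pr k x + ∑ k ∈ s, P.pr k y := by
          rw [← Finset.sum_add_distrib]
          exact Finset.sum_congr rfl fun k _ => map_add _ _ _
      _ = x + y := by rw [h1, h2]

/-! ### left modules -/

theorem sp_smul {A : DGA K} (hA : SpA A) (N : LM A) (a : A.C) : ∀ x ∈ sp N.toGC, a • x ∈ sp N.toGC := by
  intro x hx
  have ha := hA a
  induction ha using Submodule.iSup_induction' with
  | mem k a ha =>
    have h : sp N.toGC ≤ (sp N.toGC).comap (lmul N a) := sp_le fun l x hx =>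
      gr_le N.toGC (k + l) (N.smul_mem ha hx)
    exact h hx
  | zero =>
    rw [zero_smul]
    exact Submodule.zero_mem _
  | add a b _ _ h1 h2 =>
    rw [add_smul]
    exact Submodule.add_mem _ h1 h2

/-- **the core of a left dg module** -/
def coreL {A : DGA K} (hA : SpA A) (N : LM A) : LM A :=
  letI act : Module A.C (sp N.toGC) :=
    { smul := fun a x => ⟨a • x.1, sp_smul hA N a x.1 x.2⟩
      one_smul := fun x => Subtype.ext (one_smul _ _)
      mul_smul := fun a b x => Subtype.ext (mul_smul _ _ _)
      smul_zero := fun a => Subtype.ext (smul_zero _)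
      smul_add := fun a x y => Subtype.ext (smul_add _ _ _)
      add_smul := fun a b x => Subtype.ext (add_smul _ _ _)
      zero_smul := fun x => Subtype.ext (zero_smul _ _) }
  { X := sp N.toGC
    gr := (core N.toGC).gr
    d := (core N.toGC).d
    d_mem := (core N.toGC).d_mem
    d_d := (core N.toGC).d_d
    act := act
    tower := ⟨fun r a x => Subtype.ext (smul_assoc r a x.1)⟩
    smul_mem := fun ha hx => N.smul_mem ha hx
    leib := fun a x => Subtype.ext (N.leib a x.1) }

theorem coreL_toGC {A : DGA K} (hA : SpA A) (N : LM A) : (coreL hA N).toGC = core N.toGC := rfl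

/-- value in the ambient module -/
def valL {A : DGA K} (hA : SpA A) (N : LM A) : (coreL hA N).X →ₗ[K] N.X := (sp N.toGC).subtype

theorem valL_inj {A : DGA K} (hA : SpA A) (N : LM A) : Function.Injective (valL hA N) :=
  Subtype.val_injective

theorem valL_smul {A : DGA K} (hA : SpA A) (N : LM A) (a : A.C) (x : (coreL hA N).X) :
    valL hA N (a • x) = a • valL hA N x := rfl

theorem mem_coreL {A : DGA K} {hA : SpA A} {N : LM A} {k : ℤ} {x : (coreL hA N).X} :
    x ∈ (coreL hA N).gr k ↔ valL hA N x ∈ N.gr k := Iff.rfl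

/-- the inclusion of the core -/
def incL {A : DGA K} (hA : SpA A) (N : LM A) : LMHom (coreL hA N) N where
  toGCHom := inc N.toGC
  smul := fun _ _ => rfl

theorem incL_qi {A : DGA K} (hA : SpA A) (N : LM A) : QI (incL hA N).toGCHom := inc_qi N.toGC

/-- functoriality of the core -/
def coreLMap {A : DGA K} (hA : SpA A) {N N' : LM A} (φ : LMHom N N') : LMHom (coreL hA N) (coreL hA N') where
  toGCHom := coreMap φ.toGCHom
  smul := fun a x => Subtype.ext (φ.smul a x.1)

theorem coreL_spans {A : DGA K} (hA : SpA A) (N : LM A) : FDual162.Spans (coreL hA N).gr :=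
  core_spans N.toGC

/-- 988's projections -/
def coreLPrL {A : DGA K} (hA : SpA A) (N : LM A) (p : ℤ → N.X →ₗ[K] N.X)
    (same : ∀ {k : ℤ} {x : N.X}, x ∈ N.gr k → p k x = x)
    (ne : ∀ {k l : ℤ} {x : N.X}, x ∈ N.gr l → k ≠ l → p k x = 0) (lo hi : ℤ)
    (bot : ∀ k, k ∉ Finset.Icc lo hi → N.gr k = ⊥) : FinV988.PrL (coreL hA N) where
  pr := (corePrG (X := N.toGC) p same ne).pr
  pr_mem k z := core_pr_mem (X := N.toGC) (corePrG p same ne) k z
  pr_same hz := (corePrG (X := N.toGC) p same ne).same hz
  pr_ne hz h := (corePrG (X := N.toGC) p same ne).diff hz h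
  lo := lo
  hi := hi
  pr_sum z := core_pr_sum (X := N.toGC) (corePrG p same ne) (Finset.Icc lo hi) bot z

theorem coreL_finite {A : DGA K} (hA : SpA A) (N : LM A) (lo hi : ℤ)
    (bot : ∀ k, k ∉ Finset.Icc lo hi → N.gr k = ⊥) (hf : ∀ k, Module.Finite K (N.gr k)) :
    Module.Finite K (coreL hA N).X := core_finite N.toGC (Finset.Icc lo hi) bot hf

/-! ### right modules -/

theorem sp_smulR {A : DGA K} (hA : SpA A) (N : RM A) (a : A.C) :
    ∀ x ∈ sp N.toGC, op a • x ∈ sp N.toGC := by
  intro x hx
  have ha := hA a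
  induction ha using Submodule.iSup_induction' with
  | mem k a ha =>
    have h : sp N.toGC ≤ (sp N.toGC).comap (rmul N a) := sp_le fun l x hx =>
      gr_le N.toGC (k + l) (N.smul_mem ha hx)
    exact h hx
  | zero =>
    rw [op_zero, zero_smul]
    exact Submodule.zero_mem _
  | add a b _ _ h1 h2 =>
    rw [op_add, add_smul]
    exact Submodule.add_mem _ h1 h2

/-- **the core of a right dg module** -/
def coreR {A : DGA K} (hA : SpA A) (N : RM A) : RM A :=
  letI act : Module A.Cᵐᵒᵖ (sp N.toGC) :=
    { smul := fun a x => ⟨a • x.1, sp_smulR hA N a.unop x.1 x.2⟩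
      one_smul := fun x => Subtype.ext (one_smul _ _)
      mul_smul := fun a b x => Subtype.ext (mul_smul _ _ _)
      smul_zero := fun a => Subtype.ext (smul_zero _)
      smul_add := fun a x y => Subtype.ext (smul_add _ _ _)
      add_smul := fun a b x => Subtype.ext (add_smul _ _ _)
      zero_smul := fun x => Subtype.ext (zero_smul _ _) }
  { X := sp N.toGC
    gr := (core N.toGC).gr
    d := (core N.toGC).d
    d_mem := (core N.toGC).d_mem
    d_d := (core N.toGC).d_d
    act := act
    tower := ⟨fun r a x => Subtype.ext (smul_assoc r a x.1)⟩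
    smul_mem := fun ha hx => N.smul_mem ha hx
    leib := fun a x => Subtype.ext (N.leib a x.1) }

/-- the inclusion of the core -/
def incR {A : DGA K} (hA : SpA A) (N : RM A) : RMHom (coreR hA N) N where
  toGCHom := inc N.toGC
  smul := fun _ _ => rfl

theorem incR_qi {A : DGA K} (hA : SpA A) (N : RM A) : QI (incR hA N).toGCHom := inc_qi N.toGC

/-! ### bimodules -/

/-- **the core of a dg bimodule** -/
def coreB {A B : DGA K} (hA : SpA A) (hB : SpA B) (N : BM A B) : BM A B :=
  letI actL : Module A.C (sp N.toGC) :=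
    { smul := fun a x => ⟨a • x.1, sp_smul hA N.toLM a x.1 x.2⟩
      one_smul := fun x => Subtype.ext (one_smul _ _)
      mul_smul := fun a b x => Subtype.ext (mul_smul _ _ _)
      smul_zero := fun a => Subtype.ext (smul_zero _)
      smul_add := fun a x y => Subtype.ext (smul_add _ _ _)
      add_smul := fun a b x => Subtype.ext (add_smul _ _ _)
      zero_smul := fun x => Subtype.ext (zero_smul _ _) }
  letI actR : Module B.Cᵐᵒᵖ (sp N.toGC) :=
    { smul := fun a x => ⟨a • x.1, sp_smulR hB N.toRM a.unop x.1 x.2⟩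
      one_smul := fun x => Subtype.ext (one_smul _ _)
      mul_smul := fun a b x => Subtype.ext (mul_smul _ _ _)
      smul_zero := fun a => Subtype.ext (smul_zero _)
      smul_add := fun a x y => Subtype.ext (smul_add _ _ _)
      add_smul := fun a b x => Subtype.ext (add_smul _ _ _)
      zero_smul := fun x => Subtype.ext (zero_smul _ _) }
  { X := sp N.toGC
    gr := (core N.toGC).gr
    d := (core N.toGC).d
    d_mem := (core N.toGC).d_mem
    d_d := (core N.toGC).d_d
    actL := actL
    towerL := ⟨fun r a x => Subtype.ext (smul_assoc r a x.1)⟩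
    actR := actR
    towerR := ⟨fun r a x => Subtype.ext (smul_assoc r a x.1)⟩
    comm := ⟨fun a b x => Subtype.ext (smul_comm a b x.1)⟩
    smul_mem := fun ha hx => N.smul_mem ha hx
    leib := fun a x => Subtype.ext (N.leib a x.1)
    smul_memR := fun ha hx => N.smul_memR ha hx
    leibR := fun a x => Subtype.ext (N.leibR a x.1) }

theorem coreB_toLM {A B : DGA K} (hA : SpA A) (hB : SpA B) (N : BM A B) :
    (coreB hA hB N).toLM = coreL hA N.toLM := rfl

/-- the inclusion of the core -/
def incB {A B : DGA K} (hA : SpA A) (hB : SpA B) (N : BM A B) : BMHom (coreB hA hB N) N where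
  toGCHom := inc N.toGC
  smul := fun _ _ => rfl
  smulR := fun _ _ => rfl

end Crest.Agent.R186.Core328
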