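import Crest.Agent.R186.Defs281_128

/-!
Row 186, S0281, leaf B281.D3 (helper808): Koszul-`d` facts, strictness, and the two
normal orderings of the filtered pieces `Fil g k P` of `Defs281_128`.

* `mon_indep`, `nom_indep`: the monomials `x^a d^b` and `d^b x^a` are linearly independent;
* `Fil_eq_nom`: `Fil g k P` is also the span of the `d^b x^a`;
* multiplications by `X i`, `D g i` on both sides: membership, injectivity, strictness;
* `D1r, D1l, D2r, D2l` (and `X1r, X1l, X2r, X2l`, the same lemma for the `x_i`).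
-/

set_option autoImplicit false

namespace Crest.Agent.R186.B281.D3

open Crest.Agent.R186.B281

/-! ### division with remainder -/

section div

variable {K ι M : Type*} [Field K] [AddCommMonoid M] [Module K M]

/-- triangular functionals -/
theorem tri_indep {m : ι → M} (φ : ι → M →ₗ[K] K) (w : ι → ℕ) (h1 : ∀ i, φ i (m i) ≠ 0)
    (h2 : ∀ i j, φ i (m j) ≠ 0 → j = i ∨ w j < w i) : LinearIndependent K m := by
  let _ : AddCommGroup M := Module.addCommMonoidToAddCommGroup K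
  rw [linearIndependent_iff]
  intro l hl
  have key : ∀ n : ℕ, ∀ i, w i = n → l i = 0 := by
    intro n
    induction n using Nat.strong_induction_on with
    | _ n ih =>
      intro i hi
      have h3 : φ i (Finsupp.linearCombination K m l) = 0 := by rw [hl, map_zero]
      rw [Finsupp.linearCombination_apply, Finsupp.sum, map_sum, Finset.sum_eq_single i] at h3
      · rw [map_smul, smul_eq_mul] at h3
        exact (mul_eq_zero.1 h3).resolve_right (h1 i)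
      · intro j _ hj
        rw [map_smul, smul_eq_mul]
        by_cases h4 : φ i (m j) = 0
        · rw [h4, mul_zero]
        · rcases h2 i j h4 with h5 | h5
          · exact absurd h5 hj
          · rw [ih (w j) (hi ▸ h5) j rfl, zero_mul]
      · intro h4
        rw [Finsupp.notMem_support_iff.1 h4, zero_smul, map_zero]
  ext i
  exact key (w i) i rfl

theorem div_exists {m : ι → M} {s : ι → ι} {R : M →ₗ[K] M} (hR : ∀ i, R (m i) = m (s i))
    {S : Set ι} {T : M} (hT : T ∈ Submodule.span K (m '' S)) :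
    ∃ q ∈ Submodule.span K (m '' (s ⁻¹' S)), ∃ r ∈ Submodule.span K (m '' (S \ Set.range s)),
      T = R q + r := by
  induction hT using Submodule.span_induction with
  | mem x hx =>
    obtain ⟨i, hi, rfl⟩ := hx
    by_cases h : i ∈ Set.range s
    · obtain ⟨j, rfl⟩ := h
      exact ⟨m j, Submodule.subset_span ⟨j, hi, rfl⟩, 0, zero_mem _, by rw [hR, add_zero]⟩
    · exact ⟨0, zero_mem _, m i, Submodule.subset_span ⟨i, ⟨hi, h⟩, rfl⟩, by
        rw [map_zero, zero_add]⟩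
  | zero => exact ⟨0, zero_mem _, 0, zero_mem _, by rw [map_zero, zero_add]⟩
  | add x y _ _ hx hy =>
    obtain ⟨q, hq, r, hr, rfl⟩ := hx
    obtain ⟨q', hq', r', hr', rfl⟩ := hy
    exact ⟨q + q', add_mem hq hq', r + r', add_mem hr hr', by rw [map_add]; abel⟩
  | smul c x _ hx =>
    obtain ⟨q, hq, r, hr, rfl⟩ := hx
    exact ⟨c • q, Submodule.smul_mem _ _ hq, c • r, Submodule.smul_mem _ _ hr, by
      rw [map_smul, smul_add]⟩

theorem map_span {m : ι → M} {s : ι → ι} {R : M →ₗ[K] M} (hR : ∀ i, R (m i) = m (s i))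
    {S S' : Set ι} (h : ∀ i ∈ S, s i ∈ S') {q : M} (hq : q ∈ Submodule.span K (m '' S)) :
    R q ∈ Submodule.span K (m '' S') := by
  induction hq using Submodule.span_induction with
  | mem x hx =>
    obtain ⟨i, hi, rfl⟩ := hx
    rw [hR]
    exact Submodule.subset_span ⟨s i, h i hi, rfl⟩
  | zero => rw [map_zero]; exact zero_mem _
  | add x y _ _ hx hy => rw [map_add]; exact add_mem hx hy
  | smul c x _ hx => rw [map_smul]; exact Submodule.smul_mem _ _ hx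

theorem span_le_range {m : ι → M} {S : Set ι} {q : M} (hq : q ∈ Submodule.span K (m '' S)) :
    q ∈ Submodule.span K (Set.range m) :=
  Submodule.span_mono (Set.image_subset_range _ _) hq

theorem disj {m : ι → M} (hm : LinearIndependent K m) {S S' : Set ι} (h : Disjoint S S') {q : M}
    (hq : q ∈ Submodule.span K (m '' S)) (hq' : q ∈ Submodule.span K (m '' S')) : q = 0 := by
  let _ : AddCommGroup M := Module.addCommMonoidToAddCommGroup K
  exact Submodule.disjoint_def.1 (hm.disjoint_span_image h) q hq hq'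

theorem div_inj {m : ι → M} (hm : LinearIndependent K m) {s : ι → ι}
    (hs : Function.Injective s) {R : M →ₗ[K] M} (hR : ∀ i, R (m i) = m (s i)) {q : M}
    (hq : q ∈ Submodule.span K (Set.range m)) (h : R q = 0) : q = 0 := by
  let _ : AddCommGroup M := Module.addCommMonoidToAddCommGroup K
  obtain ⟨c, rfl⟩ := (Finsupp.mem_span_range_iff_exists_finsupp).1 hq
  have h1 : Finsupp.linearCombination K (m ∘ s) c = 0 := by
    rw [Finsupp.linearCombination_apply, ← h, Finsupp.sum, Finsupp.sum, map_sum]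
    exact Finset.sum_congr rfl fun i _ => by rw [map_smul, hR]; rfl
  have h2 := linearIndependent_iff.1 (hm.comp s hs) c h1
  rw [h2, Finsupp.sum_zero_index]

/-- uniqueness of division -/
theorem div_uniq {m : ι → M} (hm : LinearIndependent K m) {s : ι → ι}
    (hs : Function.Injective s) {R : M →ₗ[K] M} (hR : ∀ i, R (m i) = m (s i)) {q r : M}
    (hq : q ∈ Submodule.span K (Set.range m))
    (hr : r ∈ Submodule.span K (m '' (Set.range s)ᶜ)) (h : R q + r = 0) : q = 0 ∧ r = 0 := by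
  let _ : AddCommGroup M := Module.addCommMonoidToAddCommGroup K
  have h1 : R q ∈ Submodule.span K (m '' Set.range s) := by
    rw [← Set.image_univ] at hq
    exact map_span (S' := Set.range s) hR (fun i _ => ⟨i, rfl⟩) hq
  have h2 : r = -R q := by rw [eq_neg_iff_add_eq_zero, add_comm, h]
  have h3 : r = 0 := disj hm disjoint_compl_left hr (h2 ▸ neg_mem h1)
  rw [h3, add_zero] at h
  exact ⟨div_inj hm hs hR hq h, h3⟩

/-- strictness -/
theorem div_strict {m : ι → M} (hm : LinearIndependent K m) {s : ι → ι}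
    (hs : Function.Injective s) {R : M →ₗ[K] M} (hR : ∀ i, R (m i) = m (s i)) {S : Set ι}
    {q : M} (hq : q ∈ Submodule.span K (Set.range m)) (h : R q ∈ Submodule.span K (m '' S)) :
    q ∈ Submodule.span K (m '' (s ⁻¹' S)) := by
  let _ : AddCommGroup M := Module.addCommMonoidToAddCommGroup K
  obtain ⟨q', hq', r, hr, h1⟩ := div_exists hR h
  have h2 : R (q' - q) + r = 0 := by
    rw [map_sub, h1]; abel
  have h4 : S \ Set.range s ⊆ (Set.range s)ᶜ := fun x hx => hx.2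
  have h3 := div_uniq hm hs hR (sub_mem (span_le_range hq') hq)
    (Submodule.span_mono (Set.image_mono h4) hr) h2
  rw [sub_eq_zero.1 h3.1] at hq'
  exact hq'

/-- Koszul exactness in the middle -/
theorem kos {m : ι → M} (hm : LinearIndependent K m) {s0 s1 : ι → ι}
    (h0 : Function.Injective s0) (h1 : Function.Injective s1) {R0 R1 : M →ₗ[K] M}
    (hR0 : ∀ i, R0 (m i) = m (s0 i)) (hR1 : ∀ i, R1 (m i) = m (s1 i))
    (hc : ∀ x, R0 (R1 x) = R1 (R0 x)) (hs : ∀ i, s1 i ∈ Set.range s0 → i ∈ Set.range s0)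
    {S : Set ι} {a b : M} (ha : a ∈ Submodule.span K (Set.range m))
    (hb : b ∈ Submodule.span K (m '' S)) (h : R0 a + R1 b = 0) :
    ∃ e ∈ Submodule.span K (m '' (s0 ⁻¹' S)), a = R1 e ∧ b + R0 e = 0 := by
  let _ : AddCommGroup M := Module.addCommMonoidToAddCommGroup K
  obtain ⟨q, hq, r, hr, rfl⟩ := div_exists hR0 hb
  have h2 : R1 q ∈ Submodule.span K (Set.range m) := by
    rw [← Set.image_univ]
    exact map_span hR1 (fun _ _ => Set.mem_univ _) hq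
  have h3 : R1 r ∈ Submodule.span K (m '' (Set.range s0)ᶜ) := by
    refine map_span hR1 (S := S \ Set.range s0) ?_ hr
    intro i hi h4
    exact hi.2 (hs i h4)
  have h4 : R0 (a + R1 q) + R1 r = 0 := by
    rw [map_add, hc, ← h, map_add]; abel
  obtain ⟨h5, h6⟩ := div_uniq hm h0 hR0 (add_mem ha h2) h3 h4
  have h7 : r = 0 := div_inj hm h1 hR1 (span_le_range hr) h6
  refine ⟨-q, neg_mem hq, ?_, ?_⟩
  · rw [map_neg, eq_neg_iff_add_eq_zero, h5]
  · rw [h7, map_neg, add_zero, add_neg_cancel]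

/-- Koszul decomposition at the end -/
theorem dec {m : ι → M} {s0 s1 : ι → ι} {R0 R1 : M →ₗ[K] M}
    (hR0 : ∀ i, R0 (m i) = m (s0 i)) (hR1 : ∀ i, R1 (m i) = m (s1 i)) {S : Set ι} {T : M}
    (hT : T ∈ Submodule.span K (m '' S)) :
    ∃ q ∈ Submodule.span K (m '' (s0 ⁻¹' S)), ∃ q' ∈ Submodule.span K (m '' (s1 ⁻¹' S)),
      ∃ r ∈ Submodule.span K (m '' {i | i ∈ S ∧ i ∉ Set.range s0 ∧ i ∉ Set.range s1}),
        T = R0 q + R1 q' + r := by
  obtain ⟨q, hq, r, hr, rfl⟩ := div_exists hR0 hT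
  obtain ⟨q', hq', r', hr', rfl⟩ := div_exists hR1 hr
  have h1 : s1 ⁻¹' (S \ Set.range s0) ⊆ s1 ⁻¹' S := fun i hi => hi.1
  have h2 : (S \ Set.range s0) \ Set.range s1 ⊆
      {i | i ∈ S ∧ i ∉ Set.range s0 ∧ i ∉ Set.range s1} :=
    fun i hi => ⟨hi.1.1, hi.1.2, hi.2⟩
  refine ⟨q, hq, q', Submodule.span_mono (Set.image_mono h1) hq', r',
    Submodule.span_mono (Set.image_mono h2) hr', ?_⟩
  rw [add_assoc]

theorem dec_uniq {m : ι → M} (hm : LinearIndependent K m) {s0 s1 : ι → ι} {R0 R1 : M →ₗ[K] M}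
    (hR0 : ∀ i, R0 (m i) = m (s0 i)) (hR1 : ∀ i, R1 (m i) = m (s1 i)) {q q' r : M}
    (hq : q ∈ Submodule.span K (Set.range m)) (hq' : q' ∈ Submodule.span K (Set.range m))
    (hr : r ∈ Submodule.span K (m '' {i | i ∉ Set.range s0 ∧ i ∉ Set.range s1}))
    (h : r = R0 q + R1 q') : r = 0 := by
  have h1 : R0 q ∈ Submodule.span K (m '' (Set.range s0 ∪ Set.range s1)) := by
    rw [← Set.image_univ] at hq
    exact map_span hR0 (fun i _ => Or.inl ⟨i, rfl⟩) hq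
  have h2 : R1 q' ∈ Submodule.span K (m '' (Set.range s0 ∪ Set.range s1)) := by
    rw [← Set.image_univ] at hq'
    exact map_span hR1 (fun i _ => Or.inr ⟨i, rfl⟩) hq'
  refine disj hm ?_ hr (h ▸ add_mem h1 h2)
  rw [Set.disjoint_left]
  rintro i ⟨h3, h4⟩ (h5 | h5)
  · exact h3 h5
  · exact h4 h5

end div

/-! ### one variable: normal ordering -/

section one

variable {K R : Type*} [Field K] [Ring R] [Algebra K R]

theorem comm_pow {d x : R} {α β : K} (h : d * x = α • (1 : R) + β • (x * d)) (k : ℕ) :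
    ∃ c : K, d * x ^ (k + 1) = β ^ (k + 1) • (x ^ (k + 1) * d) + c • x ^ k := by
  induction k with
  | zero =>
    refine ⟨α, ?_⟩
    rw [zero_add, pow_one, pow_one, pow_zero, h, add_comm]
  | succ k ih =>
    obtain ⟨c, hc⟩ := ih
    refine ⟨β ^ (k + 1) * α + c, ?_⟩
    have h1 : x ^ (k + 1) * d * x = α • x ^ (k + 1) + β • (x ^ (k + 1 + 1) * d) := by
      rw [mul_assoc, h, mul_add, mul_smul_comm, mul_one, mul_smul_comm, ← mul_assoc, ← pow_succ]
    rw [pow_succ x (k + 1), ← mul_assoc, hc, add_mul, smul_mul_assoc, h1, smul_mul_assoc,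
      ← pow_succ, ← pow_succ, smul_add, smul_smul, smul_smul, ← pow_succ, add_smul]
    abel

theorem norm_one {d x : R} {α β : K} (h : d * x = α • (1 : R) + β • (x * d)) (m n : ℕ) :
    d ^ m * x ^ n ∈ Submodule.span K
      {T | ∃ r, r ≤ m ∧ r ≤ n ∧ T = x ^ (n - r) * d ^ (m - r)} := by
  induction m with
  | zero =>
    refine Submodule.subset_span ⟨0, le_rfl, Nat.zero_le _, ?_⟩
    simp
  | succ m ih =>
    rw [pow_succ', mul_assoc]
    generalize d ^ m * x ^ n = y at ih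
    induction ih using Submodule.span_induction with
    | mem y hy =>
      obtain ⟨r, h1, h2, rfl⟩ := hy
      rw [← mul_assoc]
      rcases Nat.eq_zero_or_pos (n - r) with h3 | h3
      · rw [h3, pow_zero, mul_one, ← pow_succ']
        refine Submodule.subset_span ⟨r, by omega, h2, ?_⟩
        rw [h3, pow_zero, one_mul]
        congr 1
        omega
      · obtain ⟨k, hk⟩ : ∃ k, n - r = k + 1 := ⟨n - r - 1, by omega⟩
        obtain ⟨c, hc⟩ := comm_pow h k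
        rw [hk, hc, add_mul, smul_mul_assoc, mul_assoc, ← pow_succ', smul_mul_assoc]
        refine add_mem (Submodule.smul_mem _ _ (Submodule.subset_span ⟨r, by omega, h2, ?_⟩))
          (Submodule.smul_mem _ _ (Submodule.subset_span ⟨r + 1, by omega, by omega, ?_⟩))
        · rw [hk, show m + 1 - r = m - r + 1 by omega]
        · rw [show n - (r + 1) = k by omega, show m + 1 - (r + 1) = m - r by omega]
    | zero => rw [mul_zero]; exact zero_mem _
    | add y z _ _ hy hz => rw [mul_add]; exact add_mem hy hz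
    | smul c y _ hy => rw [mul_smul_comm]; exact Submodule.smul_mem _ _ hy

end one

/-! ### the two monomial bases -/

variable {K : Type} [Field K]

/-- exponents `(a, b)` of `x^a d^b` and of `d^b x^a` -/
abbrev Ix : Type := (ℕ × ℕ) × (ℕ × ℕ)

/-- `x^a d^b` -/
noncomputable def m1 (g : K) (p : Ix) : Op K := mon g p.1 p.2

/-- `d^b x^a` -/
noncomputable def m2 (g : K) (p : Ix) : Op K :=
  D g 0 ^ p.2.1 * D g 1 ^ p.2.2 * X 0 ^ p.1.1 * X 1 ^ p.1.2

/-- falling product of `q`-numbers -/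
noncomputable def cf (g : K) (n : ℕ) (m : ℤ) : K := ∏ j ∈ Finset.range n, cq g (m - j)

theorem cf_succ (g : K) (n : ℕ) (m : ℤ) : cf g (n + 1) m = cq g (m - n) * cf g n m := by
  rw [cf, Finset.prod_range_succ, mul_comm]
  rfl

theorem cf_ne {g : K} (hg : Gen g) {n : ℕ} {m : ℤ} (h : ∀ j : ℕ, j < n → m ≠ j) :
    cf g n m ≠ 0 := by
  rw [cf, Finset.prod_ne_zero_iff]
  intro j hj
  exact cq_ne hg (sub_ne_zero.2 (h j (Finset.mem_range.1 hj)))

theorem cf_eq {g : K} {n : ℕ} {m : ℤ} (j : ℕ) (hj : j < n) (h : m = j) : cf g n m = 0 := by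
  rw [cf, Finset.prod_eq_zero_iff]
  exact ⟨j, Finset.mem_range.2 hj, by rw [h, sub_self, cq_zero]⟩

theorem X_pow_single (i : Fin 2) (n : ℕ) (m : ℤ × ℤ) (a : K) :
    ((X i : Op K) ^ n) (Finsupp.single m a) = Finsupp.single (m + n • ev i) a := by
  induction n with
  | zero => simp
  | succ n ih =>
    rw [pow_succ', Module.End.mul_apply, ih, X_single, add_assoc, succ_nsmul]

theorem co_sub (i : Fin 2) (n : ℕ) (m : ℤ × ℤ) : co i (m - n • ev i) = co i m - n := by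
  fin_cases i <;> simp [co, ev]

theorem D_pow_single (g : K) (i : Fin 2) (n : ℕ) (m : ℤ × ℤ) (a : K) :
    ((D g i : Op K) ^ n) (Finsupp.single m a) =
      Finsupp.single (m - n • ev i) (cf g n (co i m) * a) := by
  induction n with
  | zero => simp [cf]
  | succ n ih =>
    rw [pow_succ', Module.End.mul_apply, ih, D_single, co_sub, cf_succ, mul_assoc, sub_sub,
      succ_nsmul]

theorem m1_single (g : K) (p : Ix) (m : ℤ × ℤ) (c : K) :
    m1 g p (Finsupp.single m c) = Finsupp.single (m.1 + p.1.1 - p.2.1, m.2 + p.1.2 - p.2.2)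
      (cf g p.2.1 m.1 * (cf g p.2.2 m.2 * c)) := by
  simp only [m1, mon, Module.End.mul_apply, D_pow_single, X_pow_single]
  have h1 : co 0 (m - p.2.2 • ev 1) = m.1 := by simp [co, ev]
  have h2 : co 1 m = m.2 := by simp [co]
  rw [h1, h2]
  congr 1
  refine Prod.ext ?_ ?_ <;> simp [ev] <;> ring

theorem m2_single (g : K) (p : Ix) (m : ℤ × ℤ) (c : K) :
    m2 g p (Finsupp.single m c) = Finsupp.single (m.1 + p.1.1 - p.2.1, m.2 + p.1.2 - p.2.2)
      (cf g p.2.1 (m.1 + p.1.1) * (cf g p.2.2 (m.2 + p.1.2) * c)) := by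
  simp only [m2, Module.End.mul_apply, D_pow_single, X_pow_single]
  have h1 : co 0 (m + p.1.2 • ev 1 + p.1.1 • ev 0 - p.2.2 • ev 1) = m.1 + p.1.1 := by
    simp [co, ev]
  have h2 : co 1 (m + p.1.2 • ev 1 + p.1.1 • ev 0) = m.2 + p.1.2 := by simp [co, ev]
  rw [h1, h2]
  congr 1
  refine Prod.ext ?_ ?_ <;> simp [ev]

/-- the matrix coefficient of an operator -/
noncomputable def ent (s t : ℤ × ℤ) : Op K →ₗ[K] K where
  toFun T := T (Finsupp.single s 1) t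
  map_add' S T := by rw [LinearMap.add_apply, Finsupp.add_apply]
  map_smul' c T := by rw [LinearMap.smul_apply, Finsupp.smul_apply]; rfl

theorem ent_m1 (g : K) (s t : ℤ × ℤ) (p : Ix) : ent s t (m1 g p) =
    if (s.1 + p.1.1 - p.2.1, s.2 + p.1.2 - p.2.2) = t then cf g p.2.1 s.1 * cf g p.2.2 s.2
      else 0 := by
  have h : ent s t (m1 g p) = (m1 g p (Finsupp.single s 1)) t := rfl
  rw [h, m1_single, Finsupp.single_apply, mul_one]

theorem ent_m2 (g : K) (s t : ℤ × ℤ) (p : Ix) : ent s t (m2 g p) =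
    if (s.1 + p.1.1 - p.2.1, s.2 + p.1.2 - p.2.2) = t then
      cf g p.2.1 (s.1 + p.1.1) * cf g p.2.2 (s.2 + p.1.2) else 0 := by
  have h : ent s t (m2 g p) = (m2 g p (Finsupp.single s 1)) t := rfl
  rw [h, m2_single, Finsupp.single_apply, mul_one]

theorem m1_indep {g : K} (hg : Gen g) : LinearIndependent K (m1 g) := by
  refine tri_indep (m := m1 g)
    (fun p : Ix => ent ((p.2.1 : ℤ), (p.2.2 : ℤ)) ((p.1.1 : ℤ), (p.1.2 : ℤ)))
    (fun p => p.2.1 + p.2.2) ?_ ?_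
  · rintro ⟨⟨a1, a2⟩, b1, b2⟩
    rw [ent_m1, if_pos (by ext <;> simp)]
    exact mul_ne_zero (cf_ne hg fun j hj => by dsimp only at hj ⊢; omega)
      (cf_ne hg fun j hj => by dsimp only at hj ⊢; omega)
  · rintro ⟨⟨a1, a2⟩, b1, b2⟩ ⟨⟨a1', a2'⟩, b1', b2'⟩ h
    rw [ent_m1] at h
    dsimp only at h
    split_ifs at h with h1
    · have h2 : b1' ≤ b1 := by
        by_contra h3
        exact h (by rw [cf_eq b1 (by omega) rfl, zero_mul])
      have h3 : b2' ≤ b2 := by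
        by_contra h3
        exact h (by rw [cf_eq (n := b2') b2 (by omega) rfl, mul_zero])
      obtain ⟨h4, h5⟩ := Prod.ext_iff.1 h1
      dsimp only at h4 h5
      by_cases h6 : b1' + b2' < b1 + b2
      · exact Or.inr h6
      · refine Or.inl (Prod.ext (Prod.ext ?_ ?_) (Prod.ext ?_ ?_)) <;> dsimp only <;> omega
    · exact absurd rfl h

theorem m2_indep {g : K} (hg : Gen g) : LinearIndependent K (m2 g) := by
  refine tri_indep (m := m2 g)
    (fun p : Ix => ent (-1 - (p.1.1 : ℤ), -1 - (p.1.2 : ℤ))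
    (-1 - (p.2.1 : ℤ), -1 - (p.2.2 : ℤ))) (fun p => p.2.1 + p.2.2) ?_ ?_
  · rintro ⟨⟨a1, a2⟩, b1, b2⟩
    rw [ent_m2, if_pos (by ext <;> simp)]
    exact mul_ne_zero (cf_ne hg fun j hj => by dsimp only at hj ⊢; omega)
      (cf_ne hg fun j hj => by dsimp only at hj ⊢; omega)
  · rintro ⟨⟨a1, a2⟩, b1, b2⟩ ⟨⟨a1', a2'⟩, b1', b2'⟩ h
    rw [ent_m2] at h
    dsimp only at h
    split_ifs at h with h1
    · obtain ⟨h4, h5⟩ := Prod.ext_iff.1 h1
      dsimp only at h4 h5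
      have h2 : b1' ≤ b1 := by
        by_contra h3
        exact h (by rw [cf_eq (b1' - b1 - 1) (by omega) (by omega), zero_mul])
      have h3 : b2' ≤ b2 := by
        by_contra h3
        exact h (by rw [cf_eq (n := b2') (b2' - b2 - 1) (by omega) (by omega), mul_zero])
      by_cases h6 : b1' + b2' < b1 + b2
      · exact Or.inr h6
      · refine Or.inl (Prod.ext (Prod.ext ?_ ?_) (Prod.ext ?_ ?_)) <;> dsimp only <;> omega
    · exact absurd rfl h

/-- the index set of `Fil g k P` -/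
def Sx (k P : ℤ) : Set Ix :=
  {p | (p.2.1 : ℤ) + p.2.2 ≤ k ∧ (p.1.1 : ℤ) + p.1.2 - (p.2.1 + p.2.2) = P}

theorem Fil_eq_m1 (g : K) (k P : ℤ) : Fil g k P = Submodule.span K (m1 g '' Sx k P) := by
  rw [Fil]
  congr 1
  ext T
  constructor
  · rintro ⟨a, b, h1, h2, rfl⟩
    exact ⟨(a, b), ⟨h1, h2⟩, rfl⟩
  · rintro ⟨p, ⟨h1, h2⟩, rfl⟩
    exact ⟨p.1, p.2, h1, h2, rfl⟩

theorem comm_XD (g : K) {i j : Fin 2} (h : i ≠ j) (m n : ℕ) :
    (X i : Op K) ^ m * D g j ^ n = D g j ^ n * X i ^ m :=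
  ((show Commute (X i : Op K) (D g j) from X_D g h).pow_pow m n).eq

theorem comm_XX (i j : Fin 2) (m n : ℕ) : (X i : Op K) ^ m * X j ^ n = X j ^ n * X i ^ m :=
  ((show Commute (X i : Op K) (X j) from X_comm i j).pow_pow m n).eq

theorem comm_DD (g : K) (i j : Fin 2) (m n : ℕ) :
    (D g i : Op K) ^ m * D g j ^ n = D g j ^ n * D g i ^ m :=
  ((show Commute (D g i : Op K) (D g j) from D_comm g i j).pow_pow m n).eq

theorem D_X_self {g : K} (hg : Gen g) (i : Fin 2) :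
    D g i * X i = (-g⁻¹) • (1 : Op K) + g⁻¹ • (X i * D g i) := by
  have h : (-g⁻¹) • (1 : Op K) + g⁻¹ • (1 : Op K) = 0 := by
    rw [← add_smul, neg_add_cancel, zero_smul]
  rw [X_D_self hg i, smul_add, smul_smul, inv_mul_cancel₀ hg.1, one_smul, ← add_assoc, h,
    zero_add]

theorem m2_mem {g : K} (hg : Gen g) {k P : ℤ} {p : Ix} (hp : p ∈ Sx k P) :
    m2 g p ∈ Submodule.span K (m1 g '' Sx k P) := by
  obtain ⟨⟨a1, a2⟩, b1, b2⟩ := p
  have h1 : m2 g ((a1, a2), (b1, b2)) = (D g 0 ^ b1 * X 0 ^ a1) * (D g 1 ^ b2 * X 1 ^ a2) := by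
    show D g 0 ^ b1 * D g 1 ^ b2 * X 0 ^ a1 * X 1 ^ a2 = _
    rw [mul_assoc (D g 0 ^ b1), ← comm_XD g (by decide : (0 : Fin 2) ≠ 1)]
    simp only [mul_assoc]
  rw [h1]
  have h2 := Submodule.mul_mem_mul (norm_one (K := K) (R := Op K) (D_X_self hg 0) b1 a1)
    (norm_one (K := K) (R := Op K) (D_X_self hg 1) b2 a2)
  rw [Submodule.span_mul_span] at h2
  refine Submodule.span_mono ?_ h2
  rintro T ⟨T1, ⟨r1, h3, h4, rfl⟩, T2, ⟨r2, h5, h6, rfl⟩, rfl⟩
  refine ⟨((a1 - r1, a2 - r2), (b1 - r1, b2 - r2)), ?_, ?_⟩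
  · obtain ⟨h7, h8⟩ := hp
    simp only at h7 h8
    refine ⟨?_, ?_⟩ <;> simp only <;> omega
  · show X 0 ^ (a1 - r1) * X 1 ^ (a2 - r2) * D g 0 ^ (b1 - r1) * D g 1 ^ (b2 - r2) =
      X 0 ^ (a1 - r1) * D g 0 ^ (b1 - r1) * (X 1 ^ (a2 - r2) * D g 1 ^ (b2 - r2))
    rw [mul_assoc (X 0 ^ (a1 - r1)), comm_XD g (by decide : (1 : Fin 2) ≠ 0)]
    simp only [mul_assoc]

theorem m1_mem {g : K} (hg : Gen g) {k P : ℤ} {p : Ix} (hp : p ∈ Sx k P) :
    m1 g p ∈ Submodule.span K (m2 g '' Sx k P) := by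
  obtain ⟨⟨a1, a2⟩, b1, b2⟩ := p
  have hr : ∀ i : Fin 2, (X i : Op K) * D g i = (1 : K) • (1 : Op K) + g • (D g i * X i) :=
    fun i => by rw [one_smul]; exact X_D_self hg i
  have h1 : m1 g ((a1, a2), (b1, b2)) = (X 0 ^ a1 * D g 0 ^ b1) * (X 1 ^ a2 * D g 1 ^ b2) := by
    show X 0 ^ a1 * X 1 ^ a2 * D g 0 ^ b1 * D g 1 ^ b2 = _
    rw [mul_assoc (X 0 ^ a1), comm_XD g (by decide : (1 : Fin 2) ≠ 0)]
    simp only [mul_assoc]
  rw [h1]
  have h2 := Submodule.mul_mem_mul (norm_one (K := K) (R := Op K) (hr 0) a1 b1)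
    (norm_one (K := K) (R := Op K) (hr 1) a2 b2)
  rw [Submodule.span_mul_span] at h2
  refine Submodule.span_mono ?_ h2
  rintro T ⟨T1, ⟨r1, h3, h4, rfl⟩, T2, ⟨r2, h5, h6, rfl⟩, rfl⟩
  refine ⟨((a1 - r1, a2 - r2), (b1 - r1, b2 - r2)), ?_, ?_⟩
  · obtain ⟨h7, h8⟩ := hp
    simp only at h7 h8
    refine ⟨?_, ?_⟩ <;> simp only <;> omega
  · show D g 0 ^ (b1 - r1) * D g 1 ^ (b2 - r2) * X 0 ^ (a1 - r1) * X 1 ^ (a2 - r2) =
      D g 0 ^ (b1 - r1) * X 0 ^ (a1 - r1) * (D g 1 ^ (b2 - r2) * X 1 ^ (a2 - r2))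
    rw [mul_assoc (D g 0 ^ (b1 - r1)), ← comm_XD g (by decide : (0 : Fin 2) ≠ 1)]
    simp only [mul_assoc]

theorem Fil_eq_m2 {g : K} (hg : Gen g) (k P : ℤ) :
    Fil g k P = Submodule.span K (m2 g '' Sx k P) := by
  rw [Fil_eq_m1]
  refine le_antisymm (Submodule.span_le.2 ?_) (Submodule.span_le.2 ?_)
  · rintro T ⟨p, hp, rfl⟩
    exact m1_mem hg hp
  · rintro T ⟨p, hp, rfl⟩
    exact m2_mem hg hp

/-! ### shifts -/

/-- `b ↦ b + e_i` -/
def sb (i : Fin 2) (p : Ix) : Ix :=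
  (p.1, if i = 0 then (p.2.1 + 1, p.2.2) else (p.2.1, p.2.2 + 1))

/-- `a ↦ a + e_i` -/
def sa (i : Fin 2) (p : Ix) : Ix :=
  (if i = 0 then (p.1.1 + 1, p.1.2) else (p.1.1, p.1.2 + 1), p.2)

theorem sb_inj (i : Fin 2) : Function.Injective (sb i) := by
  rintro ⟨⟨a, b⟩, c, d⟩ ⟨⟨a', b'⟩, c', d'⟩ h
  fin_cases i <;> simp [sb] at h ⊢ <;> omega

theorem sa_inj (i : Fin 2) : Function.Injective (sa i) := by
  rintro ⟨⟨a, b⟩, c, d⟩ ⟨⟨a', b'⟩, c', d'⟩ h
  fin_cases i <;> simp [sa] at h ⊢ <;> omega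

theorem sb_range0 (p : Ix) : p ∈ Set.range (sb 0) ↔ 0 < p.2.1 := by
  constructor
  · rintro ⟨q, rfl⟩
    simp [sb]
  · obtain ⟨⟨a, b⟩, c, d⟩ := p
    intro h
    refine ⟨((a, b), (c - 1, d)), ?_⟩
    simp [sb] at h ⊢
    omega

theorem sb_range1 (p : Ix) : p ∈ Set.range (sb 1) ↔ 0 < p.2.2 := by
  constructor
  · rintro ⟨q, rfl⟩
    simp [sb]
  · obtain ⟨⟨a, b⟩, c, d⟩ := p
    intro h
    refine ⟨((a, b), (c, d - 1)), ?_⟩
    simp [sb] at h ⊢
    omega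

theorem sa_range0 (p : Ix) : p ∈ Set.range (sa 0) ↔ 0 < p.1.1 := by
  constructor
  · rintro ⟨q, rfl⟩
    simp [sa]
  · obtain ⟨⟨a, b⟩, c, d⟩ := p
    intro h
    refine ⟨((a - 1, b), (c, d)), ?_⟩
    simp [sa] at h ⊢
    omega

theorem sa_range1 (p : Ix) : p ∈ Set.range (sa 1) ↔ 0 < p.1.2 := by
  constructor
  · rintro ⟨q, rfl⟩
    simp [sa]
  · obtain ⟨⟨a, b⟩, c, d⟩ := p
    intro h
    refine ⟨((a, b - 1), (c, d)), ?_⟩
    simp [sa] at h ⊢
    omega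

theorem sb_pre (i : Fin 2) (k P : ℤ) : sb i ⁻¹' Sx k P = Sx (k - 1) (P + 1) := by
  ext ⟨⟨a, b⟩, c, d⟩
  fin_cases i <;> simp [sb, Sx] <;> omega

theorem sa_pre (i : Fin 2) (k P : ℤ) : sa i ⁻¹' Sx k P = Sx k (P - 1) := by
  ext ⟨⟨a, b⟩, c, d⟩
  fin_cases i <;> simp [sa, Sx] <;> omega

theorem sb_mem (i : Fin 2) {k P : ℤ} (p : Ix) (h : p ∈ Sx k P) : sb i p ∈ Sx (k + 1) (P - 1) := by
  rw [← Set.mem_preimage, sb_pre, add_sub_cancel_right, sub_add_cancel]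
  exact h

theorem sa_mem (i : Fin 2) {k P : ℤ} (p : Ix) (h : p ∈ Sx k P) : sa i p ∈ Sx k (P + 1) := by
  rw [← Set.mem_preimage, sa_pre, add_sub_cancel_right]
  exact h

/-- right multiplication by `D i` on `x^a d^b` -/
theorem m1_D (g : K) (i : Fin 2) (p : Ix) : m1 g p * D g i = m1 g (sb i p) := by
  fin_cases i
  · show X 0 ^ p.1.1 * X 1 ^ p.1.2 * D g 0 ^ p.2.1 * D g 1 ^ p.2.2 * D g 0 =
      X 0 ^ p.1.1 * X 1 ^ p.1.2 * D g 0 ^ (p.2.1 + 1) * D g 1 ^ p.2.2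
    have h := comm_DD g 1 0 p.2.2 1
    rw [pow_one] at h
    rw [mul_assoc _ (D g 1 ^ p.2.2), h, pow_succ]
    simp only [mul_assoc]
  · show X 0 ^ p.1.1 * X 1 ^ p.1.2 * D g 0 ^ p.2.1 * D g 1 ^ p.2.2 * D g 1 =
      X 0 ^ p.1.1 * X 1 ^ p.1.2 * D g 0 ^ p.2.1 * D g 1 ^ (p.2.2 + 1)
    rw [pow_succ]
    simp only [mul_assoc]

/-- left multiplication by `X i` on `x^a d^b` -/
theorem X_m1 (g : K) (i : Fin 2) (p : Ix) : X i * m1 g p = m1 g (sa i p) := by
  fin_cases i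
  · show X 0 * (X 0 ^ p.1.1 * X 1 ^ p.1.2 * D g 0 ^ p.2.1 * D g 1 ^ p.2.2) =
      X 0 ^ (p.1.1 + 1) * X 1 ^ p.1.2 * D g 0 ^ p.2.1 * D g 1 ^ p.2.2
    rw [pow_succ']
    simp only [mul_assoc]
  · show X 1 * (X 0 ^ p.1.1 * X 1 ^ p.1.2 * D g 0 ^ p.2.1 * D g 1 ^ p.2.2) =
      X 0 ^ p.1.1 * X 1 ^ (p.1.2 + 1) * D g 0 ^ p.2.1 * D g 1 ^ p.2.2
    have h := comm_XX (K := K) 1 0 1 p.1.1
    rw [pow_one] at h
    rw [pow_succ']
    simp only [← mul_assoc]
    rw [h]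

/-- right multiplication by `X i` on `d^b x^a` -/
theorem m2_X (g : K) (i : Fin 2) (p : Ix) : m2 g p * X i = m2 g (sa i p) := by
  fin_cases i
  · show D g 0 ^ p.2.1 * D g 1 ^ p.2.2 * X 0 ^ p.1.1 * X 1 ^ p.1.2 * X 0 =
      D g 0 ^ p.2.1 * D g 1 ^ p.2.2 * X 0 ^ (p.1.1 + 1) * X 1 ^ p.1.2
    have h := comm_XX (K := K) 1 0 p.1.2 1
    rw [pow_one] at h
    rw [mul_assoc _ (X 1 ^ p.1.2), h, pow_succ]
    simp only [mul_assoc]
  · show D g 0 ^ p.2.1 * D g 1 ^ p.2.2 * X 0 ^ p.1.1 * X 1 ^ p.1.2 * X 1 =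
      D g 0 ^ p.2.1 * D g 1 ^ p.2.2 * X 0 ^ p.1.1 * X 1 ^ (p.1.2 + 1)
    rw [pow_succ]
    simp only [mul_assoc]

/-- left multiplication by `D i` on `d^b x^a` -/
theorem D_m2 (g : K) (i : Fin 2) (p : Ix) : D g i * m2 g p = m2 g (sb i p) := by
  fin_cases i
  · show D g 0 * (D g 0 ^ p.2.1 * D g 1 ^ p.2.2 * X 0 ^ p.1.1 * X 1 ^ p.1.2) =
      D g 0 ^ (p.2.1 + 1) * D g 1 ^ p.2.2 * X 0 ^ p.1.1 * X 1 ^ p.1.2
    rw [pow_succ']
    simp only [mul_assoc]
  · show D g 1 * (D g 0 ^ p.2.1 * D g 1 ^ p.2.2 * X 0 ^ p.1.1 * X 1 ^ p.1.2) =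
      D g 0 ^ p.2.1 * D g 1 ^ (p.2.2 + 1) * X 0 ^ p.1.1 * X 1 ^ p.1.2
    have h := comm_DD g 1 0 1 p.2.1
    rw [pow_one] at h
    rw [pow_succ']
    simp only [← mul_assoc]
    rw [h]

/-! ### the four multiplications -/

/-- right multiplication, as a linear map -/
noncomputable def rm (y : Op K) : Op K →ₗ[K] Op K := LinearMap.mulRight K y

/-- left multiplication, as a linear map -/
noncomputable def lm (y : Op K) : Op K →ₗ[K] Op K := LinearMap.mulLeft K y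

theorem rm_apply (y T : Op K) : rm y T = T * y := rfl

theorem lm_apply (y T : Op K) : lm y T = y * T := rfl

theorem mem_range1 {g : K} {k P : ℤ} {T : Op K} (h : T ∈ Fil g k P) :
    T ∈ Submodule.span K (Set.range (m1 g)) := by
  rw [Fil_eq_m1] at h
  exact span_le_range h

theorem mem_range2 {g : K} (hg : Gen g) {k P : ℤ} {T : Op K} (h : T ∈ Fil g k P) :
    T ∈ Submodule.span K (Set.range (m2 g)) := by
  rw [Fil_eq_m2 hg] at h
  exact span_le_range h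

theorem mul_D_mem {g : K} (i : Fin 2) {k P : ℤ} {T : Op K} (h : T ∈ Fil g k P) :
    T * D g i ∈ Fil g (k + 1) (P - 1) := by
  rw [Fil_eq_m1] at h ⊢
  exact map_span (R := rm (D g i)) (m1_D g i) (sb_mem i) h

theorem X_mul_mem {g : K} (i : Fin 2) {k P : ℤ} {T : Op K} (h : T ∈ Fil g k P) :
    X i * T ∈ Fil g k (P + 1) := by
  rw [Fil_eq_m1] at h ⊢
  exact map_span (R := lm (X i)) (X_m1 g i) (sa_mem i) h

theorem D_mul_mem {g : K} (hg : Gen g) (i : Fin 2) {k P : ℤ} {T : Op K} (h : T ∈ Fil g k P) :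
    D g i * T ∈ Fil g (k + 1) (P - 1) := by
  rw [Fil_eq_m2 hg] at h ⊢
  exact map_span (R := lm (D g i)) (D_m2 g i) (sb_mem i) h

theorem mul_X_mem {g : K} (hg : Gen g) (i : Fin 2) {k P : ℤ} {T : Op K} (h : T ∈ Fil g k P) :
    T * X i ∈ Fil g k (P + 1) := by
  rw [Fil_eq_m2 hg] at h ⊢
  exact map_span (R := rm (X i)) (m2_X g i) (sa_mem i) h

theorem mul_D_inj {g : K} (hg : Gen g) (i : Fin 2) {k P : ℤ} {T : Op K} (h : T ∈ Fil g k P)
    (h0 : T * D g i = 0) : T = 0 :=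
  div_inj (R := rm (D g i)) (m1_indep hg) (sb_inj i) (m1_D g i)
    (mem_range1 h) h0

theorem D_mul_inj {g : K} (hg : Gen g) (i : Fin 2) {k P : ℤ} {T : Op K} (h : T ∈ Fil g k P)
    (h0 : D g i * T = 0) : T = 0 :=
  div_inj (R := lm (D g i)) (m2_indep hg) (sb_inj i) (D_m2 g i)
    (mem_range2 hg h) h0

theorem X_mul_inj (i : Fin 2) {T : Op K} (h0 : X i * T = 0) : T = 0 := by
  refine op_ext fun m => ?_
  have h1 : X i (T (Finsupp.single m 1)) = 0 := by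
    rw [← Module.End.mul_apply, h0]; rfl
  have h2 : Function.Injective (X i : Op K) := by
    have : Function.Injective (fun m : ℤ × ℤ => m + ev i) := add_left_injective _
    exact Finsupp.mapDomain_injective this
  exact h2 (by rw [h1]; simp)

theorem mul_X_inj (i : Fin 2) {T : Op K} (h0 : T * X i = 0) : T = 0 := by
  refine op_ext fun m => ?_
  have h1 : ((T * X i : Op K)) (Finsupp.single (m - ev i) 1) = 0 := by rw [h0]; rfl
  rw [Module.End.mul_apply, X_single, sub_add_cancel] at h1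
  rw [h1]; rfl

theorem mul_D_strict {g : K} (hg : Gen g) (i : Fin 2) {k l P : ℤ} {T : Op K}
    (hT : T ∈ Fil g l P) (h : T * D g i ∈ Fil g (k + 1) (P - 1)) : T ∈ Fil g k P := by
  rw [Fil_eq_m1] at h ⊢
  have h1 := div_strict (R := rm (D g i)) (m1_indep hg) (sb_inj i)
    (m1_D g i) (mem_range1 hT) h
  rwa [sb_pre, add_sub_cancel_right, sub_add_cancel] at h1

theorem D_mul_strict {g : K} (hg : Gen g) (i : Fin 2) {k l P : ℤ} {T : Op K}
    (hT : T ∈ Fil g l P) (h : D g i * T ∈ Fil g (k + 1) (P - 1)) : T ∈ Fil g k P := by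
  rw [Fil_eq_m2 hg] at h ⊢
  have h1 := div_strict (R := lm (D g i)) (m2_indep hg) (sb_inj i)
    (D_m2 g i) (mem_range2 hg hT) h
  rwa [sb_pre, add_sub_cancel_right, sub_add_cancel] at h1

theorem X_mul_strict {g : K} (hg : Gen g) (i : Fin 2) {k l P : ℤ} {T : Op K}
    (hT : T ∈ Fil g l P) (h : X i * T ∈ Fil g k (P + 1)) : T ∈ Fil g k P := by
  rw [Fil_eq_m1] at h ⊢
  have h1 := div_strict (R := lm (X i)) (m1_indep hg) (sa_inj i)
    (X_m1 g i) (mem_range1 hT) h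
  rwa [sa_pre, add_sub_cancel_right] at h1

theorem mul_X_strict {g : K} (hg : Gen g) (i : Fin 2) {k l P : ℤ} {T : Op K}
    (hT : T ∈ Fil g l P) (h : T * X i ∈ Fil g k (P + 1)) : T ∈ Fil g k P := by
  rw [Fil_eq_m2 hg] at h ⊢
  have h1 := div_strict (R := rm (X i)) (m2_indep hg) (sa_inj i)
    (m2_X g i) (mem_range2 hg hT) h
  rwa [sa_pre, add_sub_cancel_right] at h1

/-! ### Koszul facts -/

theorem op_neg {b c : Op K} (h : b + c = 0) : b = -c := by
  refine LinearMap.ext fun v => ?_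
  have h1 := LinearMap.congr_fun h v
  rw [LinearMap.add_apply, LinearMap.zero_apply] at h1
  rw [LinearMap.neg_apply]
  exact eq_neg_of_add_eq_zero_left h1

theorem D1r {g : K} (hg : Gen g) {k P : ℤ} {a b : Op K} (ha : a ∈ Fil g k P) (hb : b ∈ Fil g k P)
    (h : a * D g 0 + b * D g 1 = 0) :
    ∃ e ∈ Fil g (k - 1) (P + 1), a = e * D g 1 ∧ b = -(e * D g 0) := by
  rw [Fil_eq_m1] at hb
  obtain ⟨e, h1, h2, h3⟩ := kos (R0 := rm (D g 0)) (R1 := rm (D g 1))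
    (m1_indep hg) (sb_inj 0) (sb_inj 1) (m1_D g 0) (m1_D g 1)
    (fun x => by rw [rm_apply, rm_apply, rm_apply, rm_apply, mul_assoc, mul_assoc, D_comm])
    (fun p hp => by rw [sb_range0] at hp ⊢; exact hp) (mem_range1 ha) hb h
  rw [sb_pre, ← Fil_eq_m1] at h1
  exact ⟨e, h1, h2, op_neg h3⟩

theorem D1l {g : K} (hg : Gen g) {k P : ℤ} {a b : Op K} (ha : a ∈ Fil g k P) (hb : b ∈ Fil g k P)
    (h : D g 0 * a + D g 1 * b = 0) :
    ∃ e ∈ Fil g (k - 1) (P + 1), a = D g 1 * e ∧ b = -(D g 0 * e) := by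
  rw [Fil_eq_m2 hg] at hb
  obtain ⟨e, h1, h2, h3⟩ := kos (R0 := lm (D g 0)) (R1 := lm (D g 1))
    (m2_indep hg) (sb_inj 0) (sb_inj 1) (D_m2 g 0) (D_m2 g 1)
    (fun x => by rw [lm_apply, lm_apply, lm_apply, lm_apply, ← mul_assoc, ← mul_assoc, D_comm])
    (fun p hp => by rw [sb_range0] at hp ⊢; exact hp) (mem_range2 hg ha) hb h
  rw [sb_pre, ← Fil_eq_m2 hg] at h1
  exact ⟨e, h1, h2, op_neg h3⟩

theorem X1r {g : K} (hg : Gen g) {k P : ℤ} {a b : Op K} (ha : a ∈ Fil g k P) (hb : b ∈ Fil g k P)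
    (h : a * X 0 + b * X 1 = 0) :
    ∃ e ∈ Fil g k (P - 1), a = e * X 1 ∧ b = -(e * X 0) := by
  rw [Fil_eq_m2 hg] at hb
  obtain ⟨e, h1, h2, h3⟩ := kos (R0 := rm (X 0)) (R1 := rm (X 1))
    (m2_indep hg) (sa_inj 0) (sa_inj 1) (m2_X g 0) (m2_X g 1)
    (fun x => by rw [rm_apply, rm_apply, rm_apply, rm_apply, mul_assoc, mul_assoc, X_comm])
    (fun p hp => by rw [sa_range0] at hp ⊢; exact hp) (mem_range2 hg ha) hb h
  rw [sa_pre, ← Fil_eq_m2 hg] at h1
  exact ⟨e, h1, h2, op_neg h3⟩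

theorem X1l {g : K} (hg : Gen g) {k P : ℤ} {a b : Op K} (ha : a ∈ Fil g k P) (hb : b ∈ Fil g k P)
    (h : X 0 * a + X 1 * b = 0) :
    ∃ e ∈ Fil g k (P - 1), a = X 1 * e ∧ b = -(X 0 * e) := by
  rw [Fil_eq_m1] at hb
  obtain ⟨e, h1, h2, h3⟩ := kos (R0 := lm (X 0)) (R1 := lm (X 1))
    (m1_indep hg) (sa_inj 0) (sa_inj 1) (X_m1 g 0) (X_m1 g 1)
    (fun x => by rw [lm_apply, lm_apply, lm_apply, lm_apply, ← mul_assoc, ← mul_assoc, X_comm])
    (fun p hp => by rw [sa_range0] at hp ⊢; exact hp) (mem_range1 ha) hb h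
  rw [sa_pre, ← Fil_eq_m1] at h1
  exact ⟨e, h1, h2, op_neg h3⟩

theorem rem_D (k P : ℤ) :
    {p | p ∈ Sx k P ∧ p ∉ Set.range (sb 0) ∧ p ∉ Set.range (sb 1)} ⊆ Sx 0 P := by
  rintro p ⟨h1, h2, h3⟩
  rw [sb_range0] at h2
  rw [sb_range1] at h3
  obtain ⟨h4, h5⟩ := h1
  exact ⟨by omega, h5⟩

theorem Sx0_sub (P : ℤ) :
    Sx 0 P ⊆ {p | p ∉ Set.range (sb 0) ∧ p ∉ Set.range (sb 1)} := by
  rintro p ⟨h1, h2⟩
  refine ⟨?_, ?_⟩
  · rw [sb_range0]; omega
  · rw [sb_range1]; omega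

theorem D2r {g : K} {k P : ℤ} {a : Op K} (ha : a ∈ Fil g k P) :
    ∃ b ∈ Fil g (k - 1) (P + 1), ∃ c ∈ Fil g (k - 1) (P + 1), ∃ p ∈ Fil g 0 P,
      a = b * D g 0 + c * D g 1 + p := by
  rw [Fil_eq_m1] at ha
  obtain ⟨b, hb, c, hc, p, hp, h⟩ := dec (R0 := rm (D g 0))
    (R1 := rm (D g 1)) (m1_D g 0) (m1_D g 1) ha
  rw [sb_pre, ← Fil_eq_m1] at hb hc
  refine ⟨b, hb, c, hc, p, ?_, h⟩
  rw [Fil_eq_m1]
  exact Submodule.span_mono (Set.image_mono (rem_D k P)) hp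

theorem D2l {g : K} (hg : Gen g) {k P : ℤ} {a : Op K} (ha : a ∈ Fil g k P) :
    ∃ b ∈ Fil g (k - 1) (P + 1), ∃ c ∈ Fil g (k - 1) (P + 1), ∃ p ∈ Fil g 0 P,
      a = D g 0 * b + D g 1 * c + p := by
  rw [Fil_eq_m2 hg] at ha
  obtain ⟨b, hb, c, hc, p, hp, h⟩ := dec (R0 := lm (D g 0))
    (R1 := lm (D g 1)) (D_m2 g 0) (D_m2 g 1) ha
  rw [sb_pre, ← Fil_eq_m2 hg] at hb hc
  refine ⟨b, hb, c, hc, p, ?_, h⟩
  rw [Fil_eq_m2 hg]
  exact Submodule.span_mono (Set.image_mono (rem_D k P)) hp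

theorem D2r_uniq {g : K} (hg : Gen g) {k l Q P : ℤ} {b c p : Op K} (hb : b ∈ Fil g k Q)
    (hc : c ∈ Fil g l Q) (hp : p ∈ Fil g 0 P) (h : p = b * D g 0 + c * D g 1) : p = 0 := by
  rw [Fil_eq_m1] at hp
  exact dec_uniq (R0 := rm (D g 0)) (R1 := rm (D g 1))
    (m1_indep hg) (m1_D g 0) (m1_D g 1) (mem_range1 hb) (mem_range1 hc)
    (Submodule.span_mono (Set.image_mono (Sx0_sub P)) hp) h

theorem D2l_uniq {g : K} (hg : Gen g) {k l Q P : ℤ} {b c p : Op K} (hb : b ∈ Fil g k Q)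
    (hc : c ∈ Fil g l Q) (hp : p ∈ Fil g 0 P) (h : p = D g 0 * b + D g 1 * c) : p = 0 := by
  rw [Fil_eq_m2 hg] at hp
  exact dec_uniq (R0 := lm (D g 0)) (R1 := lm (D g 1))
    (m2_indep hg) (D_m2 g 0) (D_m2 g 1) (mem_range2 hg hb) (mem_range2 hg hc)
    (Submodule.span_mono (Set.image_mono (Sx0_sub P)) hp) h

theorem rem_X {k P : ℤ} (hP : 0 < P) :
    {p | p ∈ Sx k P ∧ p ∉ Set.range (sa 0) ∧ p ∉ Set.range (sa 1)} ⊆ (∅ : Set Ix) := by
  rintro p ⟨h1, h2, h3⟩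
  rw [sa_range0] at h2
  rw [sa_range1] at h3
  obtain ⟨h4, h5⟩ := h1
  exfalso
  omega

/-- `Fil k P = Fil k (P-1) X 0 + Fil k (P-1) X 1` for `P > 0` -/
theorem X2r {g : K} (hg : Gen g) {k P : ℤ} (hP : 0 < P) {a : Op K} (ha : a ∈ Fil g k P) :
    ∃ b ∈ Fil g k (P - 1), ∃ c ∈ Fil g k (P - 1), a = b * X 0 + c * X 1 := by
  rw [Fil_eq_m2 hg] at ha
  obtain ⟨b, hb, c, hc, p, hp, h⟩ := dec (R0 := rm (X 0))
    (R1 := rm (X 1)) (m2_X g 0) (m2_X g 1) ha
  rw [sa_pre, ← Fil_eq_m2 hg] at hb hc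
  have h1 := Submodule.span_mono (R := K) (Set.image_mono (f := m2 g) (rem_X hP)) hp
  rw [Set.image_empty, Submodule.span_empty, Submodule.mem_bot] at h1
  refine ⟨b, hb, c, hc, ?_⟩
  rw [h, h1, add_zero]
  rfl

theorem X2l {g : K} {k P : ℤ} (hP : 0 < P) {a : Op K} (ha : a ∈ Fil g k P) :
    ∃ b ∈ Fil g k (P - 1), ∃ c ∈ Fil g k (P - 1), a = X 0 * b + X 1 * c := by
  rw [Fil_eq_m1] at ha
  obtain ⟨b, hb, c, hc, p, hp, h⟩ := dec (R0 := lm (X 0))
    (R1 := lm (X 1)) (X_m1 g 0) (X_m1 g 1) ha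
  rw [sa_pre, ← Fil_eq_m1] at hb hc
  have h1 := Submodule.span_mono (R := K) (Set.image_mono (f := m1 g) (rem_X hP)) hp
  rw [Set.image_empty, Submodule.span_empty, Submodule.mem_bot] at h1
  refine ⟨b, hb, c, hc, ?_⟩
  rw [h, h1, add_zero]
  rfl

/-! ### evaluation at `1`, products -/

theorem Fil0_mem {g : K} {P : ℤ} {p : Op K} (hp : p ∈ Fil g 0 P) :
    p ∈ Submodule.span K {T | ∃ a : ℕ × ℕ, (a.1 : ℤ) + a.2 = P ∧ T = X 0 ^ a.1 * X 1 ^ a.2} := by
  rw [Fil_eq_m1] at hp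
  refine Submodule.span_mono ?_ hp
  rintro T ⟨⟨⟨a1, a2⟩, b1, b2⟩, ⟨h1, h2⟩, rfl⟩
  simp only at h1 h2
  obtain rfl : b1 = 0 := by omega
  obtain rfl : b2 = 0 := by omega
  refine ⟨(a1, a2), by simpa using h2, ?_⟩
  show X 0 ^ a1 * X 1 ^ a2 * D g 0 ^ 0 * D g 1 ^ 0 = _
  rw [pow_zero, pow_zero, mul_one, mul_one]

/-- an operator of order `0` is determined by its value at `1` -/
theorem Fil0_eval {g : K} {P : ℤ} {p : Op K} (hp : p ∈ Fil g 0 P)
    (h : p (Finsupp.single 0 1) = 0) : p = 0 := by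
  have h1 : p ∈ Submodule.span K (Set.range fun a : ℕ × ℕ => (X 0 ^ a.1 * X 1 ^ a.2 : Op K)) := by
    refine Submodule.span_mono ?_ (Fil0_mem hp)
    rintro T ⟨a, _, rfl⟩
    exact ⟨a, rfl⟩
  obtain ⟨c, rfl⟩ := (Finsupp.mem_span_range_iff_exists_finsupp).1 h1
  have h2 : Function.Injective (fun a : ℕ × ℕ => ((a.1 : ℤ), (a.2 : ℤ))) := by
    rintro ⟨a, b⟩ ⟨a', b'⟩ h
    simpa using h
  have h3 : Finsupp.mapDomain (fun a : ℕ × ℕ => ((a.1 : ℤ), (a.2 : ℤ))) c = 0 := by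
    rw [← h, Finsupp.mapDomain, Finsupp.sum, Finsupp.sum, LinearMap.sum_apply]
    refine Finset.sum_congr rfl fun a _ => ?_
    rw [LinearMap.smul_apply, Module.End.mul_apply, X_pow_single, X_pow_single, Finsupp.smul_single,
      smul_eq_mul, mul_one]
    congr 1
    ext <;> simp [ev]
  have h4 : c = 0 := Finsupp.mapDomain_injective h2 (by rw [h3, Finsupp.mapDomain_zero])
  rw [h4, Finsupp.sum_zero_index]

theorem D_one (g : K) (i : Fin 2) : D g i (Finsupp.single 0 1) = 0 := by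
  rw [D_single]
  have h : co i (0 : ℤ × ℤ) = 0 := by fin_cases i <;> rfl
  rw [h, cq_zero, zero_mul, Finsupp.single_zero]

theorem D2r_ker {g : K} {k P : ℤ} {a : Op K} (ha : a ∈ Fil g k P)
    (h : a (Finsupp.single 0 1) = 0) :
    ∃ b ∈ Fil g (k - 1) (P + 1), ∃ c ∈ Fil g (k - 1) (P + 1), a = b * D g 0 + c * D g 1 := by
  obtain ⟨b, hb, c, hc, p, hp, rfl⟩ := D2r ha
  rw [LinearMap.add_apply, LinearMap.add_apply, Module.End.mul_apply, Module.End.mul_apply, D_one,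
    D_one, map_zero, map_zero, add_zero, zero_add] at h
  exact ⟨b, hb, c, hc, by rw [Fil0_eval hp h, add_zero]⟩

/-- every polynomial of degree `P` is the value at `1` of an operator of order `0` -/
theorem Fil0_surj (g : K) {P : ℤ} {f : Lau K} (hf : f ∈ Pol K P) :
    ∃ p ∈ Fil g 0 P, p (Finsupp.single 0 1) = f := by
  rw [Pol, Finsupp.supported_eq_span_single] at hf
  induction hf using Submodule.span_induction with
  | mem x hx =>
    obtain ⟨m, ⟨h1, h2, h3⟩, rfl⟩ := hx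
    refine ⟨m1 g ((m.1.toNat, m.2.toNat), (0, 0)), ?_, ?_⟩
    · rw [Fil_eq_m1]
      refine Submodule.subset_span ⟨_, ⟨?_, ?_⟩, rfl⟩ <;> simp only [Nat.cast_zero] <;> omega
    · rw [m1_single]
      simp only [cf, Finset.range_zero, Finset.prod_empty, one_mul, Nat.cast_zero, sub_zero]
      congr 1
      ext
      · simp only [Prod.fst_zero, zero_add]; omega
      · simp only [Prod.snd_zero, zero_add]; omega
  | zero => exact ⟨0, zero_mem _, rfl⟩
  | add x y _ _ hx hy =>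
    obtain ⟨p, hp, rfl⟩ := hx
    obtain ⟨q, hq, rfl⟩ := hy
    exact ⟨p + q, add_mem hp hq, rfl⟩
  | smul c x _ hx =>
    obtain ⟨p, hp, rfl⟩ := hx
    exact ⟨c • p, Submodule.smul_mem _ _ hp, rfl⟩

/-- `Fil k P * Fil l Q ≤ Fil (k + l) (P + Q)` -/
theorem Fil_mul {g : K} (hg : Gen g) {k l P Q : ℤ} {S T : Op K} (hS : S ∈ Fil g k P)
    (hT : T ∈ Fil g l Q) : S * T ∈ Fil g (k + l) (P + Q) := by
  have hX : ∀ (i : Fin 2) (n : ℕ) (l Q : ℤ) (T : Op K), T ∈ Fil g l Q →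
      X i ^ n * T ∈ Fil g l (Q + n) := by
    intro i n
    induction n with
    | zero => intro l Q T hT; simpa using hT
    | succ n ih =>
      intro l Q T hT
      rw [pow_succ, mul_assoc]
      have := ih l _ _ (X_mul_mem i hT)
      rwa [show Q + 1 + (n : ℤ) = Q + ((n + 1 : ℕ) : ℤ) by push_cast; ring] at this
  have hD : ∀ (i : Fin 2) (n : ℕ) (l Q : ℤ) (T : Op K), T ∈ Fil g l Q →
      D g i ^ n * T ∈ Fil g (l + n) (Q - n) := by
    intro i n
    induction n with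
    | zero => intro l Q T hT; simpa using hT
    | succ n ih =>
      intro l Q T hT
      rw [pow_succ, mul_assoc]
      have := ih _ _ _ (D_mul_mem hg i hT)
      rwa [show Q - 1 - (n : ℤ) = Q - ((n + 1 : ℕ) : ℤ) by push_cast; ring,
        show l + 1 + (n : ℤ) = l + ((n + 1 : ℕ) : ℤ) by push_cast; ring] at this
  rw [Fil_eq_m1] at hS
  induction hS using Submodule.span_induction with
  | mem x hx =>
    obtain ⟨⟨⟨a1, a2⟩, b1, b2⟩, ⟨h1, h2⟩, rfl⟩ := hx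
    simp only at h1 h2
    have h3 := hX 0 a1 _ _ _ (hX 1 a2 _ _ _ (hD 0 b1 _ _ _ (hD 1 b2 _ _ _ hT)))
    have h4 : m1 g ((a1, a2), (b1, b2)) * T =
        X 0 ^ a1 * (X 1 ^ a2 * (D g 0 ^ b1 * (D g 1 ^ b2 * T))) := by
      show X 0 ^ a1 * X 1 ^ a2 * D g 0 ^ b1 * D g 1 ^ b2 * T = _
      simp only [mul_assoc]
    rw [h4]
    have h5 : l + (b2 : ℤ) + b1 ≤ k + l := by omega
    have h6 := Fil_mono g h5 h3
    rwa [show Q - (b2 : ℤ) - b1 + a2 + a1 = P + Q by omega] at h6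
  | zero => rw [zero_mul]; exact zero_mem _
  | add x y _ _ hx hy => rw [add_mul]; exact add_mem hx hy
  | smul c x _ hx => rw [smul_mul_assoc]; exact Submodule.smul_mem _ _ hx

theorem Sx_finite (k P : ℤ) : (Sx k P).Finite := by
  have h : Sx k P ⊆ (Set.Iic (k + P).toNat ×ˢ Set.Iic (k + P).toNat) ×ˢ
      (Set.Iic k.toNat ×ˢ Set.Iic k.toNat) := by
    rintro ⟨⟨a1, a2⟩, b1, b2⟩ ⟨h1, h2⟩
    simp only at h1 h2
    simp only [Set.mem_prod, Set.mem_Iic]
    omega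
  exact (((Set.finite_Iic _).prod (Set.finite_Iic _)).prod
    ((Set.finite_Iic _).prod (Set.finite_Iic _))).subset h

theorem Fil_finite (g : K) (k P : ℤ) : Module.Finite K (Fil g k P) := by
  rw [Fil_eq_m1]
  exact Module.Finite.span_of_finite K ((Sx_finite k P).image _)

end Crest.Agent.R186.B281.D3
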