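import Crest.Agent.R186.Cov1_605
import Crest.Agent.R186.FDd_808

/-!
Row 186, S0281 base (helper605): the operators `Op K` with right multiplications, filtered by
`Fil g`, as the abstract Weyl module of `Cov1_605`.
-/

set_option autoImplicit false

namespace Crest.Agent.R186.Cov605

open Crest.Agent.R186.B281 Crest.Agent.R186.B281.D3

variable {K : Type} [Field K]

/-- the right Weyl module `Op K`, `F P A = Fil g A P` -/
noncomputable def wOp {g : K} (hg : Gen g) : Wey K (Op K) where
  g := g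
  hg := hg.1
  lam m := cq g (m : ℤ)
  lam0 := cq_zero g
  lams m := by
    have := cq_pred hg ((m : ℤ) + 1)
    rw [add_sub_cancel_right] at this
    push_cast
    exact this
  lamne m := cq_ne hg (by omega)
  X0 := rm (X 0)
  X1 := rm (X 1)
  D0 := rm (D g 0)
  D1 := rm (D g 1)
  xx m := by rw [rm_apply, rm_apply, rm_apply, rm_apply, mul_assoc, mul_assoc, X_comm]
  dd m := by rw [rm_apply, rm_apply, rm_apply, rm_apply, mul_assoc, mul_assoc, D_comm]
  r00 m := by
    rw [rm_apply, rm_apply, rm_apply, rm_apply, mul_assoc, mul_assoc, X_D_self hg, mul_add, mul_one,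
      mul_smul_comm]
  r11 m := by
    rw [rm_apply, rm_apply, rm_apply, rm_apply, mul_assoc, mul_assoc, X_D_self hg, mul_add, mul_one,
      mul_smul_comm]
  r01 m := by
    rw [rm_apply, rm_apply, rm_apply, rm_apply, mul_assoc, mul_assoc, X_D g (by decide)]
  r10 m := by
    rw [rm_apply, rm_apply, rm_apply, rm_apply, mul_assoc, mul_assoc, X_D g (by decide)]
  F P A := Fil g A P
  mono P A := Fil_mono g (by omega)
  X0F h := mul_X_mem hg 0 h
  X1F h := mul_X_mem hg 1 h
  D0F h := mul_D_mem 0 h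
  D1F h := mul_D_mem 1 h
  X0inj m h := mul_X_inj 0 h
  X1inj m h := mul_X_inj 1 h
  D0inj h h0 := mul_D_inj hg 0 h h0
  kx _ ha hb h := X1r hg ha hb h
  sx hP h := by
    obtain ⟨b, hb, c, hc, e⟩ := X2r hg (by omega) h
    exact ⟨b, hb, c, hc, e⟩
  kd ha hb h := D1r hg ha hb h

section
variable {g : K} (hg : Gen g)

@[simp] theorem wOp_g : (wOp hg).g = g := rfl
@[simp] theorem wOp_lam (m : ℕ) : (wOp hg).lam m = cq g (m : ℤ) := rfl
@[simp] theorem wOp_X0 (T : Op K) : (wOp hg).X0 T = T * X 0 := rfl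
@[simp] theorem wOp_X1 (T : Op K) : (wOp hg).X1 T = T * X 1 := rfl
@[simp] theorem wOp_D0 (T : Op K) : (wOp hg).D0 T = T * D g 0 := rfl
@[simp] theorem wOp_D1 (T : Op K) : (wOp hg).D1 T = T * D g 1 := rfl
@[simp] theorem wOp_F (P A : ℤ) : (wOp hg).F P A = Fil g A P := rfl

end

end Crest.Agent.R186.Cov605
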