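import Mathlib

/-!
Row 186, S0281 base, leaf COV for `s = 1` (helper605): exactness of the four term complex
`O(-2)[n] → K₁'[n]² → K₂[n-1] ⊕ O(-1)[n+1]² → O(0)[n] → V` over an abstract filtered right module
of the (independent) `q`-Weyl algebra.
`[m]` = functions `ℕ → M`, index `i` = coefficient of `x₀^i x₁^(m-i)`, zero for `i > m`.
-/

set_option autoImplicit false

namespace Crest.Agent.R186.Cov605

/-- an abstract right module over the `q`-Weyl algebra: `X0 m = m x₀`, ..., with submodules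
`F P A` (`P` = `x`-degree, `A` = order) satisfying the Koszul facts -/
structure Wey (K M : Type*) [Field K] [AddCommGroup M] [Module K M] where
  g : K
  hg : g ≠ 0
  lam : ℕ → K
  lam0 : lam 0 = 0
  lams : ∀ m, lam m = 1 + g * lam (m + 1)
  lamne : ∀ m, lam (m + 1) ≠ 0
  X0 : M →ₗ[K] M
  X1 : M →ₗ[K] M
  D0 : M →ₗ[K] M
  D1 : M →ₗ[K] M
  xx : ∀ m, X0 (X1 m) = X1 (X0 m)
  dd : ∀ m, D0 (D1 m) = D1 (D0 m)
  r00 : ∀ m, D0 (X0 m) = m + g • X0 (D0 m)
  r11 : ∀ m, D1 (X1 m) = m + g • X1 (D1 m)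
  r01 : ∀ m, D0 (X1 m) = X1 (D0 m)
  r10 : ∀ m, D1 (X0 m) = X0 (D1 m)
  F : ℤ → ℤ → Submodule K M
  mono : ∀ P A, F P A ≤ F P (A + 1)
  X0F : ∀ {P A m}, m ∈ F P A → X0 m ∈ F (P + 1) A
  X1F : ∀ {P A m}, m ∈ F P A → X1 m ∈ F (P + 1) A
  D0F : ∀ {P A m}, m ∈ F P A → D0 m ∈ F (P - 1) (A + 1)
  D1F : ∀ {P A m}, m ∈ F P A → D1 m ∈ F (P - 1) (A + 1)
  X0inj : ∀ m, X0 m = 0 → m = 0
  X1inj : ∀ m, X1 m = 0 → m = 0
  D0inj : ∀ {P A m}, m ∈ F P A → D0 m = 0 → m = 0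
  kx : ∀ {P A a b}, 0 ≤ P → a ∈ F P A → b ∈ F P A → X0 a + X1 b = 0 →
    ∃ n ∈ F (P - 1) A, a = X1 n ∧ b = - X0 n
  sx : ∀ {P A m}, 1 ≤ P → m ∈ F P A → ∃ a ∈ F (P - 1) A, ∃ b ∈ F (P - 1) A, m = X0 a + X1 b
  kd : ∀ {P A a b}, a ∈ F P A → b ∈ F P A → D0 a + D1 b = 0 →
    ∃ e ∈ F (P + 1) (A - 1), a = D1 e ∧ b = - D0 e

/-- shift up -/
def sh {M : Type*} [Zero M] (u : ℕ → M) : ℕ → M
  | 0 => 0
  | i + 1 => u i

@[simp] lemma sh_zero {M : Type*} [Zero M] (u : ℕ → M) : sh u 0 = 0 := rfl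
@[simp] lemma sh_succ {M : Type*} [Zero M] (u : ℕ → M) (i : ℕ) : sh u (i + 1) = u i := rfl

namespace Wey

variable {K M : Type*} [Field K] [AddCommGroup M] [Module K M] (W : Wey K M)

lemma one_lam (m : ℕ) : 1 - W.lam m = - (W.g * W.lam (m + 1)) := by
  rw [W.lams m]; ring

lemma lam_diff (m : ℕ) : W.g ^ (m + 1) * (W.lam m - W.lam (m + 1)) = 1 := by
  induction m with
  | zero =>
    have h := W.lams 0
    rw [W.lam0] at h
    rw [W.lam0]
    linear_combination h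
  | succ m ih =>
    have h1 := W.lams m
    have h2 := W.lams (m + 1)
    rw [h1] at ih
    rw [h2] at ih ⊢
    linear_combination ih

/-- evaluation `M ⊗ S_n → M` -/
def ev (n : ℕ) (u : ℕ → M) : M :=
  ∑ i ∈ Finset.range (n + 1), (W.X1 ^ (n - i)) ((W.X0 ^ i) (u i))

lemma X0_X1pow (k : ℕ) (m : M) : W.X0 ((W.X1 ^ k) m) = (W.X1 ^ k) (W.X0 m) := by
  induction k generalizing m with
  | zero => rfl
  | succ k ih => rw [pow_succ, Module.End.mul_apply, Module.End.mul_apply, ih, W.xx]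

lemma D0_X1pow (k : ℕ) (m : M) : W.D0 ((W.X1 ^ k) m) = (W.X1 ^ k) (W.D0 m) := by
  induction k generalizing m with
  | zero => rfl
  | succ k ih => rw [pow_succ, Module.End.mul_apply, Module.End.mul_apply, ih, W.r01]

lemma D1_X0pow (k : ℕ) (m : M) : W.D1 ((W.X0 ^ k) m) = (W.X0 ^ k) (W.D1 m) := by
  induction k generalizing m with
  | zero => rfl
  | succ k ih => rw [pow_succ, Module.End.mul_apply, Module.End.mul_apply, ih, W.r10]

lemma D0_X0pow (k : ℕ) (m : M) : W.D0 ((W.X0 ^ (k + 1)) m) =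
    W.g ^ (k + 1) • ((W.X0 ^ (k + 1)) (W.D0 m) - W.lam (k + 1) • (W.X0 ^ k) m) := by
  induction k generalizing m with
  | zero =>
    have h := W.lams 0
    rw [W.lam0] at h
    simp only [zero_add, pow_one, pow_zero, Module.End.one_apply]
    rw [W.r00, smul_sub, smul_smul, show W.g * W.lam 1 = -1 by linear_combination -h]
    simp only [neg_smul, one_smul, sub_neg_eq_add]
    abel
  | succ k ih =>
    have h := W.lam_diff (k + 1)
    have e0 : ∀ m, (W.X0 ^ (k + 1 + 1)) m = W.X0 ((W.X0 ^ (k + 1)) m) := fun m => by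
      rw [pow_succ' W.X0 (k + 1), Module.End.mul_apply]
    rw [e0, e0, W.r00, ih]
    simp only [map_smul, map_sub]
    have e : W.X0 ((W.X0 ^ k) m) = (W.X0 ^ (k + 1)) m := by
      rw [pow_succ', Module.End.mul_apply]
    rw [e]
    linear_combination (norm := module) -(h • (W.X0 ^ (k + 1)) m)

lemma D1_X1pow (k : ℕ) (m : M) : W.D1 ((W.X1 ^ (k + 1)) m) =
    W.g ^ (k + 1) • ((W.X1 ^ (k + 1)) (W.D1 m) - W.lam (k + 1) • (W.X1 ^ k) m) := by
  induction k generalizing m with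
  | zero =>
    have h := W.lams 0
    rw [W.lam0] at h
    simp only [zero_add, pow_one, pow_zero, Module.End.one_apply]
    rw [W.r11, smul_sub, smul_smul, show W.g * W.lam 1 = -1 by linear_combination -h]
    simp only [neg_smul, one_smul, sub_neg_eq_add]
    abel
  | succ k ih =>
    have h := W.lam_diff (k + 1)
    have e0 : ∀ m, (W.X1 ^ (k + 1 + 1)) m = W.X1 ((W.X1 ^ (k + 1)) m) := fun m => by
      rw [pow_succ' W.X1 (k + 1), Module.End.mul_apply]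
    rw [e0, e0, W.r11, ih]
    simp only [map_smul, map_sub]
    have e : W.X1 ((W.X1 ^ k) m) = (W.X1 ^ (k + 1)) m := by
      rw [pow_succ', Module.End.mul_apply]
    rw [e]
    linear_combination (norm := module) -(h • (W.X1 ^ (k + 1)) m)

lemma ev_zero (u : ℕ → M) : W.ev 0 u = u 0 := by simp [ev]

lemma ev_succ (n : ℕ) (u : ℕ → M) :
    W.ev (n + 1) u = (W.X1 ^ (n + 1)) (u 0) + W.X0 (W.ev n (fun i => u (i + 1))) := by
  unfold ev
  rw [Finset.sum_range_succ', map_sum, add_comm]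
  simp only [Nat.sub_zero, pow_zero, Module.End.one_apply]
  congr 1
  refine Finset.sum_congr rfl fun i hi => ?_
  rw [X0_X1pow, pow_succ' W.X0, Module.End.mul_apply, Nat.add_sub_add_right]

lemma ev_add (n : ℕ) (u v : ℕ → M) : W.ev n (fun i => u i + v i) = W.ev n u + W.ev n v := by
  simp [ev, Finset.sum_add_distrib]

lemma ev_sub (n : ℕ) (u v : ℕ → M) : W.ev n (fun i => u i - v i) = W.ev n u - W.ev n v := by
  simp [ev, Finset.sum_sub_distrib]

lemma ev_mem {P A : ℤ} (n : ℕ) (u : ℕ → M) (hu : ∀ i, i ≤ n → u i ∈ W.F P A) :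
    W.ev n u ∈ W.F (P + n) A := by
  induction n generalizing u with
  | zero => rw [ev_zero]; simpa using hu 0 le_rfl
  | succ n ih =>
    rw [ev_succ]
    have h1 : ∀ k : ℕ, ∀ m, m ∈ W.F P A → (W.X1 ^ k) m ∈ W.F (P + k) A := by
      intro k
      induction k with
      | zero => intro m hm; simpa using hm
      | succ k ihk =>
        intro m hm
        have := W.X1F (ihk m hm)
        rw [pow_succ', Module.End.mul_apply]
        push_cast
        rw [← add_assoc]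
        exact this
    refine Submodule.add_mem _ (h1 (n + 1) _ (hu 0 (Nat.zero_le _))) ?_
    have := W.X0F (ih (fun i => u (i + 1)) (fun i hi => hu (i + 1) (by omega)))
    push_cast
    rw [← add_assoc]
    exact this

/-- the Beilinson map -/
def B (ν : ℕ → M) (i : ℕ) : M := W.X0 (ν i) - W.X1 (sh ν i)

/-- powers of `X1` in the Koszul relation -/
lemma X1pow_koszul {P A : ℤ} (hP : 0 ≤ P) (k : ℕ) : ∀ {a b : M}, a ∈ W.F P A →
    b ∈ W.F (P + k) A → W.X0 b + (W.X1 ^ (k + 1)) a = 0 → ∃ ν ∈ W.F (P - 1) A, a = W.X0 ν := by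
  induction k with
  | zero =>
    intro a b ha hb h
    obtain ⟨n, hn, -, h2⟩ := W.kx hP (by simpa using hb) ha (by simpa using h)
    exact ⟨-n, Submodule.neg_mem _ hn, by rw [h2, map_neg]⟩
  | succ k ih =>
    intro a b ha hb h
    rw [pow_succ', Module.End.mul_apply] at h
    have hm : (W.X1 ^ (k + 1)) a ∈ W.F (P + ((k + 1 : ℕ) : ℤ)) A := by
      have h1 : ∀ k : ℕ, ∀ m, m ∈ W.F P A → (W.X1 ^ k) m ∈ W.F (P + k) A := by
        intro k
        induction k with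
        | zero => intro m hm; simpa using hm
        | succ k ihk =>
          intro m hm
          have := W.X1F (ihk m hm)
          rw [pow_succ', Module.End.mul_apply]
          push_cast
          rw [← add_assoc]
          exact this
      exact h1 (k + 1) a ha
    obtain ⟨n, hn, -, h2⟩ := W.kx (by positivity) hb hm h
    refine ih ha (b := n) ?_ ?_
    · have : P + ((k + 1 : ℕ) : ℤ) - 1 = P + k := by push_cast; ring
      rwa [this] at hn
    · rw [h2]; simp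

theorem beil_ker {P A : ℤ} (hP : 0 ≤ P) (n : ℕ) : ∀ (u : ℕ → M), (∀ i, i ≤ n → u i ∈ W.F P A) →
    W.ev n u = 0 → ∃ ν : ℕ → M, (∀ i, ν i ∈ W.F (P - 1) A) ∧ (∀ i, n ≤ i → ν i = 0) ∧
      ∀ i, i ≤ n → u i = W.B ν i := by
  induction n with
  | zero =>
    intro u hu h
    refine ⟨fun _ => 0, fun _ => Submodule.zero_mem _, fun _ _ => rfl, fun i hi => ?_⟩
    obtain rfl : i = 0 := by omega
    rw [ev_zero] at h
    simp [B, h]
  | succ n ih =>
    intro u hu h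
    rw [ev_succ, add_comm] at h
    have hb : W.ev n (fun i => u (i + 1)) ∈ W.F (P + n) A :=
      W.ev_mem n _ fun i hi => hu (i + 1) (by omega)
    obtain ⟨ν0, hν0, h0⟩ := W.X1pow_koszul hP n (hu 0 (Nat.zero_le _)) hb h
    -- subtract
    let u' : ℕ → M := fun i => u (i + 1) + (if i = 0 then W.X1 ν0 else 0)
    have hev : W.ev n u' = 0 := by
      apply W.X0inj
      have e1 : W.ev n u' = W.ev n (fun i => u (i + 1)) + (W.X1 ^ (n + 1)) ν0 := by
        rw [show u' = fun i => u (i + 1) + (if i = 0 then W.X1 ν0 else 0) from rfl, ev_add]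
        congr 1
        unfold ev
        rw [Finset.sum_eq_single 0]
        · simp only [Nat.sub_zero, pow_zero, Module.End.one_apply, if_true]
          rw [pow_succ, Module.End.mul_apply]
        · intro i _ hi
          simp [hi]
        · simp
      rw [e1, map_add, X0_X1pow, ← h0]
      exact h
    obtain ⟨ν, hν, hz, hB⟩ := ih u' (fun i hi => by
      refine Submodule.add_mem _ (hu (i + 1) (by omega)) ?_
      split_ifs
      · have := W.X1F hν0
        rwa [sub_add_cancel] at this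
      · exact Submodule.zero_mem _) hev
    refine ⟨fun i => match i with
      | 0 => ν0
      | i + 1 => ν i, fun i => ?_, fun i hi => ?_, fun i hi => ?_⟩
    · rcases i with _ | i
      · exact hν0
      · exact hν i
    · rcases i with _ | i
      · omega
      · exact hz i (by omega)
    · rcases i with _ | i
      · simp [B, h0]
      · have := hB i (by omega)
        rcases i with _ | i
        · simp only [B, sh_succ, sh_zero, map_zero, sub_zero, u', if_true, zero_add] at this ⊢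
          rw [← this]; abel
        · simp only [B, sh_succ, u', Nat.add_eq_zero_iff, one_ne_zero, and_false, if_false,
            add_zero] at this ⊢
          exact this

lemma ev_B (n : ℕ) (ν : ℕ → M) (hν : ∀ i, n ≤ i → ν i = 0) : W.ev n (W.B ν) = 0 := by
  unfold ev B
  have : ∀ i ∈ Finset.range (n + 1), (W.X1 ^ (n - i)) ((W.X0 ^ i) (W.X0 (ν i) - W.X1 (sh ν i)))
      = (W.X1 ^ (n - i)) ((W.X0 ^ (i + 1)) (ν i)) - (W.X1 ^ (n + 1 - i)) ((W.X0 ^ i) (sh ν i)) := by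
    intro i hi
    rw [Finset.mem_range] at hi
    have hc : ∀ m, (W.X0 ^ i) (W.X1 m) = W.X1 ((W.X0 ^ i) m) := by
      intro m
      have := (Commute.pow_left (show Commute W.X0 W.X1 from LinearMap.ext W.xx) i)
      exact LinearMap.congr_fun this m
    rw [map_sub, map_sub, hc, show n + 1 - i = (n - i) + 1 by omega, pow_succ W.X1,
      Module.End.mul_apply, pow_succ W.X0, Module.End.mul_apply]
  rw [Finset.sum_congr rfl this, Finset.sum_sub_distrib]
  rw [Finset.sum_range_succ (n := n), hν n le_rfl]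
  rw [Finset.sum_range_succ' (n := n)]
  simp only [map_zero, add_zero, sh_zero, sh_succ]
  rw [sub_eq_zero]
  refine Finset.sum_congr rfl fun i hi => ?_
  rw [Nat.add_sub_add_right]

lemma B_inj (n : ℕ) (ν : ℕ → M) (hν : ∀ i, n ≤ i → ν i = 0) (h : ∀ i, i ≤ n → W.B ν i = 0) :
    ∀ i, ν i = 0 := by
  intro i
  induction i with
  | zero =>
    have := h 0 (Nat.zero_le _)
    simp only [B, sh_zero, map_zero, sub_zero] at this
    exact W.X0inj _ this
  | succ i ih =>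
    rcases le_or_gt n (i + 1) with h1 | h1
    · exact hν _ h1
    · have := h (i + 1) h1.le
      simp only [B, sh_succ, ih, map_zero, sub_zero] at this
      exact W.X0inj _ this

theorem beil_surj {P A : ℤ} (hP : 0 ≤ P) (n : ℕ) : ∀ m ∈ W.F (P + n) A, ∃ u : ℕ → M,
    (∀ i, u i ∈ W.F P A) ∧ (∀ i, n < i → u i = 0) ∧ W.ev n u = m := by
  induction n with
  | zero =>
    intro m hm
    refine ⟨fun i => if i = 0 then m else 0, fun i => ?_, fun i hi => ?_, ?_⟩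
    · dsimp only
      split_ifs
      · simpa using hm
      · exact Submodule.zero_mem _
    · dsimp only
      rw [if_neg (by omega)]
    · rw [ev_zero]; simp
  | succ n ih =>
    intro m hm
    have hm' : m ∈ W.F (P + n + 1) A := by push_cast at hm; rwa [← add_assoc] at hm
    obtain ⟨a, ha, b, hb, rfl⟩ := W.sx (by omega) hm'
    rw [add_sub_cancel_right] at ha hb
    obtain ⟨u, hu, hu0, rfl⟩ := ih a ha
    obtain ⟨v, hv, hv0, rfl⟩ := ih b hb
    refine ⟨fun i => sh u i + v i, fun i => ?_, fun i hi => ?_, ?_⟩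
    · refine Submodule.add_mem _ ?_ (hv i)
      rcases i with _ | i
      · exact Submodule.zero_mem _
      · exact hu i
    · rcases i with _ | i
      · omega
      · dsimp only
        rw [sh_succ, hu0 i (by omega), hv0 _ (by omega), add_zero]
    · rw [ev_add]
      congr 1
      · rw [ev_succ]; simp
      · unfold ev
        rw [Finset.sum_range_succ, hv0 (n + 1) (by omega)]
        simp only [map_zero, add_zero]
        rw [map_sum]
        refine Finset.sum_congr rfl fun i hi => ?_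
        rw [Finset.mem_range] at hi
        rw [show n + 1 - i = (n - i) + 1 by omega, pow_succ', Module.End.mul_apply]

/-! ### the maps -/

/-- `c = a x₀ + b x₁` -/
def cc (a b : ℕ → M) (i : ℕ) : M := W.X0 (a i) + W.X1 (b i)

/-- `d1` on `K₂ [n-1]` -/
def d1K (a b : ℕ → M) (i : ℕ) : M :=
  (W.lam i)⁻¹ • W.D0 (sh (W.cc a b) i) - sh a i - b i

/-- `d1` on `O(-1) [n+1]`, slot `0` -/
def d1q0 (q : ℕ → M) (i : ℕ) : M :=
  W.X0 (W.D0 (q (i + 1))) - W.lam (i + 1) • q (i + 1) + (if i = 0 then W.X1 (W.D0 (q 0)) else 0)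

/-- `d1` on `O(-1) [n+1]`, slot `1` -/
def d1q1 (n : ℕ) (q : ℕ → M) (i : ℕ) : M :=
  W.X0 (W.D1 (q (i + 1))) - W.lam (n + 1 - i) • q i + (if i = 0 then W.X1 (W.D1 (q 0)) else 0)

/-- `d2`, slot `0`: the two components in `K₂ [n-1]` and the two in `O(-1) [n+1]` -/
def d20a (a b : ℕ → M) (i : ℕ) : M := - W.lam (i + 1) • a (i + 1) - W.X1 (W.D0 (b (i + 1)))
def d20b (_a b : ℕ → M) (i : ℕ) : M := - W.lam (i + 1) • b (i + 1) + W.X0 (W.D0 (b (i + 1)))
def d20q0 (n : ℕ) (a b : ℕ → M) (i : ℕ) : M :=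
  W.g • sh a i + b i - (if i = 0 then (W.lam (n + 1))⁻¹ • W.D1 (W.cc a b 0) else 0)
def d20q1 (n : ℕ) (a b : ℕ → M) (i : ℕ) : M :=
  if i = 0 then (W.lam (n + 1))⁻¹ • W.D0 (W.cc a b 0) else 0

/-- `d2`, slot `1` -/
def d21a (n : ℕ) (a b : ℕ → M) (i : ℕ) : M :=
  - W.lam (n - i) • a i - W.g • W.X1 (W.D1 (b (i + 1)))
def d21b (n : ℕ) (_a b : ℕ → M) (i : ℕ) : M :=
  - W.lam (n - i) • b i + W.g • W.X0 (W.D1 (b (i + 1)))
def d21q0 (a b : ℕ → M) (i : ℕ) : M := (W.lam i)⁻¹ • W.D1 (sh (W.cc a b) i)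
def d21q1 (a b : ℕ → M) (i : ℕ) : M :=
  sh a i + W.g • b i - (W.lam i)⁻¹ • W.D0 (sh (W.cc a b) i)

/-- `d3` -/
def d30a (n : ℕ) (e : ℕ → M) (i : ℕ) : M := W.X1 (W.D1 (e i)) - W.lam (n + 1 - i) • e i
def d30b (n : ℕ) (e : ℕ → M) (i : ℕ) : M := - W.X0 (W.D1 (e i)) + W.lam (n + 1 - i) • sh e i
def d31a (e : ℕ → M) (i : ℕ) : M := - W.X1 (W.D0 (e i)) + W.lam (i + 1) • e (i + 1)
def d31b (e : ℕ → M) (i : ℕ) : M := W.X0 (W.D0 (e i)) - W.lam (i + 1) • e i

/-! ### evaluation of `d1` -/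

lemma hgi (k : ℕ) : W.g ^ k * (W.g⁻¹) ^ k = 1 := by
  rw [← mul_pow, mul_inv_cancel₀ W.hg, one_pow]

lemma D0_term (i : ℕ) (m : M) : W.D0 ((W.X0 ^ (i + 1)) ((W.g⁻¹) ^ (i + 1) • m)) =
    (W.X0 ^ (i + 1)) (W.D0 m) - W.lam (i + 1) • (W.X0 ^ i) m := by
  rw [map_smul, map_smul, D0_X0pow, smul_smul, mul_comm, hgi, one_smul]

lemma D1_term (i : ℕ) (m : M) : W.D1 ((W.X1 ^ (i + 1)) ((W.g⁻¹) ^ (i + 1) • m)) =
    (W.X1 ^ (i + 1)) (W.D1 m) - W.lam (i + 1) • (W.X1 ^ i) m := by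
  rw [map_smul, map_smul, D1_X1pow, smul_smul, mul_comm, hgi, one_smul]

lemma X0pow_X1pow (i j : ℕ) (m : M) : (W.X0 ^ i) ((W.X1 ^ j) m) = (W.X1 ^ j) ((W.X0 ^ i) m) := by
  have : Commute (W.X0 ^ i) (W.X1 ^ j) :=
    (show Commute W.X0 W.X1 from LinearMap.ext W.xx).pow_pow i j
  exact LinearMap.congr_fun this m

lemma ev_d1q0 (n : ℕ) (q : ℕ → M) :
    W.ev n (W.d1q0 q) = W.D0 (W.ev (n + 1) (fun i => (W.g⁻¹) ^ i • q i)) := by
  have h1 : W.ev n (W.d1q0 q) = W.ev n (fun i => W.X0 (W.D0 (q (i + 1))) - W.lam (i + 1) • q (i + 1))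
      + (W.X1 ^ (n + 1)) (W.D0 (q 0)) := by
    unfold d1q0
    rw [ev_add]
    congr 1
    unfold ev
    rw [Finset.sum_eq_single 0]
    · simp only [Nat.sub_zero, pow_zero, Module.End.one_apply, if_true]
      rw [pow_succ, Module.End.mul_apply]
    · intro i _ hi
      simp [hi]
    · simp
  rw [h1]
  unfold ev
  rw [map_sum, Finset.sum_range_succ' (n := n + 1)]
  congr 1
  · refine Finset.sum_congr rfl fun i hi => ?_
    rw [D0_X1pow, D0_term, Nat.add_sub_add_right, map_sub, map_smul, pow_succ W.X0,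
      Module.End.mul_apply]
  · simp only [Nat.sub_zero, pow_zero, Module.End.one_apply, one_smul]
    rw [D0_X1pow]

lemma ev_d1q1 (n : ℕ) (q : ℕ → M) :
    W.ev n (W.d1q1 n q) = W.D1 (W.ev (n + 1) (fun i => (W.g⁻¹) ^ (n + 1 - i) • q i)) := by
  have h1 : W.ev n (W.d1q1 n q) = W.ev n (fun i => W.X0 (W.D1 (q (i + 1))) -
      W.lam (n + 1 - i) • q i) + (W.X1 ^ (n + 1)) (W.D1 (q 0)) := by
    unfold d1q1
    rw [ev_add]
    congr 1
    unfold ev
    rw [Finset.sum_eq_single 0]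
    · simp only [Nat.sub_zero, pow_zero, Module.End.one_apply, if_true]
      rw [pow_succ, Module.End.mul_apply]
    · intro i _ hi
      simp [hi]
    · simp
  rw [h1, ev_sub]
  have h2 : W.D1 (W.ev (n + 1) (fun i => (W.g⁻¹) ^ (n + 1 - i) • q i)) =
      (∑ i ∈ Finset.range (n + 2), (W.X1 ^ (n + 1 - i)) ((W.X0 ^ i) (W.D1 (q i)))) -
      ∑ i ∈ Finset.range (n + 1), (W.X1 ^ (n - i)) ((W.X0 ^ i) (W.lam (n + 1 - i) • q i)) := by
    unfold ev
    rw [map_sum, Finset.sum_range_succ, Finset.sum_range_succ (n := n + 1), add_sub_right_comm,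
      ← Finset.sum_sub_distrib]
    congr 1
    · refine Finset.sum_congr rfl fun i hi => ?_
      rw [Finset.mem_range] at hi
      dsimp only
      rw [show n + 1 - i = (n - i) + 1 by omega, ← X0pow_X1pow, D1_X0pow, D1_term, map_sub,
        map_smul, X0pow_X1pow, X0pow_X1pow, map_smul, map_smul]
    · simp only [Nat.sub_self, pow_zero, Module.End.one_apply, one_smul]
      rw [D1_X0pow]
  rw [h2, Finset.sum_range_succ' (n := n + 1)]
  simp only [Nat.sub_zero, pow_zero, Module.End.one_apply, Nat.add_sub_add_right]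
  unfold ev
  have h3 : ∀ i, (W.X0 ^ (i + 1)) (W.D1 (q (i + 1))) = (W.X0 ^ i) (W.X0 (W.D1 (q (i + 1)))) := by
    intro i
    rw [pow_succ, Module.End.mul_apply]
  simp only [h3]
  abel

lemma ev_d1K (n : ℕ) (a b : ℕ → M) (hb : ∀ i, n ≤ i → b i = 0) :
    W.ev n (W.d1K a b) =
      W.D0 (W.ev n (fun i => (W.g⁻¹) ^ i • ((W.lam i)⁻¹ • sh (W.cc a b) i))) := by
  rcases n with _ | n
  · rw [ev_zero, ev_zero]
    simp [d1K, hb 0 (Nat.zero_le _)]
  unfold d1K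
  rw [ev_sub, ev_sub]
  have h2 : W.D0 (W.ev (n + 1) (fun i => (W.g⁻¹) ^ i • ((W.lam i)⁻¹ • sh (W.cc a b) i))) =
      W.ev (n + 1) (fun i => (W.lam i)⁻¹ • W.D0 (sh (W.cc a b) i)) -
      ∑ i ∈ Finset.range (n + 1), (W.X1 ^ (n - i)) ((W.X0 ^ i) (W.cc a b i)) := by
    unfold ev
    rw [map_sum, Finset.sum_range_succ' (n := n + 1), Finset.sum_range_succ' (n := n + 1)]
    simp only [sh_zero, sh_succ, smul_zero, map_zero, add_zero]
    rw [← Finset.sum_sub_distrib]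
    refine Finset.sum_congr rfl fun i hi => ?_
    rw [D0_X1pow, D0_term, Nat.add_sub_add_right, map_sub, map_smul]
    simp only [map_smul, smul_smul]
    rw [mul_inv_cancel₀ (W.lamne i), one_smul]
  rw [h2]
  have h3 : ∑ i ∈ Finset.range (n + 1), (W.X1 ^ (n - i)) ((W.X0 ^ i) (W.cc a b i)) =
      W.ev (n + 1) (sh a) + W.ev (n + 1) b := by
    unfold ev cc
    rw [Finset.sum_range_succ' (n := n + 1), Finset.sum_range_succ (n := n + 1),
      hb (n + 1) le_rfl]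
    simp only [sh_zero, sh_succ, map_zero, add_zero, map_add]
    rw [Finset.sum_add_distrib]
    congr 1
    · refine Finset.sum_congr rfl fun i hi => ?_
      rw [Nat.add_sub_add_right, pow_succ, Module.End.mul_apply]
    · refine Finset.sum_congr rfl fun i hi => ?_
      rw [Finset.mem_range] at hi
      rw [show n + 1 - i = (n - i) + 1 by omega, pow_succ W.X1, Module.End.mul_apply]
      congr 1
      exact (LinearMap.congr_fun ((show Commute W.X0 W.X1 from LinearMap.ext W.xx).pow_left i)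
        (b i))
  rw [h3]
  abel

/-! ### `d1 ∘ d2 = 0` -/

/-- the total `d1` -/
def d1 (n : ℕ) (a b q0 q1 : ℕ → M) (i : ℕ) : M := W.d1K a b i + W.d1q0 q0 i + W.d1q1 n q1 i

lemma d1_add (n : ℕ) (a b q0 q1 a' b' q0' q1' : ℕ → M) (i : ℕ) :
    W.d1 n (fun i => a i + a' i) (fun i => b i + b' i) (fun i => q0 i + q0' i)
      (fun i => q1 i + q1' i) i = W.d1 n a b q0 q1 i + W.d1 n a' b' q0' q1' i := by
  unfold d1 d1K d1q0 d1q1 cc
  rcases i with _ | i
  · simp only [sh_zero, map_add, smul_add, smul_zero, map_zero, if_true]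
    abel
  · simp only [sh_succ, map_add, smul_add, if_neg (Nat.succ_ne_zero i)]
    abel

lemma d1_sub (n : ℕ) (a b q0 q1 a' b' q0' q1' : ℕ → M) (i : ℕ) :
    W.d1 n (fun i => a i - a' i) (fun i => b i - b' i) (fun i => q0 i - q0' i)
      (fun i => q1 i - q1' i) i = W.d1 n a b q0 q1 i - W.d1 n a' b' q0' q1' i := by
  unfold d1 d1K d1q0 d1q1 cc
  rcases i with _ | i
  · simp only [sh_zero, map_add, map_sub, smul_sub, smul_add, smul_zero, map_zero, if_true]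
    abel
  · simp only [sh_succ, map_add, map_sub, smul_sub, smul_add, if_neg (Nat.succ_ne_zero i)]
    abel

theorem d1_d20 (n : ℕ) (a b : ℕ → M) (i : ℕ) :
    W.d1 n (W.d20a a b) (W.d20b a b) (W.d20q0 n a b) (W.d20q1 n a b) i = 0 := by
  have hl := W.lamne n
  rcases i with _ | i
  · have h0 := W.lams 0
    rw [W.lam0] at h0
    simp only [d1, d1K, d1q0, d1q1, cc, d20a, d20b, d20q0, d20q1, sh_zero, sh_succ, map_add,
      map_sub, map_smul, map_neg, smul_zero, map_zero, if_true, W.r00, W.r11, W.r01, W.r10,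
      Nat.add_eq_zero_iff, one_ne_zero, and_false, if_false, Nat.sub_zero, smul_add, smul_sub,
      neg_smul, smul_neg, smul_smul, mul_inv_cancel₀ hl, one_smul, W.dd, W.xx, sub_zero, zero_add,
      add_zero]
    linear_combination (norm := (match_scalars <;> (try field_simp) <;> (try ring))) h0 • a 0
  · have h0 := W.lams i
    have h1 := W.lams (i + 1)
    have hi := W.lamne i
    simp only [d1, d1K, d1q0, d1q1, cc, d20a, d20b, d20q0, d20q1, sh_zero, sh_succ, map_add,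
      map_sub, map_smul, map_neg, smul_zero, map_zero, W.r00, W.r11, W.r01, W.r10,
      Nat.add_eq_zero_iff, one_ne_zero, and_false, if_false, smul_add, smul_sub,
      neg_smul, smul_neg, smul_smul, mul_inv_cancel₀ hl, inv_mul_cancel₀ hi, one_smul, W.dd, W.xx,
      sub_zero, zero_add, add_zero]
    linear_combination (norm := (match_scalars <;> (try field_simp) <;> (try ring))) h1 • a (i + 1)

theorem d1_d21 (n : ℕ) (a b : ℕ → M) (hb : ∀ i, n < i → b i = 0) (i : ℕ) :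
    W.d1 n (W.d21a n a b) (W.d21b n a b) (W.d21q0 a b) (W.d21q1 a b) i = 0 := by
  have hz : W.lam 0 = 0 := W.lam0
  have key : (W.lam (n - i) - 1 - W.g * W.lam (n + 1 - i)) • b i = 0 := by
    rcases le_or_gt i n with h | h
    · rw [show n + 1 - i = (n - i) + 1 by omega]
      have := W.lams (n - i)
      rw [show W.lam (n - i) - 1 - W.g * W.lam (n - i + 1) = 0 by linear_combination this, zero_smul]
    · rw [hb i h, smul_zero]
  rcases i with _ | i
  · have hi := W.lamne 0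
    have hi1 : W.lam 1 ≠ 0 := hi
    simp only [d1, d1K, d1q0, d1q1, cc, d21a, d21b, d21q0, d21q1, sh_zero, sh_succ, map_add,
      map_sub, map_smul, map_neg, smul_zero, map_zero, if_true, W.r00, W.r11, W.r01, W.r10,
      smul_add, smul_sub, neg_smul, smul_neg, smul_smul, mul_inv_cancel₀ hi, one_smul, W.dd, W.xx,
      sub_zero, zero_add, add_zero]
    simp only [sub_smul, one_smul] at key
    linear_combination (norm := (match_scalars <;> (try field_simp) <;> (try ring))) key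
  · have hi := W.lamne i
    have hi2 := W.lamne (i + 1)
    simp only [d1, d1K, d1q0, d1q1, cc, d21a, d21b, d21q0, d21q1, sh_zero, sh_succ, map_add,
      map_sub, map_smul, map_neg, smul_zero, map_zero, W.r00, W.r11, W.r01, W.r10,
      if_neg (Nat.succ_ne_zero i), Nat.add_sub_add_right,
      smul_add, smul_sub, neg_smul, smul_neg, smul_smul, mul_inv_cancel₀ hi,
      mul_inv_cancel₀ hi2, one_smul, W.dd, W.xx,
      sub_zero, zero_add, add_zero]
    simp only [sub_smul, one_smul, Nat.add_sub_add_right] at key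
    linear_combination (norm := (match_scalars <;> (try field_simp) <;> (try ring))) key

/-! ### `d2 ∘ d3 = 0` -/

theorem d2_d3_a (n : ℕ) (e : ℕ → M) (i : ℕ) :
    W.d20a (W.d30a n e) (W.d30b n e) i + W.d21a n (W.d31a e) (W.d31b e) i = 0 := by
  have h1 := W.lams (i + 1)
  simp only [d20a, d21a, d30a, d30b, d31a, d31b, sh_succ, map_add,
    map_sub, map_smul, map_neg, W.r00, W.r11, W.r01, W.r10, Nat.add_sub_add_right,
    smul_add, smul_sub, neg_smul, smul_neg, smul_smul, W.dd, W.xx]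
  linear_combination (norm := (match_scalars <;> (try field_simp) <;> (try ring)))
    -(h1 • W.X1 (W.D1 (e (i + 1))))

theorem d2_d3_b (n : ℕ) (e : ℕ → M) (i : ℕ) :
    W.d20b (W.d30a n e) (W.d30b n e) i + W.d21b n (W.d31a e) (W.d31b e) i = 0 := by
  have h1 := W.lams (i + 1)
  have h0 := W.lams i
  simp only [d20b, d21b, d30b, d31b, sh_succ, map_add,
    map_sub, map_smul, map_neg, W.r00, W.r11, W.r01, W.r10, Nat.add_sub_add_right,
    smul_add, smul_sub, neg_smul, smul_neg, smul_smul, W.dd, W.xx]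
  linear_combination (norm := (match_scalars <;> (try field_simp) <;> (try ring)))
    (h1 • W.X0 (W.D1 (e (i + 1))))

theorem d2_d3_q0 (n : ℕ) (e : ℕ → M) (he : ∀ i, n < i → e i = 0) (i : ℕ) :
    W.d20q0 n (W.d30a n e) (W.d30b n e) i + W.d21q0 (W.d31a e) (W.d31b e) i = 0 := by
  have hl := W.lamne n
  have key : ∀ i, (W.lam (n - i) - 1 - W.g * W.lam (n + 1 - i)) • e i = 0 := by
    intro i
    rcases le_or_gt i n with h | h
    · rw [show n + 1 - i = (n - i) + 1 by omega]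
      have := W.lams (n - i)
      rw [show W.lam (n - i) - 1 - W.g * W.lam (n - i + 1) = 0 by linear_combination this, zero_smul]
    · rw [he i h, smul_zero]
  rcases i with _ | i
  · simp only [d20q0, d21q0, d30a, d30b, cc, sh_zero, map_add,
      map_sub, map_smul, map_neg, W.r00, W.r11, W.r01, W.r10, Nat.sub_zero, if_true,
      smul_add, smul_sub, smul_neg, smul_smul, W.dd, W.xx, smul_zero, map_zero]
    match_scalars <;> (try field_simp) <;> (try ring)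
  · have hi := W.lamne i
    have k := key i
    simp only [d20q0, d21q0, d30a, d30b, d31a, d31b, cc, sh_succ, map_add,
      map_sub, map_smul, map_neg, W.r00, W.r11, W.r01, W.r10, Nat.add_sub_add_right,
      if_neg (Nat.succ_ne_zero i),
      smul_add, smul_sub, neg_smul, smul_neg, smul_smul, W.dd, W.xx, sub_zero]
    simp only [sub_smul, one_smul] at k
    linear_combination (norm := (match_scalars <;> (try field_simp) <;> (try ring))) k

theorem d2_d3_q1 (n : ℕ) (e : ℕ → M) (i : ℕ) :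
    W.d20q1 n (W.d30a n e) (W.d30b n e) i + W.d21q1 (W.d31a e) (W.d31b e) i = 0 := by
  have hl := W.lamne n
  rcases i with _ | i
  · have h0 := W.lams 0
    rw [W.lam0] at h0
    simp only [d20q1, d21q1, d30a, d30b, d31a, d31b, cc, sh_zero, map_add,
      map_sub, map_smul, map_neg, W.r00, W.r11, W.r01, W.r10, Nat.sub_zero, if_true,
      smul_add, smul_sub, smul_neg, smul_smul, W.dd, W.xx, smul_zero, map_zero]
    linear_combination (norm := (match_scalars <;> (try field_simp) <;> (try ring))) (h0 • e 0)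
  · have hi := W.lamne i
    have h1 := W.lams (i + 1)
    simp only [d20q1, d21q1, d30a, d30b, d31a, d31b, cc, sh_succ, map_add,
      map_sub, map_smul, map_neg, W.r00, W.r11, W.r01, W.r10, Nat.add_sub_add_right,
      if_neg (Nat.succ_ne_zero i),
      smul_add, smul_sub, neg_smul, smul_neg, smul_smul, W.dd, W.xx, sub_zero]
    linear_combination (norm := (match_scalars <;> (try field_simp) <;> (try ring)))
      (h1 • e (i + 1))

/-! ### four-component notation -/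

/-- `d2` on `(a⁰, b⁰, a¹, b¹)`, values `(κa, κb, q⁰, q¹)` -/
def d2 (n : ℕ) (η : Fin 4 → ℕ → M) : Fin 4 → ℕ → M :=
  ![fun i => W.d20a (η 0) (η 1) i + W.d21a n (η 2) (η 3) i,
    fun i => W.d20b (η 0) (η 1) i + W.d21b n (η 2) (η 3) i,
    fun i => W.d20q0 n (η 0) (η 1) i + W.d21q0 (η 2) (η 3) i,
    fun i => W.d20q1 n (η 0) (η 1) i + W.d21q1 (η 2) (η 3) i]

/-- `d1` on `(κa, κb, q⁰, q¹)` -/
def dd1 (n : ℕ) (ξ : Fin 4 → ℕ → M) (i : ℕ) : M := W.d1 n (ξ 0) (ξ 1) (ξ 2) (ξ 3) i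

/-- `d3` -/
def d3 (n : ℕ) (e : ℕ → M) : Fin 4 → ℕ → M :=
  ![W.d30a n e, W.d30b n e, W.d31a e, W.d31b e]

lemma d2_add (n : ℕ) (η θ : Fin 4 → ℕ → M) : W.d2 n (η + θ) = W.d2 n η + W.d2 n θ := by
  funext j i
  fin_cases j <;> rcases i with _ | i <;>
    simp only [d2, d20a, d20b, d20q0, d20q1, d21a, d21b, d21q0, d21q1, cc, Pi.add_apply, sh_zero,
      sh_succ, map_add, smul_add, neg_smul, if_true, if_neg (Nat.succ_ne_zero _), smul_zero,
      map_zero, Fin.zero_eta, Fin.mk_one, Fin.reduceFinMk, Matrix.cons_val, Matrix.cons_val_zero,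
      Matrix.cons_val_one] <;> abel

lemma dd1_sub (n : ℕ) (ξ θ : Fin 4 → ℕ → M) (i : ℕ) :
    W.dd1 n (ξ - θ) i = W.dd1 n ξ i - W.dd1 n θ i :=
  W.d1_sub n _ _ _ _ _ _ _ _ i

lemma dd1_d2 (n : ℕ) (η : Fin 4 → ℕ → M) (h3 : ∀ i, n < i → η 3 i = 0) (i : ℕ) :
    W.dd1 n (W.d2 n η) i = 0 := by
  have := W.d1_add n (W.d20a (η 0) (η 1)) (W.d20b (η 0) (η 1)) (W.d20q0 n (η 0) (η 1))
    (W.d20q1 n (η 0) (η 1)) (W.d21a n (η 2) (η 3)) (W.d21b n (η 2) (η 3)) (W.d21q0 (η 2) (η 3))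
    (W.d21q1 (η 2) (η 3)) i
  rw [W.d1_d20, W.d1_d21 n _ _ h3, add_zero] at this
  exact this

lemma d2_d3 (n : ℕ) (e : ℕ → M) (he : ∀ i, n < i → e i = 0) : W.d2 n (W.d3 n e) = 0 := by
  funext j i
  fin_cases j
  · exact W.d2_d3_a n e i
  · exact W.d2_d3_b n e i
  · exact W.d2_d3_q0 n e he i
  · exact W.d2_d3_q1 n e i

/-! ### lattices -/

def Ok3 (P A : ℤ) (n : ℕ) (e : ℕ → M) : Prop :=
  (∀ i, e i ∈ W.F P (A - 2)) ∧ ∀ i, n < i → e i = 0

def Ok2 (P A : ℤ) (n : ℕ) (η : Fin 4 → ℕ → M) : Prop :=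
  (∀ j i, η j i ∈ W.F P (A - 1)) ∧ (∀ i, W.cc (η 0) (η 1) i ∈ W.F (P + 1) (A - 2)) ∧
    (∀ i, W.cc (η 2) (η 3) i ∈ W.F (P + 1) (A - 2)) ∧ ∀ j i, n < i → η j i = 0

def Ok1 (P A : ℤ) (n : ℕ) (ξ : Fin 4 → ℕ → M) : Prop :=
  (∀ i, ξ 0 i ∈ W.F P A) ∧ (∀ i, ξ 1 i ∈ W.F P A) ∧
    (∀ i, W.cc (ξ 0) (ξ 1) i ∈ W.F (P + 1) (A - 2)) ∧
    (∀ i, ξ 2 i ∈ W.F P (A - 1)) ∧ (∀ i, ξ 3 i ∈ W.F P (A - 1)) ∧
    (∀ i, n ≤ i → ξ 0 i = 0) ∧ (∀ i, n ≤ i → ξ 1 i = 0) ∧
    (∀ i, n + 1 < i → ξ 2 i = 0) ∧ (∀ i, n + 1 < i → ξ 3 i = 0)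

lemma D0c {P A : ℤ} {m : M} (h : m ∈ W.F (P + 1) (A - 2)) : W.D0 m ∈ W.F P (A - 1) := by
  have := W.D0F h
  rwa [show P + 1 - 1 = P by ring, show A - 2 + 1 = A - 1 by ring] at this

lemma D1c {P A : ℤ} {m : M} (h : m ∈ W.F (P + 1) (A - 2)) : W.D1 m ∈ W.F P (A - 1) := by
  have := W.D1F h
  rwa [show P + 1 - 1 = P by ring, show A - 2 + 1 = A - 1 by ring] at this

lemma X0m {P A : ℤ} {m : M} (h : m ∈ W.F (P - 1) A) : W.X0 m ∈ W.F P A := by
  have := W.X0F h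
  rwa [sub_add_cancel] at this

lemma X1m {P A : ℤ} {m : M} (h : m ∈ W.F (P - 1) A) : W.X1 m ∈ W.F P A := by
  have := W.X1F h
  rwa [sub_add_cancel] at this

lemma XD {P A : ℤ} {m : M} (h : m ∈ W.F P (A - 1)) :
    W.X0 (W.D0 m) ∈ W.F P A ∧ W.X0 (W.D1 m) ∈ W.F P A ∧ W.X1 (W.D0 m) ∈ W.F P A ∧
      W.X1 (W.D1 m) ∈ W.F P A := by
  have h0 := W.D0F h
  have h1 := W.D1F h
  rw [sub_add_cancel] at h0 h1
  exact ⟨W.X0m h0, W.X0m h1, W.X1m h0, W.X1m h1⟩

lemma mono1 {P A : ℤ} {m : M} (h : m ∈ W.F P (A - 1)) : m ∈ W.F P A := by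
  have := W.mono P (A - 1) h
  rwa [sub_add_cancel] at this

lemma mono2 {P A : ℤ} {m : M} (h : m ∈ W.F P (A - 2)) : m ∈ W.F P (A - 1) := by
  have := W.mono P (A - 2) h
  rwa [show A - 2 + 1 = A - 1 by ring] at this

lemma sh_mem {P A : ℤ} {u : ℕ → M} (h : ∀ i, u i ∈ W.F P A) (i : ℕ) : sh u i ∈ W.F P A := by
  rcases i with _ | i
  · exact Submodule.zero_mem _
  · exact h i

lemma ite_mem {P A : ℤ} {p : Prop} [Decidable p] {m : M} (h : m ∈ W.F P A) :
    (if p then m else 0) ∈ W.F P A := by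
  split_ifs
  · exact h
  · exact Submodule.zero_mem _

lemma cc_d20 (a b : ℕ → M) (i : ℕ) :
    W.cc (W.d20a a b) (W.d20b a b) i = - W.lam (i + 1) • W.cc a b (i + 1) := by
  simp only [cc, d20a, d20b, map_add, map_sub, map_smul, neg_smul, map_neg, W.xx, smul_add]
  abel

lemma cc_d21 (n : ℕ) (a b : ℕ → M) (i : ℕ) :
    W.cc (W.d21a n a b) (W.d21b n a b) i = - W.lam (n - i) • W.cc a b i := by
  simp only [cc, d21a, d21b, map_add, map_sub, map_smul, neg_smul, map_neg, W.xx, smul_add]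
  abel

lemma cc_add (a b a' b' : ℕ → M) (i : ℕ) :
    W.cc (fun i => a i + a' i) (fun i => b i + b' i) i = W.cc a b i + W.cc a' b' i := by
  simp only [cc, map_add]; abel

lemma cc_sub (a b a' b' : ℕ → M) (i : ℕ) :
    W.cc (fun i => a i - a' i) (fun i => b i - b' i) i = W.cc a b i - W.cc a' b' i := by
  simp only [cc, map_sub]; abel

lemma cc_d2 (n : ℕ) (η : Fin 4 → ℕ → M) (i : ℕ) : W.cc (W.d2 n η 0) (W.d2 n η 1) i =
    - W.lam (i + 1) • W.cc (η 0) (η 1) (i + 1) + - W.lam (n - i) • W.cc (η 2) (η 3) i := by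
  have := W.cc_add (W.d20a (η 0) (η 1)) (W.d20b (η 0) (η 1)) (W.d21a n (η 2) (η 3))
    (W.d21b n (η 2) (η 3)) i
  rw [cc_d20, cc_d21] at this
  exact this

theorem Ok1_d2 {P A : ℤ} {n : ℕ} {η : Fin 4 → ℕ → M} (h : W.Ok2 P A n η) :
    W.Ok1 P A n (W.d2 n η) := by
  obtain ⟨h1, h2, h3, h4⟩ := h
  refine ⟨fun i => ?_, fun i => ?_, fun i => ?_, fun i => ?_, fun i => ?_, fun i hi => ?_,
    fun i hi => ?_, fun i hi => ?_, fun i hi => ?_⟩
  · exact Submodule.add_mem _ (Submodule.sub_mem _ (Submodule.smul_mem _ _ (W.mono1 (h1 _ _)))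
      (W.XD (h1 _ _)).2.2.1) (Submodule.sub_mem _ (Submodule.smul_mem _ _ (W.mono1 (h1 _ _)))
      (Submodule.smul_mem _ _ (W.XD (h1 _ _)).2.2.2))
  · exact Submodule.add_mem _ (Submodule.add_mem _ (Submodule.smul_mem _ _ (W.mono1 (h1 _ _)))
      (W.XD (h1 _ _)).1) (Submodule.add_mem _ (Submodule.smul_mem _ _ (W.mono1 (h1 _ _)))
      (Submodule.smul_mem _ _ (W.XD (h1 _ _)).2.1))
  · rw [cc_d2]
    exact Submodule.add_mem _ (Submodule.smul_mem _ _ (h2 _)) (Submodule.smul_mem _ _ (h3 _))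
  · exact Submodule.add_mem _ (Submodule.sub_mem _ (Submodule.add_mem _
      (Submodule.smul_mem _ _ (W.sh_mem (h1 0) i)) (h1 _ _))
      (W.ite_mem (Submodule.smul_mem _ _ (W.D1c (h2 0)))))
      (Submodule.smul_mem _ _ (W.D1c (W.sh_mem h3 i)))
  · exact Submodule.add_mem _ (W.ite_mem (Submodule.smul_mem _ _ (W.D0c (h2 0))))
      (Submodule.sub_mem _ (Submodule.add_mem _ (W.sh_mem (h1 2) i)
        (Submodule.smul_mem _ _ (h1 _ _))) (Submodule.smul_mem _ _ (W.D0c (W.sh_mem h3 i))))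
  · change W.d20a (η 0) (η 1) i + W.d21a n (η 2) (η 3) i = 0
    rcases eq_or_lt_of_le hi with rfl | hi'
    · simp [d20a, d21a, h4 _ (n + 1) (by omega), W.lam0]
    · simp [d20a, d21a, h4 _ (i + 1) (by omega), h4 _ i hi']
  · change W.d20b (η 0) (η 1) i + W.d21b n (η 2) (η 3) i = 0
    rcases eq_or_lt_of_le hi with rfl | hi'
    · simp [d20b, d21b, h4 _ (n + 1) (by omega), W.lam0]
    · simp [d20b, d21b, h4 _ (i + 1) (by omega), h4 _ i hi']
  · change W.d20q0 n (η 0) (η 1) i + W.d21q0 (η 2) (η 3) i = 0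
    obtain ⟨i, rfl⟩ : ∃ k, i = k + 1 := ⟨i - 1, by omega⟩
    simp [d20q0, d21q0, cc, h4 _ (i + 1) (by omega), h4 _ i (by omega)]
  · change W.d20q1 n (η 0) (η 1) i + W.d21q1 (η 2) (η 3) i = 0
    obtain ⟨i, rfl⟩ : ∃ k, i = k + 1 := ⟨i - 1, by omega⟩
    simp [d20q1, d21q1, cc, h4 _ (i + 1) (by omega), h4 _ i (by omega)]

lemma cc_d30 (n : ℕ) (e : ℕ → M) (i : ℕ) : W.cc (W.d30a n e) (W.d30b n e) i =
    W.lam (n + 1 - i) • (W.X1 (sh e i) - W.X0 (e i)) := by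
  simp only [cc, d30a, d30b, map_add, map_sub, map_smul, map_neg, W.xx, smul_sub]
  abel

lemma cc_d31 (e : ℕ → M) (i : ℕ) : W.cc (W.d31a e) (W.d31b e) i =
    W.lam (i + 1) • (W.X0 (e (i + 1)) - W.X1 (e i)) := by
  simp only [cc, d31a, d31b, map_add, map_sub, map_smul, map_neg, W.xx, smul_sub]
  abel

theorem Ok2_d3 {P A : ℤ} {n : ℕ} {e : ℕ → M} (h : W.Ok3 P A n e) : W.Ok2 P A n (W.d3 n e) := by
  obtain ⟨h1, h4⟩ := h
  have h1' : ∀ i, e i ∈ W.F P (A - 1 - 1) := fun i => by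
    rw [show A - 1 - 1 = A - 2 by ring]; exact h1 i
  refine ⟨fun j i => ?_, fun i => ?_, fun i => ?_, fun j i hi => ?_⟩
  · fin_cases j
    · exact Submodule.sub_mem _ (W.XD (h1' i)).2.2.2 (Submodule.smul_mem _ _ (W.mono2 (h1 i)))
    · exact Submodule.add_mem _ (Submodule.neg_mem _ (W.XD (h1' i)).2.1)
        (Submodule.smul_mem _ _ (W.mono2 (W.sh_mem h1 i)))
    · exact Submodule.add_mem _ (Submodule.neg_mem _ (W.XD (h1' i)).2.2.1)
        (Submodule.smul_mem _ _ (W.mono2 (h1 _)))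
    · exact Submodule.sub_mem _ (W.XD (h1' i)).1 (Submodule.smul_mem _ _ (W.mono2 (h1 i)))
  · change W.cc (W.d30a n e) (W.d30b n e) i ∈ _
    rw [cc_d30]
    exact Submodule.smul_mem _ _ (Submodule.sub_mem _ (W.X1F (W.sh_mem h1 i)) (W.X0F (h1 i)))
  · change W.cc (W.d31a e) (W.d31b e) i ∈ _
    rw [cc_d31]
    exact Submodule.smul_mem _ _ (Submodule.sub_mem _ (W.X0F (h1 _)) (W.X1F (h1 i)))
  · fin_cases j
    · change W.d30a n e i = 0
      simp [d30a, h4 i hi]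
    · change W.d30b n e i = 0
      obtain ⟨i, rfl⟩ : ∃ k, i = k + 1 := ⟨i - 1, by omega⟩
      rcases eq_or_lt_of_le (show n ≤ i by omega) with rfl | hi'
      · simp [d30b, h4 _ hi, W.lam0]
      · simp [d30b, h4 _ hi, h4 _ hi']
    · change W.d31a e i = 0
      simp [d31a, h4 i hi, h4 (i + 1) (by omega)]
    · change W.d31b e i = 0
      simp [d31b, h4 i hi]

theorem dd1_mem {P A : ℤ} {n : ℕ} {ξ : Fin 4 → ℕ → M} (h : W.Ok1 P A n ξ) :
    (∀ i, W.dd1 n ξ i ∈ W.F P A) ∧ ∀ i, n < i → W.dd1 n ξ i = 0 := by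
  obtain ⟨h1, h2, h3, h4, h5, s1, s2, s3, s4⟩ := h
  refine ⟨fun i => ?_, fun i hi => ?_⟩
  · refine Submodule.add_mem _ (Submodule.add_mem _ ?_ ?_) ?_
    · exact Submodule.sub_mem _ (Submodule.sub_mem _ (Submodule.smul_mem _ _
        (W.mono1 (W.D0c (W.sh_mem h3 i)))) (W.sh_mem h1 i)) (h2 i)
    · exact Submodule.add_mem _ (Submodule.sub_mem _ (W.XD (h4 _)).1
        (Submodule.smul_mem _ _ (W.mono1 (h4 _)))) (W.ite_mem (W.XD (h4 0)).2.2.1)
    · exact Submodule.add_mem _ (Submodule.sub_mem _ (W.XD (h5 _)).2.1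
        (Submodule.smul_mem _ _ (W.mono1 (h5 _)))) (W.ite_mem (W.XD (h5 0)).2.2.2)
  · obtain ⟨i, rfl⟩ : ∃ k, i = k + 1 := ⟨i - 1, by omega⟩
    have e4 : W.lam (n + 1 - (i + 1)) • ξ 3 (i + 1) = 0 := by
      rcases eq_or_lt_of_le (show n ≤ i by omega) with rfl | hi'
      · simp [W.lam0]
      · rw [s4 _ (by omega), smul_zero]
    simp [dd1, d1, d1K, d1q0, d1q1, cc, s1 i (by omega), s2 i (by omega), s2 (i + 1) (by omega),
      s3 (i + 2) (by omega), s4 (i + 2) (by omega)]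
    rw [show n - i = n + 1 - (i + 1) by omega]
    exact smul_eq_zero.1 e4

/-! ### evaluation of the last component of `d2` -/

lemma ev_shift (n : ℕ) (u : ℕ → M) (h0 : u 0 = 0) : W.ev (n + 1) u =
    ∑ i ∈ Finset.range (n + 1), (W.X1 ^ (n - i)) ((W.X0 ^ (i + 1)) (u (i + 1))) := by
  unfold ev
  rw [Finset.sum_range_succ', h0]
  simp only [map_zero, add_zero, Nat.add_sub_add_right]

lemma ev_top (n : ℕ) (u : ℕ → M) (h0 : u (n + 1) = 0) : W.ev (n + 1) u =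
    ∑ i ∈ Finset.range (n + 1), (W.X1 ^ (n - i)) ((W.X0 ^ i) (W.X1 (u i))) := by
  unfold ev
  rw [Finset.sum_range_succ, h0]
  simp only [map_zero, add_zero]
  refine Finset.sum_congr rfl fun i hi => ?_
  rw [Finset.mem_range] at hi
  rw [show n + 1 - i = (n - i) + 1 by omega, pow_succ W.X1, Module.End.mul_apply]
  congr 1
  exact ((LinearMap.congr_fun ((show Commute W.X0 W.X1 from LinearMap.ext W.xx).pow_left i)
    (u i))).symm

lemma ev_one (n : ℕ) (m : M) : W.ev n (fun i => if i = 0 then m else 0) = (W.X1 ^ n) m := by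
  unfold ev
  rw [Finset.sum_eq_single 0]
  · simp
  · intro i _ hi
    simp [hi]
  · simp

lemma ev_smul (n : ℕ) (c : K) (u : ℕ → M) : W.ev n (fun i => c • u i) = c • W.ev n u := by
  simp [ev, Finset.smul_sum]

lemma ev_tau1 (n : ℕ) (η : Fin 4 → ℕ → M) (h3 : η 3 (n + 1) = 0) :
    W.ev (n + 1) (fun i => (W.g⁻¹) ^ (n + 1 - i) • W.d2 n η 3 i) =
      - W.D0 ((W.g⁻¹) ^ (n + 1) • W.ev (n + 1) (fun i => (W.lam i)⁻¹ • sh (W.cc (η 2) (η 3)) i -
        (if i = 0 then (W.lam (n + 1))⁻¹ • W.cc (η 0) (η 1) 0 else 0))) := by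
  have hA : W.ev (n + 1) (fun i => (W.g⁻¹) ^ (n + 1 - i) • W.d2 n η 3 i) =
      (W.g⁻¹) ^ (n + 1) • (W.X1 ^ (n + 1)) ((W.lam (n + 1))⁻¹ • W.D0 (W.cc (η 0) (η 1) 0)) +
      (W.ev (n + 1) (fun i => (W.g⁻¹) ^ (n + 1 - i) • sh (η 2) i) +
       W.ev (n + 1) (fun i => (W.g⁻¹) ^ (n + 1 - i) • W.g • η 3 i) -
       W.ev (n + 1) (fun i => (W.g⁻¹) ^ (n + 1 - i) • (W.lam i)⁻¹ •
        W.D0 (sh (W.cc (η 2) (η 3)) i))) := by
    rw [← map_smul, ← W.ev_one, ← ev_add, ← ev_sub, ← ev_add]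
    congr 1
    funext i
    change (W.g⁻¹) ^ (n + 1 - i) • (W.d20q1 n (η 0) (η 1) i + W.d21q1 (η 2) (η 3) i) = _
    unfold d20q1 d21q1
    rcases i with _ | i
    · simp only [if_true, Nat.sub_zero, smul_add, smul_sub]
    · simp only [if_neg (Nat.succ_ne_zero i), smul_add, smul_sub, smul_zero]
  have hB : W.D0 ((W.g⁻¹) ^ (n + 1) • W.ev (n + 1) (fun i => (W.lam i)⁻¹ •
        sh (W.cc (η 2) (η 3)) i - (if i = 0 then (W.lam (n + 1))⁻¹ • W.cc (η 0) (η 1) 0 else 0)))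
      = (W.g⁻¹) ^ (n + 1) • W.D0 (W.ev (n + 1) (fun i => (W.lam i)⁻¹ •
        sh (W.cc (η 2) (η 3)) i)) - (W.g⁻¹) ^ (n + 1) •
        (W.X1 ^ (n + 1)) ((W.lam (n + 1))⁻¹ • W.D0 (W.cc (η 0) (η 1) 0)) := by
    rw [ev_sub, ev_one, map_smul, map_sub, smul_sub, D0_X1pow, map_smul]
  have hC : (W.g⁻¹) ^ (n + 1) • W.D0 (W.ev (n + 1) (fun i => (W.lam i)⁻¹ •
      sh (W.cc (η 2) (η 3)) i)) = ∑ i ∈ Finset.range (n + 1),
      ((W.X1 ^ (n - i)) ((W.X0 ^ (i + 1)) ((W.g⁻¹) ^ (n - i) • (W.lam (i + 1))⁻¹ •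
        W.D0 (W.cc (η 2) (η 3) i))) -
       (W.X1 ^ (n - i)) ((W.X0 ^ i) ((W.g⁻¹) ^ (n - i) • W.cc (η 2) (η 3) i))) := by
    rw [ev_shift _ _ _ (by simp), map_sum, Finset.smul_sum]
    refine Finset.sum_congr rfl fun i hi => ?_
    rw [Finset.mem_range] at hi
    have hi0 := W.lamne i
    have hp : (W.g⁻¹) ^ (n + 1) * W.g ^ (i + 1) = (W.g⁻¹) ^ (n - i) := by
      rw [show n + 1 = (n - i) + (i + 1) by omega, pow_add, mul_assoc, mul_comm (_ ^ (i + 1)),
        hgi, mul_one]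
    rw [D0_X1pow, D0_X0pow]
    simp only [sh_succ, map_smul, map_sub, smul_smul, smul_sub]
    rw [mul_inv_cancel₀ hi0, mul_one, ← mul_assoc, hp]
  have h1 : W.ev (n + 1) (fun i => (W.g⁻¹) ^ (n + 1 - i) • sh (η 2) i) =
      ∑ i ∈ Finset.range (n + 1), (W.X1 ^ (n - i)) ((W.X0 ^ i) ((W.g⁻¹) ^ (n - i) •
        W.X0 (η 2 i))) := by
    rw [ev_shift _ _ _ (by simp)]
    refine Finset.sum_congr rfl fun i hi => ?_
    rw [sh_succ, Nat.add_sub_add_right, pow_succ W.X0, Module.End.mul_apply, map_smul W.X0]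
  have h2 : W.ev (n + 1) (fun i => (W.g⁻¹) ^ (n + 1 - i) • W.g • η 3 i) =
      ∑ i ∈ Finset.range (n + 1), (W.X1 ^ (n - i)) ((W.X0 ^ i) ((W.g⁻¹) ^ (n - i) •
        W.X1 (η 3 i))) := by
    rw [ev_top _ _ _ (by simp [h3])]
    refine Finset.sum_congr rfl fun i hi => ?_
    rw [Finset.mem_range] at hi
    rw [show n + 1 - i = (n - i) + 1 by omega, smul_smul, pow_succ, mul_assoc,
      inv_mul_cancel₀ W.hg, mul_one, map_smul W.X1]
  have h4 : W.ev (n + 1) (fun i => (W.g⁻¹) ^ (n + 1 - i) • (W.lam i)⁻¹ •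
      W.D0 (sh (W.cc (η 2) (η 3)) i)) =
      ∑ i ∈ Finset.range (n + 1), (W.X1 ^ (n - i)) ((W.X0 ^ (i + 1)) ((W.g⁻¹) ^ (n - i) •
        (W.lam (i + 1))⁻¹ • W.D0 (W.cc (η 2) (η 3) i))) := by
    rw [ev_shift _ _ _ (by simp)]
    refine Finset.sum_congr rfl fun i hi => ?_
    rw [sh_succ, Nat.add_sub_add_right]
  rw [hA, hB, hC, h1, h2, h4, Finset.sum_sub_distrib]
  have h5 : ∑ i ∈ Finset.range (n + 1), (W.X1 ^ (n - i)) ((W.X0 ^ i) ((W.g⁻¹) ^ (n - i) •
      W.cc (η 2) (η 3) i)) = (∑ i ∈ Finset.range (n + 1), (W.X1 ^ (n - i)) ((W.X0 ^ i)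
      ((W.g⁻¹) ^ (n - i) • W.X0 (η 2 i)))) + ∑ i ∈ Finset.range (n + 1), (W.X1 ^ (n - i))
      ((W.X0 ^ i) ((W.g⁻¹) ^ (n - i) • W.X1 (η 3 i))) := by
    rw [← Finset.sum_add_distrib]
    refine Finset.sum_congr rfl fun i hi => ?_
    simp only [cc, smul_add, map_add]
  rw [h5]
  abel

lemma ev_dd1 (n : ℕ) (ξ : Fin 4 → ℕ → M) (hb : ∀ i, n ≤ i → ξ 1 i = 0) :
    W.ev n (W.dd1 n ξ) = W.D0 (W.ev n (fun i => (W.g⁻¹) ^ i • ((W.lam i)⁻¹ •
      sh (W.cc (ξ 0) (ξ 1)) i)) + W.ev (n + 1) (fun i => (W.g⁻¹) ^ i • ξ 2 i)) +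
      W.D1 (W.ev (n + 1) (fun i => (W.g⁻¹) ^ (n + 1 - i) • ξ 3 i)) := by
  have : W.ev n (W.dd1 n ξ) = W.ev n (W.d1K (ξ 0) (ξ 1)) + W.ev n (W.d1q0 (ξ 2)) +
      W.ev n (W.d1q1 n (ξ 3)) := by
    rw [← ev_add, ← ev_add]; rfl
  rw [this, W.ev_d1K n _ _ hb, ev_d1q0, ev_d1q1, map_add]

/-! ### exactness -/

theorem exact0 {P A : ℤ} (hP : 0 ≤ P) (n : ℕ) (z : ℕ → M) (hz : ∀ i, z i ∈ W.F P A)
    (hz0 : ∀ i, n < i → z i = 0)
    (h : ∃ f0 ∈ W.F (P + n + 1) (A - 1), ∃ f1 ∈ W.F (P + n + 1) (A - 1),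
      W.ev n z = W.D0 f0 + W.D1 f1) : ∃ ξ, W.Ok1 P A n ξ ∧ W.dd1 n ξ = z := by
  obtain ⟨f0, hf0, f1, hf1, h⟩ := h
  have e1 : P + (n : ℤ) + 1 = P + ((n + 1 : ℕ) : ℤ) := by push_cast; ring
  rw [e1] at hf0 hf1
  obtain ⟨w0, hw0, hw00, rfl⟩ := W.beil_surj hP (n + 1) f0 hf0
  obtain ⟨w1, hw1, hw10, rfl⟩ := W.beil_surj hP (n + 1) f1 hf1
  let ξ0 : Fin 4 → ℕ → M := ![fun _ => 0, fun _ => 0, fun i => W.g ^ i • w0 i,
    fun i => W.g ^ (n + 1 - i) • w1 i]
  have ok0 : W.Ok1 P A n ξ0 := by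
    refine ⟨fun i => Submodule.zero_mem _, fun i => Submodule.zero_mem _, fun i => ?_,
      fun i => Submodule.smul_mem _ _ (hw0 i), fun i => Submodule.smul_mem _ _ (hw1 i),
      fun i _ => rfl, fun i _ => rfl, fun i hi => ?_, fun i hi => ?_⟩
    · simp [cc, ξ0]
    · simp [ξ0, hw00 i hi]
    · simp [ξ0, hw10 i hi]
  have hcancel : ∀ (k : ℕ) (m : M), (W.g⁻¹) ^ k • W.g ^ k • m = m := fun k m => by
    rw [smul_smul, mul_comm, hgi, one_smul]
  have hev : W.ev n (fun i => z i - W.dd1 n ξ0 i) = 0 := by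
    rw [ev_sub, h, show W.ev n (fun i => W.dd1 n ξ0 i) = W.ev n (W.dd1 n ξ0) from rfl,
      W.ev_dd1 n ξ0 (fun i _ => rfl)]
    have z0 : W.ev n (fun i => (W.g⁻¹) ^ i • ((W.lam i)⁻¹ • sh (W.cc (ξ0 0) (ξ0 1)) i)) = 0 := by
      unfold ev
      refine Finset.sum_eq_zero fun i _ => ?_
      rcases i with _ | i
      · simp
      · simp [cc, ξ0]
    have z1 : W.ev (n + 1) (fun i => (W.g⁻¹) ^ i • ξ0 2 i) = W.ev (n + 1) w0 := by
      congr 1; funext i; exact hcancel i _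
    have z2 : W.ev (n + 1) (fun i => (W.g⁻¹) ^ (n + 1 - i) • ξ0 3 i) = W.ev (n + 1) w1 := by
      congr 1; funext i; exact hcancel _ _
    rw [z0, z1, z2, zero_add, sub_self]
  obtain ⟨m1, m2⟩ := W.dd1_mem ok0
  obtain ⟨ν, hν, hν0, hB⟩ := W.beil_ker hP n _ (fun i _ => Submodule.sub_mem _ (hz i) (m1 i)) hev
  refine ⟨fun j i => ξ0 j i + (![fun i => W.X1 (ν i), fun i => - W.X0 (ν i), fun _ => 0,
    fun _ => 0] : Fin 4 → ℕ → M) j i, ?_, ?_⟩
  · obtain ⟨a1, a2, a3, a4, a5, s1, s2, s3, s4⟩ := ok0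
    refine ⟨fun i => Submodule.add_mem _ (a1 i) (W.X1m (hν i)), fun i => Submodule.add_mem _ (a2 i)
      (Submodule.neg_mem _ (W.X0m (hν i))), fun i => ?_, fun i => ?_, fun i => ?_, fun i hi => ?_,
      fun i hi => ?_, fun i hi => ?_, fun i hi => ?_⟩
    · have := W.cc_add (ξ0 0) (ξ0 1) (fun i => W.X1 (ν i)) (fun i => - W.X0 (ν i)) i
      have h2 : W.cc (fun i => W.X1 (ν i)) (fun i => - W.X0 (ν i)) i = 0 := by
        simp [cc, W.xx]
      rw [h2, add_zero] at this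
      exact this ▸ a3 i
    · simpa using a4 i
    · simpa using a5 i
    · simp [s1 i hi, hν0 i hi]
    · simp [s2 i hi, hν0 i hi]
    · simp [s3 i hi]
    · simp [s4 i hi]
  · funext i
    have := W.d1_add n (ξ0 0) (ξ0 1) (ξ0 2) (ξ0 3) (fun i => W.X1 (ν i)) (fun i => - W.X0 (ν i))
      (fun _ => 0) (fun _ => 0) i
    have h2 : W.d1 n (fun i => W.X1 (ν i)) (fun i => - W.X0 (ν i)) (fun _ => 0) (fun _ => 0) i
        = W.B ν i := by
      rcases i with _ | i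
      · simp [d1, d1K, d1q0, d1q1, B]
      · simp [d1, d1K, d1q0, d1q1, B, cc, W.xx]
        abel
    rw [h2] at this
    change W.d1 n (fun i => ξ0 0 i + W.X1 (ν i)) (fun i => ξ0 1 i + - W.X0 (ν i))
      (fun i => ξ0 2 i + 0) (fun i => ξ0 3 i + 0) i = z i
    rw [this]
    rcases le_or_gt i n with hi | hi
    · rw [← hB i hi]
      change W.dd1 n ξ0 i + (z i - W.dd1 n ξ0 i) = z i
      abel
    · rw [hz0 i hi]
      have : W.d1 n (ξ0 0) (ξ0 1) (ξ0 2) (ξ0 3) i = 0 := m2 i hi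
      rw [this, zero_add]
      obtain ⟨k, rfl⟩ : ∃ k, i = k + 1 := ⟨i - 1, by omega⟩
      simp [B, hν0 (k + 1) (by omega), hν0 k (by omega)]

/-- `ξ` is in the image of `d2` -/
def Im2 (P A : ℤ) (n : ℕ) (ξ : Fin 4 → ℕ → M) : Prop := ∃ η, W.Ok2 P A n η ∧ W.d2 n η = ξ

lemma Ok2_add {P A : ℤ} {n : ℕ} {η θ : Fin 4 → ℕ → M} (h : W.Ok2 P A n η) (h' : W.Ok2 P A n θ) :
    W.Ok2 P A n (η + θ) := by
  obtain ⟨a1, a2, a3, a4⟩ := h
  obtain ⟨b1, b2, b3, b4⟩ := h'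
  refine ⟨fun j i => Submodule.add_mem _ (a1 j i) (b1 j i), fun i => ?_, fun i => ?_,
    fun j i hi => ?_⟩
  · have := W.cc_add (η 0) (η 1) (θ 0) (θ 1) i
    exact this ▸ Submodule.add_mem _ (a2 i) (b2 i)
  · have := W.cc_add (η 2) (η 3) (θ 2) (θ 3) i
    exact this ▸ Submodule.add_mem _ (a3 i) (b3 i)
  · rw [Pi.add_apply, Pi.add_apply, a4 j i hi, b4 j i hi, add_zero]

lemma Im2_step {P A : ℤ} {n : ℕ} {ξ η : Fin 4 → ℕ → M} (h : W.Ok2 P A n η)
    (h' : W.Im2 P A n (ξ - W.d2 n η)) : W.Im2 P A n ξ := by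
  obtain ⟨θ, h1, h2⟩ := h'
  exact ⟨θ + η, W.Ok2_add h1 h, by rw [d2_add, h2, sub_add_cancel]⟩

lemma Ok1_sub {P A : ℤ} {n : ℕ} {ξ θ : Fin 4 → ℕ → M} (h : W.Ok1 P A n ξ) (h' : W.Ok1 P A n θ) :
    W.Ok1 P A n (ξ - θ) := by
  obtain ⟨a1, a2, a3, a4, a5, a6, a7, a8, a9⟩ := h
  obtain ⟨b1, b2, b3, b4, b5, b6, b7, b8, b9⟩ := h'
  refine ⟨fun i => Submodule.sub_mem _ (a1 i) (b1 i), fun i => Submodule.sub_mem _ (a2 i) (b2 i),
    fun i => ?_, fun i => Submodule.sub_mem _ (a4 i) (b4 i),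
    fun i => Submodule.sub_mem _ (a5 i) (b5 i), fun i hi => ?_, fun i hi => ?_, fun i hi => ?_,
    fun i hi => ?_⟩
  · have := W.cc_sub (ξ 0) (ξ 1) (θ 0) (θ 1) i
    exact this ▸ Submodule.sub_mem _ (a3 i) (b3 i)
  · rw [Pi.sub_apply, Pi.sub_apply, a6 i hi, b6 i hi, sub_zero]
  · rw [Pi.sub_apply, Pi.sub_apply, a7 i hi, b7 i hi, sub_zero]
  · rw [Pi.sub_apply, Pi.sub_apply, a8 i hi, b8 i hi, sub_zero]
  · rw [Pi.sub_apply, Pi.sub_apply, a9 i hi, b9 i hi, sub_zero]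

lemma dd1_sub_d2 {P A : ℤ} {n : ℕ} {ξ η : Fin 4 → ℕ → M} (h : W.dd1 n ξ = 0)
    (hη : W.Ok2 P A n η) : W.dd1 n (ξ - W.d2 n η) = 0 := by
  funext i
  rw [dd1_sub, W.dd1_d2 n η (fun i hi => hη.2.2.2 3 i hi), h]
  simp

lemma mem_ev {P A : ℤ} {n : ℕ} {ξ : Fin 4 → ℕ → M} (h : W.Ok1 P A n ξ) :
    W.ev n (fun i => (W.g⁻¹) ^ i • ((W.lam i)⁻¹ • sh (W.cc (ξ 0) (ξ 1)) i)) +
      W.ev (n + 1) (fun i => (W.g⁻¹) ^ i • ξ 2 i) ∈ W.F (P + n + 1) (A - 1) ∧
    W.ev (n + 1) (fun i => (W.g⁻¹) ^ (n + 1 - i) • ξ 3 i) ∈ W.F (P + n + 1) (A - 1) := by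
  obtain ⟨a1, a2, a3, a4, a5, a6, a7, a8, a9⟩ := h
  have e1 : P + (n : ℤ) + 1 = P + ((n + 1 : ℕ) : ℤ) := by push_cast; ring
  have e2 : P + (n : ℤ) + 1 = P + 1 + (n : ℤ) := by ring
  refine ⟨Submodule.add_mem _ ?_ ?_, ?_⟩
  · rw [e2]
    exact W.ev_mem n _ fun i _ => Submodule.smul_mem _ _ (Submodule.smul_mem _ _
      (W.mono2 (W.sh_mem a3 i)))
  · rw [e1]
    exact W.ev_mem (n + 1) _ fun i _ => Submodule.smul_mem _ _ (a4 i)
  · rw [e1]
    exact W.ev_mem (n + 1) _ fun i _ => Submodule.smul_mem _ _ (a5 i)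

/-- choice of a row with given `c` -/
lemma lift_cc {P A : ℤ} (hP : 0 ≤ P) (c : ℕ → M) (hc : ∀ i, c i ∈ W.F (P + 1) (A - 2)) :
    ∃ a b : ℕ → M, (∀ i, a i ∈ W.F P (A - 1)) ∧ (∀ i, b i ∈ W.F P (A - 1)) ∧
      (∀ i, W.cc a b i = c i) ∧ ∀ i, c i = 0 → a i = 0 ∧ b i = 0 := by
  have : ∀ i, ∃ a ∈ W.F P (A - 1), ∃ b ∈ W.F P (A - 1), c i = W.X0 a + W.X1 b ∧
      (c i = 0 → a = 0 ∧ b = 0) := by
    intro i
    by_cases h0 : c i = 0
    · exact ⟨0, Submodule.zero_mem _, 0, Submodule.zero_mem _, by simp [h0], fun _ => ⟨rfl, rfl⟩⟩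
    · obtain ⟨a, ha, b, hb, h⟩ := W.sx (by omega) (hc i)
      rw [add_sub_cancel_right] at ha hb
      exact ⟨a, W.mono2 ha, b, W.mono2 hb, h, fun h => absurd h h0⟩
  choose a ha b hb h1 h2 using this
  exact ⟨a, b, ha, hb, fun i => (h1 i).symm, h2⟩

theorem exact1_d {P A : ℤ} (hP : 0 ≤ P) (n : ℕ) (ξ : Fin 4 → ℕ → M) (h : W.Ok1 P A n ξ)
    (hd : W.dd1 n ξ = 0) (hc : ∀ i, W.cc (ξ 0) (ξ 1) i = 0) (h2 : ∀ i, ξ 2 i = 0)
    (h3 : ∀ i, ξ 3 i = 0) : W.Im2 P A n ξ := by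
  -- now `ξ 0 = X1 ν`, `ξ 1 = - X0 ν`, `B ν = 0`
  obtain ⟨a1, a2, -, -, -, a6, a7, -, -⟩ := h
  have : ∀ i, ∃ ν, ξ 0 i = W.X1 ν ∧ ξ 1 i = - W.X0 ν := fun i => by
    obtain ⟨ν, -, h1, h2⟩ := W.kx hP (a1 i) (a2 i) (hc i)
    exact ⟨ν, h1, h2⟩
  choose ν e0 e1 using this
  have hν0 : ∀ i, n ≤ i → ν i = 0 := fun i hi => W.X1inj _ (by rw [← e0, a6 i hi])
  have hB : ∀ i, i ≤ n → W.B ν i = 0 := by
    intro i _
    have := congrFun hd i
    have hcc : ∀ i, sh (W.cc (ξ 0) (ξ 1)) i = 0 := by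
      intro i
      rcases i with _ | i
      · rfl
      · exact hc i
    simp only [dd1, d1, d1K, d1q0, d1q1, h2, h3, hcc, map_zero, smul_zero, ite_self, add_zero,
      sub_zero, zero_sub, Pi.zero_apply] at this
    unfold B
    rcases i with _ | i
    · simp only [sh_zero, neg_zero, zero_sub, e1] at this
      simpa using this
    · simp only [sh_succ, e0, e1] at this
      rw [sh_succ]
      rw [← this]; abel
  have hz := W.B_inj n ν hν0 hB
  refine ⟨0, ⟨fun _ _ => Submodule.zero_mem _, fun i => ?_, fun i => ?_, fun _ _ _ => rfl⟩, ?_⟩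
  · simp [cc]
  · simp [cc]
  · have hξ : ξ = 0 := by
      funext j i
      fin_cases j
      · simp [e0, hz]
      · simp [e1, hz]
      · simp [h2]
      · simp [h3]
    rw [hξ]
    have := W.d2_add n 0 0
    rw [add_zero] at this
    exact left_eq_add.1 this

theorem exact1_c {P A : ℤ} (hP : 0 ≤ P) (n : ℕ) (ξ : Fin 4 → ℕ → M) (h : W.Ok1 P A n ξ)
    (hd : W.dd1 n ξ = 0) (hc : ∀ i, W.cc (ξ 0) (ξ 1) i = 0)
    (h3 : ∀ i, ξ 3 i = 0) : W.Im2 P A n ξ := by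
  have hs := W.ev_dd1 n ξ h.2.2.2.2.2.2.1
  have z0 : W.ev n (fun i => (W.g⁻¹) ^ i • ((W.lam i)⁻¹ • sh (W.cc (ξ 0) (ξ 1)) i)) = 0 := by
    unfold ev
    refine Finset.sum_eq_zero fun i _ => ?_
    rcases i with _ | i
    · simp
    · simp [hc]
  have z3 : W.ev (n + 1) (fun i => (W.g⁻¹) ^ (n + 1 - i) • ξ 3 i) = 0 := by
    unfold ev
    exact Finset.sum_eq_zero fun i _ => by simp [h3]
  have z4 : W.ev n (W.dd1 n ξ) = 0 := by
    unfold ev
    exact Finset.sum_eq_zero fun i _ => by simp [hd]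
  rw [z0, z3, z4, map_zero, add_zero, zero_add] at hs
  have z5 := W.D0inj (W.ev_mem (n + 1) _ fun i _ => Submodule.smul_mem _ _ (h.2.2.2.1 i)) hs.symm
  obtain ⟨ν, hν, hν0, hB⟩ := W.beil_ker hP (n + 1) _
    (fun i _ => Submodule.smul_mem _ _ (h.2.2.2.1 i)) z5
  let ω : ℕ → M := fun i => - (W.g ^ i • ν i)
  let η : Fin 4 → ℕ → M := ![fun i => W.X1 (ω i), fun i => - W.X0 (ω i), fun _ => 0, fun _ => 0]
  have hcη : ∀ i, W.cc (η 0) (η 1) i = 0 := fun i => by simp [cc, η, W.xx]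
  have hω : ∀ i, ω i ∈ W.F (P - 1) (A - 1) := fun i =>
    Submodule.neg_mem _ (Submodule.smul_mem _ _ (hν i))
  have okη : W.Ok2 P A n η := by
    refine ⟨fun j i => ?_, fun i => ?_, fun i => ?_, fun j i hi => ?_⟩
    · fin_cases j
      · exact W.X1m (hω i)
      · exact Submodule.neg_mem _ (W.X0m (hω i))
      · exact Submodule.zero_mem _
      · exact Submodule.zero_mem _
    · rw [hcη]; exact Submodule.zero_mem _
    · simp [cc, η]
    · have : ω i = 0 := by simp [ω, hν0 i (by omega)]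
      fin_cases j <;> simp [η, this]
  refine W.Im2_step okη (W.exact1_d hP n _ (W.Ok1_sub h (W.Ok1_d2 okη)) (W.dd1_sub_d2 hd okη)
    (fun i => ?_) (fun i => ?_) (fun i => ?_))
  · have := W.cc_sub (ξ 0) (ξ 1) (W.d2 n η 0) (W.d2 n η 1) i
    rw [hc, cc_d2, hcη] at this
    refine this.trans ?_
    simp [cc, η]
  · change ξ 2 i - (W.d20q0 n (η 0) (η 1) i + W.d21q0 (η 2) (η 3) i) = 0
    have e1 : W.d21q0 (η 2) (η 3) i = 0 := by
      rcases i with _ | i <;> simp [d21q0, cc, η]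
    have e2 : W.d20q0 n (η 0) (η 1) i = W.g ^ i • W.B ν i := by
      unfold d20q0
      rw [hcη]
      rcases i with _ | i
      · simp [η, ω, B]
      · simp only [η, ω, B, sh_succ, Matrix.cons_val_zero, Matrix.cons_val_one, map_neg, map_smul,
          if_neg (Nat.succ_ne_zero i), sub_zero, smul_sub, pow_succ']
        module
    rw [e1, e2, add_zero]
    rcases le_or_gt i (n + 1) with hi | hi
    · rw [← hB i hi, smul_smul, hgi, one_smul, sub_self]
    · obtain ⟨k, rfl⟩ : ∃ k, i = k + 1 := ⟨i - 1, by omega⟩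
      rw [h.2.2.2.2.2.2.2.1 _ hi]
      simp [B, hν0 (k + 1) (by omega), hν0 k (by omega)]
  · change ξ 3 i - (W.d20q1 n (η 0) (η 1) i + W.d21q1 (η 2) (η 3) i) = 0
    have e1 : W.d21q1 (η 2) (η 3) i = 0 := by
      rcases i with _ | i <;> simp [d21q1, cc, η]
    have e2 : W.d20q1 n (η 0) (η 1) i = 0 := by
      unfold d20q1
      rw [hcη]
      simp
    rw [e1, e2, h3]
    simp

theorem exact1_b {P A : ℤ} (hP : 0 ≤ P) (n : ℕ) (ξ : Fin 4 → ℕ → M) (h : W.Ok1 P A n ξ)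
    (hd : W.dd1 n ξ = 0) (h3 : ∀ i, ξ 3 i = 0) : W.Im2 P A n ξ := by
  obtain ⟨a, b, ha, hb, hab, hab0⟩ := W.lift_cc hP (W.cc (ξ 0) (ξ 1)) h.2.2.1
  let η : Fin 4 → ℕ → M := ![fun i => - ((W.lam i)⁻¹ • sh a i), fun i => - ((W.lam i)⁻¹ • sh b i),
    fun _ => 0, fun _ => 0]
  have hcs : ∀ i, n ≤ i → W.cc (ξ 0) (ξ 1) i = 0 := fun i hi => by
    simp [cc, h.2.2.2.2.2.1 i hi, h.2.2.2.2.2.2.1 i hi]
  have hcη : ∀ i, W.cc (η 0) (η 1) i = - ((W.lam i)⁻¹ • sh (W.cc (ξ 0) (ξ 1)) i) := by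
    intro i
    rcases i with _ | i
    · simp [cc, η]
    · have := hab i
      simp only [cc, η, Matrix.cons_val_zero, Matrix.cons_val_one, sh_succ, map_neg,
        map_smul] at this ⊢
      rw [← this]
      module
  have okη : W.Ok2 P A n η := by
    refine ⟨fun j i => ?_, fun i => ?_, fun i => ?_, fun j i hi => ?_⟩
    · fin_cases j
      · exact Submodule.neg_mem _ (Submodule.smul_mem _ _ (W.sh_mem ha i))
      · exact Submodule.neg_mem _ (Submodule.smul_mem _ _ (W.sh_mem hb i))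
      · exact Submodule.zero_mem _
      · exact Submodule.zero_mem _
    · rw [hcη]
      exact Submodule.neg_mem _ (Submodule.smul_mem _ _ (W.sh_mem h.2.2.1 i))
    · simp [cc, η]
    · obtain ⟨k, rfl⟩ : ∃ k, i = k + 1 := ⟨i - 1, by omega⟩
      have := hab0 k (hcs k (by omega))
      fin_cases j <;> simp [η, this.1, this.2]
  refine W.Im2_step okη (W.exact1_c hP n _ (W.Ok1_sub h (W.Ok1_d2 okη)) (W.dd1_sub_d2 hd okη)
    (fun i => ?_) (fun i => ?_))
  · have := W.cc_sub (ξ 0) (ξ 1) (W.d2 n η 0) (W.d2 n η 1) i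
    rw [cc_d2, hcη] at this
    refine this.trans ?_
    have hi := W.lamne i
    have hz : W.cc (η 2) (η 3) i = 0 := by simp [cc, η]
    rw [hz, smul_zero, add_zero, sh_succ, smul_neg, neg_smul, neg_neg, smul_smul,
      mul_inv_cancel₀ hi, one_smul, sub_self]
  · change ξ 3 i - (W.d20q1 n (η 0) (η 1) i + W.d21q1 (η 2) (η 3) i) = 0
    have e1 : W.d21q1 (η 2) (η 3) i = 0 := by
      rcases i with _ | i <;> simp [d21q1, cc, η]
    have e2 : W.d20q1 n (η 0) (η 1) i = 0 := by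
      unfold d20q1
      rw [hcη]
      simp
    rw [e1, e2, h3]
    simp

theorem exact1_a {P A : ℤ} (hP : 0 ≤ P) (n : ℕ) (ξ : Fin 4 → ℕ → M) (h : W.Ok1 P A n ξ)
    (hd : W.dd1 n ξ = 0)
    (h3 : W.ev (n + 1) (fun i => (W.g⁻¹) ^ (n + 1 - i) • ξ 3 i) = 0) : W.Im2 P A n ξ := by
  obtain ⟨ν, hν, hν0, hB⟩ := W.beil_ker hP (n + 1) _
    (fun i _ => Submodule.smul_mem _ _ (h.2.2.2.2.1 i)) h3
  let ω : ℕ → M := fun i => - (W.g ^ (n - i) • ν i)
  let η : Fin 4 → ℕ → M := ![fun _ => 0, fun _ => 0, fun i => W.X1 (ω i), fun i => - W.X0 (ω i)]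
  have hcη : ∀ i, W.cc (η 2) (η 3) i = 0 := fun i => by simp [cc, η, W.xx]
  have hω : ∀ i, ω i ∈ W.F (P - 1) (A - 1) := fun i =>
    Submodule.neg_mem _ (Submodule.smul_mem _ _ (hν i))
  have okη : W.Ok2 P A n η := by
    refine ⟨fun j i => ?_, fun i => ?_, fun i => ?_, fun j i hi => ?_⟩
    · fin_cases j
      · exact Submodule.zero_mem _
      · exact Submodule.zero_mem _
      · exact W.X1m (hω i)
      · exact Submodule.neg_mem _ (W.X0m (hω i))
    · simp [cc, η]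
    · rw [hcη]; exact Submodule.zero_mem _
    · have : ω i = 0 := by simp [ω, hν0 i (by omega)]
      fin_cases j <;> simp [η, this]
  refine W.Im2_step okη (W.exact1_b hP n _ (W.Ok1_sub h (W.Ok1_d2 okη)) (W.dd1_sub_d2 hd okη)
    (fun i => ?_))
  change ξ 3 i - (W.d20q1 n (η 0) (η 1) i + W.d21q1 (η 2) (η 3) i) = 0
  have e1 : W.d20q1 n (η 0) (η 1) i = 0 := by
    simp [d20q1, cc, η]
  have hcs : sh (W.cc (η 2) (η 3)) i = 0 := by
    rcases i with _ | i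
    · rfl
    · exact hcη i
  rw [e1, zero_add]
  unfold d21q1
  rw [hcs, map_zero, smul_zero, sub_zero]
  rcases le_or_gt i (n + 1) with hi | hi
  · have hx : ξ 3 i = W.g ^ (n + 1 - i) • W.B ν i := by
      rw [← hB i hi, smul_smul, hgi, one_smul]
    rw [hx]
    rcases i with _ | i
    · simp only [η, ω, B, sh_zero, Matrix.cons_val, map_neg, map_smul,
        map_zero, sub_zero, smul_neg, neg_neg, Nat.sub_zero, zero_add, pow_succ', smul_smul,
        sub_self]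
    · rcases eq_or_lt_of_le hi with hi' | hi'
      · obtain rfl : i = n := by omega
        simp [η, ω, B, hν0 (i + 1) le_rfl]
      · have e3 : n + 1 - (i + 1) = (n - (i + 1)) + 1 := by omega
        have e4 : n - i = (n - (i + 1)) + 1 := by omega
        simp only [η, ω, B, sh_succ, Matrix.cons_val, map_neg, map_smul,
          smul_sub, e3, e4, pow_succ']
        module
  · obtain ⟨k, rfl⟩ : ∃ k, i = k + 1 := ⟨i - 1, by omega⟩
    rw [h.2.2.2.2.2.2.2.2 _ hi]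
    simp [η, ω, hν0 (k + 1) (by omega), hν0 k (by omega)]

theorem exact1 {P A : ℤ} (hP : 0 ≤ P) (n : ℕ) (ξ : Fin 4 → ℕ → M) (h : W.Ok1 P A n ξ)
    (hd : W.dd1 n ξ = 0) : ∃ η, W.Ok2 P A n η ∧ W.d2 n η = ξ := by
  have hs := W.ev_dd1 n ξ h.2.2.2.2.2.2.1
  have z4 : W.ev n (W.dd1 n ξ) = 0 := by
    unfold ev
    exact Finset.sum_eq_zero fun i _ => by simp [hd]
  rw [z4] at hs
  obtain ⟨hm1, hm2⟩ := W.mem_ev h
  obtain ⟨E, hE, -, hE2⟩ := W.kd hm1 hm2 hs.symm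
  have e1 : P + (n : ℤ) + 1 + 1 = (P + 1) + ((n + 1 : ℕ) : ℤ) := by push_cast; ring
  rw [e1, show A - 1 - 1 = A - 2 by ring] at hE
  obtain ⟨w, hw, hw0, hwE⟩ := W.beil_surj (by omega) (n + 1) E hE
  obtain ⟨a0, b0, ha0, hb0, hab0, hz0⟩ := W.lift_cc hP
    (fun i => if i = 0 then - ((W.lam (n + 1) * W.g ^ (n + 1)) • w 0) else 0)
    (fun i => W.ite_mem (Submodule.neg_mem _ (Submodule.smul_mem _ _ (hw 0))))
  obtain ⟨a1, b1, ha1, hb1, hab1, hz1⟩ := W.lift_cc hP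
    (fun i => (W.lam (i + 1) * W.g ^ (n + 1)) • w (i + 1))
    (fun i => Submodule.smul_mem _ _ (hw (i + 1)))
  let η : Fin 4 → ℕ → M := ![a0, b0, a1, b1]
  have okη : W.Ok2 P A n η := by
    refine ⟨fun j i => ?_, fun i => ?_, fun i => ?_, fun j i hi => ?_⟩
    · fin_cases j
      · exact ha0 i
      · exact hb0 i
      · exact ha1 i
      · exact hb1 i
    · change W.cc a0 b0 i ∈ _
      rw [hab0]
      exact W.ite_mem (Submodule.neg_mem _ (Submodule.smul_mem _ _ (hw 0)))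
    · change W.cc a1 b1 i ∈ _
      rw [hab1]
      exact Submodule.smul_mem _ _ (hw (i + 1))
    · have h0 := hz0 i (if_neg (by omega))
      have h1 := hz1 i (by rw [hw0 (i + 1) (by omega), smul_zero])
      fin_cases j
      · exact h0.1
      · exact h0.2
      · exact h1.1
      · exact h1.2
  refine W.Im2_step okη (W.exact1_a hP n _ (W.Ok1_sub h (W.Ok1_d2 okη)) (W.dd1_sub_d2 hd okη) ?_)
  have hsub : W.ev (n + 1) (fun i => (W.g⁻¹) ^ (n + 1 - i) • (ξ - W.d2 n η) 3 i) =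
      W.ev (n + 1) (fun i => (W.g⁻¹) ^ (n + 1 - i) • ξ 3 i) -
      W.ev (n + 1) (fun i => (W.g⁻¹) ^ (n + 1 - i) • W.d2 n η 3 i) := by
    rw [← ev_sub]
    congr 1
    funext i
    rw [Pi.sub_apply, Pi.sub_apply, smul_sub]
  rw [hsub, W.ev_tau1 n η (okη.2.2.2 3 (n + 1) (by omega)), hE2]
  have hw' : (W.g⁻¹) ^ (n + 1) • W.ev (n + 1) (fun i => (W.lam i)⁻¹ •
      sh (W.cc (η 2) (η 3)) i - (if i = 0 then (W.lam (n + 1))⁻¹ • W.cc (η 0) (η 1) 0 else 0))
      = E := by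
    rw [← ev_smul, ← hwE]
    congr 1
    funext i
    rcases i with _ | i
    · change (W.g⁻¹) ^ (n + 1) • ((W.lam 0)⁻¹ • (0 : M) -
        (if 0 = 0 then (W.lam (n + 1))⁻¹ • W.cc a0 b0 0 else 0)) = w 0
      rw [hab0]
      have hl := W.lamne n
      simp only [if_true, smul_zero, zero_sub, smul_neg, neg_neg, smul_smul]
      rw [← mul_assoc (W.lam (n + 1))⁻¹, inv_mul_cancel₀ hl, one_mul, mul_comm, hgi, one_smul]
    · change (W.g⁻¹) ^ (n + 1) • ((W.lam (i + 1))⁻¹ • W.cc a1 b1 i -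
        (if i + 1 = 0 then (W.lam (n + 1))⁻¹ • W.cc a0 b0 0 else 0)) = w (i + 1)
      rw [hab1, if_neg (Nat.succ_ne_zero i), sub_zero]
      have hl := W.lamne i
      simp only [smul_smul]
      rw [← mul_assoc (W.lam (i + 1))⁻¹, inv_mul_cancel₀ hl, one_mul, mul_comm, hgi, one_smul]
  rw [hw']
  simp

lemma smul0 {c : K} (hc : c ≠ 0) {m : M} (h : c • m = 0) : m = 0 :=
  (smul_eq_zero.1 h).resolve_left hc

theorem exact3 (n : ℕ) (e : ℕ → M) (he : ∀ i, n < i → e i = 0) (hd : W.d3 n e = 0) : e = 0 := by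
  have h0 : W.lam (n + 1 - 0) • (W.X1 (sh e 0) - W.X0 (e 0)) = 0 := by
    rw [← W.cc_d30 n e 0]
    have a0 : W.d30a n e = 0 := congrFun hd 0
    have a1 : W.d30b n e = 0 := congrFun hd 1
    simp [cc, a0, a1]
  have h1 : ∀ i, W.lam (i + 1) • (W.X0 (e (i + 1)) - W.X1 (e i)) = 0 := fun i => by
    rw [← W.cc_d31 e i]
    have a0 : W.d31a e = 0 := congrFun hd 2
    have a1 : W.d31b e = 0 := congrFun hd 3
    simp [cc, a0, a1]
  funext i
  induction i with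
  | zero =>
    have := smul0 (W.lamne n) h0
    rw [sh_zero, map_zero, zero_sub, neg_eq_zero] at this
    exact W.X0inj _ this
  | succ i ih =>
    have := smul0 (W.lamne i) (h1 i)
    rw [ih] at this
    simp only [Pi.zero_apply, map_zero, sub_zero] at this
    exact W.X0inj _ this

/-- the last step of the exactness at the third place -/
theorem exact2_a {P A : ℤ} (hP : 0 ≤ P) (n : ℕ) (η : Fin 4 → ℕ → M) (h : W.Ok2 P A n η)
    (hd : W.d2 n η = 0) (h0 : W.cc (η 0) (η 1) 0 = 0) (h1 : ∀ i, W.cc (η 2) (η 3) i = 0) :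
    η = 0 := by
  obtain ⟨m, -, -, s⟩ := h
  have hsh : ∀ i, sh (W.cc (η 2) (η 3)) i = 0 := by
    intro i
    rcases i with _ | i
    · rfl
    · exact h1 i
  -- the pair `η 2, η 3`
  have : ∀ i, ∃ ω, η 2 i = W.X1 ω ∧ η 3 i = - W.X0 ω := fun i => by
    obtain ⟨ω, -, h1, h2⟩ := W.kx hP (m 2 i) (m 3 i) (h1 i)
    exact ⟨ω, h1, h2⟩
  choose ω e2 e3 using this
  have hq1 : ∀ i, sh (η 2) i + W.g • η 3 i = 0 := by
    intro i
    have : W.d20q1 n (η 0) (η 1) i + W.d21q1 (η 2) (η 3) i = 0 := congrFun (congrFun hd 3) i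
    simpa only [d20q1, d21q1, h0, hsh, map_zero, smul_zero, ite_self, sub_zero, zero_add] using this
  have hω : ∀ i, ω i = 0 := by
    intro i
    induction i with
    | zero =>
      have := hq1 0
      rw [sh_zero, zero_add, e3] at this
      have := smul0 W.hg this
      rw [neg_eq_zero] at this
      exact W.X0inj _ this
    | succ i ih =>
      have := hq1 (i + 1)
      rw [sh_succ, e3, e2, ih, map_zero, zero_add] at this
      have := smul0 W.hg this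
      rw [neg_eq_zero] at this
      exact W.X0inj _ this
  have z2 : ∀ i, η 2 i = 0 := fun i => by rw [e2, hω, map_zero]
  have z3 : ∀ i, η 3 i = 0 := fun i => by rw [e3, hω, map_zero, neg_zero]
  -- the pair `η 0, η 1`
  have hq0 : ∀ i, W.g • sh (η 0) i + η 1 i = 0 := by
    intro i
    have : W.d20q0 n (η 0) (η 1) i + W.d21q0 (η 2) (η 3) i = 0 := congrFun (congrFun hd 2) i
    simpa only [d20q0, d21q0, h0, hsh, map_zero, smul_zero, ite_self, sub_zero, add_zero] using this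
  have hb : ∀ i, η 1 (i + 1) = - (W.g • η 0 i) := fun i => by
    have := hq0 (i + 1)
    rw [sh_succ] at this
    exact eq_neg_of_add_eq_zero_right this
  have ha : ∀ i, - W.lam (i + 1) • η 0 (i + 1) + W.g • W.X1 (W.D0 (η 0 i)) = 0 := fun i => by
    have : W.d20a (η 0) (η 1) i + W.d21a n (η 2) (η 3) i = 0 := congrFun (congrFun hd 0) i
    simp only [d20a, d21a, z2, z3, hb, map_zero, smul_zero, sub_zero, add_zero, map_neg, map_smul,
      sub_neg_eq_add] at this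
    exact this
  have z0 : ∀ k i, n < i + k → η 0 i = 0 := by
    intro k
    induction k with
    | zero => intro i hi; exact s 0 i (by omega)
    | succ k ih =>
      intro i hi
      have := ha i
      rw [ih (i + 1) (by omega), smul_zero, zero_add] at this
      exact W.D0inj (m 0 i) (W.X1inj _ (smul0 W.hg this))
  have z0' : ∀ i, η 0 i = 0 := fun i => z0 (n + 1) i (by omega)
  have z1 : ∀ i, η 1 i = 0 := by
    intro i
    rcases i with _ | i
    · have := hq0 0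
      rwa [sh_zero, smul_zero, zero_add] at this
    · rw [hb, z0', smul_zero, neg_zero]
  funext j i
  fin_cases j
  · exact z0' i
  · exact z1 i
  · exact z2 i
  · exact z3 i

lemma d2_sub (n : ℕ) (η θ : Fin 4 → ℕ → M) : W.d2 n (η - θ) = W.d2 n η - W.d2 n θ := by
  have := W.d2_add n (η - θ) θ
  rw [sub_add_cancel] at this
  rw [this, add_sub_cancel_right]

lemma Ok2_sub {P A : ℤ} {n : ℕ} {η θ : Fin 4 → ℕ → M} (h : W.Ok2 P A n η) (h' : W.Ok2 P A n θ) :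
    W.Ok2 P A n (η - θ) := by
  obtain ⟨a1, a2, a3, a4⟩ := h
  obtain ⟨b1, b2, b3, b4⟩ := h'
  refine ⟨fun j i => Submodule.sub_mem _ (a1 j i) (b1 j i), fun i => ?_, fun i => ?_,
    fun j i hi => ?_⟩
  · have := W.cc_sub (η 0) (η 1) (θ 0) (θ 1) i
    exact this ▸ Submodule.sub_mem _ (a2 i) (b2 i)
  · have := W.cc_sub (η 2) (η 3) (θ 2) (θ 3) i
    exact this ▸ Submodule.sub_mem _ (a3 i) (b3 i)
  · rw [Pi.sub_apply, Pi.sub_apply, a4 j i hi, b4 j i hi, sub_zero]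

theorem exact2 {P A : ℤ} (hP : 0 ≤ P) (n : ℕ) (η : Fin 4 → ℕ → M) (h : W.Ok2 P A n η)
    (hd : W.d2 n η = 0) : ∃ e, W.Ok3 P A n e ∧ W.d3 n e = η := by
  have h3 := W.ev_tau1 n η (h.2.2.2 3 (n + 1) (by omega))
  have z : W.ev (n + 1) (fun i => (W.g⁻¹) ^ (n + 1 - i) • W.d2 n η 3 i) = 0 := by
    unfold ev
    exact Finset.sum_eq_zero fun i _ => by simp [hd]
  rw [z] at h3
  have hC : ∀ i, (W.lam i)⁻¹ • sh (W.cc (η 2) (η 3)) i -
      (if i = 0 then (W.lam (n + 1))⁻¹ • W.cc (η 0) (η 1) 0 else 0) ∈ W.F (P + 1) (A - 2) :=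
    fun i => Submodule.sub_mem _ (Submodule.smul_mem _ _ (W.sh_mem h.2.2.1 i))
      (W.ite_mem (Submodule.smul_mem _ _ (h.2.1 0)))
  have h4 := smul0 (pow_ne_zero _ (inv_ne_zero W.hg))
    (W.D0inj (Submodule.smul_mem _ _ (W.ev_mem (n + 1) _ fun i _ => hC i)) (neg_eq_zero.1 h3.symm))
  obtain ⟨θ, hθ, hθ0, hB⟩ := W.beil_ker (P := P + 1) (A := A - 2) (by omega) (n + 1) _
    (fun i _ => hC i) h4
  have ok3 : W.Ok3 P A n θ := ⟨fun i => by
    have := hθ i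
    rwa [add_sub_cancel_right] at this, fun i hi => hθ0 i (by omega)⟩
  refine ⟨θ, ok3, ?_⟩
  have okd := W.Ok2_d3 ok3
  have hn := W.lamne n
  have c0 : W.cc (η 0) (η 1) 0 - W.cc (W.d3 n θ 0) (W.d3 n θ 1) 0 = 0 := by
    have h5 := hB 0 (Nat.zero_le _)
    have h6 : W.cc (W.d3 n θ 0) (W.d3 n θ 1) 0 =
      W.lam (n + 1 - 0) • (W.X1 (sh θ 0) - W.X0 (θ 0)) := W.cc_d30 n θ 0
    simp only [sh_zero, smul_zero, if_true, zero_sub, B, map_zero, sub_zero] at h5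
    rw [h6, sh_zero, map_zero, zero_sub, Nat.sub_zero, ← h5, neg_neg, smul_smul,
      mul_inv_cancel₀ hn, one_smul, sub_self]
  have c1 : ∀ i, W.cc (η 2) (η 3) i - W.cc (W.d3 n θ 2) (W.d3 n θ 3) i = 0 := by
    intro i
    have h6 : W.cc (W.d3 n θ 2) (W.d3 n θ 3) i =
      W.lam (i + 1) • (W.X0 (θ (i + 1)) - W.X1 (θ i)) := W.cc_d31 θ i
    rw [h6]
    rcases le_or_gt i n with hi | hi
    · have h5 := hB (i + 1) (by omega)
      simp only [sh_succ, if_neg (Nat.succ_ne_zero i), sub_zero, B] at h5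
      rw [← h5, smul_smul, mul_inv_cancel₀ (W.lamne i), one_smul, sub_self]
    · rw [hθ0 i (by omega), hθ0 (i + 1) (by omega)]
      simp [cc, h.2.2.2 _ i hi]
  have := W.exact2_a hP n (η - W.d3 n θ) (W.Ok2_sub h okd)
    (by rw [d2_sub, hd, W.d2_d3 n θ ok3.2, sub_zero])
    (by
      have := W.cc_sub (η 0) (η 1) (W.d3 n θ 0) (W.d3 n θ 1) 0
      rw [c0] at this
      exact this)
    (fun i => by
      have := W.cc_sub (η 2) (η 3) (W.d3 n θ 2) (W.d3 n θ 3) i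
      rw [c1] at this
      exact this)
  exact (sub_eq_zero.1 this).symm

end Wey

end Crest.Agent.R186.Cov605
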