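import Crest.Agent.R186.FilPBW_633
import Crest.Agent.R186.FDord_757

/-!
Row 186, S0281, base (helper831): evaluation at `1`. An operator in `Fil g k P` with value `0` on
`1` lies in `Fil g (k-1) (P+1) d_0 + Fil g (k-1) (P+1) d_1` (`val_zero`, the last line of B281.D3);
operators of order `0` are determined by their value on `1`; right multiplications `rm`.
-/

set_option autoImplicit false

namespace Crest.Agent.R186.B281.Val831

open FilPBW633

variable {K : Type} [Field K] {g : K}

/-- right multiplication -/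
noncomputable def rm (T : Op K) : Module.End K (Op K) := LinearMap.mulRight K T

@[simp] theorem rm_apply (T m : Op K) : rm T m = m * T := rfl

/-- the unit of the Laurent polynomials -/
noncomputable def one1 (K : Type) [Field K] : Lau K := Finsupp.single (0, 0) 1

/-- an operator of order `0` is determined by its value on `1` -/
theorem ord0_single {P : ℤ} {T : Op K} (hT : T ∈ Fil g 0 P) (m : ℤ × ℤ) :
    T (Finsupp.single m 1) =
      Finsupp.lmapDomain K K (fun r => r + m) (T (Finsupp.single (0, 0) 1)) := by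
  induction hT using Submodule.span_induction with
  | mem x hx =>
    obtain ⟨a, b, h1, h2, rfl⟩ := hx
    have hb1 : b.1 = 0 := by omega
    have hb2 : b.2 = 0 := by omega
    rw [FD757.mon_single, FD757.mon_single, hb1, hb2]
    simp only [FD757.fac_zero, mul_one, Finsupp.lmapDomain_apply, Finsupp.mapDomain_single]
    congr 1
    ext <;> simp <;> ring
  | zero => simp
  | add x y _ _ hx hy => rw [LinearMap.add_apply, LinearMap.add_apply, map_add, hx, hy]
  | smul a x _ hx => rw [LinearMap.smul_apply, LinearMap.smul_apply, map_smul, hx]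

theorem ord0_zero {P : ℤ} {T : Op K} (hT : T ∈ Fil g 0 P)
    (h : T (Finsupp.single (0, 0) 1) = 0) : T = 0 := by
  apply op_ext
  intro m
  rw [ord0_single hT, h, map_zero, LinearMap.zero_apply]

theorem D_one (i : Fin 2) : (D g i : Op K) (Finsupp.single (0, 0) 1) = 0 := by
  rw [D_single]
  have : co i (0, 0) = 0 := by fin_cases i <;> simp [co]
  rw [this, cq_zero, zero_mul, Finsupp.single_zero]

/-- operators killing `1` are in the left ideal of `d_0, d_1`, with the right orders -/
theorem val_zero (hg : Gen g) {k P : ℤ} {T : Op K} (hT : T ∈ Fil g k P)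
    (h : T (Finsupp.single (0, 0) 1) = 0) :
    ∃ a ∈ Fil g (k - 1) (P + 1), ∃ b ∈ Fil g (k - 1) (P + 1), T = a * D g 0 + b * D g 1 := by
  obtain ⟨a, ha, b, hb, p, hp, rfl⟩ := D1R hg hT
  refine ⟨a, ha, b, hb, ?_⟩
  simp only [LinearMap.add_apply, Module.End.mul_apply, D_one, map_zero, zero_add] at h
  rw [ord0_zero hp h, add_zero]

/-- converse -/
theorem val_zero_iff (hg : Gen g) {k P : ℤ} {T : Op K} (hT : T ∈ Fil g k P) :
    T (Finsupp.single (0, 0) 1) = 0 ↔
      ∃ a ∈ Fil g (k - 1) (P + 1), ∃ b ∈ Fil g (k - 1) (P + 1), T = a * D g 0 + b * D g 1 := by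
  refine ⟨val_zero hg hT, ?_⟩
  rintro ⟨a, _, b, _, rfl⟩
  simp only [LinearMap.add_apply, Module.End.mul_apply, D_one, map_zero, zero_add]

/-- the value on `1` is onto `K[x]_P` already on operators of order `0` -/
theorem val_surj (g : K) {P : ℤ} {f : Lau K} (hf : f ∈ Pol K P) :
    ∃ T ∈ Fil g 0 P, T (Finsupp.single (0, 0) 1) = f := by
  rw [Pol, Finsupp.supported_eq_span_single] at hf
  induction hf using Submodule.span_induction with
  | mem x hx =>
    obtain ⟨m, ⟨h1, h2, h3⟩, rfl⟩ := hx
    refine ⟨mon g (m.1.toNat, m.2.toNat) (0, 0), mon_mem g _ _ (by simp) ?_, ?_⟩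
    · simp only [Nat.cast_zero, add_zero, sub_zero]
      omega
    · rw [FD757.mon_single]
      simp only [FD757.fac_zero, mul_one]
      congr 1
      ext <;> simp <;> omega
  | zero => exact ⟨0, zero_mem _, by simp⟩
  | add x y _ _ hx hy =>
    obtain ⟨S, hS, h1⟩ := hx
    obtain ⟨T, hT, h2⟩ := hy
    exact ⟨S + T, add_mem hS hT, by rw [LinearMap.add_apply, h1, h2]⟩
  | smul a x _ hx =>
    obtain ⟨S, hS, h1⟩ := hx
    exact ⟨a • S, Submodule.smul_mem _ _ hS, by rw [LinearMap.smul_apply, h1]⟩

end Crest.Agent.R186.B281.Val831
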