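import Crest.Agent.R186.Cov_853
import Crest.Agent.R186.Val_831

/-!
Row 186, S0281, base (helper831): the instance of 853's abstract data `Cov853.Dat` for the operators
`Op K` with right multiplications by `X i`, `D g i` and the pieces `Fil g A P`.
-/

set_option autoImplicit false

namespace Crest.Agent.R186.B281.Val831

open FilPBW633

variable {K : Type} [Field K] {g : K}

theorem mul_X_zero (i : Fin 2) {T : Op K} (h : T * X i = 0) : T = 0 := by
  apply op_ext
  intro m
  have h1 := congrArg (fun S : Op K => S (Finsupp.single (m - ev i) 1)) h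
  simpa only [Module.End.mul_apply, X_single, sub_add_cancel, LinearMap.zero_apply] using h1

/-- the adapter: `F P A = Fil g A P`, `x_i`, `d_i` = right multiplications -/
noncomputable def fdat (hg : Gen g) : Cov853.Dat K (Op K) where
  g := g
  g0 := hg.1
  c a := cq g (a : ℤ)
  c0 := cq_zero g
  cs a := by
    have := cq_pred hg ((a : ℤ) + 1)
    rw [add_sub_cancel_right] at this
    rw [this]
    push_cast
    rfl
  cne a := cq_ne hg (by positivity)
  x0 := rm (X 0)
  x1 := rm (X 1)
  d0 := rm (D g 0)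
  d1 := rm (D g 1)
  xx m := by simp only [rm_apply, mul_assoc, X_comm]
  dd m := by simp only [rm_apply, mul_assoc, D_comm]
  d0x1 m := by simp only [rm_apply, mul_assoc, X_D g (show (1 : Fin 2) ≠ 0 by decide)]
  d1x0 m := by simp only [rm_apply, mul_assoc, X_D g (show (0 : Fin 2) ≠ 1 by decide)]
  d0x0 m := by
    simp only [rm_apply, mul_assoc, X_D_self hg, mul_add, mul_one, mul_smul_comm]
  d1x1 m := by
    simp only [rm_apply, mul_assoc, X_D_self hg, mul_add, mul_one, mul_smul_comm]
  F P A := Fil g A P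
  mono P A := Fil_mono g (by omega)
  mx0 P A m hm := FD757.mul_X_mem hg 0 hm
  mx1 P A m hm := FD757.mul_X_mem hg 1 hm
  md0 P A m hm := FD757.mul_D_mem 0 hm
  md1 P A m hm := FD757.mul_D_mem 1 hm
  ix0 m h := mul_X_zero 0 h
  ix1 m h := mul_X_zero 1 h
  id0 P A m hm h := inj_DR hg (i := 0) hm h
  id1 P A m hm h := inj_DR hg (i := 1) hm h
  sX P A m hP hm := X1R hg hP hm
  eX P A a b _ ha hb h := X2R hg ha hb h
  eD P A a b _ ha hb h := D2R hg ha hb h

section simps
variable (hg : Gen g)
@[simp] theorem fdat_g : (fdat hg).g = g := rfl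
@[simp] theorem fdat_c (a : ℕ) : (fdat hg).c a = cq g (a : ℤ) := rfl
@[simp] theorem fdat_x0 (T : Op K) : (fdat hg).x0 T = T * X 0 := rfl
@[simp] theorem fdat_x1 (T : Op K) : (fdat hg).x1 T = T * X 1 := rfl
@[simp] theorem fdat_d0 (T : Op K) : (fdat hg).d0 T = T * D g 0 := rfl
@[simp] theorem fdat_d1 (T : Op K) : (fdat hg).d1 T = T * D g 1 := rfl
@[simp] theorem fdat_F (P A : ℤ) : (fdat hg).F P A = Fil g A P := rfl
end simps

end Crest.Agent.R186.B281.Val831
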