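import Crest.Agent.R186.KosX_417

/-!
Row 186 (S0281), helper376: the abstract covering theorem for `s = 1` (B281.C1).

`M` = a filtered right module over the independent `q`-Weyl algebra (`X0 X1 D0 D1` = right
multiplications, `x_i d_i = 1 + g d_i x_i`), functions `ℕ → ℕ → M` = elements of `M ⊗ k[x0,x1]`
(`f i j` = coefficient of `x0^i x1^j`).  The complex

`O2[n] → K1'[n]² → K2[n-1] ⊕ O1[n+1]² → O0[n]`

in 525's form (#31909), `d1 d2 = 0`, `d2 d3 = 0`, exactness.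
-/

set_option autoImplicit false
set_option linter.unusedSimpArgs false
set_option linter.unusedVariables false
set_option linter.unusedSectionVars false

open Crest.Agent.R186

namespace Crest.Agent.R186.CovS1376

variable {K M : Type*} [Field K] [AddCommGroup M] [Module K M]

/-- right multiplications by `x0 x1 d0 d1` -/
structure Ops (K M : Type*) [Field K] [AddCommGroup M] [Module K M] where
  g : K
  X0 : M →ₗ[K] M
  X1 : M →ₗ[K] M
  D0 : M →ₗ[K] M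
  D1 : M →ₗ[K] M
  hg : g ≠ 0
  rx : ∀ m, X0 (X1 m) = X1 (X0 m)
  rd : ∀ m, D0 (D1 m) = D1 (D0 m)
  r00 : ∀ m, D0 (X0 m) = m + g • X0 (D0 m)
  r11 : ∀ m, D1 (X1 m) = m + g • X1 (D1 m)
  r01 : ∀ m, D0 (X1 m) = X1 (D0 m)
  r10 : ∀ m, D1 (X0 m) = X0 (D1 m)
  c : ℕ → K
  c0 : c 0 = 0
  cs : ∀ m, c m = 1 + g * c (m + 1)
  cne : ∀ m, c (m + 1) ≠ 0

/-- functions of the exponent pair -/
abbrev Fn (M : Type*) : Type _ := ℕ → ℕ → M

section coef

variable (c : ℕ → K)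

/-- `1 ⊗ x0` -/
def sx0 (f : Fn M) : Fn M
  | 0, _ => 0
  | i + 1, j => f i j

/-- `1 ⊗ x1` -/
def sx1 (f : Fn M) : Fn M
  | _, 0 => 0
  | i, j + 1 => f i j

/-- `1 ⊗ d0` -/
def dd0 (f : Fn M) : Fn M := fun i j => c (i + 1) • f (i + 1) j

/-- `1 ⊗ d1` -/
def dd1 (f : Fn M) : Fn M := fun i j => c (j + 1) • f i (j + 1)

/-- right inverse of `1 ⊗ d0` -/
def I0 (f : Fn M) : Fn M
  | 0, _ => 0
  | i + 1, j => (c (i + 1))⁻¹ • f i j

/-- `x1^b ↦ x1^(b+1)/c_(b+1)`, zero on `x0` -/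
def JJ (f : Fn M) : Fn M
  | 0, 0 => 0
  | 0, j + 1 => (c (j + 1))⁻¹ • f 0 j
  | _ + 1, _ => 0

/-- division by `x0` -/
def rho (f : Fn M) : Fn M := fun i j => f (i + 1) j

end coef

/-- apply a linear map to the coefficients -/
def ap (T : M →ₗ[K] M) (f : Fn M) : Fn M := fun i j => T (f i j)

/-- the splitting `f = x0 p0 + x1 p1`, multiplied on the left factor -/
def xi (O : Ops K M) (f : Fn M) : Fn M
  | 0, j => O.X0 (f 1 j) + O.X1 (f 0 (j + 1))
  | i + 1, j => O.X0 (f (i + 2) j)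

variable (O : Ops K M)

/-- `c = a x0 + b x1` -/
def cc (a b : Fn M) : Fn M := fun i j => O.X0 (a i j) + O.X1 (b i j)

/-- `d1 : K2[n-1] ⊕ O1[n+1]² → O0[n]` -/
def d1 (a b q0 q1 : Fn M) : Fn M := fun i j =>
  O.D0 (I0 O.c (cc O a b) i j) - sx0 a i j - sx1 b i j
    + (xi O (ap O.D0 q0) i j - dd0 O.c q0 i j) + (xi O (ap O.D1 q1) i j - dd1 O.c q1 i j)

/-- `r = J c0 - I c1` -/
def rr (a0 b0 a1 b1 : Fn M) : Fn M := fun i j =>
  JJ O.c (cc O a0 b0) i j - I0 O.c (cc O a1 b1) i j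

/-- first component of `d2` -/
def d2a (a0 b0 a1 b1 : Fn M) : Fn M := fun i j =>
  - dd0 O.c a0 i j - O.X1 (O.D0 (rho b0 i j)) - dd1 O.c a1 i j - O.g • O.X1 (O.D1 (rho b1 i j))

/-- second component of `d2` -/
def d2b (a0 b0 a1 b1 : Fn M) : Fn M := fun i j =>
  - dd0 O.c b0 i j + O.X0 (O.D0 (rho b0 i j)) - dd1 O.c b1 i j + O.g • O.X0 (O.D1 (rho b1 i j))

/-- third component of `d2` -/
def d2q (a0 b0 a1 b1 : Fn M) : Fn M := fun i j =>
  O.g • sx0 a0 i j + sx1 b0 i j - O.D1 (rr O a0 b0 a1 b1 i j)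

/-- fourth component of `d2` -/
def d2r (a0 b0 a1 b1 : Fn M) : Fn M := fun i j =>
  sx0 a1 i j + O.g • sx1 b1 i j + O.D0 (rr O a0 b0 a1 b1 i j)

/-- components of `d3` -/
def d3a0 (e : Fn M) : Fn M := fun i j => O.X1 (O.D1 (e i j)) - dd1 O.c (sx1 e) i j
def d3b0 (e : Fn M) : Fn M := fun i j => - O.X0 (O.D1 (e i j)) + dd1 O.c (sx0 e) i j
def d3a1 (e : Fn M) : Fn M := fun i j => - O.X1 (O.D0 (e i j)) + dd0 O.c (sx1 e) i j
def d3b1 (e : Fn M) : Fn M := fun i j => O.X0 (O.D0 (e i j)) - dd0 O.c (sx0 e) i j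

theorem gi (m : ℕ) : O.g * O.c (m + 1) = O.c m - 1 := by
  rw [O.cs m]; ring

theorem cs' (m : ℕ) : O.c (m + 1) = O.g⁻¹ * (O.c m - 1) := by
  rw [O.cs m]
  field_simp [O.hg]
  ring

theorem c1 : O.g * O.c 1 = - 1 := by
  have := gi O 0
  rw [O.c0] at this
  simpa using this

theorem cinv (m : ℕ) : O.c (m + 1) * (O.c (m + 1))⁻¹ = 1 := mul_inv_cancel₀ (O.cne m)

theorem cs0 : (0 : K) = 1 + O.g * O.c 1 := by rw [← O.c0]; exact O.cs 0

theorem csm (m : ℕ) (x : M) : O.c (m + 1) • (O.c (m + 1))⁻¹ • x = x := by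
  rw [smul_smul, mul_inv_cancel₀ (O.cne m), one_smul]

theorem csm' (m : ℕ) (x : M) : (O.c (m + 1))⁻¹ • O.c (m + 1) • x = x := by
  rw [smul_smul, inv_mul_cancel₀ (O.cne m), one_smul]

theorem csm1 (x : M) : O.c 1 • (O.c 1)⁻¹ • x = x := csm O 0 x

theorem csm1' (x : M) : (O.c 1)⁻¹ • O.c 1 • x = x := csm' O 0 x

/-- `d1 d2 = 0` -/
theorem d1_d2 (a0 b0 a1 b1 : Fn M) (i j : ℕ) :
    d1 O (d2a O a0 b0 a1 b1) (d2b O a0 b0 a1 b1) (d2q O a0 b0 a1 b1) (d2r O a0 b0 a1 b1) i j = 0 := by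
  rcases i with _ | _ | i <;> rcases j with _ | j <;>
  simp only [d1, I0, cc, sx0, sx1, xi, ap, dd0, dd1, d2a, d2b, d2q, d2r, rr, JJ, rho, map_add,
    map_sub, map_neg, map_smul, map_zero, O.r00, O.r11, O.r01, O.r10, O.rx, O.rd, zero_add,
    smul_zero, add_zero, sub_zero, smul_add, smul_sub, smul_neg, neg_zero, zero_sub, csm, csm',
    csm1, csm1']
  · linear_combination (norm := module) cs0 O • a0 0 0 + cs0 O • b1 0 0
  · linear_combination (norm := module) cs0 O • a0 0 (j + 1) + O.cs (j + 1) • b1 0 (j + 1)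
  · linear_combination (norm := module) O.cs 1 • a0 1 0 + cs0 O • b1 1 0
  · linear_combination (norm := module) O.cs 1 • a0 1 (j + 1) + O.cs (j + 1) • b1 1 (j + 1)
  · linear_combination (norm := module) O.cs (i + 2) • a0 (i + 2) 0 + cs0 O • b1 (i + 2) 0
  · linear_combination (norm := module) O.cs (i + 2) • a0 (i + 2) (j + 1) +
      O.cs (j + 1) • b1 (i + 2) (j + 1)

/-- `d2 d3 = 0` -/
theorem d2a_d3 (e : Fn M) (i j : ℕ) :
    d2a O (d3a0 O e) (d3b0 O e) (d3a1 O e) (d3b1 O e) i j = 0 := by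
  rcases i with _ | i <;> rcases j with _ | j <;>
  simp only [d3a0, d3b0, d3a1, d3b1, I0, cc, sx0, sx1, xi, ap, dd0, dd1, d2a, d2b, d2q, d2r, rr,
    JJ, rho, map_add,
    map_sub, map_neg, map_smul, map_zero, O.r00, O.r11, O.r01, O.r10, O.rx, O.rd, zero_add,
    smul_zero, add_zero, sub_zero, smul_add, smul_sub, smul_neg, neg_zero, zero_sub, csm, csm',
    csm1, csm1']
  · linear_combination (norm := module) -(O.cs 1 • O.X1 (O.D1 (e 1 0)))
  · linear_combination (norm := module) -(O.cs 1 • O.X1 (O.D1 (e 1 (j + 1))))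
  · linear_combination (norm := module) -(O.cs (i + 2) • O.X1 (O.D1 (e (i + 2) 0)))
  · linear_combination (norm := module) -(O.cs (i + 2) • O.X1 (O.D1 (e (i + 2) (j + 1))))

theorem d2b_d3 (e : Fn M) (i j : ℕ) :
    d2b O (d3a0 O e) (d3b0 O e) (d3a1 O e) (d3b1 O e) i j = 0 := by
  rcases i with _ | i <;> rcases j with _ | j <;>
  simp only [d3a0, d3b0, d3a1, d3b1, I0, cc, sx0, sx1, xi, ap, dd0, dd1, d2a, d2b, d2q, d2r, rr,
    JJ, rho, map_add,
    map_sub, map_neg, map_smul, map_zero, O.r00, O.r11, O.r01, O.r10, O.rx, O.rd, zero_add,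
    smul_zero, add_zero, sub_zero, smul_add, smul_sub, smul_neg, neg_zero, zero_sub, csm, csm',
    csm1, csm1']
  · linear_combination (norm := module) O.cs 1 • O.X0 (O.D1 (e 1 0))
  · linear_combination (norm := module) O.cs 1 • O.X0 (O.D1 (e 1 (j + 1)))
  · linear_combination (norm := module) O.cs (i + 2) • O.X0 (O.D1 (e (i + 2) 0))
  · linear_combination (norm := module) O.cs (i + 2) • O.X0 (O.D1 (e (i + 2) (j + 1)))

theorem d2q_d3 (e : Fn M) (i j : ℕ) :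
    d2q O (d3a0 O e) (d3b0 O e) (d3a1 O e) (d3b1 O e) i j = 0 := by
  rcases i with _ | i <;> rcases j with _ | j <;>
  simp only [d3a0, d3b0, d3a1, d3b1, I0, cc, sx0, sx1, xi, ap, dd0, dd1, d2a, d2b, d2q, d2r, rr,
    JJ, rho, map_add,
    map_sub, map_neg, map_smul, map_zero, O.r00, O.r11, O.r01, O.r10, O.rx, O.rd, zero_add,
    smul_zero, add_zero, sub_zero, smul_add, smul_sub, smul_neg, neg_zero, zero_sub, csm, csm',
    csm1, csm1']
  · module
  · linear_combination (norm := module) cs0 O • e i 0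
  · linear_combination (norm := module) O.cs (j + 1) • e i (j + 1)

theorem d2r_d3 (e : Fn M) (i j : ℕ) :
    d2r O (d3a0 O e) (d3b0 O e) (d3a1 O e) (d3b1 O e) i j = 0 := by
  rcases i with _ | i <;> rcases j with _ | j <;>
  simp only [d3a0, d3b0, d3a1, d3b1, I0, cc, sx0, sx1, xi, ap, dd0, dd1, d2a, d2b, d2q, d2r, rr,
    JJ, rho, map_add,
    map_sub, map_neg, map_smul, map_zero, O.r00, O.r11, O.r01, O.r10, O.rx, O.rd, zero_add,
    smul_zero, add_zero, sub_zero, smul_add, smul_sub, smul_neg, neg_zero, zero_sub, csm, csm',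
    csm1, csm1']
  · linear_combination (norm := module) cs0 O • e 0 j
  · module
  · linear_combination (norm := module) O.cs (i + 1) • e (i + 1) j

/-- the lattices `F P A` (degree `P`, order `≤ A`) -/
structure Filt (F : ℤ → ℤ → Submodule K M) : Prop where
  mx0 : ∀ {P A : ℤ} {m : M}, m ∈ F P A → O.X0 m ∈ F (P + 1) A
  mx1 : ∀ {P A : ℤ} {m : M}, m ∈ F P A → O.X1 m ∈ F (P + 1) A
  md0 : ∀ {P A : ℤ} {m : M}, m ∈ F P A → O.D0 m ∈ F (P - 1) (A + 1)
  md1 : ∀ {P A : ℤ} {m : M}, m ∈ F P A → O.D1 m ∈ F (P - 1) (A + 1)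
  mono : ∀ {P A : ℤ} {m : M}, m ∈ F P A → m ∈ F P (A + 1)
  ix0 : ∀ m, O.X0 m = 0 → m = 0
  ix1 : ∀ m, O.X1 m = 0 → m = 0
  id0 : ∀ {P A : ℤ} {m : M}, m ∈ F P A → O.D0 m = 0 → m = 0
  surj : ∀ {P A : ℤ}, 0 ≤ P → ∀ {m : M}, m ∈ F (P + 1) A →
    ∃ u ∈ F P A, ∃ v ∈ F P A, m = O.X0 u + O.X1 v
  kerx : ∀ {P A : ℤ}, 0 ≤ P → ∀ {u v : M}, u ∈ F P A → v ∈ F P A → O.X0 u + O.X1 v = 0 →
    ∃ e ∈ F (P - 1) A, u = O.X1 e ∧ v = - O.X0 e
  kerd : ∀ {P A : ℤ}, 0 ≤ P → ∀ {u v : M}, u ∈ F P A → v ∈ F P A → O.D0 u + O.D1 v = 0 →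
    ∃ e ∈ F (P + 1) (A - 1), u = - O.D1 e ∧ v = O.D0 e

variable {O} {F : ℤ → ℤ → Submodule K M}

theorem Filt.kos (h : Filt O F) (A : ℤ) : KosX417.Kos O.X0 O.X1 (fun P => F P A) where
  comm := O.rx
  m0 _ _ := h.mx0
  m1 _ _ := h.mx1
  inj0 := h.ix0
  inj1 := h.ix1
  surj P hP m hm := h.surj hP hm
  ker P hP a ha b hb := h.kerx hP ha hb

variable (O)

/-- `∑ f i j x0^i x1^j` over `i + j = n` -/
def mu (n : ℕ) (f : Fn M) : M := KosX417.ev O.X0 O.X1 n (fun a => f a (n - a))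

theorem mu_zero (f : Fn M) : mu O 0 f = f 0 0 := by simp [mu, KosX417.ev]

theorem mu_succ (n : ℕ) (f : Fn M) :
    mu O (n + 1) f = (O.X1 ^ (n + 1)) (f 0 (n + 1)) + O.X0 (mu O n (rho f)) := by
  unfold mu
  rw [KosX417.ev_succ]
  simp only [Nat.add_sub_add_right, rho, Nat.sub_zero]

theorem mu_congr {n : ℕ} {f h : Fn M} (H : ∀ i j, i + j = n → f i j = h i j) :
    mu O n f = mu O n h := by
  unfold mu KosX417.ev
  refine Finset.sum_congr rfl fun a ha => ?_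
  have : a ≤ n := by simpa [Nat.lt_succ_iff] using ha
  show _ = (O.X0 ^ a) ((O.X1 ^ (n - a)) (h a (n - a)))
  rw [← H a (n - a) (by omega)]

theorem mu_add (n : ℕ) (f h : Fn M) : mu O n (f + h) = mu O n f + mu O n h := by
  simp [mu, KosX417.ev, Finset.sum_add_distrib]

theorem mu_smul (n : ℕ) (c : K) (f : Fn M) : mu O n (c • f) = c • mu O n f := by
  simp [mu, KosX417.ev, Finset.smul_sum]

theorem mu_neg (n : ℕ) (f : Fn M) : mu O n (-f) = - mu O n f := by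
  simp [mu, KosX417.ev]

theorem mu_sub (n : ℕ) (f h : Fn M) : mu O n (f - h) = mu O n f - mu O n h := by
  rw [sub_eq_add_neg, mu_add, mu_neg, sub_eq_add_neg]

theorem mu_z (n : ℕ) : mu O n (0 : Fn M) = 0 := by
  simp [mu, KosX417.ev]

theorem pow01 (k : ℕ) (m : M) : O.X0 ((O.X1 ^ k) m) = (O.X1 ^ k) (O.X0 m) := by
  induction k generalizing m with
  | zero => rfl
  | succ k ih => rw [pow_succ, Module.End.mul_apply, ih, O.rx]; rfl

theorem powD01 (k : ℕ) (m : M) : O.D0 ((O.X1 ^ k) m) = (O.X1 ^ k) (O.D0 m) := by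
  induction k generalizing m with
  | zero => rfl
  | succ k ih => rw [pow_succ, Module.End.mul_apply, ih, O.r01]; rfl

theorem mu_X0 (n : ℕ) (f : Fn M) : mu O n (ap O.X0 f) = O.X0 (mu O n f) := by
  induction n generalizing f with
  | zero => rw [mu_zero, mu_zero]; rfl
  | succ n ih =>
    rw [mu_succ, mu_succ, map_add, pow01]
    congr 2
    exact ih (rho f)

theorem mu_X1 (n : ℕ) (f : Fn M) : mu O n (ap O.X1 f) = O.X1 (mu O n f) := by
  induction n generalizing f with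
  | zero => rw [mu_zero, mu_zero]; rfl
  | succ n ih =>
    rw [mu_succ, mu_succ, map_add, ← O.rx]
    congr 1
    · show (O.X1 ^ (n + 1)) (O.X1 (f 0 (n + 1))) = _
      rw [← Module.End.mul_apply, ← Module.End.mul_apply, ← pow_succ, ← pow_succ']
    · exact congrArg O.X0 (ih (rho f))

theorem mu_sx0 (n : ℕ) (f : Fn M) : mu O (n + 1) (sx0 f) = O.X0 (mu O n f) := by
  rw [mu_succ]
  show (O.X1 ^ (n + 1)) (0 : M) + O.X0 (mu O n f) = _
  rw [map_zero, zero_add]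

theorem mu_sx1 (n : ℕ) (f : Fn M) : mu O (n + 1) (sx1 f) = O.X1 (mu O n f) := by
  induction n generalizing f with
  | zero =>
    rw [mu_succ, mu_zero, mu_zero]
    show (O.X1 ^ (0 + 1)) (f 0 0) + O.X0 (0 : M) = _
    rw [map_zero, add_zero, zero_add, pow_one]
  | succ n ih =>
    have e : rho (sx1 f) = sx1 (rho f) := by
      funext i j
      cases j <;> rfl
    rw [mu_succ, e, ih (rho f), mu_succ O n f, map_add, O.rx]
    congr 1
    show (O.X1 ^ (n + 1 + 1)) (f 0 (n + 1)) = _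
    rw [pow_succ', Module.End.mul_apply]

theorem mu_xi (n : ℕ) (f : Fn M) : mu O n (xi O f) = mu O (n + 1) f := by
  rcases n with _ | n
  · rw [mu_succ, mu_zero, mu_zero]
    show O.X0 (f 1 0) + O.X1 (f 0 1) = (O.X1 ^ (0 + 1)) (f 0 1) + O.X0 (f 1 0)
    rw [zero_add, pow_one, add_comm]
  · rw [mu_succ, mu_succ O (n + 1), mu_succ O n (rho f)]
    have e : rho (xi O f) = ap O.X0 (rho (rho f)) := by
      funext i j
      rfl
    rw [e, mu_X0]
    show (O.X1 ^ (n + 1)) (O.X0 (f 1 (n + 1)) + O.X1 (f 0 (n + 1 + 1))) + _ = _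
    rw [map_add, ← pow01, map_add]
    have e2 : (O.X1 ^ (n + 1)) (O.X1 (f 0 (n + 1 + 1))) = (O.X1 ^ (n + 1 + 1)) (f 0 (n + 1 + 1)) := by
      rw [pow_succ O.X1 (n + 1), Module.End.mul_apply]
    rw [e2]
    show _ = _ + (O.X0 ((O.X1 ^ (n + 1)) (f 1 (n + 1))) + _)
    abel

/-- the twists -/
def t0 (f : Fn M) : Fn M := fun i j => (O.g⁻¹) ^ i • f i j
def t1 (f : Fn M) : Fn M := fun i j => (O.g⁻¹) ^ j • f i j

theorem cdiff (m : ℕ) : O.c (m + 1) = O.c m - (O.g⁻¹) ^ (m + 1) := by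
  induction m with
  | zero => rw [cs' O 0, O.c0]; ring
  | succ m ih =>
    have h1 := cs' O (m + 1)
    have h2 := cs' O m
    rw [h1]
    linear_combination O.g⁻¹ * ih - h2

theorem mu_D0 (n : ℕ) (f : Fn M) :
    mu O (n + 1) (ap O.D0 f) = O.D0 (mu O (n + 1) (t0 O f)) + mu O n (dd0 O.c f) := by
  induction n generalizing f with
  | zero =>
    rw [mu_succ, mu_succ, mu_zero, mu_zero, mu_zero]
    show (O.X1 ^ (0 + 1)) (O.D0 (f 0 1)) + O.X0 (O.D0 (f 1 0)) =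
      O.D0 ((O.X1 ^ (0 + 1)) ((O.g⁻¹) ^ 0 • f 0 1) + O.X0 ((O.g⁻¹) ^ (0 + 1) • f 1 0)) +
        O.c (0 + 1) • f 1 0
    simp only [zero_add, pow_one, pow_zero, one_smul, map_add, map_smul, O.r01, O.r00, smul_add]
    have h1 : O.g⁻¹ * O.g = 1 := inv_mul_cancel₀ O.hg
    have h2 : O.c 1 = - O.g⁻¹ := by rw [cdiff O 0, O.c0]; ring
    linear_combination (norm := module) -(h1 • O.X0 (O.D0 (f 1 0))) - h2 • f 1 0
  | succ n ih =>
    have e1 : t0 O (rho f) = O.g • rho (t0 O f) := by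
      funext i j
      show (O.g⁻¹) ^ i • f (i + 1) j = O.g • (O.g⁻¹) ^ (i + 1) • f (i + 1) j
      rw [smul_smul]
      congr 1
      have := O.hg
      rw [pow_succ]
      field_simp
    have e2 : mu O (n + 1) (dd0 O.c f) =
        O.X0 (mu O n (dd0 O.c (rho f))) - mu O (n + 1) (rho (t0 O f)) := by
      rw [← mu_sx0, ← mu_sub]
      apply mu_congr
      intro i j _
      rcases i with _ | i
      · show O.c (0 + 1) • f (0 + 1) j = 0 - (O.g⁻¹) ^ (0 + 1) • f (0 + 1) j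
        rw [cdiff O 0, O.c0, sub_smul, zero_smul]
      · show O.c (i + 1 + 1) • f (i + 1 + 1) j = O.c (i + 1) • f (i + 1 + 1) j -
          (O.g⁻¹) ^ (i + 1 + 1) • f (i + 1 + 1) j
        rw [cdiff O (i + 1), sub_smul]
    have e3 := ih (rho f)
    rw [e1, mu_smul] at e3
    rw [mu_succ O (n + 1) (ap O.D0 f), mu_succ O (n + 1) (t0 O f), e2]
    have e4 : rho (ap O.D0 f) = ap O.D0 (rho f) := rfl
    rw [e4, e3, map_add, map_add, powD01, O.r00, map_smul, map_smul]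
    show (O.X1 ^ (n + 1 + 1)) (O.D0 (f 0 (n + 1 + 1))) + _ =
      (O.X1 ^ (n + 1 + 1)) (O.D0 ((O.g⁻¹) ^ 0 • f 0 (n + 1 + 1))) + _ + _
    rw [pow_zero, one_smul]
    abel

theorem powD1 (k : ℕ) (y : M) : (O.X1 ^ (k + 1)) (O.D1 y) =
    O.D1 ((O.X1 ^ (k + 1)) ((O.g⁻¹) ^ (k + 1) • y)) + O.c (k + 1) • (O.X1 ^ k) y := by
  have h1 : O.g⁻¹ * O.g = 1 := inv_mul_cancel₀ O.hg
  induction k with
  | zero =>
    simp only [zero_add, pow_one, pow_zero, map_smul, O.r11, smul_add, Module.End.one_apply]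
    have h2 : O.c 1 = - O.g⁻¹ := by rw [cdiff O 0, O.c0]; ring
    linear_combination (norm := module) -(h1 • O.X1 (O.D1 y)) - h2 • y
  | succ k ih =>
    rw [pow_succ' O.X1 (k + 1), Module.End.mul_apply, Module.End.mul_apply, ih, cdiff O (k + 1)]
    simp only [map_add, map_smul, O.r11, smul_add]
    have e : O.X1 ((O.X1 ^ k) y) = (O.X1 ^ (k + 1)) y := by
      rw [pow_succ' O.X1 k, Module.End.mul_apply]
    rw [e]
    have h3 : (O.g⁻¹) ^ (k + 1 + 1) * O.g = (O.g⁻¹) ^ (k + 1) := by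
      rw [pow_succ, mul_assoc, h1, mul_one]
    linear_combination (norm := module) -(h3 • O.X1 (O.D1 ((O.X1 ^ (k + 1)) y)))

theorem mu_D1 (n : ℕ) (f : Fn M) :
    mu O (n + 1) (ap O.D1 f) = O.D1 (mu O (n + 1) (t1 O f)) + mu O n (dd1 O.c f) := by
  induction n generalizing f with
  | zero =>
    rw [mu_succ, mu_succ, mu_zero, mu_zero, mu_zero]
    show (O.X1 ^ (0 + 1)) (O.D1 (f 0 1)) + O.X0 (O.D1 (f 1 0)) =
      O.D1 ((O.X1 ^ (0 + 1)) ((O.g⁻¹) ^ (0 + 1) • f 0 1) + O.X0 ((O.g⁻¹) ^ 0 • f 1 0)) +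
        O.c (0 + 1) • f 0 1
    rw [powD1 O 0, pow_zero, pow_zero, one_smul, Module.End.one_apply, map_add, O.r10]
    abel
  | succ n ih =>
    rw [mu_succ O (n + 1) (ap O.D1 f), mu_succ O (n + 1) (t1 O f), mu_succ O n (dd1 O.c f)]
    have e4 : rho (ap O.D1 f) = ap O.D1 (rho f) := rfl
    have e5 : rho (t1 O f) = t1 O (rho f) := rfl
    have e6 : rho (dd1 O.c f) = dd1 O.c (rho f) := rfl
    rw [e4, e5, e6, ih (rho f), map_add, map_add, O.r10]
    show (O.X1 ^ (n + 1 + 1)) (O.D1 (f 0 (n + 1 + 1))) + _ =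
      O.D1 ((O.X1 ^ (n + 1 + 1)) ((O.g⁻¹) ^ (n + 1 + 1) • f 0 (n + 1 + 1))) + _ +
        ((O.X1 ^ (n + 1)) (O.c (n + 1 + 1) • f 0 (n + 1 + 1)) + _)
    rw [powD1 O (n + 1), map_smul (O.X1 ^ (n + 1))]
    abel

/-! ### the main formula -/

theorem mu_d1 (n : ℕ) (a b q0 q1 : Fn M) :
    mu O n (d1 O a b q0 q1) =
      O.D0 (mu O n (t0 O (I0 O.c (cc O a b))) + mu O (n + 1) (t0 O q0)) +
        O.D1 (mu O (n + 1) (t1 O q1)) := by
  have e : d1 O a b q0 q1 = (ap O.D0 (I0 O.c (cc O a b)) - sx0 a - sx1 b)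
      + (xi O (ap O.D0 q0) - dd0 O.c q0) + (xi O (ap O.D1 q1) - dd1 O.c q1) := rfl
  rw [e, mu_add, mu_add, mu_sub, mu_sub, mu_sub, mu_sub, mu_xi, mu_xi, mu_D0, mu_D1, map_add]
  have h2 : mu O n (ap O.D0 (I0 O.c (cc O a b))) - mu O n (sx0 a) - mu O n (sx1 b) =
      O.D0 (mu O n (t0 O (I0 O.c (cc O a b)))) := by
    rcases n with _ | n
    · rw [mu_zero, mu_zero, mu_zero, mu_zero]
      show O.D0 (0 : M) - 0 - 0 = O.D0 ((O.g⁻¹) ^ 0 • (0 : M))
      rw [smul_zero, map_zero, sub_zero, sub_zero]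
    · rw [mu_D0, mu_sx0, mu_sx1]
      have e3 : dd0 O.c (I0 O.c (cc O a b)) = cc O a b := by
        funext i j
        exact csm O i _
      have e4 : cc O a b = ap O.X0 a + ap O.X1 b := rfl
      have e5 : mu O n (cc O a b) = O.X0 (mu O n a) + O.X1 (mu O n b) := by
        rw [e4, mu_add, mu_X0, mu_X1]
      rw [e3, e5]
      abel
  rw [h2]
  abel

/-- `f1` of a boundary -/
theorem F1_d2 (n : ℕ) (a0 b0 a1 b1 : Fn M) :
    mu O (n + 1) (t1 O (d2r O a0 b0 a1 b1)) =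
      O.D0 (mu O (n + 1) (t0 O (t1 O (rr O a0 b0 a1 b1)))) := by
  have e1 : t1 O (d2r O a0 b0 a1 b1) =
      sx0 (t1 O a1) + sx1 (t1 O b1) + ap O.D0 (t1 O (rr O a0 b0 a1 b1)) := by
    funext i j
    show (O.g⁻¹) ^ j • (sx0 a1 i j + O.g • sx1 b1 i j + O.D0 (rr O a0 b0 a1 b1 i j)) =
      sx0 (t1 O a1) i j + sx1 (t1 O b1) i j + O.D0 ((O.g⁻¹) ^ j • rr O a0 b0 a1 b1 i j)
    rw [smul_add, smul_add, map_smul]
    congr 1
    congr 1
    · rcases i with _ | i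
      · exact smul_zero _
      · rfl
    · rcases j with _ | j
      · show (O.g⁻¹) ^ 0 • O.g • (0 : M) = 0
        rw [smul_zero, smul_zero]
      · show (O.g⁻¹) ^ (j + 1) • O.g • b1 i j = (O.g⁻¹) ^ j • b1 i j
        rw [smul_smul, pow_succ, mul_assoc, inv_mul_cancel₀ O.hg, mul_one]
  rw [e1, mu_add, mu_add, mu_sx0, mu_sx1, mu_D0]
  have e2 : dd0 O.c (t1 O (rr O a0 b0 a1 b1)) = - (ap O.X0 (t1 O a1) + ap O.X1 (t1 O b1)) := by
    funext i j
    show O.c (i + 1) • (O.g⁻¹) ^ j • (0 - (O.c (i + 1))⁻¹ • (O.X0 (a1 i j) + O.X1 (b1 i j))) =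
      - (O.X0 ((O.g⁻¹) ^ j • a1 i j) + O.X1 ((O.g⁻¹) ^ j • b1 i j))
    rw [zero_sub, smul_neg, smul_neg, smul_comm (O.c (i + 1)) ((O.g⁻¹) ^ j), csm, map_smul,
      map_smul, smul_add]
  rw [e2, mu_neg, mu_add, mu_X0, mu_X1]
  abel

theorem cc_d2 (a0 b0 a1 b1 : Fn M) (i j : ℕ) :
    cc O (d2a O a0 b0 a1 b1) (d2b O a0 b0 a1 b1) i j =
      - (O.c (i + 1) • cc O a0 b0 (i + 1) j) - O.c (j + 1) • cc O a1 b1 i (j + 1) := by
  simp only [cc, d2a, d2b, dd0, dd1, rho, map_add, map_sub, map_neg, map_smul, O.rx]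
  module

/-- `f0` of a boundary -/
theorem F0_d2 (n : ℕ) (a0 b0 a1 b1 : Fn M) :
    mu O n (t0 O (I0 O.c (cc O (d2a O a0 b0 a1 b1) (d2b O a0 b0 a1 b1)))) +
        mu O (n + 1) (t0 O (d2q O a0 b0 a1 b1)) =
      - O.D1 (mu O (n + 1) (t0 O (t1 O (rr O a0 b0 a1 b1)))) := by
  have e1 : t0 O (d2q O a0 b0 a1 b1) =
      sx0 (t0 O a0) + sx1 (t0 O b0) - ap O.D1 (t0 O (rr O a0 b0 a1 b1)) := by
    funext i j
    show (O.g⁻¹) ^ i • (O.g • sx0 a0 i j + sx1 b0 i j - O.D1 (rr O a0 b0 a1 b1 i j)) =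
      sx0 (t0 O a0) i j + sx1 (t0 O b0) i j - O.D1 ((O.g⁻¹) ^ i • rr O a0 b0 a1 b1 i j)
    rw [smul_sub, smul_add, map_smul]
    congr 1
    congr 1
    · rcases i with _ | i
      · show (O.g⁻¹) ^ 0 • O.g • (0 : M) = 0
        rw [smul_zero, smul_zero]
      · show (O.g⁻¹) ^ (i + 1) • O.g • a0 i j = (O.g⁻¹) ^ i • a0 i j
        rw [smul_smul, pow_succ, mul_assoc, inv_mul_cancel₀ O.hg, mul_one]
    · rcases j with _ | j
      · exact smul_zero _
      · rfl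
  have e2 : t1 O (t0 O (rr O a0 b0 a1 b1)) = t0 O (t1 O (rr O a0 b0 a1 b1)) := by
    funext i j
    exact smul_comm _ _ _
  rw [e1, mu_sub, mu_add, mu_sx0, mu_sx1, mu_D1, e2]
  have e3 : mu O n (t0 O (I0 O.c (cc O (d2a O a0 b0 a1 b1) (d2b O a0 b0 a1 b1)))) +
      (O.X0 (mu O n (t0 O a0)) + O.X1 (mu O n (t0 O b0))) -
        mu O n (dd1 O.c (t0 O (rr O a0 b0 a1 b1))) = 0 := by
    rw [← mu_X0, ← mu_X1, ← mu_add, ← mu_add, ← mu_sub, ← mu_z O n]
    apply mu_congr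
    intro i j _
    show (O.g⁻¹) ^ i • I0 O.c (cc O (d2a O a0 b0 a1 b1) (d2b O a0 b0 a1 b1)) i j +
      (O.X0 ((O.g⁻¹) ^ i • a0 i j) + O.X1 ((O.g⁻¹) ^ i • b0 i j)) -
        O.c (j + 1) • (O.g⁻¹) ^ i • rr O a0 b0 a1 b1 i (j + 1) = 0
    rcases i with _ | i
    · show (O.g⁻¹) ^ 0 • (0 : M) + (O.X0 ((O.g⁻¹) ^ 0 • a0 0 j) + O.X1 ((O.g⁻¹) ^ 0 • b0 0 j)) -
        O.c (j + 1) • (O.g⁻¹) ^ 0 • ((O.c (j + 1))⁻¹ • (O.X0 (a0 0 j) + O.X1 (b0 0 j)) - 0) = 0
      simp only [pow_zero, one_smul, sub_zero, zero_add, csm, sub_self]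
    · have h1 := cc_d2 O a0 b0 a1 b1 i j
      show (O.g⁻¹) ^ (i + 1) • (O.c (i + 1))⁻¹ • cc O (d2a O a0 b0 a1 b1) (d2b O a0 b0 a1 b1) i j +
        (O.X0 ((O.g⁻¹) ^ (i + 1) • a0 (i + 1) j) + O.X1 ((O.g⁻¹) ^ (i + 1) • b0 (i + 1) j)) -
          O.c (j + 1) • (O.g⁻¹) ^ (i + 1) • (0 - (O.c (i + 1))⁻¹ • cc O a1 b1 i (j + 1)) = 0
      rw [h1, smul_sub, smul_neg, csm', map_smul, map_smul]
      simp only [cc]
      module
  linear_combination (norm := module) e3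

/-! ### kernels and surjectivity in pairs -/

variable {O}

theorem ker_mu (h : Filt O F) {P A : ℤ} (hP : 0 ≤ P) (n : ℕ) {f : Fn M}
    (hf : ∀ i j, i + j = n → f i j ∈ F P A) (h0 : mu O n f = 0) :
    ∃ e : Fn M, (∀ i j, e i j ∈ F (P - 1) A) ∧
      ∀ i j, i + j = n → f i j = O.X1 (sx0 e i j) - O.X0 (sx1 e i j) := by
  obtain ⟨r, hr, hr0, hk⟩ := KosX417.ev_ker (h.kos A) hP n (fun a => f a (n - a))
    (fun a ha => hf a (n - a) (by omega)) h0
  refine ⟨fun i _ => r i, fun i _ => hr i, fun i j hij => ?_⟩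
  have h1 := hk i (by omega)
  have h2 : n - i = j := by omega
  simp only [h2] at h1
  rw [h1]
  rcases i with _ | i <;> rcases j with _ | j
  · rw [KosX417.kap_zero, hr0 0 (by omega)]
    simp [sx0, sx1]
  · rw [KosX417.kap_zero]
    simp [sx0, sx1]
  · rw [KosX417.kap_succ, hr0 (i + 1) (by omega)]
    simp [sx0, sx1]
  · rw [KosX417.kap_succ]
    simp [sx0, sx1]

theorem surj_mu (h : Filt O F) {P A : ℤ} (hP : 0 ≤ P) (n : ℕ) {y : M} (hy : y ∈ F (P + n) A) :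
    ∃ f : Fn M, (∀ i j, f i j ∈ F P A) ∧ mu O n f = y := by
  obtain ⟨m, hm, _, he⟩ := KosX417.ev_surj (h.kos A) hP n y hy
  exact ⟨fun i _ => m i, fun i _ => hm i, he⟩

theorem mu_mem (h : Filt O F) {P A : ℤ} (n : ℕ) {f : Fn M}
    (hf : ∀ i j, i + j = n → f i j ∈ F P A) : mu O n f ∈ F (P + n) A :=
  KosX417.ev_mem (h.kos A) n (fun a ha => hf a (n - a) (by omega))

theorem kinj (h : Filt O F) {α β : K} (hα : α ≠ 0) (hβ : β ≠ 0) (n : ℕ) {e : Fn M}
    (he : ∀ i j, i + j = n + 1 → α • O.X1 (sx0 e i j) - β • O.X0 (sx1 e i j) = 0) :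
    ∀ i j, i + j = n → e i j = 0 := by
  intro i
  induction i with
  | zero =>
    intro j hj
    have h1 := he 0 (j + 1) (by omega)
    simp only [sx0, sx1, map_zero, smul_zero, zero_sub, neg_eq_zero, smul_eq_zero, hβ,
      false_or] at h1
    exact h.ix0 _ h1
  | succ i ih =>
    intro j hj
    have h1 := he (i + 1) (j + 1) (by omega)
    simp only [sx0, sx1] at h1
    rw [ih (j + 1) (by omega), map_zero, smul_zero, zero_sub, neg_eq_zero, smul_eq_zero] at h1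
    exact h.ix0 _ (h1.resolve_left hβ)

/-! ### exactness -/

/-- exactness at `C3` -/
theorem ex3 (h : Filt O F) (n : ℕ) {e : Fn M}
    (h0 : ∀ i j, i + j = n → d3a0 O e i j = 0 ∧ d3b0 O e i j = 0 ∧ d3a1 O e i j = 0 ∧
      d3b1 O e i j = 0) : ∀ i j, i + j = n → e i j = 0 := by
  refine kinj h one_ne_zero one_ne_zero n fun i j hij => ?_
  rw [one_smul, one_smul]
  rcases i with _ | i
  · rcases j with _ | j
    · simp [sx0, sx1]
    · obtain ⟨h1, h2, -, -⟩ := h0 0 j (by omega)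
      have h3 : O.X0 (d3a0 O e 0 j) + O.X1 (d3b0 O e 0 j) = 0 := by
        rw [h1, h2, map_zero, map_zero, add_zero]
      simp only [d3a0, d3b0, dd1, sx0, sx1, map_sub, map_add, map_neg, map_smul, O.rx, smul_zero,
        map_zero, add_zero, sub_zero, zero_sub] at h3 ⊢
      have h4 : O.c (j + 1) • O.X0 (e 0 j) = 0 := by
        linear_combination (norm := module) -h3
      rw [smul_eq_zero] at h4
      rw [h4.resolve_left (O.cne j), neg_zero]
  · obtain ⟨-, -, h1, h2⟩ := h0 i j (by omega)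
    have h3 : O.X0 (d3a1 O e i j) + O.X1 (d3b1 O e i j) = 0 := by
      rw [h1, h2, map_zero, map_zero, add_zero]
    simp only [d3a1, d3b1, dd0, sx0, map_sub, map_add, map_neg, map_smul, O.rx] at h3 ⊢
    have h4 : O.c (i + 1) • (O.X1 (e i j) - O.X0 (sx1 e (i + 1) j)) = 0 := by
      linear_combination (norm := module) -h3
    rw [smul_eq_zero] at h4
    exact h4.resolve_left (O.cne i)

/-- the membership conditions of `K2[m]`, `m + k = n` -/
def InK (F : ℤ → ℤ → Submodule K M) (P A B : ℤ) (m k : ℕ) (a b : Fn M) : Prop :=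
  ∀ i j, i + j + k = m → a i j ∈ F P A ∧ b i j ∈ F P A ∧ cc O a b i j ∈ F (P + 1) B

theorem cc_syz (e : Fn M) (i j : ℕ) : cc O (ap O.X1 e) (-ap O.X0 e) i j = 0 := by
  show O.X0 (O.X1 (e i j)) + O.X1 (-O.X0 (e i j)) = 0
  rw [map_neg, O.rx, add_neg_cancel]

/-- exactness at `C0` -/
theorem ex0 (h : Filt O F) {P A : ℤ} (hP : 0 ≤ P) (n : ℕ) {f : Fn M}
    (hf : ∀ i j, i + j = n → f i j ∈ F P A) {f0 f1 : M} (h0 : f0 ∈ F (P + n + 1) (A - 1))
    (h1 : f1 ∈ F (P + n + 1) (A - 1)) (hm : mu O n f = O.D0 f0 + O.D1 f1) :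
    ∃ a b q0 q1 : Fn M, (∀ i j, a i j ∈ F P A ∧ b i j ∈ F P A ∧ cc O a b i j = 0) ∧
      (∀ i j, q0 i j ∈ F P (A - 1) ∧ q1 i j ∈ F P (A - 1)) ∧
      ∀ i j, i + j = n → f i j = d1 O a b q0 q1 i j := by
  obtain ⟨k0, hk0, e0⟩ := surj_mu (P := P) h hP (n + 1) (y := f0)
    (by rwa [show P + ((n + 1 : ℕ) : ℤ) = P + n + 1 by push_cast; ring])
  obtain ⟨k1, hk1, e1⟩ := surj_mu (P := P) h hP (n + 1) (y := f1)
    (by rwa [show P + ((n + 1 : ℕ) : ℤ) = P + n + 1 by push_cast; ring])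
  let q0 : Fn M := fun i j => O.g ^ i • k0 i j
  let q1 : Fn M := fun i j => O.g ^ j • k1 i j
  have hq0 : ∀ i j, q0 i j ∈ F P (A - 1) := fun i j => Submodule.smul_mem _ _ (hk0 i j)
  have hq1 : ∀ i j, q1 i j ∈ F P (A - 1) := fun i j => Submodule.smul_mem _ _ (hk1 i j)
  have hg : ∀ i : ℕ, (O.g⁻¹) ^ i * O.g ^ i = 1 := fun i => by
    rw [← mul_pow, inv_mul_cancel₀ O.hg, one_pow]
  have t0q : t0 O q0 = k0 := by
    funext i j
    show (O.g⁻¹) ^ i • O.g ^ i • k0 i j = k0 i j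
    rw [smul_smul, hg, one_smul]
  have t1q : t1 O q1 = k1 := by
    funext i j
    show (O.g⁻¹) ^ j • O.g ^ j • k1 i j = k1 i j
    rw [smul_smul, hg, one_smul]
  have hz : mu O n (f - d1 O 0 0 q0 q1) = 0 := by
    rw [mu_sub, mu_d1, t0q, t1q, e0, e1, hm]
    have e2 : t0 O (I0 O.c (cc O (0 : Fn M) 0)) = 0 := by
      funext i j
      rcases i with _ | i
      · exact smul_zero _
      · show (O.g⁻¹) ^ (i + 1) • (O.c (i + 1))⁻¹ • (O.X0 0 + O.X1 0) = (0 : M)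
        rw [map_zero, map_zero, add_zero, smul_zero, smul_zero]
    rw [e2, mu_z, zero_add, sub_self]
  have hmono : ∀ {P : ℤ} {m : M}, m ∈ F P (A - 1) → m ∈ F P A := by
    intro P m hm
    have := h.mono hm
    rwa [sub_add_cancel] at this
  have hmem : ∀ i j, i + j = n → (f - d1 O 0 0 q0 q1) i j ∈ F P A := by
    intro i j hij
    refine Submodule.sub_mem _ (hf i j hij) ?_
    have a0 : ∀ {m : M}, m ∈ F P (A - 1) → O.X0 (O.D0 m) ∈ F P A := fun {m} hm => by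
      have := h.mx0 (h.md0 hm)
      rwa [sub_add_cancel, sub_add_cancel] at this
    have a1 : ∀ {m : M}, m ∈ F P (A - 1) → O.X1 (O.D0 m) ∈ F P A := fun {m} hm => by
      have := h.mx1 (h.md0 hm)
      rwa [sub_add_cancel, sub_add_cancel] at this
    have a2 : ∀ {m : M}, m ∈ F P (A - 1) → O.X0 (O.D1 m) ∈ F P A := fun {m} hm => by
      have := h.mx0 (h.md1 hm)
      rwa [sub_add_cancel, sub_add_cancel] at this
    have a3 : ∀ {m : M}, m ∈ F P (A - 1) → O.X1 (O.D1 m) ∈ F P A := fun {m} hm => by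
      have := h.mx1 (h.md1 hm)
      rwa [sub_add_cancel, sub_add_cancel] at this
    have z1 : O.D0 (I0 O.c (cc O (0 : Fn M) 0) i j) - sx0 (0 : Fn M) i j - sx1 (0 : Fn M) i j =
        0 := by
      rcases i with _ | i <;> rcases j with _ | j <;> simp [I0, sx0, sx1, cc]
    show O.D0 (I0 O.c (cc O (0 : Fn M) 0) i j) - sx0 (0 : Fn M) i j - sx1 (0 : Fn M) i j
      + (xi O (ap O.D0 q0) i j - dd0 O.c q0 i j) + (xi O (ap O.D1 q1) i j - dd1 O.c q1 i j) ∈ F P A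
    rw [z1, zero_add]
    have z2 : xi O (ap O.D0 q0) i j ∈ F P A := by
      rcases i with _ | i
      · exact add_mem (a0 (hq0 _ _)) (a1 (hq0 _ _))
      · exact a0 (hq0 _ _)
    have z3 : xi O (ap O.D1 q1) i j ∈ F P A := by
      rcases i with _ | i
      · exact add_mem (a2 (hq1 _ _)) (a3 (hq1 _ _))
      · exact a2 (hq1 _ _)
    exact add_mem (Submodule.sub_mem _ z2 (Submodule.smul_mem _ _ (hmono (hq0 _ _))))
      (Submodule.sub_mem _ z3 (Submodule.smul_mem _ _ (hmono (hq1 _ _))))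
  obtain ⟨e, he, hk⟩ := ker_mu h hP n hmem hz
  refine ⟨-ap O.X1 e, ap O.X0 e, q0, q1, fun i j => ⟨?_, ?_, ?_⟩, fun i j => ⟨hq0 i j, hq1 i j⟩,
    fun i j hij => ?_⟩
  · have := h.mx1 (he i j)
    rw [sub_add_cancel] at this
    exact Submodule.neg_mem _ this
  · have := h.mx0 (he i j)
    rwa [sub_add_cancel] at this
  · show O.X0 (-O.X1 (e i j)) + O.X1 (O.X0 (e i j)) = 0
    rw [map_neg, O.rx, neg_add_cancel]
  · have h2 := hk i j hij
    have h3 : f i j - d1 O 0 0 q0 q1 i j = O.X1 (sx0 e i j) - O.X0 (sx1 e i j) := h2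
    rw [sub_eq_iff_eq_add] at h3
    rw [h3]
    have c0 : ∀ i j, I0 O.c (cc O (-ap O.X1 e) (ap O.X0 e)) i j = 0 := by
      intro i j
      rcases i with _ | i
      · rfl
      · show (O.c (i + 1))⁻¹ • (O.X0 (-O.X1 (e i j)) + O.X1 (O.X0 (e i j))) = 0
        rw [map_neg, O.rx, neg_add_cancel, smul_zero]
    have c1 : ∀ i j, I0 O.c (cc O (0 : Fn M) 0) i j = 0 := by
      intro i j
      rcases i with _ | i
      · rfl
      · show (O.c (i + 1))⁻¹ • (O.X0 0 + O.X1 0) = (0 : M)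
        rw [map_zero, map_zero, add_zero, smul_zero]
    have c2 : sx0 (-ap O.X1 e) i j = - O.X1 (sx0 e i j) := by
      rcases i with _ | i
      · show (0 : M) = - O.X1 0
        rw [map_zero, neg_zero]
      · rfl
    have c3 : sx1 (ap O.X0 e) i j = O.X0 (sx1 e i j) := by
      rcases j with _ | j
      · exact (map_zero _).symm
      · rfl
    have c4 : sx0 (0 : Fn M) i j = 0 := by rcases i with _ | i <;> rfl
    have c5 : sx1 (0 : Fn M) i j = 0 := by rcases j with _ | j <;> rfl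
    simp only [d1, c0, c1, c2, c3, c4, c5, map_zero]
    abel

/-- a row with `c = 0` killed by a twisted `d2q` / `d2r` vanishes -/
theorem syz_zero (h : Filt O F) {P A : ℤ} (hP : 0 ≤ P) {α β : K} (hα : α ≠ 0) (hβ : β ≠ 0)
    (n : ℕ) {a b : Fn M} (ha : ∀ i j, i + j = n → a i j ∈ F P A ∧ b i j ∈ F P A)
    (hc : ∀ i j, i + j = n → cc O a b i j = 0)
    (h0 : ∀ i j, i + j = n + 1 → α • sx0 a i j + β • sx1 b i j = 0) :
    ∀ i j, i + j = n → a i j = 0 ∧ b i j = 0 := by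
  have H : ∀ i j, ∃ e : M, i + j = n → e ∈ F (P - 1) A ∧ a i j = O.X1 e ∧ b i j = - O.X0 e := by
    intro i j
    by_cases hij : i + j = n
    · obtain ⟨e, he, e1, e2⟩ := h.kerx hP (ha i j hij).1 (ha i j hij).2 (hc i j hij)
      exact ⟨e, fun _ => ⟨he, e1, e2⟩⟩
    · exact ⟨0, fun hh => absurd hh hij⟩
  choose e he using H
  have hz : ∀ i j, i + j = n → e i j = 0 := by
    refine kinj h hα hβ n fun i j hij => ?_
    rw [← h0 i j hij, sub_eq_add_neg]
    congr 1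
    · rcases i with _ | i
      · show α • O.X1 0 = α • (0 : M)
        rw [map_zero]
      · show α • O.X1 (e i j) = α • a i j
        rw [(he i j (by omega)).2.1]
    · rcases j with _ | j
      · show - (β • O.X0 0) = β • (0 : M)
        rw [map_zero, smul_zero, neg_zero]
      · show - (β • O.X0 (e i j)) = β • b i j
        rw [(he i j (by omega)).2.2, smul_neg]
  intro i j hij
  have h1 := he i j hij
  rw [hz i j hij, map_zero, map_zero, neg_zero] at h1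
  exact h1.2

theorem mem_X1D1 (h : Filt O F) {P A : ℤ} {m : M} (hm : m ∈ F P A) :
    O.X1 (O.D1 m) ∈ F P (A + 1) := by
  have := h.mx1 (h.md1 hm)
  rwa [sub_add_cancel] at this

theorem mem_X0D1 (h : Filt O F) {P A : ℤ} {m : M} (hm : m ∈ F P A) :
    O.X0 (O.D1 m) ∈ F P (A + 1) := by
  have := h.mx0 (h.md1 hm)
  rwa [sub_add_cancel] at this

theorem mem_X1D0 (h : Filt O F) {P A : ℤ} {m : M} (hm : m ∈ F P A) :
    O.X1 (O.D0 m) ∈ F P (A + 1) := by
  have := h.mx1 (h.md0 hm)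
  rwa [sub_add_cancel] at this

theorem mem_X0D0 (h : Filt O F) {P A : ℤ} {m : M} (hm : m ∈ F P A) :
    O.X0 (O.D0 m) ∈ F P (A + 1) := by
  have := h.mx0 (h.md0 hm)
  rwa [sub_add_cancel] at this

/-- membership of `d3` -/
theorem d3_mem (h : Filt O F) {P A : ℤ} (n : ℕ) {e : Fn M}
    (he : ∀ i j, i + j = n → e i j ∈ F P (A - 2)) (i j : ℕ) (hij : i + j = n) :
    (d3a0 O e i j ∈ F P (A - 1) ∧ d3b0 O e i j ∈ F P (A - 1) ∧
      cc O (d3a0 O e) (d3b0 O e) i j ∈ F (P + 1) (A - 2)) ∧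
    (d3a1 O e i j ∈ F P (A - 1) ∧ d3b1 O e i j ∈ F P (A - 1) ∧
      cc O (d3a1 O e) (d3b1 O e) i j ∈ F (P + 1) (A - 2)) := by
  have hA : A - 2 + 1 = A - 1 := by ring
  have s1 : ∀ {m : M}, m ∈ F P (A - 2) → m ∈ F P (A - 1) := fun {m} hm => by
    have := h.mono hm
    rwa [hA] at this
  have m1 := mem_X1D1 h (he i j hij)
  have m2 := mem_X0D1 h (he i j hij)
  have m3 := mem_X1D0 h (he i j hij)
  have m4 := mem_X0D0 h (he i j hij)
  rw [hA] at m1 m2 m3 m4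
  have k1 : dd1 O.c (sx1 e) i j ∈ F P (A - 2) :=
    Submodule.smul_mem _ _ (he i j hij)
  have k4 : dd0 O.c (sx0 e) i j ∈ F P (A - 2) :=
    Submodule.smul_mem _ _ (he i j hij)
  have k2 : dd1 O.c (sx0 e) i j ∈ F P (A - 2) := by
    refine Submodule.smul_mem _ _ ?_
    rcases i with _ | i
    · exact zero_mem _
    · exact he i (j + 1) (by omega)
  have k3 : dd0 O.c (sx1 e) i j ∈ F P (A - 2) := by
    refine Submodule.smul_mem _ _ ?_
    rcases j with _ | j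
    · exact zero_mem _
    · exact he (i + 1) j (by omega)
  refine ⟨⟨sub_mem m1 (s1 k1), add_mem (neg_mem m2) (s1 k2), ?_⟩,
    ⟨add_mem (neg_mem m3) (s1 k3), sub_mem m4 (s1 k4), ?_⟩⟩
  · have : cc O (d3a0 O e) (d3b0 O e) i j =
        O.X1 (dd1 O.c (sx0 e) i j) - O.X0 (dd1 O.c (sx1 e) i j) := by
      simp only [cc, d3a0, d3b0, map_add, map_sub, map_neg, O.rx]
      abel
    rw [this]
    exact sub_mem (h.mx1 k2) (h.mx0 k1)
  · have : cc O (d3a1 O e) (d3b1 O e) i j =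
        O.X0 (dd0 O.c (sx1 e) i j) - O.X1 (dd0 O.c (sx0 e) i j) := by
      simp only [cc, d3a1, d3b1, map_add, map_sub, map_neg, O.rx]
      abel
    rw [this]
    exact sub_mem (h.mx0 k3) (h.mx1 k4)

theorem rr_d3 (e : Fn M) (i j : ℕ) (hij : i + j ≠ 0) :
    rr O (d3a0 O e) (d3b0 O e) (d3a1 O e) (d3b1 O e) i j =
      O.X1 (sx0 e i j) - O.X0 (sx1 e i j) := by
  rcases i with _ | i
  · rcases j with _ | j
    · exact absurd rfl hij
    · show (O.c (j + 1))⁻¹ • (O.X0 (O.X1 (O.D1 (e 0 j)) - O.c (j + 1) • e 0 j) +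
        O.X1 (- O.X0 (O.D1 (e 0 j)) + O.c (j + 1) • (0 : M))) - 0 = O.X1 0 - O.X0 (e 0 j)
      simp only [map_add, map_sub, map_neg, map_smul, O.rx, map_zero, smul_zero, add_zero,
        sub_zero, zero_sub, smul_add, smul_sub, csm', smul_neg]
      abel
  · show 0 - (O.c (i + 1))⁻¹ • (O.X0 (- O.X1 (O.D0 (e i j)) + O.c (i + 1) • sx1 e (i + 1) j) +
        O.X1 (O.X0 (O.D0 (e i j)) - O.c (i + 1) • e i j)) =
        O.X1 (e i j) - O.X0 (sx1 e (i + 1) j)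
    simp only [map_add, map_sub, map_neg, map_smul, O.rx, smul_add, smul_sub, csm', smul_neg,
      zero_sub]
    abel

/-- membership of `rr` -/
theorem rr_mem (h : Filt O F) {P A : ℤ} (n : ℕ) {a0 b0 a1 b1 : Fn M}
    (h0 : ∀ i j, i + j = n → cc O a0 b0 i j ∈ F P A)
    (h1 : ∀ i j, i + j = n → cc O a1 b1 i j ∈ F P A) (i j : ℕ) (hij : i + j = n + 1) :
    rr O a0 b0 a1 b1 i j ∈ F P A := by
  rcases i with _ | i
  · rcases j with _ | j
    · exact sub_mem (zero_mem _) (zero_mem _)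
    · exact sub_mem (Submodule.smul_mem _ _ (h0 0 j (by omega))) (zero_mem _)
  · exact sub_mem (zero_mem _) (Submodule.smul_mem _ _ (h1 i j (by omega)))

theorem mu_tt (n : ℕ) (f : Fn M) : mu O n (t0 O (t1 O f)) = (O.g⁻¹) ^ n • mu O n f := by
  rw [← mu_smul]
  apply mu_congr
  intro i j hij
  show (O.g⁻¹) ^ i • (O.g⁻¹) ^ j • f i j = (O.g⁻¹) ^ n • f i j
  rw [smul_smul, ← pow_add, hij]

theorem rr_sub (a0 b0 a1 b1 a0' b0' a1' b1' : Fn M) (i j : ℕ) :
    rr O (a0 - a0') (b0 - b0') (a1 - a1') (b1 - b1') i j =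
      rr O a0 b0 a1 b1 i j - rr O a0' b0' a1' b1' i j := by
  rcases i with _ | i <;> rcases j with _ | j <;>
    simp only [rr, JJ, I0, cc, Pi.sub_apply, map_sub, smul_add, smul_sub] <;> module

theorem d2a_sub (a0 b0 a1 b1 a0' b0' a1' b1' : Fn M) (i j : ℕ) :
    d2a O (a0 - a0') (b0 - b0') (a1 - a1') (b1 - b1') i j =
      d2a O a0 b0 a1 b1 i j - d2a O a0' b0' a1' b1' i j := by
  simp only [d2a, dd0, dd1, rho, Pi.sub_apply, map_sub, smul_sub]
  module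

theorem d2b_sub (a0 b0 a1 b1 a0' b0' a1' b1' : Fn M) (i j : ℕ) :
    d2b O (a0 - a0') (b0 - b0') (a1 - a1') (b1 - b1') i j =
      d2b O a0 b0 a1 b1 i j - d2b O a0' b0' a1' b1' i j := by
  simp only [d2b, dd0, dd1, rho, Pi.sub_apply, map_sub, smul_sub]
  module

theorem sx0_sub (f f' : Fn M) (i j : ℕ) : sx0 (f - f') i j = sx0 f i j - sx0 f' i j := by
  rcases i with _ | i
  · exact (sub_zero _).symm
  · rfl

theorem sx1_sub (f f' : Fn M) (i j : ℕ) : sx1 (f - f') i j = sx1 f i j - sx1 f' i j := by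
  rcases j with _ | j
  · exact (sub_zero _).symm
  · rfl

theorem d2q_sub (a0 b0 a1 b1 a0' b0' a1' b1' : Fn M) (i j : ℕ) :
    d2q O (a0 - a0') (b0 - b0') (a1 - a1') (b1 - b1') i j =
      d2q O a0 b0 a1 b1 i j - d2q O a0' b0' a1' b1' i j := by
  simp only [d2q, rr_sub, sx0_sub, sx1_sub, map_sub, smul_sub]
  module

theorem d2r_sub (a0 b0 a1 b1 a0' b0' a1' b1' : Fn M) (i j : ℕ) :
    d2r O (a0 - a0') (b0 - b0') (a1 - a1') (b1 - b1') i j =
      d2r O a0 b0 a1 b1 i j - d2r O a0' b0' a1' b1' i j := by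
  simp only [d2r, rr_sub, sx0_sub, sx1_sub, map_sub, smul_sub]
  module

/-- exactness at `C2` -/
theorem ex2 (h : Filt O F) {P A : ℤ} (hP : 0 ≤ P) (n : ℕ) {a0 b0 a1 b1 : Fn M}
    (hm0 : ∀ i j, i + j = n → a0 i j ∈ F P (A - 1) ∧ b0 i j ∈ F P (A - 1) ∧
      cc O a0 b0 i j ∈ F (P + 1) (A - 2))
    (hm1 : ∀ i j, i + j = n → a1 i j ∈ F P (A - 1) ∧ b1 i j ∈ F P (A - 1) ∧
      cc O a1 b1 i j ∈ F (P + 1) (A - 2))
    (hk : ∀ i j, i + j + 1 = n → d2a O a0 b0 a1 b1 i j = 0 ∧ d2b O a0 b0 a1 b1 i j = 0)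
    (hq : ∀ i j, i + j = n + 1 → d2q O a0 b0 a1 b1 i j = 0 ∧ d2r O a0 b0 a1 b1 i j = 0) :
    ∃ e : Fn M, (∀ i j, e i j ∈ F P (A - 2)) ∧ ∀ i j, i + j = n →
      a0 i j = d3a0 O e i j ∧ b0 i j = d3b0 O e i j ∧
      a1 i j = d3a1 O e i j ∧ b1 i j = d3b1 O e i j := by
  have hr := rr_mem h n (fun i j hij => (hm0 i j hij).2.2) (fun i j hij => (hm1 i j hij).2.2)
  -- the value of `mu r`
  have h1 := F1_d2 O n a0 b0 a1 b1
  have h2 : mu O (n + 1) (t1 O (d2r O a0 b0 a1 b1)) = 0 := by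
    rw [← mu_z O (n + 1)]
    apply mu_congr
    intro i j hij
    show (O.g⁻¹) ^ j • d2r O a0 b0 a1 b1 i j = 0
    rw [(hq i j hij).2, smul_zero]
  rw [h2, mu_tt, map_smul] at h1
  have h3 : mu O (n + 1) (rr O a0 b0 a1 b1) = 0 := by
    have h4 : O.D0 (mu O (n + 1) (rr O a0 b0 a1 b1)) = 0 := by
      have := h1.symm
      rw [smul_eq_zero] at this
      exact this.resolve_left (pow_ne_zero _ (inv_ne_zero O.hg))
    exact h.id0 (mu_mem h (n + 1) hr) h4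
  obtain ⟨e, he, hke⟩ := ker_mu h (by omega) (n + 1) hr h3
  rw [add_sub_cancel_right] at he
  refine ⟨e, he, ?_⟩
  have hd := d3_mem h n (e := e) (A := A) (fun i j _ => he i j)
  -- subtract
  have hr' : ∀ i j, i + j = n + 1 →
      rr O (a0 - d3a0 O e) (b0 - d3b0 O e) (a1 - d3a1 O e) (b1 - d3b1 O e) i j = 0 := by
    intro i j hij
    rw [rr_sub, rr_d3 e i j (by omega), hke i j hij, sub_self]
  have hq' : ∀ i j, i + j = n + 1 →
      d2q O (a0 - d3a0 O e) (b0 - d3b0 O e) (a1 - d3a1 O e) (b1 - d3b1 O e) i j = 0 ∧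
      d2r O (a0 - d3a0 O e) (b0 - d3b0 O e) (a1 - d3a1 O e) (b1 - d3b1 O e) i j = 0 := by
    intro i j hij
    rw [d2q_sub, d2r_sub, d2q_d3, d2r_d3, (hq i j hij).1, (hq i j hij).2, sub_self]
    exact ⟨rfl, rfl⟩
  have hk' : ∀ i j, i + j + 1 = n →
      d2a O (a0 - d3a0 O e) (b0 - d3b0 O e) (a1 - d3a1 O e) (b1 - d3b1 O e) i j = 0 ∧
      d2b O (a0 - d3a0 O e) (b0 - d3b0 O e) (a1 - d3a1 O e) (b1 - d3b1 O e) i j = 0 := by
    intro i j hij
    rw [d2a_sub, d2b_sub, d2a_d3, d2b_d3, (hk i j hij).1, (hk i j hij).2, sub_self]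
    exact ⟨rfl, rfl⟩
  have hc1 : ∀ i j, i + j = n → cc O (a1 - d3a1 O e) (b1 - d3b1 O e) i j = 0 := by
    intro i j hij
    have := hr' (i + 1) j (by omega)
    have h5 : (0 : M) - (O.c (i + 1))⁻¹ • cc O (a1 - d3a1 O e) (b1 - d3b1 O e) i j = 0 := this
    rw [zero_sub, neg_eq_zero, smul_eq_zero] at h5
    exact h5.resolve_left (inv_ne_zero (O.cne i))
  have hz1 := syz_zero h hP one_ne_zero O.hg n (a := a1 - d3a1 O e) (b := b1 - d3b1 O e)
    (fun i j hij => ⟨sub_mem (hm1 i j hij).1 (hd i j hij).2.1,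
      sub_mem (hm1 i j hij).2.1 (hd i j hij).2.2.1⟩) hc1
    (fun i j hij => by
      have h5 := (hq' i j hij).2
      unfold d2r at h5
      rw [hr' i j hij, map_zero, add_zero] at h5
      rw [one_smul]
      exact h5)
  have hc0 : ∀ i j, i + j = n → cc O (a0 - d3a0 O e) (b0 - d3b0 O e) i j = 0 := by
    intro i j hij
    rcases i with _ | i
    · have := hr' 0 (j + 1) (by omega)
      have h5 : (O.c (j + 1))⁻¹ • cc O (a0 - d3a0 O e) (b0 - d3b0 O e) 0 j - (0 : M) = 0 := this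
      rw [sub_zero, smul_eq_zero] at h5
      exact h5.resolve_left (inv_ne_zero (O.cne j))
    · have h5 := cc_d2 O (a0 - d3a0 O e) (b0 - d3b0 O e) (a1 - d3a1 O e) (b1 - d3b1 O e) i j
      have h6 : cc O (d2a O (a0 - d3a0 O e) (b0 - d3b0 O e) (a1 - d3a1 O e) (b1 - d3b1 O e))
          (d2b O (a0 - d3a0 O e) (b0 - d3b0 O e) (a1 - d3a1 O e) (b1 - d3b1 O e)) i j = 0 := by
        show O.X0 _ + O.X1 _ = 0
        rw [(hk' i j (by omega)).1, (hk' i j (by omega)).2, map_zero, map_zero, add_zero]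
      rw [h6, hc1 i (j + 1) (by omega), smul_zero, sub_zero] at h5
      have h7 := neg_eq_zero.1 h5.symm
      rw [smul_eq_zero] at h7
      exact h7.resolve_left (O.cne i)
  have hz0 := syz_zero h hP O.hg one_ne_zero n (a := a0 - d3a0 O e) (b := b0 - d3b0 O e)
    (fun i j hij => ⟨sub_mem (hm0 i j hij).1 (hd i j hij).1.1,
      sub_mem (hm0 i j hij).2.1 (hd i j hij).1.2.1⟩) hc0
    (fun i j hij => by
      have h5 := (hq' i j hij).1
      unfold d2q at h5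
      rw [hr' i j hij, map_zero, sub_zero] at h5
      rw [one_smul]
      exact h5)
  intro i j hij
  exact ⟨sub_eq_zero.1 (hz0 i j hij).1, sub_eq_zero.1 (hz0 i j hij).2,
    sub_eq_zero.1 (hz1 i j hij).1, sub_eq_zero.1 (hz1 i j hij).2⟩

theorem d2a_add (a0 b0 a1 b1 a0' b0' a1' b1' : Fn M) (i j : ℕ) :
    d2a O (a0 + a0') (b0 + b0') (a1 + a1') (b1 + b1') i j =
      d2a O a0 b0 a1 b1 i j + d2a O a0' b0' a1' b1' i j := by
  simp only [d2a, dd0, dd1, rho, Pi.add_apply, map_add, smul_add]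
  module

theorem d2b_add (a0 b0 a1 b1 a0' b0' a1' b1' : Fn M) (i j : ℕ) :
    d2b O (a0 + a0') (b0 + b0') (a1 + a1') (b1 + b1') i j =
      d2b O a0 b0 a1 b1 i j + d2b O a0' b0' a1' b1' i j := by
  simp only [d2b, dd0, dd1, rho, Pi.add_apply, map_add, smul_add]
  module

theorem rr_add (a0 b0 a1 b1 a0' b0' a1' b1' : Fn M) (i j : ℕ) :
    rr O (a0 + a0') (b0 + b0') (a1 + a1') (b1 + b1') i j =
      rr O a0 b0 a1 b1 i j + rr O a0' b0' a1' b1' i j := by
  rcases i with _ | i <;> rcases j with _ | j <;>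
    simp only [rr, JJ, I0, cc, Pi.add_apply, map_add, smul_add] <;> module

theorem sx0_add (f f' : Fn M) (i j : ℕ) : sx0 (f + f') i j = sx0 f i j + sx0 f' i j := by
  rcases i with _ | i
  · exact (add_zero _).symm
  · rfl

theorem sx1_add (f f' : Fn M) (i j : ℕ) : sx1 (f + f') i j = sx1 f i j + sx1 f' i j := by
  rcases j with _ | j
  · exact (add_zero _).symm
  · rfl

theorem d2q_add (a0 b0 a1 b1 a0' b0' a1' b1' : Fn M) (i j : ℕ) :
    d2q O (a0 + a0') (b0 + b0') (a1 + a1') (b1 + b1') i j =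
      d2q O a0 b0 a1 b1 i j + d2q O a0' b0' a1' b1' i j := by
  simp only [d2q, rr_add, sx0_add, sx1_add, map_add, smul_add]
  module

theorem d2r_add (a0 b0 a1 b1 a0' b0' a1' b1' : Fn M) (i j : ℕ) :
    d2r O (a0 + a0') (b0 + b0') (a1 + a1') (b1 + b1') i j =
      d2r O a0 b0 a1 b1 i j + d2r O a0' b0' a1' b1' i j := by
  simp only [d2r, rr_add, sx0_add, sx1_add, map_add, smul_add]
  module

theorem d1_sub (a b q0 q1 a' b' q0' q1' : Fn M) (i j : ℕ) :
    d1 O (a - a') (b - b') (q0 - q0') (q1 - q1') i j =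
      d1 O a b q0 q1 i j - d1 O a' b' q0' q1' i j := by
  rcases i with _ | i <;>
    simp only [d1, I0, cc, xi, ap, dd0, dd1, sx0_sub, sx1_sub, Pi.sub_apply, map_sub, map_add,
      smul_add, smul_sub, map_smul, map_zero] <;> module

/-- elements of `C2` -/
def C2 (O : Ops K M) (F : ℤ → ℤ → Submodule K M) (P A : ℤ) (n : ℕ) (a0 b0 a1 b1 : Fn M) : Prop :=
  ∀ i j, i + j = n → (a0 i j ∈ F P (A - 1) ∧ b0 i j ∈ F P (A - 1) ∧
    cc O a0 b0 i j ∈ F (P + 1) (A - 2)) ∧ (a1 i j ∈ F P (A - 1) ∧ b1 i j ∈ F P (A - 1) ∧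
    cc O a1 b1 i j ∈ F (P + 1) (A - 2))

/-- elements of `C1` -/
structure C1 (O : Ops K M) (F : ℤ → ℤ → Submodule K M) (P A : ℤ) (n : ℕ) (a b q0 q1 : Fn M) :
    Prop where
  k : ∀ i j, i + j + 1 = n → a i j ∈ F P A ∧ b i j ∈ F P A ∧ cc O a b i j ∈ F (P + 1) (A - 2)
  q : ∀ i j, i + j = n + 1 → q0 i j ∈ F P (A - 1) ∧ q1 i j ∈ F P (A - 1)

theorem d2_mem (h : Filt O F) {P A : ℤ} (n : ℕ) {a0 b0 a1 b1 : Fn M} (hz : C2 O F P A n a0 b0 a1 b1) :
    C1 O F P A n (d2a O a0 b0 a1 b1) (d2b O a0 b0 a1 b1) (d2q O a0 b0 a1 b1)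
      (d2r O a0 b0 a1 b1) := by
  have up : ∀ {m : M}, m ∈ F P (A - 1) → m ∈ F P A := fun {m} hm => by
    have := h.mono hm
    rwa [sub_add_cancel] at this
  have hr := rr_mem h n (fun i j hij => (hz i j hij).1.2.2) (fun i j hij => (hz i j hij).2.2.2)
  refine ⟨fun i j hij => ⟨?_, ?_, ?_⟩, fun i j hij => ⟨?_, ?_⟩⟩
  · have m1 := mem_X1D0 h (hz (i + 1) j (by omega)).1.2.1
    have m2 := mem_X1D1 h (hz (i + 1) j (by omega)).2.2.1
    rw [sub_add_cancel] at m1 m2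
    exact sub_mem (sub_mem (sub_mem (neg_mem (Submodule.smul_mem _ _
      (up (hz (i + 1) j (by omega)).1.1))) m1)
      (Submodule.smul_mem _ _ (up (hz i (j + 1) (by omega)).2.1))) (Submodule.smul_mem _ _ m2)
  · have m1 := mem_X0D0 h (hz (i + 1) j (by omega)).1.2.1
    have m2 := mem_X0D1 h (hz (i + 1) j (by omega)).2.2.1
    rw [sub_add_cancel] at m1 m2
    exact add_mem (sub_mem (add_mem (neg_mem (Submodule.smul_mem _ _
      (up (hz (i + 1) j (by omega)).1.2.1))) m1)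
      (Submodule.smul_mem _ _ (up (hz i (j + 1) (by omega)).2.2.1))) (Submodule.smul_mem _ _ m2)
  · rw [cc_d2]
    exact sub_mem (neg_mem (Submodule.smul_mem _ _ (hz (i + 1) j (by omega)).1.2.2))
      (Submodule.smul_mem _ _ (hz i (j + 1) (by omega)).2.2.2)
  · have m1 := h.md1 (hr i j hij)
    rw [add_sub_cancel_right, show A - 2 + 1 = A - 1 by ring] at m1
    refine sub_mem (add_mem (Submodule.smul_mem _ _ ?_) ?_) m1
    · rcases i with _ | i
      · exact zero_mem _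
      · exact (hz i j (by omega)).1.1
    · rcases j with _ | j
      · exact zero_mem _
      · exact (hz i j (by omega)).1.2.1
  · have m1 := h.md0 (hr i j hij)
    rw [add_sub_cancel_right, show A - 2 + 1 = A - 1 by ring] at m1
    refine add_mem (add_mem ?_ (Submodule.smul_mem _ _ ?_)) m1
    · rcases i with _ | i
      · exact zero_mem _
      · exact (hz i j (by omega)).2.1
    · rcases j with _ | j
      · exact zero_mem _
      · exact (hz i j (by omega)).2.2.1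

theorem cc_sub (a b a' b' : Fn M) (i j : ℕ) :
    cc O (a - a') (b - b') i j = cc O a b i j - cc O a' b' i j := by
  simp only [cc, Pi.sub_apply, map_sub]
  abel

theorem C1.sub {P A : ℤ} {n : ℕ} {a b q0 q1 a' b' q0' q1' : Fn M}
    (h : C1 O F P A n a b q0 q1) (h' : C1 O F P A n a' b' q0' q1') :
    C1 O F P A n (a - a') (b - b') (q0 - q0') (q1 - q1') where
  k i j hij := ⟨sub_mem (h.k i j hij).1 (h'.k i j hij).1, sub_mem (h.k i j hij).2.1
    (h'.k i j hij).2.1, by rw [cc_sub]; exact sub_mem (h.k i j hij).2.2 (h'.k i j hij).2.2⟩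
  q i j hij := ⟨sub_mem (h.q i j hij).1 (h'.q i j hij).1, sub_mem (h.q i j hij).2 (h'.q i j hij).2⟩

/-- boundaries in degree 1 -/
def Bdy (O : Ops K M) (F : ℤ → ℤ → Submodule K M) (P A : ℤ) (n : ℕ) (a b q0 q1 : Fn M) : Prop :=
  ∃ a0 b0 a1 b1 : Fn M, C2 O F P A n a0 b0 a1 b1 ∧
    (∀ i j, i + j + 1 = n → a i j = d2a O a0 b0 a1 b1 i j ∧ b i j = d2b O a0 b0 a1 b1 i j) ∧
    ∀ i j, i + j = n + 1 → q0 i j = d2q O a0 b0 a1 b1 i j ∧ q1 i j = d2r O a0 b0 a1 b1 i j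

theorem Bdy.of_sub {P A : ℤ} {n : ℕ} {a b q0 q1 a0 b0 a1 b1 : Fn M}
    (hz : C2 O F P A n a0 b0 a1 b1)
    (hB : Bdy O F P A n (a - d2a O a0 b0 a1 b1) (b - d2b O a0 b0 a1 b1)
      (q0 - d2q O a0 b0 a1 b1) (q1 - d2r O a0 b0 a1 b1)) : Bdy O F P A n a b q0 q1 := by
  obtain ⟨a0', b0', a1', b1', hm, hk, hq⟩ := hB
  have cadd : ∀ a b a' b' : Fn M, ∀ i j, cc O (a + a') (b + b') i j =
      cc O a b i j + cc O a' b' i j := by
    intro a b a' b' i j
    simp only [cc, Pi.add_apply, map_add]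
    abel
  refine ⟨a0' + a0, b0' + b0, a1' + a1, b1' + b1, fun i j hij => ⟨⟨?_, ?_, ?_⟩, ?_, ?_, ?_⟩,
    fun i j hij => ⟨?_, ?_⟩, fun i j hij => ⟨?_, ?_⟩⟩
  · exact add_mem (hm i j hij).1.1 (hz i j hij).1.1
  · exact add_mem (hm i j hij).1.2.1 (hz i j hij).1.2.1
  · rw [cadd]; exact add_mem (hm i j hij).1.2.2 (hz i j hij).1.2.2
  · exact add_mem (hm i j hij).2.1 (hz i j hij).2.1
  · exact add_mem (hm i j hij).2.2.1 (hz i j hij).2.2.1
  · rw [cadd]; exact add_mem (hm i j hij).2.2.2 (hz i j hij).2.2.2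
  · rw [d2a_add, ← (hk i j hij).1]; exact (sub_add_cancel _ _).symm
  · rw [d2b_add, ← (hk i j hij).2]; exact (sub_add_cancel _ _).symm
  · rw [d2q_add, ← (hq i j hij).1]; exact (sub_add_cancel _ _).symm
  · rw [d2r_add, ← (hq i j hij).2]; exact (sub_add_cancel _ _).symm

/-- the invariant `f0` -/
def G0 (O : Ops K M) (n : ℕ) (a b q0 : Fn M) : M :=
  mu O n (t0 O (I0 O.c (cc O a b))) + mu O (n + 1) (t0 O q0)

theorem G0_sub (n : ℕ) (a b q0 a' b' q0' : Fn M) :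
    G0 O n (a - a') (b - b') (q0 - q0') = G0 O n a b q0 - G0 O n a' b' q0' := by
  have e1 : t0 O (I0 O.c (cc O (a - a') (b - b'))) =
      t0 O (I0 O.c (cc O a b)) - t0 O (I0 O.c (cc O a' b')) := by
    funext i j
    rcases i with _ | i
    · show (O.g⁻¹) ^ 0 • (0 : M) = (O.g⁻¹) ^ 0 • (0 : M) - (O.g⁻¹) ^ 0 • (0 : M)
      rw [sub_self, smul_zero]
    · show (O.g⁻¹) ^ (i + 1) • (O.c (i + 1))⁻¹ • cc O (a - a') (b - b') i j = _
      rw [cc_sub, smul_sub, smul_sub]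
      rfl
  have e2 : t0 O (q0 - q0') = t0 O q0 - t0 O q0' := by
    funext i j
    exact smul_sub _ _ _
  unfold G0
  rw [e1, e2, mu_sub, mu_sub]
  abel

/-- last step -/
theorem ex1_last (h : Filt O F) {P A : ℤ} (hP : 0 ≤ P) (n : ℕ) {a b q0 q1 : Fn M}
    (hz : C1 O F P A n a b q0 q1) (hd : ∀ i j, i + j = n → d1 O a b q0 q1 i j = 0)
    (hc : ∀ i j, i + j + 1 = n → cc O a b i j = 0)
    (hq : ∀ i j, i + j = n + 1 → q0 i j = 0 ∧ q1 i j = 0) : Bdy O F P A n a b q0 q1 := by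
  have hab : ∀ i j, i + j + 1 = n → a i j = 0 ∧ b i j = 0 := by
    rcases n with _ | m
    · intro i j hij
      omega
    · have hs : ∀ i j, i + j = m + 1 → (1 : K) • sx0 a i j + (1 : K) • sx1 b i j = 0 := by
        intro i j hij
        have h1 := hd i j hij
        rw [one_smul, one_smul]
        have z1 : I0 O.c (cc O a b) i j = 0 := by
          rcases i with _ | i
          · rfl
          · show (O.c (i + 1))⁻¹ • cc O a b i j = 0
            rw [hc i j (by omega), smul_zero]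
        have z2 : xi O (ap O.D0 q0) i j = 0 := by
          rcases i with _ | i
          · show O.X0 (O.D0 (q0 1 j)) + O.X1 (O.D0 (q0 0 (j + 1))) = 0
            rw [(hq 1 j (by omega)).1, (hq 0 (j + 1) (by omega)).1]
            simp
          · show O.X0 (O.D0 (q0 (i + 2) j)) = 0
            rw [(hq (i + 2) j (by omega)).1]
            simp
        have z3 : xi O (ap O.D1 q1) i j = 0 := by
          rcases i with _ | i
          · show O.X0 (O.D1 (q1 1 j)) + O.X1 (O.D1 (q1 0 (j + 1))) = 0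
            rw [(hq 1 j (by omega)).2, (hq 0 (j + 1) (by omega)).2]
            simp
          · show O.X0 (O.D1 (q1 (i + 2) j)) = 0
            rw [(hq (i + 2) j (by omega)).2]
            simp
        have z4 : dd0 O.c q0 i j = 0 := by
          show O.c (i + 1) • q0 (i + 1) j = 0
          rw [(hq (i + 1) j (by omega)).1, smul_zero]
        have z5 : dd1 O.c q1 i j = 0 := by
          show O.c (j + 1) • q1 i (j + 1) = 0
          rw [(hq i (j + 1) (by omega)).2, smul_zero]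
        unfold d1 at h1
        rw [z1, z2, z3, z4, z5, map_zero] at h1
        have h2 : sx0 a i j + sx1 b i j = - (0 - sx0 a i j - sx1 b i j + (0 - 0) + (0 - 0)) := by
          abel
        rw [h2, h1, neg_zero]
      intro i j hij
      exact syz_zero h hP one_ne_zero one_ne_zero m
        (fun i j hij => ⟨(hz.k i j (by omega)).1, (hz.k i j (by omega)).2.1⟩)
        (fun i j hij => hc i j (by omega)) hs i j (by omega)
  refine ⟨0, 0, 0, 0, fun i j _ => ?_, fun i j hij => ?_, fun i j hij => ?_⟩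
  · have : cc O (0 : Fn M) 0 i j = 0 := by simp [cc]
    rw [this]
    exact ⟨⟨zero_mem _, zero_mem _, zero_mem _⟩, zero_mem _, zero_mem _, zero_mem _⟩
  · rw [(hab i j hij).1, (hab i j hij).2]
    simp [d2a, d2b, dd0, dd1, rho]
  · rw [(hq i j hij).1, (hq i j hij).2]
    rcases i with _ | i <;> rcases j with _ | j <;>
      simp [d2q, d2r, sx0, sx1, rr, JJ, I0, cc]

theorem C1.rest (h : Filt O F) {P A : ℤ} {n : ℕ} {a b q0 q1 a0 b0 a1 b1 : Fn M}
    (hz : C1 O F P A n a b q0 q1) (hy : C2 O F P A n a0 b0 a1 b1) :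
    C1 O F P A n (a - d2a O a0 b0 a1 b1) (b - d2b O a0 b0 a1 b1)
      (q0 - d2q O a0 b0 a1 b1) (q1 - d2r O a0 b0 a1 b1) :=
  hz.sub (d2_mem h n hy)

theorem d1_rest {a b q0 q1 : Fn M} (a0 b0 a1 b1 : Fn M) {i j : ℕ}
    (hd : d1 O a b q0 q1 i j = 0) :
    d1 O (a - d2a O a0 b0 a1 b1) (b - d2b O a0 b0 a1 b1)
      (q0 - d2q O a0 b0 a1 b1) (q1 - d2r O a0 b0 a1 b1) i j = 0 := by
  rw [d1_sub, hd, d1_d2, sub_zero]

theorem rr_syz0 (e : Fn M) (i j : ℕ) : rr O (ap O.X1 e) (-ap O.X0 e) 0 0 i j = 0 := by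
  have h1 : ∀ i j, cc O (ap O.X1 e) (-ap O.X0 e) i j = 0 := cc_syz e
  rcases i with _ | i <;> rcases j with _ | j <;> simp [rr, JJ, I0, h1] <;> simp [cc]

theorem rr_syz1 (e : Fn M) (i j : ℕ) : rr O 0 0 (ap O.X1 e) (-ap O.X0 e) i j = 0 := by
  have h1 : ∀ i j, cc O (ap O.X1 e) (-ap O.X0 e) i j = 0 := cc_syz e
  rcases i with _ | i <;> rcases j with _ | j <;> simp [rr, JJ, I0, h1] <;> simp [cc]

/-- step 4 -/
theorem ex1_q0 (h : Filt O F) {P A : ℤ} (hP : 0 ≤ P) (n : ℕ) {a b q0 q1 : Fn M}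
    (hz : C1 O F P A n a b q0 q1) (hd : ∀ i j, i + j = n → d1 O a b q0 q1 i j = 0)
    (hc : ∀ i j, i + j + 1 = n → cc O a b i j = 0)
    (hq : ∀ i j, i + j = n + 1 → q1 i j = 0) (hmu : mu O (n + 1) (t0 O q0) = 0) :
    Bdy O F P A n a b q0 q1 := by
  obtain ⟨e, he, hk⟩ := ker_mu h hP (n + 1) (f := t0 O q0) (A := A - 1)
    (fun i j hij => Submodule.smul_mem _ _ (hz.q i j hij).1) hmu
  let ε : Fn M := fun i j => O.g ^ i • e i j
  have hε : ∀ i j, ε i j ∈ F (P - 1) (A - 1) := fun i j => Submodule.smul_mem _ _ (he i j)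
  have hX1 : ∀ i j, (ap O.X1 ε) i j ∈ F P (A - 1) := fun i j => by
    have := h.mx1 (hε i j)
    rwa [sub_add_cancel] at this
  have hX0 : ∀ i j, (-ap O.X0 ε) i j ∈ F P (A - 1) := fun i j => by
    have := h.mx0 (hε i j)
    rw [sub_add_cancel] at this
    exact neg_mem this
  have hy : C2 O F P A n (ap O.X1 ε) (-ap O.X0 ε) 0 0 := fun i j _ =>
    ⟨⟨hX1 i j, hX0 i j, by rw [cc_syz]; exact zero_mem _⟩, zero_mem _, zero_mem _, by
      have : cc O (0 : Fn M) 0 i j = 0 := by simp [cc]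
      rw [this]; exact zero_mem _⟩
  have hgi : ∀ i : ℕ, O.g ^ i * (O.g⁻¹) ^ i = 1 := fun i => by
    rw [← mul_pow, mul_inv_cancel₀ O.hg, one_pow]
  refine Bdy.of_sub hy (ex1_last h hP n (hz.rest h hy) (fun i j hij => d1_rest _ _ _ _ (hd i j hij))
    (fun i j hij => ?_) fun i j hij => ⟨?_, ?_⟩)
  · rw [cc_sub, cc_d2, hc i j hij, cc_syz]
    simp [cc]
  · show q0 i j - (O.g • sx0 (ap O.X1 ε) i j + sx1 (-ap O.X0 ε) i j - O.D1 (rr O _ _ _ _ i j)) = 0
    rw [rr_syz0, map_zero, sub_zero]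
    have h1 := hk i j hij
    have h2 : q0 i j = O.g ^ i • (O.X1 (sx0 e i j) - O.X0 (sx1 e i j)) := by
      rw [← h1]
      show _ = O.g ^ i • (O.g⁻¹) ^ i • q0 i j
      rw [smul_smul, hgi, one_smul]
    have h3 : O.g • sx0 (ap O.X1 ε) i j = O.g ^ i • O.X1 (sx0 e i j) := by
      rcases i with _ | i
      · show O.g • (0 : M) = O.g ^ 0 • O.X1 0
        rw [smul_zero, map_zero, smul_zero]
      · show O.g • O.X1 (O.g ^ i • e i j) = O.g ^ (i + 1) • O.X1 (e i j)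
        rw [map_smul, smul_smul, pow_succ']
    have h4 : sx1 (-ap O.X0 ε) i j = - (O.g ^ i • O.X0 (sx1 e i j)) := by
      rcases j with _ | j
      · show (0 : M) = - (O.g ^ i • O.X0 0)
        rw [map_zero, smul_zero, neg_zero]
      · show - O.X0 (O.g ^ i • e i j) = - (O.g ^ i • O.X0 (e i j))
        rw [map_smul]
    rw [h2, h3, h4, smul_sub]
    abel
  · show q1 i j - (sx0 (0 : Fn M) i j + O.g • sx1 (0 : Fn M) i j + O.D0 (rr O _ _ _ _ i j)) = 0
    rw [rr_syz0, map_zero, add_zero, hq i j hij]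
    rcases i with _ | i <;> rcases j with _ | j <;> simp [sx0, sx1]

theorem cc00 (i j : ℕ) : cc O (0 : Fn M) 0 i j = 0 := by simp [cc]

theorem t0_c (f : Fn M) (n : ℕ) (hf : ∀ i j, i + j + 1 = n → f i j = 0) :
    mu O n (t0 O (I0 O.c f)) = 0 := by
  rw [← mu_z O n]
  apply mu_congr
  intro i j hij
  rcases i with _ | i
  · exact smul_zero _
  · show (O.g⁻¹) ^ (i + 1) • (O.c (i + 1))⁻¹ • f i j = 0
    rw [hf i j (by omega), smul_zero, smul_zero]

/-- step 3 -/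
theorem ex1_c (h : Filt O F) {P A : ℤ} (hP : 0 ≤ P) (n : ℕ) {a b q0 q1 : Fn M}
    (hz : C1 O F P A n a b q0 q1) (hd : ∀ i j, i + j = n → d1 O a b q0 q1 i j = 0)
    (hq : ∀ i j, i + j = n + 1 → q1 i j = 0) (hG : G0 O n a b q0 = 0) :
    Bdy O F P A n a b q0 q1 := by
  have H : ∀ i j, ∃ u v : M, i + j + 1 = n → u ∈ F P (A - 2) ∧ v ∈ F P (A - 2) ∧
      - cc O a b i j = O.X0 u + O.X1 v := by
    intro i j
    by_cases hij : i + j + 1 = n
    · obtain ⟨u, hu, v, hv, e⟩ := h.surj hP (neg_mem (hz.k i j hij).2.2)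
      exact ⟨u, v, fun _ => ⟨hu, hv, e⟩⟩
    · exact ⟨0, 0, fun hh => absurd hh hij⟩
  choose α β hαβ using H
  have up : ∀ {m : M}, m ∈ F P (A - 2) → m ∈ F P (A - 1) := fun {m} hm => by
    have := h.mono hm
    rwa [show A - 2 + 1 = A - 1 by ring] at this
  have hcc : ∀ i j, i + j + 1 = n → cc O (I0 O.c α) (I0 O.c β) (i + 1) j =
      - ((O.c (i + 1))⁻¹ • cc O a b i j) := by
    intro i j hij
    show O.X0 ((O.c (i + 1))⁻¹ • α i j) + O.X1 ((O.c (i + 1))⁻¹ • β i j) = _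
    rw [map_smul, map_smul, ← smul_add, ← (hαβ i j hij).2.2, smul_neg]
  have hc0 : ∀ j, cc O (I0 O.c α) (I0 O.c β) 0 j = 0 := by
    intro j
    show O.X0 0 + O.X1 0 = 0
    rw [map_zero, map_zero, add_zero]
  have hy : C2 O F P A n (I0 O.c α) (I0 O.c β) 0 0 := by
    intro i j hij
    refine ⟨?_, zero_mem _, zero_mem _, by rw [cc00]; exact zero_mem _⟩
    rcases i with _ | i
    · exact ⟨zero_mem _, zero_mem _, by rw [hc0]; exact zero_mem _⟩
    · refine ⟨Submodule.smul_mem _ _ (up (hαβ i j (by omega)).1),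
        Submodule.smul_mem _ _ (up (hαβ i j (by omega)).2.1), ?_⟩
      rw [hcc i j (by omega)]
      exact neg_mem (Submodule.smul_mem _ _ (hz.k i j (by omega)).2.2)
  have hr : ∀ i j, rr O (I0 O.c α) (I0 O.c β) 0 0 i j = 0 := by
    intro i j
    rcases i with _ | i
    · rcases j with _ | j
      · exact sub_self _
      · show (O.c (j + 1))⁻¹ • cc O (I0 O.c α) (I0 O.c β) 0 j - 0 = 0
        rw [hc0, smul_zero, sub_zero]
    · show 0 - (O.c (i + 1))⁻¹ • cc O (0 : Fn M) 0 i j = 0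
      rw [cc00, smul_zero, sub_zero]
  have hc' : ∀ i j, i + j + 1 = n →
      cc O (a - d2a O (I0 O.c α) (I0 O.c β) 0 0) (b - d2b O (I0 O.c α) (I0 O.c β) 0 0) i j = 0 := by
    intro i j hij
    rw [cc_sub, cc_d2, hcc i j hij, cc00, smul_neg, csm, smul_zero]
    abel
  refine Bdy.of_sub hy (ex1_q0 h hP n (hz.rest h hy) (fun i j hij => d1_rest _ _ _ _ (hd i j hij))
    hc' (fun i j hij => ?_) ?_)
  · show q1 i j - (sx0 (0 : Fn M) i j + O.g • sx1 (0 : Fn M) i j + O.D0 (rr O _ _ _ _ i j)) = 0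
    rw [hr, map_zero, add_zero, hq i j hij]
    rcases i with _ | i <;> rcases j with _ | j <;> simp [sx0, sx1]
  · have h1 := G0_sub (O := O) n a b q0 (d2a O (I0 O.c α) (I0 O.c β) 0 0)
      (d2b O (I0 O.c α) (I0 O.c β) 0 0) (d2q O (I0 O.c α) (I0 O.c β) 0 0)
    have h2 : G0 O n (d2a O (I0 O.c α) (I0 O.c β) 0 0) (d2b O (I0 O.c α) (I0 O.c β) 0 0)
        (d2q O (I0 O.c α) (I0 O.c β) 0 0) = 0 := by
      have h3 := F0_d2 O n (I0 O.c α) (I0 O.c β) 0 0
      have h4 : t0 O (t1 O (rr O (I0 O.c α) (I0 O.c β) 0 0)) = 0 := by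
        funext i j
        show (O.g⁻¹) ^ i • (O.g⁻¹) ^ j • rr O (I0 O.c α) (I0 O.c β) 0 0 i j = 0
        rw [hr, smul_zero, smul_zero]
      rw [h4, mu_z, map_zero, neg_zero] at h3
      exact h3
    rw [hG, h2, sub_zero] at h1
    unfold G0 at h1
    rwa [t0_c _ n hc', zero_add] at h1

/-- step 2 -/
theorem ex1_q1 (h : Filt O F) {P A : ℤ} (hP : 0 ≤ P) (n : ℕ) {a b q0 q1 : Fn M}
    (hz : C1 O F P A n a b q0 q1) (hd : ∀ i j, i + j = n → d1 O a b q0 q1 i j = 0)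
    (hG : G0 O n a b q0 = 0) (hmu : mu O (n + 1) (t1 O q1) = 0) :
    Bdy O F P A n a b q0 q1 := by
  obtain ⟨e, he, hk⟩ := ker_mu h hP (n + 1) (f := t1 O q1) (A := A - 1)
    (fun i j hij => Submodule.smul_mem _ _ (hz.q i j hij).2) hmu
  let ε : Fn M := fun i j => O.g ^ j • e i j
  have hε : ∀ i j, ε i j ∈ F (P - 1) (A - 1) := fun i j => Submodule.smul_mem _ _ (he i j)
  have hX1 : ∀ i j, (ap O.X1 ε) i j ∈ F P (A - 1) := fun i j => by
    have := h.mx1 (hε i j)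
    rwa [sub_add_cancel] at this
  have hX0 : ∀ i j, (-ap O.X0 ε) i j ∈ F P (A - 1) := fun i j => by
    have := h.mx0 (hε i j)
    rw [sub_add_cancel] at this
    exact neg_mem this
  have hy : C2 O F P A n 0 0 (ap O.X1 ε) (-ap O.X0 ε) := fun i j _ =>
    ⟨⟨zero_mem _, zero_mem _, by rw [cc00]; exact zero_mem _⟩,
      hX1 i j, hX0 i j, by rw [cc_syz]; exact zero_mem _⟩
  have hgi : ∀ i : ℕ, O.g ^ i * (O.g⁻¹) ^ i = 1 := fun i => by
    rw [← mul_pow, mul_inv_cancel₀ O.hg, one_pow]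
  refine Bdy.of_sub hy (ex1_c h hP n (hz.rest h hy) (fun i j hij => d1_rest _ _ _ _ (hd i j hij))
    (fun i j hij => ?_) ?_)
  · show q1 i j - (sx0 (ap O.X1 ε) i j + O.g • sx1 (-ap O.X0 ε) i j + O.D0 (rr O _ _ _ _ i j)) = 0
    rw [rr_syz1, map_zero, add_zero]
    have h1 := hk i j hij
    have h2 : q1 i j = O.g ^ j • (O.X1 (sx0 e i j) - O.X0 (sx1 e i j)) := by
      rw [← h1]
      show _ = O.g ^ j • (O.g⁻¹) ^ j • q1 i j
      rw [smul_smul, hgi, one_smul]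
    have h3 : sx0 (ap O.X1 ε) i j = O.g ^ j • O.X1 (sx0 e i j) := by
      rcases i with _ | i
      · show (0 : M) = O.g ^ j • O.X1 0
        rw [map_zero, smul_zero]
      · show O.X1 (O.g ^ j • e i j) = O.g ^ j • O.X1 (e i j)
        rw [map_smul]
    have h4 : O.g • sx1 (-ap O.X0 ε) i j = - (O.g ^ j • O.X0 (sx1 e i j)) := by
      rcases j with _ | j
      · show O.g • (0 : M) = - (O.g ^ 0 • O.X0 0)
        rw [map_zero, smul_zero, smul_zero, neg_zero]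
      · show O.g • (- O.X0 (O.g ^ j • e i j)) = - (O.g ^ (j + 1) • O.X0 (e i j))
        rw [map_smul, smul_neg, smul_smul, pow_succ']
    rw [h2, h3, h4, smul_sub]
    abel
  · have h1 := G0_sub (O := O) n a b q0 (d2a O 0 0 (ap O.X1 ε) (-ap O.X0 ε))
      (d2b O 0 0 (ap O.X1 ε) (-ap O.X0 ε)) (d2q O 0 0 (ap O.X1 ε) (-ap O.X0 ε))
    have h2 : G0 O n (d2a O 0 0 (ap O.X1 ε) (-ap O.X0 ε)) (d2b O 0 0 (ap O.X1 ε) (-ap O.X0 ε))
        (d2q O 0 0 (ap O.X1 ε) (-ap O.X0 ε)) = 0 := by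
      have h3 := F0_d2 O n 0 0 (ap O.X1 ε) (-ap O.X0 ε)
      have h4 : t0 O (t1 O (rr O 0 0 (ap O.X1 ε) (-ap O.X0 ε))) = 0 := by
        funext i j
        show (O.g⁻¹) ^ i • (O.g⁻¹) ^ j • rr O 0 0 (ap O.X1 ε) (-ap O.X0 ε) i j = 0
        rw [rr_syz1, smul_zero, smul_zero]
      rw [h4, mu_z, map_zero, neg_zero] at h3
      exact h3
    rw [h1, hG, h2, sub_zero]

/-- exactness at `C1` -/
theorem ex1 (h : Filt O F) {P A : ℤ} (hP : 0 ≤ P) (n : ℕ) {a b q0 q1 : Fn M}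
    (hz : C1 O F P A n a b q0 q1) (hd : ∀ i j, i + j = n → d1 O a b q0 q1 i j = 0) :
    Bdy O F P A n a b q0 q1 := by
  -- the two invariants
  have h0 : mu O n (d1 O a b q0 q1) = 0 := by
    rw [← mu_z O n]
    exact mu_congr O fun i j hij => hd i j hij
  have h1 : O.D0 (G0 O n a b q0) + O.D1 (mu O (n + 1) (t1 O q1)) = 0 := by
    rw [← h0, mu_d1]
    rfl
  have hP1 : P + ((n + 1 : ℕ) : ℤ) = P + n + 1 := by push_cast; ring
  have m1 : mu O (n + 1) (t1 O q1) ∈ F (P + n + 1) (A - 1) := by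
    have := mu_mem h (n + 1) (P := P) (A := A - 1) (f := t1 O q1)
      (fun i j hij => Submodule.smul_mem _ _ (hz.q i j hij).2)
    rwa [hP1] at this
  have m0 : G0 O n a b q0 ∈ F (P + n + 1) (A - 1) := by
    refine add_mem ?_ ?_
    · have := mu_mem h n (P := P + 1) (A := A - 1) (f := t0 O (I0 O.c (cc O a b)))
        (fun i j hij => Submodule.smul_mem _ _ (by
          rcases i with _ | i
          · exact zero_mem _
          · have h2 := h.mono (hz.k i j (by omega)).2.2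
            rw [show A - 2 + 1 = A - 1 by ring] at h2
            exact Submodule.smul_mem _ _ h2))
      rwa [show P + 1 + (n : ℤ) = P + n + 1 by ring] at this
    · have := mu_mem h (n + 1) (P := P) (A := A - 1) (f := t0 O q0)
        (fun i j hij => Submodule.smul_mem _ _ (hz.q i j hij).1)
      rwa [hP1] at this
  obtain ⟨E, hE, e0, e1⟩ := h.kerd (by positivity) m0 m1 h1
  obtain ⟨k, hk, hke⟩ := surj_mu (P := P + 1) (A := A - 2) h (by omega) (n + 1) (y := E) (by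
    rwa [show P + 1 + ((n + 1 : ℕ) : ℤ) = P + n + 1 + 1 by push_cast; ring,
      show A - 2 = A - 1 - 1 by ring])
  -- `r`
  let r : Fn M := fun i j => O.g ^ (n + 1) • k i j
  have hr : ∀ i j, r i j ∈ F (P + 1) (A - 2) := fun i j => Submodule.smul_mem _ _ (hk i j)
  have H1 : ∀ i j, ∃ u v : M, u ∈ F P (A - 2) ∧ v ∈ F P (A - 2) ∧
      - (O.c (i + 1) • r (i + 1) j) = O.X0 u + O.X1 v := by
    intro i j
    obtain ⟨u, hu, v, hv, e⟩ := h.surj hP (neg_mem (Submodule.smul_mem _ (O.c (i + 1))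
      (hr (i + 1) j)))
    exact ⟨u, v, hu, hv, e⟩
  have H0 : ∀ i j, ∃ u v : M, u ∈ F P (A - 2) ∧ v ∈ F P (A - 2) ∧
      (if i = 0 then O.c (j + 1) • r 0 (j + 1) else 0) = O.X0 u + O.X1 v := by
    intro i j
    have hm : (if i = 0 then O.c (j + 1) • r 0 (j + 1) else 0) ∈ F (P + 1) (A - 2) := by
      split_ifs
      · exact Submodule.smul_mem _ _ (hr _ _)
      · exact zero_mem _
    obtain ⟨u, hu, v, hv, e⟩ := h.surj hP hm
    exact ⟨u, v, hu, hv, e⟩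
  choose a1 b1 hab1 using H1
  choose a0 b0 hab0 using H0
  have up : ∀ {m : M}, m ∈ F P (A - 2) → m ∈ F P (A - 1) := fun {m} hm => by
    have := h.mono hm
    rwa [show A - 2 + 1 = A - 1 by ring] at this
  have hc1 : ∀ i j, cc O a1 b1 i j = - (O.c (i + 1) • r (i + 1) j) := fun i j =>
    (hab1 i j).2.2.symm
  have hc0 : ∀ i j, cc O a0 b0 i j = if i = 0 then O.c (j + 1) • r 0 (j + 1) else 0 := fun i j =>
    (hab0 i j).2.2.symm
  have hy : C2 O F P A n a0 b0 a1 b1 := fun i j _ =>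
    ⟨⟨up (hab0 i j).1, up (hab0 i j).2.1, by
      rw [hc0]
      split_ifs
      · exact Submodule.smul_mem _ _ (hr _ _)
      · exact zero_mem _⟩,
    up (hab1 i j).1, up (hab1 i j).2.1, by
      rw [hc1]
      exact neg_mem (Submodule.smul_mem _ _ (hr _ _))⟩
  have hrr : ∀ i j, i + j = n + 1 → rr O a0 b0 a1 b1 i j = r i j := by
    intro i j hij
    rcases i with _ | i
    · rcases j with _ | j
      · omega
      · show (O.c (j + 1))⁻¹ • cc O a0 b0 0 j - 0 = r 0 (j + 1)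
        rw [hc0, if_pos rfl, csm', sub_zero]
    · show 0 - (O.c (i + 1))⁻¹ • cc O a1 b1 i j = r (i + 1) j
      rw [hc1, smul_neg, csm', sub_neg_eq_add, zero_add]
  have hmr : mu O (n + 1) (t0 O (t1 O (rr O a0 b0 a1 b1))) = E := by
    rw [mu_tt, mu_congr O hrr]
    have e3 : r = O.g ^ (n + 1) • k := rfl
    rw [e3, mu_smul, smul_smul, ← mul_pow, inv_mul_cancel₀ O.hg, one_pow, one_smul, hke]
  refine Bdy.of_sub hy (ex1_q1 h hP n (hz.rest h hy) (fun i j hij => d1_rest _ _ _ _ (hd i j hij))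
    ?_ ?_)
  · have h3 : G0 O n (d2a O a0 b0 a1 b1) (d2b O a0 b0 a1 b1) (d2q O a0 b0 a1 b1) = - O.D1 E := by
      rw [← hmr]
      exact F0_d2 O n a0 b0 a1 b1
    rw [G0_sub, h3, e0, sub_self]
  · have e4 : t1 O (q1 - d2r O a0 b0 a1 b1) = t1 O q1 - t1 O (d2r O a0 b0 a1 b1) := by
      funext i j
      exact smul_sub _ _ _
    rw [e4, mu_sub, F1_d2, hmr, e1, sub_self]

end Crest.Agent.R186.CovS1376
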