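import Mathlib

/-!
Row 186 (S0281), helper853: exactness of the four-term complex `K(n)` (covariant side), uniform in
`n`, as one abstract theorem over a filtered right module over the `q`-Weyl algebra
`x_i d_i = 1 + g d_i x_i` (different indices commute).

`M` : the right module, `x0 x1 d0 d1 : M → M` the right multiplications.
`Fn M = ℕ → ℕ → M` : `M ⊗ K[[x_0, x_1]]`, `u a b` = coefficient of `x_0^a x_1^b`.
-/

set_option autoImplicit false
set_option linter.unusedVariables false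
set_option linter.unusedSimpArgs false
set_option linter.unusedSectionVars false
set_option linter.unnecessarySeqFocus false

namespace Crest.Agent.R186.Cov853

open Finset

variable {K M : Type*} [Field K] [AddCommGroup M] [Module K M]

/-- functions on the monomials `x_0^a x_1^b` -/
abbrev Fn (M : Type*) := ℕ → ℕ → M

/-- multiplication by `x_0` -/
def X0 (u : Fn M) : Fn M := fun a b => match a with
  | 0 => 0
  | a + 1 => u a b

/-- multiplication by `x_1` -/
def X1 (u : Fn M) : Fn M := fun a b => match b with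
  | 0 => 0
  | b + 1 => u a b

@[simp] theorem X0_zero (u : Fn M) (b : ℕ) : X0 u 0 b = 0 := rfl
@[simp] theorem X0_succ (u : Fn M) (a b : ℕ) : X0 u (a + 1) b = u a b := rfl
@[simp] theorem X1_zero (u : Fn M) (a : ℕ) : X1 u a 0 = 0 := by cases a <;> rfl
@[simp] theorem X1_succ (u : Fn M) (a b : ℕ) : X1 u a (b + 1) = u a b := rfl

/-- `q`-derivatives -/
def D0 (c : ℕ → K) (u : Fn M) : Fn M := fun a b => c (a + 1) • u (a + 1) b
def D1 (c : ℕ → K) (u : Fn M) : Fn M := fun a b => c (b + 1) • u a (b + 1)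

theorem D0_apply (c : ℕ → K) (u : Fn M) (a b : ℕ) : D0 c u a b = c (a + 1) • u (a + 1) b := rfl
theorem D1_apply (c : ℕ → K) (u : Fn M) (a b : ℕ) : D1 c u a b = c (b + 1) • u a (b + 1) := rfl

/-- twists -/
def T0 (g : K) (u : Fn M) : Fn M := fun a b => (g⁻¹) ^ a • u a b
def T1 (g : K) (u : Fn M) : Fn M := fun a b => (g⁻¹) ^ b • u a b

theorem T0_apply (g : K) (u : Fn M) (a b : ℕ) : T0 g u a b = (g⁻¹) ^ a • u a b := rfl
theorem T1_apply (g : K) (u : Fn M) (a b : ℕ) : T1 g u a b = (g⁻¹) ^ b • u a b := rfl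

/-- values in a submodule -/
def In (N : Submodule K M) (u : Fn M) : Prop := ∀ a b, u a b ∈ N

theorem In.X0 {N : Submodule K M} {u : Fn M} (h : In N u) : In N (X0 u) := by
  intro a b
  cases a with
  | zero => exact N.zero_mem
  | succ a => exact h a b

theorem In.X1 {N : Submodule K M} {u : Fn M} (h : In N u) : In N (X1 u) := by
  intro a b
  cases b with
  | zero => rw [X1_zero]; exact N.zero_mem
  | succ b => exact h a b

theorem In.D0 {N : Submodule K M} {u : Fn M} (c : ℕ → K) (h : In N u) : In N (D0 c u) :=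
  fun a b => N.smul_mem _ (h _ b)

theorem In.D1 {N : Submodule K M} {u : Fn M} (c : ℕ → K) (h : In N u) : In N (D1 c u) :=
  fun a b => N.smul_mem _ (h a _)

theorem In.add {N : Submodule K M} {u v : Fn M} (h : In N u) (h' : In N v) : In N (u + v) :=
  fun a b => N.add_mem (h a b) (h' a b)

theorem In.sub {N : Submodule K M} {u v : Fn M} (h : In N u) (h' : In N v) : In N (u - v) :=
  fun a b => N.sub_mem (h a b) (h' a b)

theorem In.neg {N : Submodule K M} {u : Fn M} (h : In N u) : In N (-u) :=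
  fun a b => N.neg_mem (h a b)

theorem In.smul {N : Submodule K M} {u : Fn M} (k : K) (h : In N u) : In N (k • u) :=
  fun a b => N.smul_mem _ (h a b)

theorem In.T0 {N : Submodule K M} {u : Fn M} (g : K) (h : In N u) : In N (T0 g u) :=
  fun a b => N.smul_mem _ (h a b)

theorem In.T1 {N : Submodule K M} {u : Fn M} (g : K) (h : In N u) : In N (T1 g u) :=
  fun a b => N.smul_mem _ (h a b)

/-- pointwise application -/
def ap (f : Module.End K M) (u : Fn M) : Fn M := fun a b => f (u a b)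

@[simp] theorem ap_apply (f : Module.End K M) (u : Fn M) (a b : ℕ) : ap f u a b = f (u a b) := rfl

/-- the data: right multiplications and the filtration -/
structure Dat (K M : Type*) [Field K] [AddCommGroup M] [Module K M] where
  g : K
  g0 : g ≠ 0
  /-- `q`-numbers -/
  c : ℕ → K
  c0 : c 0 = 0
  cs : ∀ a, c a = 1 + g * c (a + 1)
  cne : ∀ a, c (a + 1) ≠ 0
  x0 : Module.End K M
  x1 : Module.End K M
  d0 : Module.End K M
  d1 : Module.End K M
  xx : ∀ m, x1 (x0 m) = x0 (x1 m)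
  dd : ∀ m, d1 (d0 m) = d0 (d1 m)
  d0x1 : ∀ m, d0 (x1 m) = x1 (d0 m)
  d1x0 : ∀ m, d1 (x0 m) = x0 (d1 m)
  d0x0 : ∀ m, d0 (x0 m) = m + g • x0 (d0 m)
  d1x1 : ∀ m, d1 (x1 m) = m + g • x1 (d1 m)
  /-- the pieces: `P`-degree and order -/
  F : ℤ → ℤ → Submodule K M
  mono : ∀ P A, F P A ≤ F P (A + 1)
  mx0 : ∀ P A m, m ∈ F P A → x0 m ∈ F (P + 1) A
  mx1 : ∀ P A m, m ∈ F P A → x1 m ∈ F (P + 1) A
  md0 : ∀ P A m, m ∈ F P A → d0 m ∈ F (P - 1) (A + 1)
  md1 : ∀ P A m, m ∈ F P A → d1 m ∈ F (P - 1) (A + 1)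
  ix0 : ∀ m, x0 m = 0 → m = 0
  ix1 : ∀ m, x1 m = 0 → m = 0
  id0 : ∀ P A m, m ∈ F P A → d0 m = 0 → m = 0
  id1 : ∀ P A m, m ∈ F P A → d1 m = 0 → m = 0
  /-- (X1) -/
  sX : ∀ P A m, 1 ≤ P → m ∈ F P A → ∃ a ∈ F (P - 1) A, ∃ b ∈ F (P - 1) A, m = x0 a + x1 b
  /-- (X2) -/
  eX : ∀ P A a b, 0 ≤ P → a ∈ F P A → b ∈ F P A → x0 a + x1 b = 0 →
    ∃ e ∈ F (P - 1) A, a = x1 e ∧ b = - x0 e
  /-- (D2) -/
  eD : ∀ P A a b, 0 ≤ P → a ∈ F P A → b ∈ F P A → d0 a + d1 b = 0 →
    ∃ e ∈ F (P + 1) (A - 1), a = d1 e ∧ b = - d0 e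

variable (S : Dat K M)

namespace Dat

theorem cs' (a : ℕ) : S.c (a + 1) = S.c a - (S.g⁻¹) ^ (a + 1) := by
  have hg := S.g0
  induction a with
  | zero =>
    have h := S.cs 0
    rw [S.c0] at h ⊢
    have h1 : S.g * S.c (0 + 1) = -1 := by linear_combination -h
    calc S.c (0 + 1) = S.g⁻¹ * (S.g * S.c (0 + 1)) := by field_simp
      _ = 0 - S.g⁻¹ ^ (0 + 1) := by rw [h1]; ring
  | succ a ih =>
    have h := S.cs (a + 1)
    have h' := S.cs a
    have e1 : S.c (a + 2) = S.g⁻¹ * (S.c (a + 1) - 1) := by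
      rw [h]; field_simp; ring
    have e2 : S.c (a + 1) = S.g⁻¹ * (S.c a - 1) := by
      rw [h']; field_simp; ring
    have e3 : S.c (a + 1) - S.c (a + 2) = S.g⁻¹ * (S.c a - S.c (a + 1)) := by
      rw [e1]; nth_rewrite 1 [e2]; ring
    have e4 : S.c a - S.c (a + 1) = (S.g⁻¹) ^ (a + 1) := by rw [ih]; ring
    rw [e4] at e3
    rw [pow_succ' _ (a + 1), ← e3]; ring

theorem dX0 (u : Fn M) : D0 S.c (X0 u) = S.g⁻¹ • (X0 (D0 S.c u) - u) := by
  have hg := S.g0
  funext a b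
  have h := S.cs a
  have e : S.c (a + 1) = S.g⁻¹ * (S.c a - 1) := by rw [h]; field_simp; ring
  cases a with
  | zero =>
    simp only [D0_apply, X0_succ, Pi.smul_apply, Pi.sub_apply, X0_zero, e, S.c0]
    module
  | succ a =>
    simp only [D0_apply, X0_succ, Pi.smul_apply, Pi.sub_apply, e]
    module

theorem dX1 (u : Fn M) : D1 S.c (X1 u) = S.g⁻¹ • (X1 (D1 S.c u) - u) := by
  have hg := S.g0
  funext a b
  have h := S.cs b
  have e : S.c (b + 1) = S.g⁻¹ * (S.c b - 1) := by rw [h]; field_simp; ring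
  cases b with
  | zero =>
    simp only [D1_apply, X1_succ, Pi.smul_apply, Pi.sub_apply, X1_zero, e, S.c0]
    module
  | succ b =>
    simp only [D1_apply, X1_succ, Pi.smul_apply, Pi.sub_apply, e]
    module

/-! ### the product map -/

/-- `Σ_{a+b=m} u_{ab} x_0^a x_1^b` -/
def mu (m : ℕ) (u : Fn M) : M := ∑ p ∈ antidiagonal m, (S.x0 ^ p.1) ((S.x1 ^ p.2) (u p.1 p.2))

theorem mu_congr {m : ℕ} {u v : Fn M} (h : ∀ a b, a + b = m → u a b = v a b) :
    S.mu m u = S.mu m v := by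
  unfold mu
  refine Finset.sum_congr rfl fun p hp => ?_
  rw [h p.1 p.2 (by simpa using hp)]

theorem mu_add (m : ℕ) (u v : Fn M) : S.mu m (u + v) = S.mu m u + S.mu m v := by
  simp [mu, Finset.sum_add_distrib]

theorem mu_sub (m : ℕ) (u v : Fn M) : S.mu m (u - v) = S.mu m u - S.mu m v := by
  simp [mu, Finset.sum_sub_distrib]

theorem mu_neg (m : ℕ) (u : Fn M) : S.mu m (-u) = - S.mu m u := by
  simp [mu]

theorem mu_smul (m : ℕ) (k : K) (u : Fn M) : S.mu m (k • u) = k • S.mu m u := by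
  simp [mu, Finset.smul_sum]

theorem mu_zero' (m : ℕ) : S.mu m (0 : Fn M) = 0 := by
  simp [mu]

theorem x0_pow_x1_pow (a b : ℕ) (m : M) :
    (S.x1 ^ b) ((S.x0 ^ a) m) = (S.x0 ^ a) ((S.x1 ^ b) m) := by
  have h : Commute S.x1 S.x0 := LinearMap.ext S.xx
  exact LinearMap.congr_fun ((h.pow_pow b a).eq) m

theorem mu_X0 (m : ℕ) (u : Fn M) : S.mu (m + 1) (X0 u) = S.x0 (S.mu m u) := by
  unfold mu
  rw [Finset.Nat.sum_antidiagonal_succ]
  simp only [X0_zero, map_zero, zero_add, X0_succ, map_sum]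
  refine Finset.sum_congr rfl fun p _ => ?_
  rw [pow_succ']; rfl

theorem mu_X1 (m : ℕ) (u : Fn M) : S.mu (m + 1) (X1 u) = S.x1 (S.mu m u) := by
  unfold mu
  rw [Finset.Nat.sum_antidiagonal_succ']
  simp only [X1_zero, map_zero, zero_add, X1_succ, map_sum]
  refine Finset.sum_congr rfl fun p _ => ?_
  rw [pow_succ']
  have h := S.x0_pow_x1_pow p.1 1 ((S.x1 ^ p.2) (u p.1 p.2))
  rw [pow_one] at h
  rw [h]; rfl

theorem mu_zero_X0 (u : Fn M) : S.mu 0 (X0 u) = 0 := by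
  simp [mu]

theorem mu_zero_X1 (u : Fn M) : S.mu 0 (X1 u) = 0 := by
  simp [mu]

theorem mu_x0 (m : ℕ) (u : Fn M) : S.mu m (ap S.x0 u) = S.x0 (S.mu m u) := by
  unfold mu
  rw [map_sum]
  refine Finset.sum_congr rfl fun p _ => ?_
  have h := S.x0_pow_x1_pow 1 p.2 (u p.1 p.2)
  rw [pow_one] at h
  rw [ap_apply, h, ← Module.End.mul_apply (S.x0 ^ p.1), ← pow_succ, pow_succ' S.x0]
  rfl

theorem mu_x1 (m : ℕ) (u : Fn M) : S.mu m (ap S.x1 u) = S.x1 (S.mu m u) := by
  unfold mu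
  rw [map_sum]
  refine Finset.sum_congr rfl fun p _ => ?_
  have h := S.x0_pow_x1_pow p.1 1 ((S.x1 ^ p.2) (u p.1 p.2))
  rw [pow_one] at h
  rw [h, ap_apply, ← Module.End.mul_apply (S.x1 ^ p.2), ← pow_succ, pow_succ' S.x1]
  rfl

theorem x0_pow_d0 (a : ℕ) (m : M) :
    (S.x0 ^ a) (S.d0 m) = (S.g⁻¹) ^ a • S.d0 ((S.x0 ^ a) m) +
      S.c a • (S.x0 ^ (a - 1)) m := by
  have hg := S.g0
  induction a with
  | zero => simp [S.c0]
  | succ a ih =>
    rw [pow_succ' S.x0 a, Module.End.mul_apply, ih, map_add, map_smul, map_smul,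
      Module.End.mul_apply, S.d0x0, S.cs' a]
    have h1 : S.c a • S.x0 ((S.x0 ^ (a - 1)) m) = S.c a • (S.x0 ^ a) m := by
      cases a with
      | zero => simp [S.c0]
      | succ a => rw [Nat.add_sub_cancel, pow_succ' S.x0 a, Module.End.mul_apply]
    rw [h1, Nat.add_sub_cancel, pow_succ (S.g⁻¹) a]
    have h2 : ((S.g⁻¹) ^ a * S.g⁻¹) * S.g = (S.g⁻¹) ^ a := by field_simp
    rw [smul_add, smul_smul, h2]
    module

theorem x1_pow_d1 (a : ℕ) (m : M) :
    (S.x1 ^ a) (S.d1 m) = (S.g⁻¹) ^ a • S.d1 ((S.x1 ^ a) m) +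
      S.c a • (S.x1 ^ (a - 1)) m := by
  have hg := S.g0
  induction a with
  | zero => simp [S.c0]
  | succ a ih =>
    rw [pow_succ' S.x1 a, Module.End.mul_apply, ih, map_add, map_smul, map_smul,
      Module.End.mul_apply, S.d1x1, S.cs' a]
    have h1 : S.c a • S.x1 ((S.x1 ^ (a - 1)) m) = S.c a • (S.x1 ^ a) m := by
      cases a with
      | zero => simp [S.c0]
      | succ a => rw [Nat.add_sub_cancel, pow_succ' S.x1 a, Module.End.mul_apply]
    rw [h1, Nat.add_sub_cancel, pow_succ (S.g⁻¹) a]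
    have h2 : ((S.g⁻¹) ^ a * S.g⁻¹) * S.g = (S.g⁻¹) ^ a := by field_simp
    rw [smul_add, smul_smul, h2]
    module

theorem x1_pow_d0 (b : ℕ) (m : M) : (S.x1 ^ b) (S.d0 m) = S.d0 ((S.x1 ^ b) m) := by
  have h : Commute S.d0 S.x1 := LinearMap.ext S.d0x1
  exact (LinearMap.congr_fun ((h.pow_right b).eq) m).symm

theorem x0_pow_d1 (b : ℕ) (m : M) : (S.x0 ^ b) (S.d1 m) = S.d1 ((S.x0 ^ b) m) := by
  have h : Commute S.d1 S.x0 := LinearMap.ext S.d1x0
  exact (LinearMap.congr_fun ((h.pow_right b).eq) m).symm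

theorem mu_d0 (m : ℕ) (u : Fn M) :
    S.mu (m + 1) (ap S.d0 u) = S.mu m (D0 S.c u) + S.d0 (S.mu (m + 1) (T0 S.g u)) := by
  have h : ∀ p ∈ antidiagonal (m + 1), (S.x0 ^ p.1) ((S.x1 ^ p.2) (ap S.d0 u p.1 p.2)) =
      S.c p.1 • (S.x0 ^ (p.1 - 1)) ((S.x1 ^ p.2) (u p.1 p.2)) +
      S.d0 ((S.x0 ^ p.1) ((S.x1 ^ p.2) (T0 S.g u p.1 p.2))) := by
    intro p _
    rw [ap_apply, x1_pow_d0, x0_pow_d0, T0_apply, map_smul, map_smul, map_smul, add_comm]
  unfold mu
  rw [Finset.sum_congr rfl h, Finset.sum_add_distrib, map_sum]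
  congr 1
  rw [Finset.Nat.sum_antidiagonal_succ]
  simp [S.c0, D0_apply]

theorem mu_d1 (m : ℕ) (u : Fn M) :
    S.mu (m + 1) (ap S.d1 u) = S.mu m (D1 S.c u) + S.d1 (S.mu (m + 1) (T1 S.g u)) := by
  have h : ∀ p ∈ antidiagonal (m + 1), (S.x0 ^ p.1) ((S.x1 ^ p.2) (ap S.d1 u p.1 p.2)) =
      S.c p.2 • (S.x0 ^ p.1) ((S.x1 ^ (p.2 - 1)) (u p.1 p.2)) +
      S.d1 ((S.x0 ^ p.1) ((S.x1 ^ p.2) (T1 S.g u p.1 p.2))) := by
    intro p _
    rw [ap_apply, x1_pow_d1, map_add, map_smul, map_smul, x0_pow_d1, T1_apply, map_smul, map_smul,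
      map_smul, add_comm]
  unfold mu
  rw [Finset.sum_congr rfl h, Finset.sum_add_distrib, map_sum]
  congr 1
  rw [Finset.Nat.sum_antidiagonal_succ']
  simp [S.c0, D1_apply]

theorem mu0_d0 (u : Fn M) : S.mu 0 (ap S.d0 u) = S.d0 (S.mu 0 (T0 S.g u)) := by
  simp [mu, T0_apply]

theorem mu0_d1 (u : Fn M) : S.mu 0 (ap S.d1 u) = S.d1 (S.mu 0 (T1 S.g u)) := by
  simp [mu, T1_apply]

/-! ### membership -/

theorem mx0_pow {P A : ℤ} {m : M} (h : m ∈ S.F P A) (a : ℕ) : (S.x0 ^ a) m ∈ S.F (P + a) A := by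
  induction a with
  | zero => simpa using h
  | succ a ih =>
    rw [pow_succ', Module.End.mul_apply]
    have := S.mx0 _ _ _ ih
    convert this using 2
    push_cast; ring

theorem mx1_pow {P A : ℤ} {m : M} (h : m ∈ S.F P A) (a : ℕ) : (S.x1 ^ a) m ∈ S.F (P + a) A := by
  induction a with
  | zero => simpa using h
  | succ a ih =>
    rw [pow_succ', Module.End.mul_apply]
    have := S.mx1 _ _ _ ih
    convert this using 2
    push_cast; ring

theorem mu_mem {P A : ℤ} {u : Fn M} (h : In (S.F P A) u) (m : ℕ) : S.mu m u ∈ S.F (P + m) A := by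
  unfold mu
  refine Submodule.sum_mem _ fun p hp => ?_
  have h1 := S.mx0_pow (S.mx1_pow (h p.1 p.2) p.2) p.1
  have h2 : p.1 + p.2 = m := by simpa using hp
  convert h1 using 2
  rw [← h2]; push_cast; ring

/-! ### the Beilinson rows -/

theorem row_aux (P A : ℤ) (hP : 0 ≤ P) (m : ℕ) : ∀ f t : M, f ∈ S.F (P + m - 1) A → t ∈ S.F P A →
    S.x0 f + (S.x1 ^ m) t = 0 → ∃ e ∈ S.F (P - 1) A, t = S.x0 e ∧ f = - (S.x1 ^ m) e := by
  induction m with
  | zero =>
    intro f t hf _ h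
    refine ⟨-f, by simpa using hf, ?_, by simp⟩
    rw [map_neg, eq_neg_iff_add_eq_zero]
    simpa [add_comm] using h
  | succ m ih =>
    intro f t hf ht h
    rw [pow_succ', Module.End.mul_apply] at h
    have hf' : f ∈ S.F (P + m) A := by
      convert hf using 2; push_cast; ring
    obtain ⟨n, hn, h1, h2⟩ := S.eX (P + m) A f ((S.x1 ^ m) t) (by omega) hf' (S.mx1_pow ht m) h
    obtain ⟨e, he, h3, h4⟩ := ih n t hn ht (by rw [h2]; simp)
    refine ⟨e, he, h3, ?_⟩
    rw [h1, h4, map_neg, pow_succ', Module.End.mul_apply]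

theorem row_exact (P A : ℤ) (hP : 0 ≤ P) (m : ℕ) : ∀ u : Fn M, In (S.F P A) u → S.mu m u = 0 →
    ∃ e : Fn M, In (S.F (P - 1) A) e ∧
      ∀ a b, a + b = m → u a b = S.x0 (X1 e a b) - S.x1 (X0 e a b) := by
  classical
  induction m with
  | zero =>
    intro u _ h0
    refine ⟨0, fun _ _ => Submodule.zero_mem _, fun a b hab => ?_⟩
    obtain rfl : a = 0 := by omega
    obtain rfl : b = 0 := by omega
    simpa [mu] using h0
  | succ m ih =>
    intro u hu h0
    have hs : S.mu (m + 1) u = (S.x1 ^ (m + 1)) (u 0 (m + 1)) +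
        S.x0 (S.mu m (fun a b => u (a + 1) b)) := by
      unfold mu
      rw [Finset.Nat.sum_antidiagonal_succ, map_sum]
      congr 1
      refine Finset.sum_congr rfl fun p _ => ?_
      rw [pow_succ']; rfl
    rw [hs, add_comm] at h0
    have hu' : In (S.F P A) (fun a b => u (a + 1) b) := fun a b => hu (a + 1) b
    obtain ⟨e0, he0, h1, h2⟩ := S.row_aux P A hP (m + 1) _ _
      (by have := S.mu_mem hu' m; convert this using 2; push_cast; ring) (hu 0 (m + 1)) h0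
    have he0' : S.x1 e0 ∈ S.F P A := by
      have := S.mx1 _ _ _ he0
      simpa using this
    obtain ⟨e', he', h3⟩ := ih (fun a b => u (a + 1) b + if a = 0 ∧ b = m then S.x1 e0 else 0)
      (fun a b => Submodule.add_mem _ (hu' a b) (by split_ifs; exacts [he0', Submodule.zero_mem _]))
      (by
        have : (fun a b => u (a + 1) b + if a = 0 ∧ b = m then S.x1 e0 else 0) =
            (fun a b => u (a + 1) b) + (fun a b => if a = 0 ∧ b = m then S.x1 e0 else 0) := rfl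
        rw [this, mu_add, h2]
        have h4 : S.mu m (fun a b => if a = 0 ∧ b = m then S.x1 e0 else 0) =
            (S.x1 ^ (m + 1)) e0 := by
          unfold mu
          rw [Finset.sum_eq_single (0, m)]
          · simp [pow_succ]
          · rintro ⟨a, b⟩ hp hne
            have : ¬ (a = 0 ∧ b = m) := fun h => hne (by rw [h.1, h.2])
            simp [this]
          · intro h; simp at h
        rw [h4]; simp)
    refine ⟨fun a b => X0 e' a b + if a = 0 ∧ b = m then e0 else 0, fun a b =>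
      Submodule.add_mem _ (he'.X0 a b) (by split_ifs; exacts [he0, Submodule.zero_mem _]), ?_⟩
    intro a b hab
    cases a with
    | zero =>
      obtain rfl : b = m + 1 := by omega
      simpa using h1
    | succ a =>
      have h5 := h3 a b (by omega)
      have h6 : (fun a b => X0 e' a b + if a = 0 ∧ b = m then e0 else 0 : Fn M) =
          X0 e' + fun a b => if a = 0 ∧ b = m then e0 else 0 := rfl
      have h7 : u (a + 1) b = S.x0 (X1 e' a b) - S.x1 (X0 e' a b) -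
          (if a = 0 ∧ b = m then S.x1 e0 else 0) := by rw [← h5]; abel
      rw [h7]
      cases b with
      | zero =>
        simp only [X1_zero, X0_succ, map_zero, map_add]
        split_ifs
        · abel
        · simp
      | succ b =>
        simp only [X1_succ, X0_succ, map_add]
        have h8 : ¬ (a + 1 = 0 ∧ b = m) := by omega
        rw [if_neg h8]
        split_ifs
        · simp only [map_zero]; abel
        · simp

/-- exactness of the rows, all degrees at once -/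
theorem row_exact_all (P A : ℤ) (hP : 0 ≤ P) (u : Fn M) (hu : In (S.F P A) u)
    (h0 : ∀ m, S.mu m u = 0) :
    ∃ e : Fn M, In (S.F (P - 1) A) e ∧ u = ap S.x0 (X1 e) - ap S.x1 (X0 e) := by
  choose E hE1 hE2 using fun m => S.row_exact P A hP m u hu (h0 m)
  refine ⟨fun a b => E (a + b + 1) a b, fun a b => hE1 _ a b, ?_⟩
  funext a b
  rw [hE2 (a + b) a b rfl]
  simp only [Pi.sub_apply, ap_apply]
  congr 2
  · cases b with
    | zero => simp
    | succ b => simp only [X1_succ]; rfl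
  · cases a with
    | zero => simp
    | succ a => simp only [X0_succ]; rw [show a + b + 1 = a + 1 + b by ring]

theorem row_inj (e : Fn M) (h : ap S.x0 (X1 e) - ap S.x1 (X0 e) = 0) : e = 0 := by
  have h1 : ∀ a b, S.x0 (e a b) = S.x1 (X0 e a (b + 1)) := fun a b => by
    have := congrFun (congrFun h a) (b + 1)
    simpa [sub_eq_zero] using this
  have h2 : ∀ a b, e a b = 0 := by
    intro a
    induction a with
    | zero => exact fun b => S.ix0 _ (by rw [h1]; simp)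
    | succ a ih => exact fun b => S.ix0 _ (by rw [h1]; simp [ih])
  funext a b
  exact h2 a b

theorem row_surj (P A : ℤ) (hP : 0 ≤ P) (m : ℕ) : ∀ f ∈ S.F (P + m) A,
    ∃ u : Fn M, In (S.F P A) u ∧ S.mu m u = f := by
  classical
  induction m with
  | zero =>
    intro f hf
    refine ⟨fun _ _ => f, fun _ _ => by simpa using hf, by simp [mu]⟩
  | succ m ih =>
    intro f hf
    obtain ⟨a, ha, b, hb, hab⟩ := S.sX (P + (m + 1 : ℕ)) A f (by push_cast; omega) hf
    have e1 : P + ((m + 1 : ℕ) : ℤ) - 1 = P + m := by push_cast; ring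
    rw [e1] at ha hb
    obtain ⟨u, hu, hu'⟩ := ih a ha
    obtain ⟨v, hv, hv'⟩ := ih b hb
    exact ⟨X0 u + X1 v, hu.X0.add hv.X1, by rw [mu_add, mu_X0, mu_X1, hu', hv', hab]⟩

theorem row_surj_all (P A : ℤ) (hP : 0 ≤ P) (f : ℕ → M) (hf : ∀ m : ℕ, f m ∈ S.F (P + m) A) :
    ∃ u : Fn M, In (S.F P A) u ∧ ∀ m, S.mu m u = f m := by
  choose U hU1 hU2 using fun m => S.row_surj P A hP m (f m) (hf m)
  refine ⟨fun a b => U (a + b) a b, fun a b => hU1 _ a b, fun m => ?_⟩
  rw [← hU2 m]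
  exact S.mu_congr fun a b hab => by rw [hab]

/-! ### the `q`-de Rham complex -/

theorem deRham (N : Submodule K M) (e0 e1 : Fn M) (h0 : In N e0) (h1 : In N e1)
    (h : D0 S.c e0 + D1 S.c e1 = 0) :
    ∃ u : Fn M, In N u ∧ u 0 0 = 0 ∧ e0 = D1 S.c u ∧ e1 = - D0 S.c u := by
  refine ⟨fun a b => match b with
    | 0 => (match a with
      | 0 => 0
      | a + 1 => -((S.c (a + 1))⁻¹ • e1 a 0))
    | b + 1 => (S.c (b + 1))⁻¹ • e0 a b, ?_, rfl, ?_, ?_⟩
  · intro a b
    cases b with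
    | zero =>
      cases a with
      | zero => exact N.zero_mem
      | succ a => exact N.neg_mem (N.smul_mem _ (h1 _ _))
    | succ b => exact N.smul_mem _ (h0 _ _)
  · funext a b
    simp only [D1_apply]
    rw [smul_smul, mul_inv_cancel₀ (S.cne b), one_smul]
  · funext a b
    cases b with
    | zero =>
      simp only [Pi.neg_apply, D0_apply]
      rw [smul_neg, smul_smul, mul_inv_cancel₀ (S.cne a), one_smul, neg_neg]
    | succ b =>
      simp only [Pi.neg_apply, D0_apply]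
      have h2 := congrFun (congrFun h a) b
      simp only [Pi.add_apply, D0_apply, D1_apply, Pi.zero_apply] at h2
      have h3 : e1 a (b + 1) = (S.c (b + 1))⁻¹ • (S.c (b + 1) • e1 a (b + 1)) := by
        rw [smul_smul, inv_mul_cancel₀ (S.cne b), one_smul]
      rw [h3, eq_neg_of_add_eq_zero_right h2, smul_smul, smul_neg, smul_smul, mul_comm]

/-! ### the maps of `K(n)` -/

/-- the `c`-value of a row -/
def cv (α β : Fn M) : Fn M := ap S.x0 α + ap S.x1 β

theorem cv_apply (α β : Fn M) (a b : ℕ) : S.cv α β a b = S.x0 (α a b) + S.x1 (β a b) := rfl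

/-- membership in the lattice `K_j` -/
def KL (j : ℤ) (P A : ℤ) (α β : Fn M) : Prop :=
  In (S.F P A) α ∧ In (S.F P A) β ∧ In (S.F (P + 1) (A - j)) (S.cv α β)

/-- quadruples `(α₀, β₀, α₁, β₁)` : the two rows `(α_i, β_i)` in the slots `i = 0, 1` -/
abbrev R4 (M : Type*) := Fn M × Fn M × Fn M × Fn M

/-- `K_1 ⊗ k^2` -/
def K1m (P A : ℤ) (z : R4 M) : Prop := S.KL 1 P A z.1 z.2.1 ∧ S.KL 1 P A z.2.2.1 z.2.2.2

/-- `δ_1` on `K_1 ⊗ k^2 ⊗ [n]` -/
def del1 (z : R4 M) : Fn M :=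
  ap S.d0 (S.cv z.1 z.2.1) + ap S.d1 (S.cv z.2.2.1 z.2.2.2) -
    X0 (D0 S.c z.1 + D1 S.c z.2.2.1) - X1 (D0 S.c z.2.1 + D1 S.c z.2.2.2)

/-- division: `u = x_0 q0 u + x_1 q1 u` away from the constant term -/
def q0 (u : Fn M) : Fn M := fun a b => match b with
  | 0 => u (a + 1) 0
  | _ + 1 => 0
def q1 (u : Fn M) : Fn M := fun a b => u a (b + 1)

/-- `q`-integration in `x_0` -/
def I0 (u : Fn M) : Fn M := fun a b => match a with
  | 0 => 0
  | a + 1 => (S.c (a + 1))⁻¹ • u a b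

/-- `-I_1` on the part without `x_0` -/
def psi (u : Fn M) : Fn M := fun a b => match a, b with
  | 0, b + 1 => - ((S.c (b + 1))⁻¹ • u 0 b)
  | _, _ => 0

/-- `δ_2` on `K_2 ⊗ [n+1]` -/
def al (α β : Fn M) : R4 M :=
  (D1 S.c α - S.g⁻¹ • ap S.d1 (q0 (S.cv α β)),
   D1 S.c β - ap S.d1 (q1 (S.cv α β)),
   - D0 S.c α + ap S.d0 (q0 (S.cv α β)),
   - D0 S.c β + S.g⁻¹ • ap S.d0 (q1 (S.cv α β)))

/-- `δ_2` on `O(-1) ⊗ k^2 ⊗ [n-1]` -/
def be (H0 H1 : Fn M) : R4 M :=
  (- (S.g⁻¹ • X1 H0) + ap S.x1 (ap S.d0 (S.I0 H0) + ap S.d1 (S.I0 H1)),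
   X0 H0 - ap S.x0 (ap S.d0 (S.I0 H0) + ap S.d1 (S.I0 H1)),
   - X1 H1,
   S.g⁻¹ • X0 H1)

/-- `δ_3` on `O(-2) ⊗ [n]` -/
def d3α (v : Fn M) : Fn M := X1 v - ap S.x1 (ap S.d0 (S.I0 v)) + ap S.x1 (ap S.d1 (S.psi v))
def d3β (v : Fn M) : Fn M := - X0 v + ap S.x0 (ap S.d0 (S.I0 v)) - ap S.x0 (ap S.d1 (S.psi v))
def d3H0 (v : Fn M) : Fn M := D1 S.c v - q1 v - S.g • ap S.x1 (ap S.d1 (q1 v))
def d3H1 (v : Fn M) : Fn M := - D0 S.c v + ap S.x1 (ap S.d0 (q1 v))

theorem q_dec (u : Fn M) (a b : ℕ) (h : a + b ≠ 0) :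
    X0 (q0 u) a b + X1 (q1 u) a b = u a b := by
  cases a with
  | zero =>
    cases b with
    | zero => exact absurd rfl h
    | succ b => simp [q1]
  | succ a =>
    cases b with
    | zero => simp [q0]
    | succ b => simp [q0, q1]

theorem D0_I0 (u : Fn M) : D0 S.c (S.I0 u) = u := by
  funext a b
  simp only [D0_apply, I0]
  rw [smul_smul, mul_inv_cancel₀ (S.cne a), one_smul]

theorem D1_I0 (u : Fn M) : D1 S.c (S.I0 u) = S.I0 (D1 S.c u) := by
  funext a b
  cases a with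
  | zero => simp [D1_apply, I0]
  | succ a =>
    simp only [D1_apply, I0]
    rw [smul_comm]

/-- `μ(δ_1 z)` -/
theorem mu_del1 (z : R4 M) (m : ℕ) : S.mu m (S.del1 z) =
    S.d0 (S.mu m (T0 S.g (S.cv z.1 z.2.1))) + S.d1 (S.mu m (T1 S.g (S.cv z.2.2.1 z.2.2.2))) := by
  unfold del1
  rw [mu_sub, mu_sub, mu_add]
  cases m with
  | zero => rw [mu0_d0, mu0_d1, mu_zero_X0, mu_zero_X1, sub_zero, sub_zero]
  | succ m =>
    have hc : ∀ α β : Fn M, S.mu m (D0 S.c (S.cv α β)) =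
        S.x0 (S.mu m (D0 S.c α)) + S.x1 (S.mu m (D0 S.c β)) := by
      intro α β
      rw [← mu_x0, ← mu_x1, ← mu_add]
      congr 1
      funext a b
      simp only [D0_apply, cv_apply, Pi.add_apply, ap_apply, map_smul, smul_add]
    have hc' : ∀ α β : Fn M, S.mu m (D1 S.c (S.cv α β)) =
        S.x0 (S.mu m (D1 S.c α)) + S.x1 (S.mu m (D1 S.c β)) := by
      intro α β
      rw [← mu_x0, ← mu_x1, ← mu_add]
      congr 1
      funext a b
      simp only [D1_apply, cv_apply, Pi.add_apply, ap_apply, map_smul, smul_add]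
    rw [mu_d0, mu_d1, mu_X0, mu_X1, mu_add, mu_add, hc, hc', map_add, map_add]
    abel

theorem csg (a : ℕ) : S.c (a + 1) = S.g⁻¹ * (S.c a - 1) := by
  have hg := S.g0
  rw [S.cs a]; field_simp; ring

theorem cv_al0 (α β : Fn M) : S.cv (S.al α β).1 (S.al α β).2.1 =
    D1 S.c (S.cv α β) - S.g⁻¹ • ap S.x0 (ap S.d1 (q0 (S.cv α β))) -
      ap S.x1 (ap S.d1 (q1 (S.cv α β))) := by
  funext a b
  simp only [al, cv_apply, D1_apply, Pi.sub_apply, Pi.smul_apply, ap_apply, map_sub, map_smul,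
    smul_add]
  abel

theorem cv_al1 (α β : Fn M) : S.cv (S.al α β).2.2.1 (S.al α β).2.2.2 =
    - D0 S.c (S.cv α β) + ap S.x0 (ap S.d0 (q0 (S.cv α β))) +
      S.g⁻¹ • ap S.x1 (ap S.d0 (q1 (S.cv α β))) := by
  funext a b
  simp only [al, cv_apply, D0_apply, Pi.add_apply, Pi.neg_apply, Pi.smul_apply, ap_apply, map_add,
    map_neg, map_smul, smul_add]
  abel

theorem del1_al (α β : Fn M) : S.del1 (S.al α β) = 0 := by
  have hg := S.g0
  rw [del1, cv_al0, cv_al1]
  simp only [al]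
  generalize hC : S.cv α β = C
  have hq : ∀ a b, a + b ≠ 0 → C a b = X0 (q0 C) a b + X1 (q1 C) a b :=
    fun a b h => (q_dec C a b h).symm
  generalize q0 C = Q0 at hq ⊢
  generalize q1 C = Q1 at hq ⊢
  have e1 : D0 S.c (D1 S.c α - S.g⁻¹ • ap S.d1 Q0) + D1 S.c (- D0 S.c α + ap S.d0 Q0) =
      - (S.g⁻¹ • ap S.d1 (D0 S.c Q0)) + ap S.d0 (D1 S.c Q0) := by
    funext a b
    simp only [D0_apply, D1_apply, Pi.sub_apply, Pi.add_apply, Pi.neg_apply, Pi.smul_apply,
      ap_apply, map_smul]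
    module
  have e2 : D0 S.c (D1 S.c β - ap S.d1 Q1) + D1 S.c (- D0 S.c β + S.g⁻¹ • ap S.d0 Q1) =
      - ap S.d1 (D0 S.c Q1) + S.g⁻¹ • ap S.d0 (D1 S.c Q1) := by
    funext a b
    simp only [D0_apply, D1_apply, Pi.sub_apply, Pi.add_apply, Pi.neg_apply, Pi.smul_apply,
      ap_apply, map_smul]
    module
  rw [e1, e2]
  funext a b
  have h1 := hq a (b + 1) (by omega)
  have h2 := hq (a + 1) b (by omega)
  simp only [X1_succ, X0_succ] at h1 h2
  simp only [Pi.sub_apply, Pi.add_apply, Pi.neg_apply, Pi.smul_apply, ap_apply, D0_apply, D1_apply,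
    h1, h2, map_add, map_sub, map_neg, map_smul, S.d0x0, S.d1x1, S.d0x1, S.d1x0, S.dd, smul_add,
    Pi.zero_apply]
  cases a with
  | zero =>
    cases b with
    | zero =>
      simp only [X0_zero, X1_zero, map_zero, S.csg, S.c0, ap_apply, D0_apply, D1_apply, smul_zero]
      match_scalars <;> field_simp <;> ring
    | succ b =>
      simp only [X0_zero, X1_succ, map_zero, S.csg 0, S.csg (b + 1), S.c0, ap_apply, D0_apply,
        D1_apply, smul_zero, Pi.add_apply, Pi.neg_apply, Pi.smul_apply, map_smul]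
      match_scalars <;> field_simp <;> ring
  | succ a =>
    cases b with
    | zero =>
      simp only [X0_succ, X1_zero, map_zero, S.csg 0, S.csg (a + 1), S.c0, ap_apply, D0_apply,
        D1_apply, smul_zero, Pi.add_apply, Pi.neg_apply, Pi.smul_apply, map_smul]
      match_scalars <;> field_simp <;> ring
    | succ b =>
      simp only [X0_succ, X1_succ, map_zero, S.csg (a + 1), S.csg (b + 1), ap_apply, D0_apply,
        D1_apply, smul_zero, Pi.add_apply, Pi.neg_apply, Pi.smul_apply, map_smul]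
      match_scalars <;> field_simp <;> ring

theorem cv_be0 (H0 H1 : Fn M) : S.cv (S.be H0 H1).1 (S.be H0 H1).2.1 =
    ap S.x1 (X0 H0) - S.g⁻¹ • ap S.x0 (X1 H0) := by
  funext a b
  simp only [be, cv_apply, Pi.sub_apply, Pi.smul_apply, Pi.neg_apply, Pi.add_apply, ap_apply,
    map_sub, map_add, map_neg, map_smul, S.xx]
  abel

theorem cv_be1 (H0 H1 : Fn M) : S.cv (S.be H0 H1).2.2.1 (S.be H0 H1).2.2.2 =
    S.g⁻¹ • ap S.x1 (X0 H1) - ap S.x0 (X1 H1) := by
  funext a b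
  simp only [be, cv_apply, Pi.sub_apply, Pi.smul_apply, Pi.neg_apply, Pi.add_apply, ap_apply,
    map_sub, map_add, map_neg, map_smul, S.xx]
  abel

theorem del1_be (H0 H1 : Fn M) : S.del1 (S.be H0 H1) = 0 := by
  have hg := S.g0
  rw [del1, cv_be0, cv_be1]
  simp only [be]
  have e1 : D0 S.c (- (S.g⁻¹ • X1 H0) + ap S.x1 (ap S.d0 (S.I0 H0) + ap S.d1 (S.I0 H1))) +
      D1 S.c (- X1 H1) = - (S.g⁻¹ • X1 (D0 S.c H0)) +
        ap S.x1 (ap S.d0 H0 + ap S.d1 H1) - S.g⁻¹ • (X1 (D1 S.c H1) - H1) := by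
    rw [← S.dX1 H1]
    funext a b
    have h0 := congrFun (congrFun (S.D0_I0 H0) a) b
    have h1 := congrFun (congrFun (S.D0_I0 H1) a) b
    rw [D0_apply] at h0 h1
    have h3 : X1 (D0 S.c H0) a b = S.c (a + 1) • X1 H0 (a + 1) b := by
      cases b with
      | zero => simp
      | succ b => simp [D0_apply]
    simp only [D0_apply, D1_apply, Pi.sub_apply, Pi.add_apply, Pi.neg_apply, Pi.smul_apply,
      ap_apply, map_smul, map_add]
    rw [h3, ← h0, ← h1]
    simp only [map_smul]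
    module
  have e2 : D0 S.c (X0 H0 - ap S.x0 (ap S.d0 (S.I0 H0) + ap S.d1 (S.I0 H1))) +
      D1 S.c (S.g⁻¹ • X0 H1) = S.g⁻¹ • (X0 (D0 S.c H0) - H0) -
        ap S.x0 (ap S.d0 H0 + ap S.d1 H1) + S.g⁻¹ • X0 (D1 S.c H1) := by
    rw [← S.dX0 H0]
    funext a b
    have h0 := congrFun (congrFun (S.D0_I0 H0) a) b
    have h1 := congrFun (congrFun (S.D0_I0 H1) a) b
    rw [D0_apply] at h0 h1
    have h3 : X0 (D1 S.c H1) a b = S.c (b + 1) • X0 H1 a (b + 1) := by
      cases a with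
      | zero => simp
      | succ a => simp [D1_apply]
    simp only [D0_apply, D1_apply, Pi.sub_apply, Pi.add_apply, Pi.neg_apply, Pi.smul_apply,
      ap_apply, map_smul, map_add]
    rw [h3, ← h0, ← h1]
    simp only [map_smul]
    module
  rw [e1, e2]
  funext a b
  cases a with
  | zero =>
    cases b with
    | zero => simp
    | succ b =>
      simp only [Pi.sub_apply, Pi.add_apply, Pi.neg_apply, Pi.smul_apply, ap_apply, X0_zero,
        X1_succ, D0_apply, D1_apply, map_add, map_sub, map_neg, map_smul, S.d0x0, S.d1x1, S.d0x1,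
        S.d1x0, Pi.zero_apply, smul_add, smul_sub, map_zero, smul_zero]
      match_scalars <;> field_simp <;> ring
  | succ a =>
    cases b with
    | zero =>
      simp only [Pi.sub_apply, Pi.add_apply, Pi.neg_apply, Pi.smul_apply, ap_apply, X0_succ,
        X1_zero, D0_apply, D1_apply, map_add, map_sub, map_neg, map_smul, S.d0x0, S.d1x1, S.d0x1,
        S.d1x0, Pi.zero_apply, smul_add, smul_sub, map_zero, smul_zero]
      match_scalars <;> field_simp <;> ring
    | succ b =>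
      simp only [Pi.sub_apply, Pi.add_apply, Pi.neg_apply, Pi.smul_apply, ap_apply, X0_succ,
        X1_succ, D0_apply, D1_apply, map_add, map_sub, map_neg, map_smul, S.d0x0, S.d1x1, S.d0x1,
        S.d1x0, Pi.zero_apply, smul_add, smul_sub, map_zero, smul_zero]
      match_scalars <;> field_simp <;> ring

/-! ### `δ_2 δ_3 = 0` -/

theorem cv_d3 (v : Fn M) : S.cv (S.d3α v) (S.d3β v) = ap S.x0 (X1 v) - ap S.x1 (X0 v) := by
  funext a b
  simp only [d3α, d3β, cv_apply, Pi.sub_apply, Pi.neg_apply, Pi.add_apply, ap_apply,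
    map_sub, map_add, map_neg, S.xx]
  abel

theorem I0_zero (u : Fn M) (b : ℕ) : S.I0 u 0 b = 0 := rfl
theorem I0_succ (u : Fn M) (a b : ℕ) : S.I0 u (a + 1) b = (S.c (a + 1))⁻¹ • u a b := rfl
theorem psi_zero (u : Fn M) : S.psi u 0 0 = 0 := rfl
theorem psi_zero_succ (u : Fn M) (b : ℕ) : S.psi u 0 (b + 1) = - ((S.c (b + 1))⁻¹ • u 0 b) := rfl
theorem psi_succ (u : Fn M) (a b : ℕ) : S.psi u (a + 1) b = 0 := rfl
theorem q0_zero (u : Fn M) (a : ℕ) : q0 u a 0 = u (a + 1) 0 := rfl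
theorem q0_succ (u : Fn M) (a b : ℕ) : q0 u a (b + 1) = 0 := rfl
theorem q1_apply (u : Fn M) (a b : ℕ) : q1 u a b = u a (b + 1) := rfl

theorem del2_del3 (v : Fn M) :
    S.al (S.d3α v) (S.d3β v) + S.be (S.d3H0 v) (S.d3H1 v) = 0 := by
  have hg := S.g0
  have hc := S.cne
  have hS : ∀ a, S.c (a + 1) * S.g = S.c a - 1 := fun a => by rw [S.cs a]; ring
  have h01 : S.c (0 + 1) * S.g = -1 := by rw [hS, S.c0]; ring
  unfold al be
  rw [cv_d3]
  simp only [d3α, d3β, d3H0, d3H1, Prod.mk_add_mk, Prod.mk_eq_zero]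
  refine ⟨?_, ?_, ?_, ?_⟩
  all_goals
    funext a b
    rcases a with _ | a <;> rcases b with _ | b
    all_goals
      simp only [Pi.add_apply, Pi.sub_apply, Pi.neg_apply, Pi.smul_apply, ap_apply, X0_zero,
        X0_succ, X1_zero, X1_succ, D0_apply, D1_apply, I0_zero, I0_succ, psi_zero, psi_zero_succ,
        psi_succ, q0_zero, q0_succ, q1_apply, map_add, map_sub, map_neg, map_smul, map_zero,
        smul_zero, S.d0x0, S.d1x1, S.d0x1, S.d1x0, S.dd, S.xx, smul_add, smul_sub, smul_neg,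
        Pi.zero_apply]
      match_scalars <;> field_simp
      all_goals try ring1
      all_goals first
        | (rw [div_self (hc _)]; ring1)
        | (rw [hS]; ring1)
        | linear_combination h01

/-! ### memberships -/

theorem mono' {P A : ℤ} (k : ℕ) : S.F P A ≤ S.F P (A + k) := by
  induction k with
  | zero => simp
  | succ k ih =>
    refine ih.trans ((S.mono P (A + k)).trans_eq ?_)
    congr 1
    push_cast; ring

theorem In.mono {N N' : Submodule K M} (h : N ≤ N') {u : Fn M} (hu : In N u) : In N' u :=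
  fun a b => h (hu a b)

theorem iX0 {P A : ℤ} {u : Fn M} (h : In (S.F P A) u) : In (S.F (P + 1) A) (ap S.x0 u) :=
  fun a b => S.mx0 _ _ _ (h a b)
theorem iX1 {P A : ℤ} {u : Fn M} (h : In (S.F P A) u) : In (S.F (P + 1) A) (ap S.x1 u) :=
  fun a b => S.mx1 _ _ _ (h a b)
theorem iD0 {P A : ℤ} {u : Fn M} (h : In (S.F P A) u) : In (S.F (P - 1) (A + 1)) (ap S.d0 u) :=
  fun a b => S.md0 _ _ _ (h a b)
theorem iD1 {P A : ℤ} {u : Fn M} (h : In (S.F P A) u) : In (S.F (P - 1) (A + 1)) (ap S.d1 u) :=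
  fun a b => S.md1 _ _ _ (h a b)

/-- change of the indices of `F` -/
theorem cast_F {P P' A A' : ℤ} {u : Fn M} (h : In (S.F P A) u) (hP : P = P') (hA : A = A') :
    In (S.F P' A') u := by
  subst hP; subst hA; exact h

theorem up {P A A' : ℤ} {u : Fn M} (h : In (S.F P A) u) (hA : A ≤ A') : In (S.F P A') u := by
  obtain ⟨k, hk⟩ := Int.eq_ofNat_of_zero_le (sub_nonneg.2 hA)
  have : A' = A + k := by rw [← hk]; ring
  rw [this]
  exact fun a b => S.mono' k (h a b)

theorem In.q0 {N : Submodule K M} {u : Fn M} (h : In N u) : In N (q0 u) := by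
  intro a b
  cases b with
  | zero => exact h _ _
  | succ b => exact N.zero_mem

theorem In.q1 {N : Submodule K M} {u : Fn M} (h : In N u) : In N (q1 u) := fun a b => h _ _

theorem In.I0 {N : Submodule K M} {u : Fn M} (h : In N u) : In N (S.I0 u) := by
  intro a b
  cases a with
  | zero => exact N.zero_mem
  | succ a => exact N.smul_mem _ (h _ _)

theorem In.psi {N : Submodule K M} {u : Fn M} (h : In N u) : In N (S.psi u) := by
  intro a b
  rcases a with _ | a <;> rcases b with _ | b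
  · exact N.zero_mem
  · exact N.neg_mem (N.smul_mem _ (h _ _))
  · exact N.zero_mem
  · exact N.zero_mem

theorem al_mem {P A : ℤ} {α β : Fn M} (h : S.KL 2 P A α β) : S.K1m P A (S.al α β) := by
  obtain ⟨h1, h2, h3⟩ := h
  have hd : ∀ u : Fn M, In (S.F (P + 1) (A - 2)) u → In (S.F P (A - 1)) (ap S.d0 u) ∧
      In (S.F P (A - 1)) (ap S.d1 u) := fun u hu =>
    ⟨S.cast_F (S.iD0 hu) (by ring) (by ring), S.cast_F (S.iD1 hu) (by ring) (by ring)⟩
  refine ⟨⟨?_, ?_, ?_⟩, ⟨?_, ?_, ?_⟩⟩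
  · exact (h1.D1 _).sub ((S.up (hd _ (In.q0 h3)).2 (by omega)).smul _)
  · exact (h2.D1 _).sub (S.up (hd _ (In.q1 h3)).2 (by omega))
  · rw [cv_al0]
    refine ((S.up (h3.D1 _) (by omega)).sub (In.smul _ (S.iX0 (hd _ (In.q0 h3)).2))).sub
      (S.iX1 (hd _ (In.q1 h3)).2)
  · exact (h1.D0 _).neg.add (S.up (hd _ (In.q0 h3)).1 (by omega))
  · exact (h2.D0 _).neg.add ((S.up (hd _ (In.q1 h3)).1 (by omega)).smul _)
  · rw [cv_al1]
    exact ((S.up (h3.D0 _) (by omega)).neg.add (S.iX0 (hd _ (In.q0 h3)).1)).add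
      (In.smul _ (S.iX1 (hd _ (In.q1 h3)).1))

theorem be_mem {P A : ℤ} {H0 H1 : Fn M} (h0 : In (S.F P (A - 1)) H0)
    (h1 : In (S.F P (A - 1)) H1) : S.K1m P A (S.be H0 H1) := by
  have hs : In (S.F (P - 1) A) (ap S.d0 (S.I0 H0) + ap S.d1 (S.I0 H1)) :=
    (S.cast_F (S.iD0 (In.I0 S h0)) rfl (by ring)).add
      (S.cast_F (S.iD1 (In.I0 S h1)) rfl (by ring))
  refine ⟨⟨?_, ?_, ?_⟩, ⟨?_, ?_, ?_⟩⟩
  · exact ((S.up h0.X1 (by omega)).smul _).neg.add (S.cast_F (S.iX1 hs) (by ring) rfl)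
  · exact (S.up h0.X0 (by omega)).sub (S.cast_F (S.iX0 hs) (by ring) rfl)
  · rw [cv_be0]
    exact (S.iX1 h0.X0).sub (In.smul _ (S.iX0 h0.X1))
  · exact (S.up h1.X1 (by omega)).neg
  · exact (S.up h1.X0 (by omega)).smul _
  · rw [cv_be1]
    exact (In.smul _ (S.iX1 h1.X0)).sub (S.iX0 h1.X1)

theorem del1_mem {P A : ℤ} {z : R4 M} (h : S.K1m P A z) : In (S.F P A) (S.del1 z) := by
  obtain ⟨⟨h1, h2, h3⟩, ⟨h4, h5, h6⟩⟩ := h
  exact (((S.cast_F (S.iD0 h3) (by ring) (by ring)).add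
    (S.cast_F (S.iD1 h6) (by ring) (by ring))).sub ((h1.D0 _).add (h4.D1 _)).X0).sub
    ((h2.D0 _).add (h5.D1 _)).X1

theorem d3_mem {P A : ℤ} {v : Fn M} (h : In (S.F P (A - 2)) v) :
    S.KL 2 P A (S.d3α v) (S.d3β v) ∧ In (S.F P (A - 1)) (S.d3H0 v) ∧
      In (S.F P (A - 1)) (S.d3H1 v) := by
  have hs0 : In (S.F (P - 1) (A - 1)) (ap S.d0 (S.I0 v)) :=
    S.cast_F (S.iD0 (In.I0 S h)) rfl (by ring)
  have hs1 : In (S.F (P - 1) (A - 1)) (ap S.d1 (S.psi v)) :=
    S.cast_F (S.iD1 (In.psi S h)) rfl (by ring)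
  have hs2 : In (S.F (P - 1) (A - 1)) (ap S.d0 (q1 v)) :=
    S.cast_F (S.iD0 (In.q1 h)) rfl (by ring)
  have hs3 : In (S.F (P - 1) (A - 1)) (ap S.d1 (q1 v)) :=
    S.cast_F (S.iD1 (In.q1 h)) rfl (by ring)
  have hx0 : ∀ u : Fn M, In (S.F (P - 1) (A - 1)) u → In (S.F P A) (ap S.x0 u) := fun u hu =>
    S.up (S.cast_F (S.iX0 hu) (by ring) rfl) (by omega)
  have hx1 : ∀ u : Fn M, In (S.F (P - 1) (A - 1)) u → In (S.F P A) (ap S.x1 u) := fun u hu =>
    S.up (S.cast_F (S.iX1 hu) (by ring) rfl) (by omega)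
  refine ⟨⟨?_, ?_, ?_⟩, ?_, ?_⟩
  · exact ((S.up h.X1 (by omega)).sub (hx1 _ hs0)).add (hx1 _ hs1)
  · exact ((S.up h.X0 (by omega)).neg.add (hx0 _ hs0)).sub (hx0 _ hs1)
  · rw [cv_d3]
    exact (S.iX0 h.X1).sub (S.iX1 h.X0)
  · exact ((S.up (h.D1 _) (by omega)).sub (S.up (In.q1 h) (by omega))).sub
      (In.smul _ (S.cast_F (S.iX1 hs3) (by ring) rfl))
  · exact (S.up (h.D0 _) (by omega)).neg.add (S.cast_F (S.iX1 hs2) (by ring) rfl)

/-! ### twisted rows -/

/-- inverse twists -/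
def U0 (g : K) (u : Fn M) : Fn M := fun a b => g ^ a • u a b
def U1 (g : K) (u : Fn M) : Fn M := fun a b => g ^ b • u a b

theorem T0_add (g : K) (u v : Fn M) : T0 g (u + v) = T0 g u + T0 g v := by
  funext a b; simp [T0_apply]
theorem T1_add (g : K) (u v : Fn M) : T1 g (u + v) = T1 g u + T1 g v := by
  funext a b; simp [T1_apply]
theorem T0_sub (g : K) (u v : Fn M) : T0 g (u - v) = T0 g u - T0 g v := by
  funext a b; simp [T0_apply, smul_sub]
theorem T1_sub (g : K) (u v : Fn M) : T1 g (u - v) = T1 g u - T1 g v := by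
  funext a b; simp [T1_apply, smul_sub]

theorem T0_U0 {g : K} (hg : g ≠ 0) (u : Fn M) : T0 g (U0 g u) = u := by
  funext a b
  simp only [T0_apply, U0, smul_smul]
  rw [← mul_pow, inv_mul_cancel₀ hg, one_pow, one_smul]
theorem T1_U1 {g : K} (hg : g ≠ 0) (u : Fn M) : T1 g (U1 g u) = u := by
  funext a b
  simp only [T1_apply, U1, smul_smul]
  rw [← mul_pow, inv_mul_cancel₀ hg, one_pow, one_smul]

theorem T0_inj {g : K} (hg : g ≠ 0) {u : Fn M} (h : T0 g u = 0) : u = 0 := by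
  funext a b
  have := congrFun (congrFun h a) b
  simp only [T0_apply, Pi.zero_apply] at this
  exact (smul_eq_zero.1 this).resolve_left (pow_ne_zero _ (inv_ne_zero hg))
theorem T1_inj {g : K} (hg : g ≠ 0) {u : Fn M} (h : T1 g u = 0) : u = 0 := by
  funext a b
  have := congrFun (congrFun h a) b
  simp only [T1_apply, Pi.zero_apply] at this
  exact (smul_eq_zero.1 this).resolve_left (pow_ne_zero _ (inv_ne_zero hg))

theorem In.U0 {N : Submodule K M} {u : Fn M} (g : K) (h : In N u) : In N (U0 g u) :=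
  fun a b => N.smul_mem _ (h a b)
theorem In.U1 {N : Submodule K M} {u : Fn M} (g : K) (h : In N u) : In N (U1 g u) :=
  fun a b => N.smul_mem _ (h a b)

/-- `μ_0` of the `c`-value of `δ_2` -/
theorem mu_cv_al0 (α β : Fn M) (m : ℕ) :
    S.mu m (T0 S.g (S.cv (S.al α β).1 (S.al α β).2.1)) =
      - S.d1 (S.mu (m + 1) (T1 S.g (T0 S.g (S.cv α β)))) := by
  have hg := S.g0
  rw [cv_al0]
  generalize S.cv α β = C
  have hdec : S.mu (m + 1) (ap S.d1 (T0 S.g C)) =
      S.mu m (T0 S.g (S.g⁻¹ • ap S.x0 (ap S.d1 (q0 C)) + ap S.x1 (ap S.d1 (q1 C)))) := by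
    have e1 : S.mu (m + 1) (ap S.d1 (T0 S.g C)) =
        S.mu (m + 1) (X0 (ap S.d1 (S.g⁻¹ • T0 S.g (q0 C))) + X1 (ap S.d1 (T0 S.g (q1 C)))) := by
      refine S.mu_congr fun a b hab => ?_
      have h := q_dec C a b (by omega)
      simp only [ap_apply, T0_apply, Pi.add_apply]
      rw [← h]
      rcases a with _ | a <;> rcases b with _ | b <;>
        simp only [X0_zero, X0_succ, X1_zero, X1_succ, ap_apply, T0_apply, Pi.smul_apply, map_add,
          map_smul, map_zero, smul_add, smul_zero, zero_add, add_zero, smul_smul, pow_succ']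
    rw [e1, mu_add, mu_X0, mu_X1, ← mu_x0, ← mu_x1, ← mu_add]
    congr 1
    funext a b
    simp only [Pi.add_apply, Pi.smul_apply, ap_apply, T0_apply, map_smul, smul_add]
    module
  have e2 : T0 S.g (D1 S.c C - S.g⁻¹ • ap S.x0 (ap S.d1 (q0 C)) - ap S.x1 (ap S.d1 (q1 C))) =
      D1 S.c (T0 S.g C) -
        T0 S.g (S.g⁻¹ • ap S.x0 (ap S.d1 (q0 C)) + ap S.x1 (ap S.d1 (q1 C))) := by
    funext a b
    simp only [Pi.add_apply, Pi.sub_apply, Pi.smul_apply, ap_apply, T0_apply, D1_apply]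
    module
  rw [e2, mu_sub, ← hdec, mu_d1]
  abel

/-- `μ_1` of the `c`-value of `δ_2` -/
theorem mu_cv_al1 (α β : Fn M) (m : ℕ) :
    S.mu m (T1 S.g (S.cv (S.al α β).2.2.1 (S.al α β).2.2.2)) =
      S.d0 (S.mu (m + 1) (T1 S.g (T0 S.g (S.cv α β)))) := by
  have hg := S.g0
  rw [cv_al1]
  generalize S.cv α β = C
  have hdec : S.mu (m + 1) (ap S.d0 (T1 S.g C)) =
      S.mu m (T1 S.g (ap S.x0 (ap S.d0 (q0 C)) + S.g⁻¹ • ap S.x1 (ap S.d0 (q1 C)))) := by
    have e1 : S.mu (m + 1) (ap S.d0 (T1 S.g C)) =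
        S.mu (m + 1) (X0 (ap S.d0 (T1 S.g (q0 C))) + X1 (ap S.d0 (S.g⁻¹ • T1 S.g (q1 C)))) := by
      refine S.mu_congr fun a b hab => ?_
      have h := q_dec C a b (by omega)
      simp only [ap_apply, T1_apply, Pi.add_apply]
      rw [← h]
      rcases a with _ | a <;> rcases b with _ | b <;>
        simp only [X0_zero, X0_succ, X1_zero, X1_succ, ap_apply, T1_apply, Pi.smul_apply, map_add,
          map_smul, map_zero, smul_add, smul_zero, zero_add, add_zero, smul_smul, pow_succ']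
    rw [e1, mu_add, mu_X0, mu_X1, ← mu_x0, ← mu_x1, ← mu_add]
    congr 1
    funext a b
    simp only [Pi.add_apply, Pi.smul_apply, ap_apply, T1_apply, map_smul, smul_add]
    module
  have e2 : T1 S.g (- D0 S.c C + ap S.x0 (ap S.d0 (q0 C)) + S.g⁻¹ • ap S.x1 (ap S.d0 (q1 C))) =
      - D0 S.c (T1 S.g C) +
        T1 S.g (ap S.x0 (ap S.d0 (q0 C)) + S.g⁻¹ • ap S.x1 (ap S.d0 (q1 C))) := by
    funext a b
    simp only [Pi.add_apply, Pi.neg_apply, Pi.smul_apply, ap_apply, T1_apply, D0_apply]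
    module
  have e3 : T0 S.g (T1 S.g C) = T1 S.g (T0 S.g C) := by
    funext a b
    simp only [T0_apply, T1_apply]
    rw [smul_comm]
  rw [e2, mu_add, mu_neg, ← hdec, mu_d0, e3]
  abel

/-! ### linearity -/

theorem cv_add (α β α' β' : Fn M) : S.cv (α + α') (β + β') = S.cv α β + S.cv α' β' := by
  funext a b
  simp only [cv_apply, Pi.add_apply, map_add]
  abel

theorem cv_sub (α β α' β' : Fn M) : S.cv (α - α') (β - β') = S.cv α β - S.cv α' β' := by
  funext a b
  simp only [cv_apply, Pi.sub_apply, map_sub]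
  abel

theorem del1_sub (z w : R4 M) : S.del1 (z - w) = S.del1 z - S.del1 w := by
  obtain ⟨z1, z2, z3, z4⟩ := z
  obtain ⟨w1, w2, w3, w4⟩ := w
  simp only [del1, Prod.mk_sub_mk, cv_sub]
  funext a b
  rcases a with _ | a <;> rcases b with _ | b <;>
    simp only [Pi.sub_apply, Pi.add_apply, ap_apply, X0_zero, X0_succ, X1_zero, X1_succ, D0_apply,
      D1_apply, map_sub, smul_sub] <;> abel

theorem del1_add (z w : R4 M) : S.del1 (z + w) = S.del1 z + S.del1 w := by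
  obtain ⟨z1, z2, z3, z4⟩ := z
  obtain ⟨w1, w2, w3, w4⟩ := w
  simp only [del1, Prod.mk_add_mk, cv_add]
  funext a b
  rcases a with _ | a <;> rcases b with _ | b <;>
    simp only [Pi.sub_apply, Pi.add_apply, ap_apply, X0_zero, X0_succ, X1_zero, X1_succ, D0_apply,
      D1_apply, map_add, smul_add] <;> abel

theorem q0_sub (u v : Fn M) : q0 (u - v) = q0 u - q0 v := by
  funext a b
  cases b <;> simp [q0]

theorem al_sub (α β α' β' : Fn M) : S.al (α - α') (β - β') = S.al α β - S.al α' β' := by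
  simp only [al, cv_sub, q0_sub, Prod.mk_sub_mk]
  refine Prod.ext ?_ (Prod.ext ?_ (Prod.ext ?_ ?_)) <;>
  · funext a b
    simp only [Pi.sub_apply, Pi.add_apply, Pi.neg_apply, Pi.smul_apply, ap_apply, D0_apply,
      D1_apply, q1_apply, map_sub, smul_sub]
    abel

theorem be_sub (H0 H1 H0' H1' : Fn M) :
    S.be (H0 - H0') (H1 - H1') = S.be H0 H1 - S.be H0' H1' := by
  simp only [be, Prod.mk_sub_mk]
  refine Prod.ext ?_ (Prod.ext ?_ (Prod.ext ?_ ?_)) <;>
  · funext a b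
    rcases a with _ | a <;> rcases b with _ | b <;>
      simp only [Pi.sub_apply, Pi.add_apply, Pi.neg_apply, Pi.smul_apply, ap_apply, X0_zero,
        X0_succ, X1_zero, X1_succ, I0_zero, I0_succ, map_sub, map_add, map_zero, smul_sub,
        smul_zero] <;> abel

theorem al_kap (α β u : Fn M) : S.al (α + ap S.x1 u) (β - ap S.x0 u) = S.al α β +
    (ap S.x1 (D1 S.c u), - ap S.x0 (D1 S.c u), - ap S.x1 (D0 S.c u), ap S.x0 (D0 S.c u)) := by
  have h : S.cv (α + ap S.x1 u) (β - ap S.x0 u) = S.cv α β := by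
    funext a b
    simp only [cv_apply, Pi.add_apply, Pi.sub_apply, ap_apply, map_add, map_sub, S.xx]
    abel
  simp only [al, h, Prod.mk_add_mk]
  refine Prod.ext ?_ (Prod.ext ?_ (Prod.ext ?_ ?_)) <;>
  · funext a b
    simp only [Pi.sub_apply, Pi.add_apply, Pi.neg_apply, Pi.smul_apply, ap_apply, D0_apply,
      D1_apply, smul_sub, smul_add, map_smul]
    abel

/-- lifting along `K_j → O(1,-j)` -/
theorem lift_cv {P B : ℤ} (hP : 0 ≤ P) (C : Fn M) (hC : In (S.F (P + 1) B) C) (h0 : C 0 0 = 0) :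
    ∃ α β : Fn M, In (S.F P B) α ∧ In (S.F P B) β ∧ S.cv α β = C ∧ α 0 0 = 0 ∧ β 0 0 = 0 := by
  classical
  choose α hα β hβ h using fun a b => S.sX (P + 1) B (C a b) (by omega) (hC a b)
  have e1 : P + 1 - 1 = P := by ring
  rw [e1] at hα hβ
  refine ⟨fun a b => if a = 0 ∧ b = 0 then 0 else α a b,
    fun a b => if a = 0 ∧ b = 0 then 0 else β a b, fun a b => ?_, fun a b => ?_, ?_, ?_, ?_⟩
  · dsimp only
    split_ifs
    exacts [Submodule.zero_mem _, hα a b]
  · dsimp only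
    split_ifs
    exacts [Submodule.zero_mem _, hβ a b]
  · funext a b
    rw [cv_apply]
    by_cases hab : a = 0 ∧ b = 0
    · rw [if_pos hab, if_pos hab, hab.1, hab.2, h0]; simp
    · rw [if_neg hab, if_neg hab]; exact (h a b).symm
  · simp
  · simp

theorem mu_row (m : ℕ) (e : Fn M) : S.mu m (ap S.x0 (X1 e) - ap S.x1 (X0 e)) = 0 := by
  rw [mu_sub, mu_x0, mu_x1]
  cases m with
  | zero => rw [mu_zero_X0, mu_zero_X1]; simp
  | succ m => rw [mu_X0, mu_X1, S.xx, sub_self]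

/-! ### exactness at `C_0` -/

theorem exact0 {P A : ℤ} (hP : 0 ≤ P) (u : Fn M) (hu : In (S.F P A) u)
    (h : ∀ m : ℕ, ∃ f0 ∈ S.F (P + m + 1) (A - 1), ∃ f1 ∈ S.F (P + m + 1) (A - 1),
      S.mu m u = S.d0 f0 + S.d1 f1) :
    ∃ z : R4 M, S.K1m P A z ∧ S.del1 z = u := by
  classical
  have hg := S.g0
  choose f0 hf0 f1 hf1 hf using h
  -- the constant terms have to be kept: shift-free version of `lift_cv`
  have lift : ∀ C : Fn M, In (S.F (P + 1) (A - 1)) C → ∃ α β : Fn M, In (S.F P (A - 1)) α ∧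
      In (S.F P (A - 1)) β ∧ S.cv α β = C := by
    intro C hC
    choose α hα β hβ h using fun a b => S.sX (P + 1) (A - 1) (C a b) (by omega) (hC a b)
    have e1 : P + 1 - 1 = P := by ring
    rw [e1] at hα hβ
    exact ⟨α, β, hα, hβ, by funext a b; exact (h a b).symm⟩
  obtain ⟨v0, hv0, hm0⟩ := S.row_surj_all (P + 1) (A - 1) (by omega) f0 (fun m => by
    have := hf0 m
    rwa [show P + m + 1 = P + 1 + m by ring] at this)
  obtain ⟨v1, hv1, hm1⟩ := S.row_surj_all (P + 1) (A - 1) (by omega) f1 (fun m => by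
    have := hf1 m
    rwa [show P + m + 1 = P + 1 + m by ring] at this)
  obtain ⟨α0, β0, ha0, hb0, hc0⟩ := lift (U0 S.g v0) (In.U0 _ hv0)
  obtain ⟨α1, β1, ha1, hb1, hc1⟩ := lift (U1 S.g v1) (In.U1 _ hv1)
  have hz : S.K1m P A (α0, β0, α1, β1) := by
    refine ⟨⟨S.up ha0 (by omega), S.up hb0 (by omega), ?_⟩,
      ⟨S.up ha1 (by omega), S.up hb1 (by omega), ?_⟩⟩
    · show In _ (S.cv α0 β0)
      rw [hc0]; exact In.U0 _ hv0
    · show In _ (S.cv α1 β1)
      rw [hc1]; exact In.U1 _ hv1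
  obtain ⟨e, he, hE⟩ := S.row_exact_all P A hP (u - S.del1 (α0, β0, α1, β1))
    (hu.sub (S.del1_mem hz)) (fun m => by
      rw [mu_sub, mu_del1]
      simp only [hc0, hc1, T0_U0 hg, T1_U1 hg, hm0, hm1]
      rw [← hf m, sub_self])
  refine ⟨(α0, β0, α1, β1) + (ap S.x1 (S.I0 e), - ap S.x0 (S.I0 e), 0, 0), ?_, ?_⟩
  · have hI : In (S.F (P - 1) A) (S.I0 e) := In.I0 S he
    refine ⟨⟨hz.1.1.add (S.cast_F (S.iX1 hI) (by ring) rfl),
      hz.1.2.1.add (S.cast_F (S.iX0 hI) (by ring) rfl).neg, ?_⟩, ⟨?_, ?_, ?_⟩⟩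
    · show In _ (S.cv (α0 + ap S.x1 (S.I0 e)) (β0 + - ap S.x0 (S.I0 e)))
      rw [cv_add]
      have : S.cv (ap S.x1 (S.I0 e)) (- ap S.x0 (S.I0 e)) = 0 := by
        funext a b
        simp [cv_apply, S.xx]
      rw [this, add_zero]
      exact hz.1.2.2
    · show In _ (α1 + 0)
      rw [add_zero]; exact hz.2.1
    · show In _ (β1 + 0)
      rw [add_zero]; exact hz.2.2.1
    · show In _ (S.cv (α1 + 0) (β1 + 0))
      rw [add_zero, add_zero]; exact hz.2.2.2
  · rw [del1_add]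
    have h1 : S.del1 (ap S.x1 (S.I0 e), - ap S.x0 (S.I0 e), 0, 0) =
        ap S.x0 (X1 e) - ap S.x1 (X0 e) := by
      have h2 : S.cv (ap S.x1 (S.I0 e)) (- ap S.x0 (S.I0 e)) = 0 := by
        funext a b
        simp [cv_apply, S.xx]
      have h3 : S.cv (0 : Fn M) 0 = 0 := by funext a b; simp [cv_apply]
      have h4 : D0 S.c (ap S.x1 (S.I0 e)) = ap S.x1 e := by
        funext a b
        have := congrFun (congrFun (S.D0_I0 e) a) b
        rw [D0_apply] at this
        simp only [D0_apply, ap_apply]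
        rw [← map_smul, this]
      have h5 : D0 S.c (- ap S.x0 (S.I0 e)) = - ap S.x0 e := by
        funext a b
        have := congrFun (congrFun (S.D0_I0 e) a) b
        rw [D0_apply] at this
        simp only [D0_apply, ap_apply, Pi.neg_apply]
        rw [smul_neg, ← map_smul, this]
      have h6 : D1 S.c (0 : Fn M) = 0 := by funext a b; simp [D1_apply]
      unfold del1
      simp only [h2, h3, h4, h5, h6]
      funext a b
      rcases a with _ | a <;> rcases b with _ | b <;> simp <;> abel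
    rw [h1, ← hE]
    abel

/-! ### exactness at `C_1` -/

theorem T0_row {g : K} (hg : g ≠ 0) (e : Fn M) :
    T0 g (X0 e) = g⁻¹ • X0 (T0 g e) ∧ T0 g (X1 e) = X1 (T0 g e) := by
  constructor
  · funext a b
    cases a with
    | zero => simp [T0_apply]
    | succ a => simp [T0_apply, smul_smul, pow_succ']
  · funext a b
    cases b with
    | zero => simp [T0_apply]
    | succ b => simp [T0_apply]

theorem T1_row {g : K} (hg : g ≠ 0) (e : Fn M) :
    T1 g (X0 e) = X0 (T1 g e) ∧ T1 g (X1 e) = g⁻¹ • X1 (T1 g e) := by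
  constructor
  · funext a b
    cases a with
    | zero => simp [T1_apply]
    | succ a => simp [T1_apply]
  · funext a b
    cases b with
    | zero => simp [T1_apply]
    | succ b => simp [T1_apply, smul_smul, pow_succ']

theorem T0_cv_be0 (H0 H1 : Fn M) : T0 S.g (S.cv (S.be H0 H1).1 (S.be H0 H1).2.1) =
    - (S.g⁻¹ • (ap S.x0 (X1 (T0 S.g H0)) - ap S.x1 (X0 (T0 S.g H0)))) := by
  rw [cv_be0]
  funext a b
  have h1 := congrFun (congrFun (T0_row S.g0 H0).1 a) b
  have h2 := congrFun (congrFun (T0_row S.g0 H0).2 a) b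
  simp only [T0_apply, Pi.smul_apply] at h1 h2
  simp only [T0_apply, Pi.sub_apply, Pi.neg_apply, Pi.smul_apply, ap_apply]
  rw [← h2, smul_sub, ← map_smul, h1, map_smul, map_smul]
  module

theorem T1_cv_be1 (H0 H1 : Fn M) : T1 S.g (S.cv (S.be H0 H1).2.2.1 (S.be H0 H1).2.2.2) =
    - (S.g⁻¹ • (ap S.x0 (X1 (T1 S.g H1)) - ap S.x1 (X0 (T1 S.g H1)))) := by
  rw [cv_be1]
  funext a b
  have h1 := congrFun (congrFun (T1_row S.g0 H1).1 a) b
  have h2 := congrFun (congrFun (T1_row S.g0 H1).2 a) b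
  simp only [T1_apply, Pi.smul_apply] at h1 h2
  simp only [T1_apply, Pi.sub_apply, Pi.neg_apply, Pi.smul_apply, ap_apply]
  rw [← h1, smul_sub, ← map_smul S.x0, h2, map_smul, map_smul]
  module

theorem row_zero_of_be0 {H0 H1 : Fn M} (h : S.cv (S.be H0 H1).1 (S.be H0 H1).2.1 = 0) :
    H0 = 0 := by
  have h1 := S.T0_cv_be0 H0 H1
  rw [h] at h1
  have h2 : T0 S.g (0 : Fn M) = 0 := by funext a b; simp [T0_apply]
  rw [h2] at h1
  refine T0_inj S.g0 (S.row_inj _ ?_)
  have h3 := neg_eq_zero.1 h1.symm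
  exact (smul_eq_zero.1 h3).resolve_left (inv_ne_zero S.g0)

theorem row_zero_of_be1 {H0 H1 : Fn M} (h : S.cv (S.be H0 H1).2.2.1 (S.be H0 H1).2.2.2 = 0) :
    H1 = 0 := by
  have h1 := S.T1_cv_be1 H0 H1
  rw [h] at h1
  have h2 : T1 S.g (0 : Fn M) = 0 := by funext a b; simp [T1_apply]
  rw [h2] at h1
  refine T1_inj S.g0 (S.row_inj _ ?_)
  have h3 := neg_eq_zero.1 h1.symm
  exact (smul_eq_zero.1 h3).resolve_left (inv_ne_zero S.g0)

theorem exact1 {P A : ℤ} (hP : 0 ≤ P) (z : R4 M) (hz : S.K1m P A z) (h : S.del1 z = 0) :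
    ∃ α β H0 H1 : Fn M, S.KL 2 P A α β ∧ α 0 0 = 0 ∧ β 0 0 = 0 ∧ In (S.F P (A - 1)) H0 ∧
      In (S.F P (A - 1)) H1 ∧ z = S.al α β + S.be H0 H1 := by
  classical
  have hg := S.g0
  -- the `d`-Koszul complex
  have hD : ∀ m : ℕ, ∃ f ∈ S.F (P + 1 + m + 1) (A - 1 - 1),
      S.mu m (T0 S.g (S.cv z.1 z.2.1)) = S.d1 f ∧
      S.mu m (T1 S.g (S.cv z.2.2.1 z.2.2.2)) = - S.d0 f := by
    intro m
    refine S.eD (P + 1 + m) (A - 1) _ _ (by omega) (S.mu_mem (In.T0 _ hz.1.2.2) m)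
      (S.mu_mem (In.T1 _ hz.2.2.2) m) ?_
    rw [← mu_del1, h, mu_zero']
  choose f hf h0 h1 using hD
  obtain ⟨v, hv, hm⟩ := S.row_surj_all (P + 1) (A - 2) (by omega)
    (fun m => match m with
      | 0 => 0
      | m + 1 => f m) (fun m => by
        cases m with
        | zero => exact Submodule.zero_mem _
        | succ m =>
          have := hf m
          convert this using 2
          · push_cast; ring
          · ring)
  have hv0 : v 0 0 = 0 := by
    have := hm 0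
    simpa [mu] using this
  obtain ⟨α, β, ha, hb, hc, ha0, hb0⟩ := S.lift_cv (B := A - 2) hP (- U0 S.g (U1 S.g v))
    (In.U0 _ (In.U1 _ hv)).neg (by simp [U0, U1, hv0])
  have hT : T1 S.g (T0 S.g (S.cv α β)) = - v := by
    rw [hc]
    funext a b
    simp only [T1_apply, T0_apply, U0, U1, Pi.neg_apply, smul_neg, smul_smul]
    have hk : S.g⁻¹ ^ b * (S.g⁻¹ ^ a * (S.g ^ a * S.g ^ b)) = 1 := by
      rw [← mul_assoc (S.g⁻¹ ^ a), ← mul_pow, inv_mul_cancel₀ hg, one_pow, one_mul, ← mul_pow,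
        inv_mul_cancel₀ hg, one_pow]
    rw [hk, one_smul]
  have hK : S.KL 2 P A α β := ⟨S.up ha (by omega), S.up hb (by omega), by
    rw [hc]; exact (In.U0 _ (In.U1 _ hv)).neg⟩
  have hal := S.al_mem hK
  set z1 : R4 M := z - S.al α β with hz1
  have c0 : S.cv z1.1 z1.2.1 = S.cv z.1 z.2.1 - S.cv (S.al α β).1 (S.al α β).2.1 :=
    S.cv_sub _ _ _ _
  have c1 : S.cv z1.2.2.1 z1.2.2.2 =
      S.cv z.2.2.1 z.2.2.2 - S.cv (S.al α β).2.2.1 (S.al α β).2.2.2 := S.cv_sub _ _ _ _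
  have m0 : In (S.F (P + 1) (A - 1)) (S.cv z1.1 z1.2.1) := by
    rw [c0]; exact hz.1.2.2.sub hal.1.2.2
  have m1 : In (S.F (P + 1) (A - 1)) (S.cv z1.2.2.1 z1.2.2.2) := by
    rw [c1]; exact hz.2.2.2.sub hal.2.2.2
  obtain ⟨e0, he0, hE0⟩ := S.row_exact_all (P + 1) (A - 1) (by omega) _ (In.T0 S.g m0)
    (fun m => by
      rw [c0, T0_sub, mu_sub, mu_cv_al0, hT, mu_neg, hm, h0]
      simp)
  obtain ⟨e1, he1, hE1⟩ := S.row_exact_all (P + 1) (A - 1) (by omega) _ (In.T1 S.g m1)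
    (fun m => by
      rw [c1, T1_sub, mu_sub, mu_cv_al1, hT, mu_neg, hm, h1]
      simp)
  have e2 : P + 1 - 1 = P := by ring
  rw [e2] at he0 he1
  set H0 : Fn M := - (S.g • U0 S.g e0) with hH0
  set H1 : Fn M := - (S.g • U1 S.g e1) with hH1
  have mH0 : In (S.F P (A - 1)) H0 := (In.smul _ (In.U0 _ he0)).neg
  have mH1 : In (S.F P (A - 1)) H1 := (In.smul _ (In.U1 _ he1)).neg
  have hbe := S.be_mem mH0 mH1
  have tH0 : T0 S.g H0 = - (S.g • e0) := by
    rw [hH0]
    funext a b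
    have := congrFun (congrFun (T0_U0 hg e0) a) b
    simp only [T0_apply] at this
    simp only [T0_apply, Pi.neg_apply, Pi.smul_apply, smul_neg]
    rw [smul_comm, this]
  have tH1 : T1 S.g H1 = - (S.g • e1) := by
    rw [hH1]
    funext a b
    have := congrFun (congrFun (T1_U1 hg e1) a) b
    simp only [T1_apply] at this
    simp only [T1_apply, Pi.neg_apply, Pi.smul_apply, smul_neg]
    rw [smul_comm, this]
  have k0 : S.cv z1.1 z1.2.1 = S.cv (S.be H0 H1).1 (S.be H0 H1).2.1 := by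
    rw [← sub_eq_zero]
    refine T0_inj hg ?_
    rw [T0_sub, T0_cv_be0, hE0, tH0]
    funext a b
    rcases a with _ | a <;> rcases b with _ | b <;>
      simp only [Pi.sub_apply, Pi.neg_apply, Pi.smul_apply, ap_apply, X0_zero, X0_succ, X1_zero,
        X1_succ, map_neg, map_smul, map_zero, Pi.zero_apply, smul_sub, smul_neg, smul_smul,
        inv_mul_cancel₀ hg, one_smul, smul_zero] <;> abel
  have k1 : S.cv z1.2.2.1 z1.2.2.2 = S.cv (S.be H0 H1).2.2.1 (S.be H0 H1).2.2.2 := by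
    rw [← sub_eq_zero]
    refine T1_inj hg ?_
    rw [T1_sub, T1_cv_be1, hE1, tH1]
    funext a b
    rcases a with _ | a <;> rcases b with _ | b <;>
      simp only [Pi.sub_apply, Pi.neg_apply, Pi.smul_apply, ap_apply, X0_zero, X0_succ, X1_zero,
        X1_succ, map_neg, map_smul, map_zero, Pi.zero_apply, smul_sub, smul_neg, smul_smul,
        inv_mul_cancel₀ hg, one_smul, smul_zero] <;> abel
  set z2 : R4 M := z1 - S.be H0 H1 with hz2
  have c2 : S.cv z2.1 z2.2.1 = 0 := by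
    have : S.cv z2.1 z2.2.1 = S.cv z1.1 z1.2.1 - S.cv (S.be H0 H1).1 (S.be H0 H1).2.1 :=
      S.cv_sub _ _ _ _
    rw [this, k0, sub_self]
  have c3 : S.cv z2.2.2.1 z2.2.2.2 = 0 := by
    have : S.cv z2.2.2.1 z2.2.2.2 =
        S.cv z1.2.2.1 z1.2.2.2 - S.cv (S.be H0 H1).2.2.1 (S.be H0 H1).2.2.2 := S.cv_sub _ _ _ _
    rw [this, k1, sub_self]
  have hd : S.del1 z2 = 0 := by
    rw [hz2, hz1, del1_sub, del1_sub, h, del1_al, del1_be]; simp
  have n1 : In (S.F P A) z2.1 := (hz.1.1.sub hal.1.1).sub hbe.1.1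
  have n2 : In (S.F P A) z2.2.1 := (hz.1.2.1.sub hal.1.2.1).sub hbe.1.2.1
  have n3 : In (S.F P A) z2.2.2.1 := (hz.2.1.sub hal.2.1).sub hbe.2.1
  have n4 : In (S.F P A) z2.2.2.2 := (hz.2.2.1.sub hal.2.2.1).sub hbe.2.2.1
  choose ε0 hε0 p0 p1 using fun a b => S.eX P A (z2.1 a b) (z2.2.1 a b) hP (n1 a b) (n2 a b)
    (congrFun (congrFun c2 a) b)
  choose ε1 hε1 p2 p3 using fun a b => S.eX P A (z2.2.2.1 a b) (z2.2.2.2 a b) hP (n3 a b) (n4 a b)
    (congrFun (congrFun c3 a) b)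
  have hp : D0 S.c ε0 + D1 S.c ε1 = 0 := by
    refine S.row_inj _ ?_
    rw [← hd]
    unfold del1
    rw [c2, c3]
    funext a b
    rcases a with _ | a <;> rcases b with _ | b <;>
      simp only [Pi.sub_apply, Pi.add_apply, ap_apply, X0_zero, X0_succ, X1_zero, X1_succ,
        D0_apply, D1_apply, p0, p1, p2, p3, map_add, map_smul, map_zero, Pi.zero_apply, smul_neg,
        S.xx] <;> abel
  obtain ⟨u, hu, hu0, q1', q2'⟩ := S.deRham _ ε0 ε1 hε0 hε1 hp
  refine ⟨α + ap S.x1 u, β - ap S.x0 u, H0, H1, ⟨?_, ?_, ?_⟩, ?_, ?_, mH0, mH1, ?_⟩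
  · exact hK.1.add (S.cast_F (S.iX1 hu) (by ring) rfl)
  · exact hK.2.1.sub (S.cast_F (S.iX0 hu) (by ring) rfl)
  · have : S.cv (α + ap S.x1 u) (β - ap S.x0 u) = S.cv α β := by
      funext a b
      simp only [cv_apply, Pi.add_apply, Pi.sub_apply, ap_apply, map_add, map_sub, S.xx]
      abel
    rw [this]; exact hK.2.2
  · simp [ha0, hu0]
  · simp [hb0, hu0]
  · rw [al_kap]
    have hz2' : z2 = (ap S.x1 (D1 S.c u), - ap S.x0 (D1 S.c u), - ap S.x1 (D0 S.c u),
        ap S.x0 (D0 S.c u)) := by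
      refine Prod.ext ?_ (Prod.ext ?_ (Prod.ext ?_ ?_))
      · funext a b
        rw [p0, q1']; rfl
      · funext a b
        rw [p1, q1']; rfl
      · funext a b
        rw [p2, q2']; simp
      · funext a b
        rw [p3, q2']; simp
    rw [← hz2', hz2, hz1]
    abel

/-! ### exactness at `C_2` and `C_3` -/

theorem inj3 (v : Fn M) (h0 : S.d3α v = 0) (h1 : S.d3β v = 0) : v = 0 := by
  refine S.row_inj v ?_
  rw [← cv_d3, h0, h1]
  funext a b
  simp [cv_apply]

theorem exact2 {P A : ℤ} (hP : 0 ≤ P) (α β H0 H1 : Fn M) (hK : S.KL 2 P A α β) (ha : α 0 0 = 0)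
    (hb : β 0 0 = 0) (h : S.al α β + S.be H0 H1 = 0) :
    ∃ v : Fn M, In (S.F P (A - 2)) v ∧ α = S.d3α v ∧ β = S.d3β v ∧ H0 = S.d3H0 v ∧
      H1 = S.d3H1 v := by
  have hg := S.g0
  have hmu : ∀ m, S.mu (m + 1) (T1 S.g (T0 S.g (S.cv α β))) = 0 := by
    intro m
    refine S.id1 _ _ _ (S.mu_mem (In.T1 _ (In.T0 _ hK.2.2)) (m + 1)) ?_
    have h1 := S.mu_cv_al0 α β m
    have h2 : S.al α β = - S.be H0 H1 := eq_neg_of_add_eq_zero_left h
    have h3 : S.cv (S.al α β).1 (S.al α β).2.1 = - S.cv (S.be H0 H1).1 (S.be H0 H1).2.1 := by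
      rw [h2]
      funext a b
      simp only [cv_apply, Prod.fst_neg, Prod.snd_neg, Pi.neg_apply, map_neg]
      abel
    have h4 : T0 S.g (- S.cv (S.be H0 H1).1 (S.be H0 H1).2.1) =
        S.g⁻¹ • (ap S.x0 (X1 (T0 S.g H0)) - ap S.x1 (X0 (T0 S.g H0))) := by
      have := S.T0_cv_be0 H0 H1
      have h5 : T0 S.g (- S.cv (S.be H0 H1).1 (S.be H0 H1).2.1) =
          - T0 S.g (S.cv (S.be H0 H1).1 (S.be H0 H1).2.1) := by
        funext a b; simp [T0_apply]
      rw [h5, this, neg_neg]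
    rw [h3, h4, mu_smul, mu_row, smul_zero] at h1
    exact neg_eq_zero.1 h1.symm
  obtain ⟨e, he, hE⟩ := S.row_exact_all (P + 1) (A - 2) (by omega)
    (T1 S.g (T0 S.g (S.cv α β))) (In.T1 _ (In.T0 _ hK.2.2)) (fun m => by
      cases m with
      | zero => simp [mu, T0_apply, T1_apply, cv_apply, ha, hb]
      | succ m => exact hmu m)
  have e2 : P + 1 - 1 = P := by ring
  rw [e2] at he
  set v : Fn M := S.g • U0 S.g (U1 S.g e) with hv
  have mv : In (S.F P (A - 2)) v := In.smul _ (In.U0 _ (In.U1 _ he))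
  have hC : S.cv α β = S.cv (S.d3α v) (S.d3β v) := by
    rw [cv_d3, ← sub_eq_zero]
    refine T0_inj hg (T1_inj hg ?_)
    rw [T0_sub, T1_sub, hE]
    have key : ∀ a b, (S.g⁻¹) ^ b • (S.g⁻¹) ^ a • S.g ^ a • S.g ^ b • e a b = e a b := by
      intro a b
      rw [smul_smul ((S.g⁻¹) ^ a), ← mul_pow, inv_mul_cancel₀ hg, one_pow, one_smul, smul_smul,
        ← mul_pow, inv_mul_cancel₀ hg, one_pow, one_smul]
    funext a b
    rcases a with _ | a <;> rcases b with _ | b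
    · simp [T0_apply, T1_apply]
    · have := key 0 b
      simp only [pow_zero, one_smul] at this
      simp only [hv, T0_apply, T1_apply, Pi.sub_apply, ap_apply, X0_zero, X1_succ, Pi.smul_apply,
        U0, U1, map_zero, sub_zero, pow_zero, one_smul, map_smul, Pi.zero_apply]
      rw [sub_eq_zero, ← map_smul, ← map_smul, ← map_smul]
      congr 1
      rw [pow_succ, mul_smul, smul_smul S.g⁻¹, inv_mul_cancel₀ hg, one_smul, this]
    · have := key a 0
      simp only [pow_zero, one_smul] at this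
      simp only [hv, T0_apply, T1_apply, Pi.sub_apply, ap_apply, X0_succ, X1_zero, Pi.smul_apply,
        U0, U1, map_zero, zero_sub, pow_zero, one_smul, map_smul, Pi.zero_apply, smul_neg]
      rw [sub_eq_zero, ← map_smul, ← map_smul, ← map_smul]
      congr 2
      rw [pow_succ, mul_smul, smul_smul S.g⁻¹, inv_mul_cancel₀ hg, one_smul, this]
    · have k1 := key (a + 1) b
      have k2 := key a (b + 1)
      simp only [hv, T0_apply, T1_apply, Pi.sub_apply, ap_apply, X0_succ, X1_succ, Pi.smul_apply,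
        U0, U1, map_smul, Pi.zero_apply, smul_sub]
      have r1 : S.g⁻¹ ^ (b + 1) • S.g⁻¹ ^ (a + 1) • S.g • S.g ^ (a + 1) • S.g ^ b •
          S.x0 (e (a + 1) b) = S.x0 (e (a + 1) b) := by
        simp only [← map_smul]
        congr 1
        rw [pow_succ (S.g⁻¹) b, mul_smul, smul_comm (S.g⁻¹ ^ (a + 1)) S.g, smul_smul S.g⁻¹ S.g,
          inv_mul_cancel₀ hg, one_smul]
        exact k1
      have r2 : S.g⁻¹ ^ (b + 1) • S.g⁻¹ ^ (a + 1) • S.g • S.g ^ a • S.g ^ (b + 1) •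
          S.x1 (e a (b + 1)) = S.x1 (e a (b + 1)) := by
        simp only [← map_smul]
        congr 1
        rw [pow_succ (S.g⁻¹) a, mul_smul, smul_smul S.g⁻¹ S.g,
          inv_mul_cancel₀ hg, one_smul]
        exact k2
      rw [r1, r2]
      abel
  have hzero : S.al (α - S.d3α v) (β - S.d3β v) + S.be (H0 - S.d3H0 v) (H1 - S.d3H1 v) = 0 := by
    rw [al_sub, be_sub]
    have := S.del2_del3 v
    calc _ = (S.al α β + S.be H0 H1) -
        (S.al (S.d3α v) (S.d3β v) + S.be (S.d3H0 v) (S.d3H1 v)) := by abel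
      _ = 0 := by rw [h, this, sub_zero]
  have hcv : S.cv (α - S.d3α v) (β - S.d3β v) = 0 := by rw [cv_sub, hC, sub_self]
  have hq0 : q0 (0 : Fn M) = 0 := by funext a b; cases b <;> rfl
  have hq1 : q1 (0 : Fn M) = 0 := rfl
  have hap : ∀ f : Module.End K M, ap f (0 : Fn M) = 0 := fun f => by funext a b; simp
  have hcal0 : S.cv (S.al (α - S.d3α v) (β - S.d3β v)).1
      (S.al (α - S.d3α v) (β - S.d3β v)).2.1 = 0 := by
    rw [cv_al0, hcv, hq0, hq1]
    simp only [hap]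
    funext a b
    simp [D1_apply]
  have hcal1 : S.cv (S.al (α - S.d3α v) (β - S.d3β v)).2.2.1
      (S.al (α - S.d3α v) (β - S.d3β v)).2.2.2 = 0 := by
    rw [cv_al1, hcv, hq0, hq1]
    simp only [hap]
    funext a b
    simp [D0_apply]
  have hbe := eq_neg_of_add_eq_zero_right hzero
  have hH0 : H0 - S.d3H0 v = 0 := by
    refine S.row_zero_of_be0 (H1 := H1 - S.d3H1 v) ?_
    rw [hbe]
    have : ∀ w : R4 M, S.cv (-w).1 (-w).2.1 = - S.cv w.1 w.2.1 := fun w => by
      funext a b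
      simp only [cv_apply, Prod.fst_neg, Prod.snd_neg, Pi.neg_apply, map_neg]
      abel
    rw [this, hcal0, neg_zero]
  have hH1 : H1 - S.d3H1 v = 0 := by
    refine S.row_zero_of_be1 (H0 := H0 - S.d3H0 v) ?_
    rw [hbe]
    have : ∀ w : R4 M, S.cv (-w).2.2.1 (-w).2.2.2 = - S.cv w.2.2.1 w.2.2.2 := fun w => by
      funext a b
      simp only [cv_apply, Prod.fst_neg, Prod.snd_neg, Pi.neg_apply, map_neg]
      abel
    rw [this, hcal1, neg_zero]
  rw [hH0, hH1] at hzero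
  have hbe0 : S.be 0 0 = 0 := by
    have := S.be_sub 0 0 0 0
    simpa using this
  rw [hbe0, add_zero] at hzero
  unfold al at hzero
  rw [hcv, hq0, hq1] at hzero
  simp only [hap, smul_zero, sub_zero, add_zero, Prod.mk_eq_zero, neg_eq_zero] at hzero
  obtain ⟨z1, z2, z3, z4⟩ := hzero
  have d00 : S.d3α v 0 0 = 0 := by simp [d3α, I0_zero, psi_zero]
  have d01 : S.d3β v 0 0 = 0 := by simp [d3β, I0_zero, psi_zero]
  have fin : ∀ w : Fn M, w 0 0 = 0 → D0 S.c w = 0 → D1 S.c w = 0 → w = 0 := by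
    intro w h0 h1 h2
    funext a b
    rcases a with _ | a
    · rcases b with _ | b
      · exact h0
      · have := congrFun (congrFun h2 0) b
        exact (smul_eq_zero.1 this).resolve_left (S.cne b)
    · have := congrFun (congrFun h1 a) b
      exact (smul_eq_zero.1 this).resolve_left (S.cne a)
  have w1 : α - S.d3α v = 0 := fin _ (by simp [ha, d00]) z3 z1
  have w2 : β - S.d3β v = 0 := fin _ (by simp [hb, d01]) z4 z2
  exact ⟨v, mv, sub_eq_zero.1 w1, sub_eq_zero.1 w2, sub_eq_zero.1 hH0, sub_eq_zero.1 hH1⟩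

end Dat

end Crest.Agent.R186.Cov853
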