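import Crest.Agent.R186.FinV_988
import Crest.Agent.R186.Dual_560
import Crest.Agent.R186.FDual_162
import Crest.Agent.R186.KV_186
import Crest.Agent.R186.Res2_255

/-!
Row 186 (A), joint (helper449): the three duals of a left dg module are equal
(`FinV988.DR`, `Dual560.LMd`, `FDual162.dRM`), and `KH186.Vlm = Res255.honL`.
-/

set_option autoImplicit false
set_option linter.style.haveILetI false

open MulOpposite

namespace Crest.Agent.R186.DEq449

open Hat827 Frame515 Res255

variable {K : Type} [Field K]

/-- right dg modules with the same carrier, additive structure, differential and action -/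
theorem rm_ext {A : DGA K} {X : Type} [i1 : AddCommGroup X] [i2 : Module K X]
    {gr gr' : ℤ → Submodule K X} {d d' : X →ₗ[K] X} {act act' : Module A.Cᵐᵒᵖ X}
    (h1 : gr = gr') (h2 : d = d') (h3 : act = act')
    {p1 p2 p3 p4 p5 p1' p2' p3' p4' p5'} :
    ({ X := X, grp := i1, mod := i2, gr := gr, d := d, d_mem := p1, d_d := p2, act := act,
       tower := p3, smul_mem := p4, leib := p5 } : RM A) =
    { X := X, grp := i1, mod := i2, gr := gr', d := d', d_mem := p1', d_d := p2', act := act',
       tower := p3', smul_mem := p4', leib := p5' } := by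
  subst h1 h2 h3
  rfl

variable {A : DGA K}

/-- **988's dual is 162's dual** -/
theorem DR_eq (Z : LM A) : FinV988.DR Z = FDual162.dRM Z := by
  refine rm_ext (X := Z.X →ₗ[K] K) ?_ ?_ ?_
  · funext k
    ext f
    exact ⟨fun h j hj x hx => h j x hx hj, fun h l z hz hl => h l hl z hz⟩
  · rfl
  · rfl

/-- **560's dual is 162's dual** -/
theorem LMd_eq (Z : LM A) : Dual560.LMd Z = FDual162.dRM Z := rfl

/-- **988's dual is 560's dual** -/
theorem DR_eq' (Z : LM A) : FinV988.DR Z = Dual560.LMd Z := DR_eq Z

/-! ### modules in degree zero -/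

section hon

open Win810 KH186

variable {w : WD K} (M : WMod w)

/-- **186's window module is 255's module in degree zero** -/
theorem Vlm_eq (hpos : ∀ k : ℤ, 0 < k → ∀ a ∈ w.dga.G k, ∀ v : M.VM, a • v = 0)
    (hD : ∀ (a : w.dga.C) (v : M.VM), w.dga.D a • v = 0) :
    Vlm M = honL w.dga M.VM hpos hD := rfl

/-- positive degrees act by zero -/
theorem VM_pos : ∀ k : ℤ, 0 < k → ∀ a ∈ w.dga.G k, ∀ v : M.VM, a • v = 0 :=
  fun _ hk _ ha v => WMod_smul_G M ha hk v

/-- boundaries act by zero -/
theorem VM_D : ∀ (a : w.dga.C) (v : M.VM), w.dga.D a • v = 0 := fun a v => WMod_smul_D M a v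

theorem Vlm_eq' : Vlm M = honL w.dga M.VM (VM_pos M) (VM_D M) := rfl

end hon

end Crest.Agent.R186.DEq449
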