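import Crest.Agent.R186.DJ2_187
import Crest.Agent.R186.FinD_988
import Crest.Agent.R186.AcIff_492
import Crest.Agent.R186.TB3_143

/-!
Row 186 (A), leaf DJ (helper187), part 3: `InjPsi` from `alpha : R ⊗_B A → D(A)` having acyclic
cone and `B ⊗ X'' → (A ⊗ X)|_B` being a quasi-isomorphism.
-/

set_option autoImplicit false
set_option linter.style.haveILetI false
set_option linter.unusedSectionVars false

open MulOpposite

namespace Crest.Agent.R186.DJ187

open Hat827 ConeHyp462 Adapt186 Frame515 Res255 FinV988 FinD988 TB143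

variable {K : Type} [Field K] {A B : DGA K} {h : Hm B A}

/-! ### functionals -/

/-- functionals `w κ = v κ ∘ pr` on `A`, indexed by the right cells of `D(M)` -/
structure RW (h : Hm B A) (P : Prj h) (R : RCells B) where
  lo : ℤ
  w : R.ι → (A.C →ₗ[K] K)
  w_mem : ∀ κ (l : ℤ) (a : A.C), a ∈ A.G l → l ≠ -(lo + R.s κ) → w κ a = 0
  w_d : ∀ κ a, w κ (A.D a) = ∑ κ' ∈ R.F (R.s κ), w κ' (h.f (R.c κ' κ) * a)
  w_pr : ∀ κ a, w κ (P.pr a) = w κ a

variable {P : Prj h} {R : RCells B} (W : RW h P R)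

/-- `r_κ ⊗ a ↦ (a' ↦ w κ (a a'))` -/
noncomputable def alpha : (R.ι →₀ A.C) →ₗ[K] (A.C →ₗ[K] K) :=
  Finsupp.lsum K fun κ =>
    { toFun := fun a => (W.w κ) ∘ₗ (LinearMap.mulLeft K a)
      map_add' := fun a b => by
        ext x
        simp [add_mul]
      map_smul' := fun r a => by
        ext x
        simp }

theorem alpha_single (κ : R.ι) (a a' : A.C) :
    alpha W (Finsupp.single κ a) a' = W.w κ (a * a') := by
  simp [alpha]

theorem alpha_apply (x : R.ι →₀ A.C) (a' : A.C) :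
    alpha W x a' = x.sum fun κ a => W.w κ (a * a') := by
  induction x using Finsupp.induction_linear with
  | zero => simp
  | add x y hx hy =>
    rw [map_add, LinearMap.add_apply, hx, hy, Finsupp.sum_add_index']
    · intro κ; simp
    · intro κ a b; simp [add_mul]
  | single κ a => rw [alpha_single, Finsupp.sum_single_index (by simp)]

/-- `r_κ ⊗ n ↦ w κ (G n)` -/
noncomputable def EG {N : Type} [AddCommGroup N] [Module K N] (G : N →ₗ[K] A.C) :
    (R.ι →₀ N) →ₗ[K] K :=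
  Finsupp.lsum K fun κ => W.w κ ∘ₗ G

section EG

variable {N : Type} [AddCommGroup N] [Module K N]

theorem EG_single (G : N →ₗ[K] A.C) (κ : R.ι) (n : N) :
    EG W G (Finsupp.single κ n) = W.w κ (G n) := by
  simp [EG]

theorem EG_add (G G' : N →ₗ[K] A.C) (x : R.ι →₀ N) : EG W (G + G') x = EG W G x + EG W G' x := by
  induction x using Finsupp.induction_linear with
  | zero => simp
  | add x y hx hy => rw [map_add, map_add, map_add, hx, hy]; abel
  | single κ n => rw [EG_single, EG_single, EG_single, LinearMap.add_apply, map_add]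

theorem EG_zero (x : R.ι →₀ N) : EG W (0 : N →ₗ[K] A.C) x = 0 := by
  induction x using Finsupp.induction_linear with
  | zero => simp
  | add x y hx hy => rw [map_add, hx, hy, add_zero]
  | single κ n => rw [EG_single, LinearMap.zero_apply, map_zero]

theorem EG_pr (G : N →ₗ[K] A.C) (x : R.ι →₀ N) : EG W (P.pr ∘ₗ G) x = EG W G x := by
  induction x using Finsupp.induction_linear with
  | zero => simp
  | add x y hx hy => rw [map_add, map_add, hx, hy]
  | single κ n => rw [EG_single, EG_single, LinearMap.comp_apply, W.w_pr]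

end EG

/-- the basic identity -/
theorem EG_d (N : LM B) (G : N.X →ₗ[K] A.C) (hG : ∀ (b : B.C) (n : N.X), G (b • n) = h.f b * G n)
    (x : R.ι →₀ N.X) : EG W G ((twY R N).dd x) = EG W (G ∘ₗ N.d + A.D ∘ₗ G) x := by
  classical
  suffices e : EG W G ∘ₗ (twY R N).dd = EG W (G ∘ₗ N.d + A.D ∘ₗ G) from LinearMap.congr_fun e x
  refine Finsupp.lhom_ext fun κ n => ?_
  rw [LinearMap.comp_apply, Tw.dd_single, map_add, map_sum, EG_single, EG_single]
  have h1 : ∀ κ', EG W G (Finsupp.single κ' ((twY R N).m κ κ' n)) =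
      W.w κ' (h.f (R.c κ' κ) * G n) := fun κ' => by
    rw [EG_single]
    change W.w κ' (G (R.c κ' κ • n)) = _
    rw [hG]
  have h2 : ∑ κ' ∈ R.F (R.s κ), EG W G (Finsupp.single κ' ((twY R N).m κ κ' n)) =
      ∑ κ' ∈ R.F (R.s κ), W.w κ' (h.f (R.c κ' κ) * G n) := Finset.sum_congr rfl fun κ' _ => h1 κ'
  refine (congrArg (W.w κ (G (N.d n)) + ·) h2).trans ?_
  rw [← W.w_d, LinearMap.add_apply, map_add]
  rfl

/-! ### chain maps out of cells -/

variable {X : PCells A} {Y : LCells B}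

/-- `∑ a_σ ↦ ∑ a_σ f_σ` on `A ⊗ X` -/
noncomputable def gX (f : X.ι → A.C) : (X.ι →₀ A.C) →ₗ[K] A.C :=
  Finsupp.lsum K fun σ => LinearMap.mulRight K (f σ)

theorem gX_single (f : X.ι → A.C) (σ : X.ι) (a : A.C) :
    gX f (Finsupp.single σ a) = a * f σ := by simp [gX]

/-- `∑ b_k ↦ ∑ b_k g_k` on `B ⊗ Y` -/
noncomputable def gY (h : Hm B A) (g : Y.ι → A.C) : (Y.ι →₀ B.C) →ₗ[K] A.C :=
  Finsupp.lsum K fun k => LinearMap.mulRight K (g k) ∘ₗ h.f.toLinearMap

theorem gY_single (g : Y.ι → A.C) (k : Y.ι) (b : B.C) :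
    gY h g (Finsupp.single k b) = h.f b * g k := by simp [gY]

theorem gX_smul (f : X.ι → A.C) (a : A.C) (x : X.ι →₀ A.C) : gX f (a • x) = a * gX f x := by
  induction x using Finsupp.induction_linear with
  | zero => simp
  | add x y hx hy => rw [smul_add, map_add, hx, hy, map_add, mul_add]
  | single σ b => rw [Finsupp.smul_single, gX_single, gX_single, smul_eq_mul, mul_assoc]

theorem gY_smul (g : Y.ι → A.C) (b : B.C) (x : Y.ι →₀ B.C) :
    gY h g (b • x) = h.f b * gY h g x := by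
  induction x using Finsupp.induction_linear with
  | zero => simp
  | add x y hx hy => rw [smul_add, map_add, hx, hy, map_add, mul_add]
  | single σ c => rw [Finsupp.smul_single, gY_single, gY_single, smul_eq_mul, map_mul, mul_assoc]

/-- `A ⊗ X` as a complex -/
noncomputable abbrev cX (X : PCells A) : GC K := tG (selfR A) (lpc X)

/-- `B ⊗ Y` as a complex -/
noncomputable abbrev cY (Y : LCells B) : GC K := tG (selfR B) Y

theorem gX_d (f : X.ι → A.C) (x : X.ι →₀ A.C) :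
    gX f ((cX X).d x) + A.D (gX f x) = gX (dX X f) x := by
  classical
  let dd : (X.ι →₀ A.C) →ₗ[K] (X.ι →₀ A.C) := (twG (selfR A) (lpc X)).dd
  suffices e : gX f ∘ₗ dd + A.D ∘ₗ gX f = gX (dX X f) from LinearMap.congr_fun e x
  refine Finsupp.lhom_ext fun σ a => ?_
  have h1 : dd (Finsupp.single σ a) = Finsupp.single σ (A.D a) +
      ∑ τ ∈ X.F (X.s σ), Finsupp.single τ (a * X.c σ τ) :=
    (twG (selfR A) (lpc X)).dd_single σ a
  rw [LinearMap.add_apply, LinearMap.comp_apply, LinearMap.comp_apply, h1, map_add, map_sum,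
    gX_single, gX_single, gX_single, dX, A.D_mul, mul_add, Finset.mul_sum]
  have h2 : ∑ τ ∈ X.F (X.s σ), gX f (Finsupp.single τ (a * X.c σ τ)) =
      ∑ τ ∈ X.F (X.s σ), a * (X.c σ τ * f τ) := Finset.sum_congr rfl fun τ _ => by
    rw [gX_single, mul_assoc]
  rw [h2]
  have h3 := A.two (A.D a * f σ)
  set u := A.D a * f σ
  set v := a * A.D (f σ)
  set t := ∑ τ ∈ X.F (X.s σ), a * (X.c σ τ * f τ)
  calc u + t + (u + v) = (u + u) + (v + t) := by abel
    _ = v + t := by rw [h3, zero_add]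

theorem gY_d (g : Y.ι → A.C) (x : Y.ι →₀ B.C) :
    gY h g ((cY Y).d x) + A.D (gY h g x) = gY h (dB h Y g) x := by
  classical
  let dd : (Y.ι →₀ B.C) →ₗ[K] (Y.ι →₀ B.C) := (twG (selfR B) Y).dd
  suffices e : gY h g ∘ₗ dd + A.D ∘ₗ gY h g = gY h (dB h Y g) from LinearMap.congr_fun e x
  refine Finsupp.lhom_ext fun k b => ?_
  have h1 : dd (Finsupp.single k b) = Finsupp.single k (B.D b) +
      ∑ j ∈ Y.F (Y.s k), Finsupp.single j (b * Y.c k j) :=
    (twG (selfR B) Y).dd_single k b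
  rw [LinearMap.add_apply, LinearMap.comp_apply, LinearMap.comp_apply, h1, map_add, map_sum,
    gY_single, gY_single, gY_single, dB, A.D_mul, mul_add, Finset.mul_sum, h.D]
  have h2 : ∑ j ∈ Y.F (Y.s k), gY h g (Finsupp.single j (b * Y.c k j)) =
      ∑ j ∈ Y.F (Y.s k), h.f b * (h.f (Y.c k j) * g j) := Finset.sum_congr rfl fun j _ => by
    rw [gY_single, map_mul, mul_assoc]
  rw [h2]
  have h3 := A.two (A.D (h.f b) * g k)
  set u := A.D (h.f b) * g k
  set v := h.f b * A.D (g k)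
  set t := ∑ j ∈ Y.F (Y.s k), h.f b * (h.f (Y.c k j) * g j)
  calc u + t + (u + v) = (u + u) + (v + t) := by abel
    _ = v + t := by rw [h3, zero_add]

/-! ### the comparison map `B ⊗ Y → (A ⊗ X)|` -/

namespace Lift

variable (Φ : Lift h X Y)

/-- the underlying linear map -/
noncomputable def lin : (Y.ι →₀ B.C) →ₗ[K] (X.ι →₀ A.C) :=
  Finsupp.lsum K fun k =>
    ∑ σ ∈ X.F (Y.s k), Finsupp.lsingle σ ∘ₗ LinearMap.mulRight K (Φ.φ k σ) ∘ₗ h.f.toLinearMap

theorem lin_single (k : Y.ι) (b : B.C) :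
    Φ.lin (Finsupp.single k b) = ∑ σ ∈ X.F (Y.s k), Finsupp.single σ (h.f b * Φ.φ k σ) := by
  simp [lin]

theorem lin_single_of_le (k : Y.ι) (b : B.C) {m : ℕ} (hm : Y.s k ≤ m) :
    Φ.lin (Finsupp.single k b) = ∑ σ ∈ X.F m, Finsupp.single σ (h.f b * Φ.φ k σ) := by
  rw [lin_single]
  refine Finset.sum_subset (F_mono hm) ?_
  intro σ h1 h2
  rw [X.mem_F] at h2
  rw [Φ.φ_zero (by omega), mul_zero, Finsupp.single_zero]

theorem lin_apply (x : Y.ι →₀ B.C) (σ : X.ι) :
    Φ.lin x σ = x.sum fun k b => h.f b * Φ.φ k σ := by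
  classical
  induction x using Finsupp.induction_linear with
  | zero => simp
  | add x y hx hy =>
    rw [map_add, Finsupp.add_apply, hx, hy, Finsupp.sum_add_index']
    · intro k; simp
    · intro k a b; rw [map_add, add_mul]
  | single k b =>
    rw [lin_single, Finsupp.sum_single_index (by simp), Finset.sum_apply']
    simp only [Finsupp.single_apply]
    rw [Finset.sum_ite_eq']
    split_ifs with h1
    · rfl
    · rw [X.mem_F] at h1
      rw [Φ.φ_zero (by omega), mul_zero]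

theorem lin_smul (b : B.C) (x : Y.ι →₀ B.C) : Φ.lin (b • x) = h.f b • Φ.lin x := by
  induction x using Finsupp.induction_linear with
  | zero => simp
  | add x y hx hy => rw [smul_add, map_add, hx, hy, map_add, smul_add]
  | single k c =>
    rw [Finsupp.smul_single, lin_single, lin_single, Finset.smul_sum]
    refine Finset.sum_congr rfl fun σ _ => ?_
    rw [Finsupp.smul_single, smul_eq_mul, smul_eq_mul, map_mul, mul_assoc]

theorem lin_mem {k : ℤ} {x : Y.ι →₀ B.C} (hx : x ∈ (cY Y).gr k) : Φ.lin x ∈ (cX X).gr k := by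
  have h0 : ∀ σ : X.ι, (Φ.lin x σ : A.C) ∈ A.G (k - X.s σ) ∧
      (Φ.lin x σ : A.C) * X.e σ = Φ.lin x σ := ?_
  · exact fun σ => h0 σ
  intro σ
  rw [lin_apply]
  refine ⟨Submodule.sum_mem _ fun j _ => ?_, ?_⟩
  · have h1 : x j ∈ B.G (k - Y.s j) := (hx j).1
    have h2 := A.mul_mem (h.mem h1) (Φ.φ_mem j σ)
    rw [show k - (Y.s j : ℤ) + ((Y.s j : ℤ) - X.s σ) = k - X.s σ by ring] at h2
    exact h2
  · rw [Finsupp.sum, Finset.sum_mul]
    refine Finset.sum_congr rfl fun j _ => ?_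
    rw [mul_assoc, Φ.φ_e]

theorem lin_d (x : Y.ι →₀ B.C) : Φ.lin ((cY Y).d x) = (cX X).d (Φ.lin x) := by
  classical
  let dY : (Y.ι →₀ B.C) →ₗ[K] (Y.ι →₀ B.C) := (twG (selfR B) Y).dd
  let ddX : (X.ι →₀ A.C) →ₗ[K] (X.ι →₀ A.C) := (twG (selfR A) (lpc X)).dd
  suffices e : Φ.lin ∘ₗ dY = ddX ∘ₗ Φ.lin from LinearMap.congr_fun e x
  refine Finsupp.lhom_ext fun k b => ?_
  have h1 : dY (Finsupp.single k b) = Finsupp.single k (B.D b) +
      ∑ j ∈ Y.F (Y.s k), Finsupp.single j (b * Y.c k j) := (twG (selfR B) Y).dd_single k b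
  have h2 : ∀ σ a, ddX (Finsupp.single σ a) = Finsupp.single σ (A.D a) +
      ∑ τ ∈ X.F (X.s σ), Finsupp.single τ (a * X.c σ τ) := fun σ a =>
    (twG (selfR A) (lpc X)).dd_single σ a
  rw [LinearMap.comp_apply, LinearMap.comp_apply, h1, map_add, map_sum, lin_single, lin_single,
    map_sum]
  have h3 : ∑ j ∈ Y.F (Y.s k), Φ.lin (Finsupp.single j (b * Y.c k j)) =
      ∑ τ ∈ X.F (Y.s k), Finsupp.single τ (h.f b * ∑ j ∈ Y.F (Y.s k), h.f (Y.c k j) * Φ.φ j τ) := by
    have : ∀ j ∈ Y.F (Y.s k), Φ.lin (Finsupp.single j (b * Y.c k j)) =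
        ∑ τ ∈ X.F (Y.s k), Finsupp.single τ (h.f b * (h.f (Y.c k j) * Φ.φ j τ)) := by
      intro j hj
      rw [Φ.lin_single_of_le j _ ((Y.mem_F _ _).1 hj)]
      refine Finset.sum_congr rfl fun τ _ => ?_
      rw [map_mul, mul_assoc]
    rw [Finset.sum_congr rfl this, Finset.sum_comm]
    refine Finset.sum_congr rfl fun τ _ => ?_
    rw [Finset.mul_sum]
    exact (map_sum (Finsupp.singleAddHom τ) _ _).symm
  have h4 : ∀ σ ∈ X.F (Y.s k), ddX (Finsupp.single σ (h.f b * Φ.φ k σ)) =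
      Finsupp.single σ (A.D (h.f b * Φ.φ k σ)) +
      ∑ τ ∈ X.F (Y.s k), Finsupp.single τ (h.f b * Φ.φ k σ * X.c σ τ) := by
    intro σ hσ
    rw [h2]
    congr 1
    refine Finset.sum_subset (F_mono ((X.mem_F _ _).1 hσ)) ?_
    intro τ h5 h6
    rw [X.mem_F] at h6
    rw [c_zero (by omega), mul_zero, Finsupp.single_zero]
  rw [h3, Finset.sum_congr rfl h4, Finset.sum_add_distrib, Finset.sum_comm]
  have h5 : ∑ τ ∈ X.F (Y.s k), ∑ σ ∈ X.F (Y.s k), Finsupp.single τ (h.f b * Φ.φ k σ * X.c σ τ) =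
      ∑ τ ∈ X.F (Y.s k), Finsupp.single τ (h.f b * ∑ σ ∈ X.F (Y.s k), Φ.φ k σ * X.c σ τ) := by
    refine Finset.sum_congr rfl fun τ _ => ?_
    rw [Finset.mul_sum]
    have := map_sum (Finsupp.singleAddHom (M := A.C) τ)
      (fun σ => h.f b * (Φ.φ k σ * X.c σ τ)) (X.F (Y.s k))
    refine Eq.trans ?_ this.symm
    refine Finset.sum_congr rfl fun σ _ => ?_
    rw [mul_assoc]
    rfl
  rw [h5, ← Finset.sum_add_distrib, ← Finset.sum_add_distrib]
  refine Finset.sum_congr rfl fun τ _ => ?_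
  rw [← Finsupp.single_add, ← Finsupp.single_add, A.D_mul, h.D, ← Φ.φ_d k τ, mul_add]
  congr 1
  have h6 := A.two (h.f b * A.D (Φ.φ k τ))
  set u := A.D (h.f b) * Φ.φ k τ
  set v := h.f b * A.D (Φ.φ k τ)
  set t := h.f b * ∑ σ ∈ X.F (Y.s k), Φ.φ k σ * X.c σ τ
  abel

/-- the comparison map as a morphism of left `B`-modules -/
noncomputable def hom : LMHom (tP (selfB B) Y) (tP (resBL h (selfB A)) (lpc X)) where
  f := Φ.lin
  f_mem hx := Φ.lin_mem hx
  f_d x := Φ.lin_d x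
  smul b x := Φ.lin_smul b x

theorem gX_lin (f : X.ι → A.C) (x : Y.ι →₀ B.C) : gX f (Φ.lin x) = gY h (Φ.pull f) x := by
  induction x using Finsupp.induction_linear with
  | zero => simp
  | add x y hx hy => rw [map_add, map_add, hx, hy, map_add]
  | single k b =>
    rw [lin_single, map_sum, gY_single, pull, Finset.mul_sum]
    refine Finset.sum_congr rfl fun σ _ => ?_
    rw [gX_single, mul_assoc]

end Lift

theorem gY_pr (g : Y.ι → A.C) (x : Y.ι →₀ B.C) :
    P.pr (gY h g x) = gY h (fun k => P.pr (g k)) x := by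
  induction x using Finsupp.induction_linear with
  | zero => simp
  | add x y hx hy => rw [map_add, map_add, hx, hy, map_add]
  | single k b => rw [gY_single, gY_single, P.pr_l]

/-! ### the comparison map is a quasi-isomorphism -/

/-- from the two resolutions of `V` (`lo = 0`, `V` in degree `0`) -/
theorem hom_qi (Φ : Lift h X Y) {N : LM A} (h0 : Deg0 N) (LX : LRes (lpc X) N) (LX0 : LX.lo = 0)
    (LY : LRes Y (resL h N)) (LY0 : LY.lo = 0)
    (hv : ∀ k, Y.s k = 0 → ∑ σ ∈ X.F (Y.s k), Φ.φ k σ • LX.v σ = LY.v k) :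
    QI Φ.hom.toGCHom := by
  let aX : (X.ι →₀ A.C) →ₗ[K] N.X := augL (lpc X) N LX.v
  let aY : (Y.ι →₀ B.C) →ₗ[K] N.X := augL Y (resL h N) LY.v
  let ddX : (X.ι →₀ A.C) →ₗ[K] (X.ι →₀ A.C) := (cX X).d
  let ddY : (Y.ι →₀ B.C) →ₗ[K] (Y.ι →₀ B.C) := (cY Y).d
  have aX_s : ∀ σ a, aX (Finsupp.single σ a) = a • LX.v σ := augL_single (lpc X) N LX.v
  let vY : Y.ι → N.X := LY.v
  have aY_s : ∀ k b, aY (Finsupp.single k b) = h.f b • vY k :=
    augL_single Y (resL h N) LY.v
  have aX_d : ∀ x, aX (ddX x) = 0 := fun x =>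
    (AcIff492.augL_d LX.toLAug x).trans (h0.d _)
  have aX_m : ∀ {k : ℤ} {x : X.ι →₀ A.C}, x ∈ (cX X).gr k → aX x ∈ N.gr k := by
    intro k x hx
    have := AcIff492.augL_mem LX.toLAug hx
    rw [LX0, zero_add] at this
    exact this
  -- the augmentations agree
  have ag : ∀ x : Y.ι →₀ B.C, aX (Φ.lin x) = aY x := by
    intro x
    induction x using Finsupp.induction_linear with
    | zero => rw [map_zero, map_zero, map_zero]
    | add x y hx hy => rw [map_add, map_add, map_add, hx, hy]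
    | single k b =>
      rw [Φ.lin_single, map_sum, aY_s]
      have e1 : ∀ σ ∈ X.F (Y.s k), aX (Finsupp.single σ (h.f b * Φ.φ k σ)) =
          h.f b • (Φ.φ k σ • LX.v σ) := fun σ _ => by
        rw [aX_s, mul_smul]
      rw [Finset.sum_congr rfl e1, ← Finset.smul_sum]
      by_cases hk : Y.s k = 0
      · have e4 : ∑ σ ∈ X.F (Y.s k), Φ.φ k σ • LX.v σ = vY k := hv k hk
        rw [e4]
      · have e2 : vY k = 0 := h0.bot (LY.v_mem k) (by rw [LY0]; omega)
        have e3 : ∀ σ ∈ X.F (Y.s k), Φ.φ k σ • LX.v σ = 0 := by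
          intro σ _
          refine h0.bot (N.smul_mem (Φ.φ_mem k σ) (LX.v_mem σ)) ?_
          rw [LX0]
          change (Y.s k : ℤ) - X.s σ + (0 + (X.s σ : ℤ)) ≠ 0
          omega
        rw [Finset.sum_eq_zero e3, e2]
  have LXex : ∀ (k : ℤ) (x : X.ι →₀ A.C) (n : N.X), x ∈ (cX X).gr (k - 1) → ddX x = 0 →
      n ∈ N.gr k → aX x = 0 → ∃ y ∈ (cX X).gr k, ddX y = x ∧ n = aX y := by
    intro k x n h1 h2 h3 h4
    obtain ⟨y, hy, n', hn', e1, e2⟩ := LX.ex k x n h1 h2 (by rw [LX0, zero_add]; exact h3)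
      ((congrArg₂ (· + ·) h4 (h0.d n)).trans (add_zero _))
    exact ⟨y, hy, e1, e2.trans ((congrArg (_ + ·) (h0.d n')).trans (add_zero _))⟩
  have LYex : ∀ (k : ℤ) (x : Y.ι →₀ B.C) (n : N.X), x ∈ (cY Y).gr (k - 1) → ddY x = 0 →
      n ∈ N.gr k → aY x = 0 → ∃ y ∈ (cY Y).gr k, ddY y = x ∧ n = aY y := by
    intro k x n h1 h2 h3 h4
    obtain ⟨(y : Y.ι →₀ B.C), hy, (n' : N.X), hn', e1, e2⟩ := LY.ex k x n h1 h2
      (by rw [LY0, zero_add]; exact h3) ((congrArg₂ (· + ·) h4 (h0.d n)).trans (add_zero _))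
    have e3 : n = aY y + N.d n' := e2
    exact ⟨y, hy, e1, by rw [e3, h0.d, add_zero]⟩
  have S : ∀ (k : ℤ) (y : X.ι →₀ A.C), y ∈ (cX X).gr k → ddX y = 0 →
      ∃ x ∈ (cY Y).gr k, ddY x = 0 ∧ ∃ z ∈ (cX X).gr (k + 1), y = Φ.lin x + ddX z := by
    intro k y hy hd
    obtain ⟨(x : Y.ι →₀ B.C), hx, e1, e2⟩ := LYex k 0 (aX y) (Submodule.zero_mem _) (map_zero _) (aX_m hy)
      (map_zero _)
    have hx' : Φ.lin x ∈ (cX X).gr k := Φ.lin_mem hx
    have hdx : ddX (Φ.lin x) = 0 := by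
      have := Φ.lin_d x
      exact this.symm.trans ((congrArg Φ.lin e1).trans (map_zero _))
    obtain ⟨z, hz, e5, -⟩ := LXex (k + 1) (y - Φ.lin x) 0
      (by rw [add_sub_cancel_right]; exact Submodule.sub_mem _ hy hx')
      (by rw [map_sub, hd, hdx, sub_zero]) (Submodule.zero_mem _)
      (by rw [map_sub, ag, e2, sub_self])
    exact ⟨x, hx, e1, z, hz, by rw [e5]; abel⟩
  have J : ∀ (k : ℤ) (x : Y.ι →₀ B.C), x ∈ (cY Y).gr k → ddY x = 0 →
      (∃ z ∈ (cX X).gr (k + 1), Φ.lin x = ddX z) → ∃ w ∈ (cY Y).gr (k + 1), x = ddY w := by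
    rintro k x hx hd ⟨(z : X.ι →₀ A.C), hz, e⟩
    obtain ⟨y, hy, e1, -⟩ := LYex (k + 1) x 0
      (by rw [add_sub_cancel_right]; exact hx) hd (Submodule.zero_mem _)
      (by rw [← ag, e, aX_d])
    exact ⟨y, hy, e1.symm⟩
  exact ⟨S, J⟩

/-! ### the theorem -/

theorem alpha_mem {k : ℤ} (x : R.ι →₀ A.C) (hx : ∀ κ, x κ ∈ A.G (k - R.s κ)) {l : ℤ} (z : A.C)
    (hz : z ∈ A.G l) (hl : l ≠ -(W.lo + k)) : alpha W x z = 0 := by
  rw [alpha_apply]
  refine Finset.sum_eq_zero fun κ _ => ?_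
  refine W.w_mem κ _ _ (A.mul_mem (hx κ) hz) ?_
  omega

theorem alpha_d (x : R.ι →₀ A.C) (z : A.C) :
    alpha W ((twY R (resL h (selfL A))).dd x) z = alpha W x (A.D z) := by
  classical
  let dd : (R.ι →₀ A.C) →ₗ[K] (R.ι →₀ A.C) := (twY R (resL h (selfL A))).dd
  suffices e : (LinearMap.applyₗ z ∘ₗ alpha W) ∘ₗ dd =
      (LinearMap.applyₗ (A.D z) ∘ₗ alpha W : (R.ι →₀ A.C) →ₗ[K] K) from LinearMap.congr_fun e x
  refine Finsupp.lhom_ext fun κ a => ?_
  have h1 : dd (Finsupp.single κ a) = Finsupp.single κ (A.D a) +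
      ∑ κ' ∈ R.F (R.s κ), Finsupp.single κ' (h.f (R.c κ' κ) * a) :=
    (twY R (resL h (selfL A))).dd_single κ a
  have h3 : alpha W (Finsupp.single κ (A.D a) +
      ∑ κ' ∈ R.F (R.s κ), Finsupp.single κ' (h.f (R.c κ' κ) * a)) z =
      alpha W (Finsupp.single κ a) (A.D z) := by
    rw [map_add, LinearMap.add_apply, map_sum, LinearMap.sum_apply, alpha_single, alpha_single]
    have h2 : ∑ κ' ∈ R.F (R.s κ), alpha W (Finsupp.single κ' (h.f (R.c κ' κ) * a)) z =
        W.w κ (A.D (a * z)) := by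
      rw [W.w_d]
      refine Finset.sum_congr rfl fun κ' _ => ?_
      rw [alpha_single, mul_assoc]
    rw [h2, ← map_add, A.D_mul, ← add_assoc, A.two, zero_add]
  exact (congrArg (fun t => alpha W t z) h1).trans h3

theorem alpha_r (c : A.C) (x : R.ι →₀ A.C) (z : A.C) :
    alpha W (op c • x) z = alpha W x (c * z) := by
  induction x using Finsupp.induction_linear with
  | zero => rw [smul_zero, map_zero]; rfl
  | add x y hx hy =>
    rw [smul_add, map_add, map_add, LinearMap.add_apply, LinearMap.add_apply, hx, hy]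
  | single κ a =>
    rw [Finsupp.smul_single, alpha_single, alpha_single]
    change W.w κ (a * c * z) = _
    rw [mul_assoc]

/-- the map `alpha ⊗ X` -/
noncomputable def mAl (X : PCells A) :
    AcIff492.TwM W.lo (twG (tQ R (resBL h (selfB A))) (lpc X)) (twG (DR (selfL A)) (lpc X)) where
  e := Equiv.refl _
  s_e _ := rfl
  f := alpha W
  f_mem := fun hx _ z hz hl => alpha_mem W _ (fun κ => (hx κ).1) z hz hl
  f_d x := LinearMap.ext fun z => alpha_d W x z
  f_p σ x := LinearMap.ext fun z => alpha_r W (X.e σ) x z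
  f_m σ τ x := LinearMap.ext fun z => alpha_r W (X.c σ τ) x z

/-- **`InjPsi`** -/
theorem injPsi (hα : ∀ k, AcIff492.CE (tY R (resL h (selfL A))) (DR (selfL A)).toGC W.lo k
    (alpha W)) (PA : PrL (selfL A)) (Φ : Lift h X Y) (hΦ : QI Φ.hom.toGCHom) : InjPsi P Φ := by
  classical
  rintro p f f1 f2 f3 ⟨u, u1, u2, u3, u4⟩
  by_contra hcon
  let Bd : Submodule K (X.ι → A.C) :=
    { carrier := {φ | IsCob A X p φ}
      zero_mem' := ⟨0, fun σ => Submodule.zero_mem _, fun σ => mul_zero _, fun σ => by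
        simp⟩
      add_mem' := by
        rintro φ φ' ⟨ψ, a1, a2, a3⟩ ⟨ψ', b1, b2, b3⟩
        refine ⟨ψ + ψ', fun σ => Submodule.add_mem _ (a1 σ) (b1 σ), fun σ => ?_, fun σ => ?_⟩
        · rw [Pi.add_apply, mul_add, a2, b2]
        · rw [Pi.add_apply, a3, b3]
          simp only [Pi.add_apply, map_add, mul_add, Finset.sum_add_distrib]
          abel
      smul_mem' := by
        rintro r φ ⟨ψ, a1, a2, a3⟩
        refine ⟨r • ψ, fun σ => Submodule.smul_mem _ r (a1 σ), fun σ => ?_, fun σ => ?_⟩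
        · rw [Pi.smul_apply, mul_smul_comm, a2]
        · rw [Pi.smul_apply, a3]
          simp only [Pi.smul_apply, map_smul, mul_smul_comm, smul_add, Finset.smul_sum] }
  obtain ⟨lam, hl0, hlk⟩ := Submodule.exists_le_ker_of_notMem (show f ∉ Bd from hcon)
  obtain ⟨x, hx, hxd, hxp⟩ := func (Z := selfL A) (lpc X) PA p lam (fun ψ a1 a2 =>
    hlk ⟨ψ, a1, a2, fun σ => rfl⟩)
  apply hl0
  refine (hxp f f1 f2).trans ?_
  -- `x` comes from `R ⊗ A ⊗ X`
  have two : ∀ z : (DR (selfL A)).X, z + z = 0 := RM.two (DR (selfL A))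
  obtain ⟨y, hy, n', hn', e1, e2⟩ := (mAl W X).ce two (K0 := p - W.lo) (fun j _ => hα j) le_rfl
    0 x (Submodule.zero_mem _) (map_zero _)
    (by rw [show W.lo + (p - W.lo) = p by ring]; exact hx)
    ((congrArg₂ (· + ·) (map_zero _) hxd).trans (add_zero _))
  let f' : (lpc X).ι → (selfL A).X := f
  let pf : ((lpc X).ι →₀ (DR (selfL A)).X) →ₗ[K] K := pa (lpc X) f'
  let aF : ((lpc X).ι →₀ (R.ι →₀ A.C)) →ₗ[K] ((lpc X).ι →₀ (DR (selfL A)).X) := (mAl W X).F
  let as' : ((lpc X).ι →₀ (R.ι →₀ A.C)) →ₗ[K] (R.ι →₀ ((lpc X).ι →₀ A.C)) :=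
    (asc R (resBL h (selfB A)) (lpc X)).toLinearMap
  let E0 : (R.ι →₀ ((lpc X).ι →₀ A.C)) →ₗ[K] K := EG W (gX f)
  have f3' : bd (lpc X) f' = 0 := funext fun σ => f3 σ
  have pz : ∀ y : (lpc X).ι →₀ (DR (selfL A)).X,
      pa (lpc X) (0 : (lpc X).ι → (selfL A).X) y = 0 := fun y => by
    rw [pa_apply (lpc X) _ y y.support (Finset.Subset.refl _)]
    refine Finset.sum_eq_zero fun σ _ => ?_
    exact map_zero (show A.C →ₗ[K] K from y σ)
  have e5 : pf ((twG (DR (selfL A)) (lpc X)).dd n') = 0 := by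
    refine (pa_d (Z := selfL A) (lpc X) f' n').trans ?_
    rw [f3']
    exact pz n'
  have e3 : pf x = pf (aF y) := by
    refine (congrArg pf e2).trans ((map_add pf _ _).trans ?_)
    exact (congrArg (pf (aF y) + ·) e5).trans (add_zero _)
  refine e3.trans ?_
  -- through associativity
  have e4 : ∀ y : (lpc X).ι →₀ (R.ι →₀ A.C), pf (aF y) = E0 (as' y) := by
    intro y
    suffices e : pf ∘ₗ aF = E0 ∘ₗ as' from LinearMap.congr_fun e y
    refine Finsupp.lhom_ext fun σ z => ?_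
    suffices e' : (pf ∘ₗ aF) ∘ₗ (Finsupp.lsingle (R := K) (M := R.ι →₀ A.C) σ) =
        (E0 ∘ₗ as') ∘ₗ (Finsupp.lsingle (R := K) (M := R.ι →₀ A.C) σ) from
      LinearMap.congr_fun e' z
    refine Finsupp.lhom_ext fun κ a => ?_
    have h1 : aF (Finsupp.single σ (Finsupp.single κ a : R.ι →₀ A.C)) =
        Finsupp.single σ (show (DR (selfL A)).X from alpha W (Finsupp.single κ a)) := by
      refine Finsupp.ext fun τ => ?_
      refine ((mAl W X).F_apply _ τ).trans ?_
      change alpha W ((Finsupp.single σ (Finsupp.single κ a : R.ι →₀ A.C)) τ) = _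
      by_cases hτ : σ = τ
      · subst hτ
        rw [Finsupp.single_eq_same, Finsupp.single_eq_same]
      · rw [Finsupp.single_eq_of_ne (Ne.symm hτ), Finsupp.single_eq_of_ne (Ne.symm hτ), map_zero]
        rfl
    have h2 : as' (Finsupp.single σ (Finsupp.single κ a : R.ι →₀ A.C)) =
        Finsupp.single κ (Finsupp.single σ a : (lpc X).ι →₀ A.C) := swp_single σ κ a
    have h3 : pf (aF (Finsupp.single σ (Finsupp.single κ a : R.ι →₀ A.C))) = W.w κ (a * f σ) := by
      rw [h1]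
      refine (pa_single (lpc X) f' σ _).trans ?_
      exact alpha_single W κ a (f σ)
    have h4 : E0 (as' (Finsupp.single σ (Finsupp.single κ a : R.ι →₀ A.C))) =
        W.w κ (a * f σ) := by
      rw [h2]
      refine (EG_single W (gX f) κ _).trans ?_
      exact congrArg (W.w κ) (gX_single f σ a)
    exact h3.trans h4.symm
  refine (e4 y).trans ?_
  have hz1 := (asc_gr R (resBL h (selfB A)) (lpc X) _ y).1 hy
  have hz2 : (tY R (tP (resBL h (selfB A)) (lpc X))).d (asc R (resBL h (selfB A)) (lpc X) y) = 0 := by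
    rw [← asc_d]
    exact (congrArg _ e1).trans (map_zero _)
  obtain ⟨(w : R.ι →₀ (Y.ι →₀ B.C)), hw, hwd, z, hz, e6⟩ := (tY_qi R hΦ).surj _ _ hz1 hz2
  have e7 : E0 ((tY R (tP (resBL h (selfB A)) (lpc X))).d z) = 0 := by
    let G : (tP (resBL h (selfB A)) (lpc X)).X →ₗ[K] A.C := gX f
    have h1 := EG_d W (tP (resBL h (selfB A)) (lpc X)) G (fun b n => gX_smul f (h.f b) n) z
    have h2 : G ∘ₗ (tP (resBL h (selfB A)) (lpc X)).d + A.D ∘ₗ G = 0 := by
      refine LinearMap.ext fun n => ?_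
      refine (gX_d f n).trans ?_
      rw [show dX X f = 0 from funext f3]
      have : ∀ n : X.ι →₀ A.C, gX (X := X) 0 n = 0 := by
        intro n
        induction n using Finsupp.induction_linear with
        | zero => rw [map_zero]
        | add a b ha hb => rw [map_add, ha, hb, add_zero]
        | single σ a => rw [gX_single, Pi.zero_apply, mul_zero]
      exact this n
    rw [h2] at h1
    exact h1.trans (EG_zero W z)
  refine (congrArg E0 e6).trans ((map_add E0 _ _).trans ?_)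
  refine (congrArg (_ + ·) e7).trans ((add_zero _).trans ?_)
  let tm : (R.ι →₀ (Y.ι →₀ B.C)) →ₗ[K] (R.ι →₀ ((lpc X).ι →₀ A.C)) := (tYmap R Φ.hom).f
  have tm_s : ∀ κ b, tm (Finsupp.single κ b) = Finsupp.single κ (Φ.lin b) := fun κ b =>
    tYmap_single R Φ.hom κ b
  have e8 : ∀ w : R.ι →₀ (Y.ι →₀ B.C), E0 (tm w) = EG W (gY h (Φ.pull f)) w := by
    intro w
    induction w using Finsupp.induction_linear with
    | zero => rw [map_zero, map_zero, map_zero]
    | add a b ha hb => rw [map_add, map_add, map_add, ha, hb]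
    | single κ b =>
      rw [tm_s, EG_single]
      refine (EG_single W (gX f) κ _).trans ?_
      exact congrArg (W.w κ) (Φ.gX_lin f b)
  refine (e8 w).trans ?_
  have e9 : EG W (gY h (Φ.pull f)) w = EG W (gY h (dB h Y u)) w := by
    rw [← EG_pr]
    have : P.pr ∘ₗ gY h (Φ.pull f) = gY h (dB h Y u) := by
      refine LinearMap.ext fun b => ?_
      refine (gY_pr (P := P) (Φ.pull f) b).trans ?_
      have : (fun k => P.pr (Φ.pull f k)) = dB h Y u := funext fun k => u4 k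
      rw [this]
    rw [this]
  rw [e9]
  let G : (tP (selfB B) Y).X →ₗ[K] A.C := gY h u
  have e10 := EG_d W (tP (selfB B) Y) G (fun b n => gY_smul u b n) w
  have e11 : G ∘ₗ (tP (selfB B) Y).d + A.D ∘ₗ G = gY h (dB h Y u) :=
    LinearMap.ext fun n => gY_d u n
  rw [e11] at e10
  refine e10.symm.trans ?_
  exact (congrArg (EG W G) hwd).trans (map_zero _)

end Crest.Agent.R186.DJ187
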