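import Crest.Agent.R186.FinD_384
import Crest.Agent.R186.TB2_143
import Crest.Agent.R186.Res_255
import Crest.Agent.R186.Frame2_515

/-!
Row 186 (A), leaf A.FIN (helper384): from the quasi-isomorphism
`D(A) ⊗_A X → D(H)`, `φ ⊗ σ ↦ (h ↦ φ (ev (kt σ) h))` to the fields `D1`, `D2` of `HIn`.
-/

set_option autoImplicit false
set_option linter.style.haveILetI false
set_option linter.unusedSectionVars false

open MulOpposite

namespace Crest.Agent.R186.DSq384

open Hat827 Hat827.DGA Frame515 TB143 Res255 Adapt186 ConeHyp462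

variable {K : Type} [Field K]

/-- the dual complex, shifted by `n` -/
abbrev DG (R : GC K) (n : ℤ) : GC K where
  X := R.X →ₗ[K] K
  gr k := {
    carrier := {φ | ∀ l z, z ∈ R.gr l → l ≠ -(k + n) → φ z = 0}
    zero_mem' := fun _ _ _ _ => rfl
    add_mem' := fun {φ ψ} h1 h2 l z hz hl => by
      rw [LinearMap.add_apply, h1 l z hz hl, h2 l z hz hl, add_zero]
    smul_mem' := fun r φ h l z hz hl => by
      rw [LinearMap.smul_apply, h l z hz hl, smul_zero] }
  d := {
    toFun := fun φ => φ ∘ₗ R.d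
    map_add' := fun φ ψ => by ext x; rfl
    map_smul' := fun r φ => by ext x; rfl }
  d_mem := fun {k φ} h l z hz hl => h (l - 1) (R.d z) (R.d_mem hz) (by omega)
  d_d φ := by
    refine LinearMap.ext fun x => ?_
    change φ (R.d (R.d x)) = 0
    rw [R.d_d, map_zero]

/-! ### duals of left dg modules -/

section dual

variable {A : DGA K} (N : LM A)

theorem lmul_mul (a b : A.C) : lmul N (a * b) = lmul N a ∘ₗ lmul N b := by
  ext x
  exact mul_smul a b x

/-- the right action on functionals -/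
noncomputable instance actD : Module A.Cᵐᵒᵖ (N.X →ₗ[K] K) where
  smul a φ := φ ∘ₗ lmul N a.unop
  one_smul φ := by
    ext x
    change φ ((1 : A.C) • x) = φ x
    rw [one_smul]
  mul_smul a b φ := by
    ext x
    change φ ((b.unop * a.unop) • x) = φ (b.unop • a.unop • x)
    rw [mul_smul]
  smul_zero a := by
    ext x
    rfl
  smul_add a φ ψ := by
    ext x
    rfl
  add_smul a b φ := by
    ext x
    change φ ((a.unop + b.unop) • x) = φ (a.unop • x) + φ (b.unop • x)
    rw [add_smul, map_add]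
  zero_smul φ := by
    ext x
    change φ ((0 : A.C) • x) = 0
    rw [zero_smul, map_zero]

theorem actD_apply (a : A.C) (φ : N.X →ₗ[K] K) (x : N.X) : (op a • φ) x = φ (a • x) := rfl

theorem smulK (r : K) (a : A.C) (x : N.X) : (r • a) • x = r • a • x := smul_assoc r a x

/-- the dual right dg module (shifted by `n`) -/
noncomputable abbrev DL (n : ℤ) : RM A where
  toGC := DG N.toGC n
  act := actD N
  tower := ⟨fun r a φ => by
    refine LinearMap.ext fun x => ?_
    change φ ((r • a.unop) • x) = r • φ (a.unop • x)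
    rw [smulK, map_smul]⟩
  smul_mem := fun {k l a φ} ha hφ m z hz hm => hφ (k + m) (a • z) (N.smul_mem ha hz) (by omega)
  leib a φ := by
    refine LinearMap.ext fun x => ?_
    change φ (a • N.d x) = φ (A.D a • x) + φ (N.d (a • x))
    have h2 : φ (A.D a • x) + φ (A.D a • x) = 0 := by
      rw [← map_add, ← add_smul, A.two, zero_smul, map_zero]
    rw [N.leib, map_add, ← add_assoc, h2, zero_add]

theorem DL_d (n : ℤ) (φ : N.X →ₗ[K] K) (x : N.X) :
    ((DL N n).d φ : N.X →ₗ[K] K) x = φ (N.d x) := rfl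

theorem mem_DL {n k : ℤ} {φ : N.X →ₗ[K] K} : φ ∈ (DL N n).gr k ↔
    ∀ l z, z ∈ N.gr l → l ≠ -(k + n) → φ z = 0 := Iff.rfl

end dual

/-- the cells of `X` -/
def lc {A : DGA K} (X : PCells A) : LCells A where
  ι := X.ι
  s := X.s
  F := X.F
  mem_F := X.mem_F
  e := X.e
  e_mem := X.e_mem
  e_idem := X.e_idem
  c := X.c
  c_mem := X.c_mem
  c_left := X.c_left
  c_right := X.c_right
  mc := X.mc

/-- the algebra as a left module -/
abbrev sL (A : DGA K) : LM A where
  X := A.C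
  gr := A.G
  d := A.D
  d_mem := A.D_mem
  d_d := A.D_D
  smul_mem ha hx := A.mul_mem ha hx
  leib a x := A.D_mul a x

variable {A : DGA K} (I : In A)

/-- the complex `H` -/
abbrev HH : GC K where
  X := I.Z
  gr := I.gs.G
  d := I.dZ
  d_mem := I.dZ_deg
  d_d := I.dZZ

/-- the dual complex of `H` -/
noncomputable abbrev DH (n : ℤ) : GC K := DG (HH I) n

/-- the left action on `Y` -/
noncomputable abbrev modY : Module A.C I.Y where
  smul := fun a y => I.L a y
  one_smul := I.L_one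
  mul_smul := I.L_mul
  smul_zero := fun a => map_zero _
  smul_add := fun a => map_add _
  add_smul := fun a b y => by
    change I.L (a + b) y = I.L a y + I.L b y
    rw [map_add, LinearMap.add_apply]
  zero_smul := fun y => by
    change I.L 0 y = 0
    rw [map_zero, LinearMap.zero_apply]

/-- the module `K` -/
noncomputable abbrev KKl : LM A :=
  letI := modY I
  { X := I.Y
    gr := I.gr.G
    d := I.dY
    d_mem := I.dY_deg
    d_d := I.dYY
    act := modY I
    tower := ⟨fun r a y => by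
      change I.L (r • a) y = r • I.L a y
      rw [map_smul, LinearMap.smul_apply]⟩
    smul_mem := fun {k l a x} ha hx => by
      have := I.L_deg ha hx
      rwa [add_comm] at this
    leib := fun a y => by
      change I.dY (I.L a y) = I.L (A.D a) y + I.L a (I.dY y)
      have h := congrArg (fun b => I.L b (I.dY y)) (A.two a)
      simp only [map_add, LinearMap.add_apply, map_zero, LinearMap.zero_apply] at h
      rw [I.L_D, add_assoc, h, add_zero] }

/-- a lift of the augmentation -/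
structure Kt (X : LCells A) where
  kt : X.ι → I.Y
  deg : ∀ σ, kt σ ∈ I.gr.G (X.s σ)
  e : ∀ σ, I.L (X.e σ) (kt σ) = kt σ
  d : ∀ σ, I.dY (kt σ) + ∑ τ ∈ X.F (X.s σ), I.L (X.c σ τ) (kt τ) = 0

variable {I} {X : LCells A} (k : Kt I X)

theorem twoY (y : I.Y) : y + y = 0 := by
  have h := congrArg (fun a => I.L a y) (A.two 1)
  simp only [map_add, LinearMap.add_apply, I.L_one, map_zero, LinearMap.zero_apply] at h
  exact h

/-- one component of `T` -/
noncomputable def T1 (σ : X.ι) : (A.C →ₗ[K] K) →ₗ[K] (I.Z →ₗ[K] K) where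
  toFun φ := φ ∘ₗ I.ev (k.kt σ)
  map_add' φ ψ := by ext x; rfl
  map_smul' r φ := by ext x; rfl

theorem T1_apply (σ : X.ι) (φ : A.C →ₗ[K] K) (z : I.Z) : T1 k σ φ z = φ (I.ev (k.kt σ) z) := rfl

/-- `T : D(A) ⊗_A X → D(H)` -/
noncomputable def T (n : ℤ) : GCHom (tG (DL (sL A) n) X) (DH I n) where
  f := Finsupp.lsum K fun σ => T1 k σ
  f_mem := by
    intro m x hx
    rw [Finsupp.lsum_apply]
    refine Submodule.sum_mem _ fun σ _ => ?_
    intro l z hz hl
    have h1 := I.ev_deg (k.deg σ) hz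
    refine (hx σ).1 _ _ h1 ?_
    change (X.s σ : ℤ) + l ≠ -(m - X.s σ + n)
    omega
  f_d := by
    intro x
    induction x using Finsupp.induction_linear with
    | zero => simp
    | add f g hf hg => rw [map_add, map_add, map_add, hf, hg, map_add]
    | single σ φ =>
      rw [show (tG (DL (sL A) n) X).d (Finsupp.single σ φ) = _ from
        (twG (DL (sL A) n) X).dd_single σ φ, map_add, map_sum]
      simp only [Finsupp.lsum_single]
      refine LinearMap.ext fun z => ?_
      rw [LinearMap.add_apply, LinearMap.sum_apply]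
      change φ (A.D (I.ev (k.kt σ) z)) +
        ∑ τ ∈ X.F (X.s σ), φ (X.c σ τ * I.ev (k.kt τ) z) = φ (I.ev (k.kt σ) (I.dZ z))
      have h1 : ∀ τ, X.c σ τ * I.ev (k.kt τ) z = I.ev (I.L (X.c σ τ) (k.kt τ)) z :=
        fun τ => (I.ev_l _ _ _).symm
      simp only [h1]
      rw [I.ev_D, map_add, ← map_sum, add_right_comm, ← map_add]
      have h2 : I.ev (I.dY (k.kt σ)) z + ∑ τ ∈ X.F (X.s σ), I.ev (I.L (X.c σ τ) (k.kt τ)) z =
          I.ev (I.dY (k.kt σ) + ∑ τ ∈ X.F (X.s σ), I.L (X.c σ τ) (k.kt τ)) z := by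
        rw [map_add, map_sum, LinearMap.add_apply, LinearMap.sum_apply]
      rw [h2, k.d, map_zero, LinearMap.zero_apply, map_zero, zero_add]

/-! ### block diagonal maps -/

/-- direct sum decomposition of a graded complex -/
structure Dec (W W0 W1 : GC K) where
  e0 : GCHom W0 W
  e1 : GCHom W1 W
  r0 : GCHom W W0
  r1 : GCHom W W1
  r0e0 : ∀ x, r0.f (e0.f x) = x
  r1e1 : ∀ x, r1.f (e1.f x) = x
  r0e1 : ∀ x, r0.f (e1.f x) = 0
  r1e0 : ∀ x, r1.f (e0.f x) = 0
  tot : ∀ x, e0.f (r0.f x) + e1.f (r1.f x) = x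

theorem QI.sum {W W0 W1 V V0 V1 : GC K} (D : Dec W W0 W1) (E : Dec V V0 V1) (f : GCHom W V)
    (g0 : GCHom W0 V0) (g1 : GCHom W1 V1) (h0 : ∀ x, f.f (D.e0.f x) = E.e0.f (g0.f x))
    (h1 : ∀ x, f.f (D.e1.f x) = E.e1.f (g1.f x)) (q0 : QI g0) (q1 : QI g1) : QI f := by
  have hf0 : ∀ x, E.r0.f (f.f x) = g0.f (D.r0.f x) := by
    intro x
    conv_lhs => rw [← D.tot x]
    rw [map_add, map_add, h0, h1, E.r0e0, E.r0e1, add_zero]
  have hf1 : ∀ x, E.r1.f (f.f x) = g1.f (D.r1.f x) := by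
    intro x
    conv_lhs => rw [← D.tot x]
    rw [map_add, map_add, h0, h1, E.r1e0, E.r1e1, zero_add]
  refine ⟨fun k y hy hd => ?_, fun k x hx hd ⟨z, hz, e⟩ => ?_⟩
  · obtain ⟨x0, hx0, hd0, z0, hz0, e0⟩ := q0.surj k (E.r0.f y) (E.r0.f_mem hy)
      (by rw [← E.r0.f_d, hd, map_zero])
    obtain ⟨x1, hx1, hd1, z1, hz1, e1⟩ := q1.surj k (E.r1.f y) (E.r1.f_mem hy)
      (by rw [← E.r1.f_d, hd, map_zero])
    refine ⟨D.e0.f x0 + D.e1.f x1, Submodule.add_mem _ (D.e0.f_mem hx0) (D.e1.f_mem hx1), ?_,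
      E.e0.f z0 + E.e1.f z1, Submodule.add_mem _ (E.e0.f_mem hz0) (E.e1.f_mem hz1), ?_⟩
    · rw [map_add, ← D.e0.f_d, ← D.e1.f_d, hd0, hd1, map_zero, map_zero, add_zero]
    · rw [← E.tot y, e0, e1, map_add, map_add, map_add, map_add, h0, h1, ← E.e0.f_d, ← E.e1.f_d]
      abel
  · obtain ⟨w0, hw0, e0⟩ := q0.inj k (D.r0.f x) (D.r0.f_mem hx)
      (by rw [← D.r0.f_d, hd, map_zero]) ⟨E.r0.f z, E.r0.f_mem hz, by
        rw [← hf0, e, E.r0.f_d]⟩
    obtain ⟨w1, hw1, e1⟩ := q1.inj k (D.r1.f x) (D.r1.f_mem hx)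
      (by rw [← D.r1.f_d, hd, map_zero]) ⟨E.r1.f z, E.r1.f_mem hz, by
        rw [← hf1, e, E.r1.f_d]⟩
    refine ⟨D.e0.f w0 + D.e1.f w1, Submodule.add_mem _ (D.e0.f_mem hw0) (D.e1.f_mem hw1), ?_⟩
    rw [map_add, ← D.e0.f_d, ← D.e1.f_d, ← e0, ← e1, D.tot]

/-! ### the square-zero extension -/

/-- `A = A0 ⊕ M` -/
structure Sq (A0 A : DGA K) where
  i : Hm A0 A
  π : Hm A A0
  πi : ∀ a, π.f (i.f a) = a
  M : BM A0 A0
  j : M.X →ₗ[K] A.C
  ω : A.C →ₗ[K] M.X
  j_mem : ∀ {k : ℤ} {m : M.X}, m ∈ M.gr k → j m ∈ A.G k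
  ω_mem : ∀ {k : ℤ} {a : A.C}, a ∈ A.G k → ω a ∈ M.gr k
  ωj : ∀ m, ω (j m) = m
  dec : ∀ z, i.f (π.f z) + j (ω z) = z
  j_l : ∀ (a : A0.C) (m : M.X), j (a • m) = i.f a * j m
  j_r : ∀ (a : A0.C) (m : M.X), j (op a • m) = j m * i.f a
  jj : ∀ m m', j m * j m' = 0
  j_d : ∀ m, j (M.d m) = A.D (j m)

namespace Sq

variable {A0 : DGA K} (S : Sq A0 A)

theorem j_inj {m m' : S.M.X} (h : S.j m = S.j m') : m = m' := by
  rw [← S.ωj m, h, S.ωj]

theorem i_inj {a b : A0.C} (h : S.i.f a = S.i.f b) : a = b := by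
  rw [← S.πi a, h, S.πi]

theorem πj (m : S.M.X) : S.π.f (S.j m) = 0 := by
  have h := S.dec (S.j m)
  rw [S.ωj, add_eq_right] at h
  rw [← S.πi (S.π.f (S.j m)), h, map_zero]

theorem ωi (a : A0.C) : S.ω (S.i.f a) = 0 := by
  have h := S.dec (S.i.f a)
  rw [S.πi, add_eq_left] at h
  rw [← S.ωj (S.ω (S.i.f a)), h, map_zero]

theorem ω_mul (x z : A.C) : S.ω (x * z) = S.π.f x • S.ω z + op (S.π.f z) • S.ω x := by
  have h : x * z = S.i.f (S.π.f x * S.π.f z) + S.j (S.π.f x • S.ω z + op (S.π.f z) • S.ω x) := by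
    conv_lhs => rw [← S.dec x, ← S.dec z]
    rw [map_mul, map_add, S.j_l, S.j_r, mul_add, add_mul, add_mul, S.jj, add_zero]
    abel
  rw [h, map_add, S.ωi, zero_add, S.ωj]

theorem ω_D (z : A.C) : S.ω (A.D z) = S.M.d (S.ω z) := by
  have h : A.D z = S.i.f (A0.D (S.π.f z)) + S.j (S.M.d (S.ω z)) := by
    rw [S.j_d, S.i.D, ← map_add, S.dec]
  rw [h, map_add, S.ωi, zero_add, S.ωj]

/-- the left action of `A0` on `A` -/
abbrev modL : Module A0.C A.C := Module.compHom A.C S.i.f.toRingHom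

/-- `A` as a left `A0`-, right `A`-bimodule -/
noncomputable abbrev P : BM A0 A :=
  letI i1 := S.modL
  { X := A.C
    gr := A.G
    d := A.D
    d_mem := A.D_mem
    d_d := A.D_D
    actL := S.modL
    towerL := ⟨fun r a x => by
      change S.i.f (r • a) * x = r • (S.i.f a * x)
      rw [map_smul, smul_mul_assoc]⟩
    comm := ⟨fun a b x => by
      change S.i.f a * (x * b.unop) = (S.i.f a * x) * b.unop
      rw [mul_assoc]⟩
    smul_mem := fun ha hx => A.mul_mem (S.i.mem ha) hx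
    leib := fun a x => by
      change A.D (S.i.f a * x) = S.i.f (A0.D a) * x + S.i.f a * A.D x
      rw [A.D_mul, S.i.D]
    smul_memR := fun {k l b x} hb hx => by
      change x * b ∈ _
      rw [add_comm]
      exact A.mul_mem hx hb
    leibR := fun b x => by
      change A.D (x * b) = x * A.D b + A.D x * b
      rw [A.D_mul, add_comm] }

end Sq

/-! ### maps out of `Y ⊗ N` -/

section lin

variable {B : DGA K}

/-- maps of left dg modules -/
structure LH (N N' : LM B) extends GCHom N.toGC N'.toGC where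
  lin : ∀ (a : B.C) (x : N.X), f (a • x) = a • f x

/-- `Y ⊗ f` as twisting data -/
noncomputable abbrev LH.tw {N N' : LM B} (g : LH N N') (Y : RCells B) :
    TwHom (twY Y N) (twY Y N') where
  φ := g.toGCHom
  j := Equiv.refl _
  hs _ := rfl
  hp _ x := g.lin _ x
  hm _ _ x := g.lin _ x

/-- `Y ⊗ f` -/
noncomputable abbrev LH.m {N N' : LM B} (g : LH N N') (Y : RCells B) :
    GCHom (tY Y N) (tY Y N') := (g.tw Y).map

theorem LH.m_apply {N N' : LM B} (g : LH N N') (Y : RCells B) (x : Y.ι →₀ N.X) (κ : Y.ι) :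
    ((g.m Y).f x : Y.ι →₀ N'.X) κ = g.f (x κ) := (g.tw Y).lin_apply' x κ

theorem LH.m_single {N N' : LM B} (g : LH N N') (Y : RCells B) (x : N.X) (κ : Y.ι) :
    (g.m Y).f (Finsupp.single κ x) = Finsupp.single κ (g.f x) := (g.tw Y).lin_single κ x

theorem LM.two (N : LM B) (x : N.X) : x + x = 0 := by
  have : x = (1 : B.C) • x := by rw [one_smul]
  rw [this, ← add_smul, B.two, zero_smul]

theorem LH.m_qi {N N' : LM B} (g : LH N N') (Y : RCells B) (h : QI g.toGCHom) : QI (g.m Y) :=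
  (g.tw Y).qi (LM.two N) h

/-- maps of right dg modules -/
structure RH (N N' : RM B) extends GCHom N.toGC N'.toGC where
  lin : ∀ (a : B.C) (x : N.X), f (op a • x) = op a • f x

/-- `g ⊗ X` as twisting data -/
noncomputable abbrev RH.tw {N N' : RM B} (g : RH N N') (X : LCells B) :
    TwHom (twG N X) (twG N' X) where
  φ := g.toGCHom
  j := Equiv.refl _
  hs _ := rfl
  hp _ x := g.lin _ x
  hm _ _ x := g.lin _ x

/-- `g ⊗ X` -/
noncomputable abbrev RH.m {N N' : RM B} (g : RH N N') (X : LCells B) :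
    GCHom (tG N X) (tG N' X) := (g.tw X).map

theorem RH.m_single {N N' : RM B} (g : RH N N') (X : LCells B) (x : N.X) (κ : X.ι) :
    (g.m X).f (Finsupp.single κ x) = Finsupp.single κ (g.f x) := (g.tw X).lin_single κ x

theorem RM.two (N : RM B) (x : N.X) : x + x = 0 := by
  have : x = op (1 : B.C) • x := by rw [op_one, one_smul]
  rw [this, ← add_smul, ← op_add, B.two, op_zero, zero_smul]

theorem RH.m_qi {N N' : RM B} (g : RH N N') (X : LCells B) (h : QI g.toGCHom) : QI (g.m X) :=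
  (g.tw X).qi (RM.two N) h

/-- functionals on `M` attached to right cells: `Y → D(M)` (shifted by `n`) -/
structure VF (Y : RCells B) (M : LM B) (n : ℤ) where
  v : Y.ι → (M.X →ₗ[K] K)
  v_mem : ∀ κ l m, m ∈ M.gr l → l ≠ -((Y.s κ : ℤ) + n) → v κ m = 0
  v_d : ∀ κ m, v κ (M.d m) = ∑ τ ∈ Y.F (Y.s κ), v τ (Y.c τ κ • m)

/-- pairings `N ⊗ R → M` -/
structure Pair (N M : LM B) (R : GC K) where
  b : N.X →ₗ[K] R.X →ₗ[K] M.X
  b_l : ∀ (a : B.C) (x : N.X) (r : R.X), b (a • x) r = a • b x r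
  b_mem : ∀ {k l : ℤ} {x : N.X} {r : R.X}, x ∈ N.gr k → r ∈ R.gr l → b x r ∈ M.gr (k + l)
  b_d : ∀ (x : N.X) (r : R.X), b (N.d x) r + b x (R.d r) = M.d (b x r)

variable {Y : RCells B} {M : LM B} {n : ℤ} (V : VF Y M n) {N : LM B} {R : GC K}

/-- one component -/
noncomputable def VF.pm1 (b : Pair N M R) (κ : Y.ι) : N.X →ₗ[K] (R.X →ₗ[K] K) where
  toFun x := V.v κ ∘ₗ b.b x
  map_add' x y := by
    refine LinearMap.ext fun r => ?_
    simp
  map_smul' c x := by
    refine LinearMap.ext fun r => ?_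
    simp

theorem VF.pm1_apply (b : Pair N M R) (κ : Y.ι) (x : N.X) (r : R.X) :
    V.pm1 b κ x r = V.v κ (b.b x r) := rfl

/-- `Y ⊗ N → D(R)`, `κ ⊗ x ↦ (r ↦ v κ (b x r))` -/
noncomputable def VF.pm (b : Pair N M R) : GCHom (tY Y N) (DG R n) where
  f := Finsupp.lsum K fun κ => V.pm1 b κ
  f_mem := by
    intro m x hx
    rw [Finsupp.lsum_apply]
    refine Submodule.sum_mem _ fun κ _ => ?_
    intro l z hz hl
    refine V.v_mem κ _ _ (b.b_mem (hx κ).1 hz) ?_
    change m - (Y.s κ : ℤ) + l ≠ -((Y.s κ : ℤ) + n)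
    omega
  f_d := by
    intro x
    induction x using Finsupp.induction_linear with
    | zero => simp
    | add f g hf hg => rw [map_add, map_add, map_add, hf, hg, map_add]
    | single κ x =>
      rw [show (tY Y N).d (Finsupp.single κ x) = _ from
        (twY Y N).dd_single κ x, map_add, map_sum]
      simp only [Finsupp.lsum_single]
      refine LinearMap.ext fun r => ?_
      rw [LinearMap.add_apply, LinearMap.sum_apply]
      change V.v κ (b.b (N.d x) r) + ∑ τ ∈ Y.F (Y.s κ), V.v τ (b.b (Y.c τ κ • x) r) =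
        V.v κ (b.b x (R.d r))
      simp only [b.b_l]
      rw [← V.v_d, ← map_add, ← b.b_d, ← add_assoc, LM.two, zero_add]

theorem VF.pm_single (b : Pair N M R) (κ : Y.ι) (x : N.X) (r : R.X) :
    ((V.pm b).f (Finsupp.single κ x) : R.X →ₗ[K] K) r = V.v κ (b.b x r) := by
  change (Finsupp.lsum K (fun κ => V.pm1 b κ) (Finsupp.single κ x)) r = _
  rw [Finsupp.lsum_single, V.pm1_apply]

end lin

namespace Sq

variable {A0 : DGA K} (S : Sq A0 A)

/-- `A0 → A`, left linear -/
noncomputable def li : LH (sL A0) S.P.toLM where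
  f := S.i.f.toLinearMap
  f_mem h := S.i.mem h
  f_d x := S.i.D x
  lin a x := by
    change S.i.f (a * x) = S.i.f a * S.i.f x
    rw [map_mul]

/-- `A → A0`, left linear -/
noncomputable def lπ : LH S.P.toLM (sL A0) where
  f := S.π.f.toLinearMap
  f_mem h := S.π.mem h
  f_d x := S.π.D x
  lin a x := by
    change S.π.f (S.i.f a * x) = a * S.π.f x
    rw [map_mul, S.πi]

/-- `M → A`, left linear -/
noncomputable def lj : LH S.M.toLM S.P.toLM where
  f := S.j
  f_mem h := S.j_mem h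
  f_d x := S.j_d x
  lin a x := S.j_l a x

/-- `A → M`, left linear -/
noncomputable def lω : LH S.P.toLM S.M.toLM where
  f := S.ω
  f_mem h := S.ω_mem h
  f_d x := S.ω_D x
  lin a x := by
    change S.ω (S.i.f a * x) = a • S.ω x
    rw [S.ω_mul, S.πi, S.ωi, smul_zero, add_zero]

/-- the decomposition of `A` -/
noncomputable def decA : Dec S.P.toLM.toGC (sL A0).toGC S.M.toLM.toGC where
  e0 := S.li.toGCHom
  e1 := S.lj.toGCHom
  r0 := S.lπ.toGCHom
  r1 := S.lω.toGCHom
  r0e0 x := S.πi x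
  r1e1 x := S.ωj x
  r0e1 x := S.πj x
  r1e0 x := S.ωi x
  tot x := S.dec x

variable (Y : RCells A0)

/-- the decomposition of `Y ⊗ A` -/
noncomputable def decY : Dec (tY Y S.P.toLM) (tY Y (sL A0)) (tY Y S.M.toLM) where
  e0 := S.li.m Y
  e1 := S.lj.m Y
  r0 := S.lπ.m Y
  r1 := S.lω.m Y
  r0e0 x := by
    refine Finsupp.ext fun κ => ?_
    exact (LH.m_apply _ Y _ κ).trans ((congrArg _ (LH.m_apply S.li Y x κ)).trans (S.πi _))
  r1e1 x := by
    refine Finsupp.ext fun κ => ?_
    exact (LH.m_apply _ Y _ κ).trans ((congrArg _ (LH.m_apply S.lj Y x κ)).trans (S.ωj _))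
  r0e1 x := by
    refine Finsupp.ext fun κ => ?_
    exact (LH.m_apply _ Y _ κ).trans ((congrArg _ (LH.m_apply S.lj Y x κ)).trans (S.πj _))
  r1e0 x := by
    refine Finsupp.ext fun κ => ?_
    exact (LH.m_apply _ Y _ κ).trans ((congrArg _ (LH.m_apply S.li Y x κ)).trans (S.ωi _))
  tot x := by
    refine Finsupp.ext fun κ => ?_
    have h0 := (LH.m_apply S.li Y ((S.lπ.m Y).f x) κ).trans
      (congrArg _ (LH.m_apply S.lπ Y x κ))
    have h1 := (LH.m_apply S.lj Y ((S.lω.m Y).f x) κ).trans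
      (congrArg _ (LH.m_apply S.lω Y x κ))
    exact (congrArg₂ (· + ·) h0 h1).trans (S.dec _)

/-- dual of a map -/
def dg {R R' : GC K} (g : GCHom R R') (n : ℤ) : GCHom (DG R' n) (DG R n) where
  f := {
    toFun := fun φ => φ ∘ₗ g.f
    map_add' := fun φ ψ => by refine LinearMap.ext fun x => ?_; rfl
    map_smul' := fun r φ => by refine LinearMap.ext fun x => ?_; rfl }
  f_mem := fun {k φ} h l z hz hl => h l (g.f z) (g.f_mem hz) hl
  f_d φ := by
    refine LinearMap.ext fun x => ?_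
    change φ (R'.d (g.f x)) = φ (g.f (R.d x))
    rw [g.f_d]

/-- the decomposition of `D(A)` -/
noncomputable def decD (n : ℤ) : Dec (DG (sL A).toGC n) (DG S.M.toGC n) (DG (sL A0).toGC n) where
  e0 := dg S.lω.toGCHom n
  e1 := dg S.lπ.toGCHom n
  r0 := dg S.lj.toGCHom n
  r1 := dg S.li.toGCHom n
  r0e0 φ := by
    refine LinearMap.ext fun x => ?_
    change φ (S.ω (S.j x)) = φ x
    rw [S.ωj]
  r1e1 φ := by
    refine LinearMap.ext fun x => ?_
    change φ (S.π.f (S.i.f x)) = φ x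
    rw [S.πi]
  r0e1 φ := by
    refine LinearMap.ext fun x => ?_
    change φ (S.π.f (S.j x)) = 0
    rw [S.πj, map_zero]
  r1e0 φ := by
    refine LinearMap.ext fun x => ?_
    change φ (S.ω (S.i.f x)) = 0
    rw [S.ωi, map_zero]
  tot φ := by
    refine LinearMap.ext fun x => ?_
    change φ (S.j (S.ω x)) + φ (S.i.f (S.π.f x)) = φ x
    rw [← map_add, add_comm, S.dec]

/-- the pairing `A ⊗ A → M` -/
noncomputable def bA : Pair S.P.toLM S.M.toLM (sL A).toGC where
  b := (LinearMap.mul K A.C).compr₂ S.ω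
  b_l a x z := by
    change S.ω (S.i.f a * x * z) = a • S.ω (x * z)
    rw [mul_assoc, S.ω_mul (S.i.f a), S.πi, S.ωi, smul_zero, add_zero]
  b_mem hx hz := S.ω_mem (A.mul_mem hx hz)
  b_d x z := by
    change S.ω (A.D x * z) + S.ω (x * A.D z) = S.M.d (S.ω (x * z))
    rw [← map_add, ← A.D_mul, S.ω_D]

/-- the pairing `A0 ⊗ M → M` -/
noncomputable def b0 : Pair (sL A0) S.M.toLM S.M.toGC where
  b := {
    toFun := fun a => lmul S.M.toLM a
    map_add' := fun a b => by refine LinearMap.ext fun x => ?_; exact add_smul a b x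
    map_smul' := fun r a => by refine LinearMap.ext fun x => ?_; exact smul_assoc r a x }
  b_l a x m := mul_smul a x m
  b_mem hx hm := S.M.smul_mem hx hm
  b_d x m := by
    change A0.D x • m + x • S.M.d m = S.M.d (x • m)
    rw [S.M.leib]

/-- the pairing `M ⊗ A0 → M` -/
noncomputable def b1 : Pair S.M.toLM S.M.toLM (sL A0).toGC where
  b := {
    toFun := fun m => {
      toFun := fun a => op a • m
      map_add' := fun a b => by rw [op_add, add_smul]
      map_smul' := fun r a => by rw [op_smul, smul_assoc]; rfl }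
    map_add' := fun m m' => by
      refine LinearMap.ext fun a => ?_
      exact smul_add (op a) m m'
    map_smul' := fun r m => by
      refine LinearMap.ext fun a => ?_
      exact (rmul S.M.toRM a).map_smul r m }
  b_l a m z := (smul_comm a (op z) m).symm
  b_mem {k l m a} hm ha := by
    have := S.M.smul_memR ha hm
    rwa [add_comm] at this
  b_d m a := by
    change op a • S.M.d m + op (A0.D a) • m = S.M.d (op a • m)
    rw [S.M.leibR, add_comm]

variable {S Y} {n : ℤ} (V : VF Y S.M.toLM n)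

theorem f1_lin (a : A.C) (x : Y.ι →₀ S.P.X) :
    ((V.pm S.bA).f (show Y.ι →₀ S.P.X from op a • x) : A.C →ₗ[K] K) =
      ((V.pm S.bA).f x : A.C →ₗ[K] K) ∘ₗ lmul (sL A) a := by
  have h : ((V.pm S.bA).f ∘ₗ Finsupp.mapRange.linearMap (rmul S.P.toRM a) :
      (Y.ι →₀ S.P.X) →ₗ[K] (A.C →ₗ[K] K)) =
      (LinearMap.lcomp K K (lmul (sL A) a)) ∘ₗ (V.pm S.bA).f := by
    refine Finsupp.lhom_ext fun κ x => LinearMap.ext fun z => ?_
    rw [LinearMap.comp_apply, LinearMap.comp_apply, Finsupp.mapRange.linearMap_apply,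
      Finsupp.mapRange_single]
    refine (VF.pm_single V S.bA κ _ z).trans (Eq.trans ?_ (VF.pm_single V S.bA κ x (a * z)).symm)
    change V.v κ (S.ω (x * a * z)) = V.v κ (S.ω (x * (a * z)))
    rw [mul_assoc]
  have h2 := LinearMap.congr_fun h x
  refine Eq.trans ?_ h2
  refine congrArg (V.pm S.bA).f ?_
  refine Finsupp.ext fun κ => ?_
  rfl

/-- `Y ⊗ A → D(A)` -/
noncomputable def f1 : RH (tQ Y S.P) (DL (sL A) n) where
  toGCHom := V.pm S.bA
  lin a x := f1_lin V a x

theorem f1_qi (h0 : QI (V.pm S.b0)) (h1 : QI (V.pm S.b1)) : QI (f1 V).toGCHom := by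
  refine QI.sum (S.decY Y) (S.decD n) (V.pm S.bA) (V.pm S.b0) (V.pm S.b1) ?_ ?_ h0 h1
  · intro x
    induction x using Finsupp.induction_linear with
    | zero => simp
    | add f g hf hg => rw [map_add, map_add, map_add, hf, hg, map_add]
    | single κ x =>
      change (V.pm S.bA).f ((S.li.m Y).f (Finsupp.single κ x)) = _
      rw [LH.m_single]
      refine LinearMap.ext fun z => ?_
      rw [VF.pm_single]
      change V.v κ (S.ω (S.i.f x * z)) =
        ((V.pm S.b0).f (Finsupp.single κ x) : S.M.X →ₗ[K] K) (S.ω z)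
      rw [VF.pm_single, S.ω_mul, S.πi, S.ωi, smul_zero, add_zero]
      rfl
  · intro x
    induction x using Finsupp.induction_linear with
    | zero => simp
    | add f g hf hg => rw [map_add, map_add, map_add, hf, hg, map_add]
    | single κ x =>
      change (V.pm S.bA).f ((S.lj.m Y).f (Finsupp.single κ x)) = _
      rw [LH.m_single]
      refine LinearMap.ext fun z => ?_
      rw [VF.pm_single]
      change V.v κ (S.ω (S.j x * z)) =
        ((V.pm S.b1).f (Finsupp.single κ x) : A0.C →ₗ[K] K) (S.π.f z)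
      rw [VF.pm_single, S.ω_mul, S.πj, S.ωj, zero_smul, zero_add]
      rfl

end Sq

end Crest.Agent.R186.DSq384
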