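import Crest.Agent.R186.DJ3_187
import Crest.Agent.R186.DSq_384
import Crest.Agent.R186.Glue_255

/-!
Row 186 (A), leaf DJ (helper187), part 4: everything together, abstract.
`D12` : the fields `D1`, `D2` of `HIn` from (c1) [384's `f1` quasi-iso], (c2) [`C2s`, `C2t`], the
augmentation of `KK` and a chain map `X'' → KK`.
-/

set_option autoImplicit false
set_option linter.style.haveILetI false
set_option linter.unusedSectionVars false

open MulOpposite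

namespace Crest.Agent.R186.DJ187

open Hat827 ConeHyp462 Adapt186 Frame515 Res255 FinV988 FinD988 TB143

variable {K : Type} [Field K]

/-! ### (c1) in 384's form -/

section adapter

variable {A0 A : DGA K} (S : DSq384.Sq A0 A)

/-- the projection to `M` -/
def prjS : Prj S.i where
  pr := S.j ∘ₗ S.ω
  pr_l b a := by
    change S.j (S.ω (S.i.f b * a)) = S.i.f b * S.j (S.ω a)
    rw [S.ω_mul, S.πi, S.ωi, smul_zero, add_zero, S.j_l]
  pr_D a := by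
    change S.j (S.ω (A.D a)) = A.D (S.j (S.ω a))
    rw [S.ω_D, S.j_d]
  pr_mem ha := S.j_mem (S.ω_mem ha)
  pr_pr a := by
    change S.j (S.ω (S.j (S.ω a))) = S.j (S.ω a)
    rw [S.ωj]

variable {S} {P : Prj S.i} (hP : ∀ a, S.ω (P.pr a) = S.ω a)
  {Y : RCells A0} {n : ℤ} (V : DSq384.VF Y S.M.toLM n)

/-- 384's functionals as `RW` -/
noncomputable def rwS : RW S.i P Y where
  lo := n
  w κ := V.v κ ∘ₗ S.ω
  w_mem κ l a ha hl := V.v_mem κ l _ (S.ω_mem ha) (by rwa [add_comm])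
  w_d κ a := by
    change V.v κ (S.ω (A.D a)) = ∑ κ' ∈ Y.F (Y.s κ), V.v κ' (S.ω (S.i.f (Y.c κ' κ) * a))
    rw [S.ω_D, V.v_d]
    refine Finset.sum_congr rfl fun κ' _ => ?_
    rw [S.ω_mul, S.πi, S.ωi, smul_zero, add_zero]
  w_pr κ a := by
    change V.v κ (S.ω (P.pr a)) = V.v κ (S.ω a)
    rw [hP]

theorem alpha_rwS (x : Y.ι →₀ A.C) (z : A.C) :
    alpha (rwS hP V) x z = ((V.pm S.bA).f x : A.C →ₗ[K] K) z := by
  let g : (Y.ι →₀ A.C) →ₗ[K] (A.C →ₗ[K] K) := (V.pm S.bA).f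
  have hg : ∀ κ a, g (Finsupp.single κ a) z = V.v κ (S.ω (a * z)) := fun κ a =>
    DSq384.VF.pm_single V S.bA κ a z
  change alpha (rwS hP V) x z = g x z
  induction x using Finsupp.induction_linear with
  | zero => rw [map_zero, map_zero]
  | add x y hx hy =>
    rw [map_add, map_add, LinearMap.add_apply, LinearMap.add_apply, hx, hy]
  | single κ a =>
    rw [alpha_single, hg]
    rfl

/-- acyclic cone from a quasi-isomorphism, in plain letters -/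
theorem ce_plain {U D : Type} [AddCommGroup U] [Module K U] [AddCommGroup D] [Module K D]
    (dU : U →ₗ[K] U) (dD : D →ₗ[K] D) (F : U →ₗ[K] D) (gU : ℤ → Submodule K U)
    (gD : ℤ → Submodule K D) (two : ∀ y : D, y + y = 0)
    (F_mem : ∀ {k : ℤ} {x : U}, x ∈ gU k → F x ∈ gD k) (F_d : ∀ x, F (dU x) = dD (F x))
    (hs : ∀ (k : ℤ) (y : D), y ∈ gD k → dD y = 0 →
      ∃ x ∈ gU k, dU x = 0 ∧ ∃ z ∈ gD (k + 1), y = F x + dD z)
    (hj : ∀ (k : ℤ) (x : U), x ∈ gU k → dU x = 0 → (∃ z ∈ gD (k + 1), F x = dD z) →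
      ∃ w ∈ gU (k + 1), x = dU w)
    (k : ℤ) (x : U) (m : D) (hx : x ∈ gU (k - 1)) (hdx : dU x = 0) (hm : m ∈ gD k)
    (e : F x + dD m = 0) : ∃ y ∈ gU k, ∃ z ∈ gD (k + 1), dU y = x ∧ m = F y + dD z := by
  have e1 : F x = dD m := by
    have h1 := two (dD m)
    exact add_right_cancel (e.trans h1.symm)
  obtain ⟨w, hw, ew⟩ := hj (k - 1) x hx hdx ⟨m, by rwa [sub_add_cancel], e1⟩
  rw [sub_add_cancel] at hw
  obtain ⟨x', hx', hdx', z, hz, ez⟩ := hs k (m - F w)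
    (Submodule.sub_mem _ hm (F_mem hw)) (by rw [map_sub, ← F_d, ← ew, e1, sub_self])
  refine ⟨w + x', Submodule.add_mem _ hw hx', z, hz, ?_, ?_⟩
  · rw [map_add, hdx', add_zero, ← ew]
  · rw [map_add, add_assoc, ← ez]; abel

/-- the cone of `alpha` is acyclic -/
theorem ce_of_f1 (h : QI (DSq384.Sq.f1 V).toGCHom) (k : ℤ) :
    AcIff492.CE (tY Y (resL S.i (selfL A))) (DR (selfL A)).toGC n k (alpha (rwS hP V)) := by
  let F : (Y.ι →₀ A.C) →ₗ[K] (A.C →ₗ[K] K) := (V.pm S.bA).f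
  have e0 : alpha (rwS hP V) = F :=
    LinearMap.ext fun x => LinearMap.ext fun z => alpha_rwS hP V x z
  intro x m hx hdx hm e
  have two : ∀ y : A.C →ₗ[K] K, y + y = 0 := AcIff492.two_R (DR (selfL A))
  have gm : ∀ {j : ℤ} {m : A.C →ₗ[K] K}, m ∈ (DR (selfL A)).gr (n + j) ↔
      m ∈ (DSq384.DL (DSq384.sL A) n).gr j := by
    intro j m
    constructor
    · intro h l z hz hl
      exact h l z hz (by omega)
    · intro h l z hz hl
      exact h l z hz (by omega)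
  let dm : A.C →ₗ[K] K := (DR (selfL A)).d m
  have e' : F x + dm = 0 := by
    rw [← e0]
    exact e
  obtain ⟨y, hy, z, hz, e1, e2⟩ := ce_plain (U := Y.ι →₀ A.C) (D := A.C →ₗ[K] K)
    (tY Y S.P.toLM).d (DSq384.DL (DSq384.sL A) n).d F (tY Y S.P.toLM).gr
    (DSq384.DL (DSq384.sL A) n).gr two
    (fun hx => (DSq384.Sq.f1 V).f_mem hx) (fun x => (DSq384.Sq.f1 V).f_d x) h.surj h.inj k x m
    hx hdx (gm.1 hm) e'
  refine ⟨y, hy, z, ?_, e1, ?_⟩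
  · have : (show A.C →ₗ[K] K from z) ∈ (DR (selfL A)).gr (n + (k + 1)) := gm.2 hz
    rwa [← add_assoc] at this
  · rw [e0]
    exact e2

end adapter

/-! ### everything together -/

section final

variable {A B : DGA K} (h : Hm B A) (P : Prj h) (I : In A) (N : LM A) [Module.Finite K N.X]
  [Nontrivial N.X] (h0 : Deg0 N) (Xp : SemiFree515.Pre A N.X)
  (hT : ∀ k : ℤ, 1 ≤ k → ExAt (tG (DR N) (lpre Xp)) k) (Yp : SemiFree515.Pre B (resL h N).X)

/-- the augmentation of `X''` -/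
def augYp : AugV h (pcells N h0 Xp hT) (lpre Yp) where
  v := Yp.v
  v_e := Yp.v_e
  v_zero := Yp.v_zero
  v_aug k hk := by
    have h1 := Yp.v_aug k hk
    have h2 : ∑ j ∈ Yp.F (Yp.s k), Yp.c k j • Yp.v j = ∑ j ∈ Yp.F 0, Yp.c k j • Yp.v j := by
      symm
      refine Finset.sum_subset (fun j hj => ?_) fun j _ h2 => ?_
      · rw [Yp.mem_F] at hj ⊢
        omega
      · rw [Yp.mem_F] at h2
        rw [Yp.v_zero j (by omega), smul_zero]
    exact h2.trans h1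

variable {h P I N}

/-- **`D1`, `D2`** -/
theorem D12 (hev : ∀ y z, P.pr (I.ev y z) = I.ev y z) (PA : PrL (selfL A))
    {R : RCells B} (W : RW h P R)
    (hα : ∀ k, AcIff492.CE (tY R (resL h (selfL A))) (DR (selfL A)).toGC W.lo k (alpha W))
    (a : I.Y →ₗ[K] N.X) (a_l : ∀ (x : A.C) (y : I.Y), a (I.L x y) = x • a y)
    (a_ne : ∀ (d : ℤ) (y : I.Y), y ∈ I.gr.G d → d ≠ 0 → a y = 0)
    (a_ker : ∀ (d : ℤ) (y : I.Y), y ∈ I.gr.G d → I.dY y = 0 → a y = 0 →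
      ∃ z ∈ I.gr.G (d + 1), I.dY z = y)
    {kt : Xp.ι → I.Y} (kt_deg : ∀ σ, kt σ ∈ I.gr.G (Xp.s σ))
    (kt_e : ∀ σ, I.L (Xp.e σ) (kt σ) = kt σ)
    (kt_d : ∀ σ, I.dY (kt σ) + ∑ τ ∈ Xp.F (Xp.s σ), I.L (Xp.c σ τ) (kt τ) = 0)
    (kt_a : ∀ σ, a (kt σ) = Xp.v σ)
    {pj : Yp.ι → I.Y} (pj_deg : ∀ k, pj k ∈ I.gr.G (Yp.s k))
    (pj_e : ∀ k, I.L (h.f (Yp.e k)) (pj k) = pj k)
    (pj_d : ∀ k, I.dY (pj k) + ∑ j ∈ Yp.F (Yp.s k), I.L (h.f (Yp.c k j)) (pj j) = 0)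
    (pj_a : ∀ k, Yp.s k = 0 → a (pj k) = Yp.v k)
    (c2s : C2s (Y := lpre Yp) P I pj) (c2t : C2t (Y := lpre Yp) P I pj) :
    (∀ (p : ℤ) (φ : Xp.ι → A.C), (∀ σ, φ σ ∈ A.G ((Xp.s σ : ℤ) - p)) →
      (∀ σ, Xp.e σ * φ σ = φ σ) →
      (∀ σ, A.D (φ σ) + ∑ τ ∈ Xp.F (Xp.s σ), Xp.c σ τ * φ τ = 0) →
      ∃ η ∈ I.gs.G (-p), I.dZ η = 0 ∧
        IsCob A (pcells N h0 Xp hT) p (fun σ => φ σ + I.ev (kt σ) η)) ∧
    (∀ (p : ℤ) (η : I.Z), η ∈ I.gs.G (-p) → I.dZ η = 0 →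
      IsCob A (pcells N h0 Xp hT) p (fun σ => I.ev (kt σ) η) →
      ∃ η' ∈ I.gs.G (-p + 1), η = I.dZ η') := by
  let X : PCells A := pcells N h0 Xp hT
  let Y : LCells B := lpre Yp
  let w : AugV h X Y := augYp h N h0 Xp hT Yp
  obtain ⟨Φ, hΦ⟩ := exists_lift w
  let av : AV X I := ⟨a, a_l, a_ne, a_ker⟩
  obtain ⟨H⟩ := exists_htp (h := h) (X := X) (Y := Y) av Φ w hΦ (kt := kt) kt_deg kt_d
    (fun σ _ => kt_a σ) (π := pj) pj_deg pj_e pj_d pj_a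
  let LX : LRes (lpc X) N := Glue255.lresN N h0 Xp
  let LY : LRes Y (resL h N) := Glue255.lresN (resL h N) (Glue255.deg0_res h h0) Yp
  have hq : QI Φ.hom.toGCHom := hom_qi Φ h0 LX rfl LY rfl (fun k hk => by
    have h1 := hΦ k hk
    have h2 : X.F (Y.s k) = X.F 0 := by rw [hk]
    rw [h2]
    exact h1)
  have inj := injPsi W hα PA Φ hq
  exact ⟨D1 hev Φ kt_deg kt_e kt_d H inj c2s, D2 hev Φ H c2t⟩

end final

end Crest.Agent.R186.DJ187
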