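import Crest.Agent.R186.DSq3_384
import Crest.Agent.R186.MW_890
import Crest.Agent.R186.KHc_302

/-!
Row 186 (A), leaf hD (helper186): helper384's `Sq (WR π).dga (Gm π s _)` and the projections of `Γ`.
-/

set_option autoImplicit false
set_option linter.style.haveILetI false

noncomputable section

open MulOpposite

namespace Crest.Agent.R186.SqI186

open Hat827 Win810 Frame515 Res255 SM890 DefsQ830 DSq384

variable {K : Type} [Field K]

/-- `Γ = L'' ⊕ M`, generic -/
def sqOf {w : WD K} (B : SExt44.BD w) : Sq w.dga B.ext.dga where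
  i := inlH B
  π := fstH B
  πi := fstH_inlH B
  M := MWof B
  j := inrW B
  ω := sndW B
  j_mem := inrW_mem B
  ω_mem := sndW_mem B
  ωj := sndW_inrW B
  dec z := (eq_inlH_inrW B z).symm
  j_l a m := (inlH_mul_inrW B a m).symm
  j_r a m := (inrW_mul_inlH B m a).symm
  jj := inrW_mul_inrW B
  j_d := inrW_d B

variable (π : Par K) (s : ℕ) (hs : 5 ≤ s)

/-- **(a)** -/
def SG : Sq (WR π).dga (Gm π s (KHc302.two_le hs)) where
  i := HmI π s (KHc302.two_le hs)
  π := HmP π s (KHc302.two_le hs)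
  πi := HmP_HmI π s (KHc302.two_le hs)
  M := MW π s (KHc302.two_le hs)
  j := inrW (bdM π s (KHc302.two_le hs))
  ω := sndW (bdM π s (KHc302.two_le hs))
  j_mem := inrW_mem (bdM π s (KHc302.two_le hs))
  ω_mem := sndW_mem (bdM π s (KHc302.two_le hs))
  ωj := sndW_inrW (bdM π s (KHc302.two_le hs))
  dec z := (eq_inlH_inrW (bdM π s (KHc302.two_le hs)) z).symm
  j_l a m := (inlH_mul_inrW (bdM π s (KHc302.two_le hs)) a m).symm
  j_r a m := (inrW_mul_inlH (bdM π s (KHc302.two_le hs)) m a).symm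
  jj := inrW_mul_inrW (bdM π s (KHc302.two_le hs))
  j_d := inrW_d (bdM π s (KHc302.two_le hs))

/-- **(b)**: projections of `Γ` -/
def PrG : Dual560.Pr (Dual560.reg (Gm π s (KHc302.two_le hs))).toGC :=
  Dual560.prReg (Gm π s (KHc302.two_le hs)) (grM π s (KHc302.two_le hs)).pi
    (grM π s (KHc302.two_le hs)).mem (fun _ _ h => (grM π s (KHc302.two_le hs)).same _ _ h)
    (fun _ _ _ h h' => (grM π s (KHc302.two_le hs)).ne _ _ _ h h')
    (grM π s (KHc302.two_le hs)).sum

end Crest.Agent.R186.SqI186
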