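import Crest.Agent.R186.DJ4_187
import Crest.Agent.R186.SqI_186
import Crest.Agent.R186.KXd_186
import Crest.Agent.R186.C2f_354

/-!
Row 186 (A), leaf DJ (helper187), part 5: 448's `DOut` over the real objects, from (c1) in 384's
form and (c2) in the form `C2s`, `C2t` over 354's `X''`.
-/

set_option autoImplicit false
set_option linter.style.haveILetI false
set_option linter.unusedSectionVars false

noncomputable section

open MulOpposite

namespace Crest.Agent.R186.DJ187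

open Hat827 ConeHyp462 Adapt186 Frame515 Res255 FinV988 FinD988 TB143 SM890 DefsQ830 Win810
open KHc186

variable {K : Type} [Field K] (π : Par K) (s : ℕ) (hs : 5 ≤ s)

/-- the projection of `Γ` to `M` -/
def PG : Prj (HmI π s (KHc302.two_le hs)) := prjS (SqI186.SG π s hs)

theorem PG_pr (a : (Gm π s (KHc302.two_le hs)).C) : (PG π s hs).pr a =
    inrW (bdM π s (KHc302.two_le hs)) (sndW (bdM π s (KHc302.two_le hs)) a) := rfl

theorem PG_ev (y : (EE π s hs).toIn.Y) (z : (EE π s hs).toIn.Z) :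
    (PG π s hs).pr ((EE π s hs).toIn.ev y z) = (EE π s hs).toIn.ev y z :=
  (eq_inrW (bdM π s (KHc302.two_le hs)) (HmP_ev π s hs y z)).symm

variable (Xp : SemiFree515.Pre (Gm π s (KHc302.two_le hs)) (NV π s hs).X)
  (hV : ∀ k : ℤ, 1 ≤ k → ExAt (tG (DR (NV π s hs)) (lpre Xp)) k)

/-- `X''` over `L''` -/
def YX : SemiFree515.Pre (WR π).dga (resL (HmI π s (KHc302.two_le hs)) (NV π s hs)).X :=
  C2f354.pre π

variable {π s hs Xp hV}

/-- **(D), over the real objects** -/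
theorem dOut (P : Prj (HmI π s (KHc302.two_le hs)))
    (hP : ∀ a, (SqI186.SG π s hs).ω (P.pr a) = (SqI186.SG π s hs).ω a)
    (hev : ∀ y z, P.pr ((EE π s hs).toIn.ev y z) = (EE π s hs).toIn.ev y z)
    {Y : RCells (WR π).dga} {n : ℤ} (V : DSq384.VF Y (SqI186.SG π s hs).M.toLM n)
    (h0 : QI (V.pm (SqI186.SG π s hs).b0)) (h1 : QI (V.pm (SqI186.SG π s hs).b1))
    {pj : (C2f354.pre π).ι → (EE π s hs).toIn.Y}
    (pj_deg : ∀ k, pj k ∈ (EE π s hs).toIn.gr.G ((C2f354.pre π).s k))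
    (pj_e : ∀ k, (EE π s hs).toIn.L ((HmI π s (KHc302.two_le hs)).f ((C2f354.pre π).e k)) (pj k) =
      pj k)
    (pj_d : ∀ k, (EE π s hs).toIn.dY (pj k) + ∑ j ∈ (C2f354.pre π).F ((C2f354.pre π).s k),
      (EE π s hs).toIn.L ((HmI π s (KHc302.two_le hs)).f ((C2f354.pre π).c k j)) (pj j) = 0)
    (pj_a : ∀ k, (C2f354.pre π).s k = 0 → (kresC π s hs).aug (pj k) = (C2f354.pre π).v k)
    (c2s : C2s (Y := lpre (YX π s hs)) P (EE π s hs).toIn pj)
    (c2t : C2t (Y := lpre (YX π s hs)) P (EE π s hs).toIn pj)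
    (kt : (XV π s hs Xp hV).ι → (EE π s hs).toIn.Y)
    (kt_deg : ∀ σ, kt σ ∈ (EE π s hs).toIn.gr.G ((XV π s hs Xp hV).s σ))
    (kt_e : ∀ σ, (EE π s hs).toIn.L ((XV π s hs Xp hV).e σ) (kt σ) = kt σ)
    (kt_d : ∀ σ, (EE π s hs).toIn.dY (kt σ) +
      ∑ τ ∈ (XV π s hs Xp hV).F ((XV π s hs Xp hV).s σ),
        (EE π s hs).toIn.L ((XV π s hs Xp hV).c σ τ) (kt τ) = 0)
    (kt_a : ∀ σ, (augV π s hs Xp hV).a (kt σ) = (XV π s hs Xp hV).v σ) :
    EndA448.DOut (EE π s hs) (XV π s hs Xp hV) kt := by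
  have hf := DSq384.Sq.f1_qi V h0 h1
  have h := D12 (h := HmI π s (KHc302.two_le hs)) (P := P) (I := (EE π s hs).toIn)
    (N := NV π s hs) (deg0_NV π s hs) Xp hV (YX π s hs) hev
    (prlSelf (grM π s (KHc302.two_le hs))) (rwS hP V) (fun k => ce_of_f1 hP V hf k)
    (kresC π s hs).aug (fun x y => (kresC π s hs).aug_L x y)
    (fun d y hy hd => (kresC π s hs).aug_deg hd hy)
    (fun d y hy hd ha => by
      obtain ⟨z, hz, e⟩ := (kresC π s hs).aug_ex hy hd (fun _ => ha)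
      exact ⟨z, hz, e.symm⟩)
    kt_deg kt_e kt_d kt_a pj_deg pj_e pj_d pj_a c2s c2t
  exact ⟨h.1, fun p η h1 h2 h3 => h.2 p η h1 h2 h3⟩

end Crest.Agent.R186.DJ187
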