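import Crest.Agent.R186.FinD_384

/-!
Row 186 (A), leaf A.FIN.KX (helper378): the lift `kt : X → Y` of the augmentation and
`H(Hom(X, Y)) = K kt`, for a resolution `a : Y → V` by a finite dimensional dg module.
-/

set_option autoImplicit false

namespace Crest.Agent.R186.KX378

open Hat827 ConeAlg462 ConeHyp462 Adapt186

/-- recursion over the cells -/
theorem rec_cells {ι α : Type} [Nonempty α] (s : ι → ℕ) (P : ι → (ι → α) → α → Prop)
    (loc : ∀ σ f f' y, (∀ τ, s τ < s σ → f τ = f' τ) → P σ f y → P σ f' y)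
    (ex : ∀ σ f, (∀ τ, s τ < s σ → P τ f (f τ)) → ∃ y, P σ f y) :
    ∃ f : ι → α, ∀ σ, P σ f (f σ) := by
  classical
  let F : (σ : ι) → ((τ : ι) → InvImage (· < ·) s τ σ → α) → α := fun σ rec =>
    Classical.epsilon (fun y =>
      P σ (fun τ => if h : s τ < s σ then rec τ h else Classical.arbitrary α) y)
  let f : ι → α := (InvImage.wf s Nat.lt_wfRel.wf).fix F
  have hf : ∀ σ, f σ = F σ (fun τ _ => f τ) := fun σ => WellFounded.fix_eq _ F σ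
  have key : ∀ n σ, s σ = n → P σ f (f σ) := by
    intro n
    induction n using Nat.strong_induction_on with
    | _ n ih =>
      intro σ hσ
      obtain ⟨y, hy⟩ := ex σ f (fun τ hτ => ih (s τ) (hσ ▸ hτ) τ rfl)
      have h1 : ∃ y, P σ (fun τ => if h : s τ < s σ then f τ else Classical.arbitrary α) y :=
        ⟨y, loc σ _ _ _ (fun τ hτ => by simp [hτ]) hy⟩
      have h2 := Classical.epsilon_spec h1
      have h3 : f σ = Classical.epsilon (fun y =>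
        P σ (fun τ => if h : s τ < s σ then f τ else Classical.arbitrary α) y) := hf σ
      rw [← h3] at h2
      exact loc σ _ _ _ (fun τ hτ => by simp [hτ]) h2
  exact ⟨f, fun σ => key _ σ rfl⟩

variable {K : Type} [Field K] {A : DGA K} (I : In A) (X : PCells A)

section basic

variable {I}

theorem two (y : I.Y) : y + y = 0 := by
  have h : I.L (1 + 1) y = 0 := by rw [A.two, map_zero, LinearMap.zero_apply]
  rwa [map_add, LinearMap.add_apply, I.L_one] at h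

theorem eq_of_add {x y : I.Y} (h : x + y = 0) : x = y := by
  have := congrArg (· + y) h
  simpa [add_assoc, two] using this

theorem G_neg {k : ℤ} (hk : k < 0) {y : I.Y} (hy : y ∈ I.gr.G k) : y = 0 := by
  rw [← I.gr.total y]
  refine Finset.sum_eq_zero fun j _ => ?_
  rw [← I.gr.mem_G.1 hy]
  exact I.gr.pr_ne _ _ _ (by omega)

theorem G_cast {k l : ℤ} {y : I.Y} (hy : y ∈ I.gr.G k) (h : k = l) : y ∈ I.gr.G l := h ▸ hy

variable {X}

theorem e_dY (σ : X.ι) (y : I.Y) : I.dY (I.L (X.e σ) y) = I.L (X.e σ) (I.dY y) := by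
  have h := I.L_D (X.e σ) y
  rw [PCells.D_e, map_zero, LinearMap.zero_apply] at h
  exact eq_of_add h.symm

theorem dY_L (g : A.C) (y : I.Y) : I.dY (I.L g y) = I.L (A.D g) y + I.L g (I.dY y) := by
  rw [I.L_D, add_assoc, two, add_zero]

end basic

/-- the differential of `Hom(X, Y)` -/
def del (κ : X.ι → I.Y) (σ : X.ι) : I.Y :=
  I.dY (κ σ) + ∑ τ ∈ X.F (X.s σ), I.L (X.c σ τ) (κ τ)

variable {I X}

theorem del_apply (κ : X.ι → I.Y) (σ : X.ι) :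
    del I X κ σ = I.dY (κ σ) + ∑ τ ∈ X.F (X.s σ), I.L (X.c σ τ) (κ τ) := rfl

theorem D_c (σ τ : X.ι) : A.D (X.c σ τ) = ∑ ρ ∈ X.F (X.s σ), X.c σ ρ * X.c ρ τ := by
  have h := X.mc σ τ
  have h2 := A.two (∑ ρ ∈ X.F (X.s σ), X.c σ ρ * X.c ρ τ)
  calc A.D (X.c σ τ) = A.D (X.c σ τ) + ((∑ ρ ∈ X.F (X.s σ), X.c σ ρ * X.c ρ τ) +
        ∑ ρ ∈ X.F (X.s σ), X.c σ ρ * X.c ρ τ) := by rw [h2, add_zero]
    _ = _ := by rw [← add_assoc, h, zero_add]

theorem sum_c (σ : X.ι) (f f' : X.ι → I.Y) (h : ∀ τ, X.s τ < X.s σ → f τ = f' τ) :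
    ∑ τ ∈ X.F (X.s σ), I.L (X.c σ τ) (f τ) = ∑ τ ∈ X.F (X.s σ), I.L (X.c σ τ) (f' τ) := by
  refine Finset.sum_congr rfl fun τ _ => ?_
  by_cases hτ : X.s τ < X.s σ
  · rw [h τ hτ]
  · rw [PCells.c_zero X (by omega), map_zero, LinearMap.zero_apply, LinearMap.zero_apply]

theorem sum_big {σ : X.ι} {M : ℕ} (hM : X.s σ ≤ M) (f : X.ι → I.Y) :
    ∑ τ ∈ X.F (X.s σ), I.L (X.c σ τ) (f τ) = ∑ τ ∈ X.F M, I.L (X.c σ τ) (f τ) := by
  refine Finset.sum_subset (fun τ hτ => ?_) fun τ _ hτ => ?_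
  · rw [X.mem_F] at hτ ⊢
    omega
  · rw [X.mem_F] at hτ
    rw [PCells.c_zero X (by omega), map_zero, LinearMap.zero_apply]

theorem dsum (f : X.ι → I.Y) (σ : X.ι) :
    I.dY (∑ τ ∈ X.F (X.s σ), I.L (X.c σ τ) (f τ)) =
      ∑ τ ∈ X.F (X.s σ), I.L (X.c σ τ) (del I X f τ) := by
  rw [map_sum]
  simp only [dY_L, del_apply, map_add, Finset.sum_add_distrib]
  rw [add_comm]
  congr 1
  have e1 : ∀ τ ∈ X.F (X.s σ), I.L (X.c σ τ) (∑ ρ ∈ X.F (X.s τ), I.L (X.c τ ρ) (f ρ)) =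
      ∑ ρ ∈ X.F (X.s σ), I.L (X.c σ τ * X.c τ ρ) (f ρ) := by
    intro τ hτ
    rw [X.mem_F] at hτ
    rw [sum_big hτ, map_sum]
    exact Finset.sum_congr rfl fun ρ _ => (I.L_mul _ _ _).symm
  rw [Finset.sum_congr rfl e1, Finset.sum_comm]
  refine Finset.sum_congr rfl fun ρ _ => ?_
  rw [D_c, map_sum, LinearMap.sum_apply]

theorem del_del (f : X.ι → I.Y) (σ : X.ι) : del I X (del I X f) σ = 0 := by
  rw [del_apply, ← dsum, del_apply, map_add, I.dYY, zero_add, two]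

theorem del_add (f g : X.ι → I.Y) (σ : X.ι) :
    del I X (fun σ => f σ + g σ) σ = del I X f σ + del I X g σ := by
  simp only [del_apply, map_add, Finset.sum_add_distrib]
  abel

theorem del_smul (r : K) (f : X.ι → I.Y) (σ : X.ι) :
    del I X (fun σ => r • f σ) σ = r • del I X f σ := by
  simp only [del_apply, map_smul, Finset.smul_sum, smul_add]

theorem del_deg {f : X.ι → I.Y} {k : ℤ} (hf : ∀ σ, f σ ∈ I.gr.G ((X.s σ : ℤ) + k)) (σ : X.ι) :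
    del I X f σ ∈ I.gr.G ((X.s σ : ℤ) + k - 1) := by
  refine Submodule.add_mem _ (I.dY_deg (hf σ)) (Submodule.sum_mem _ fun τ _ => ?_)
  exact G_cast (I.L_deg (X.c_mem σ τ) (hf τ)) (by ring)

theorem del_e {f : X.ι → I.Y} (hf : ∀ σ, I.L (X.e σ) (f σ) = f σ) (σ : X.ι) :
    I.L (X.e σ) (del I X f σ) = del I X f σ := by
  rw [del_apply, map_add, ← e_dY, hf, map_sum]
  congr 1
  refine Finset.sum_congr rfl fun τ _ => ?_
  rw [← I.L_mul, X.c_left]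

/-- **`Hom(X, N)` is acyclic if `N` is** -/
theorem acyc (N : Submodule K I.Y)
    (hL : ∀ k l : ℤ, ∀ g ∈ A.G k, ∀ y ∈ N, y ∈ I.gr.G l → I.L g y ∈ N)
    (hN : ∀ k, ∀ y ∈ N, y ∈ I.gr.G k → I.dY y = 0 → ∃ y' ∈ N, y' ∈ I.gr.G (k + 1) ∧ y = I.dY y')
    (p : ℤ) (κ : X.ι → I.Y) (h1 : ∀ σ, κ σ ∈ I.gr.G ((X.s σ : ℤ) - p)) (h2 : ∀ σ, κ σ ∈ N)
    (h3 : ∀ σ, I.L (X.e σ) (κ σ) = κ σ) (h4 : ∀ σ, del I X κ σ = 0) :
    ∃ ψ : X.ι → I.Y, (∀ σ, ψ σ ∈ I.gr.G ((X.s σ : ℤ) - p + 1)) ∧ (∀ σ, ψ σ ∈ N) ∧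
      (∀ σ, I.L (X.e σ) (ψ σ) = ψ σ) ∧ ∀ σ, κ σ = del I X ψ σ := by
  let P : X.ι → (X.ι → I.Y) → I.Y → Prop := fun σ f y => y ∈ I.gr.G ((X.s σ : ℤ) - p + 1) ∧
    y ∈ N ∧ I.L (X.e σ) y = y ∧ κ σ = I.dY y + ∑ τ ∈ X.F (X.s σ), I.L (X.c σ τ) (f τ)
  suffices hex : ∀ (σ : X.ι) (f : X.ι → I.Y), (∀ τ, X.s τ < X.s σ → P τ f (f τ)) →
      ∃ y, P σ f y by
    obtain ⟨ψ, hψ⟩ := rec_cells X.s P
      (fun σ f f' y hff ⟨a1, a2, a3, a4⟩ => ⟨a1, a2, a3, by rw [a4, sum_c σ f f' hff]⟩) hex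
    exact ⟨ψ, fun σ => (hψ σ).1, fun σ => (hψ σ).2.1, fun σ => (hψ σ).2.2.1,
      fun σ => (hψ σ).2.2.2⟩
  intro σ f hf
  set w := ∑ τ ∈ X.F (X.s σ), I.L (X.c σ τ) (f τ) with hw
  have hwN : w ∈ N := Submodule.sum_mem _ fun τ _ => by
    by_cases hτ : X.s τ < X.s σ
    · exact hL _ _ _ (X.c_mem σ τ) _ (hf τ hτ).2.1 (hf τ hτ).1
    · rw [PCells.c_zero X (by omega), map_zero, LinearMap.zero_apply]
      exact Submodule.zero_mem _
  have hwG : w ∈ I.gr.G ((X.s σ : ℤ) - p) := Submodule.sum_mem _ fun τ _ => by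
    by_cases hτ : X.s τ < X.s σ
    · exact G_cast (I.L_deg (X.c_mem σ τ) (hf τ hτ).1) (by ring)
    · rw [PCells.c_zero X (by omega), map_zero, LinearMap.zero_apply]
      exact Submodule.zero_mem _
  have hwe : I.L (X.e σ) w = w := by
    rw [hw, map_sum]
    refine Finset.sum_congr rfl fun τ _ => ?_
    rw [← I.L_mul, X.c_left]
  have hwd : I.dY w = I.dY (κ σ) := by
    rw [hw, dsum, sum_c σ (del I X f) κ (fun τ hτ => ((hf τ hτ).2.2.2).symm)]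
    have := h4 σ
    rw [del_apply] at this
    exact (eq_of_add this).symm
  obtain ⟨y', hy1, hy2, hy3⟩ := hN _ (κ σ + w) (Submodule.add_mem _ (h2 σ) hwN)
    (Submodule.add_mem _ (h1 σ) hwG) (by rw [map_add, hwd, two])
  refine ⟨I.L (X.e σ) y', ?_, hL _ _ _ (X.e_mem σ) _ hy1 hy2, ?_, ?_⟩
  · exact G_cast (I.L_deg (X.e_mem σ) hy2) (by ring)
  · rw [← I.L_mul, X.e_idem]
  · rw [e_dY, ← hy3, map_add, h3, hwe, add_assoc, two, add_zero]

variable (I X) in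
/-- a finite dimensional dg resolution `a : Y → V` -/
structure Aug where
  a : I.Y →ₗ[K] X.V
  a_L : ∀ g ∈ A.G 0, ∀ y ∈ I.gr.G 0, a (I.L g y) = g • a y
  a_ne : ∀ k : ℤ, k ≠ 0 → ∀ y ∈ I.gr.G k, a y = 0
  a_d : ∀ y ∈ I.gr.G 1, a (I.dY y) = 0
  onto : ∀ w, ∃ y ∈ I.gr.G 0, a y = w
  ex : ∀ n : ℤ, 0 ≤ n → ∀ y ∈ I.gr.G n, I.dY y = 0 → (n = 0 → a y = 0) →
    ∃ y' ∈ I.gr.G (n + 1), y = I.dY y'
  endV : ∀ f : X.V →ₗ[K] X.V, (∀ g ∈ A.G 0, ∀ w, f (g • w) = g • f w) → ∃ r : K, ∀ w, f w = r • w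

variable (U : Aug I X)

namespace Aug

/-- the kernel of the augmentation -/
def N : Submodule K I.Y := LinearMap.ker U.a

theorem mem_N {y : I.Y} : y ∈ U.N ↔ U.a y = 0 := LinearMap.mem_ker

theorem N_L (k l : ℤ) (g : A.C) (hg : g ∈ A.G k) (y : I.Y) (hy : y ∈ U.N) (hl : y ∈ I.gr.G l) :
    I.L g y ∈ U.N := by
  rw [mem_N] at hy ⊢
  by_cases h : l + k = 0
  · by_cases hk : k < 0
    · rw [DGA.neg hg hk, map_zero, LinearMap.zero_apply, map_zero]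
    · by_cases hl0 : l < 0
      · rw [G_neg hl0 hl, map_zero, map_zero]
      · obtain rfl : k = 0 := by omega
        obtain rfl : l = 0 := by omega
        rw [U.a_L g hg y hl, hy, smul_zero]
  · exact U.a_ne _ h _ (I.L_deg hg hl)

theorem N_ex (k : ℤ) (y : I.Y) (hy : y ∈ U.N) (hk : y ∈ I.gr.G k) (hd : I.dY y = 0) :
    ∃ y' ∈ U.N, y' ∈ I.gr.G (k + 1) ∧ y = I.dY y' := by
  rw [mem_N] at hy
  by_cases h0 : k < 0
  · refine ⟨0, Submodule.zero_mem _, Submodule.zero_mem _, ?_⟩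
    rw [map_zero]
    exact G_neg h0 hk
  · obtain ⟨y', h1, h2⟩ := U.ex k (by omega) y hk hd (fun _ => hy)
    exact ⟨y', (mem_N U).2 (U.a_ne _ (by omega) _ h1), h1, h2⟩

theorem acycN (p : ℤ) (κ : X.ι → I.Y) (h1 : ∀ σ, κ σ ∈ I.gr.G ((X.s σ : ℤ) - p))
    (h2 : ∀ σ, U.a (κ σ) = 0)
    (h3 : ∀ σ, I.L (X.e σ) (κ σ) = κ σ) (h4 : ∀ σ, del I X κ σ = 0) :
    ∃ ψ : X.ι → I.Y, (∀ σ, ψ σ ∈ I.gr.G ((X.s σ : ℤ) - p + 1)) ∧
      (∀ σ, I.L (X.e σ) (ψ σ) = ψ σ) ∧ ∀ σ, κ σ = del I X ψ σ := by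
  obtain ⟨ψ, a1, -, a3, a4⟩ := acyc U.N (fun k l g hg y hy hl => U.N_L k l g hg y hy hl)
    (fun k y hy hk hd => U.N_ex k y hy hk hd) p κ h1 (fun σ => (mem_N U).2 (h2 σ)) h3 h4
  exact ⟨ψ, a1, a3, a4⟩

/-- values of the augmentation on `c κ` -/
theorem a_c (σ τ : X.ι) (y : I.Y) (hy : y ∈ I.gr.G 0) (h : (X.s σ : ℤ) = X.s τ + 1) :
    U.a (I.L (X.c σ τ) y) = X.c σ τ • U.a y := by
  refine U.a_L _ ?_ y hy
  have := X.c_mem σ τ
  rwa [show (X.s σ : ℤ) - X.s τ - 1 = 0 by omega] at this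

/-- **the lift of the augmentation** -/
theorem exists_kt : ∃ kt : X.ι → I.Y, (∀ σ, kt σ ∈ I.gr.G (X.s σ)) ∧
    (∀ σ, I.L (X.e σ) (kt σ) = kt σ) ∧ (∀ σ, U.a (kt σ) = X.v σ) ∧ ∀ σ, del I X kt σ = 0 := by
  let P : X.ι → (X.ι → I.Y) → I.Y → Prop := fun σ f y => y ∈ I.gr.G (X.s σ) ∧
    I.L (X.e σ) y = y ∧ U.a y = X.v σ ∧
      I.dY y + ∑ τ ∈ X.F (X.s σ), I.L (X.c σ τ) (f τ) = 0
  suffices hex : ∀ (σ : X.ι) (f : X.ι → I.Y), (∀ τ, X.s τ < X.s σ → P τ f (f τ)) →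
      ∃ y, P σ f y by
    obtain ⟨ψ, hψ⟩ := rec_cells X.s P
      (fun σ f f' y hff ⟨a1, a2, a3, a4⟩ => ⟨a1, a2, a3, by rw [← a4, sum_c σ f f' hff]⟩) hex
    exact ⟨ψ, fun σ => (hψ σ).1, fun σ => (hψ σ).2.1, fun σ => (hψ σ).2.2.1,
      fun σ => (hψ σ).2.2.2⟩
  intro σ f hf
  set w := ∑ τ ∈ X.F (X.s σ), I.L (X.c σ τ) (f τ) with hw
  have hwG : w ∈ I.gr.G ((X.s σ : ℤ) - 1) := Submodule.sum_mem _ fun τ _ => by
    by_cases hτ : X.s τ < X.s σ
    · exact G_cast (I.L_deg (X.c_mem σ τ) (hf τ hτ).1) (by ring)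
    · rw [PCells.c_zero X (by omega), map_zero, LinearMap.zero_apply]
      exact Submodule.zero_mem _
  have hwe : I.L (X.e σ) w = w := by
    rw [hw, map_sum]
    refine Finset.sum_congr rfl fun τ _ => ?_
    rw [← I.L_mul, X.c_left]
  have hwd : I.dY w = 0 := by
    rw [hw, dsum, sum_c σ (del I X f) (fun _ => 0) (fun τ hτ => (hf τ hτ).2.2.2)]
    simp
  rcases Nat.eq_zero_or_pos (X.s σ) with h0 | h0
  · obtain ⟨y0, hy0, hy1⟩ := U.onto (X.v σ)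
    have hy2 : I.L (X.e σ) y0 ∈ I.gr.G 0 := G_cast (I.L_deg (X.e_mem σ) hy0) (by ring)
    refine ⟨I.L (X.e σ) y0, ?_, ?_, ?_, ?_⟩
    · exact G_cast hy2 (by omega)
    · rw [← I.L_mul, X.e_idem]
    · rw [U.a_L _ (X.e_mem σ) _ hy0, hy1, X.v_e]
    · rw [G_neg (k := -1) (by norm_num) (G_cast (I.dY_deg hy2) (by norm_num)), ← hw,
        G_neg (k := -1) (by norm_num) (G_cast hwG (by omega)), add_zero]
  · have haw : (X.s σ : ℤ) - 1 = 0 → U.a w = 0 := by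
      intro h1
      have h2 : X.s σ = 1 := by omega
      classical
      rw [hw, map_sum, ← X.v_aug σ h2, h2]
      symm
      refine Finset.sum_subset_zero_on_sdiff (fun τ hτ => ?_) (fun τ hτ => ?_) fun τ hτ => ?_
      · rw [X.mem_F] at hτ ⊢
        omega
      · rw [Finset.mem_sdiff, X.mem_F, X.mem_F] at hτ
        rw [PCells.c_zero X (by omega), map_zero, LinearMap.zero_apply, map_zero]
      · rw [X.mem_F] at hτ
        have h3 : X.s τ < X.s σ := by omega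
        have h4 := (hf τ h3).1
        rw [show (X.s τ : ℤ) = 0 by omega] at h4
        rw [U.a_c σ τ _ h4 (by omega), (hf τ h3).2.2.1]
    obtain ⟨y', hy1, hy2⟩ := U.ex _ (by omega) w hwG hwd haw
    have hy3 : I.L (X.e σ) y' ∈ I.gr.G (X.s σ) := G_cast (I.L_deg (X.e_mem σ) hy1) (by ring)
    refine ⟨I.L (X.e σ) y', hy3, ?_, ?_, ?_⟩
    · rw [← I.L_mul, X.e_idem]
    · rw [X.v_zero σ (by omega)]
      exact U.a_ne _ (by omega) _ hy3
    · rw [e_dY, ← hy2, hwe, two]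

/-- the `e`-fixed representatives -/
theorem gen_e (w : X.V) : ∃ x : X.ι → A.C, (∀ σ, x σ ∈ A.G (-(X.s σ : ℤ))) ∧
    (∀ σ, x σ * X.e σ = x σ) ∧ ∑ σ ∈ X.F 0, x σ • X.v σ = w := by
  obtain ⟨x, h1, h2⟩ := X.gen w
  refine ⟨fun σ => x σ * X.e σ, fun σ => ?_, fun σ => ?_, ?_⟩
  · have := A.mul_mem (h1 σ) (X.e_mem σ)
    rwa [add_zero] at this
  · rw [mul_assoc, X.e_idem]
  · rw [← h2]
    refine Finset.sum_congr rfl fun σ _ => ?_
    rw [mul_smul, X.v_e]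

theorem twoV (w : X.V) : w + w = 0 := by
  have h : (1 + 1 : A.C) • w = 0 := by rw [A.two, zero_smul]
  rwa [add_smul, one_smul] at h

include U in
/-- `Hom(X, V)` in degree `0` -/
theorem homV0 (φ : X.ι → X.V) (hφe : ∀ σ, X.e σ • φ σ = φ σ) (hφ0 : ∀ σ, X.s σ ≠ 0 → φ σ = 0)
    (hφ : ∀ σ, X.s σ = 1 → ∑ τ ∈ X.F 0, X.c σ τ • φ τ = 0) :
    ∃ r : K, ∀ σ, φ σ = r • X.v σ := by
  classical
  -- relations are respected
  have key : ∀ x : X.ι → A.C, (∀ σ, x σ ∈ A.G (-(X.s σ : ℤ))) → (∀ σ, x σ * X.e σ = x σ) →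
      ∑ σ ∈ X.F 0, x σ • X.v σ = 0 → ∑ σ ∈ X.F 0, x σ • φ σ = 0 := by
    intro x h1 h2 h3
    obtain ⟨y, h4, -, h6⟩ := X.exR0 x h1 h2 h3
    have e1 : ∀ τ ∈ X.F 0, x τ • φ τ = ∑ σ ∈ X.F 1, y σ • X.c σ τ • φ τ := by
      intro τ hτ
      rw [X.mem_F] at hτ
      have h7 := h4 τ
      rw [show (1 : ℤ) - X.s τ = 1 by omega] at h7
      rw [h6, add_smul, X.dpos _ h7, zero_add, Finset.sum_smul]
      exact Finset.sum_congr rfl fun σ _ => mul_smul _ _ _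
    rw [Finset.sum_congr rfl e1, Finset.sum_comm]
    refine Finset.sum_eq_zero fun σ hσ => ?_
    rw [X.mem_F] at hσ
    rw [← Finset.smul_sum]
    by_cases h8 : X.s σ = 1
    · rw [hφ σ h8, smul_zero]
    · rw [Finset.sum_eq_zero, smul_zero]
      intro τ hτ
      rw [X.mem_F] at hτ
      rw [PCells.c_zero X (by omega), zero_smul]
  choose x hx1 hx2 hx3 using gen_e (X := X)
  have keyD : ∀ x y : X.ι → A.C, (∀ σ, x σ ∈ A.G (-(X.s σ : ℤ))) → (∀ σ, x σ * X.e σ = x σ) →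
      (∀ σ, y σ ∈ A.G (-(X.s σ : ℤ))) → (∀ σ, y σ * X.e σ = y σ) →
      ∑ σ ∈ X.F 0, x σ • X.v σ = ∑ σ ∈ X.F 0, y σ • X.v σ →
      ∑ σ ∈ X.F 0, x σ • φ σ = ∑ σ ∈ X.F 0, y σ • φ σ := by
    intro x y h1 h2 h3 h4 h5
    have := key (fun σ => x σ - y σ) (fun σ => Submodule.sub_mem _ (h1 σ) (h3 σ))
      (fun σ => by rw [sub_mul, h2, h4]) (by
        simp only [sub_smul, Finset.sum_sub_distrib]
        rw [h5, sub_self])
    simp only [sub_smul, Finset.sum_sub_distrib] at this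
    exact sub_eq_zero.1 this
  let f : X.V →ₗ[K] X.V :=
    { toFun := fun w => ∑ σ ∈ X.F 0, x w σ • φ σ
      map_add' := fun w w' => by
        rw [← Finset.sum_add_distrib]
        simp only [← add_smul]
        refine keyD _ (fun σ => x w σ + x w' σ) (hx1 _) (hx2 _)
          (fun σ => Submodule.add_mem _ (hx1 _ σ) (hx1 _ σ))
          (fun σ => by rw [add_mul, hx2, hx2]) ?_
        simp only [add_smul, Finset.sum_add_distrib, hx3]
      map_smul' := fun r w => by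
        rw [RingHom.id_apply, Finset.smul_sum]
        simp only [← smul_assoc]
        refine keyD _ (fun σ => r • x w σ) (hx1 _) (hx2 _)
          (fun σ => Submodule.smul_mem _ _ (hx1 _ σ))
          (fun σ => by rw [smul_mul_assoc, hx2]) ?_
        simp only [smul_assoc, ← Finset.smul_sum, hx3] }
  obtain ⟨r, hr⟩ := U.endV f (fun g hg w => by
    change ∑ σ ∈ X.F 0, x (g • w) σ • φ σ = g • ∑ σ ∈ X.F 0, x w σ • φ σ
    rw [Finset.smul_sum]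
    simp only [← mul_smul]
    refine keyD _ (fun σ => g * x w σ) (hx1 _) (hx2 _) (fun σ => ?_)
      (fun σ => by rw [mul_assoc, hx2]) ?_
    · have := A.mul_mem hg (hx1 w σ)
      rwa [zero_add] at this
    · simp only [mul_smul, ← Finset.smul_sum, hx3])
  refine ⟨r, fun σ => ?_⟩
  by_cases hσ : X.s σ = 0
  · rw [← hr]
    change φ σ = ∑ τ ∈ X.F 0, x (X.v σ) τ • φ τ
    have h0 : σ ∈ X.F 0 := (X.mem_F 0 σ).2 (by omega)
    have h1 := keyD (x (X.v σ)) (fun τ => if τ = σ then X.e σ else 0) (hx1 _) (hx2 _)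
      (fun τ => by
        split_ifs with h
        · have := X.e_mem σ
          rwa [h, hσ, Nat.cast_zero, neg_zero]
        · exact Submodule.zero_mem _)
      (fun τ => by
        split_ifs with h
        · rw [h, X.e_idem]
        · rw [zero_mul]) (by
        rw [hx3, Finset.sum_eq_single σ]
        · rw [if_pos rfl, X.v_e]
        · intro τ _ hτ
          rw [if_neg hτ, zero_smul]
        · intro h
          exact absurd h0 h)
    rw [h1, Finset.sum_eq_single σ]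
    · rw [if_pos rfl, hφe]
    · intro τ _ hτ
      rw [if_neg hτ, zero_smul]
    · intro h
      exact absurd h0 h
  · rw [hφ0 σ hσ, X.v_zero σ hσ, smul_zero]

theorem kt_ne {kt : X.ι → I.Y} (h1 : ∀ σ, U.a (kt σ) = X.v σ) : kt ≠ 0 := by
  intro h
  obtain ⟨w, hw⟩ := exists_ne (0 : X.V)
  apply hw
  obtain ⟨x, -, h2⟩ := X.gen w
  rw [← h2]
  refine Finset.sum_eq_zero fun σ _ => ?_
  rw [← h1, h, Pi.zero_apply, map_zero, smul_zero]

/-- **`H(Hom(X, Y)) = K kt`** -/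
theorem KX {kt : X.ι → I.Y} (kt_deg : ∀ σ, kt σ ∈ I.gr.G (X.s σ))
    (kt_e : ∀ σ, I.L (X.e σ) (kt σ) = kt σ) (kt_a : ∀ σ, U.a (kt σ) = X.v σ)
    (kt_d : ∀ σ, del I X kt σ = 0)
    (p : ℤ) (κ : X.ι → I.Y) (h1 : ∀ σ, κ σ ∈ I.gr.G ((X.s σ : ℤ) - p))
    (h3 : ∀ σ, I.L (X.e σ) (κ σ) = κ σ) (h4 : ∀ σ, del I X κ σ = 0) :
    ∃ (ψ : X.ι → I.Y) (r : K), (∀ σ, ψ σ ∈ I.gr.G ((X.s σ : ℤ) - p + 1)) ∧
      (∀ σ, I.L (X.e σ) (ψ σ) = ψ σ) ∧ (p ≠ 0 → r = 0) ∧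
      ∀ σ, κ σ = r • kt σ + del I X ψ σ := by
  have hne : ∀ σ, (X.s σ : ℤ) ≠ p → U.a (κ σ) = 0 := fun σ hσ =>
    U.a_ne _ (by omega) _ (h1 σ)
  have hae : ∀ σ, X.e σ • U.a (κ σ) = U.a (κ σ) := by
    intro σ
    by_cases hσ : (X.s σ : ℤ) = p
    · have h5 := h1 σ
      rw [show (X.s σ : ℤ) - p = 0 by omega] at h5
      rw [← U.a_L _ (X.e_mem σ) _ h5, h3]
    · rw [hne σ hσ, smul_zero]
  -- the cocycle condition in `V`
  have hcoc : ∀ σ, (X.s σ : ℤ) = p + 1 → ∑ τ ∈ X.F (X.s σ), X.c σ τ • U.a (κ τ) = 0 := by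
    intro σ hσ
    have h5 := congrArg U.a (h4 σ)
    rw [del_apply, map_add, map_zero, U.a_d _ (G_cast (h1 σ) (by omega)), zero_add, map_sum] at h5
    rw [← h5]
    refine Finset.sum_congr rfl fun τ _ => ?_
    by_cases hτ : (X.s τ : ℤ) = p
    · rw [U.a_c σ τ _ (G_cast (h1 τ) (by omega)) (by omega)]
    · rw [hne τ hτ, smul_zero]
      symm
      rcases lt_or_gt_of_ne hτ with hlt | hgt
      · rw [G_neg (by omega) (h1 τ), map_zero, map_zero]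
      · rw [PCells.c_zero X (by omega), map_zero, LinearMap.zero_apply, map_zero]
  rcases lt_trichotomy p 0 with hp | hp | hp
  · -- `p < 0`
    obtain ⟨ψ, a1, a2, a3⟩ := U.acycN p κ h1 (fun σ => hne σ (by omega)) h3 h4
    exact ⟨ψ, 0, a1, a2, fun _ => rfl, fun σ => by rw [zero_smul, zero_add, a3]⟩
  · -- `p = 0`
    subst hp
    obtain ⟨r, hr⟩ := U.homV0 (fun σ => U.a (κ σ)) hae (fun σ hσ => hne σ (by omega))
      (fun σ hσ => by
        rw [← hcoc σ (by omega), hσ]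
        refine Finset.sum_subset (fun τ hτ => ?_) fun τ _ hτ => ?_
        · rw [X.mem_F] at hτ ⊢
          omega
        · rw [X.mem_F] at hτ
          rw [hne τ (by omega), smul_zero])
    obtain ⟨ψ, a1, a2, a3⟩ := U.acycN 0 (fun σ => κ σ + r • kt σ)
      (fun σ => Submodule.add_mem _ (h1 σ) (Submodule.smul_mem _ _
        (G_cast (kt_deg σ) (by ring))))
      (fun σ => by
        rw [map_add, map_smul, kt_a, hr σ]
        exact twoV _)
      (fun σ => by rw [map_add, map_smul, h3, kt_e])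
      (fun σ => by
        rw [del_add, h4, zero_add, del_smul, kt_d, smul_zero])
    refine ⟨ψ, r, a1, a2, fun h => absurd rfl h, fun σ => ?_⟩
    rw [← a3, add_comm (κ σ), ← add_assoc, two, zero_add]
  · -- `0 < p`
    obtain ⟨m, rfl⟩ : ∃ m : ℕ, p = m + 1 := ⟨(p - 1).toNat, by omega⟩
    obtain ⟨φ, b1, b2⟩ := X.exV m (fun σ => U.a (κ σ)) (fun σ hσ => hne σ (by omega)) hae
      (fun σ hσ => by
        rw [← hcoc σ (by omega), hσ]
        refine Finset.sum_subset (fun τ hτ => ?_) fun τ _ hτ => ?_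
        · rw [X.mem_F] at hτ ⊢
          omega
        · rw [X.mem_F] at hτ
          rw [hne τ (by omega), smul_zero])
    choose l hl1 hl2 using U.onto
    let f : X.ι → I.Y := fun σ => if X.s σ = m then I.L (X.e σ) (l (φ σ)) else 0
    have hf1 : ∀ σ, f σ ∈ I.gr.G ((X.s σ : ℤ) + -m) := by
      intro σ
      by_cases hσ : X.s σ = m
      · simp only [f, if_pos hσ]
        exact G_cast (I.L_deg (X.e_mem σ) (hl1 _)) (by omega)
      · simp only [f, if_neg hσ]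
        exact Submodule.zero_mem _
    have hf2 : ∀ σ, I.L (X.e σ) (f σ) = f σ := by
      intro σ
      by_cases hσ : X.s σ = m
      · simp only [f, if_pos hσ]
        rw [← I.L_mul, X.e_idem]
      · simp only [f, if_neg hσ, map_zero]
    have hf3 : ∀ σ, U.a (f σ) = X.e σ • φ σ := by
      intro σ
      by_cases hσ : X.s σ = m
      · simp only [f, if_pos hσ]
        rw [U.a_L _ (X.e_mem σ) _ (hl1 _), hl2]
      · simp only [f, if_neg hσ, map_zero]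
        rw [b1 σ hσ, smul_zero]
    have hdf : ∀ σ, del I X f σ ∈ I.gr.G ((X.s σ : ℤ) - (m + 1)) := fun σ =>
      G_cast (del_deg hf1 σ) (by ring)
    obtain ⟨ψ, a1, a2, a3⟩ := U.acycN (m + 1) (fun σ => κ σ + del I X f σ)
      (fun σ => Submodule.add_mem _ (h1 σ) (hdf σ))
      (fun σ => by
        by_cases hσ : X.s σ = m + 1
        · rw [map_add, b2 σ hσ, del_apply, map_add]
          have e1 : U.a (I.dY (f σ)) = 0 := by
            simp only [f, if_neg (show X.s σ ≠ m by omega), map_zero]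
          rw [e1, zero_add, map_sum]
          have e2 : ∑ τ ∈ X.F (X.s σ), U.a (I.L (X.c σ τ) (f τ)) =
              ∑ τ ∈ X.F m, X.c σ τ • φ τ := by
            symm
            classical
            refine Finset.sum_subset_zero_on_sdiff (fun τ hτ => ?_) (fun τ hτ => ?_) fun τ hτ => ?_
            · rw [X.mem_F] at hτ ⊢
              omega
            · rw [Finset.mem_sdiff, X.mem_F, X.mem_F] at hτ
              rw [PCells.c_zero X (by omega), map_zero, LinearMap.zero_apply, map_zero]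
            · by_cases h7 : X.s τ = m
              · rw [U.a_c σ τ _ (G_cast (hf1 τ) (by omega)) (by omega), hf3, ← mul_smul,
                  X.c_right]
              · rw [b1 τ h7, smul_zero]
                simp only [f, if_neg h7, map_zero]
          rw [e2]
          exact twoV _
        · exact U.a_ne ((X.s σ : ℤ) - (m + 1)) (by omega) _
            (Submodule.add_mem _ (h1 σ) (hdf σ)))
      (fun σ => by rw [map_add, h3, del_e hf2])
      (fun σ => by rw [del_add, h4, zero_add, del_del])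
    refine ⟨fun σ => f σ + ψ σ, 0, fun σ => Submodule.add_mem _ (G_cast (hf1 σ) (by ring)) (a1 σ),
      fun σ => by rw [map_add, hf2, a2], fun _ => rfl, fun σ => ?_⟩
    rw [zero_smul, zero_add, del_add, ← a3, add_comm (κ σ), ← add_assoc, two, zero_add]

/-- **the fields `kt`, `kt_deg`, `kt_e`, `kt_d`, `kt_ne`, `KX` of `FinD384.HIn`** -/
theorem kt_KX : ∃ kt : X.ι → I.Y, (∀ σ, kt σ ∈ I.gr.G (X.s σ)) ∧
    (∀ σ, I.L (X.e σ) (kt σ) = kt σ) ∧
    (∀ σ, I.dY (kt σ) + ∑ τ ∈ X.F (X.s σ), I.L (X.c σ τ) (kt τ) = 0) ∧ kt ≠ 0 ∧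
    (∀ σ, U.a (kt σ) = X.v σ) ∧
    ∀ (p : ℤ) (κ : X.ι → I.Y), (∀ σ, κ σ ∈ I.gr.G ((X.s σ : ℤ) - p)) →
      (∀ σ, I.L (X.e σ) (κ σ) = κ σ) →
      (∀ σ, I.dY (κ σ) + ∑ τ ∈ X.F (X.s σ), I.L (X.c σ τ) (κ τ) = 0) →
      ∃ (ψ : X.ι → I.Y) (r : K), (∀ σ, ψ σ ∈ I.gr.G ((X.s σ : ℤ) - p + 1)) ∧
        (∀ σ, I.L (X.e σ) (ψ σ) = ψ σ) ∧ (p ≠ 0 → r = 0) ∧
        ∀ σ, κ σ = r • kt σ + (I.dY (ψ σ) + ∑ τ ∈ X.F (X.s σ), I.L (X.c σ τ) (ψ τ)) := by
  obtain ⟨kt, h1, h2, h3, h4⟩ := U.exists_kt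
  exact ⟨kt, h1, h2, h4, U.kt_ne h3, h3, fun p κ a1 a2 a3 => U.KX h1 h2 h3 h4 p κ a1 a2 a3⟩

end Aug

end Crest.Agent.R186.KX378
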