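import Crest.Agent.R186.KVr_186
import Crest.Agent.R186.KX_378
import Crest.Agent.R186.VEnd_701
import Crest.Agent.R186.Glue_255

/-!
Row 186 (A), leaf A.KX (helper186): 378's `Aug` for the concrete `E := KHc302.CEr π s hs` and
`X := pcells N h0 Xp hT`, `N = resL (HmP π s _) (honL (WR π).dga (VR π (-1)).VM hpos hD)`.
-/

set_option autoImplicit false
set_option linter.style.haveILetI false

noncomputable section

namespace Crest.Agent.R186.KHc186

open Crest.Agent.R186.DefsQ830 Crest.Agent.R186.PBW128 Crest.Agent.R186.Der580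
open Crest.Agent.R186.Win810 Crest.Agent.R186.C2b44 Crest.Agent.R186.Cells221
open Crest.Agent.R186.VOp220 Crest.Agent.R186.Vmod220 Crest.Agent.R186.WL221
open Crest.Agent.R186.SM890 Crest.Agent.R186.KH186
open Frame515 Res255 FinV988

variable {K : Type} [Field K] (π : Par K) (s : ℕ) (hs : 5 ≤ s)

/-! ### endomorphisms -/

theorem hW_mem (i : Fin 2) {b b' : Fin 4} (h : b' ≤ b) : VEnd701.hW π i h ∈ (WR π).G 0 := by
  refine WD.ws_mem_G' (w := WR π) ?_ _
  change (X π .h) ^ (b.val - b'.val) ∈ pcZ π ((i.val : ℤ) - (i.val : ℤ))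
    ((b.val : ℤ) - (b'.val : ℤ)) 0
  have := VEnd701.h_pow_mem π (b.val - b'.val)
  rw [sub_self]
  rwa [Nat.cast_sub (by exact_mod_cast h)] at this

/-- endomorphisms of `V_{-1}` commuting with degree zero are scalars -/
theorem end_scalar0 (f : (VR π (-1)).VM →ₗ[K] (VR π (-1)).VM)
    (hf : ∀ a ∈ (WR π).G 0, ∀ v : (VR π (-1)).VM, f (a • v) = a • f v) :
    ∃ r : K, ∀ v, f v = r • v := by
  refine ⟨VEnd701.co 0 (f (VEnd701.u π 0)), fun v => ?_⟩
  have hu : ∀ b : Fin 4, f (VEnd701.u π b) = VEnd701.co 0 (f (VEnd701.u π 0)) • VEnd701.u π b := by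
    intro b
    have hb : (0 : Fin 4) ≤ b := Fin.zero_le b
    conv_lhs => rw [← VEnd701.hW_u (π := π) hb, hf _ (hW_mem π 1 hb), VEnd701.hW_smul hb]
  conv_lhs => rw [VEnd701.eq_sum v]
  conv_rhs => rw [VEnd701.eq_sum v]
  rw [map_sum, Finset.smul_sum]
  refine Finset.sum_congr rfl fun b _ => ?_
  rw [map_smul, hu, smul_comm]

/-! ### `V_{-1}` over `Γ` -/

variable (hpos : ∀ k : ℤ, 0 < k → ∀ a ∈ (WR π).dga.G k, ∀ w : (VR π (-1)).VM,
    (show (WR π).Win from a) • w = 0)
  (hD : ∀ (a : (WR π).dga.C) (w : (VR π (-1)).VM),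
    (show (WR π).Win from (WR π).dga.D a) • w = 0)

/-- `V_{-1}` over `L''` -/
abbrev NL : LM (WR π).dga := honL (WR π).dga (VR π (-1)).VM hpos hD

/-- `V_{-1}` over `Γ` -/
abbrev NG : LM (Gm π s (KHc302.two_le hs)) := resL (HmP π s (KHc302.two_le hs)) (NL π hpos hD)

theorem NG_smul (g : (Gm π s (KHc302.two_le hs)).C) (v : (VX π s hs (hr π) (-1)).VM) :
    (show (NG π s hs hpos hD).X from g • (show (NG π s hs hpos hD).X from v)) =
      ((show (wG (K := K) (π := π) s hs).Win from g) • v : (VX π s hs (hr π) (-1)).VM) := rfl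

/-- **378's input** -/
def augX (h0 : Deg0 (NG π s hs hpos hD)) [Module.Finite K (NG π s hs hpos hD).X]
    [Nontrivial (NG π s hs hpos hD).X]
    (Xp : SemiFree515.Pre (Gm π s (KHc302.two_le hs)) (NG π s hs hpos hD).X)
    (hT : ∀ k : ℤ, 1 ≤ k → ExAt (tG (DR (NG π s hs hpos hD)) (lpre Xp)) k) :
    KX378.Aug (KHc302.CEr π s hs).toIn (pcells (NG π s hs hpos hD) h0 Xp hT) where
  a := (kresC π s hs).aug
  a_L g _ y _ := (kresC π s hs).aug_L g y
  a_ne k hk y hy := (kresC π s hs).aug_deg hk hy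
  a_d y _ := (kresC π s hs).aug_d y
  onto w := (kresC π s hs).aug_surj w
  ex n _ y hy hd h := (kresC π s hs).aug_ex hy hd h
  endV f hf := by
    refine end_scalar0 π f fun a ha v => ?_
    have h := hf ((HmI π s (KHc302.two_le hs)).f a) ((HmI π s (KHc302.two_le hs)).mem ha) v
    exact h

end Crest.Agent.R186.KHc186
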