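import Crest.Agent.R186.EndP_448
import Crest.Agent.R186.KXc_186
import Crest.Agent.R186.Core_890

/-!
Row 186, half (A), integration (helper448): the last file.  Three open literals:
`HM` (for the rigidity), `PH` and `HD`, on the concrete objects, give the null pair.
-/

set_option autoImplicit false
set_option linter.style.haveILetI false
set_option linter.unusedSectionVars false

noncomputable section

open MulOpposite

namespace Crest.Agent.R186.EndF448

open Hat827 Win810 Frame515 Res255 DefsQ830 SM890 KH186 FinD384 ConeHyp462 Adapt186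
open FinV988 SemiFree515 EndA448 EndV448 FinD988 EndB448 EndP448 TB143

variable {K : Type} [Field K] (π : Par K) (s : ℕ) (hs : 5 ≤ s)

/-- right cells of `D V` over `L''` -/
theorem exists_Y : ∃ (Y : RCells (WR π).dga) (R : RRes Y (DR (V2 π))), R.lo = 0 ∧
    ∀ σ, Y.e σ = 1 := by
  have hfin : ∀ k, Module.Finite K ((V2 π).gr k) := fun k => inferInstance
  obtain ⟨Y, R, h1, h2⟩ := Core890.exists_resDR (deg0_V2 π).prl hfin
  exact ⟨Y, R, h1.trans (by change -(0 : ℤ) = 0; ring), h2⟩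

/-- the open literal of (V) -/
def HM : Prop := ∀ (Y : RCells (WR π).dga) (R : RRes Y (DR (V2 π))), R.lo = 0 →
  (∀ σ, Y.e σ = 1) → Ac (tG (tQ Y (extG π s hs).M) (XL π s hs))

variable {π s hs}

theorem PV_of_HM (h : HM π s hs) : PV π s hs := by
  obtain ⟨Y, R, h1, h2⟩ := exists_Y π
  exact PV_of π s hs R (h Y R h1 h2)

/-- 186's augmentation -/
def UG (hV : PV π s hs) : KX378.Aug (IG π s hs) (PG hV) :=
  haveI : Module.Finite K (KHc186.NG π s hs (v_pos π (-1)) (v_D π (-1))).X := finVG π s hs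
  haveI : Nontrivial (KHc186.NG π s hs (v_pos π (-1)) (v_D π (-1))).X := ntVG π s hs
  KHc186.augX π s hs (v_pos π (-1)) (v_D π (-1)) (deg0_VG π s hs) (XG π s hs) hV

/-- the open literal of (D) -/
def HD (hV : PV π s hs) : Prop :=
  ∀ (kt : (PG hV).ι → (IG π s hs).Y) (hk : ∀ σ, kt σ ∈ (IG π s hs).gr.G ((PG hV).s σ))
    (hd : KtD (IG π s hs) (PG hV) kt), (∀ σ, (IG π s hs).L ((PG hV).e σ) (kt σ) = kt σ) →
    (∀ σ, (UG hV).a (kt σ) = (PG hV).v σ) → QI (gD (IG π s hs) (PG hV) kt hk hd)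

/-- **the null pair from the three open literals** -/
theorem null_F (hM : HM π s hs) (hH : PH π s hs) (hD : ∀ hV : PV π s hs, HD hV) :
    Nonempty (Spine700.Null.{0, 0} K) :=
  null_B hH (PV_of_HM hM) (UG (PV_of_HM hM)) (hD (PV_of_HM hM))

/-- the open literal of (D) in 384's form -/
def HD2 (hV : PV π s hs) : Prop :=
  ∀ kt : (PG hV).ι → (IG π s hs).Y, (∀ σ, kt σ ∈ (IG π s hs).gr.G ((PG hV).s σ)) →
    (∀ σ, (IG π s hs).L ((PG hV).e σ) (kt σ) = kt σ) → KtD (IG π s hs) (PG hV) kt →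
    (∀ σ, (UG hV).a (kt σ) = (PG hV).v σ) → DOut (EG π s hs) (PG hV) kt

theorem HD2_of {hV : PV π s hs} (h : HD hV) : HD2 hV := fun kt k1 k2 k3 k4 =>
  { D1 := D1_of (prlSelf (grM π s (KHc302.two_le hs))) k1 k2 k3 (h kt k1 k3 k2 k4)
    D2 := D2_of k1 k3 (h kt k1 k3 k2 k4) }

/-- **the null pair from the three open literals**, (D) in 384's form -/
theorem null_F2 (hM : HM π s hs) (hH : PH π s hs) (hD : ∀ hV : PV π s hs, HD2 hV) :
    Nonempty (Spine700.Null.{0, 0} K) := by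
  obtain ⟨kt, k1, k2, k3, k4, k5, k6⟩ := (UG (PV_of_HM hM)).kt_KX
  exact null_abs (EG π s hs) (VG π s hs) (deg0_VG π s hs) (XG π s hs) (evV π s hs)
    (PV_of_HM hM) hH
    { kt := kt, kt_deg := k1, kt_e := k2, kt_d := k3, kt_ne := k4, KX := k6 }
    (hD (PV_of_HM hM) kt k1 k2 k3 k5)

end Crest.Agent.R186.EndF448
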