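import Crest.Agent.R186.DSq5_384
import Crest.Agent.R186.SqI_186
import Crest.Agent.R186.EndF_448

/-!
Row 186 (A), leaf A.FIN (helper384): the last line of (D): 448's `HD2` from (c1) and (iii).
-/

set_option autoImplicit false
set_option linter.style.haveILetI false
set_option linter.unusedSectionVars false

noncomputable section

open MulOpposite

namespace Crest.Agent.R186.HD384

open Hat827 Win810 Frame515 Res255 DefsQ830 SM890 KH186 FinD384 ConeHyp462 Adapt186
open FinV988 SemiFree515 EndA448 EndV448 FinD988 EndB448 EndP448 EndF448 TB143 DSq384 SqI186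

variable {K : Type} [Field K] {π : Par K} {s : ℕ} {hs : 5 ≤ s}

/-- the augmentation as a morphism -/
def aH (hV : PV π s hs) : GCHom (KKl (IG π s hs)).toGC (VG π s hs).toGC where
  f := (UG hV).a
  f_mem := by
    intro k x hx
    by_cases hk : k = 0
    · subst hk
      exact (deg0_VG π s hs).top _
    · have h : (UG hV).a x = 0 := (UG hV).a_ne k hk x hx
      change (UG hV).a x ∈ (VG π s hs).gr k
      rw [h]
      exact Submodule.zero_mem _
  f_d x := by
    refine Eq.trans ?_ ((deg0_VG π s hs).d _).symm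
    exact (KHc186.kresC π s hs).aug_d x

theorem negY (j : ℤ) (hj : j < 0) (y : (IG π s hs).Y) (hy : y ∈ (IG π s hs).gr.G j) : y = 0 :=
  KX378.G_neg hj hy

theorem aH_qi (hV : PV π s hs) : QI (aH hV) :=
  aug_qi (VG π s hs) (fun _ hj _ hv => (deg0_VG π s hs).bot hv hj) (deg0_VG π s hs).d (aH hV)
    (UG hV).onto (UG hV).ex negY

theorem aH_L (hV : PV π s hs) (g : (Gam π s hs).C) (y : (IG π s hs).Y) :
    (aH hV).f ((IG π s hs).L g y) = g • (show (VG π s hs).X from (aH hV).f y) :=
  (KHc186.kresC π s hs).aug_L g y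

/-- **(D) from (c1) and (iii)** -/
theorem HD2_of (hV : PV π s hs) {Y : RCells (WR π).dga} (R : RRes Y (DM π s (KHc302.two_le hs)))
    (c1 : C1Q611.C1 π s (KHc302.two_le hs) R)
    (h3 : QI ((VF.ofDR R.toRAug).pm ((SG π s hs).bβ (IG π s hs)))) : HD2 hV := by
  intro kt k1 k2 k3 k4
  let k : Kt (IG π s hs) (lc (PG hV)) := ⟨kt, k1, k2, k3⟩
  have h2 : QI (gKH k) := gKH_qi k (N := VG π s hs) (RX π s hs) rfl (aH hV) (aH_qi hV)
    (aH_L hV) k4
  have h1 := Sq.f1_qi (S := SG π s hs) (VF.ofDR R.toRAug) (b0R_qi (SG π s hs) R)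
    (b1_qi_of (SG π s hs) R.toRAug c1)
  have hT := (SG π s hs).T_qi k (VF.ofDR R.toRAug) h1 (f2_qi k (SG π s hs) h2) h3
  obtain ⟨d1, d2⟩ := D12 k (PrG π s hs) hT
  exact ⟨d1, d2⟩

end Crest.Agent.R186.HD384
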