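import Crest.Agent.R186.DJ5_187
import Crest.Agent.R186.HD_384

/-!
Row 186 (A), leaf DJ (helper187), part 6: 448's `HD2` from (c1) in 611's form and (c2) in the form
`C2s`, `C2t` over 354's `X''` (no cone over `H` needed).
-/

set_option autoImplicit false
set_option linter.style.haveILetI false
set_option linter.unusedSectionVars false

noncomputable section

open MulOpposite

namespace Crest.Agent.R186.DJ187

open Hat827 ConeHyp462 Adapt186 Frame515 Res255 FinV988 FinD988 TB143 SM890 DefsQ830 Win810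
open KHc186 EndA448 EndV448 EndB448 EndP448 EndF448

variable {K : Type} [Field K] {π : Par K} {s : ℕ} {hs : 5 ≤ s}

/-- **(D)** -/
theorem HD2_c2 (hV : PV π s hs) {Y : RCells (WR π).dga} (R : RRes Y (DM π s (KHc302.two_le hs)))
    (c1 : C1Q611.C1 π s (KHc302.two_le hs) R)
    (P : Prj (HmI π s (KHc302.two_le hs)))
    (hP : ∀ a, (SqI186.SG π s hs).ω (P.pr a) = (SqI186.SG π s hs).ω a)
    (hev : ∀ y z, P.pr ((EE π s hs).toIn.ev y z) = (EE π s hs).toIn.ev y z)
    {pj : (C2f354.pre π).ι → (EE π s hs).toIn.Y}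
    (pj_deg : ∀ k, pj k ∈ (EE π s hs).toIn.gr.G ((C2f354.pre π).s k))
    (pj_e : ∀ k, (EE π s hs).toIn.L ((HmI π s (KHc302.two_le hs)).f ((C2f354.pre π).e k)) (pj k) =
      pj k)
    (pj_d : ∀ k, (EE π s hs).toIn.dY (pj k) + ∑ j ∈ (C2f354.pre π).F ((C2f354.pre π).s k),
      (EE π s hs).toIn.L ((HmI π s (KHc302.two_le hs)).f ((C2f354.pre π).c k j)) (pj j) = 0)
    (pj_a : ∀ k, (C2f354.pre π).s k = 0 → (kresC π s hs).aug (pj k) = (C2f354.pre π).v k)
    (c2s : C2s (Y := lpre (YX π s hs)) P (EE π s hs).toIn pj)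
    (c2t : C2t (Y := lpre (YX π s hs)) P (EE π s hs).toIn pj) : HD2 hV := by
  intro kt k1 k2 k3 k4
  exact dOut (Xp := XG π s hs) (hV := hV) P hP hev (DSq384.VF.ofDR R.toRAug)
    (DSq384.b0R_qi (SqI186.SG π s hs) R) (DSq384.b1_qi_of (SqI186.SG π s hs) R.toRAug c1)
    pj_deg pj_e pj_d pj_a c2s c2t kt k1 k2 k3 k4

end Crest.Agent.R186.DJ187
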