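import Crest.Agent.R186.ConeHyp_462
import Crest.Agent.R186.Adapt_186
import Crest.Agent.R186.Res_255

/-!
Row 186 (A), leaf DJ (helper187), part 1: the fields `D1`, `D2` of 384's `HIn` from
(c1) [injectivity of `psi` on cohomology] and (c2) [`H → Hom_B(X'', M)` quasi-iso].
`A = Γ`, `B = L''`, `h : B → A`, `pr` = projection of `Γ` to `M`, `X` = cells of `V` over `Γ`,
`Y = X''` = cells of `V` over `L''`.
-/

set_option autoImplicit false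
set_option linter.unusedSectionVars false

open Matrix

namespace Crest.Agent.R186.DJ187

open Hat827 ConeHyp462 Adapt186 Frame515 Res255

variable {K : Type} [Field K]

/-- a left `B`-linear dg projection `pr` of `A` (to `M`) -/
structure Prj {A B : DGA K} (h : Hm B A) where
  pr : A.C →ₗ[K] A.C
  pr_l : ∀ b a, pr (h.f b * a) = h.f b * pr a
  pr_D : ∀ a, pr (A.D a) = A.D (pr a)
  pr_mem : ∀ {k : ℤ} {a : A.C}, a ∈ A.G k → pr a ∈ A.G k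
  pr_pr : ∀ a, pr (pr a) = pr a

variable {A B : DGA K} {h : Hm B A} (P : Prj h) (X : PCells A) (Y : LCells B)

/-- the differential of `Hom_A(X, A)` -/
def dX (f : X.ι → A.C) (σ : X.ι) : A.C := A.D (f σ) + ∑ τ ∈ X.F (X.s σ), X.c σ τ * f τ

variable (h) in
/-- the differential of `Hom_B(X'', A)` -/
def dB (g : Y.ι → A.C) (k : Y.ι) : A.C := A.D (g k) + ∑ j ∈ Y.F (Y.s k), h.f (Y.c k j) * g j

variable (h) in
/-- a `B`-linear chain map `X'' → X` -/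
structure Lift where
  φ : Y.ι → X.ι → A.C
  φ_mem : ∀ k σ, φ k σ ∈ A.G ((Y.s k : ℤ) - X.s σ)
  φ_e : ∀ k σ, φ k σ * X.e σ = φ k σ
  φ_l : ∀ k σ, h.f (Y.e k) * φ k σ = φ k σ
  φ_d : ∀ k τ, A.D (φ k τ) + ∑ σ ∈ X.F (Y.s k), φ k σ * X.c σ τ =
    ∑ j ∈ Y.F (Y.s k), h.f (Y.c k j) * φ j τ

variable {P X Y}

theorem c_zero {σ τ : X.ι} (hs : X.s σ ≤ X.s τ) : X.c σ τ = 0 :=
  DGA.neg (X.c_mem σ τ) (by omega)

theorem F_mono {m m' : ℕ} (hm : m ≤ m') : X.F m ⊆ X.F m' := by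
  intro σ hσ
  rw [X.mem_F] at hσ ⊢
  omega

theorem YF_mono {m m' : ℕ} (hm : m ≤ m') : Y.F m ⊆ Y.F m' := by
  intro σ hσ
  rw [Y.mem_F] at hσ ⊢
  omega

namespace Lift

variable (Φ : Lift h X Y)

theorem φ_zero {k : Y.ι} {σ : X.ι} (hs : Y.s k < X.s σ) : Φ.φ k σ = 0 :=
  DGA.neg (Φ.φ_mem k σ) (by omega)

/-- `Hom_A(X, A) → Hom_B(X'', A)` -/
def pull (f : X.ι → A.C) (k : Y.ι) : A.C := ∑ σ ∈ X.F (Y.s k), Φ.φ k σ * f σ

theorem pull_of_le (f : X.ι → A.C) (k : Y.ι) {m : ℕ} (hm : Y.s k ≤ m) :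
    Φ.pull f k = ∑ σ ∈ X.F m, Φ.φ k σ * f σ := by
  refine Finset.sum_subset (F_mono hm) ?_
  intro σ h1 h2
  rw [X.mem_F] at h1 h2
  rw [Φ.φ_zero (by omega), zero_mul]

theorem pull_add (f f' : X.ι → A.C) (k : Y.ι) :
    Φ.pull (fun σ => f σ + f' σ) k = Φ.pull f k + Φ.pull f' k := by
  unfold pull
  simp only [mul_add, Finset.sum_add_distrib]

theorem pull_mem {p : ℤ} {f : X.ι → A.C} (hf : ∀ σ, f σ ∈ A.G ((X.s σ : ℤ) - p)) (k : Y.ι) :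
    Φ.pull f k ∈ A.G ((Y.s k : ℤ) - p) := by
  refine Submodule.sum_mem _ fun σ _ => ?_
  have h := A.mul_mem (Φ.φ_mem k σ) (hf σ)
  have e : (Y.s k : ℤ) - X.s σ + (X.s σ - p) = Y.s k - p := by ring
  rwa [e] at h

theorem pull_l (f : X.ι → A.C) (k : Y.ι) : h.f (Y.e k) * Φ.pull f k = Φ.pull f k := by
  unfold pull
  rw [Finset.mul_sum]
  refine Finset.sum_congr rfl fun σ _ => ?_
  rw [← mul_assoc, Φ.φ_l]

theorem pull_d (f : X.ι → A.C) (k : Y.ι) : Φ.pull (dX X f) k = dB h Y (Φ.pull f) k := by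
  have h1 : Φ.pull (dX X f) k = ∑ σ ∈ X.F (Y.s k), Φ.φ k σ * A.D (f σ) +
      ∑ τ ∈ X.F (Y.s k), (∑ σ ∈ X.F (Y.s k), Φ.φ k σ * X.c σ τ) * f τ := by
    unfold pull dX
    simp only [mul_add, Finset.sum_add_distrib]
    congr 1
    simp only [Finset.sum_mul]
    rw [Finset.sum_comm]
    refine Finset.sum_congr rfl fun σ hσ => ?_
    rw [Finset.mul_sum]
    rw [X.mem_F] at hσ
    rw [Finset.sum_subset (F_mono hσ)]
    · refine Finset.sum_congr rfl fun τ _ => ?_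
      rw [mul_assoc]
    · intro τ h2 h3
      rw [X.mem_F] at h3
      rw [c_zero (by omega), zero_mul, mul_zero]
  have h2 : dB h Y (Φ.pull f) k = ∑ σ ∈ X.F (Y.s k), (A.D (Φ.φ k σ) * f σ + Φ.φ k σ * A.D (f σ)) +
      ∑ τ ∈ X.F (Y.s k), (∑ j ∈ Y.F (Y.s k), h.f (Y.c k j) * Φ.φ j τ) * f τ := by
    unfold dB
    congr 1
    · unfold pull
      rw [map_sum]
      refine Finset.sum_congr rfl fun σ _ => ?_
      rw [A.D_mul]
    · simp only [Finset.sum_mul]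
      rw [Finset.sum_comm]
      refine Finset.sum_congr rfl fun j hj => ?_
      rw [Y.mem_F] at hj
      rw [Φ.pull_of_le f j hj, Finset.mul_sum]
      refine Finset.sum_congr rfl fun τ _ => ?_
      rw [mul_assoc]
  rw [h1, h2]
  simp only [← Φ.φ_d, add_mul, Finset.sum_add_distrib]
  set u := ∑ σ ∈ X.F (Y.s k), A.D (Φ.φ k σ) * f σ
  set v := ∑ σ ∈ X.F (Y.s k), Φ.φ k σ * A.D (f σ)
  set w := ∑ τ ∈ X.F (Y.s k), (∑ σ ∈ X.F (Y.s k), Φ.φ k σ * X.c σ τ) * f τ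
  have h3 := A.two u
  calc v + w = (u + u) + v + w := by rw [h3, zero_add]
    _ = _ := by abel

variable (P) in
/-- `psi : Hom_A(X, A) → Hom_B(X'', M)` -/
def psi (f : X.ι → A.C) (k : Y.ι) : A.C := P.pr (Φ.pull f k)

theorem psi_add (f f' : X.ι → A.C) (k : Y.ι) :
    Φ.psi P (fun σ => f σ + f' σ) k = Φ.psi P f k + Φ.psi P f' k := by
  unfold psi
  rw [pull_add, map_add]

theorem pr_dB (g : Y.ι → A.C) (k : Y.ι) : P.pr (dB h Y g k) = dB h Y (fun j => P.pr (g j)) k := by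
  unfold dB
  rw [map_add, P.pr_D, map_sum]
  simp only [P.pr_l]

theorem psi_d (f : X.ι → A.C) (k : Y.ι) : Φ.psi P (dX X f) k = dB h Y (Φ.psi P f) k := by
  unfold psi
  rw [pull_d, pr_dB]

theorem psi_mem {p : ℤ} {f : X.ι → A.C} (hf : ∀ σ, f σ ∈ A.G ((X.s σ : ℤ) - p)) (k : Y.ι) :
    Φ.psi P f k ∈ A.G ((Y.s k : ℤ) - p) := P.pr_mem (Φ.pull_mem hf k)

theorem psi_l (f : X.ι → A.C) (k : Y.ι) : h.f (Y.e k) * Φ.psi P f k = Φ.psi P f k := by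
  unfold psi
  rw [← P.pr_l, Φ.pull_l]

theorem psi_pr (f : X.ι → A.C) (k : Y.ι) : P.pr (Φ.psi P f k) = Φ.psi P f k := P.pr_pr _

end Lift

variable (P Y) in
/-- `g` is a coboundary in `Hom_B(X'', M)` (degree `p`) -/
def CobM (p : ℤ) (g : Y.ι → A.C) : Prop :=
  ∃ u : Y.ι → A.C, (∀ k, u k ∈ A.G ((Y.s k : ℤ) - p + 1)) ∧ (∀ k, h.f (Y.e k) * u k = u k) ∧
    (∀ k, P.pr (u k) = u k) ∧ ∀ k, g k = dB h Y u k

variable (P) in
/-- **(c1) in the form used**: `psi` is injective on cohomology -/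
def InjPsi (Φ : Lift h X Y) : Prop :=
  ∀ (p : ℤ) (f : X.ι → A.C), (∀ σ, f σ ∈ A.G ((X.s σ : ℤ) - p)) → (∀ σ, X.e σ * f σ = f σ) →
    (∀ σ, dX X f σ = 0) → CobM P Y p (Φ.psi P f) → IsCob A X p f

variable (I : In A)

variable (P) in
/-- **(c2)**: `H → Hom_B(X'', M)`, `η ↦ ev (π ⊗ η)` is onto on cohomology -/
def C2s (π : Y.ι → I.Y) : Prop :=
  ∀ (p : ℤ) (g : Y.ι → A.C), (∀ k, g k ∈ A.G ((Y.s k : ℤ) - p)) →
    (∀ k, h.f (Y.e k) * g k = g k) → (∀ k, P.pr (g k) = g k) → (∀ k, dB h Y g k = 0) →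
    ∃ η ∈ I.gs.G (-p), I.dZ η = 0 ∧ CobM P Y p (fun k => g k + I.ev (π k) η)

variable (P) in
/-- **(c2)**: `H → Hom_B(X'', M)`, `η ↦ ev (π ⊗ η)` is injective on cohomology -/
def C2t (π : Y.ι → I.Y) : Prop :=
  ∀ (p : ℤ) (η : I.Z), η ∈ I.gs.G (-p) → I.dZ η = 0 →
    CobM P Y p (fun k => I.ev (π k) η) → ∃ η' ∈ I.gs.G (-p + 1), η = I.dZ η'

/-- `kt ∘ φ` -/
def ktφ (Φ : Lift h X Y) (kt : X.ι → I.Y) (k : Y.ι) : I.Y :=
  ∑ σ ∈ X.F (Y.s k), I.L (Φ.φ k σ) (kt σ)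

/-- `kt ∘ φ` is homotopic to `π` -/
structure Htp (Φ : Lift h X Y) (kt : X.ι → I.Y) (π : Y.ι → I.Y) where
  θ : Y.ι → I.Y
  θ_deg : ∀ k, θ k ∈ I.gr.G ((Y.s k : ℤ) + 1)
  θ_e : ∀ k, I.L (h.f (Y.e k)) (θ k) = θ k
  θ_d : ∀ k, ktφ I Φ kt k =
    π k + (I.dY (θ k) + ∑ j ∈ Y.F (Y.s k), I.L (h.f (Y.c k j)) (θ j))

variable {I}

theorem D_ev (v : I.Y) {η : I.Z} (hη : I.dZ η = 0) : A.D (I.ev v η) = I.ev (I.dY v) η := by
  rw [I.ev_D, hη, map_zero, add_zero]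

theorem ev_add (v v' : I.Y) (η : I.Z) : I.ev (v + v') η = I.ev v η + I.ev v' η := by
  rw [map_add, LinearMap.add_apply]

theorem ev_sum {ι' : Type} (s : Finset ι') (f : ι' → I.Y) (η : I.Z) :
    I.ev (∑ i ∈ s, f i) η = ∑ i ∈ s, I.ev (f i) η := by
  rw [map_sum, LinearMap.sum_apply]

theorem ev_zero (η : I.Z) : I.ev (0 : I.Y) η = 0 := by
  rw [map_zero, LinearMap.zero_apply]

theorem dX_ev {kt : X.ι → I.Y}
    (hd : ∀ σ, I.dY (kt σ) + ∑ τ ∈ X.F (X.s σ), I.L (X.c σ τ) (kt τ) = 0) {η : I.Z}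
    (hη : I.dZ η = 0) (σ : X.ι) : dX X (fun τ => I.ev (kt τ) η) σ = 0 := by
  have h1 : dX X (fun τ => I.ev (kt τ) η) σ =
      I.ev (I.dY (kt σ) + ∑ τ ∈ X.F (X.s σ), I.L (X.c σ τ) (kt τ)) η := by
    rw [ev_add, ev_sum]
    unfold dX
    rw [D_ev _ hη]
    simp only [I.ev_l]
  rw [h1, hd, ev_zero]

theorem pull_ev (Φ : Lift h X Y) (kt : X.ι → I.Y) (η : I.Z) (k : Y.ι) :
    Φ.pull (fun τ => I.ev (kt τ) η) k = I.ev (ktφ I Φ kt k) η := by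
  unfold Lift.pull ktφ
  rw [ev_sum]
  simp only [I.ev_l]

theorem dB_ev (θ : Y.ι → I.Y) {η : I.Z} (hη : I.dZ η = 0) (k : Y.ι) :
    dB h Y (fun j => I.ev (θ j) η) k =
      I.ev (I.dY (θ k) + ∑ j ∈ Y.F (Y.s k), I.L (h.f (Y.c k j)) (θ j)) η := by
  rw [ev_add, ev_sum]
  unfold dB
  rw [D_ev _ hη]
  simp only [I.ev_l]

theorem psi_ev (hev : ∀ y z, P.pr (I.ev y z) = I.ev y z) (Φ : Lift h X Y) {kt : X.ι → I.Y}
    {π : Y.ι → I.Y} (H : Htp I Φ kt π) {η : I.Z} (hη : I.dZ η = 0) (k : Y.ι) :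
    Φ.psi P (fun τ => I.ev (kt τ) η) k = I.ev (π k) η + dB h Y (fun j => I.ev (H.θ j) η) k := by
  unfold Lift.psi
  rw [pull_ev, hev, H.θ_d, ev_add, dB_ev _ hη]

theorem dB_add (g g' : Y.ι → A.C) (k : Y.ι) :
    dB h Y (fun j => g j + g' j) k = dB h Y g k + dB h Y g' k := by
  unfold dB
  simp only [map_add, mul_add, Finset.sum_add_distrib]
  abel

theorem dX_add (g g' : X.ι → A.C) (σ : X.ι) :
    dX X (fun j => g j + g' j) σ = dX X g σ + dX X g' σ := by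
  unfold dX
  simp only [map_add, mul_add, Finset.sum_add_distrib]
  abel

theorem cobM_add {p : ℤ} {g g' : Y.ι → A.C} (hg : CobM P Y p g) (hg' : CobM P Y p g') :
    CobM P Y p (fun k => g k + g' k) := by
  obtain ⟨u, u1, u2, u3, u4⟩ := hg
  obtain ⟨v, v1, v2, v3, v4⟩ := hg'
  refine ⟨fun k => u k + v k, fun k => Submodule.add_mem _ (u1 k) (v1 k), fun k => ?_,
    fun k => ?_, fun k => ?_⟩
  · rw [mul_add, u2, v2]
  · rw [map_add, u3, v3]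
  · rw [dB_add, ← u4, ← v4]

theorem cobM_ev (hev : ∀ y z, P.pr (I.ev y z) = I.ev y z) {Φ : Lift h X Y} {kt : X.ι → I.Y}
    {π : Y.ι → I.Y} (H : Htp I Φ kt π) {p : ℤ} {η : I.Z} (hd : η ∈ I.gs.G (-p)) :
    CobM P Y p (fun k => dB h Y (fun j => I.ev (H.θ j) η) k) := by
  refine ⟨fun j => I.ev (H.θ j) η, fun k => ?_, fun k => ?_, fun k => hev _ _, fun k => rfl⟩
  · have h := I.ev_deg (H.θ_deg k) hd
    have e : (Y.s k : ℤ) + 1 + -p = Y.s k - p + 1 := by ring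
    rw [e] at h
    exact h
  · change h.f (Y.e k) * I.ev (H.θ k) η = I.ev (H.θ k) η
    rw [← I.ev_l, H.θ_e]

theorem cobM_psi (Φ : Lift h X Y) {p : ℤ} {ψ : X.ι → A.C}
    (h1 : ∀ σ, ψ σ ∈ A.G ((X.s σ : ℤ) - p + 1)) : CobM P Y p (fun k => dB h Y (Φ.psi P ψ) k) := by
  refine ⟨Φ.psi P ψ, fun k => ?_, Φ.psi_l ψ, Φ.psi_pr ψ, fun k => rfl⟩
  have h := Φ.psi_mem (P := P) (p := p - 1) (f := ψ) (fun σ => by
    have e : (X.s σ : ℤ) - (p - 1) = X.s σ - p + 1 := by ring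
    rw [e]
    exact h1 σ) k
  have e : (Y.s k : ℤ) - (p - 1) = Y.s k - p + 1 := by ring
  rwa [e] at h

/-- **D1** of 384's `HIn` -/
theorem D1 (hev : ∀ y z, P.pr (I.ev y z) = I.ev y z) (Φ : Lift h X Y) {kt : X.ι → I.Y}
    (kt_mem : ∀ σ, kt σ ∈ I.gr.G (X.s σ)) (kt_e : ∀ σ, I.L (X.e σ) (kt σ) = kt σ)
    (kt_d : ∀ σ, I.dY (kt σ) + ∑ τ ∈ X.F (X.s σ), I.L (X.c σ τ) (kt τ) = 0)
    {π : Y.ι → I.Y} (H : Htp I Φ kt π) (inj : InjPsi P Φ) (c2 : C2s P I π) :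
    ∀ (p : ℤ) (φ : X.ι → A.C), (∀ σ, φ σ ∈ A.G ((X.s σ : ℤ) - p)) →
    (∀ σ, X.e σ * φ σ = φ σ) → (∀ σ, A.D (φ σ) + ∑ τ ∈ X.F (X.s σ), X.c σ τ * φ τ = 0) →
    ∃ η ∈ I.gs.G (-p), I.dZ η = 0 ∧ IsCob A X p (fun σ => φ σ + I.ev (kt σ) η) := by
  intro p f f1 f2 f3
  have f3' : ∀ σ, dX X f σ = 0 := f3
  have hz : dX X f = 0 := funext f3'
  obtain ⟨η, e1, e2, e3⟩ := c2 p (Φ.psi P f) (Φ.psi_mem f1) (Φ.psi_l f) (Φ.psi_pr f)
    (fun k => by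
      rw [← Φ.psi_d, hz]
      unfold Lift.psi Lift.pull
      simp)
  refine ⟨η, e1, e2, ?_⟩
  refine inj p (fun σ => f σ + I.ev (kt σ) η) (fun σ => Submodule.add_mem _ (f1 σ) ?_)
    (fun σ => ?_) (fun σ => ?_) ?_
  · have h := I.ev_deg (kt_mem σ) e1
    have e : (X.s σ : ℤ) + -p = X.s σ - p := by ring
    rw [e] at h
    exact h
  · rw [mul_add, f2, ← I.ev_l, kt_e]
  · have := dX_add (X := X) f (fun σ => I.ev (kt σ) η) σ
    rw [f3', dX_ev kt_d e2, add_zero] at this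
    exact this
  · have h1 := cobM_add e3 (cobM_ev hev H e1)
    have e : Φ.psi P (fun σ => f σ + I.ev (kt σ) η) =
        fun k => (Φ.psi P f k + I.ev (π k) η) + dB h Y (fun j => I.ev (H.θ j) η) k := by
      funext k
      have h2 := Φ.psi_add (P := P) f (fun σ => I.ev (kt σ) η) k
      rw [psi_ev hev Φ H e2] at h2
      rw [h2, add_assoc]
    rw [e]
    exact h1

/-- **D2** of 384's `HIn` -/
theorem D2 (hev : ∀ y z, P.pr (I.ev y z) = I.ev y z) (Φ : Lift h X Y) {kt : X.ι → I.Y}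
    {π : Y.ι → I.Y} (H : Htp I Φ kt π) (c2 : C2t P I π) :
    ∀ (p : ℤ) (η : I.Z), η ∈ I.gs.G (-p) → I.dZ η = 0 →
    IsCob A X p (fun σ => I.ev (kt σ) η) → ∃ η' ∈ I.gs.G (-p + 1), η = I.dZ η' := by
  intro p η e1 e2 ⟨ψ, p1, p2, p3⟩
  refine c2 p η e1 e2 ?_
  have h0 := cobM_add (cobM_psi (P := P) Φ p1) (cobM_ev hev H e1)
  have hW : (fun σ => I.ev (kt σ) η) = dX X ψ := funext p3
  have e : (fun k => I.ev (π k) η) =
      fun k => dB h Y (Φ.psi P ψ) k + dB h Y (fun j => I.ev (H.θ j) η) k := by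
    funext k
    have h1 := psi_ev hev Φ H e2 k
    rw [hW, Φ.psi_d] at h1
    rw [h1, add_assoc, A.two, add_zero]
  rw [e]
  exact h0

end Crest.Agent.R186.DJ187
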