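import Crest.Agent.R186.Bas_735
import Crest.Agent.R186.MRep_890

/-!
# Row 186, half (A), leaf A.C2 (helper457), part 1: the dual Koszul complex over `Q`

`Tq s U` = the operator `Σ_g s_g (y_g on DW) ⊗ MQ g` on functions `Wb → Q`.
`exT` : `Tq s U = 0` implies `U = Tq s V + c • δ_one`; `exT_hom` : the homogeneous version.
-/

set_option autoImplicit false

noncomputable section

namespace Crest.Agent.R186.DKos457

open Crest.Agent.R186.DefsQ830 Crest.Agent.R186.VQ735
open Crest.Agent.R186.PBW128 (Wb Y)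
open Crest.Agent.R186.Loc261 (Lt li Q_ind Qc Qg Q2 prj)

variable {K : Type} [Field K]

section Qlev

variable (P : Loc261.Par K)

/-- swap of the letters `x`, `x'` -/
def sw : Lt → Lt
  | .x => .x'
  | .x' => .x
  | .a => .a
  | .b => .b

theorem sw_sw (g : Lt) : sw (sw g) = g := by cases g <;> rfl

/-- the anti-automorphism `x ↔ x'` -/
def rvA : Loc261.Q P →ₐ[K] (Loc261.Q P)ᵐᵒᵖ :=
  Loc261.lft P (fun g => MulOpposite.op (li P (sw g))) (by
    show MulOpposite.op (li P .x') * MulOpposite.op (li P .x) =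
      P.p⁻¹ • (MulOpposite.op (li P .x) * MulOpposite.op (li P .x'))
    rw [← MulOpposite.op_mul, ← MulOpposite.op_mul, ← MulOpposite.op_smul, Loc261.rel])

def rv (u : Loc261.Q P) : Loc261.Q P := (rvA P u).unop

theorem rv_mul (u v : Loc261.Q P) : rv P (u * v) = rv P v * rv P u := by
  simp [rv]

theorem rv_add (u v : Loc261.Q P) : rv P (u + v) = rv P u + rv P v := by
  simp [rv]

theorem rv_smul (c : K) (u : Loc261.Q P) : rv P (c • u) = c • rv P u := by
  simp [rv]

theorem rv_zero : rv P 0 = 0 := by simp [rv]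

theorem rv_one : rv P 1 = 1 := by simp [rv]

theorem rv_neg (u : Loc261.Q P) : rv P (-u) = - rv P u := by
  simp [rv]

theorem rv_li (g : Lt) : rv P (li P g) = li P (sw g) := by
  simp [rv, rvA]

theorem rv_rv (u : Loc261.Q P) : rv P (rv P u) = u := by
  induction u using Q_ind P with
  | one => rw [rv_one, rv_one]
  | add u v hu hv => rw [rv_add, rv_add, hu, hv]
  | smul r u hu => rw [rv_smul, rv_smul, hu]
  | mul g u hu => rw [rv_mul, rv_mul, rv_li, rv_li, sw_sw, hu]

/-- **left version of the exactness of the presentation** -/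
theorem presL (b : Lt → Loc261.Q P)
    (h : li P .x * b .x + li P .a * b .a + li P .x' * b .x' + li P .b * b .b = 0) :
    ∃ z, b .x = li P .x' * z ∧ b .x' = -(P.p⁻¹ • (li P .x * z)) ∧ b .a = 0 ∧ b .b = 0 := by
  obtain ⟨y, hy⟩ := Loc261.pres P (fun g => rv P (b (sw g))) (by
    rw [sumL]
    show rv P (b .x') * li P .x + rv P (b .a) * li P .a + rv P (b .x) * li P .x' +
      rv P (b .b) * li P .b = 0
    have h1 := congrArg (rv P) h
    rw [rv_add, rv_add, rv_add, rv_mul, rv_mul, rv_mul, rv_mul, rv_li, rv_li, rv_li, rv_li,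
      rv_zero] at h1
    rw [← h1]
    show _ = rv P (b .x) * li P .x' + rv P (b .a) * li P .a + rv P (b .x') * li P .x +
      rv P (b .b) * li P .b
    abel)
  have e1 : rv P (b .x') = - (P.p⁻¹ • (y * li P .x')) := by
    rw [← Loc261.nu_x, ← hy]; rfl
  have e2 : rv P (b .x) = y * li P .x := by
    rw [← Loc261.nu_x', ← hy]; rfl
  have e3 : rv P (b .a) = 0 := by
    rw [← Loc261.nu_a P y, ← hy]; rfl
  have e4 : rv P (b .b) = 0 := by
    rw [← Loc261.nu_b P y, ← hy]; rfl
  refine ⟨rv P y, ?_, ?_, ?_, ?_⟩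
  · rw [← rv_rv P (b .x), e2, rv_mul, rv_li]; rfl
  · rw [← rv_rv P (b .x'), e1, rv_neg, rv_smul, rv_mul, rv_li]; rfl
  · rw [← rv_rv P (b .a), e3, rv_zero]
  · rw [← rv_rv P (b .b), e4, rv_zero]

theorem injR_hom : ∀ (n : ℕ) (m : Multiset Lt), m.card = n → ∀ z ∈ Qc P m, z * li P .x = 0 →
    z = 0 := by
  intro n
  induction n using Nat.strong_induction_on with
  | _ n ih =>
    intro m hm z hz h
    obtain ⟨y, hy, hb⟩ := Loc261.pres_hom P (.x ::ₘ m) (Pi.single Lt.x z) (by
      intro g
      by_cases hg : g = .x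
      · subst hg
        rw [Pi.single_eq_same]
        unfold Loc261.Qg
        rw [if_pos (Multiset.mem_cons_self _ _), Multiset.erase_cons_head]
        exact hz
      · rw [Pi.single_eq_of_ne hg]
        exact Submodule.zero_mem _) (by
      rw [sumL, Pi.single_eq_same, Pi.single_eq_of_ne (by decide), Pi.single_eq_of_ne (by decide),
        Pi.single_eq_of_ne (by decide), h]
      simp)
    have e1 : z = - (P.p⁻¹ • (y * li P .x')) := by
      rw [← Loc261.nu_x, ← hb, Pi.single_eq_same]
    have e2 : y * li P .x = 0 := by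
      rw [← Loc261.nu_x', ← hb, Pi.single_eq_of_ne (by decide)]
    have hy0 : y = 0 := by
      unfold Loc261.Q2 at hy
      split_ifs at hy with hx
      · refine ih _ ?_ _ rfl y hy e2
        have h1 : Lt.x' ∈ m := by
          have := hx.2
          rw [Multiset.mem_cons] at this
          rcases this with h | h
          · exact absurd h (by decide)
          · exact h
        have h2 : Lt.x ∈ (Lt.x ::ₘ m).erase .x' := by
          rw [Multiset.mem_erase_of_ne (by decide)]
          exact hx.1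
        rw [Multiset.card_erase_of_mem h2, Multiset.card_erase_of_mem hx.2, Multiset.card_cons]
        show m.card + 1 - 1 - 1 < n
        have h3 := Multiset.card_pos.2 (fun h0 => by rw [h0] at h1; exact absurd h1 (Multiset.notMem_zero _) : m ≠ 0)
        omega
      · simpa using hy
    rw [e1, hy0, zero_mul, smul_zero, neg_zero]

theorem sum_gr (u : Loc261.Q P) : ((Loc261.gr P u).coeff.sum fun _ a => a) = u := by
  have h := Loc261.span_wp P u
  induction h using Submodule.span_induction with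
  | mem u hu =>
    obtain ⟨w, rfl⟩ := hu
    rw [Loc261.gr_wp]
    simp
  | zero => simp
  | add x y _ _ hx hy =>
    rw [map_add, AddMonoidAlgebra.coeff_add, Finsupp.sum_add_index' (fun _ => rfl)
      (fun _ _ _ => rfl), hx, hy]
  | smul c x _ hx =>
    rw [map_smul, AddMonoidAlgebra.coeff_smul, Finsupp.sum_smul_index' (fun _ => rfl)]
    conv_rhs => rw [← hx]
    rw [Finsupp.smul_sum]

theorem eq_zero_of_prj (z : Loc261.Q P) (h : ∀ m, prj P m z = 0) : z = 0 := by
  have h1 : (Loc261.gr P z).coeff = 0 := by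
    ext m
    exact h m
  rw [← sum_gr P z, h1, Finsupp.sum_zero_index]

/-- right multiplication by `x` is injective -/
theorem injR (z : Loc261.Q P) (h : z * li P .x = 0) : z = 0 := by
  apply eq_zero_of_prj
  intro m
  refine injR_hom P m.card m rfl _ (Loc261.prj_mem P m z) ?_
  rw [← Loc261.prj_mul_li, h, map_zero]

/-- left multiplication by `x'` is injective -/
theorem injL (z : Loc261.Q P) (h : li P .x' * z = 0) : z = 0 := by
  have h1 : rv P z * li P .x = 0 := by
    have := congrArg (rv P) h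
    rwa [rv_mul, rv_li, rv_zero] at this
  rw [← rv_rv P z, injR P _ h1, rv_zero]

end Qlev

variable (π : Par K)

/-- `Lt → Y` -/
def lY : Lt → Y
  | .x => .y 0
  | .a => .yb 0
  | .x' => .y 1
  | .b => .yb 1

theorem yl_lY (g : Lt) : yl π g = X π (lY g).toGen := by cases g <;> rfl

/-- preimages of left multiples under `MQ g` -/
def MQi (g : Lt) (w : Q π) : Q π := Loc261.sc (lp π) (fun l => ((lp π).chi l g)⁻¹) w

theorem MQ_MQi (g : Lt) (w : Q π) : MQ π g (MQi π g w) = li (lp π) g * w := by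
  rw [MQ_apply, MQi, Loc261.sc_sc]
  congr 1
  rw [show (fun l => (lp π).chi l g * ((lp π).chi l g)⁻¹) = fun _ => (1 : K) by
    funext l; exact mul_inv_cancel₀ ((lp π).chi_ne l g)]
  have := congrArg (fun T : Module.End K (Q π) => T w) (SC_one π)
  exact this

theorem sc_inj (s : Lt → K) (hs : ∀ g, s g ≠ 0) (u : Q π) (h : Loc261.sc (lp π) s u = 0) : u = 0 := by
  have h1 : Loc261.sc (lp π) (fun l => (s l)⁻¹) (Loc261.sc (lp π) s u) = u := by
    rw [Loc261.sc_sc, show (fun l => (s l)⁻¹ * s l) = fun _ => (1 : K) by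
      funext l; exact inv_mul_cancel₀ (hs l)]
    exact congrArg (fun T : Module.End K (Q π) => T u) (SC_one π)
  rw [← h1, h, map_zero]

theorem MQ_x'_inj (u : Q π) (h : MQ π .x' u = 0) : u = 0 := by
  rw [MQ_apply] at h
  exact sc_inj π _ (fun g => (lp π).chi_ne g _) u (injL (lp π) _ h)

/-- the operator `Σ_g s_g (y_g on DW) ⊗ MQ g` -/
def Tq (s : Lt → K) (U : Wb → Q π) (o : Wb) : Q π :=
  ∑ g : Lt, ∑ o' : Wb, (if SM890.dt (lY g) o' = o then s g * SM890.dk π (lY g) o' else 0) •
    MQ π g (U o')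

theorem sumW {M : Type*} [AddCommMonoid M] (F : Wb → M) :
    ∑ q, F q = F .one + (F (.y 0) + (F (.y 1) + (F (.yb 0) + (F (.yb 1) + F .pi)))) := by
  have h : (Finset.univ : Finset Wb) = {.one, .y 0, .y 1, .yb 0, .yb 1, .pi} := by decide
  rw [h, Finset.sum_insert (by decide), Finset.sum_insert (by decide),
    Finset.sum_insert (by decide), Finset.sum_insert (by decide), Finset.sum_insert (by decide),
    Finset.sum_singleton]

theorem Tq_one (s : Lt → K) (U : Wb → Q π) : Tq π s U .one =
    s .x • MQ π .x (U (.y 0)) + s .a • MQ π .a (U (.yb 0)) + s .x' • MQ π .x' (U (.y 1)) +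
      s .b • MQ π .b (U (.yb 1)) := by
  simp [Tq, sumL, sumW, lY, SM890.dt, SM890.dk]

theorem Tq_y0 (s : Lt → K) (U : Wb → Q π) : Tq π s U (.y 0) = s .x' • MQ π .x' (U .pi) := by
  simp [Tq, sumL, sumW, lY, SM890.dt, SM890.dk]

theorem Tq_y1 (s : Lt → K) (U : Wb → Q π) :
    Tq π s U (.y 1) = (s .x * π.p) • MQ π .x (U .pi) := by
  simp [Tq, sumL, sumW, lY, SM890.dt, SM890.dk]

theorem Tq_yb (s : Lt → K) (U : Wb → Q π) (t : Fin 2) : Tq π s U (.yb t) = 0 := by
  simp [Tq, sumL, sumW, lY, SM890.dt, SM890.dk]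

theorem Tq_pi (s : Lt → K) (U : Wb → Q π) : Tq π s U .pi = 0 := by
  simp [Tq, sumL, sumW, lY, SM890.dt, SM890.dk]

/-- every element is a constant plus left multiples of the letters -/
theorem Q_dec (u : Q π) : ∃ (c : K) (w : Lt → Q π),
    u = c • (1 : Q π) + (li (lp π) .x * w .x + li (lp π) .a * w .a + li (lp π) .x' * w .x' +
      li (lp π) .b * w .b) := by
  induction u using Q_ind (lp π) with
  | one => exact ⟨1, fun _ => 0, by simp⟩
  | add u v hu hv =>
    obtain ⟨c, w, rfl⟩ := hu
    obtain ⟨c', w', rfl⟩ := hv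
    refine ⟨c + c', fun g => w g + w' g, ?_⟩
    simp only [mul_add, add_smul]
    abel
  | smul r u hu =>
    obtain ⟨c, w, rfl⟩ := hu
    refine ⟨r * c, fun g => r • w g, ?_⟩
    simp only [smul_add, mul_smul_comm, smul_smul]
  | mul g u _ =>
    refine ⟨0, Pi.single g u, ?_⟩
    cases g <;> simp

/-- the dual letter -/
def lW : Lt → Wb
  | .x => .y 0
  | .a => .yb 0
  | .x' => .y 1
  | .b => .yb 1

theorem sc_id (s t : Lt → K) (h : ∀ l, s l * t l = 1) (u : Q π) :
    Loc261.sc (lp π) s (Loc261.sc (lp π) t u) = u := by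
  rw [Loc261.sc_sc, show (fun l => s l * t l) = fun _ => (1 : K) from funext h]
  exact congrArg (fun T : Module.End K (Q π) => T u) (SC_one π)

theorem sc_solve (s : Lt → K) (hs : ∀ l, s l ≠ 0) (r : K) (hr : r ≠ 0) (u w : Q π)
    (h : r • Loc261.sc (lp π) s u = w) : u = r⁻¹ • Loc261.sc (lp π) (fun l => (s l)⁻¹) w := by
  rw [← h, map_smul, smul_smul, inv_mul_cancel₀ hr, one_smul,
    sc_id π _ _ (fun l => inv_mul_cancel₀ (hs l))]

/-- **exactness of the dual Koszul complex** -/
theorem exT (s : Lt → K) (hs : ∀ g, s g ≠ 0) (U : Wb → Q π) (h : ∀ o, Tq π s U o = 0) :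
    ∃ (V : Wb → Q π) (c : K), ∀ o, U o = Tq π s V o + (if o = .one then c • (1 : Q π) else 0) := by
  have hp := π.p0
  have h2 : (2 : K) = 0 := π.two
  have e3 : (lp π).chi .x .x' = π.p⁻¹ := Loc261.Par.chi_x_x' _
  have e4 : (lp π).chi .x' .x = π.p := Loc261.Par.chi_x'_x _
  have hc : ∀ g l, (lp π).chi g l ≠ 0 := fun g l => (lp π).chi_ne g l
  -- `U pi = 0`
  have hpi : U .pi = 0 := by
    have := h (.y 0)
    rw [Tq_y0] at this
    exact MQ_x'_inj π _ ((smul_eq_zero.1 this).resolve_left (hs _))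
  -- the middle
  have h1 := h .one
  rw [Tq_one] at h1
  simp only [MQ_apply, ← mul_smul_comm] at h1
  obtain ⟨z, z1, z2, z3, z4⟩ := presL (lp π) (fun g => s g • Loc261.sc (lp π)
    (fun l => (lp π).chi l g) (U (lW g))) h1
  have ha : U (.yb 0) = 0 :=
    sc_inj π _ (fun g => hc g _) _ ((smul_eq_zero.1 z3).resolve_left (hs _))
  have hb : U (.yb 1) = 0 :=
    sc_inj π _ (fun g => hc g _) _ ((smul_eq_zero.1 z4).resolve_left (hs _))
  have u0 : U (.y 0) = (s .x)⁻¹ • π.p⁻¹ • (li (lp π) .x' * MQi π .x z) := by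
    have := sc_solve π _ (fun g => hc g _) _ (hs _) _ _ z1
    rw [map_mul, Loc261.sc_li, e4, smul_mul_assoc] at this
    exact this
  have u1 : U (.y 1) = (s .x')⁻¹ • (li (lp π) .x * MQi π .x' z) := by
    have := sc_solve π _ (fun g => hc g _) _ (hs _) _ _ z2
    rw [map_neg, map_smul, map_mul, Loc261.sc_li, e3, smul_mul_assoc, smul_smul, inv_inv] at this
    have e5 : (lp π).p⁻¹ * π.p = 1 := inv_mul_cancel₀ hp
    rw [e5, one_smul] at this
    have e6 : ∀ q : Q π, -q = q := fun q => by
      rw [neg_eq_iff_add_eq_zero, ← two_smul K, h2, zero_smul]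
    rw [e6] at this
    exact this
  obtain ⟨c, w, hw⟩ := Q_dec π (U .one)
  let v : Q π := ((s .x')⁻¹ * (s .x)⁻¹ * π.p⁻¹) • MQi π .x' (MQi π .x z)
  have hv' : MQ π .x' v = ((s .x')⁻¹ * (s .x)⁻¹ * π.p⁻¹) • (li (lp π) .x' * MQi π .x z) := by
    rw [map_smul, MQ_MQi]
  have hv : MQ π .x v = ((s .x')⁻¹ * (s .x)⁻¹ * π.p⁻¹) • (li (lp π) .x * MQi π .x' z) := by
    have : MQi π .x' (MQi π .x z) = MQi π .x (MQi π .x' z) := Loc261.sc_comm _ _ _ _
    show MQ π .x (_ • MQi π .x' (MQi π .x z)) = _
    rw [map_smul, this, MQ_MQi]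
  refine ⟨fun o => match o with
    | .one => 0
    | .y t => if t = 0 then (s .x)⁻¹ • MQi π .x (w .x) else (s .x')⁻¹ • MQi π .x' (w .x')
    | .yb t => if t = 0 then (s .a)⁻¹ • MQi π .a (w .a) else (s .b)⁻¹ • MQi π .b (w .b)
    | .pi => v, c, ?_⟩
  intro o
  cases o with
  | one =>
    rw [Tq_one, if_pos rfl, hw]
    simp only [if_true, one_ne_zero, if_false, map_smul, MQ_MQi, smul_smul]
    rw [mul_inv_cancel₀ (hs _), mul_inv_cancel₀ (hs _), mul_inv_cancel₀ (hs _),
      mul_inv_cancel₀ (hs _), one_smul, one_smul, one_smul, one_smul]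
    abel
  | y t =>
    rcases PBW128.fin2 t with rfl | rfl
    · rw [Tq_y0, if_neg (by simp), add_zero, u0, hv', smul_smul, smul_smul]
      congr 1
      have := hs .x'
      have := hs .x
      field_simp
    · rw [Tq_y1, if_neg (by simp), add_zero, u1, hv, smul_smul]
      congr 1
      have := hs .x'
      have := hs .x
      field_simp
  | yb t =>
    rw [Tq_yb, if_neg (by simp), add_zero]
    rcases PBW128.fin2 t with rfl | rfl
    · exact ha
    · exact hb
  | pi => rw [Tq_pi, if_neg (by simp), add_zero, hpi]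

/-! ### homogeneous version -/

/-- elements of degree `n` -/
def Qd (n : ℤ) : Submodule K (Q π) where
  carrier := {u | ∀ q : Bt π, (bq π).repr u q ≠ 0 → (qd q : ℤ) = n}
  add_mem' := by
    intro u v hu hv q hq
    rw [map_add, Finsupp.add_apply] at hq
    by_cases h : (bq π).repr u q = 0
    · rw [h, zero_add] at hq; exact hv q hq
    · exact hu q h
  zero_mem' := by intro q hq; simp at hq
  smul_mem' := by
    intro c u hu q hq
    rw [map_smul, Finsupp.smul_apply, smul_eq_mul] at hq
    exact hu q (right_ne_zero_of_mul hq)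

/-- projection to degree `n` -/
def prd (n : ℤ) : Q π →ₗ[K] Q π := (bq π).constr K (fun q => if (qd q : ℤ) = n then bq π q else 0)

theorem prd_bq (n : ℤ) (q : Bt π) : prd π n (bq π q) = if (qd q : ℤ) = n then bq π q else 0 := by
  rw [prd, Module.Basis.constr_basis]

theorem repr_prd (n : ℤ) (u : Q π) (q : Bt π) :
    (bq π).repr (prd π n u) q = if (qd q : ℤ) = n then (bq π).repr u q else 0 := by
  have : (Finsupp.lapply q) ∘ₗ (bq π).repr.toLinearMap ∘ₗ (prd π n) =
      (if (qd q : ℤ) = n then (1 : K) else 0) • ((Finsupp.lapply q) ∘ₗ (bq π).repr.toLinearMap) := by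
    apply (bq π).ext
    intro q'
    simp only [LinearMap.comp_apply, prd_bq, LinearMap.smul_apply, Finsupp.lapply_apply,
      LinearEquiv.coe_coe]
    by_cases h : q' = q
    · subst h
      split_ifs <;> simp
    · split_ifs <;> simp [Finsupp.single_apply, h]
  have h1 := LinearMap.congr_fun this u
  simp only [LinearMap.comp_apply, LinearMap.smul_apply, Finsupp.lapply_apply,
    LinearEquiv.coe_coe] at h1
  rw [h1]
  split_ifs <;> simp

theorem prd_mem (n : ℤ) (u : Q π) : prd π n u ∈ Qd π n := by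
  intro q hq
  rw [repr_prd] at hq
  by_contra h
  rw [if_neg h] at hq
  exact hq rfl

theorem prd_id {n : ℤ} {u : Q π} (hu : u ∈ Qd π n) : prd π n u = u := by
  apply (bq π).repr.injective
  ext q
  rw [repr_prd]
  split_ifs with h
  · rfl
  · by_contra h2
    exact h (hu q (Ne.symm h2))

theorem prd_ne {n m : ℤ} {u : Q π} (hu : u ∈ Qd π n) (h : n ≠ m) : prd π m u = 0 := by
  apply (bq π).repr.injective
  ext q
  rw [repr_prd, map_zero, Finsupp.zero_apply]
  split_ifs with h1
  · by_contra h2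
    exact h ((hu q h2).symm.trans h1)
  · rfl

theorem MQ_Qd (g : Lt) {n : ℤ} {u : Q π} (hu : u ∈ Qd π n) : MQ π g u ∈ Qd π (n + dg g) := by
  intro q hq
  by_contra h
  apply hq
  have h1 : MQ π g u = ∑ q' ∈ ((bq π).repr u).support, (bq π).repr u q' • MQ π g (bq π q') := by
    conv_lhs => rw [← (bq π).linearCombination_repr u, Finsupp.linearCombination_apply,
      Finsupp.sum, map_sum]
    exact Finset.sum_congr rfl fun q' _ => map_smul _ _ _
  rw [h1, map_sum, Finsupp.finsetSum_apply]
  apply Finset.sum_eq_zero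
  intro q' hq'
  rw [map_smul, Finsupp.smul_apply, smul_eq_mul]
  have h2 : (qd q' : ℤ) = n := hu q' (Finsupp.mem_support_iff.1 hq')
  have h3 : coef π q q' (MQ π g) = 0 := by
    apply HT_MQ π g
    rw [h2]
    exact h
  rw [coef_apply] at h3
  rw [h3, mul_zero]

theorem MQ_prd (g : Lt) (n : ℤ) (u : Q π) : MQ π g (prd π n u) = prd π (n + dg g) (MQ π g u) := by
  have : (MQ π g) ∘ₗ (prd π n) = (prd π (n + dg g)) ∘ₗ (MQ π g) := by
    apply (bq π).ext
    intro q
    rw [LinearMap.comp_apply, LinearMap.comp_apply, prd_bq]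
    have h1 : bq π q ∈ Qd π (qd q) := by
      intro q' h
      rw [Module.Basis.repr_self, Finsupp.single_apply] at h
      by_cases h2 : q = q'
      · rw [h2]
      · rw [if_neg h2] at h; exact absurd rfl h
    have h2 := MQ_Qd π g h1
    split_ifs with h
    · rw [prd_id π (by rwa [h] at h2)]
    · rw [map_zero, prd_ne π h2 (by omega)]
  exact LinearMap.congr_fun this u

/-- degree of a dual letter -/
theorem wC_dt (a : Y) (o : Wb) (h : SM890.dk π a o ≠ 0) :
    (wC (SM890.dt a o).word : ℤ) = wC o.word - a.toGen.dC := by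
  cases a with
  | y s =>
    cases o with
    | one => simp [SM890.dk] at h
    | y t =>
      simp only [SM890.dk, ne_eq, ite_eq_right_iff, one_ne_zero, imp_false, not_not] at h
      subst h
      simp [SM890.dt, PBW128.Wb.word, wC, PBW128.Y.toGen]
    | yb t => simp [SM890.dk] at h
    | pi =>
      rcases PBW128.fin2 s with rfl | rfl <;>
        simp [SM890.dt, PBW128.Wb.word, wC, PBW128.Y.toGen, Gen.dC]
  | yb s =>
    cases o with
    | one => simp [SM890.dk] at h
    | y t => simp [SM890.dk] at h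
    | yb t =>
      simp only [SM890.dk, ne_eq, ite_eq_right_iff, one_ne_zero, imp_false, not_not] at h
      subst h
      simp [SM890.dt, PBW128.Wb.word, wC, PBW128.Y.toGen]
    | pi => simp [SM890.dk] at h

theorem dg_dC (g : Lt) : (dg g : ℤ) = (lY g).toGen.dC + 1 := by cases g <;> rfl

theorem one_Qc : (1 : Q π) ∈ Qc (lp π) 0 := by
  have h := Loc261.wp_mem (lp π) []
  have h1 : Loc261.wp (lp π) [] = 1 := rfl
  rw [h1] at h
  exact h

theorem repr_one_ne {q : Bt π} (h : q.1 ≠ 0) : (bq π).repr 1 q = 0 := repr_ne π (one_Qc π) h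

theorem one_Qd : (1 : Q π) ∈ Qd π 0 := by
  intro q hq
  have h : q.1 = 0 := by
    by_contra h
    exact hq (repr_one_ne π h)
  simp [qd, h, md]

theorem Qd_one_ne {n : ℤ} (h : n ≠ 0) (c : K) : prd π n (c • (1 : Q π)) = 0 :=
  prd_ne π (Submodule.smul_mem _ _ (one_Qd π)) (Ne.symm h)

/-- **homogeneous version** -/
theorem exT_hom (s : Lt → K) (hs : ∀ g, s g ≠ 0) (m : ℤ) (U : Wb → Q π)
    (hU : ∀ o, U o ∈ Qd π (m - wC o.word)) (h : ∀ o, Tq π s U o = 0) :
    ∃ (V : Wb → Q π) (c : K), (∀ o, V o ∈ Qd π (m - 1 - wC o.word)) ∧ (m ≠ 0 → c = 0) ∧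
      ∀ o, U o = Tq π s V o + (if o = .one then c • (1 : Q π) else 0) := by
  obtain ⟨V, c, hV⟩ := exT π s hs U h
  have key : ∀ o, Tq π s (fun o => prd π (m - 1 - wC o.word) (V o)) o =
      prd π (m - wC o.word) (Tq π s V o) := by
    intro o
    simp only [Tq, map_sum, map_smul]
    refine Finset.sum_congr rfl fun g _ => Finset.sum_congr rfl fun o' _ => ?_
    split_ifs with h1
    · by_cases h2 : SM890.dk π (lY g) o' = 0
      · rw [h2, mul_zero, zero_smul, zero_smul]
      · have h3 := wC_dt π _ _ h2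
        rw [h1] at h3
        rw [MQ_prd, dg_dC]
        congr 3
        rw [h3]
        ring
    · rw [zero_smul, zero_smul]
  refine ⟨fun o => prd π (m - 1 - wC o.word) (V o), if m = 0 then c else 0,
    fun o => prd_mem π _ _, fun h => if_neg h, fun o => ?_⟩
  rw [key]
  have h1 := congrArg (prd π (m - wC o.word)) (hV o)
  rw [prd_id π (hU o), map_add] at h1
  rw [h1]
  congr 1
  by_cases ho : o = .one
  · subst ho
    rw [if_pos rfl, if_pos rfl]
    have h0 : (wC PBW128.Wb.one.word : ℤ) = 0 := rfl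
    rw [h0, sub_zero]
    by_cases hm : m = 0
    · subst hm
      rw [if_pos rfl, prd_id π (Submodule.smul_mem _ _ (one_Qd π))]
    · rw [if_neg hm, zero_smul, Qd_one_ne π hm]
  · rw [if_neg ho, if_neg ho, map_zero]

end Crest.Agent.R186.DKos457
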