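import Crest.Agent.R186.DKa_457
import Crest.Agent.R186.SM_890
import Crest.Agent.R186.C2b_44

/-!
# Row 186, half (A), leaf A.C2 (helper457), part 2: gradings and rows of `M`

`cR ν` = degree of the `R'`-part; `MP P A C` pieces of `M`; `FR k` = supported in `cR < k`;
`O1` = the `o_1`-row. Operators `repM r`, `dM` against these.
-/

set_option autoImplicit false

noncomputable section

namespace Crest.Agent.R186.DKos457

open Crest.Agent.R186.DefsQ830 Crest.Agent.R186.VQ735 Crest.Agent.R186.Cells221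
open Crest.Agent.R186.PBW128 (Wb Y E N Ix bv dPx dAx opX0 opX1 opH opL ext_bv A0 A1)
open Crest.Agent.R186.SM890 (repM oo dM opM opD dt dk nf1)
open Crest.Agent.R186.Loc261 (Lt li Q_ind Qc Qg Q2 prj)

variable {K : Type} [Field K]

/-- degree of the `R'`-part -/
def cR (ν : Ix) : ℕ := (ν.2.2.2.1.map (fun l => l.toGen.dC)).sum

/-- `dual` degree of `ν` -/
def eC (ν : Ix) : ℤ := (cR ν : ℤ) - wC ν.2.2.2.2.word

variable (K) in
/-- supported on a set -/
abbrev Sp (S : Set Ix) : Submodule K (N K) := Finsupp.supported K K S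

variable (K) in
/-- pieces of `M` (without the shift by `kappa`) -/
def MP (P A C : ℤ) : Submodule K (N K) := Sp K {ν | dPx ν = P ∧ (dAx ν : ℤ) = A ∧ eC ν = C}

variable (K) in
def FR (k : ℤ) : Submodule K (N K) := Sp K {ν | (cR ν : ℤ) ≤ k}

variable (K) in
def O1 : Submodule K (N K) := Sp K {ν | ν.2.2.2.2 = .one}

/-- exact pieces -/
def GS (P : ℤ) (A C : ℕ) (q : Wb) : Set Ix :=
  {ν | dPx ν = P ∧ dAx ν = A ∧ cR ν = C ∧ ν.2.2.2.2 = q}

theorem bv_mem {i j k : ℕ} {w : List E} {q : Wb} {S : Set Ix} (h : (i, j, k, w, q) ∈ S) :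
    bv K i j k w q ∈ Sp K S := Finsupp.single_mem_supported K _ h

theorem map_Sp {φ : N K →ₗ[K] N K} {S : Set Ix} {T : Submodule K (N K)}
    (h : ∀ i j k w q, (i, j, k, w, q) ∈ S → φ (bv K i j k w q) ∈ T) {n : N K} (hn : n ∈ Sp K S) :
    φ n ∈ T := by
  have h2 : Sp K S ≤ T.comap φ := by
    rw [Sp, Finsupp.supported_eq_span_single, Submodule.span_le]
    rintro _ ⟨⟨i, j, k, w, q⟩, h1, rfl⟩
    exact h i j k w q h1
  exact h2 hn

theorem X0_G {P : ℤ} {A C : ℕ} {q : Wb} {n : N K} (hn : n ∈ Sp K (GS P A C q)) :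
    opX0 K n ∈ Sp K (GS (P + 1) A C q) := by
  refine map_Sp ?_ hn
  rintro i j k w q' ⟨h1, h2, h3, h4⟩
  rw [PBW128.opX0_bv]
  refine bv_mem ⟨?_, ?_, ?_, h4⟩
  · rw [← h1]; simp only [dPx]; push_cast; ring
  · rw [← h2]; rfl
  · rw [← h3]; rfl

theorem X1_G {P : ℤ} {A C : ℕ} {q : Wb} {n : N K} (hn : n ∈ Sp K (GS P A C q)) :
    opX1 K n ∈ Sp K (GS (P + 1) A C q) := by
  refine map_Sp ?_ hn
  rintro i j k w q' ⟨h1, h2, h3, h4⟩
  rw [PBW128.opX1_bv]
  refine bv_mem ⟨?_, ?_, ?_, h4⟩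
  · rw [← h1]; simp only [dPx]; push_cast; ring
  · rw [← h2]; rfl
  · rw [← h3]; rfl

theorem H_G {P : ℤ} {A C : ℕ} {q : Wb} {n : N K} (hn : n ∈ Sp K (GS P A C q)) :
    opH K n ∈ Sp K (GS P (A + 1) C q) := by
  refine map_Sp ?_ hn
  rintro i j k w q' ⟨h1, h2, h3, h4⟩
  rw [PBW128.opH_bv]
  refine bv_mem ⟨?_, ?_, ?_, h4⟩
  · rw [← h1]; rfl
  · rw [← h2]; simp only [dAx]; ring
  · rw [← h3]; rfl

theorem A0_G (π : Par K) (k : ℕ) (w : List E) (q : Wb) (j : ℕ) (l : E) :
    A0 π k w q j l ∈ Sp K (GS (dPx (0, j, k, w, q) + l.toGen.dP) (dAx (0, j, k, w, q) + l.toGen.dA)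
      (cR (0, j, k, w, q) + l.toGen.dC) q) := by
  induction j generalizing l with
  | zero =>
    refine bv_mem ⟨?_, ?_, ?_, rfl⟩
    · simp only [dPx, List.map_cons, List.sum_cons]; push_cast; ring
    · simp only [dAx, List.map_cons, List.sum_cons]; ring
    · simp only [cR, List.map_cons, List.sum_cons]; ring
  | succ j ih =>
    refine Submodule.add_mem _ (Submodule.add_mem _ (Submodule.smul_mem _ _ ?_)
      (Submodule.smul_mem _ _ ?_)) ?_
    · have := X1_G (ih l)
      have e : dPx (0, j + 1, k, w, q) + l.toGen.dP = dPx (0, j, k, w, q) + l.toGen.dP + 1 := by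
        simp only [dPx]; push_cast; ring
      rw [e]
      exact this
    · have := X0_G (ih (PBW128.mt l))
      obtain ⟨e1, e2, e3⟩ := PBW128.deg_mt l
      rw [e1, e2, e3] at this
      have e : dPx (0, j + 1, k, w, q) + l.toGen.dP = dPx (0, j, k, w, q) + l.toGen.dP + 1 := by
        simp only [dPx]; push_cast; ring
      rw [e]
      exact this
    · by_cases h : PBW128.et π l = 0
      · rw [h, zero_smul]; exact Submodule.zero_mem _
      · obtain ⟨e1, e2, e3⟩ := PBW128.deg_et π l h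
        refine Submodule.smul_mem _ _ (bv_mem ⟨?_, ?_, ?_, rfl⟩)
        · rw [e1]; simp only [dPx]; push_cast; ring
        · rw [e2]; simp only [dAx]; ring
        · rw [e3]; simp only [cR]; ring

theorem A1_G (π : Par K) (k : ℕ) (w : List E) (q : Wb) (j i : ℕ) (l : E) :
    A1 π k w q j i l ∈ Sp K (GS (dPx (i, j, k, w, q) + l.toGen.dP)
      (dAx (i, j, k, w, q) + l.toGen.dA) (cR (i, j, k, w, q) + l.toGen.dC) q) := by
  induction i generalizing l with
  | zero => exact A0_G π k w q j l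
  | succ i ih =>
    refine Submodule.add_mem _ (Submodule.smul_mem _ _ ?_) ?_
    · have := X0_G (ih l)
      have e : dPx (i + 1, j, k, w, q) + l.toGen.dP = dPx (i, j, k, w, q) + l.toGen.dP + 1 := by
        simp only [dPx]; push_cast; ring
      rw [e]
      exact this
    · by_cases h : PBW128.th π l = 0
      · rw [h, zero_smul]; exact Submodule.zero_mem _
      · obtain ⟨e1, e2, e3⟩ := PBW128.deg_th π l h
        refine Submodule.smul_mem _ _ (bv_mem ⟨?_, ?_, ?_, rfl⟩)
        · rw [e1]; simp only [dPx]; push_cast; ring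
        · rw [e2]; simp only [dAx]; ring
        · rw [e3]; simp only [cR]; ring

theorem opM_E (π : Par K) (l : E) : ∀ i j k w q, opM π l.toGen (bv K i j k w q) ∈
    Sp K (GS (dPx (i, j, k, w, q) + l.toGen.dP) (dAx (i, j, k, w, q) + l.toGen.dA)
      (cR (i, j, k, w, q) + l.toGen.dC) q) := by
  intro i j k w q
  rw [SM890.opM_toGen, PBW128.opL_bv]
  exact A1_G π k w q j i l

/-- **a generator on a basis vector**: either exact, or a `W`-letter -/
theorem opM_cases (π : Par K) (a : Gen) :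
    (∀ i j k w q, opM π a (bv K i j k w q) ∈ Sp K (GS (dPx (i, j, k, w, q) + a.dP)
      (dAx (i, j, k, w, q) + a.dA) (cR (i, j, k, w, q) + a.dC) q)) ∨
    ∃ y : Y, a = y.toGen ∧ a.dP = 0 ∧ a.dA = 0 ∧ opM π a = opD π y := by
  cases a with
  | x i =>
    left
    intro i' j k w q
    rcases PBW128.fin2 i with rfl | rfl
    · show opX0 K (bv K i' j k w q) ∈ _
      exact X0_G (bv_mem ⟨rfl, rfl, rfl, rfl⟩)
    · show opX1 K (bv K i' j k w q) ∈ _
      exact X1_G (bv_mem ⟨rfl, rfl, rfl, rfl⟩)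
  | h =>
    left
    intro i' j k w q
    show opH K (bv K i' j k w q) ∈ _
    have := H_G (K := K) (bv_mem (S := GS (dPx (i', j, k, w, q)) (dAx (i', j, k, w, q))
      (cR (i', j, k, w, q)) q) (i := i') (j := j) (k := k) (w := w) (q := q) ⟨rfl, rfl, rfl, rfl⟩)
    simpa [Gen.dP, Gen.dA, Gen.dC] using this
  | y s => right; exact ⟨.y s, rfl, rfl, rfl, rfl⟩
  | yb s => right; exact ⟨.yb s, rfl, rfl, rfl, rfl⟩
  | d j' => exact Or.inl (opM_E π (.d j'))
  | f => exact Or.inl (opM_E π .f)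
  | z j' => exact Or.inl (opM_E π (.z j'))
  | zc => exact Or.inl (opM_E π .zc)
  | u s => exact Or.inl (opM_E π (.u s))
  | e j' => exact Or.inl (opM_E π (.e j'))
  | gj j' => exact Or.inl (opM_E π (.gj j'))
  | gc => exact Or.inl (opM_E π .gc)
  | v s => exact Or.inl (opM_E π (.v s))

/-- generator on pieces -/
theorem opM_MP (π : Par K) (a : Gen) {P A C : ℤ} {n : N K} (hn : n ∈ MP K P A C) :
    opM π a n ∈ MP K (P + a.dP) (A + a.dA) (C + a.dC) := by
  refine map_Sp ?_ hn
  rintro i j k w q ⟨h1, h2, h3⟩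
  rcases opM_cases π a with h | ⟨y, ha, hP, hA, h⟩
  · refine Finsupp.supported_mono ?_ (h i j k w q)
    rintro ν ⟨e1, e2, e3, e4⟩
    refine ⟨by rw [e1, h1], by rw [e2, ← h2]; push_cast; rfl, ?_⟩
    rw [← h3, eC, eC, e3, e4]
    push_cast
    ring
  · rw [h, SM890.opD_bv, hP, hA]
    by_cases hk : dk π y q = 0
    · rw [hk, mul_zero, zero_smul]; exact Submodule.zero_mem _
    · refine Submodule.smul_mem _ _ (bv_mem ⟨?_, ?_, ?_⟩)
      · rw [add_zero]; exact h1
      · simp only [Nat.cast_zero, add_zero]; exact h2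
      · have h4 := wC_dt π y q hk
        rw [← h3]
        show (cR (i, j, k, w, dt y q) : ℤ) - wC (dt y q).word = (cR (i, j, k, w, q) : ℤ) - wC q.word + a.dC
        rw [h4, ha]
        have : cR (i, j, k, w, dt y q) = cR (i, j, k, w, q) := rfl
        rw [this]
        ring

theorem opM_FR (π : Par K) (a : Gen) {m : ℤ} {n : N K} (hn : n ∈ FR K m) :
    opM π a n ∈ FR K (m + a.dC) := by
  refine map_Sp ?_ hn
  intro i j k w q h1
  have h1' : (cR (i, j, k, w, q) : ℤ) ≤ m := h1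
  rcases opM_cases π a with h | ⟨y, ha, hP, hA, h⟩
  · refine Finsupp.supported_mono ?_ (h i j k w q)
    rintro ν ⟨e1, e2, e3, e4⟩
    show (cR ν : ℤ) ≤ _
    rw [e3]
    push_cast
    linarith
  · rw [h, SM890.opD_bv]
    refine Submodule.smul_mem _ _ (bv_mem ?_)
    show (cR (i, j, k, w, dt y q) : ℤ) ≤ _
    have : cR (i, j, k, w, dt y q) = cR (i, j, k, w, q) := rfl
    rw [this]
    have : (0 : ℤ) ≤ a.dC := Int.natCast_nonneg _
    linarith

theorem opM_O1 (π : Par K) (a : Gen) {n : N K} (hn : n ∈ O1 K) : opM π a n ∈ O1 K := by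
  refine map_Sp ?_ hn
  intro i j k w q h1
  have h1' : q = .one := h1
  rcases opM_cases π a with h | ⟨y, ha, hP, hA, h⟩
  · refine Finsupp.supported_mono ?_ (h i j k w q)
    rintro ν ⟨e1, e2, e3, e4⟩
    exact e4.trans h1'
  · rw [h, SM890.opD_bv, h1']
    have : dk π y .one = 0 := by cases y <;> simp [dk]
    rw [this, mul_zero, zero_smul]
    exact Submodule.zero_mem _

theorem opD_O1 (π : Par K) (y : Y) {n : N K} (hn : n ∈ O1 K) : opD π y n = 0 := by
  have : opD π y n ∈ (⊥ : Submodule K (N K)) := by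
    refine map_Sp ?_ hn
    intro i j k w q h1
    have h1' : q = .one := h1
    rw [SM890.opD_bv, h1']
    have : dk π y .one = 0 := by cases y <;> simp [dk]
    rw [this, mul_zero, zero_smul]
    exact Submodule.zero_mem _
  exact this

/-- word induction -/
theorem repM_wd (π : Par K) (Φ : ℤ → ℤ → ℤ → Submodule K (N K))
    (h : ∀ a P A C n, n ∈ Φ P A C → opM π a n ∈ Φ (P + a.dP) (A + a.dA) (C + a.dC))
    (w : List Gen) {P A C : ℤ} {n : N K} (hn : n ∈ Φ P A C) :
    repM π (wd π w) n ∈ Φ (P + wP w) (A + wA w) (C + wC w) := by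
  induction w with
  | nil => simpa [wd, wP, wA, wC] using hn
  | cons a w ih =>
    have e : wd π (a :: w) = X π a * wd π w := by simp [wd]
    rw [e, map_mul, Module.End.mul_apply, SM890.repM_X]
    have := h a _ _ _ _ ih
    have e1 : P + wP (a :: w) = P + wP w + a.dP := by simp only [wP, List.map_cons, List.sum_cons]; ring
    have e2 : A + ((wA (a :: w) : ℕ) : ℤ) = A + wA w + a.dA := by
      simp only [wA, List.map_cons, List.sum_cons]; push_cast; ring
    have e3 : C + ((wC (a :: w) : ℕ) : ℤ) = C + wC w + a.dC := by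
      simp only [wC, List.map_cons, List.sum_cons]; push_cast; ring
    rw [e1, e2, e3]
    exact this

theorem repM_pz (π : Par K) (Φ : ℤ → ℤ → ℤ → Submodule K (N K))
    (h : ∀ a P A C n, n ∈ Φ P A C → opM π a n ∈ Φ (P + a.dP) (A + a.dA) (C + a.dC))
    {P A C P' A' C' : ℤ} {r : R π} (hr : r ∈ pz π P' A' C') {n : N K} (hn : n ∈ Φ P A C) :
    repM π r n ∈ Φ (P + P') (A + A') (C + C') := by
  induction hr using Submodule.span_induction with
  | mem a ha =>
    obtain ⟨w, h1, h2, h3, rfl⟩ := ha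
    rw [← h1, ← h2, ← h3]
    exact repM_wd π Φ h w hn
  | zero => rw [map_zero]; exact Submodule.zero_mem _
  | add x y _ _ hx hy => rw [map_add]; exact Submodule.add_mem _ hx hy
  | smul c x _ hx => rw [map_smul]; exact Submodule.smul_mem _ _ hx

theorem repM_MP (π : Par K) {P A C P' A' C' : ℤ} {r : R π} (hr : r ∈ pz π P' A' C') {n : N K}
    (hn : n ∈ MP K P A C) : repM π r n ∈ MP K (P + P') (A + A') (C + C') :=
  repM_pz π (MP K) (fun a _ _ _ _ h => opM_MP π a h) hr hn

theorem repM_FR (π : Par K) {P' A' C' m : ℤ} {r : R π} (hr : r ∈ pz π P' A' C') {n : N K}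
    (hn : n ∈ FR K m) : repM π r n ∈ FR K (m + C') :=
  repM_pz π (fun _ _ C => FR K C) (fun a _ _ _ _ h => opM_FR π a h) (P := 0) (A := 0) hr hn

theorem repM_O1 (π : Par K) (r : R π) {n : N K} (hn : n ∈ O1 K) : repM π r n ∈ O1 K := by
  induction r using PBW128.R_ind π generalizing n with
  | h1 c =>
    rw [AlgHom.commutes]
    exact Submodule.smul_mem _ c hn
  | h2 a => rw [SM890.repM_X]; exact opM_O1 π a hn
  | h3 a b ha hb =>
    rw [map_mul, Module.End.mul_apply]
    exact ha (hb hn)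
  | h4 a b ha hb => rw [map_add, LinearMap.add_apply]; exact Submodule.add_mem _ (ha hn) (hb hn)

theorem nf1_pz (π : Par K) (i j k : ℕ) (w : List E) :
    nf1 π i j k w ∈ pz π (dPx (i, j, k, w, .one)) (dAx (i, j, k, w, .one)) (cR (i, j, k, w, .one)) := by
  have h := pz_wd π (PBW128.nw (i, j, k, w, .one))
  rw [PBW128.wd_nw, PBW128.wP_nw, PBW128.wA_nw, PBW128.wC_nw] at h
  exact h

theorem oo_MP (q : Wb) : oo K q ∈ MP K 0 0 (-(wC q.word : ℤ)) := by
  refine bv_mem ⟨by simp [dPx], by simp [dAx], ?_⟩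
  simp [eC, cR]

theorem dM_MP (π : Par K) {P A C : ℤ} {n : N K} (hn : n ∈ MP K P A C) :
    dM π n ∈ MP K P A (C - 1) := by
  refine map_Sp ?_ hn
  rintro i j k w q ⟨h1, h2, h3⟩
  rw [SM890.dM_bv]
  have h := repM_MP π (D_pz π (nf1_pz π i j k w)) (oo_MP (K := K) q)
  rw [zero_add, zero_add] at h
  have e1 : dPx (i, j, k, w, .one) = P := h1
  have e2 : (dAx (i, j, k, w, .one) : ℤ) = A := h2
  have e3 : -(wC q.word : ℤ) + ((cR (i, j, k, w, .one) : ℤ) - 1) = C - 1 := by
    rw [← h3]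
    show _ = ((cR (i, j, k, w, q) : ℤ) - wC q.word) - 1
    have : cR (i, j, k, w, q) = cR (i, j, k, w, .one) := rfl
    rw [this]
    ring
  rw [e1, e2, e3] at h
  exact h

theorem dM_FR (π : Par K) {m : ℤ} {n : N K} (hn : n ∈ FR K m) : dM π n ∈ FR K (m - 1) := by
  refine map_Sp ?_ hn
  intro i j k w q h1
  have h1' : (cR (i, j, k, w, .one) : ℤ) ≤ m := h1
  rw [SM890.dM_bv]
  have h0 : oo K q ∈ FR K 0 := bv_mem (by show (cR (0, 0, 0, [], q) : ℤ) ≤ 0; simp [cR])
  have h := repM_FR π (D_pz π (nf1_pz π i j k w)) h0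
  refine Finsupp.supported_mono ?_ h
  intro ν hν
  have hν' : (cR ν : ℤ) ≤ 0 + ((cR (i, j, k, w, .one) : ℤ) - 1) := hν
  show (cR ν : ℤ) ≤ m - 1
  linarith

theorem dM_O1 (π : Par K) {n : N K} (hn : n ∈ O1 K) : dM π n ∈ O1 K := by
  refine map_Sp ?_ hn
  intro i j k w q h1
  have h1' : q = .one := h1
  subst h1'
  rw [SM890.dM_bv]
  exact repM_O1 π _ (bv_mem rfl)

/-- `kill` acts on the `o_1`-row as the identity -/
theorem repM_kill (π : Par K) (r : R π) {n : N K} (hn : n ∈ O1 K) :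
    repM π (C2b44.kill π r) n = repM π r n := by
  induction r using PBW128.R_ind π generalizing n with
  | h1 c => rw [AlgHom.commutes]
  | h2 a =>
    cases a with
    | y s => rw [C2b44.kill_y, map_zero, SM890.repM_X]; exact (opD_O1 π (.y s) hn).symm
    | yb s => rw [C2b44.kill_yb, map_zero, SM890.repM_X]; exact (opD_O1 π (.yb s) hn).symm
    | _ => simp
  | h3 a b ha hb =>
    rw [map_mul, map_mul, map_mul, Module.End.mul_apply, Module.End.mul_apply, hb hn,
      ha (repM_O1 π b hn)]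
  | h4 a b ha hb => rw [map_add, map_add, map_add, LinearMap.add_apply, LinearMap.add_apply, ha hn, hb hn]

end Crest.Agent.R186.DKos457
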