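import Crest.Agent.R186.DKb_457

/-!
# Row 186, half (A), leaf A.C2 (helper457), part 3: `(c2)` for all 16 cells at once

`dI φ` = the differential of `Hom_{L''}(X'', M)` on families `φ : Io π → M`, `X'' = Q ⊗_L KK` with the
cells `Io π`, `cI`, `FI` of Bas_735. `dI_top`: the part of `dI φ` which does not lower the degree of
the `R'`-factor is `θ`.
-/

set_option autoImplicit false

noncomputable section

namespace Crest.Agent.R186.DKos457

open Crest.Agent.R186.DefsQ830 Crest.Agent.R186.VQ735 Crest.Agent.R186.Cells221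
open Crest.Agent.R186.PBW128 (Wb Y E N Ix bv dPx dAx opX0 opX1 opH opL ext_bv A0 A1)
open Crest.Agent.R186.SM890 (repM oo dM opM opD dt dk nf1)
open Crest.Agent.R186.Loc261 (Lt li Q_ind Qc Qg Q2 prj)

variable {K : Type} [Field K] (π : Par K)

/-- the differential of `Hom_{L''}(X'', M)` -/
def dI (φ : Io π → N K) (σ : Io π) : N K :=
  dM π (φ σ) + ∑ τ ∈ FI π (sI σ), repM π (cI π σ τ) (φ τ)

/-- rows -/
abbrev Rw : Type := ℕ × ℕ × ℕ × List E

/-- index from row and dual letter -/
def ix (r : Rw) (o : Wb) : Ix := (r.1, r.2.1, r.2.2.1, r.2.2.2, o)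

/-- degree of a row -/
def cw (r : Rw) : ℕ := (r.2.2.2.map (fun l => l.toGen.dC)).sum

theorem cR_ix (r : Rw) (o : Wb) : cR (ix r o) = cw r := rfl

/-- characters of a row -/
def sr (r : Rw) (g : Lt) : K := PBW128.sc π (lY g) r.1 r.2.1 r.2.2.2

theorem sr_ne (r : Rw) (g : Lt) : sr π r g ≠ 0 := by
  unfold sr PBW128.sc
  refine mul_ne_zero (mul_ne_zero (pow_ne_zero _ (inv_ne_zero (c_ne π 0)))
    (pow_ne_zero _ (inv_ne_zero (c_ne π 1)))) ?_
  apply List.prod_ne_zero
  intro h
  obtain ⟨l, _, hl⟩ := List.mem_map.1 h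
  exact PBW128.chi_ne π _ _ hl

theorem opD_row (a : Y) (n : N K) (r : Rw) (o : Wb) : opD π a n (ix r o) =
    ∑ o', (if dt a o' = o then PBW128.sc π a r.1 r.2.1 r.2.2.2 * dk π a o' else 0) * n (ix r o') := by
  have h : (Finsupp.lapply (ix r o)) ∘ₗ (opD π a) = ∑ o' : Wb,
      (if dt a o' = o then PBW128.sc π a r.1 r.2.1 r.2.2.2 * dk π a o' else 0) •
        (Finsupp.lapply (R := K) (ix r o') : N K →ₗ[K] K) := by
    apply ext_bv
    intro i j k w q
    rw [LinearMap.comp_apply, SM890.opD_bv, LinearMap.sum_apply]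
    simp only [LinearMap.smul_apply, Finsupp.lapply_apply, map_smul, PBW128.bv_apply, smul_eq_mul]
    by_cases hr : r = (i, j, k, w)
    · subst hr
      rw [Finset.sum_eq_single q]
      · by_cases h1 : dt a q = o
        · simp [ix, h1]
        · simp [ix, h1]
      · intro o' _ ho'
        have h2 : ¬ ((i, j, k, w, q) = ix (i, j, k, w) o') := by
          simp [ix, Ne.symm ho']
        simp [h2]
      · intro h; exact absurd (Finset.mem_univ _) h
    · have : ∀ o' q', ¬ ((i, j, k, w, q') = ix r o') := by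
        intro o' q' h
        apply hr
        simp only [ix, Prod.mk.injEq] at h
        obtain ⟨h1, h2, h3, h4, _⟩ := h
        rw [h1, h2, h3, h4]
      simp [this]
  have := LinearMap.congr_fun h n
  rw [LinearMap.comp_apply, LinearMap.sum_apply] at this
  simp only [LinearMap.smul_apply, Finsupp.lapply_apply, smul_eq_mul] at this
  exact this

theorem cA_th (q q' : Bt π) : cA π q q' (th π) = ∑ g, coef π q q' (MQ π g) • yl π g := by
  simp only [th, map_sum, cA_tmul]

theorem repM_yl (g : Lt) (n : N K) : repM π (yl π g) n = opD π (lY g) n := by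
  rw [yl_lY, SM890.repM_Y]

/-- off-diagonal entries vanish unless the degree drops -/
theorem Cm_off {c c' : Cell} (h : c ≠ c') (h' : cdeg c ≤ cdeg c') : Cm π c c' = 0 := by
  rcases c with _ | l
  · rcases c' with _ | l'
    · exact absurd rfl h
    · rfl
  · rcases c' with _ | l'
    · exfalso
      rw [cdeg_some] at h'
      simp [cdeg] at h'
    · have hl : l ≠ l' := fun e => h (by rw [e])
      show Dl π (cf π l l') + (if l = l' then th π else 0) = 0
      rw [if_neg hl, add_zero]
      rcases cf_mem π l l' with h0 | ⟨A, C, hA, hC, h0⟩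
      · rw [h0, map_zero]
      · rw [cdeg_some, cdeg_some] at h'
        omega

theorem Cm_diag (c : Cell) : Cm π c c = th π := by
  rcases c with _ | l
  · rfl
  · show Dl π (cf π l l) + (if l = l then th π else 0) = th π
    rw [if_pos rfl]
    rcases cf_mem π l l with h0 | ⟨A, C, hA, hC, h0⟩
    · rw [h0, map_zero, zero_add]
    · omega

theorem repr_MQ (g : Lt) (u : Q π) (q : Bt π) : (bq π).repr (MQ π g u) q =
    ∑ q' ∈ Bq π (qd q), coef π q q' (MQ π g) * (bq π).repr u q' := by
  have h : (Finsupp.lapply q) ∘ₗ (bq π).repr.toLinearMap ∘ₗ (MQ π g) = ∑ q' ∈ Bq π (qd q),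
      coef π q q' (MQ π g) • ((Finsupp.lapply q') ∘ₗ (bq π).repr.toLinearMap) := by
    apply (bq π).ext
    intro q0
    rw [LinearMap.sum_apply]
    simp only [LinearMap.comp_apply, LinearMap.smul_apply, Finsupp.lapply_apply,
      LinearEquiv.coe_coe, Module.Basis.repr_self, smul_eq_mul]
    rw [← coef_apply]
    by_cases hq : q0 ∈ Bq π (qd q)
    · rw [Finset.sum_eq_single q0]
      · simp
      · intro q' _ h
        rw [Finsupp.single_apply, if_neg (Ne.symm h), mul_zero]
      · intro h; exact absurd hq h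
    · have h1 : coef π q q0 (MQ π g) = 0 := by
        apply HT_MQ π g
        rw [mem_Bq] at hq
        have := dg_pos g
        omega
      rw [h1]
      symm
      apply Finset.sum_eq_zero
      intro q' hq'
      rw [Finsupp.single_apply, if_neg, mul_zero]
      rintro rfl
      exact hq hq'
  have := LinearMap.congr_fun h u
  rw [LinearMap.sum_apply] at this
  simpa using this

/-- coordinates of `Tq` -/
theorem Tq_row (r : Rw) (U : Wb → Q π) (o : Wb) (q : Bt π) (ψ : Bt π → N K)
    (h : ∀ o' q', (bq π).repr (U o') q' = ψ q' (ix r o')) : (bq π).repr (Tq π (sr π r) U o) q =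
    ∑ q' ∈ Bq π (qd q), ∑ g, coef π q q' (MQ π g) * opD π (lY g) (ψ q') (ix r o) := by
  simp only [Tq, map_sum, map_smul, Finsupp.finsetSum_apply, Finsupp.smul_apply, repr_MQ, opD_row,
    smul_eq_mul, h, Finset.mul_sum]
  rw [Finset.sum_comm (s := Bq π (qd q))]
  refine Finset.sum_congr rfl fun g _ => ?_
  rw [Finset.sum_comm (s := Bq π (qd q))]
  refine Finset.sum_congr rfl fun o' _ => Finset.sum_congr rfl fun q' _ => ?_
  unfold sr
  ring

/-- **the leading part of `dI`** -/
theorem dI_top (ψ : Io π → N K) (c : Cell) (k : ℤ)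
    (hlow : ∀ c' q', cdeg c' < cdeg c → ψ (c', q') = 0) (hk : ∀ q', ψ (c, q') ∈ FR K k) (q : Bt π)
    (r : Rw) (o : Wb) (hr : k ≤ cw r) : dI π ψ (c, q) (ix r o) =
    ∑ q' ∈ Bq π (qd q), ∑ g, coef π q q' (MQ π g) * opD π (lY g) (ψ (c, q')) (ix r o) := by
  have h1 : dM π (ψ (c, q)) (ix r o) = 0 := by
    have h := dM_FR π (hk q)
    by_contra h0
    have h2 : (cR (ix r o) : ℤ) ≤ k - 1 := h (Finsupp.mem_support_iff.2 h0)
    rw [cR_ix] at h2
    omega
  have h2 : ∑ τ ∈ FI π (sI (c, q)), repM π (cI π (c, q) τ) (ψ τ) =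
      ∑ q' ∈ Bq π (qd q), ∑ g, coef π q q' (MQ π g) • opD π (lY g) (ψ (c, q')) := by
    rw [sum_FI π (c, q) _ (fun τ hτ => by rw [cI_zero π hτ, map_zero, LinearMap.zero_apply])]
    rw [Finset.sum_eq_single c]
    · have h3 : ∀ q', repM π (cI π (c, q) (c, q')) (ψ (c, q')) =
          ∑ g, coef π q q' (MQ π g) • opD π (lY g) (ψ (c, q')) := by
        intro q'
        show repM π (cA π q q' (Cm π c c)) (ψ (c, q')) = _
        rw [Cm_diag, cA_th, map_sum, LinearMap.sum_apply]
        refine Finset.sum_congr rfl fun g _ => ?_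
        rw [map_smul, LinearMap.smul_apply, repM_yl]
      rw [Finset.sum_congr rfl fun q' _ => h3 q']
      symm
      apply Finset.sum_subset
      · intro q' hq'
        rw [mem_Bq] at hq' ⊢
        unfold sI
        simp only
        omega
      · intro q' _ hq'
        apply Finset.sum_eq_zero
        intro g _
        have h4 : coef π q q' (MQ π g) = 0 := by
          apply HT_MQ π g
          rw [mem_Bq] at hq'
          have := dg_pos g
          omega
        rw [h4, zero_smul]
    · intro c' _ hc'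
      apply Finset.sum_eq_zero
      intro q' _
      by_cases h3 : cdeg c' < cdeg c
      · rw [hlow c' q' h3, map_zero]
      · show repM π (cA π q q' (Cm π c c')) (ψ (c', q')) = 0
        rw [Cm_off π (Ne.symm hc') (by omega), map_zero, map_zero, LinearMap.zero_apply]
    · intro h; exact absurd (Finset.mem_univ _) h
  show (dM π (ψ (c, q)) + ∑ τ ∈ FI π (sI (c, q)), repM π (cI π (c, q) τ) (ψ τ)) (ix r o) = _
  rw [Finsupp.add_apply, h1, zero_add, h2, Finsupp.finsetSum_apply]
  refine Finset.sum_congr rfl fun q' _ => ?_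
  rw [Finsupp.finsetSum_apply]
  refine Finset.sum_congr rfl fun g _ => ?_
  rw [Finsupp.smul_apply, smul_eq_mul]

/-! ### `dI` on homogeneous families, `dI ∘ dI = 0` -/

/-- homogeneous families -/
def Hom (P0 A0 C0 : ℤ) (φ : Io π → N K) : Prop :=
  ∀ σ, φ σ ∈ MP K (P0 + cP σ.1) (A0 + cAd σ.1) (C0 + sI σ)

theorem MP_cast {P A C P' A' C' : ℤ} {n : N K} (h : n ∈ MP K P A C) (h1 : P = P') (h2 : A = A')
    (h3 : C = C') : n ∈ MP K P' A' C' := by
  subst h1 h2 h3; exact h

theorem dI_hom {P0 A0 C0 : ℤ} {φ : Io π → N K} (h : Hom π P0 A0 C0 φ) :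
    Hom π P0 A0 (C0 - 1) (dI π φ) := by
  intro σ
  refine Submodule.add_mem _ (MP_cast (dM_MP π (h σ)) rfl rfl (by ring)) ?_
  refine Submodule.sum_mem _ fun τ _ => ?_
  exact MP_cast (repM_MP π (cI_pz π σ τ) (h τ)) (by ring) (by ring) (by ring)

theorem N_two (h2 : (2 : K) = 0) (n : N K) : n + n = 0 := by
  rw [← two_smul K, h2, zero_smul]

theorem dI_dI (φ : Io π → N K) (σ : Io π) : dI π (dI π φ) σ = 0 := by
  have e1 : ∀ τ ∈ FI π (sI σ), repM π (cI π σ τ) (dI π φ τ) = repM π (cI π σ τ) (dM π (φ τ)) +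
      ∑ ρ ∈ FI π (sI σ), repM π (cI π σ τ * cI π τ ρ) (φ ρ) := by
    intro τ hτ
    show repM π (cI π σ τ) (dM π (φ τ) + ∑ ρ ∈ FI π (sI τ), repM π (cI π τ ρ) (φ ρ)) = _
    rw [map_add, map_sum]
    congr 1
    rw [Finset.sum_subset (s₁ := FI π (sI τ)) (s₂ := FI π (sI σ))]
    · refine Finset.sum_congr rfl fun ρ _ => ?_
      rw [map_mul]; rfl
    · intro ρ hρ
      rw [mem_FI] at hρ hτ ⊢
      omega
    · intro ρ _ hρ
      rw [mem_FI] at hρ
      rw [cI_zero π (σ := τ) (τ := ρ) (by omega), map_zero, LinearMap.zero_apply, map_zero]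
  show dM π (dM π (φ σ) + ∑ τ ∈ FI π (sI σ), repM π (cI π σ τ) (φ τ)) +
    ∑ τ ∈ FI π (sI σ), repM π (cI π σ τ) (dI π φ τ) = 0
  rw [Finset.sum_congr rfl e1, map_add, SM890.dM_dM, zero_add, map_sum, Finset.sum_add_distrib,
    Finset.sum_congr rfl fun τ _ => SM890.dM_left π (cI π σ τ) (φ τ), Finset.sum_add_distrib,
    add_assoc, ← add_assoc (∑ τ ∈ FI π (sI σ), repM π (cI π σ τ) (dM π (φ τ))), N_two π.two, zero_add,
    Finset.sum_comm, ← Finset.sum_add_distrib]
  apply Finset.sum_eq_zero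
  intro ρ _
  have h := cI_mc π σ ρ
  have h2 := congrArg (fun r => repM π r (φ ρ)) h
  simp only [map_add, map_sum, LinearMap.add_apply, LinearMap.sum_apply, map_zero,
    LinearMap.zero_apply] at h2
  exact h2

end Crest.Agent.R186.DKos457
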