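import Crest.Agent.R186.DKc_457

/-!
# Row 186, half (A), leaf A.C2 (helper457), part 4: `(c2)`, assembly
-/

set_option autoImplicit false

noncomputable section

namespace Crest.Agent.R186.DKos457

open Crest.Agent.R186.DefsQ830 Crest.Agent.R186.VQ735 Crest.Agent.R186.Cells221
open Crest.Agent.R186.PBW128 (Wb Y E N Ix bv dPx dAx opX0 opX1 opH opL ext_bv A0 A1)
open Crest.Agent.R186.SM890 (repM oo dM opM opD dt dk nf1)
open Crest.Agent.R186.Loc261 (Lt li Q_ind Qc Qg Q2 prj)
open TensorProduct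

variable {K : Type} [Field K] (π : Par K)

/-- the augmentation `Q → L` in coordinates -/
def e1 (q : Bt π) : K := (bq π).repr 1 q

theorem e1_ne {q : Bt π} (h : q.1 ≠ 0) : e1 π q = 0 := repr_one_ne π h

theorem e1_qd {q : Bt π} (h : qd q ≠ 0) : e1 π q = 0 := by
  apply e1_ne
  intro h0
  apply h
  simp [qd, h0, md]

/-- the elements of degree `0` and the unit -/
theorem exists_e1 : ∃ q : Bt π, e1 π q ≠ 0 := by
  by_contra h
  push Not at h
  have h1 : (1 : Q π) = 0 := by
    apply (bq π).repr.injective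
    ext q
    rw [map_zero, Finsupp.zero_apply]
    exact h q
  have h2 : (0 : Q π) ≠ 1 := by
    intro h0
    have h3 := congrArg (Loc261.lft (lp π) (A := K) (fun _ => 0) (by simp)) h0
    rw [map_zero, map_one] at h3
    exact zero_ne_one h3
  exact h2 h1.symm

/-- matrix of `KK` -/
def kap : Cell → Cell → R π
  | none, _ => 0
  | some l, none => X π l.toGen
  | some l, some l' => cf π l l'

/-- value of an element of `R'' ⊗ End Q` at `1` -/
def V1 : A2 π →ₗ[K] (R π ⊗[K] Q π) := TensorProduct.map LinearMap.id (LinearMap.applyₗ (1 : Q π))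

theorem V1_tmul (r : R π) (T : Module.End K (Q π)) : V1 π (r ⊗ₜ T) = r ⊗ₜ T 1 := rfl

theorem V1_mul (a b : A2 π) (s : R π) (hb : V1 π b = s ⊗ₜ 1) :
    V1 π (a * b) = V1 π a * (s ⊗ₜ[K] (1 : Q π)) := by
  induction a using TensorProduct.induction_on with
  | zero => rw [zero_mul, map_zero, zero_mul]
  | add a a' ha ha' => rw [add_mul, map_add, map_add, ha, ha', add_mul]
  | tmul r T =>
    have h : ∀ b : A2 π, V1 π ((r ⊗ₜ T) * b) =
        TensorProduct.map (LinearMap.mulLeft K r) T (V1 π b) := by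
      intro b
      induction b using TensorProduct.induction_on with
      | zero => rw [mul_zero, map_zero, map_zero]
      | add b b' hb hb' => rw [mul_add, map_add, map_add, map_add, hb, hb']
      | tmul r' T' =>
        rw [Algebra.TensorProduct.tmul_mul_tmul, V1_tmul, V1_tmul, TensorProduct.map_tmul]
        rfl
    rw [h, hb, TensorProduct.map_tmul, V1_tmul, Algebra.TensorProduct.tmul_mul_tmul, mul_one]
    rfl

theorem SC_one' (s : Lt → K) : SC π s 1 = 1 := map_one (Loc261.sc (lp π) s)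

theorem EQ_one (g : Lt) : EQ π g 1 = 0 := by
  rw [EQ_apply, map_one, Loc261.D_one, smul_zero]

theorem V1_Dl (r : R π) : V1 π (Dl π r) = C2b44.kill π r ⊗ₜ 1 := by
  induction r using PBW128.R_ind π with
  | h1 c =>
    rw [AlgHom.commutes, AlgHom.commutes]
    rfl
  | h2 a =>
    rw [Dl_X]
    cases a <;> simp [dl, V1_tmul, scl, CH, SC_one', EQ_one]
  | h3 a b ha hb => rw [map_mul, V1_mul π _ _ _ hb, ha, map_mul, Algebra.TensorProduct.tmul_mul_tmul, mul_one]
  | h4 a b ha hb => rw [map_add, map_add, ha, hb, map_add, TensorProduct.add_tmul]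

theorem V1_th : V1 π (th π) = ∑ g, yl π g ⊗ₜ[K] li (lp π) g := by
  rw [th, map_sum]
  refine Finset.sum_congr rfl fun g _ => ?_
  rw [V1_tmul, MQ_apply, map_one, mul_one]

/-- coefficients -/
def cq (q : Bt π) : (R π ⊗[K] Q π) →ₗ[K] R π :=
  (TensorProduct.rid K (R π)).toLinearMap ∘ₗ
    TensorProduct.map LinearMap.id ((Finsupp.lapply q) ∘ₗ (bq π).repr.toLinearMap)

theorem cq_tmul (q : Bt π) (r : R π) (u : Q π) : cq π q (r ⊗ₜ u) = (bq π).repr u q • r := rfl

theorem sum_cA (q : Bt π) (m : ℕ) (a : A2 π) :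
    ∑ q' ∈ Bq π m, e1 π q' • cA π q q' a = cq π q (V1 π a) := by
  induction a using TensorProduct.induction_on with
  | zero => simp
  | add a a' ha ha' => simp only [map_add, smul_add, Finset.sum_add_distrib, ha, ha']
  | tmul r T =>
    simp only [cA_tmul, smul_smul]
    rw [← Finset.sum_smul, V1_tmul, cq_tmul]
    congr 1
    have h1 : (1 : Q π) = ∑ q' ∈ Bq π m, e1 π q' • bq π q' := by
      apply (bq π).repr.injective
      ext q'
      rw [map_sum, Finsupp.finsetSum_apply]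
      by_cases h : q' ∈ Bq π m
      · rw [Finset.sum_eq_single q']
        · rw [map_smul, Module.Basis.repr_self, Finsupp.smul_apply, Finsupp.single_eq_same,
            smul_eq_mul, mul_one]
          rfl
        · intro q'' _ h2
          rw [map_smul, Module.Basis.repr_self, Finsupp.smul_apply, Finsupp.single_apply,
            if_neg h2, smul_zero]
        · intro h2; exact absurd h h2
      · rw [Finset.sum_eq_zero]
        · rw [mem_Bq] at h
          exact e1_qd π (by omega)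
        · intro q'' h2
          rw [map_smul, Module.Basis.repr_self, Finsupp.smul_apply, Finsupp.single_apply, if_neg,
            smul_zero]
          rintro rfl
          exact h h2
    conv_rhs => rw [h1, map_sum, map_sum, Finsupp.finsetSum_apply]
    refine Finset.sum_congr rfl fun q' _ => ?_
    rw [map_smul, map_smul, Finsupp.smul_apply, coef_apply, smul_eq_mul]

/-- the differential of `Hom_L(KK, tL o_1)` -/
def dL (η : Cell → N K) (c : Cell) : N K := dM π (η c) + ∑ c', repM π (kap π c c') (η c')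

theorem dL_O1 {η : Cell → N K} (h : ∀ c, η c ∈ O1 K) (c : Cell) : dL π η c ∈ O1 K :=
  Submodule.add_mem _ (dM_O1 π (h c)) (Submodule.sum_mem _ fun c' _ => repM_O1 π _ (h c'))

theorem dI_e1 {η : Cell → N K} (h : ∀ c, η c ∈ O1 K) (σ : Io π) :
    dI π (fun τ => e1 π τ.2 • η τ.1) σ = e1 π σ.2 • dL π η σ.1 := by
  obtain ⟨c, q⟩ := σ
  have key : ∀ c', ∑ q' ∈ Bq π (sI (c, q)), repM π (cI π (c, q) (c', q')) (e1 π q' • η c') =
      e1 π q • repM π (kap π c c') (η c') := by
    intro c'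
    have h1 : ∑ q' ∈ Bq π (sI (c, q)), repM π (cI π (c, q) (c', q')) (e1 π q' • η c') =
        repM π (cq π q (V1 π (Cm π c c'))) (η c') := by
      rw [← sum_cA π q (sI (c, q)), map_sum, LinearMap.sum_apply]
      refine Finset.sum_congr rfl fun q' _ => ?_
      rw [map_smul, map_smul, LinearMap.smul_apply]
      rfl
    rw [h1]
    have h2 : repM π (cq π q (V1 π (th π))) (η c') = 0 := by
      rw [V1_th, map_sum, map_sum, LinearMap.sum_apply]
      apply Finset.sum_eq_zero
      intro g _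
      rw [cq_tmul, map_smul, LinearMap.smul_apply, repM_yl, opD_O1 π _ (h c'), smul_zero]
    have h3 : ∀ r, repM π (cq π q (V1 π (Dl π r))) (η c') = e1 π q • repM π r (η c') := by
      intro r
      rw [V1_Dl, cq_tmul, map_smul, LinearMap.smul_apply, repM_kill π r (h c')]
      rfl
    rcases c with _ | l
    · rcases c' with _ | l'
      · show repM π (cq π q (V1 π (th π))) (η none) = e1 π q • repM π 0 (η none)
        rw [h2, map_zero, LinearMap.zero_apply, smul_zero]
      · show repM π (cq π q (V1 π 0)) (η (some l')) = e1 π q • repM π 0 (η (some l'))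
        rw [map_zero, map_zero, map_zero, LinearMap.zero_apply, smul_zero]
    · rcases c' with _ | l'
      · exact h3 _
      · show repM π (cq π q (V1 π (Dl π (cf π l l') + (if l = l' then th π else 0)))) (η (some l')) =
          e1 π q • repM π (cf π l l') (η (some l'))
        rw [map_add, map_add, map_add, LinearMap.add_apply, h3]
        split_ifs
        · rw [h2, add_zero]
        · rw [map_zero, map_zero, map_zero, LinearMap.zero_apply, add_zero]
  show dM π (e1 π q • η c) + ∑ τ ∈ FI π (sI (c, q)), repM π (cI π (c, q) τ) (e1 π τ.2 • η τ.1) =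
    e1 π q • (dM π (η c) + ∑ c', repM π (kap π c c') (η c'))
  rw [sum_FI π (c, q) _ (fun τ hτ => by rw [cI_zero π hτ, map_zero, LinearMap.zero_apply])]
  rw [map_smul, smul_add, Finset.smul_sum]
  congr 1
  exact Finset.sum_congr rfl fun c' _ => key c'

/-! ### the induction -/

/-- filtered families -/
def Fil (j : ℕ) (k : ℤ) (φ : Io π → N K) : Prop :=
  ∀ σ : Io π, (cdeg σ.1 < j → φ σ = 0) ∧ (cdeg σ.1 = j → φ σ ∈ FR K k)

theorem dI_sub (φ ψ : Io π → N K) (σ : Io π) :
    dI π (fun τ => φ τ - ψ τ) σ = dI π φ σ - dI π ψ σ := by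
  simp only [dI, map_sub, Finset.sum_sub_distrib]
  abel

theorem dI_zero (σ : Io π) : dI π (fun _ => 0) σ = 0 := by
  simp only [dI, map_zero, Finset.sum_const_zero, add_zero]

/-- the value of a family on a row vanishes outside one degree -/
theorem hom_coord {P0 A0 C0 : ℤ} {φ : Io π → N K} (h : Hom π P0 A0 C0 φ) {c : Cell} {q : Bt π}
    {ν : Ix} (h0 : φ (c, q) ν ≠ 0) : dPx ν = P0 + cP c ∧ (dAx ν : ℤ) = A0 + cAd c ∧
      eC ν = C0 + ((cdeg c : ℤ) + qd q) := by
  have := h (c, q) (Finsupp.mem_support_iff.2 h0)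
  obtain ⟨h1, h2, h3⟩ := this
  refine ⟨h1, h2, ?_⟩
  rw [h3]
  simp only [sI]
  push_cast
  ring

/-- row of an index -/
def ro (ν : Ix) : Rw := (ν.1, ν.2.1, ν.2.2.1, ν.2.2.2.1)

/-- **killing the top row part on the cells of degree `j`** -/
theorem step {P0 A0 C0 : ℤ} {φ : Io π → N K} (hφ : Hom π P0 A0 C0 φ) {j : ℕ} {k : ℤ}
    (hF : Fil π j k φ) (ξ : Cell → N K) (hξ : ∀ σ, dI π φ σ = e1 π σ.2 • ξ σ.1) :
    ∃ (ψ : Io π → N K) (η : Cell → N K), Hom π P0 A0 (C0 + 1) ψ ∧
      (∀ c, η c ∈ O1 K ∧ η c ∈ MP K (P0 + cP c) (A0 + cAd c) (C0 + cdeg c)) ∧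
      Fil π j (k - 1) (fun σ => φ σ - dI π ψ σ - e1 π σ.2 • η σ.1) := by
  classical
  -- the row functions
  have hex : ∀ (c : Cell) (r : Rw), ∃ (V : Wb → Q π) (a : K),
      (∀ o, V o ∈ Qd π ((cw r : ℤ) - C0 - cdeg c - 1 - wC o.word)) ∧
      ((cw r : ℤ) - C0 - cdeg c ≠ 0 → a = 0) ∧
      ((∀ q o, φ (c, q) (ix r o) = 0) → (∀ o, V o = 0) ∧ a = 0) ∧
      (cdeg c = j → (cw r : ℤ) = k → ∀ q o, φ (c, q) (ix r o) =
        (bq π).repr (Tq π (sr π r) V o) q + if o = .one then a * e1 π q else 0) := by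
    intro c r
    by_cases hz : ∀ q o, φ (c, q) (ix r o) = 0
    · refine ⟨fun _ => 0, 0, fun o => Submodule.zero_mem _, fun _ => rfl, fun _ => ⟨fun _ => rfl, rfl⟩,
        fun _ _ q o => ?_⟩
      rw [hz]
      simp [Tq]
    by_cases hc : cdeg c = j ∧ (cw r : ℤ) = k
    swap
    · exact ⟨fun _ => 0, 0, fun o => Submodule.zero_mem _, fun _ => rfl,
        fun _ => ⟨fun _ => rfl, rfl⟩, fun h1 h2 => absurd ⟨h1, h2⟩ hc⟩
    obtain ⟨hcj, hrk⟩ := hc
    have hdeg : ∀ q o, φ (c, q) (ix r o) ≠ 0 → (qd q : ℤ) = (cw r : ℤ) - C0 - cdeg c - wC o.word := by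
      intro q o h
      have h1 := (hom_coord π hφ h).2.2
      have h2 : eC (ix r o) = (cw r : ℤ) - wC o.word := rfl
      rw [h2] at h1
      linarith
    let U : Wb → Q π := fun o => (bq π).repr.symm (Finsupp.onFinset
      (Bq π ((cw r : ℤ) - C0).toNat) (fun q => φ (c, q) (ix r o)) (by
        intro q h
        rw [mem_Bq]
        have h1 := hdeg q o h
        omega))
    have hU : ∀ o q, (bq π).repr (U o) q = φ (c, q) (ix r o) := by
      intro o q
      show (bq π).repr ((bq π).repr.symm _) q = _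
      rw [LinearEquiv.apply_symm_apply]
      rfl
    obtain ⟨V, a, hV1, hV2, hV3⟩ := exT_hom π (sr π r) (sr_ne π r) ((cw r : ℤ) - C0 - cdeg c) U (by
      intro o q hq
      rw [hU] at hq
      exact hdeg q o hq) (by
      intro o
      apply (bq π).repr.injective
      ext q
      rw [map_zero, Finsupp.zero_apply, Tq_row π r U o q (fun q' => φ (c, q')) hU]
      by_cases hq : q.1 = 0
      · apply Finset.sum_eq_zero
        intro q' _
        apply Finset.sum_eq_zero
        intro g _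
        rw [coef_MQ_ne π g, zero_mul]
        rw [hq]
        exact (Multiset.cons_ne_zero).symm
      · rw [← dI_top π φ c k (fun c' q' h => (hF (c', q')).1 (by rw [← hcj]; exact h))
          (fun q' => (hF (c, q')).2 hcj) q r o (le_of_eq hrk.symm), hξ]
        show (e1 π q • ξ c) (ix r o) = 0
        rw [e1_ne π hq, zero_smul]
        rfl)
    refine ⟨V, a, hV1, hV2, fun h => absurd h hz, fun _ _ q o => ?_⟩
    rw [← hU, hV3 o, map_add, Finsupp.add_apply]
    congr 1
    split_ifs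
    · rw [map_smul, Finsupp.smul_apply, smul_eq_mul]; rfl
    · rw [map_zero]; rfl
  choose V a hV ha hz hrow using hex
  -- rows which occur
  have hnz : ∀ c r, (∀ q o, φ (c, q) (ix r o) = 0) ∨ ∃ q o, φ (c, q) (ix r o) ≠ 0 := by
    intro c r
    by_cases h : ∀ q o, φ (c, q) (ix r o) = 0
    · exact Or.inl h
    · push Not at h
      exact Or.inr h
  let SS : Cell → Finset Ix := fun c => ((((Bq π (k - C0).toNat).biUnion
    (fun q => (φ (c, q)).support.image ro)) ×ˢ (Finset.univ : Finset Wb)).image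
      (fun p => ix p.1 p.2))
  have hSS : ∀ c (ν : Ix), (cw (ro ν) : ℤ) = k → (∃ q o, φ (c, q) (ix (ro ν) o) ≠ 0) → ν ∈ SS c := by
    intro c ν h1 ⟨q, o, h2⟩
    refine Finset.mem_image.2 ⟨(ro ν, ν.2.2.2.2), Finset.mem_product.2 ⟨?_, Finset.mem_univ _⟩, rfl⟩
    refine Finset.mem_biUnion.2 ⟨q, ?_, Finset.mem_image.2 ⟨ix (ro ν) o, Finsupp.mem_support_iff.2 h2,
      rfl⟩⟩
    rw [mem_Bq]
    have h3 := (hom_coord π hφ h2).2.2
    have h4 : eC (ix (ro ν) o) = (cw (ro ν) : ℤ) - wC o.word := rfl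
    rw [h4, h1] at h3
    omega
  let ψ : Io π → N K := fun σ => if h : cdeg σ.1 = j then Finsupp.onFinset (SS σ.1)
    (fun ν => if (cw (ro ν) : ℤ) = k then (bq π).repr (V σ.1 (ro ν) ν.2.2.2.2) σ.2 else 0) (by
      intro ν hν
      by_cases h1 : (cw (ro ν) : ℤ) = k
      · rw [if_pos h1] at hν
        rcases hnz σ.1 (ro ν) with h2 | h2
        · rw [(hz σ.1 (ro ν) h2).1, map_zero, Finsupp.zero_apply] at hν
          exact absurd rfl hν
        · exact hSS _ _ h1 h2
      · rw [if_neg h1] at hν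
        exact absurd rfl hν) else 0
  let η : Cell → N K := fun c => if h : cdeg c = j then Finsupp.onFinset (SS c)
    (fun ν => if (cw (ro ν) : ℤ) = k ∧ ν.2.2.2.2 = .one then a c (ro ν) else 0) (by
      intro ν hν
      by_cases h1 : (cw (ro ν) : ℤ) = k ∧ ν.2.2.2.2 = .one
      · rw [if_pos h1] at hν
        rcases hnz c (ro ν) with h2 | h2
        · exact absurd (hz c (ro ν) h2).2 hν
        · exact hSS _ _ h1.1 h2
      · rw [if_neg h1] at hν
        exact absurd rfl hν) else 0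
  have hψ0 : ∀ σ : Io π, cdeg σ.1 ≠ j → ψ σ = 0 := fun σ h => dif_neg h
  have hη0 : ∀ c, cdeg c ≠ j → η c = 0 := fun c h => dif_neg h
  have hψ1 : ∀ c q ν, cdeg c = j → ψ (c, q) ν =
      if (cw (ro ν) : ℤ) = k then (bq π).repr (V c (ro ν) ν.2.2.2.2) q else 0 := by
    intro c q ν h
    show (if h : cdeg c = j then _ else 0 : N K) ν = _
    rw [dif_pos h]
    rfl
  have hη1 : ∀ c ν, cdeg c = j → η c ν =
      if (cw (ro ν) : ℤ) = k ∧ ν.2.2.2.2 = .one then a c (ro ν) else 0 := by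
    intro c ν h
    show (if h : cdeg c = j then _ else 0 : N K) ν = _
    rw [dif_pos h]
    rfl
  have hdeg2 : ∀ c (ν : Ix), (∃ q o, φ (c, q) (ix (ro ν) o) ≠ 0) →
      dPx ν = P0 + cP c ∧ (dAx ν : ℤ) = A0 + cAd c := by
    rintro c ν ⟨q, o, h⟩
    have h1 := hom_coord π hφ h
    exact ⟨h1.1, h1.2.1⟩
  have hk : ∀ c q', cdeg c = j → ψ (c, q') ∈ FR K k := by
    intro c q' hc ν hν
    have h1 : ψ (c, q') ν ≠ 0 := Finsupp.mem_support_iff.1 hν
    rw [hψ1 c q' ν hc] at h1
    by_cases h2 : (cw (ro ν) : ℤ) = k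
    · exact le_of_eq h2
    · rw [if_neg h2] at h1
      exact absurd rfl h1
  refine ⟨ψ, η, ?_, ?_, ?_⟩
  · rintro ⟨c, q⟩ ν hν
    have h1 : ψ (c, q) ν ≠ 0 := Finsupp.mem_support_iff.1 hν
    by_cases hc : cdeg c = j
    · rw [hψ1 c q ν hc] at h1
      by_cases h2 : (cw (ro ν) : ℤ) = k
      · rw [if_pos h2] at h1
        have h3 : ∃ q o, φ (c, q) (ix (ro ν) o) ≠ 0 := by
          rcases hnz c (ro ν) with h3 | h3
          · rw [(hz c (ro ν) h3).1, map_zero, Finsupp.zero_apply] at h1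
            exact absurd rfl h1
          · exact h3
        obtain ⟨e1, e2⟩ := hdeg2 c ν h3
        refine ⟨e1, e2, ?_⟩
        have h4 := hV c (ro ν) ν.2.2.2.2 q h1
        have h5 : eC ν = (cw (ro ν) : ℤ) - wC ν.2.2.2.2.word := rfl
        rw [h5]
        simp only [sI]
        push_cast
        linarith
      · rw [if_neg h2] at h1
        exact absurd rfl h1
    · rw [hψ0 (c, q) hc] at h1
      exact absurd rfl h1
  · intro c
    by_cases hc : cdeg c = j
    swap
    · rw [hη0 c hc]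
      exact ⟨Submodule.zero_mem _, Submodule.zero_mem _⟩
    constructor
    · intro ν hν
      have h1 : η c ν ≠ 0 := Finsupp.mem_support_iff.1 hν
      rw [hη1 c ν hc] at h1
      by_cases h2 : (cw (ro ν) : ℤ) = k ∧ ν.2.2.2.2 = .one
      · exact h2.2
      · rw [if_neg h2] at h1
        exact absurd rfl h1
    · intro ν hν
      have h1 : η c ν ≠ 0 := Finsupp.mem_support_iff.1 hν
      rw [hη1 c ν hc] at h1
      by_cases h2 : (cw (ro ν) : ℤ) = k ∧ ν.2.2.2.2 = .one
      · rw [if_pos h2] at h1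
        have h3 : ∃ q o, φ (c, q) (ix (ro ν) o) ≠ 0 := by
          rcases hnz c (ro ν) with h3 | h3
          · exact absurd (hz c (ro ν) h3).2 h1
          · exact h3
        obtain ⟨e1, e2⟩ := hdeg2 c ν h3
        refine ⟨e1, e2, ?_⟩
        have h4 : (cw (ro ν) : ℤ) - C0 - cdeg c = 0 := by
          by_contra h5
          exact h1 (ha c (ro ν) h5)
        have h5 : eC ν = (cw (ro ν) : ℤ) - wC ν.2.2.2.2.word := rfl
        rw [h5, h2.2]
        have h6 : (wC PBW128.Wb.one.word : ℤ) = 0 := rfl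
        rw [h6]
        linarith
      · rw [if_neg h2] at h1
        exact absurd rfl h1
  · rintro ⟨c, q⟩
    constructor
    · intro hc
      have hc' : cdeg c < j := hc
      have h1 : φ (c, q) = 0 := (hF (c, q)).1 hc
      have h2 : η c = 0 := hη0 c (by omega)
      have h3 : dI π ψ (c, q) = 0 := by
        show dM π (ψ (c, q)) + ∑ τ ∈ FI π (sI (c, q)), repM π (cI π (c, q) τ) (ψ τ) = 0
        rw [hψ0 (c, q) (by show cdeg c ≠ j; omega), map_zero, zero_add]
        apply Finset.sum_eq_zero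
        rintro ⟨c', q'⟩ _
        by_cases h4 : cdeg c' = j
        · show repM π (cA π q q' (Cm π c c')) (ψ (c', q')) = 0
          rw [Cm_off π (by rintro rfl; omega) (by omega), map_zero, map_zero, LinearMap.zero_apply]
        · rw [hψ0 (c', q') h4, map_zero]
      show φ (c, q) - dI π ψ (c, q) - e1 π q • η c = 0
      rw [h1, h2, h3, smul_zero, sub_zero, sub_zero]
    · intro hc
      have hc' : cdeg c = j := hc
      intro ν hν
      have h0 : (φ (c, q) - dI π ψ (c, q) - e1 π q • η c) ν ≠ 0 := Finsupp.mem_support_iff.1 hν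
      show (cR ν : ℤ) ≤ k - 1
      by_contra hlt
      have hge : k ≤ (cw (ro ν) : ℤ) := by
        have : cR ν = cw (ro ν) := rfl
        rw [this] at hlt
        omega
      apply h0
      have h1 := dI_top π ψ c k (fun c' q' h => hψ0 (c', q') (by show cdeg c' ≠ j; omega))
        (fun q' => hk c q' hc') q (ro ν) ν.2.2.2.2 hge
      have hix : ix (ro ν) ν.2.2.2.2 = ν := rfl
      rw [hix] at h1
      rw [Finsupp.sub_apply, Finsupp.sub_apply, Finsupp.smul_apply, smul_eq_mul, h1, hη1 c ν hc']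
      by_cases h2 : (cw (ro ν) : ℤ) = k
      · have h3 := Tq_row π (ro ν) (V c (ro ν)) ν.2.2.2.2 q (fun q' => ψ (c, q')) (by
          intro o' q'
          rw [hψ1 c q' _ hc']
          have : ro (ix (ro ν) o') = ro ν := rfl
          rw [this, if_pos h2]
          rfl)
        rw [hix] at h3
        rw [← h3]
        have h4 := hrow c (ro ν) hc' h2 q ν.2.2.2.2
        rw [hix] at h4
        rw [h4]
        by_cases h5 : ν.2.2.2.2 = .one
        · rw [if_pos h5, if_pos ⟨h2, h5⟩]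
          ring
        · rw [if_neg h5, if_neg (fun h => h5 h.2)]
          ring
      · rw [if_neg (fun h => h2 h.1), mul_zero, sub_zero]
        have h3 : φ (c, q) ν = 0 := by
          by_contra h4
          have h5 : (cR ν : ℤ) ≤ k := (hF (c, q)).2 hc' (Finsupp.mem_support_iff.2 h4)
          have h6 : cR ν = cw (ro ν) := rfl
          rw [h6] at h5
          exact h2 (le_antisymm h5 hge)
        rw [h3, zero_sub, neg_eq_zero]
        apply Finset.sum_eq_zero
        intro q' _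
        apply Finset.sum_eq_zero
        intro g _
        have h4 : opD π (lY g) (ψ (c, q')) ν = 0 := by
          rw [← hix, opD_row]
          apply Finset.sum_eq_zero
          intro o' _
          rw [hψ1 c q' _ hc']
          have : ro (ix (ro ν) o') = ro ν := rfl
          rw [this, if_neg h2, mul_zero]
        rw [h4, mul_zero]

theorem dI_add (φ ψ : Io π → N K) (σ : Io π) :
    dI π (fun τ => φ τ + ψ τ) σ = dI π φ σ + dI π ψ σ := by
  simp only [dI, map_add, Finset.sum_add_distrib]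
  abel

theorem e1_hom {P0 A0 C0 : ℤ} {η : Cell → N K}
    (h : ∀ c, η c ∈ MP K (P0 + cP c) (A0 + cAd c) (C0 + cdeg c)) :
    Hom π P0 A0 C0 (fun σ => e1 π σ.2 • η σ.1) := by
  rintro ⟨c, q⟩
  by_cases h1 : e1 π q = 0
  · show e1 π q • η c ∈ _
    rw [h1, zero_smul]
    exact Submodule.zero_mem _
  · have h2 : qd q = 0 := by
      by_contra h2
      exact h1 (e1_qd π h2)
    refine Submodule.smul_mem _ _ (MP_cast (h c) rfl rfl ?_)
    simp [sI, h2]

theorem cdeg_le (c : Cell) : cdeg c < 6 := by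
  rcases c with _ | l
  · simp [cdeg]
  · rw [cdeg_some]
    cases l with
    | u s => have := s.isLt; simp only [PBW128.E.toGen, Gen.dC]; omega
    | v s => have := s.isLt; simp only [PBW128.E.toGen, Gen.dC]; omega
    | _ => simp [PBW128.E.toGen, Gen.dC]

theorem cAd_le (c : Cell) : cAd c ≤ 3 := by
  rcases c with _ | l
  · simp [cAd]
  · cases l with
    | u s => have := s.isLt; simp only [cAd, PBW128.E.toGen, Gen.dA]; omega
    | v s => have := s.isLt; simp only [cAd, PBW128.E.toGen, Gen.dA]; omega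
    | _ => simp [cAd, PBW128.E.toGen, Gen.dA]

theorem cR_le (ν : Ix) : cR ν ≤ 2 * dAx ν := by
  have h : ∀ w : List E, (w.map (fun l => l.toGen.dC)).sum ≤ 2 * (w.map (fun l => l.toGen.dA)).sum := by
    intro w
    induction w with
    | nil => simp
    | cons l w ih =>
      simp only [List.map_cons, List.sum_cons]
      have h1 : l.toGen.dC ≤ 2 * l.toGen.dA := by
        cases l with
        | u s => simp only [PBW128.E.toGen, Gen.dC, Gen.dA]; omega
        | v s => simp only [PBW128.E.toGen, Gen.dC, Gen.dA]; omega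
        | _ => simp [PBW128.E.toGen, Gen.dC, Gen.dA]
      omega
  have := h ν.2.2.2.1
  unfold cR dAx
  omega

theorem FR_mono {a b : ℤ} (h : a ≤ b) : FR K a ≤ FR K b :=
  Finsupp.supported_mono fun _ hν => le_trans hν h

theorem FR_neg {a : ℤ} (h : a < 0) {n : N K} (hn : n ∈ FR K a) : n = 0 := by
  ext ν
  rw [Finsupp.zero_apply]
  by_contra h1
  have h2 : (cR ν : ℤ) ≤ a := hn (Finsupp.mem_support_iff.2 h1)
  have h3 : (0 : ℤ) ≤ cR ν := Int.natCast_nonneg _
  omega

theorem hom_FR {P0 A0 C0 : ℤ} {φ : Io π → N K} (h : Hom π P0 A0 C0 φ) (σ : Io π) :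
    φ σ ∈ FR K (2 * (A0 + 3)) := by
  intro ν hν
  obtain ⟨_, h2, _⟩ := h σ hν
  show (cR ν : ℤ) ≤ _
  have h3 := cR_le ν
  have h4 := cAd_le σ.1
  omega

/-- **acyclicity of the cone of `η ↦ e1 • η`** -/
theorem acyc {P0 A0 C0 : ℤ} {φ : Io π → N K} (hφ : Hom π P0 A0 C0 φ) (ξ : Cell → N K)
    (hξ1 : ∀ c, ξ c ∈ O1 K) (hξ : ∀ σ, dI π φ σ = e1 π σ.2 • ξ σ.1) :
    ∃ (ψ : Io π → N K) (η : Cell → N K), Hom π P0 A0 (C0 + 1) ψ ∧
      (∀ c, η c ∈ O1 K ∧ η c ∈ MP K (P0 + cP c) (A0 + cAd c) (C0 + cdeg c)) ∧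
      ∀ σ, φ σ = dI π ψ σ + e1 π σ.2 • η σ.1 := by
  have main : ∀ n j : ℕ, j + n = 6 → ∀ (k : ℕ) (φ : Io π → N K) (ξ : Cell → N K),
      Hom π P0 A0 C0 φ → Fil π j ((k : ℤ) - 1) φ → (∀ c, ξ c ∈ O1 K) →
      (∀ σ, dI π φ σ = e1 π σ.2 • ξ σ.1) →
      ∃ (ψ : Io π → N K) (η : Cell → N K), Hom π P0 A0 (C0 + 1) ψ ∧
        (∀ c, η c ∈ O1 K ∧ η c ∈ MP K (P0 + cP c) (A0 + cAd c) (C0 + cdeg c)) ∧
        ∀ σ, φ σ = dI π ψ σ + e1 π σ.2 • η σ.1 := by
    intro n
    induction n with
    | zero =>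
      intro j hj k φ ξ hφ hF hξ1 hξ
      refine ⟨fun _ => 0, fun _ => 0, fun σ => Submodule.zero_mem _,
        fun c => ⟨Submodule.zero_mem _, Submodule.zero_mem _⟩, fun σ => ?_⟩
      rw [dI_zero, smul_zero, add_zero]
      exact (hF σ).1 (by have := cdeg_le σ.1; omega)
    | succ n ihn =>
      intro j hj k
      induction k with
      | zero =>
        intro φ ξ hφ hF hξ1 hξ
        refine ihn (j + 1) (by omega) ((2 * (A0 + 3) + 1).toNat) φ ξ hφ ?_ hξ1 hξ
        intro σ
        constructor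
        · intro h
          by_cases h1 : cdeg σ.1 < j
          · exact (hF σ).1 h1
          · exact FR_neg (by simp) ((hF σ).2 (by omega))
        · intro _
          exact FR_mono (by omega) (hom_FR π hφ σ)
      | succ k ihk =>
        intro φ ξ hφ hF hξ1 hξ
        obtain ⟨ψ1, η1, h1, h2, h3⟩ := step π hφ hF ξ hξ
        have hH : Hom π P0 A0 C0 (fun σ => φ σ - dI π ψ1 σ - e1 π σ.2 • η1 σ.1) := by
          intro σ
          refine Submodule.sub_mem _ (Submodule.sub_mem _ (hφ σ) ?_) ?_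
          · exact MP_cast (dI_hom π h1 σ) rfl rfl (by ring)
          · exact e1_hom π (fun c => (h2 c).2) σ
        obtain ⟨ψ2, η2, g1, g2, g3⟩ := ihk _ (fun c => ξ c - dL π η1 c) hH (by
          have e : (((k + 1 : ℕ) : ℤ) - 1 - 1) = (k : ℤ) - 1 := by push_cast; ring
          rw [e] at h3
          exact h3) (fun c => Submodule.sub_mem _ (hξ1 c) (dL_O1 π (fun c => (h2 c).1) c)) (by
          intro σ
          have e1' := dI_sub π (fun σ => φ σ - dI π ψ1 σ) (fun σ => e1 π σ.2 • η1 σ.1) σ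
          have e2' := dI_sub π φ (dI π ψ1) σ
          rw [e1', e2', hξ, dI_dI, sub_zero, dI_e1 π (fun c => (h2 c).1), smul_sub])
        refine ⟨fun σ => ψ1 σ + ψ2 σ, fun c => η1 c + η2 c, fun σ => Submodule.add_mem _ (h1 σ) (g1 σ),
          fun c => ⟨Submodule.add_mem _ (h2 c).1 (g2 c).1, Submodule.add_mem _ (h2 c).2 (g2 c).2⟩,
          fun σ => ?_⟩
        have h5 := g3 σ
        rw [dI_add, smul_add]
        have h6 : φ σ = (dI π ψ2 σ + e1 π σ.2 • η2 σ.1) + dI π ψ1 σ + e1 π σ.2 • η1 σ.1 := by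
          rw [← h5]
          abel
        rw [h6]
        abel
  refine main 6 0 rfl ((2 * (A0 + 3) + 1).toNat) φ ξ hφ ?_ hξ1 hξ
  intro σ
  exact ⟨fun h => absurd h (Nat.not_lt_zero _), fun _ => FR_mono (by omega) (hom_FR π hφ σ)⟩

/-- `e1` separates -/
theorem e1_cancel {x y : N K} (h : ∀ q : Bt π, e1 π q • x = e1 π q • y) : x = y := by
  obtain ⟨q, hq⟩ := exists_e1 π
  have h1 := congrArg (fun z => (e1 π q)⁻¹ • z) (h q)
  simp only [smul_smul, inv_mul_cancel₀ hq, one_smul] at h1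
  exact h1

/-- **(s)**: cocycles of `Hom(X'', M)` come from `Hom(KK, tL o_1)` -/
theorem c2_surj {P0 A0 C0 : ℤ} {φ : Io π → N K} (hφ : Hom π P0 A0 C0 φ)
    (hd : ∀ σ, dI π φ σ = 0) :
    ∃ (ψ : Io π → N K) (η : Cell → N K), Hom π P0 A0 (C0 + 1) ψ ∧
      (∀ c, η c ∈ O1 K ∧ η c ∈ MP K (P0 + cP c) (A0 + cAd c) (C0 + cdeg c)) ∧
      (∀ c, dL π η c = 0) ∧ ∀ σ, φ σ = dI π ψ σ + e1 π σ.2 • η σ.1 := by
  obtain ⟨ψ, η, h1, h2, h3⟩ := acyc π hφ (fun _ => 0) (fun _ => Submodule.zero_mem _)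
    (fun σ => by rw [hd, smul_zero])
  refine ⟨ψ, η, h1, h2, fun c => ?_, h3⟩
  apply e1_cancel π
  intro q
  have h4 := dI_e1 π (fun c => (h2 c).1) (c, q)
  have h5 : (fun σ => e1 π σ.2 • η σ.1) = fun σ => φ σ - dI π ψ σ := by
    funext σ
    rw [h3 σ, add_sub_cancel_left]
  rw [h5, dI_sub, hd] at h4
  have h6 : dI π (fun τ => dI π ψ τ) (c, q) = 0 := dI_dI π ψ (c, q)
  rw [h6, sub_zero] at h4
  rw [smul_zero]
  exact h4.symm

/-- **(t)**: coboundaries in `Hom(X'', M)` of elements of `Hom(KK, tL o_1)` -/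
theorem c2_inj {P0 A0 C0 : ℤ} {φ : Io π → N K} (hφ : Hom π P0 A0 C0 φ) (ξ : Cell → N K)
    (hξ1 : ∀ c, ξ c ∈ O1 K) (hξ : ∀ σ, e1 π σ.2 • ξ σ.1 = dI π φ σ) :
    ∃ η : Cell → N K, (∀ c, η c ∈ O1 K ∧ η c ∈ MP K (P0 + cP c) (A0 + cAd c) (C0 + cdeg c)) ∧
      ∀ c, ξ c = dL π η c := by
  obtain ⟨ψ, η, h1, h2, h3⟩ := acyc π hφ ξ hξ1 (fun σ => (hξ σ).symm)
  refine ⟨η, h2, fun c => e1_cancel π fun q => ?_⟩
  rw [hξ (c, q), ← dI_e1 π (fun c => (h2 c).1) (c, q)]
  have h5 : φ = fun σ => dI π ψ σ + e1 π σ.2 • η σ.1 := funext h3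
  rw [h5, dI_add]
  have h6 : dI π (fun τ => dI π ψ τ) (c, q) = 0 := dI_dI π ψ (c, q)
  rw [h6, zero_add]

end Crest.Agent.R186.DKos457
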