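import Crest.Agent.R186.DKe_457
import Crest.Agent.R186.C2W_735

/-!
# Row 186, half (A), leaf A.C2 (helper457), part 6: `(c2)` in 735's literal `C2W735.Cone`
-/

set_option autoImplicit false

noncomputable section

namespace Crest.Agent.R186.DKos457

open Crest.Agent.R186.DefsQ830 Crest.Agent.R186.VQ735 Crest.Agent.R186.Cells221

variable {K : Type} [Field K] (π : Par K)

theorem kap_eq (c c' : Cell) : kap π c c' = C2b44.c0 π c c' := by
  rcases c with _ | l <;> rcases c' with _ | l' <;> rfl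

/-- **`(c2)`** -/
theorem cone (s : ℕ) : C2W735.Cone π s := by
  intro P0 A0 p η φ hη hφ _ h
  obtain ⟨η', φ', h1, h2, h3, h4⟩ := c2_cone π s P0 A0 p η φ (fun c => (hη c).2) hφ h
  refine ⟨η', φ', h1, h2, fun c => ?_, fun σ => ?_⟩
  · rw [h3 c]
    show C2b44.kill π (Der580.D π (η' c) + ∑ c', kap π c c' * η' c') =
      C2b44.kill π (Der580.D π (η' c) + ∑ c', C2b44.c0 π c c' * η' c')
    simp only [kap_eq]
  · rw [h4 σ, add_comm]
    rfl

end Crest.Agent.R186.DKos457
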