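import Crest.Agent.R186.W281_870

/-!
Row 186, S0281 base, leaf B281.M2 (helper291, second of 187): the fields `one`, `hi`, `hs` of
`LinkB328.Side`: `Hom_A(A e₀, W) = K ε`, and restriction along right multiplication by
`h² = E₂₀` is a bijection `Hom_A(A e₀, W) → Hom_A(A e₂, W)`.  Both `s`.
-/

set_option autoImplicit false

open Matrix

namespace Crest.Agent.R186.B281.M2

variable {K : Type} [Field K] {g : K} {s : ℤ}

/-- the unit vectors of `W` -/
noncomputable def wv (g : K) (s : ℤ) (i : Fin 7) : W g s := (Pi.single i 1 : Fin 7 → K)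

/-- the unit matrix `E_ij`, as an element of the dual numbers -/
noncomputable def um (K : Type) [Field K] (i j : Fin 7) : DualNumber (Mat K) :=
  TrivSqZeroExt.inl (Matrix.single i j (1 : Op K))

theorem um_fst (i j : Fin 7) : (um K i j).fst = Matrix.single i j (1 : Op K) := rfl

theorem um_snd (i j : Fin 7) : (um K i j).snd = 0 := rfl

theorem vecMul_um (v : Fin 7 → Op K) (i j : Fin 7) :
    v ᵥ* (Matrix.single i j (1 : Op K)) = Pi.single j (v i) := by
  funext l
  rw [Matrix.vecMul, dotProduct]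
  rw [Finset.sum_eq_single i]
  · by_cases h : j = l
    · subst h
      rw [Matrix.single_apply_same, mul_one, Pi.single_eq_same]
    · rw [Matrix.single_apply_of_col_ne _ _ h, mul_zero, Pi.single_eq_of_ne (Ne.symm h)]
  · intro b _ hb
    rw [Matrix.single_apply_of_row_ne (Ne.symm hb), mul_zero]
  · intro h
    exact absurd (Finset.mem_univ i) h

theorem lat_single {k P : ℤ} {T : Op K} (j : Fin 7) (hj : j = 0 ∨ j = 1 ∨ j = 2)
    (h0 : j = 0 → T ∈ Fil g k P) (h1 : j = 1 → T ∈ Fil g (k - 1) P)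
    (h2 : j = 2 → T ∈ Fil g (k - 2) P) : (Pi.single j T : Fin 7 → Op K) ∈ Lat g s k P := by
  have z : ∀ l : Fin 7, l ≠ j → (Pi.single j T : Fin 7 → Op K) l = 0 := fun l hl =>
    Pi.single_eq_of_ne hl _
  have y : (Pi.single j T : Fin 7 → Op K) j = T := Pi.single_eq_same _ _
  have n3 : (3 : Fin 7) ≠ j := by rcases hj with rfl | rfl | rfl <;> decide
  have n4 : (4 : Fin 7) ≠ j := by rcases hj with rfl | rfl | rfl <;> decide
  have n5 : (5 : Fin 7) ≠ j := by rcases hj with rfl | rfl | rfl <;> decide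
  have n6 : (6 : Fin 7) ≠ j := by rcases hj with rfl | rfl | rfl <;> decide
  refine ⟨?_, ?_, ?_, ⟨?_, ?_, ?_⟩, ?_, ?_, ?_⟩
  · by_cases h : (0 : Fin 7) = j
    · subst h; rw [y]; exact h0 rfl
    · rw [z _ h]; exact zero_mem _
  · by_cases h : (1 : Fin 7) = j
    · subst h; rw [y]; exact h1 rfl
    · rw [z _ h]; exact zero_mem _
  · by_cases h : (2 : Fin 7) = j
    · subst h; rw [y]; exact h2 rfl
    · rw [z _ h]; exact zero_mem _
  · rw [z _ n3]; exact zero_mem _
  · rw [z _ n4]; exact zero_mem _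
  · rw [z _ n3, z _ n4, zero_mul, zero_mul, add_zero]; exact zero_mem _
  · rw [z _ n5]; exact zero_mem _
  · rw [z _ n6]; exact zero_mem _
  · rw [z _ n5, z _ n6, zero_mul, zero_mul, add_zero]; exact zero_mem _

theorem um00 : um K 0 0 ∈ A g s := by
  refine ⟨fun k P v hv => ?_, Pres.zero g s 1⟩
  rw [um_fst, vecMul_um, add_zero]
  exact lat_single 0 (Or.inl rfl) (fun _ => hv.1) (fun h => absurd h (by decide))
    (fun h => absurd h (by decide))

theorem um22 : um K 2 2 ∈ A g s := by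
  refine ⟨fun k P v hv => ?_, Pres.zero g s 1⟩
  rw [um_fst, vecMul_um, add_zero]
  exact lat_single 2 (Or.inr (Or.inr rfl)) (fun h => absurd h (by decide))
    (fun h => absurd h (by decide)) (fun _ => hv.2.2.1)

theorem um20 : um K 2 0 ∈ A g s := by
  refine ⟨fun k P v hv => ?_, Pres.zero g s 1⟩
  rw [um_fst, vecMul_um, add_zero]
  exact lat_single 0 (Or.inl rfl) (fun _ => Fil_mono g (by omega) hv.2.2.1)
    (fun h => absurd h (by decide)) (fun h => absurd h (by decide))

/-- action of a unit matrix on `W` -/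
theorem um_smul (e : A g s) (i j : Fin 7) (he : e.1.fst = Matrix.single i j (1 : Op K))
    (w : W g s) : e • w = (w j : K) • wv g s i := by
  funext l
  show ∑ m, res (e.1.fst l m) * w m = w j * (Pi.single i (1 : K) : Fin 7 → K) l
  rw [he, Finset.sum_eq_single j]
  · by_cases h : i = l
    · subst h
      rw [Matrix.single_apply_same, res_one, one_mul, Pi.single_eq_same, mul_one]
    · rw [Matrix.single_apply_of_row_ne h, res_zero, zero_mul,
        Pi.single_eq_of_ne (Ne.symm h), mul_zero]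
  · intro b _ hb
    rw [Matrix.single_apply_of_col_ne _ _ (Ne.symm hb), res_zero, zero_mul]
  · intro h
    exact absurd (Finset.mem_univ j) h

section fields

variable {e0 e2 u : A g s} (h0 : e0.1.fst = Matrix.single 0 0 (1 : Op K))
  (h2 : e2.1.fst = Matrix.single 2 2 (1 : Op K)) (hu : u.1.fst = Matrix.single 2 0 (1 : Op K))
  (P0 P3 : Submodule (A g s) (A g s)) (hP0 : ∀ x, x ∈ P0 ↔ x * e0 = x)
  (hP3 : ∀ x, x ∈ P3 ↔ x * e2 = x)

/-- a linear map out of `A e` is determined by its value at `e` -/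
theorem hom_eq {e : A g s} {P : Submodule (A g s) (A g s)} (hP : ∀ x, x ∈ P ↔ x * e = x)
    (hee : e * e = e) (φ : P →ₗ[A g s] W g s) (x : P) :
    φ x = (x : A g s) • φ ⟨e, (hP e).2 hee⟩ := by
  rw [← map_smul]
  congr 1
  apply Subtype.ext
  exact ((hP _).1 x.2).symm

theorem val_eq {e : A g s} {i : Fin 7} (he : e.1.fst = Matrix.single i i (1 : Op K))
    {P : Submodule (A g s) (A g s)} (hP : ∀ x, x ∈ P ↔ x * e = x)
    (hee : e * e = e) (φ : P →ₗ[A g s] W g s) :
    ∃ c : K, φ ⟨e, (hP e).2 hee⟩ = c • wv g s i := by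
  refine ⟨(φ ⟨e, (hP e).2 hee⟩ : W g s) i, ?_⟩
  have h1 := hom_eq hP hee φ ⟨e, (hP e).2 hee⟩
  refine h1.trans ?_
  exact um_smul e i i he _

theorem smul_comm' (c : K) (x : A g s) (w : W g s) : x • (c • w) = c • (x • w) := by
  funext l
  show ∑ m, res (x.1.fst l m) * (c * w m) = c * ∑ m, res (x.1.fst l m) * w m
  rw [Finset.mul_sum]
  exact Finset.sum_congr rfl fun m _ => by ring

include h0 hP0 in
/-- field `one` -/
theorem one (hee : e0 * e0 = e0) (ε : P0 →ₗ[A g s] W g s)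
    (hε : ∀ x : P0, ε x = (x : A g s) • wv g s 0) (φ : P0 →ₗ[A g s] W g s) :
    ∃ c : K, ∀ x, φ x = c • ε x := by
  obtain ⟨c, hc⟩ := val_eq h0 hP0 hee φ
  refine ⟨c, fun x => ?_⟩
  rw [hom_eq hP0 hee φ x, hc, smul_comm', hε]

include h0 hu hP0 hP3 in
/-- field `hi` -/
theorem hi (hee : e0 * e0 = e0) (hee2 : e2 * e2 = e2) (heu : e2 * u = u)
    (h : P3 →ₗ[A g s] P0) (hh : ∀ x : P3, (h x : A g s) = x * u) (φ : P0 →ₗ[A g s] W g s)
    (hφ : φ ∘ₗ h = 0) : φ = 0 := by
  obtain ⟨c, hc⟩ := val_eq h0 hP0 hee φ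
  have h3 : φ (h ⟨e2, (hP3 e2).2 hee2⟩) = 0 := LinearMap.congr_fun hφ _
  rw [hom_eq hP0 hee φ, hc, hh] at h3
  change (e2 * u) • (c • wv g s 0) = 0 at h3
  rw [heu, um_smul u 2 0 hu] at h3
  have h4 : (c • wv g s 0 : W g s) 0 = c := by
    show c * (Pi.single (0 : Fin 7) (1 : K) : Fin 7 → K) 0 = c
    rw [Pi.single_eq_same, mul_one]
  rw [h4] at h3
  have h5 : c = 0 := by
    have h6 := congrFun h3 2
    have h7 : (c • wv g s 2 : W g s) 2 = c := by
      show c * (Pi.single (2 : Fin 7) (1 : K) : Fin 7 → K) 2 = c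
      rw [Pi.single_eq_same, mul_one]
    exact h7.symm.trans h6
  refine LinearMap.ext fun x => ?_
  rw [hom_eq hP0 hee φ x, hc, h5, zero_smul, smul_zero]
  rfl

include h2 hu hP3 in
/-- field `hs` -/
theorem hs (hee2 : e2 * e2 = e2)
    (h : P3 →ₗ[A g s] P0) (hh : ∀ x : P3, (h x : A g s) = x * u) (φ : P3 →ₗ[A g s] W g s) :
    ∃ ψ : P0 →ₗ[A g s] W g s, ψ ∘ₗ h = φ := by
  obtain ⟨c, hc⟩ := val_eq h2 hP3 hee2 φ
  refine ⟨{ toFun := fun x => (x : A g s) • (c • wv g s 0)
            map_add' := fun x y => add_smul (x : A g s) (y : A g s) _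
            map_smul' := fun a x => mul_smul a (x : A g s) _ }, ?_⟩
  refine LinearMap.ext fun x => ?_
  rw [hom_eq hP3 hee2 φ x, hc]
  show ((h x : A g s)) • (c • wv g s 0) = (x : A g s) • (c • wv g s 2)
  rw [hh, mul_smul, um_smul u 2 0 hu]
  congr 2
  show c * (Pi.single (0 : Fin 7) (1 : K) : Fin 7 → K) 0 = c
  rw [Pi.single_eq_same, mul_one]

end fields

end Crest.Agent.R186.B281.M2
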