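import Crest.Agent.R186.DM2_136
import Crest.Agent.R186.W0def_93

/-!
Row 186, S0281, leaf B281.M (helper136), part 3: the maps `h`, `a`, `t` and the fields
`ta, hh, ah, one, hi, hs, mi, ms` of `LinkB328.Side`, `s = 0`, on 580's `Pv g 0 v`, 93's
`W0.d3, W0.d2, W0.eps0` and 870's `W g s`; the parts common to both `s` are stated for both.
-/

set_option autoImplicit false
set_option linter.unusedSectionVars false

open Matrix

namespace Crest.Agent.R186.B281M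

open B281

variable {K : Type} [Field K] {g : K} {s : ℤ}

/-- the representation of `A g s` on `W g s` -/
noncomputable def rep (g : K) (s : ℤ) : Rep K (A g s) (W g s) where
  co := AddEquiv.refl _
  ρ x i j := res (x.1.fst i j)
  act _ _ _ := rfl

theorem res_neg (T : Op K) : res (-T) = -res T := by
  have h := res_smul (-1) T
  rwa [neg_one_smul, neg_one_mul] at h

theorem res_sub (S T : Op K) : res (S - T) = res S - res T := by
  rw [sub_eq_add_neg, res_add, res_neg, sub_eq_add_neg]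

theorem rep_proj (v : Fin 5) (S : Fin 7 → Bool) (h : ∀ i, S i = decide (blk i = v)) :
    (rep g s).IsProj (eps g s v) S := by
  intro i j
  show res ((idp K v) i j) = _
  rw [idp, Matrix.diagonal_apply, h i]
  by_cases hij : i = j
  · subst hij
    by_cases hv : blk i = v
    · simp [hv, res_one]
    · simp [hv, res_zero]
  · rw [if_neg hij, if_neg (fun h => hij h.1), res_zero]

theorem memPv (v : Fin 5) (x : A g s) : x ∈ Pv g s v ↔ x * eps g s v = x := Iff.rfl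

theorem idp_eq {v : Fin 5} {i : Fin 7} (h : ∀ j, blk j = v ↔ j = i) :
    idp K v = Matrix.single i i (1 : Op K) := by
  ext1 r c
  rw [idp, Matrix.diagonal_apply, Matrix.single_apply]
  by_cases hrc : r = c
  · subst hrc
    rw [if_pos rfl]
    by_cases hr : i = r
    · rw [if_pos ((h r).2 hr.symm), if_pos ⟨hr, hr⟩]
    · rw [if_neg (fun h1 => hr ((h r).1 h1).symm), if_neg (fun h1 => hr h1.1)]
  · rw [if_neg hrc, if_neg]
    rintro ⟨rfl, rfl⟩
    exact hrc rfl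

theorem eps0_fst' : (eps g s 0).1.fst = Matrix.single 0 0 (1 : Op K) :=
  idp_eq (v := 0) (i := 0) (by decide)

theorem eps1_fst' : (eps g s 1).1.fst = Matrix.single 1 1 (1 : Op K) :=
  idp_eq (v := 1) (i := 1) (by decide)

theorem eps2_fst' : (eps g s 2).1.fst = Matrix.single 2 2 (1 : Op K) :=
  idp_eq (v := 2) (i := 2) (by decide)

theorem eps2_sm : (eps g s 2).1 = sm 2 2 (1 : Op K) :=
  TrivSqZeroExt.ext eps2_fst' rfl

/-! ### `h`, `a` (both `s`) -/

theorem sm0_mem {i : Fin 7} {T : Op K} {x : A g s} (hx : x.1 = sm i 0 T) : x ∈ Pv g s 0 := by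
  rw [mem_Pv]
  intro r c hc
  have h0 : (0 : Fin 7) ≠ c := by
    rintro rfl
    exact hc rfl
  rw [hx]
  exact ⟨Matrix.single_apply_of_col_ne _ _ h0 _, rfl⟩

/-- right multiplication by `h²` -/
noncomputable def hmap (g : K) (s : ℤ) : Pv g s 2 →ₗ[A g s] Pv g s 0 :=
  mulR 2 ⟨hE g s, sm0_mem rfl⟩

/-- right multiplication by `a = (d₁x₀)²` -/
noncomputable def amap (hg : Gen g) (s : ℤ) : Pv g s 2 →ₗ[A g s] Pv g s 0 :=
  mulR 2 ⟨aE hg s, sm0_mem rfl⟩

theorem hmap_coe (x : Pv g s 2) : (hmap g s x : A g s) = x * hE g s := rfl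

theorem amap_coe (hg : Gen g) (x : Pv g s 2) : (amap hg s x : A g s) = x * aE hg s := rfl

/-- field `hh` -/
theorem hmap_inj (g : K) (s : ℤ) : Function.Injective (hmap g s) := by
  rw [injective_iff_map_eq_zero]
  intro x hx
  exact Subtype.ext (hh_core eps2_sm x.2 (congrArg Subtype.val hx))

/-- field `ah` -/
theorem ah (hg : Gen g) (hs : s ≤ 1) (x y : Pv g s 2) (h : amap hg s x = hmap g s y) : x = 0 :=
  Subtype.ext (ah_core hg hs eps2_sm x.2 (congrArg Subtype.val h))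

/-- field `one` -/
theorem fone (g : K) (s : ℤ) (φ : Pv g s 0 →ₗ[A g s] W g s) :
    ∃ c : K, ∀ x, φ x = c • W0.eps0 g s x :=
  M2.one eps0_fst' (Pv g s 0) (memPv 0) (eps_idem g s 0) (W0.eps0 g s) (fun _ => rfl) φ

theorem eps2_hE (g : K) (s : ℤ) : eps g s 2 * hE g s = hE g s := by
  refine A_ext (fun i j => ?_) (fun i j => ?_)
  · show ((eps g s 2).1.fst * Matrix.single 2 0 (1 : Op K) : Mat K) i j =
      (Matrix.single 2 0 (1 : Op K) : Mat K) i j
    rw [eps2_fst', Matrix.single_mul_single_same, one_mul]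
  · show ((eps g s 2).1 * sm 2 0 1).snd i j = _
    rw [mul_sm_snd, eps_snd, zero_mul]
    rfl

/-- field `hi` -/
theorem fhi (g : K) (s : ℤ) (φ : Pv g s 0 →ₗ[A g s] W g s) (hφ : φ ∘ₗ hmap g s = 0) : φ = 0 :=
  M2.hi (e2 := eps g s 2) (u := hE g s) eps0_fst' rfl (Pv g s 0) (Pv g s 2) (memPv 0) (memPv 2)
    (eps_idem g s 0) (eps_idem g s 2) (eps2_hE g s) (hmap g s) (fun _ => rfl) φ hφ

/-- field `hs` -/
theorem fhs (g : K) (s : ℤ) (φ : Pv g s 2 →ₗ[A g s] W g s) :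
    ∃ ψ : Pv g s 0 →ₗ[A g s] W g s, ψ ∘ₗ hmap g s = φ :=
  M2.hs (e2 := eps g s 2) (u := hE g s) eps2_fst' rfl (Pv g s 0) (Pv g s 2) (memPv 2)
    (eps_idem g s 2) (hmap g s) (fun _ => rfl) φ

/-! ### `s = 0` -/

/-- `t`, `s = 0` -/
noncomputable def t0 (hg : Gen g) : (Fin 2 → Fin 2 → Pv g 0 1) →ₗ[A g 0] Pv g 0 0 :=
  mulR 1 ⟨t0E hg 0, sm0_mem rfl⟩ ∘ₗ LinearMap.proj (R := A g 0) (φ := fun _ : Fin 2 => Pv g 0 1) 1 ∘ₗ
    LinearMap.proj (R := A g 0) (φ := fun _ : Fin 2 => Fin 2 → Pv g 0 1) 0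

theorem t0_coe (hg : Gen g) (u : Fin 2 → Fin 2 → Pv g 0 1) :
    (t0 hg u : A g 0) = u 0 1 * t0E hg 0 := rfl

/-- field `ta`, `s = 0` -/
theorem ta0 (hg : Gen g) : t0 hg ∘ₗ W0.d3 hg = amap hg 0 := by
  refine LinearMap.ext fun x => Subtype.ext ?_
  show (x : A g 0) * (W0.m3 hg 0 1 : Pv g 0 1) * t0E hg 0 = x * aE hg 0
  rw [mul_assoc]
  congr 1
  refine A_ext (fun i j => ?_) (fun i j => ?_)
  · show (Matrix.single 2 1 (D g 1 * X 0) * Matrix.single 1 0 (D g 1 * X 0) : Mat K) i j =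
      Matrix.single 2 0 ((D g 1 * X 0) ^ 2) i j
    rw [Matrix.single_mul_single_same, pow_two]
  · rw [snd_mulA]
    show ((Matrix.single 2 1 (D g 1 * X 0) : Mat K) * 0 + 0 * Matrix.single 1 0 (D g 1 * X 0) :
      Mat K) i j = _
    rw [mul_zero, zero_mul, add_zero]
    rfl

theorem res_c2 (g : K) (a b k : Fin 2) :
    res (W0.c2 g a b k 0) = (if a = k ∧ b = 0 then 1 else 0) ∧
    res (W0.c2 g a b k 1) = (if a = k ∧ b = 1 then 1 else 0) := by
  fin_cases a <;> fin_cases b <;> fin_cases k <;>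
    simp [W0.c2, res_neg, res_sub, res_smul, res_DX, res_one, res_zero]

theorem m2_13 (hg : Gen g) (a b k : Fin 2) :
    (rep g 0).ρ (W0.m2 hg a b k) 1 3 = if a = k ∧ b = 0 then 1 else 0 := by
  show res ((Matrix.single 1 3 (W0.c2 g a b k 0) + Matrix.single 1 4 (W0.c2 g a b k 1) : Mat K) 1 3)
    = _
  rw [Matrix.add_apply, Matrix.single_apply_same,
    Matrix.single_apply_of_col_ne _ _ (show (4 : Fin 7) ≠ 3 by decide), add_zero]
  exact (res_c2 g a b k).1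

theorem m2_14 (hg : Gen g) (a b k : Fin 2) :
    (rep g 0).ρ (W0.m2 hg a b k) 1 4 = if a = k ∧ b = 1 then 1 else 0 := by
  show res ((Matrix.single 1 3 (W0.c2 g a b k 0) + Matrix.single 1 4 (W0.c2 g a b k 1) : Mat K) 1 4)
    = _
  rw [Matrix.add_apply, Matrix.single_apply_same,
    Matrix.single_apply_of_col_ne _ _ (show (3 : Fin 7) ≠ 4 by decide), zero_add]
  exact (res_c2 g a b k).2

/-- field `mi`, `s = 0` -/
theorem fmi0 (hg : Gen g) (φ : (Fin 2 → Pv g 0 3) →ₗ[A g 0] W g 0) (h : φ ∘ₗ W0.d2 hg = 0) :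
    φ = 0 :=
  Rep.mi0 (T := rep g 0) (e1 := eps g 0 1) (e3 := eps g 0 3) (P1 := Pv g 0 1) (P3 := Pv g 0 3)
    (rep_proj 1 _ (by decide)) (rep_proj 3 _ (by decide)) (memPv 1) (memPv 3)
    (eps_idem g 0 1) (eps_idem g 0 3) (fun a b k => (W0.m2 hg a b k : A g 0)) (m2_13 hg)
    (m2_14 hg) (W0.d2 hg) (W0.d2_coe hg) φ h

/-- field `ms`, `s = 0` -/
theorem fms0 (hg : Gen g) (φ : (Fin 2 → Fin 2 → Pv g 0 1) →ₗ[A g 0] W g 0) :
    ∃ ψ : (Fin 2 → Pv g 0 3) →ₗ[A g 0] W g 0, ψ ∘ₗ W0.d2 hg = φ :=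
  Rep.ms0 (T := rep g 0) (e1 := eps g 0 1) (P1 := Pv g 0 1) (P3 := Pv g 0 3)
    (rep_proj 1 _ (by decide)) (memPv 1) (eps_idem g 0 1)
    (fun a b k => (W0.m2 hg a b k : A g 0)) (m2_13 hg)
    (m2_14 hg) (W0.d2 hg) (W0.d2_coe hg) φ

end Crest.Agent.R186.B281M
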