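import Crest.Agent.R186.LatK_881

/-!
Row 186, S0281, leaf B281.D4, part 2 (helper881): the membership criterion for `Pres`: nine
conditions on the rows of the matrix.
-/

set_option autoImplicit false

open Matrix

namespace Crest.Agent.R186.LatK881

open B281

variable {K : Type} [Field K]

theorem vecMul_apply' (v : Fin 7 → Op K) (M : Mat K) (j : Fin 7) :
    (v ᵥ* M) j = v 0 * M 0 j + v 1 * M 1 j + v 2 * M 2 j + v 3 * M 3 j + v 4 * M 4 j + v 5 * M 5 j
      + v 6 * M 6 j := by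
  simp only [Matrix.vecMul, dotProduct, Fin.sum_univ_seven]

/-- the row `v` as a combination of the rows of `M` -/
theorem vecMul_eq (v : Fin 7 → Op K) (M : Mat K) :
    v ᵥ* M = (fun j => v 0 * M 0 j) + (fun j => v 1 * M 1 j) + (fun j => v 2 * M 2 j) +
      (fun j => v 3 * M 3 j) + (fun j => v 4 * M 4 j) + (fun j => v 5 * M 5 j) +
      (fun j => v 6 * M 6 j) := by
  funext j
  rw [vecMul_apply']
  rfl

theorem row_vecMul (a : Op K) (i : Fin 7) (M : Mat K) :
    (Pi.single i a : Fin 7 → Op K) ᵥ* M = fun j => a * M i j := by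
  funext j
  rw [Matrix.single_vecMul]
  rfl

theorem Fil_zero_of (g : K) {k P : ℤ} (hk : k < 0) : Fil g k P = ⊥ := by
  refine (Submodule.eq_bot_iff _).2 fun T hT => ?_
  induction hT using Submodule.span_induction with
  | mem x hx => obtain ⟨a, b, h1, h2, rfl⟩ := hx; omega
  | zero => rfl
  | add x y _ _ hx hy => rw [hx, hy, add_zero]
  | smul a x _ hx => rw [hx, smul_zero]

/-- the unit row at an `O`-position -/
theorem single0 {g : K} {s k P : ℤ} {T : Op K} (hT : T ∈ Fil g k P) :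
    Pi.single 0 T ∈ Lat g s k P := by
  refine ⟨by simpa using hT, ?_, ?_, ⟨?_, ?_, ?_⟩, ?_, ?_, ?_⟩ <;> simp

theorem single1 {g : K} {s k P : ℤ} {T : Op K} (hT : T ∈ Fil g (k - 1) P) :
    Pi.single 1 T ∈ Lat g s k P := by
  refine ⟨?_, by simpa using hT, ?_, ⟨?_, ?_, ?_⟩, ?_, ?_, ?_⟩ <;> simp

theorem single2 {g : K} {s k P : ℤ} {T : Op K} (hT : T ∈ Fil g (k - 2) P) :
    Pi.single 2 T ∈ Lat g s k P := by
  refine ⟨?_, ?_, by simpa using hT, ⟨?_, ?_, ?_⟩, ?_, ?_, ?_⟩ <;> simp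

/-- the pair at the vertex `K₁(-s)` -/
theorem single34 {g : K} {s k P : ℤ} {a b : Op K} (h : (a, b) ∈ LK g 1 (k - s) P) :
    (Pi.single 3 a + Pi.single 4 b : Fin 7 → Op K) ∈ Lat g s k P := by
  refine ⟨?_, ?_, ?_, ?_, ?_, ?_, ?_⟩
  all_goals try (simp; done)
  have h3 : (Pi.single 3 a + Pi.single 4 b : Fin 7 → Op K) 3 = a := by simp
  have h4 : (Pi.single 3 a + Pi.single 4 b : Fin 7 → Op K) 4 = b := by simp
  rw [h3, h4]
  exact h

/-- the pair at the vertex `K₂` -/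
theorem single56 {g : K} {s k P : ℤ} {a b : Op K} (h : (a, b) ∈ LK g 2 k P) :
    (Pi.single 5 a + Pi.single 6 b : Fin 7 → Op K) ∈ Lat g s k P := by
  refine ⟨?_, ?_, ?_, ⟨?_, ?_, ?_⟩, ?_⟩
  all_goals try (simp; done)
  have h3 : (Pi.single 5 a + Pi.single 6 b : Fin 7 → Op K) 5 = a := by simp
  have h4 : (Pi.single 5 a + Pi.single 6 b : Fin 7 → Op K) 6 = b := by simp
  rw [h3, h4]
  exact h

/-- generators of the lattice `LK g j`: order `j`, degree `0`, and `(x₁, -x₀)` -/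
theorem LK_unit0 {g : K} (hg : Gen g) {j k : ℤ} (hj : 0 ≤ j) (hk : j ≤ k) :
    ((1, 0) : Op K × Op K) ∈ LK g j k 0 := by
  have := LK_of (a2 := 1) (b2 := 0) (e := 0) hg hj (one_mem_Fil g (by omega : 0 ≤ k - j))
    (zero_mem _) (zero_mem _)
  simpa using this

theorem LK_unit1 {g : K} (hg : Gen g) {j k : ℤ} (hj : 0 ≤ j) (hk : j ≤ k) :
    ((0, 1) : Op K × Op K) ∈ LK g j k 0 := by
  have := LK_of (a2 := 0) (b2 := 1) (e := 0) hg hj (zero_mem _)
    (one_mem_Fil g (by omega : 0 ≤ k - j)) (zero_mem _)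
  simpa using this

theorem LK_kap {g : K} (hg : Gen g) {j k : ℤ} (hk : 0 ≤ k) :
    ((X 1, -X 0) : Op K × Op K) ∈ LK g j k 1 := by
  have := kap_mem (j := j) hg (k := k) (P := 1) (e := 1) (one_mem_Fil g hk)
  simpa using this

/-- THE MEMBERSHIP CRITERION: `Pres` = nine conditions on the rows -/
theorem Pres_iff {g : K} (hg : Gen g) {s e : ℤ} {M : Mat K} : Pres g s e M ↔
    M 0 ∈ Lat g s 0 e ∧ M 1 ∈ Lat g s 1 e ∧ M 2 ∈ Lat g s 2 e ∧
    M 3 ∈ Lat g s (1 + s) e ∧ M 4 ∈ Lat g s (1 + s) e ∧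
    (fun j => X 1 * M 3 j - X 0 * M 4 j) ∈ Lat g s s (1 + e) ∧
    M 5 ∈ Lat g s 2 e ∧ M 6 ∈ Lat g s 2 e ∧
    (fun j => X 1 * M 5 j - X 0 * M 6 j) ∈ Lat g s 0 (1 + e) := by
  constructor
  · intro h
    have o0 := h 0 0 _ (single0 (s := s) (one_mem_Fil g (k := 0) le_rfl))
    have o1 := h 1 0 _ (single1 (s := s) (one_mem_Fil g (k := 1 - 1) le_rfl))
    have o2 := h 2 0 _ (single2 (s := s) (one_mem_Fil g (k := 2 - 2) le_rfl))
    have o3 := h (1 + s) 0 _ (single34 (s := s) (LK_unit0 hg (j := 1) (by omega)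
      (by omega : (1 : ℤ) ≤ 1 + s - s)))
    have o4 := h (1 + s) 0 _ (single34 (s := s) (LK_unit1 hg (j := 1) (by omega)
      (by omega : (1 : ℤ) ≤ 1 + s - s)))
    have o5 := h s 1 _ (single34 (s := s) (LK_kap hg (j := 1) (by omega : (0 : ℤ) ≤ s - s)))
    have o6 := h 2 0 _ (single56 (s := s) (LK_unit0 hg (j := 2) (by omega) le_rfl))
    have o7 := h 2 0 _ (single56 (s := s) (LK_unit1 hg (j := 2) (by omega) le_rfl))
    have o8 := h 0 1 _ (single56 (s := s) (LK_kap hg (j := 2) le_rfl))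
    rw [row_vecMul, zero_add] at o0 o1 o2
    simp only [one_mul] at o0 o1 o2
    rw [Matrix.add_vecMul, row_vecMul, row_vecMul, zero_add] at o3 o4 o6 o7
    rw [Matrix.add_vecMul, row_vecMul, row_vecMul] at o5 o8
    simp only [one_mul, zero_mul] at o3 o4 o6 o7
    have z : (fun _ => 0 : Fin 7 → Op K) = 0 := rfl
    rw [z, add_zero] at o3 o6
    rw [z, zero_add] at o4 o7
    refine ⟨o0, o1, o2, o3, o4, ?_, o6, o7, ?_⟩
    · convert o5 using 1
      funext j
      simp only [Pi.add_apply, neg_mul, sub_eq_add_neg]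
    · convert o8 using 1
      funext j
      simp only [Pi.add_apply, neg_mul, sub_eq_add_neg]
  · rintro ⟨h0, h1, h2, h3, h4, h5, h6, h7, h8⟩ k P v hv
    obtain ⟨v0, v1, v2, v3, v4⟩ := Lat_iff.1 hv
    obtain ⟨a2, ha2, b2, hb2, c, hc, e3, e4⟩ := LK_gen hg (by omega : (0 : ℤ) ≤ 1) v3
    obtain ⟨a2', ha2', b2', hb2', c', hc', e5, e6⟩ := LK_gen hg (by omega : (0 : ℤ) ≤ 2) v4
    have key : v ᵥ* M = (fun j => v 0 * M 0 j) + (fun j => v 1 * M 1 j) + (fun j => v 2 * M 2 j) +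
        ((fun j => a2 * M 3 j) + (fun j => b2 * M 4 j) +
          (fun j => c * (X 1 * M 3 j - X 0 * M 4 j))) +
        ((fun j => a2' * M 5 j) + (fun j => b2' * M 6 j) +
          (fun j => c' * (X 1 * M 5 j - X 0 * M 6 j))) := by
      funext j
      rw [vecMul_apply', e3, e4, e5, e6]
      simp only [Pi.add_apply, add_mul, sub_mul, mul_sub, mul_assoc]
      abel
    have t : ∀ {a b c : ℤ} {w : Fin 7 → Op K}, a = c → w ∈ Lat g s a b → w ∈ Lat g s c b :=
      fun h h' => h ▸ h'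
    rw [key]
    refine add_mem (add_mem (add_mem (add_mem ?_ ?_) ?_) (add_mem (add_mem ?_ ?_) ?_))
      (add_mem (add_mem ?_ ?_) ?_)
    · exact t (by omega) (Lat_smul hg v0 h0)
    · exact t (by omega) (Lat_smul hg v1 h1)
    · exact t (by omega) (Lat_smul hg v2 h2)
    · exact t (by omega) (Lat_smul hg ha2 h3)
    · exact t (by omega) (Lat_smul hg hb2 h4)
    · have := Lat_smul hg hc h5
      rw [show P - 1 + (1 + e) = P + e by ring] at this
      exact t (by omega) this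
    · exact t (by omega) (Lat_smul hg ha2' h6)
    · exact t (by omega) (Lat_smul hg hb2' h7)
    · have := Lat_smul hg hc' h8
      rw [show P - 1 + (1 + e) = P + e by ring] at this
      exact t (by omega) this

end Crest.Agent.R186.LatK881
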