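import Crest.Agent.R186.PDef_580
import Crest.Agent.R186.PresK_881
import Crest.Agent.R186.W281_870
import Crest.Agent.R186.Inst_823
import Crest.Agent.R186.FDord_757

/-!
Row 186, S0281, base, leaf B281.W1 (helper952): DEFINITIONS of the resolution of `W g 1` over
`A g 1`:

`0 → Pv 2 --d3--> (Pv 3)² --d2--> (Pv 4)² --d1--> Pv 0 --ε--> W → 0`.

`d1 x = ∑ k, x k * b1 k`, `(d2 x) l = ∑ k, x k * b2 k l`, `(d3 w) k = w * b3 k`,
`ε x i = res (x.1.fst i 0)`.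
-/

set_option autoImplicit false
set_option linter.unusedSectionVars false

open Matrix

namespace Crest.Agent.R186.W1

open Crest.Agent.R186.B281
open Crest.Agent.R186.LatK881 (LK mem_LK Pres_iff single0 single34 single56)

variable {K : Type} [Field K]

/-- entries `(5,0) = a`, `(6,0) = b` -/
noncomputable def mat1 (a b : Op K) : Mat K :=
  ![0, 0, 0, 0, 0, Pi.single 0 a, Pi.single 0 b]

/-- entries `(3,5) = a`, `(3,6) = b`, `(4,5) = c`, `(4,6) = d` -/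
noncomputable def mat2 (a b c d : Op K) : Mat K :=
  ![0, 0, 0, Pi.single 5 a + Pi.single 6 b, Pi.single 5 c + Pi.single 6 d, 0, 0]

/-- entries `(2,3) = a`, `(2,4) = b` -/
noncomputable def mat3 (a b : Op K) : Mat K :=
  ![0, 0, Pi.single 3 a + Pi.single 4 b, 0, 0, 0, 0]

section
variable {g : K} (hg : Gen g)
include hg

theorem zrow (s k P : ℤ) : (fun j => X 1 * (0 : Fin 7 → Op K) j - X 0 * (0 : Fin 7 → Op K) j) ∈
    Lat g s k P := by
  have : (fun j => X 1 * (0 : Fin 7 → Op K) j - X 0 * (0 : Fin 7 → Op K) j) = 0 := by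
    funext j
    rw [Pi.zero_apply, mul_zero, mul_zero, sub_zero]
  rw [this]
  exact zero_mem _

theorem pres1 {a b : Op K} (ha : a ∈ Fil g 2 0) (hb : b ∈ Fil g 2 0)
    (hab : X 1 * a - X 0 * b ∈ Fil g 0 1) : Pres g 1 0 (mat1 a b) := by
  rw [Pres_iff hg]
  refine ⟨zero_mem _, zero_mem _, zero_mem _, zero_mem _, zero_mem _, zrow hg _ _ _, single0 ha,
    single0 hb, ?_⟩
  have : (fun j => X 1 * mat1 a b 5 j - X 0 * mat1 a b 6 j) =
      (Pi.single 0 (X 1 * a - X 0 * b) : Fin 7 → Op K) := by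
    funext j
    by_cases hj : j = 0
    · subst hj
      rfl
    · rw [Pi.single_eq_of_ne hj]
      show X 1 * (Pi.single 0 a : Fin 7 → Op K) j - X 0 * (Pi.single 0 b : Fin 7 → Op K) j = 0
      rw [Pi.single_eq_of_ne hj, Pi.single_eq_of_ne hj, mul_zero, mul_zero, sub_zero]
  rw [this]
  exact single0 hab

theorem pres2 {a b c d : Op K} (h3 : (a, b) ∈ LK g 2 2 0) (h4 : (c, d) ∈ LK g 2 2 0)
    (h34 : (X 1 * a - X 0 * c, X 1 * b - X 0 * d) ∈ LK g 2 1 1) : Pres g 1 0 (mat2 a b c d) := by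
  rw [Pres_iff hg]
  refine ⟨zero_mem _, zero_mem _, zero_mem _, single56 h3, single56 h4, ?_, zero_mem _,
    zero_mem _, zrow hg _ _ _⟩
  have : (fun j => X 1 * mat2 a b c d 3 j - X 0 * mat2 a b c d 4 j) =
      (Pi.single 5 (X 1 * a - X 0 * c : Op K) + Pi.single 6 (X 1 * b - X 0 * d : Op K) :
        Fin 7 → Op K) := by
    funext j
    show X 1 * ((Pi.single 5 a : Fin 7 → Op K) j + (Pi.single 6 b : Fin 7 → Op K) j) -
      X 0 * ((Pi.single 5 c : Fin 7 → Op K) j + (Pi.single 6 d : Fin 7 → Op K) j) = _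
    rw [Pi.add_apply]
    by_cases h5 : j = 5
    · subst h5
      rw [Pi.single_eq_same, Pi.single_eq_same, Pi.single_eq_same,
        Pi.single_eq_of_ne (by decide), Pi.single_eq_of_ne (by decide),
        Pi.single_eq_of_ne (by decide), add_zero, add_zero, add_zero]
    · rw [Pi.single_eq_of_ne h5, Pi.single_eq_of_ne h5, Pi.single_eq_of_ne h5, zero_add, zero_add,
        zero_add]
      by_cases h6 : j = 6
      · subst h6
        rw [Pi.single_eq_same, Pi.single_eq_same, Pi.single_eq_same]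
      · rw [Pi.single_eq_of_ne h6, Pi.single_eq_of_ne h6, Pi.single_eq_of_ne h6, mul_zero,
          mul_zero, sub_zero]
  rw [this]
  exact single56 h34

theorem pres3 {a b : Op K} (h : (a, b) ∈ LK g 1 1 0) : Pres g 1 0 (mat3 a b) := by
  rw [Pres_iff hg]
  exact ⟨zero_mem _, zero_mem _, single34 h, zero_mem _, zero_mem _, zrow hg _ _ _, zero_mem _,
    zero_mem _, zrow hg _ _ _⟩

end

theorem sup1 (a b : Op K) (i j : Fin 7) (hj : j ≠ 0) : mat1 a b i j = 0 := by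
  fin_cases i
  exacts [rfl, rfl, rfl, rfl, rfl, Pi.single_eq_of_ne hj _, Pi.single_eq_of_ne hj _]

theorem sup2 (a b c d : Op K) (i j : Fin 7) (h5 : j ≠ 5) (h6 : j ≠ 6) : mat2 a b c d i j = 0 := by
  have key : ∀ a b : Op K, (Pi.single 5 a + Pi.single 6 b : Fin 7 → Op K) j = 0 := fun a b => by
    rw [Pi.add_apply, Pi.single_eq_of_ne h5, Pi.single_eq_of_ne h6, add_zero]
  fin_cases i
  exacts [rfl, rfl, rfl, key a b, key c d, rfl, rfl]

theorem sup3 (a b : Op K) (i j : Fin 7) (h3 : j ≠ 3) (h4 : j ≠ 4) : mat3 a b i j = 0 := by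
  fin_cases i
  exacts [rfl, rfl, by
    show (Pi.single 3 a + Pi.single 4 b : Fin 7 → Op K) j = 0
    rw [Pi.add_apply, Pi.single_eq_of_ne h3, Pi.single_eq_of_ne h4, add_zero], rfl, rfl, rfl, rfl]

/-! ### membership -/

section
variable {g : K} (hg : Gen g)
include hg

theorem mXi (i : Fin 2) : (X i : Op K) ∈ Fil g 0 1 := by
  have := FD757.X_mul_mem i (one_mem_Fil g (le_refl 0))
  rwa [mul_one, zero_add] at this

theorem mDi (i : Fin 2) : (D g i : Op K) ∈ Fil g 1 (-1) := by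
  have := FD757.D_mul_mem hg i (one_mem_Fil g (le_refl 0))
  rwa [mul_one, zero_add, zero_sub] at this

theorem mXD (i j : Fin 2) : (X i : Op K) * D g j ∈ Fil g 1 0 := by
  have := FD757.X_mul_mem i (mDi hg j)
  rwa [neg_add_cancel] at this

theorem mDX (i j : Fin 2) : (D g j : Op K) * X i ∈ Fil g 1 0 := by
  have := FD757.mul_X_mem hg i (mDi hg j)
  rwa [neg_add_cancel] at this

theorem mXDX (i j l : Fin 2) : (X i : Op K) * (D g j * X l) ∈ Fil g 1 1 := by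
  have := FD757.X_mul_mem i (mDX hg l j)
  rwa [zero_add] at this

/-! ### the matrices -/

theorem p1_0 : Pres g 1 0 (mat1 (X 0 * D g 0 - 1) (X 1 * D g 0)) := by
  refine pres1 hg (sub_mem (Fil_mono g (by omega) (mXD hg 0 0)) (one_mem_Fil g (by omega)))
    (Fil_mono g (by omega) (mXD hg 1 0)) ?_
  have : X 1 * (X 0 * D g 0 - 1) - X 0 * (X 1 * D g 0) = -(X 1 : Op K) := by
    rw [mul_sub, ← mul_assoc, ← mul_assoc, X_comm 1 0, mul_one]
    abel
  rw [this]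
  exact neg_mem (mXi hg 1)

theorem p1_1 : Pres g 1 0 (mat1 (X 0 * D g 1) (X 1 * D g 1 - 1)) := by
  refine pres1 hg (Fil_mono g (by omega) (mXD hg 0 1))
    (sub_mem (Fil_mono g (by omega) (mXD hg 1 1)) (one_mem_Fil g (by omega))) ?_
  have : X 1 * (X 0 * D g 1) - X 0 * (X 1 * D g 1 - 1) = (X 0 : Op K) := by
    rw [mul_sub, ← mul_assoc, ← mul_assoc, X_comm 1 0, mul_one]
    abel
  rw [this]
  exact mXi hg 0

theorem lk_a : ((1, 0) : Op K × Op K) ∈ LK g 2 2 0 := by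
  refine ⟨one_mem_Fil g (by omega), zero_mem _, ?_⟩
  rw [one_mul, zero_mul, add_zero]
  exact mXi hg 0

theorem lk_b : ((0, 1) : Op K × Op K) ∈ LK g 2 2 0 := by
  refine ⟨zero_mem _, one_mem_Fil g (by omega), ?_⟩
  rw [one_mul, zero_mul, zero_add (X 1 : Op K)]
  exact mXi hg 1

theorem cz (y : Op K) : y * X 1 * X 0 + -(y * X 0) * X 1 = 0 := by
  rw [neg_mul, mul_assoc, mul_assoc, X_comm 1 0, add_neg_cancel]

/-- `(y x₁, -y x₀)` -/
theorem lk_c {j k P : ℤ} {y : Op K} (hy : y ∈ Fil g k (P - 1)) :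
    ((y * X 1, -(y * X 0)) : Op K × Op K) ∈ LK g j k P := LatK881.kap_mem hg hy

theorem lk_add {j k P : ℤ} {a b c d : Op K} (h : ((a, b) : Op K × Op K) ∈ LK g j k P)
    (h' : ((c, d) : Op K × Op K) ∈ LK g j k P) : ((a + c, b + d) : Op K × Op K) ∈ LK g j k P :=
  add_mem h h'

theorem p2_00 : Pres g 1 0 (mat2 1 0 (D g 0 * X 1) (1 - D g 0 * X 0)) := by
  refine pres2 hg (lk_a hg) ?_ ?_
  · have := lk_add hg (lk_b hg) (lk_c hg (j := 2) (k := 2) (P := 0) (y := D g 0)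
      (Fil_mono g (by omega) (mDi hg 0)))
    rwa [zero_add, ← sub_eq_add_neg] at this
  · have := lk_c hg (j := 2) (k := 1) (P := 1) (y := 1 - X 0 * D g 0)
      (sub_mem (one_mem_Fil g (by omega)) (mXD hg 0 0))
    have e1 : (1 - X 0 * D g 0) * X 1 = X 1 * 1 - X 0 * (D g 0 * X 1) := by
      rw [sub_mul, one_mul, mul_one, mul_assoc]
    have e2 : -((1 - X 0 * D g 0) * X 0) = X 1 * (0 : Op K) - X 0 * (1 - D g 0 * X 0) := by
      rw [sub_mul, one_mul, mul_zero, mul_sub, mul_one, mul_assoc, zero_sub]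
    rwa [e1, e2] at this

theorem p2_01 : Pres g 1 0 (mat2 (-(g • (D g 0 * X 1))) (g • (D g 0 * X 0)) 0 0) := by
  refine pres2 hg ?_ (zero_mem _) ?_
  · have := Submodule.smul_mem _ (-g) (lk_c hg (j := 2) (k := 2) (P := 0) (y := D g 0)
      (Fil_mono g (by omega) (mDi hg 0)))
    rwa [Prod.smul_mk, neg_smul, neg_smul, smul_neg, neg_neg] at this
  · have := Submodule.smul_mem _ (-g) (lk_c hg (j := 2) (k := 1) (P := 1) (y := X 1 * D g 0)
      (mXD hg 1 0))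
    rw [Prod.smul_mk, neg_smul, neg_smul, smul_neg, neg_neg] at this
    rwa [mul_neg, mul_smul_comm, mul_smul_comm, mul_zero, sub_zero, sub_zero, ← mul_assoc,
      ← mul_assoc]

theorem p2_10 : Pres g 1 0 (mat2 0 0 (g • (D g 1 * X 1)) (-(g • (D g 1 * X 0)))) := by
  refine pres2 hg (zero_mem _) ?_ ?_
  · have := Submodule.smul_mem _ g (lk_c hg (j := 2) (k := 2) (P := 0) (y := D g 1)
      (Fil_mono g (by omega) (mDi hg 1)))
    rwa [Prod.smul_mk, smul_neg] at this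
  · have := Submodule.smul_mem _ (-g) (lk_c hg (j := 2) (k := 1) (P := 1) (y := X 0 * D g 1)
      (mXD hg 0 1))
    rw [Prod.smul_mk, neg_smul, neg_smul, smul_neg, neg_neg] at this
    rwa [mul_neg, mul_smul_comm, mul_smul_comm, mul_zero, zero_sub, zero_sub, ← mul_assoc,
      ← mul_assoc, neg_neg]

theorem p2_11 : Pres g 1 0 (mat2 (1 - D g 1 * X 1) (D g 1 * X 0) 0 1) := by
  refine pres2 hg ?_ (lk_b hg) ?_
  · have := lk_add hg (lk_a hg) (Submodule.smul_mem _ (-1 : K) (lk_c hg (j := 2) (k := 2) (P := 0)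
      (y := D g 1) (Fil_mono g (by omega) (mDi hg 1))))
    rwa [zero_add, neg_smul, neg_smul, one_smul, one_smul, neg_neg, ← sub_eq_add_neg] at this
  · have := lk_c hg (j := 2) (k := 1) (P := 1) (y := 1 - X 1 * D g 1)
      (sub_mem (one_mem_Fil g (by omega)) (mXD hg 1 1))
    have e1 : (1 - X 1 * D g 1) * X 1 = X 1 * (1 - D g 1 * X 1) - X 0 * (0 : Op K) := by
      rw [sub_mul, one_mul, mul_zero, mul_sub, mul_one, mul_assoc, sub_zero]
    have e2 : -((1 - X 1 * D g 1) * X 0) = X 1 * (D g 1 * X 0) - X 0 * (1 : Op K) := by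
      rw [sub_mul, one_mul, mul_one, mul_assoc, neg_sub]
    rwa [e1, e2] at this

theorem p3_0 : Pres g 1 0 (mat3 (-(D g 1 * X 1)) (D g 1 * X 0)) := by
  refine pres3 hg ?_
  have := Submodule.smul_mem _ (-1 : K) (lk_c hg (j := 1) (k := 1) (P := 0)
      (y := D g 1) (mDi hg 1))
  rwa [Prod.smul_mk, neg_smul, neg_smul, one_smul, one_smul, neg_neg] at this

theorem p3_1 : Pres g 1 0 (mat3 (D g 0 * X 1) (-(D g 0 * X 0))) :=
  pres3 hg (lk_c hg (j := 1) (k := 1) (P := 0) (y := D g 0) (mDi hg 0))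

/-! ### the elements -/

/-- `b1 k ∈ Pv 0` -/
noncomputable def b1 : Fin 2 → Pv g 1 0 :=
  ![⟨ofM (mat1 (X 0 * D g 0 - 1) (X 1 * D g 0)) 0 (p1_0 hg) (Pres.zero g 1 1),
      mem_Pv.2 fun i j hj => ⟨sup1 _ _ i j (fun h => hj (by rw [h]; rfl)), rfl⟩⟩,
    ⟨ofM (mat1 (X 0 * D g 1) (X 1 * D g 1 - 1)) 0 (p1_1 hg) (Pres.zero g 1 1),
      mem_Pv.2 fun i j hj => ⟨sup1 _ _ i j (fun h => hj (by rw [h]; rfl)), rfl⟩⟩]

/-- `b2 k l ∈ Pv 4` -/
noncomputable def b2 : Fin 2 → Fin 2 → Pv g 1 4 :=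
  ![![⟨ofM (mat2 1 0 (D g 0 * X 1) (1 - D g 0 * X 0)) 0 (p2_00 hg) (Pres.zero g 1 1),
        mem_Pv.2 fun i j hj => ⟨sup2 _ _ _ _ i j (fun h => hj (by rw [h]; rfl))
          (fun h => hj (by rw [h]; rfl)), rfl⟩⟩,
      ⟨ofM (mat2 (-(g • (D g 0 * X 1))) (g • (D g 0 * X 0)) 0 0) 0 (p2_01 hg) (Pres.zero g 1 1),
        mem_Pv.2 fun i j hj => ⟨sup2 _ _ _ _ i j (fun h => hj (by rw [h]; rfl))
          (fun h => hj (by rw [h]; rfl)), rfl⟩⟩],
    ![⟨ofM (mat2 0 0 (g • (D g 1 * X 1)) (-(g • (D g 1 * X 0)))) 0 (p2_10 hg) (Pres.zero g 1 1),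
        mem_Pv.2 fun i j hj => ⟨sup2 _ _ _ _ i j (fun h => hj (by rw [h]; rfl))
          (fun h => hj (by rw [h]; rfl)), rfl⟩⟩,
      ⟨ofM (mat2 (1 - D g 1 * X 1) (D g 1 * X 0) 0 1) 0 (p2_11 hg) (Pres.zero g 1 1),
        mem_Pv.2 fun i j hj => ⟨sup2 _ _ _ _ i j (fun h => hj (by rw [h]; rfl))
          (fun h => hj (by rw [h]; rfl)), rfl⟩⟩]]

/-- `b3 k ∈ Pv 3` -/
noncomputable def b3 : Fin 2 → Pv g 1 3 :=
  ![⟨ofM (mat3 (-(D g 1 * X 1)) (D g 1 * X 0)) 0 (p3_0 hg) (Pres.zero g 1 1),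
      mem_Pv.2 fun i j hj => ⟨sup3 _ _ i j (fun h => hj (by rw [h]; rfl))
          (fun h => hj (by rw [h]; rfl)), rfl⟩⟩,
    ⟨ofM (mat3 (D g 0 * X 1) (-(D g 0 * X 0))) 0 (p3_1 hg) (Pres.zero g 1 1),
      mem_Pv.2 fun i j hj => ⟨sup3 _ _ i j (fun h => hj (by rw [h]; rfl))
          (fun h => hj (by rw [h]; rfl)), rfl⟩⟩]

/-! ### the maps -/

/-- `C1 → C0`: `x ↦ ∑ k, x k * b1 k` -/
noncomputable def d1 : (Fin 2 → Pv g 1 4) →ₗ[A g 1] Pv g 1 0 :=
  (mulR 4 (b1 hg 0)).comp (LinearMap.proj 0) + (mulR 4 (b1 hg 1)).comp (LinearMap.proj 1)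

/-- `C2 → C1`: `x ↦ (l ↦ ∑ k, x k * b2 k l)` -/
noncomputable def d2 : (Fin 2 → Pv g 1 3) →ₗ[A g 1] (Fin 2 → Pv g 1 4) :=
  LinearMap.pi fun l =>
    (mulR 3 (b2 hg 0 l)).comp (LinearMap.proj 0) + (mulR 3 (b2 hg 1 l)).comp (LinearMap.proj 1)

/-- `C3 → C2`: `w ↦ (k ↦ w * b3 k)` -/
noncomputable def d3 : Pv g 1 2 →ₗ[A g 1] (Fin 2 → Pv g 1 3) :=
  LinearMap.pi fun k => mulR 2 (b3 hg k)

theorem d1_coe (x : Fin 2 → Pv g 1 4) :
    (d1 hg x : A g 1) = x 0 * b1 hg 0 + x 1 * b1 hg 1 := rfl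

theorem d2_coe (x : Fin 2 → Pv g 1 3) (l : Fin 2) :
    (d2 hg x l : A g 1) = x 0 * b2 hg 0 l + x 1 * b2 hg 1 l := rfl

theorem d3_coe (w : Pv g 1 2) (k : Fin 2) : (d3 hg w k : A g 1) = w * b3 hg k := rfl

end

theorem ε_smul (g : K) (a : A g 1) (x : Pv g 1 0) (i : Fin 7) :
    res ((a • x : Pv g 1 0).1.1.fst i 0) = ∑ j, res (a.1.fst i j) * res (x.1.1.fst j 0) := by
  show res ((a * (x : A g 1)).1.fst i 0) = _
  rw [fst_mulA, Matrix.mul_apply, res_sum]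
  refine Finset.sum_congr rfl fun j _ => ?_
  obtain ⟨k, hk⟩ := a.2.1.entry i j
  obtain ⟨l, hl⟩ := x.1.2.1.entry j 0
  exact res_mul hk hl

/-- `C0 → W`: the residues of column `0` -/
noncomputable def ε (g : K) : Pv g 1 0 →ₗ[A g 1] W g 1 where
  toFun x := (fun i => res (x.1.1.fst i 0) : Fin 7 → K)
  map_add' _ _ := rfl
  map_smul' a x := funext fun i => ε_smul g a x i

theorem ε_apply (g : K) (x : Pv g 1 0) (i : Fin 7) : ε g x i = res (x.1.1.fst i 0) := rfl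

end Crest.Agent.R186.W1
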