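import Crest.Agent.R186.DM0_136
import Crest.Agent.R186.W1def_952

/-!
Row 186, S0281, leaf B281.M (helper136), part 4: `s = 1`: the map `t` and the fields
`ta, one, mi, ms` of `LinkB328.Side` on 952's `W1.d3, W1.d2, W1.ε` (`h, a, hh, ah, hi, hs` are in
`DM0_136`, for both `s`).
-/

set_option autoImplicit false
set_option linter.unusedSectionVars false

open Matrix

namespace Crest.Agent.R186.B281M

open B281

variable {K : Type} [Field K] {g : K}

/-- 952's augmentation is 93's -/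
theorem eps_eq (g : K) : W1.ε g = W0.eps0 g 1 := by
  refine LinearMap.ext fun x => funext fun i => ?_
  rw [W0.eps0_apply, W1.ε_apply, W_smul_apply, Finset.sum_eq_single 0]
  · show _ = _ * (Pi.single 0 1 : Fin 7 → K) 0
    rw [Pi.single_eq_same, mul_one]
  · intro j _ hj
    show _ * (Pi.single 0 1 : Fin 7 → K) j = 0
    rw [Pi.single_eq_of_ne hj, mul_zero]
  · intro h
    exact absurd (Finset.mem_univ 0) h

/-- field `one`, `s = 1` -/
theorem fone1 (g : K) (φ : Pv g 1 0 →ₗ[A g 1] W g 1) : ∃ c : K, ∀ x, φ x = c • W1.ε g x := by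
  rw [eps_eq]
  exact fone g 1 φ

/-- `t`, `s = 1` -/
noncomputable def t1 (hg : Gen g) : (Fin 2 → Pv g 1 3) →ₗ[A g 1] Pv g 1 0 :=
  mulR 3 ⟨t1E hg, sm0_mem rfl⟩ ∘ₗ LinearMap.proj (R := A g 1) (φ := fun _ : Fin 2 => Pv g 1 3) 0

theorem t1_coe (hg : Gen g) (u : Fin 2 → Pv g 1 3) : (t1 hg u : A g 1) = u 0 * t1E hg := rfl

/-- field `ta`, `s = 1` -/
theorem ta1 (hg : Gen g) : t1 hg ∘ₗ W1.d3 hg = amap hg 1 := by
  refine LinearMap.ext fun x => Subtype.ext ?_
  show (x : A g 1) * (W1.b3 hg 0 : Pv g 1 3) * t1E hg = x * aE hg 1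
  rw [mul_assoc]
  congr 1
  refine A_ext (fun i j => ?_) (fun i j => ?_)
  · show (W1.mat3 (-(D g 1 * X 1)) (D g 1 * X 0) * Matrix.single 4 0 (D g 1 * X 0) : Mat K) i j =
      (Matrix.single 2 0 ((D g 1 * X 0) ^ 2) : Mat K) i j
    by_cases hj : (0 : Fin 7) = j
    · subst hj
      rw [mul_single_apply]
      by_cases hi : (2 : Fin 7) = i
      · subst hi
        rw [Matrix.single_apply_same, pow_two]
        congr 1
        show (Pi.single 3 (-(D g 1 * X 1)) + Pi.single 4 (D g 1 * X 0) : Fin 7 → Op K) 4 = _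
        rw [Pi.add_apply, Pi.single_eq_same, Pi.single_eq_of_ne (by decide), zero_add]
      · rw [Matrix.single_apply_of_row_ne hi]
        have h0 : W1.mat3 (-(D g 1 * X 1)) (D g 1 * X 0) i 4 = (0 : Op K) := by
          revert hi
          fin_cases i <;> intro hi
          exacts [rfl, rfl, absurd rfl hi, rfl, rfl, rfl, rfl]
        rw [h0, zero_mul]
    · rw [mul_single_apply_ne _ hj, Matrix.single_apply_of_col_ne _ _ hj]
  · rw [snd_mulA]
    show ((W1.mat3 (-(D g 1 * X 1)) (D g 1 * X 0) : Mat K) * 0 +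
      0 * Matrix.single 4 0 (D g 1 * X 0) : Mat K) i j = _
    rw [mul_zero, zero_mul, add_zero]
    rfl

theorem res_b2 (hg : Gen g) (k l : Fin 2) :
    res ((W1.b2 hg k l : A g 1).1.fst 3 5) = (if k = l then 1 else 0) ∧
    res ((W1.b2 hg k l : A g 1).1.fst 3 6) = 0 ∧
    res ((W1.b2 hg k l : A g 1).1.fst 4 5) = 0 ∧
    res ((W1.b2 hg k l : A g 1).1.fst 4 6) = (if k = l then 1 else 0) := by
  have e3 : ∀ a b c d : Op K, W1.mat2 a b c d 3 5 = a ∧ W1.mat2 a b c d 3 6 = b ∧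
      W1.mat2 a b c d 4 5 = c ∧ W1.mat2 a b c d 4 6 = d := by
    intro a b c d
    refine ⟨?_, ?_, ?_, ?_⟩
    · show (Pi.single 5 a + Pi.single 6 b : Fin 7 → Op K) 5 = a
      rw [Pi.add_apply, Pi.single_eq_same, Pi.single_eq_of_ne (by decide), add_zero]
    · show (Pi.single 5 a + Pi.single 6 b : Fin 7 → Op K) 6 = b
      rw [Pi.add_apply, Pi.single_eq_same, Pi.single_eq_of_ne (by decide), zero_add]
    · show (Pi.single 5 c + Pi.single 6 d : Fin 7 → Op K) 5 = c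
      rw [Pi.add_apply, Pi.single_eq_same, Pi.single_eq_of_ne (by decide), add_zero]
    · show (Pi.single 5 c + Pi.single 6 d : Fin 7 → Op K) 6 = d
      rw [Pi.add_apply, Pi.single_eq_same, Pi.single_eq_of_ne (by decide), zero_add]
  have key : ∀ a b c d : Op K, ∀ (M : Mat K), M = W1.mat2 a b c d → ∀ (p : K),
      res a = p → res b = 0 → res c = 0 → res d = p →
      res (M 3 5) = p ∧ res (M 3 6) = 0 ∧ res (M 4 5) = 0 ∧ res (M 4 6) = p := by
    rintro a b c d M rfl p ha hb hc hd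
    obtain ⟨h1, h2, h3, h4⟩ := e3 a b c d
    rw [h1, h2, h3, h4]
    exact ⟨ha, hb, hc, hd⟩
  fin_cases k <;> fin_cases l
  · exact key 1 0 (D g 0 * X 1) (1 - D g 0 * X 0) _ rfl _ res_one res_zero (res_DX g 0 1)
      (by rw [res_sub, res_one, res_DX, sub_zero]; rfl)
  · exact key (-(g • (D g 0 * X 1))) (g • (D g 0 * X 0)) 0 0 _ rfl _
      (by rw [res_neg, res_smul, res_DX, mul_zero, neg_zero]; rfl)
      (by rw [res_smul, res_DX, mul_zero]) res_zero res_zero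
  · exact key 0 0 (g • (D g 1 * X 1)) (-(g • (D g 1 * X 0))) _ rfl _ res_zero res_zero
      (by rw [res_smul, res_DX, mul_zero])
      (by rw [res_neg, res_smul, res_DX, mul_zero, neg_zero]; rfl)
  · exact key (1 - D g 1 * X 1) (D g 1 * X 0) 0 1 _ rfl _
      (by rw [res_sub, res_one, res_DX, sub_zero]; rfl) (res_DX g 1 0) res_zero res_one

theorem d2_sum (hg : Gen g) (u : Fin 2 → Pv g 1 3) (j : Fin 2) :
    (W1.d2 hg u j : A g 1) = ∑ k, (u k : A g 1) * (W1.b2 hg k j : A g 1) := by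
  rw [Fin.sum_univ_two]
  exact W1.d2_coe hg u j

/-- field `mi`, `s = 1` -/
theorem fmi1 (hg : Gen g) (φ : (Fin 2 → Pv g 1 4) →ₗ[A g 1] W g 1) (h : φ ∘ₗ W1.d2 hg = 0) :
    φ = 0 :=
  Rep.mi1 (T := rep g 1) (e3 := eps g 1 3) (e4 := eps g 1 4) (P3 := Pv g 1 3) (P4 := Pv g 1 4)
    (rep_proj 3 _ (by decide)) (rep_proj 4 _ (by decide)) (memPv 3) (memPv 4)
    (eps_idem g 1 3) (eps_idem g 1 4) (fun k j => (W1.b2 hg k j : A g 1))
    (fun k j => (res_b2 hg k j).1) (fun k j => (res_b2 hg k j).2.1)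
    (fun k j => (res_b2 hg k j).2.2.1) (fun k j => (res_b2 hg k j).2.2.2)
    (W1.d2 hg) (d2_sum hg) φ h

/-- field `ms`, `s = 1` -/
theorem fms1 (hg : Gen g) (φ : (Fin 2 → Pv g 1 3) →ₗ[A g 1] W g 1) :
    ∃ ψ : (Fin 2 → Pv g 1 4) →ₗ[A g 1] W g 1, ψ ∘ₗ W1.d2 hg = φ :=
  Rep.ms1 (T := rep g 1) (e3 := eps g 1 3) (P3 := Pv g 1 3) (P4 := Pv g 1 4)
    (rep_proj 3 _ (by decide)) (memPv 3) (eps_idem g 1 3) (fun k j => (W1.b2 hg k j : A g 1))
    (fun k j => (res_b2 hg k j).1) (fun k j => (res_b2 hg k j).2.1)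
    (fun k j => (res_b2 hg k j).2.2.1) (fun k j => (res_b2 hg k j).2.2.2)
    (W1.d2 hg) (d2_sum hg) φ

end Crest.Agent.R186.B281M
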