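import Crest.Agent.R186.DM_136

/-!
Row 186, S0281, leaf B281.M (helper136), part 2: the fields `mi`, `ms` of `LinkB328.Side`
(`Hom(P₁, W) ≃ Hom(P₂, W)` along `d₂`) for `s = 0` and `s = 1`, over an abstract ring `R` with a
module `W ≃ K⁷` on which `R` acts by the matrices `ρ x` (for `R = A g s`: `ρ x = res (x.fst)`).
-/

set_option autoImplicit false
set_option linter.unusedSectionVars false

open Matrix

namespace Crest.Agent.R186.B281M

section abs

variable {K : Type*} [Field K] {R : Type*} [Semiring R] {W : Type*} [AddCommMonoid W] [Module R W]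

/-- `R` acts on `W ≃ K⁷` by matrices -/
structure Rep (K : Type*) [Field K] (R : Type*) [Semiring R] (W : Type*) [AddCommMonoid W]
    [Module R W] where
  co : W ≃+ (Fin 7 → K)
  ρ : R → Fin 7 → Fin 7 → K
  act : ∀ x w r, co (x • w) r = ∑ j, ρ x r j * co w j

namespace Rep

variable (T : Rep K R W)

/-- `e` acts as the projector onto the positions in `S` -/
def IsProj (e : R) (S : Fin 7 → Bool) : Prop := ∀ i j, T.ρ e i j = if i = j ∧ S i then 1 else 0

variable {T}

theorem IsProj.smul {e : R} {S : Fin 7 → Bool} (h : T.IsProj e S) (w : W) (r : Fin 7) :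
    T.co (e • w) r = if S r then T.co w r else 0 := by
  rw [T.act, Finset.sum_eq_single r]
  · rw [h]
    by_cases hr : S r
    · rw [if_pos ⟨rfl, hr⟩, if_pos hr, one_mul]
    · rw [if_neg (fun h => hr h.2), if_neg hr, zero_mul]
  · intro j _ hj
    rw [h, if_neg (fun h => hj h.1.symm), zero_mul]
  · intro h
    exact absurd (Finset.mem_univ r) h

variable (T) in
theorem ext {v w : W} (h : ∀ r, T.co v r = T.co w r) : v = w := T.co.injective (funext h)

variable (T) in
theorem co_sum {ι : Type*} (t : Finset ι) (w : ι → W) (r : Fin 7) :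
    T.co (∑ i ∈ t, w i) r = ∑ i ∈ t, T.co (w i) r := by
  rw [map_sum, Finset.sum_apply]

/-! ### `s = 0` -/

section s0

variable {e1 e3 : R} {P1 P3 : Submodule R R}
  (h1 : T.IsProj e1 ![false, true, false, false, false, false, false])
  (h3 : T.IsProj e3 ![false, false, false, true, true, false, false])
  (hP1 : ∀ x, x ∈ P1 ↔ x * e1 = x) (hP3 : ∀ x, x ∈ P3 ↔ x * e3 = x)
  (he1 : e1 * e1 = e1) (he3 : e3 * e3 = e3)
  (m : Fin 2 → Fin 2 → Fin 2 → R)
  (hm3 : ∀ k i j, T.ρ (m k i j) 1 3 = if k = j ∧ i = 0 then 1 else 0)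
  (hm4 : ∀ k i j, T.ρ (m k i j) 1 4 = if k = j ∧ i = 1 then 1 else 0)
  (d : (Fin 2 → Fin 2 → P1) →ₗ[R] (Fin 2 → P3))
  (hd : ∀ u j, (d u j : R) = ∑ k, ∑ i, (u k i : R) * m k i j)

/-- the uncurried map -/
def cur (P : Submodule R R) : (Fin 2 × Fin 2 → P) ≃ₗ[R] (Fin 2 → Fin 2 → P) :=
  LinearEquiv.curry R P (Fin 2) (Fin 2)

theorem cur_single (P : Submodule R R) (k i : Fin 2) (x : P) (k' i' : Fin 2) :
    cur P (Pi.single (k, i) x) k' i' = if k' = k ∧ i' = i then x else 0 := by
  show (Pi.single (k, i) x : Fin 2 × Fin 2 → P) (k', i') = _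
  by_cases h : k' = k ∧ i' = i
  · rw [if_pos h, h.1, h.2, Pi.single_eq_same]
  · rw [if_neg h, Pi.single_eq_of_ne]
    intro h2
    exact h ⟨congrArg Prod.fst h2, congrArg Prod.snd h2⟩

include hd in
theorem d_single (k i j : Fin 2) :
    (((d ∘ₗ (cur P1).toLinearMap) (Pi.single (k, i) (gn hP1 he1))) j : R) = e1 * m k i j := by
  rw [LinearMap.comp_apply, hd]
  rw [Finset.sum_eq_single k, Finset.sum_eq_single i]
  · change ((cur P1 (Pi.single (k, i) (gn hP1 he1)) k i : P1) : R) * m k i j = _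
    rw [cur_single, if_pos ⟨rfl, rfl⟩]
    rfl
  · intro i' _ hi
    change ((cur P1 (Pi.single (k, i) (gn hP1 he1)) k i' : P1) : R) * m k i' j = _
    rw [cur_single, if_neg (fun h => hi h.2)]
    exact zero_mul _
  · intro h
    exact absurd (Finset.mem_univ i) h
  · intro k' _ hk
    refine Finset.sum_eq_zero fun i' _ => ?_
    change ((cur P1 (Pi.single (k, i) (gn hP1 he1)) k' i' : P1) : R) * m k' i' j = _
    rw [cur_single, if_neg (fun h => hk h.1)]
    exact zero_mul _
  · intro h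
    exact absurd (Finset.mem_univ k) h

/-- the value at the position `1` -/
theorem m_smul (w : W) (hw : ∀ r, ¬(r = 3 ∨ r = 4) → T.co w r = 0) (x : R) :
    T.co (x • w) 1 = T.ρ x 1 3 * T.co w 3 + T.ρ x 1 4 * T.co w 4 := by
  rw [T.act]
  simp only [Fin.sum_univ_seven]
  rw [hw 0 (by decide), hw 1 (by decide), hw 2 (by decide), hw 5 (by decide), hw 6 (by decide)]
  simp

include h1 hm3 hm4 in
theorem sum_smul (w : Fin 2 → W) (hw : ∀ j r, ¬(r = 3 ∨ r = 4) → T.co (w j) r = 0) (k i : Fin 2)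
    (r : Fin 7) : T.co (∑ j, (e1 * m k i j) • w j) r =
      if r = 1 then (if i = 0 then T.co (w k) 3 else T.co (w k) 4) else 0 := by
  rw [T.co_sum]
  by_cases hr : r = 1
  · rw [if_pos hr, hr]
    have h5 : ∀ j, T.co ((e1 * m k i j) • w j) 1 =
        (if k = j ∧ i = 0 then 1 else 0) * T.co (w j) 3 +
        (if k = j ∧ i = 1 then 1 else 0) * T.co (w j) 4 := by
      intro j
      rw [mul_smul, h1.smul, if_pos (by decide), m_smul (w j) (hw j), hm3, hm4]
    simp only [h5]
    fin_cases k <;> fin_cases i <;> simp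
  · rw [if_neg hr]
    refine Finset.sum_eq_zero fun j _ => ?_
    rw [mul_smul, h1.smul, if_neg]
    revert hr
    fin_cases r <;> decide

include h1 h3 hP1 hP3 he1 he3 hm3 hm4 hd in
/-- field `mi`, `s = 0` -/
theorem mi0 (φ : (Fin 2 → P3) →ₗ[R] W) (h : φ ∘ₗ d = 0) : φ = 0 := by
  refine mi_core hP1 he1 hP3 he3 (d ∘ₗ (cur P1).toLinearMap) φ ?_ ?_
  · rw [← LinearMap.comp_assoc, h, LinearMap.zero_comp]
  · intro w hw hk j
    have hw' : ∀ j r, ¬(r = 3 ∨ r = 4) → T.co (w j) r = 0 := by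
      intro j r hr
      rw [← hw j, h3.smul, if_neg]
      revert hr
      fin_cases r <;> decide
    have key : ∀ i, (if i = (0 : Fin 2) then T.co (w j) 3 else T.co (w j) 4) = 0 := by
      intro i
      have h6 := congrArg (fun v => T.co v 1) (hk (j, i))
      simp only [d_single hP1 he1 m d hd, map_zero, Pi.zero_apply] at h6
      have h7 := sum_smul h1 m hm3 hm4 w hw' j i 1
      rw [if_pos rfl] at h7
      exact h7.symm.trans h6
    have k3 : T.co (w j) 3 = 0 := by simpa using key 0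
    have k4 : T.co (w j) 4 = 0 := by simpa using key 1
    refine T.ext fun r => ?_
    rw [map_zero, Pi.zero_apply]
    by_cases hr : r = 3 ∨ r = 4
    · rcases hr with rfl | rfl
      · exact k3
      · exact k4
    · exact hw' j r hr

include h1 hP1 he1 hm3 hm4 hd in
/-- field `ms`, `s = 0` -/
theorem ms0 (φ : (Fin 2 → Fin 2 → P1) →ₗ[R] W) :
    ∃ ψ : (Fin 2 → P3) →ₗ[R] W, ψ ∘ₗ d = φ := by
  set φ' := φ ∘ₗ (cur P1).toLinearMap with hφ'
  set c : Fin 2 → Fin 2 → K := fun k i => T.co (φ' (Pi.single (k, i) (gn hP1 he1))) 1 with hc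
  set w : Fin 2 → W := fun j =>
    T.co.symm (fun r => if r = 3 then c j 0 else if r = 4 then c j 1 else 0) with hw
  have hwc : ∀ j r, T.co (w j) r = if r = 3 then c j 0 else if r = 4 then c j 1 else 0 := by
    intro j r
    rw [hw, AddEquiv.apply_symm_apply]
  obtain ⟨ψ, hψ⟩ := ms_core hP1 he1 (d ∘ₗ (cur P1).toLinearMap) φ' w (by
    rintro ⟨k, i⟩
    simp only [d_single hP1 he1 m d hd]
    refine T.ext fun r => ?_
    have h7 := sum_smul h1 m hm3 hm4 w (fun j r hr => by
      rw [hwc, if_neg (fun h => hr (Or.inl h)), if_neg (fun h => hr (Or.inr h))]) k i r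
    refine h7.trans ?_
    have h8 := congrArg (fun v => T.co v r) (homF_gn hP1 he1 φ' (k, i))
    rw [h1.smul] at h8
    refine Eq.trans ?_ h8
    rw [hwc, hwc]
    by_cases hr : r = 1
    · subst hr
      fin_cases i <;> rfl
    · rw [if_neg hr, if_neg]
      revert hr
      fin_cases r <;> decide)
  refine ⟨ψ, ?_⟩
  refine LinearMap.ext fun x => ?_
  have := LinearMap.congr_fun hψ ((cur P1).symm x)
  simpa [hφ'] using this

end s0

/-! ### `s = 1` -/

section s1

variable {e3 e4 : R} {P3 P4 : Submodule R R}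
  (h3 : T.IsProj e3 ![false, false, false, true, true, false, false])
  (h4 : T.IsProj e4 ![false, false, false, false, false, true, true])
  (hP3 : ∀ x, x ∈ P3 ↔ x * e3 = x) (hP4 : ∀ x, x ∈ P4 ↔ x * e4 = x)
  (he3 : e3 * e3 = e3) (he4 : e4 * e4 = e4)
  (m : Fin 2 → Fin 2 → R)
  (hm35 : ∀ k j, T.ρ (m k j) 3 5 = if k = j then 1 else 0)
  (hm36 : ∀ k j, T.ρ (m k j) 3 6 = 0)
  (hm45 : ∀ k j, T.ρ (m k j) 4 5 = 0)
  (hm46 : ∀ k j, T.ρ (m k j) 4 6 = if k = j then 1 else 0)
  (d : (Fin 2 → P3) →ₗ[R] (Fin 2 → P4))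
  (hd : ∀ u j, (d u j : R) = ∑ k, (u k : R) * m k j)

include hd in
theorem d_single' (k j : Fin 2) :
    ((d (Pi.single k (gn hP3 he3))) j : R) = e3 * m k j := by
  rw [hd, Finset.sum_eq_single k]
  · rw [Pi.single_eq_same]
    rfl
  · intro k' _ hk
    rw [Pi.single_eq_of_ne hk]
    exact zero_mul _
  · intro h
    exact absurd (Finset.mem_univ k) h

theorem m_smul' (w : W) (hw : ∀ r, ¬(r = 5 ∨ r = 6) → T.co w r = 0) (x : R) (r : Fin 7) :
    T.co (x • w) r = T.ρ x r 5 * T.co w 5 + T.ρ x r 6 * T.co w 6 := by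
  rw [T.act]
  simp only [Fin.sum_univ_seven]
  rw [hw 0 (by decide), hw 1 (by decide), hw 2 (by decide), hw 3 (by decide), hw 4 (by decide)]
  simp

include h3 hm35 hm36 hm45 hm46 in
theorem sum_smul' (w : Fin 2 → W) (hw : ∀ j r, ¬(r = 5 ∨ r = 6) → T.co (w j) r = 0) (k : Fin 2)
    (r : Fin 7) : T.co (∑ j, (e3 * m k j) • w j) r =
      if r = 3 then T.co (w k) 5 else if r = 4 then T.co (w k) 6 else 0 := by
  rw [T.co_sum]
  by_cases h5 : r = 3
  · subst h5
    rw [if_pos rfl]
    have h6 : ∀ j, T.co ((e3 * m k j) • w j) 3 = (if k = j then 1 else 0) * T.co (w j) 5 := by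
      intro j
      rw [mul_smul, h3.smul, if_pos (by decide), m_smul' (w j) (hw j), hm35, hm36, zero_mul,
        add_zero]
    simp only [h6]
    fin_cases k <;> simp
  · rw [if_neg h5]
    by_cases h7 : r = 4
    · subst h7
      rw [if_pos rfl]
      have h6 : ∀ j, T.co ((e3 * m k j) • w j) 4 = (if k = j then 1 else 0) * T.co (w j) 6 := by
        intro j
        rw [mul_smul, h3.smul, if_pos (by decide), m_smul' (w j) (hw j), hm45, hm46, zero_mul,
          zero_add]
      simp only [h6]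
      fin_cases k <;> simp
    · rw [if_neg h7]
      refine Finset.sum_eq_zero fun j _ => ?_
      rw [mul_smul, h3.smul, if_neg]
      revert h5 h7
      fin_cases r <;> decide

include h3 h4 hP3 hP4 he3 he4 hm35 hm36 hm45 hm46 hd in
/-- field `mi`, `s = 1` -/
theorem mi1 (φ : (Fin 2 → P4) →ₗ[R] W) (h : φ ∘ₗ d = 0) : φ = 0 := by
  refine mi_core hP3 he3 hP4 he4 d φ h ?_
  intro w hw hk j
  have hw' : ∀ j r, ¬(r = 5 ∨ r = 6) → T.co (w j) r = 0 := by
    intro j r hr
    rw [← hw j, h4.smul, if_neg]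
    revert hr
    fin_cases r <;> decide
  have key : ∀ r, (if r = (3 : Fin 7) then T.co (w j) 5 else if r = 4 then T.co (w j) 6 else 0)
      = 0 := by
    intro r
    have h6 := congrArg (fun v => T.co v r) (hk j)
    simp only [d_single' hP3 he3 m d hd, map_zero, Pi.zero_apply] at h6
    have h7 := sum_smul' h3 m hm35 hm36 hm45 hm46 w hw' j r
    exact h7.symm.trans h6
  have k5 : T.co (w j) 5 = 0 := by simpa using key 3
  have k6 : T.co (w j) 6 = 0 := by simpa using key 4
  refine T.ext fun r => ?_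
  rw [map_zero, Pi.zero_apply]
  by_cases hr : r = 5 ∨ r = 6
  · rcases hr with rfl | rfl
    · exact k5
    · exact k6
  · exact hw' j r hr

include h3 hP3 he3 hm35 hm36 hm45 hm46 hd in
/-- field `ms`, `s = 1` -/
theorem ms1 (φ : (Fin 2 → P3) →ₗ[R] W) :
    ∃ ψ : (Fin 2 → P4) →ₗ[R] W, ψ ∘ₗ d = φ := by
  set c : Fin 2 → Fin 7 → K := fun k r => T.co (φ (Pi.single k (gn hP3 he3))) r with hc
  set w : Fin 2 → W := fun j =>
    T.co.symm (fun r => if r = 5 then c j 3 else if r = 6 then c j 4 else 0) with hw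
  have hwc : ∀ j r, T.co (w j) r = if r = 5 then c j 3 else if r = 6 then c j 4 else 0 := by
    intro j r
    rw [hw, AddEquiv.apply_symm_apply]
  refine ms_core hP3 he3 d φ w ?_
  intro k
  simp only [d_single' hP3 he3 m d hd]
  refine T.ext fun r => ?_
  have h7 := sum_smul' h3 m hm35 hm36 hm45 hm46 w (fun j r hr => by
    rw [hwc, if_neg (fun h => hr (Or.inl h)), if_neg (fun h => hr (Or.inr h))]) k r
  refine h7.trans ?_
  have h8 := congrArg (fun v => T.co v r) (homF_gn hP3 he3 φ k)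
  rw [h3.smul] at h8
  refine Eq.trans ?_ h8
  rw [hwc, hwc]
  fin_cases r <;> rfl

end s1

end Rep

end abs

end Crest.Agent.R186.B281M
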