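import Crest.Agent.R186.RingA_580
import Crest.Agent.R186.Inst_823
import Crest.Agent.R186.M2_291

/-!
Row 186, S0281, leaf B281.M (helper136): the elements `hE = (E₂₀ 1, 0)`,
`aE = (E₂₀ (d₁x₀)², 0)` of `A g s`, the element of `t` (`t0E = E₁₀ d₁x₀` for `s = 0`,
`t1E = E₄₀ d₁x₀` for `s = 1`), the two injectivities and the bijectivity of the middle map
`Hom(P₁, W) → Hom(P₂, W)`, generic in the submodules `P v = {x | x * e v = x}`.
-/

set_option autoImplicit false
set_option linter.unusedSectionVars false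

open Matrix

namespace Crest.Agent.R186.B281M

open B281

/-! ### maps from finite families `ι → R e` -/

section gen

variable {R : Type*} [Semiring R] {W : Type*} [AddCommMonoid W] [Module R W]
  {e : R} {P : Submodule R R} (hP : ∀ x, x ∈ P ↔ x * e = x) (hee : e * e = e)
  {ι : Type*} [Fintype ι] [DecidableEq ι]

/-- the generator -/
def gn : P := ⟨e, (hP e).2 hee⟩

theorem smul_gn (x : P) : (x : R) • gn hP hee = x := Subtype.ext ((hP _).1 x.2)

theorem gn_smul : e • gn hP hee = gn hP hee := smul_gn hP hee (gn hP hee)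

theorem homF_apply (φ : (ι → P) →ₗ[R] W) (x : ι → P) :
    φ x = ∑ i, (x i : R) • φ (Pi.single i (gn hP hee)) := by
  have h1 : x = ∑ i, (x i : R) • (Pi.single i (gn hP hee) : ι → P) := by
    funext j
    rw [Finset.sum_apply, Finset.sum_eq_single j]
    · rw [Pi.smul_apply, Pi.single_eq_same, smul_gn]
    · intro i _ hij
      rw [Pi.smul_apply, Pi.single_eq_of_ne (Ne.symm hij), smul_zero]
    · intro h
      exact absurd (Finset.mem_univ j) h
  conv_lhs => rw [h1]
  rw [map_sum]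
  exact Finset.sum_congr rfl fun i _ => map_smul _ _ _

theorem homF_gn (φ : (ι → P) →ₗ[R] W) (i : ι) :
    e • φ (Pi.single i (gn hP hee)) = φ (Pi.single i (gn hP hee)) := by
  rw [← map_smul]
  congr 1
  funext j
  rw [Pi.smul_apply]
  by_cases h : j = i
  · subst h
    rw [Pi.single_eq_same, gn_smul]
  · rw [Pi.single_eq_of_ne h, smul_zero]

theorem homF_ext (φ ψ : (ι → P) →ₗ[R] W)
    (h : ∀ i, φ (Pi.single i (gn hP hee)) = ψ (Pi.single i (gn hP hee))) : φ = ψ := by
  refine LinearMap.ext fun x => ?_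
  rw [homF_apply hP hee φ x, homF_apply hP hee ψ x]
  simp only [h]

/-- the map `x ↦ Σ xᵢ wᵢ` -/
def ofWF (P : Submodule R R) (w : ι → W) : (ι → P) →ₗ[R] W where
  toFun x := ∑ i, (x i : R) • w i
  map_add' x y := by
    rw [← Finset.sum_add_distrib]
    exact Finset.sum_congr rfl fun i _ => add_smul _ _ _
  map_smul' c x := by
    rw [RingHom.id_apply, Finset.smul_sum]
    exact Finset.sum_congr rfl fun i _ => mul_smul _ _ _

variable {f : R} {Q : Submodule R R} (hQ : ∀ x, x ∈ Q ↔ x * f = x) (hff : f * f = f)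
  {κ : Type*} [Fintype κ] [DecidableEq κ]

theorem ms_core (d : (κ → P) →ₗ[R] (ι → Q)) (φ : (κ → P) →ₗ[R] W) (w : ι → W)
    (hw : ∀ k, ∑ i, (d (Pi.single k (gn hP hee)) i : R) • w i = φ (Pi.single k (gn hP hee))) :
    ∃ ψ : (ι → Q) →ₗ[R] W, ψ ∘ₗ d = φ := by
  exact ⟨ofWF Q w, homF_ext hP hee _ _ hw⟩

include hQ hff in
theorem mi_core (d : (κ → P) →ₗ[R] (ι → Q)) (φ : (ι → Q) →ₗ[R] W) (h : φ ∘ₗ d = 0)
    (hw : ∀ w : ι → W, (∀ i, f • w i = w i) →
      (∀ k, ∑ i, (d (Pi.single k (gn hP hee)) i : R) • w i = 0) → ∀ i, w i = 0) : φ = 0 := by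
  refine homF_ext hQ hff _ _ (hw _ (homF_gn hQ hff φ) fun k => ?_)
  rw [← homF_apply hQ hff φ]
  exact LinearMap.congr_fun h _

end gen

variable {K : Type} [Field K] {g : K} {s : ℤ}

/-! ### right multiplications on `Fil` -/

theorem D_pow_X (hg : Gen g) (i : Fin 2) (b : ℕ) :
    ∃ c : K, (D g i : Op K) ^ b * X i = (g⁻¹) ^ b • (X i * D g i ^ b) + c • D g i ^ (b - 1) := by
  have h0 : (D g i : Op K) * X i = g⁻¹ • (X i * D g i) + (-g⁻¹) • 1 := by
    rw [X_D_self hg, smul_add, smul_smul, inv_mul_cancel₀ hg.1, one_smul]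
    module
  induction b with
  | zero => exact ⟨0, by simp⟩
  | succ b ih =>
    obtain ⟨c, hc⟩ := ih
    rcases Nat.eq_zero_or_pos b with hb | hb
    · subst hb
      refine ⟨-g⁻¹, ?_⟩
      simp only [zero_add, pow_one, Nat.sub_self, pow_zero]
      rw [h0]
    · refine ⟨-(g⁻¹ * g⁻¹ ^ b) + c, ?_⟩
      rw [pow_succ', mul_assoc, hc, mul_add, mul_smul_comm, ← mul_assoc, h0, mul_smul_comm,
        ← pow_succ', Nat.sub_add_cancel hb, Nat.add_sub_cancel, add_mul, smul_mul_assoc,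
        smul_mul_assoc, one_mul, mul_assoc, ← pow_succ', pow_succ' g⁻¹ b]
      module

theorem mon_mul_D (g : K) (a b : ℕ × ℕ) (i : Fin 2) :
    ∃ b' : ℕ × ℕ, b'.1 + b'.2 = b.1 + b.2 + 1 ∧ mon g a b * D g i = mon g a b' := by
  have hc : ∀ (m n : ℕ), (D g 1 : Op K) ^ m * D g 0 ^ n = D g 0 ^ n * D g 1 ^ m := fun m n =>
    ((show Commute (D g 1 : Op K) (D g 0) from D_comm g 1 0).pow_pow m n)
  fin_cases i
  · refine ⟨(b.1 + 1, b.2), by simp; ring, ?_⟩
    show mon g a b * D g 0 = _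
    unfold mon
    have := hc b.2 1
    rw [pow_one] at this
    rw [mul_assoc _ (D g 1 ^ b.2), this, ← mul_assoc, mul_assoc _ (D g 0 ^ b.1), ← pow_succ]
  · refine ⟨(b.1, b.2 + 1), by simp; ring, ?_⟩
    show mon g a b * D g 1 = _
    unfold mon
    rw [mul_assoc _ (D g 1 ^ b.2), ← pow_succ]

theorem mul_D {k P : ℤ} {T : Op K} (hT : T ∈ Fil g k P) (i : Fin 2) :
    T * D g i ∈ Fil g (k + 1) (P - 1) := by
  induction hT using Submodule.span_induction with
  | mem x hx =>
    obtain ⟨a, b, h1, h2, rfl⟩ := hx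
    obtain ⟨b', hb, e⟩ := mon_mul_D g a b i
    rw [e]
    refine mon_mem g a b' ?_ ?_ <;> omega
  | zero => rw [zero_mul]; exact zero_mem _
  | add x y _ _ hx hy => rw [add_mul]; exact add_mem hx hy
  | smul a x _ hx => rw [smul_mul_assoc]; exact Submodule.smul_mem _ a hx

theorem mon_mul_X0 (hg : Gen g) (a b : ℕ × ℕ) :
    ∃ c c' : K, mon g a b * X 0 = c • mon g (a.1 + 1, a.2) b + c' • mon g a (b.1 - 1, b.2) ∧
      (b.1 = 0 → c' = 0) := by
  have h1 : (D g 1 : Op K) ^ b.2 * X 0 = X 0 * D g 1 ^ b.2 :=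
    ((show Commute (X 0 : Op K) (D g 1) from X_D g (by decide)).pow_right b.2).symm
  have h2 : ∀ n : ℕ, (X 1 : Op K) ^ n * X 0 = X 0 * X 1 ^ n := fun n =>
    ((show Commute (X 0 : Op K) (X 1) from X_comm 0 1).pow_right n).symm
  obtain ⟨c, hc⟩ := D_pow_X hg 0 b.1
  by_cases hb : b.1 = 0
  · refine ⟨1, 0, ?_, fun _ => rfl⟩
    unfold mon
    simp only [hb, pow_zero, mul_one, one_smul, zero_smul, add_zero]
    rw [mul_assoc _ (D g 1 ^ b.2), h1, ← mul_assoc, mul_assoc _ (X 1 ^ a.2), h2, ← mul_assoc,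
      ← pow_succ]
  · refine ⟨g⁻¹ ^ b.1, c, ?_, fun h => absurd h hb⟩
    unfold mon
    rw [mul_assoc _ (D g 1 ^ b.2), h1, ← mul_assoc, mul_assoc _ (D g 0 ^ b.1), hc, mul_add,
      add_mul, mul_smul_comm, mul_smul_comm, smul_mul_assoc, smul_mul_assoc]
    congr 2
    rw [← mul_assoc, mul_assoc _ (X 1 ^ a.2), h2, ← mul_assoc, ← pow_succ]

theorem mul_X0 (hg : Gen g) {k P : ℤ} {T : Op K} (hT : T ∈ Fil g k P) :
    T * X 0 ∈ Fil g k (P + 1) := by
  induction hT using Submodule.span_induction with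
  | mem x hx =>
    obtain ⟨a, b, h1, h2, rfl⟩ := hx
    obtain ⟨c, c', e, h3⟩ := mon_mul_X0 hg a b
    rw [e]
    refine add_mem (Submodule.smul_mem _ _ (mon_mem g _ _ h1 ?_)) ?_
    · show ((a.1 + 1 : ℕ) : ℤ) + a.2 - (b.1 + b.2) = P + 1
      push_cast
      omega
    · by_cases hb : b.1 = 0
      · rw [h3 hb, zero_smul]
        exact zero_mem _
      · refine Submodule.smul_mem _ _ (mon_mem g _ _ ?_ ?_)
        · show ((b.1 - 1 : ℕ) : ℤ) + b.2 ≤ k
          omega
        · show (a.1 : ℤ) + a.2 - ((b.1 - 1 : ℕ) + b.2) = P + 1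
          omega
  | zero => rw [zero_mul]; exact zero_mem _
  | add x y _ _ hx hy => rw [add_mul]; exact add_mem hx hy
  | smul a x _ hx => rw [smul_mul_assoc]; exact Submodule.smul_mem _ a hx

theorem mul_DX (hg : Gen g) {k P : ℤ} {T : Op K} (hT : T ∈ Fil g k P) :
    T * (D g 1 * X 0) ∈ Fil g (k + 1) P := by
  have := mul_X0 hg (mul_D hT 1)
  rwa [sub_add_cancel, mul_assoc] at this

/-! ### operators of order `≤ 0` -/

/-- the translation by `n` -/
noncomputable def tau (K : Type) [Field K] (n : ℤ × ℤ) : Op K :=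
  Finsupp.lmapDomain K K (fun m => m + n)

theorem tau_single (n m : ℤ × ℤ) (a : K) :
    tau K n (Finsupp.single m a) = Finsupp.single (m + n) a := by
  simp [tau]

theorem X_tau (i : Fin 2) (n : ℤ × ℤ) : Commute (X i : Op K) (tau K n) := by
  apply op_ext
  intro m
  simp only [Module.End.mul_apply, X_single, tau_single]
  congr 1
  abel

theorem Fil_zero_tau {P : ℤ} {T : Op K} (hT : T ∈ Fil g 0 P) (n : ℤ × ℤ) :
    T * tau K n = tau K n * T := by
  induction hT using Submodule.span_induction with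
  | mem x hx =>
    obtain ⟨a, b, h1, h2, rfl⟩ := hx
    have h3 : b.1 = 0 := by omega
    have h4 : b.2 = 0 := by omega
    unfold mon
    simp only [h3, h4, pow_zero, mul_one]
    exact ((X_tau 0 n).pow_left a.1).mul_left ((X_tau 1 n).pow_left a.2)
  | zero => rw [zero_mul, mul_zero]
  | add x y _ _ hx hy => rw [add_mul, mul_add, hx, hy]
  | smul a x _ hx => rw [smul_mul_assoc, mul_smul_comm, hx]

/-- an operator of order `≤ 0` which kills one monomial is zero -/
theorem Fil_zero_eq {P : ℤ} {T : Op K} (hT : T ∈ Fil g 0 P) (m : ℤ × ℤ)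
    (h : T (Finsupp.single m 1) = 0) : T = 0 := by
  apply op_ext
  intro m'
  have h1 := LinearMap.congr_fun (Fil_zero_tau hT (m' - m)) (Finsupp.single m 1)
  rw [Module.End.mul_apply, Module.End.mul_apply, h, map_zero, tau_single,
    add_sub_cancel] at h1
  rw [h1, LinearMap.zero_apply]

theorem DX_single (m : ℤ × ℤ) (c : K) :
    (D g 1 * X 0 : Op K) (Finsupp.single m c) = Finsupp.single (m + ev 0 - ev 1) (cq g m.2 * c) := by
  rw [Module.End.mul_apply, X_single, D_single]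
  congr 2
  simp [co, ev]

/-- `(d₁x₀)²` is independent of `1` over the operators of order `≤ 0` -/
theorem core (hg : Gen g) {P Q : ℤ} {T U : Op K} (hT : T ∈ Fil g 0 P) (hU : U ∈ Fil g 0 Q)
    (h : T * (D g 1 * X 0) ^ 2 = U) : T = 0 := by
  have h1 : U = 0 := by
    refine Fil_zero_eq hU (0, 0) ?_
    rw [← h, pow_two, Module.End.mul_apply, Module.End.mul_apply, DX_single]
    simp [cq_zero]
  rw [h1] at h
  have h2 := LinearMap.congr_fun h (Finsupp.single (0, -1) 1)
  rw [pow_two, Module.End.mul_apply, Module.End.mul_apply, DX_single, DX_single,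
    LinearMap.zero_apply] at h2
  have h3 : cq g (-1) ≠ 0 := cq_ne hg (by norm_num)
  have h4 : cq g (-1 - 1) ≠ 0 := cq_ne hg (by norm_num)
  set m : ℤ × ℤ := (0, -1) + ev 0 - ev 1 + ev 0 - ev 1 with hm
  have h5 : ((0, -1) + ev 0 - ev 1 : ℤ × ℤ).2 = -1 - 1 := by simp [ev]
  rw [h5, show (Finsupp.single m (cq g (-1 - 1) * (cq g (((0 : ℤ), (-1 : ℤ)) : ℤ × ℤ).2 * 1)) : Lau K)
    = (cq g (-1 - 1) * cq g (-1)) • Finsupp.single m 1 by
      rw [Finsupp.smul_single, smul_eq_mul, mul_one, mul_one], map_smul] at h2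
  exact Fil_zero_eq hT m ((smul_eq_zero.1 h2).resolve_left (mul_ne_zero h4 h3))

/-! ### the elements -/

/-- `(E_ij T, 0)` -/
noncomputable def sm (i j : Fin 7) (T : Op K) : DualNumber (Mat K) :=
  TrivSqZeroExt.inl (Matrix.single i j T)

theorem sm_fst (i j : Fin 7) (T : Op K) : (sm i j T).fst = Matrix.single i j T := rfl

theorem sm_snd (i j : Fin 7) (T : Op K) : (sm i j T).snd = 0 := rfl

theorem vecMul_single' (v : Fin 7 → Op K) (i j : Fin 7) (T : Op K) :
    v ᵥ* (Matrix.single i j T) = Pi.single j (v i * T) := by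
  funext l
  rw [Matrix.vecMul, dotProduct]
  rw [Finset.sum_eq_single i]
  · by_cases h : j = l
    · subst h
      rw [Matrix.single_apply_same, Pi.single_eq_same]
    · rw [Matrix.single_apply_of_col_ne _ _ h, mul_zero, Pi.single_eq_of_ne (Ne.symm h)]
  · intro b _ hb
    rw [Matrix.single_apply_of_row_ne (Ne.symm hb), mul_zero]
  · intro h
    exact absurd (Finset.mem_univ i) h

theorem sm_mem0 {i : Fin 7} {T : Op K}
    (h : ∀ (k P : ℤ) (v : Fin 7 → Op K), v ∈ Lat g s k P → v i * T ∈ Fil g k P) :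
    sm i 0 T ∈ A g s := by
  refine ⟨fun k P v hv => ?_, Pres.zero g s 1⟩
  rw [sm_fst, vecMul_single', add_zero]
  exact M2.lat_single 0 (Or.inl rfl) (fun _ => h k P v hv) (fun h => absurd h (by decide))
    (fun h => absurd h (by decide))

/-- `h² = 1 ∈ F₂D₀`, as an element of `e_{O(-2)} A e_{O(0)}` -/
noncomputable def hE (g : K) (s : ℤ) : A g s :=
  ⟨sm 2 0 1, sm_mem0 fun k P v hv => by
    rw [mul_one]
    exact Fil_mono g (by omega) hv.2.2.1⟩

/-- `a = (d₁x₀)²` -/
noncomputable def aE (hg : Gen g) (s : ℤ) : A g s :=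
  ⟨sm 2 0 ((D g 1 * X 0) ^ 2), sm_mem0 fun k P v hv => by
    rw [pow_two, ← mul_assoc]
    have := mul_DX hg (mul_DX hg hv.2.2.1)
    rwa [show k - 2 + 1 + 1 = k by ring] at this⟩

/-- `d₁x₀ ∈ e_{O(-1)} A e_{O(0)}` (for `s = 0`) -/
noncomputable def t0E (hg : Gen g) (s : ℤ) : A g s :=
  ⟨sm 1 0 (D g 1 * X 0), sm_mem0 fun k P v hv => by
    have := mul_DX hg hv.2.1
    rwa [sub_add_cancel] at this⟩

/-- `(0, d₁x₀)ᵗ ∈ e_{K₁(-1)} A e_{O(0)}` (for `s = 1`) -/
noncomputable def t1E (hg : Gen g) : A g 1 :=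
  ⟨sm 4 0 (D g 1 * X 0), sm_mem0 fun k P v hv => by
    have := mul_DX hg hv.2.2.2.1.2.1
    rwa [sub_add_cancel] at this⟩

/-! ### entries -/

theorem single_row (hs : s ≤ 1) (i : Fin 7) : (Pi.single i 1 : Fin 7 → Op K) ∈ Lat g s 2 0 := by
  have h1 : ∀ k : ℤ, 0 ≤ k → (1 : Op K) ∈ Fil g k 0 := fun k hk => one_mem_Fil g hk
  have h2 : ∀ (i : Fin 2) (k : ℤ), 0 ≤ k → (X i : Op K) ∈ Fil g k (0 + 1) :=
    fun i k hk => X_mem_Fil g i hk
  have e1 : ∀ (j : Fin 7) (k : ℤ), 0 ≤ k → (Pi.single i 1 : Fin 7 → Op K) j ∈ Fil g k 0 := by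
    intro j k hk
    rw [Pi.single_apply]
    split_ifs
    · exact h1 k hk
    · exact zero_mem _
  have e2 : ∀ (j : Fin 7) (l : Fin 2) (k : ℤ), 0 ≤ k →
      (Pi.single i 1 : Fin 7 → Op K) j * X l ∈ Fil g k (0 + 1) := by
    intro j l k hk
    rw [Pi.single_apply]
    split_ifs
    · rw [one_mul]; exact h2 l k hk
    · rw [zero_mul]; exact zero_mem _
  exact ⟨e1 _ _ (by omega), e1 _ _ (by omega), e1 _ _ (by omega),
    ⟨e1 _ _ (by omega), e1 _ _ (by omega), add_mem (e2 _ _ _ (by omega)) (e2 _ _ _ (by omega))⟩,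
    e1 _ _ (by omega), e1 _ _ (by omega), add_mem (e2 _ _ _ (by omega)) (e2 _ _ _ (by omega))⟩

theorem col2 (hs : s ≤ 1) {e : ℤ} {M : Mat K} (hM : Pres g s e M) (i : Fin 7) :
    M i 2 ∈ Fil g 0 e := by
  have h := hM 2 0 _ (single_row hs i)
  rw [Matrix.single_one_vecMul, zero_add] at h
  exact h.2.2.1

theorem mul_sm_fst (x : DualNumber (Mat K)) (i j : Fin 7) (T : Op K) :
    (x * sm i j T).fst = x.fst * Matrix.single i j T := rfl

theorem mul_sm_snd (x : DualNumber (Mat K)) (i j : Fin 7) (T : Op K) :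
    (x * sm i j T).snd = x.snd * Matrix.single i j T := by
  rw [TrivSqZeroExt.snd_mul, sm_snd, smul_zero, zero_add, sm_fst]
  rfl

theorem mul_single_apply (M : Mat K) (i j r : Fin 7) (T : Op K) :
    (M * Matrix.single i j T) r j = M r i * T := by
  rw [Matrix.mul_apply, Finset.sum_eq_single i]
  · rw [Matrix.single_apply_same]
  · intro b _ hb
    rw [Matrix.single_apply_of_row_ne (Ne.symm hb), mul_zero]
  · intro h
    exact absurd (Finset.mem_univ i) h

theorem mul_single_apply_ne (M : Mat K) {i j r c : Fin 7} (h : j ≠ c) (T : Op K) :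
    (M * Matrix.single i j T) r c = 0 := by
  rw [Matrix.mul_apply]
  refine Finset.sum_eq_zero fun b _ => ?_
  rw [Matrix.single_apply_of_col_ne _ _ h, mul_zero]

/-- an element of `A e_{O(-2)}` whose column `2` vanishes is zero -/
theorem ext2 {e2 : A g s} (h2 : e2.1 = sm 2 2 1) {x : A g s} (hx : x * e2 = x)
    (h : ∀ i, x.1.fst i 2 = 0 ∧ x.1.snd i 2 = 0) : x = 0 := by
  have h3 : x.1 = x.1 * sm 2 2 1 := by
    rw [← h2]
    exact (congrArg Subtype.val hx).symm
  apply Subtype.ext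
  apply TrivSqZeroExt.ext
  · ext1 i j
    by_cases hj : (2 : Fin 7) = j
    · subst hj
      exact (h i).1
    · rw [h3, mul_sm_fst, mul_single_apply_ne _ hj]
      rfl
  · ext1 i j
    by_cases hj : (2 : Fin 7) = j
    · subst hj
      exact (h i).2
    · rw [h3, mul_sm_snd, mul_single_apply_ne _ hj]
      rfl

/-- right multiplication by `hE` is injective on `A e_{O(-2)}` -/
theorem hh_core {e2 : A g s} (h2 : e2.1 = sm 2 2 1) {x : A g s} (hx : x * e2 = x)
    (h : x * hE g s = 0) : x = 0 := by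
  refine ext2 h2 hx fun i => ⟨?_, ?_⟩
  · have h3 := congrArg (fun y : A g s => y.1.fst i 0) h
    change (x.1 * sm 2 0 1).fst i 0 = 0 at h3
    rwa [mul_sm_fst, mul_single_apply, mul_one] at h3
  · have h3 := congrArg (fun y : A g s => y.1.snd i 0) h
    change (x.1 * sm 2 0 1).snd i 0 = 0 at h3
    rwa [mul_sm_snd, mul_single_apply, mul_one] at h3

/-- the images of `aE` and `hE` meet in zero, and `aE` is injective -/
theorem ah_core (hg : Gen g) (hs : s ≤ 1) {e2 : A g s} (h2 : e2.1 = sm 2 2 1) {x y : A g s}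
    (hx : x * e2 = x) (h : x * aE hg s = y * hE g s) : x = 0 := by
  refine ext2 h2 hx fun i => ⟨?_, ?_⟩
  · have h3 := congrArg (fun y : A g s => y.1.fst i 0) h
    change (x.1 * sm 2 0 _).fst i 0 = (y.1 * sm 2 0 1).fst i 0 at h3
    rw [mul_sm_fst, mul_sm_fst, mul_single_apply, mul_single_apply, mul_one] at h3
    exact core hg (col2 hs x.2.1 i) (col2 hs y.2.1 i) h3
  · have h3 := congrArg (fun y : A g s => y.1.snd i 0) h
    change (x.1 * sm 2 0 _).snd i 0 = (y.1 * sm 2 0 1).snd i 0 at h3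
    rw [mul_sm_snd, mul_sm_snd, mul_single_apply, mul_single_apply, mul_one] at h3
    exact core hg (col2 hs x.2.2 i) (col2 hs y.2.2 i) h3

/-! ### residues -/

/-- `x_i δ = 0` -/
theorem res_X {k P : ℤ} {T : Op K} (hT : T ∈ Fil g k P) (i : Fin 2) : res (T * X i) = 0 := by
  unfold res
  rw [Module.End.mul_apply, dl, X_single]
  refine NN_apply (Fil_NN hT (Finsupp.single_mem_supported K _ ?_))
  fin_cases i <;> simp [ev]

theorem res_DX (g : K) (i j : Fin 2) : res (D g i * X j) = 0 := by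
  have h : (D g i : Op K) ∈ Fil g 1 (-1) := by
    have := mul_D (one_mem_Fil g (le_refl 0)) i
    rwa [one_mul, zero_add, zero_sub] at this
  exact res_X h j

end Crest.Agent.R186.B281M
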