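import Crest.Agent.R186.Dual_560

/-!
Row 186 (A), leaf DUAL, part 2 (helper560): the regular module, and `exC`, `exV` of
`Hat827.Cells` from acyclicity of `D Z ⊗ X`.
-/

set_option autoImplicit false
set_option linter.style.haveILetI false
set_option linter.unusedSectionVars false

open MulOpposite

namespace Crest.Agent.R186.Dual560

open Hat827 Frame515

variable {K : Type} [Field K]

/-- the regular left module -/
def reg (A : DGA K) : LM A where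
  X := A.C
  gr := A.G
  d := A.D
  d_mem := A.D_mem
  d_d := A.D_D
  smul_mem := A.mul_mem
  leib := A.D_mul

/-- the regular right module -/
def regR (A : DGA K) : RM A where
  X := A.C
  gr := A.G
  d := A.D
  d_mem := A.D_mem
  d_d := A.D_D
  smul_mem := by
    intro k l a x ha hx
    have := A.mul_mem hx ha
    rwa [add_comm] at this
  leib a x := by
    show A.D (x * a) = x * A.D a + A.D x * a
    rw [A.D_mul, add_comm]

theorem sum_Icc {M : Type} [AddCommMonoid M] (N : ℕ) (f : ℤ → M) :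
    ∑ k ∈ Finset.Icc (0 : ℤ) N, f k = ∑ k ∈ Finset.range (N + 1), f k := by
  symm
  refine Finset.sum_bij (fun k _ => (k : ℤ)) (fun k hk => ?_) (fun a _ b _ h => ?_)
    (fun k hk => ?_) (fun _ _ => rfl)
  · rw [Finset.mem_range] at hk
    rw [Finset.mem_Icc]
    omega
  · exact_mod_cast h
  · rw [Finset.mem_Icc] at hk
    exact ⟨k.toNat, by rw [Finset.mem_range]; omega, by omega⟩

/-- projections of the regular module (input = the fields of `GrP44.GrP`) -/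
def prReg (A : DGA K) (pi : ℤ → A.C →ₗ[K] A.C) (mem : ∀ (k : ℤ) (a : A.C), pi k a ∈ A.G k)
    (same : ∀ (k : ℤ) (a : A.C), a ∈ A.G k → pi k a = a)
    (ne : ∀ (k l : ℤ) (a : A.C), k ≠ l → a ∈ A.G l → pi k a = 0)
    (sum : ∀ a : A.C, ∑ k ∈ Finset.range (A.N + 1), pi k a = a) : Pr (reg A).toGC where
  pi := pi
  mem := mem
  same h := same _ _ h
  ne h h' := ne _ _ _ h h'
  lo := 0
  hi := A.N
  sum x := (sum_Icc A.N (fun k => pi k x)).trans (sum x)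
  fin k := inferInstanceAs (Module.Finite K (A.G k))

/-- the dual statement in `Hom` form -/
theorem hom_of_zd {A : DGA K} {X : LCells A} {Z : LM A} (P : Pr Z.toGC) {p : ℤ}
    (h : Zd (tG (LMd Z) X) p) (φ : X.ι → Z.X) (h1 : ∀ σ, φ σ ∈ Z.gr ((X.s σ : ℤ) - p))
    (h2 : ∀ σ, X.e σ • φ σ = φ σ)
    (h3 : ∀ σ, Z.d (φ σ) + ∑ τ ∈ X.F (X.s σ), X.c σ τ • φ τ = 0) :
    ∃ ψ : X.ι → Z.X, (∀ σ, ψ σ ∈ Z.gr ((X.s σ : ℤ) - p + 1)) ∧ (∀ σ, X.e σ • ψ σ = ψ σ) ∧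
      ∀ σ, φ σ = Z.d (ψ σ) + ∑ τ ∈ X.F (X.s σ), X.c σ τ • ψ τ := by
  have hφ : φ ∈ (HomC X Z).gr (-p) := fun σ => ⟨h1 σ, h2 σ⟩
  have hd0 : (HomC X Z).d φ = 0 := funext fun σ => (HomC_d X Z φ σ).trans (h3 σ)
  obtain ⟨ψ, hψ, hψ'⟩ := (dpH P).zd h φ hφ hd0
  refine ⟨ψ, fun σ => ?_, fun σ => (hψ σ).2, fun σ => ?_⟩
  · have := (hψ σ).1
    rwa [show (X.s σ : ℤ) + (-p + 1) = X.s σ - p + 1 by ring] at this
  · rw [← hψ']
    exact HomC_d X Z ψ σ

/-- **`exC` of `Hat827.Cells`** -/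
theorem exC_of_ac {A : DGA K} {X : LCells A} (P : Pr (reg A).toGC)
    (h : Ac (tG (LMd (reg A)) X)) (p : ℤ) (φ : X.ι → A.C)
    (h1 : ∀ σ, φ σ ∈ A.G ((X.s σ : ℤ) - p)) (h2 : ∀ σ, X.e σ * φ σ = φ σ)
    (h3 : ∀ σ, A.D (φ σ) + ∑ τ ∈ X.F (X.s σ), X.c σ τ * φ τ = 0) :
    ∃ ψ : X.ι → A.C, (∀ σ, ψ σ ∈ A.G ((X.s σ : ℤ) - p + 1)) ∧ (∀ σ, X.e σ * ψ σ = ψ σ) ∧
      ∀ σ, φ σ = A.D (ψ σ) + ∑ τ ∈ X.F (X.s σ), X.c σ τ * ψ τ :=
  hom_of_zd (Z := reg A) P (h p) φ h1 h2 h3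

/-- a module in degree `0` -/
structure Deg0 {A : DGA K} (V : LM A) : Prop where
  top : V.gr 0 = ⊤
  bot : ∀ k : ℤ, k ≠ 0 → V.gr k = ⊥
  d : ∀ v, V.d v = 0

/-- projections of a finite-dimensional module in degree `0` -/
def prDeg0 {A : DGA K} {V : LM A} (h : Deg0 V) [Module.Finite K V.X] : Pr V.toGC where
  pi k := if k = 0 then LinearMap.id else 0
  mem k x := by
    by_cases hk : k = 0
    · subst hk
      rw [h.top]
      trivial
    · rw [if_neg hk]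
      exact Submodule.zero_mem _
  same := by
    intro k x hx
    by_cases hk : k = 0
    · rw [if_pos hk]
      rfl
    · rw [h.bot k hk] at hx
      rw [(Submodule.mem_bot K).1 hx, map_zero]
  ne := by
    intro k l x hkl hx
    by_cases hk : k = 0
    · subst hk
      rw [h.bot l (Ne.symm hkl)] at hx
      rw [(Submodule.mem_bot K).1 hx, map_zero]
    · rw [if_neg hk]
      rfl
  lo := 0
  hi := 0
  sum x := by
    rw [Finset.Icc_self, Finset.sum_singleton, if_pos rfl]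
    rfl
  fin k := inferInstanceAs (Module.Finite K (V.gr k))

/-- **`exV` of `Hat827.Cells`** -/
theorem exV_of_zd {A : DGA K} {X : LCells A} {V : LM A} (h0 : Deg0 V) [Module.Finite K V.X]
    (h : ∀ m : ℕ, Zd (tG (LMd V) X) ((m : ℤ) + 1)) (m : ℕ) (φ : X.ι → V.X)
    (h1 : ∀ σ, X.s σ ≠ m + 1 → φ σ = 0) (h2 : ∀ σ, X.e σ • φ σ = φ σ)
    (h3 : ∀ σ, X.s σ = m + 2 → ∑ τ ∈ X.F (m + 1), X.c σ τ • φ τ = 0) :
    ∃ ψ : X.ι → V.X, (∀ σ, X.s σ ≠ m → ψ σ = 0) ∧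
      ∀ σ, X.s σ = m + 1 → φ σ = ∑ τ ∈ X.F m, X.c σ τ • ψ τ := by
  classical
  have hz : ∀ {k : ℤ} {x : V.X}, x ∈ V.gr k → k ≠ 0 → x = 0 := by
    intro k x hx hk
    rw [h0.bot k hk] at hx
    exact (Submodule.mem_bot K).1 hx
  have h1' : ∀ σ, φ σ ∈ V.gr ((X.s σ : ℤ) - ((m : ℤ) + 1)) := by
    intro σ
    by_cases hs : X.s σ = m + 1
    · rw [show (X.s σ : ℤ) - ((m : ℤ) + 1) = 0 by omega, h0.top]
      trivial
    · rw [h1 σ hs]
      exact Submodule.zero_mem _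
  obtain ⟨ψ, p1, p2, p3⟩ := hom_of_zd (prDeg0 h0) (h m) φ h1' h2 (by
    intro σ
    rw [h0.d, zero_add]
    by_cases hs : X.s σ = m + 2
    · rw [← h3 σ hs]
      symm
      refine Finset.sum_subset (fun τ hτ => ?_) (fun τ _ hτ => ?_)
      · rw [X.mem_F] at hτ ⊢
        omega
      · rw [X.mem_F] at hτ
        rw [h1 τ (by omega), smul_zero]
    · refine Finset.sum_eq_zero fun τ _ => ?_
      refine hz (V.smul_mem (X.c_mem σ τ) (h1' τ)) ?_
      omega)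
  have hψ : ∀ σ, X.s σ ≠ m → ψ σ = 0 := fun σ hs => hz (p1 σ) (by omega)
  refine ⟨ψ, hψ, fun σ hs => ?_⟩
  rw [p3 σ, h0.d, zero_add]
  symm
  refine Finset.sum_subset (fun τ hτ => ?_) (fun τ _ hτ => ?_)
  · rw [X.mem_F] at hτ ⊢
    omega
  · rw [X.mem_F] at hτ
    rw [hψ τ (by omega), smul_zero]

end Crest.Agent.R186.Dual560
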