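import Crest.Agent.R186.DSq_384
import Crest.Agent.R186.Dual2_560

/-!
Row 186 (A), leaf A.FIN (helper384), part 2: the square
`D(A) ⊗ X → D(H)` is a quasi-isomorphism, and `D1`, `D2` of `HIn`.
-/

set_option autoImplicit false
set_option linter.style.haveILetI false
set_option linter.unusedSectionVars false

open MulOpposite

namespace Crest.Agent.R186.DSq384

open Hat827 Hat827.DGA Frame515 TB143 Res255 Adapt186 ConeHyp462

variable {K : Type} [Field K]

theorem hext {R R' : GC K} {f g : GCHom R R'} (h : f.f = g.f) : f = g := by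
  cases f
  cases g
  cases h
  rfl

/-- associativity as a morphism -/
noncomputable def ascH {A B : DGA K} (Y : RCells A) (P : BM A B) (X : LCells B) :
    GCHom (tG (tQ Y P) X) (tY Y (tP P X)) where
  f := (asc Y P X).toLinearMap
  f_mem h := (asc_gr Y P X _ _).1 h
  f_d x := asc_d Y P X x

theorem ascH_qi {A B : DGA K} (Y : RCells A) (P : BM A B) (X : LCells B) :
    QI (ascH Y P X) := by
  refine QI.of_bij (fun k x _ h => ?_) fun k y hy => ?_
  · exact (asc Y P X).injective (h.trans (map_zero (asc Y P X)).symm)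
  · obtain ⟨x, rfl⟩ := (asc Y P X).surjective y
    exact ⟨x, (asc_gr Y P X _ _).2 hy, rfl⟩

section kk

variable {A : DGA K} {I : In A} {X : LCells A} (k : Kt I X)

/-- `A ⊗ X → Y`, `a σ ↦ a kt σ` -/
noncomputable def gK : (X.ι →₀ A.C) →ₗ[K] I.Y := Finsupp.lsum K fun σ => I.L.flip (k.kt σ)

theorem gK_single (σ : X.ι) (a : A.C) : gK k (Finsupp.single σ a) = I.L a (k.kt σ) := by
  rw [gK, Finsupp.lsum_single]
  rfl

theorem gK_key (σ : X.ι) (a : A.C) : I.L (A.D a) (k.kt σ) +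
    ∑ τ ∈ X.F (X.s σ), I.L (a * X.c σ τ) (k.kt τ) = I.dY (I.L a (k.kt σ)) := by
  simp only [I.L_mul]
  rw [← map_sum, I.L_D, add_assoc, ← map_add, k.d, map_zero, add_zero]

theorem gK_dd (σ : X.ι) (a : A.C) : gK k (Finsupp.single σ (A.D a) +
    ∑ τ ∈ X.F (X.s σ), Finsupp.single τ (a * X.c σ τ)) = I.dY (gK k (Finsupp.single σ a)) := by
  rw [map_add, map_sum, gK_single, gK_single, ← gK_key]
  congr 1
  exact Finset.sum_congr rfl fun τ _ => gK_single k τ _

theorem gK_d (x : X.ι →₀ A.C) :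
    gK k ((tG (selfR A) X).d x) = I.dY (gK k x) := by
  have h : (gK k ∘ₗ (twG (selfR A) X).dd : (X.ι →₀ (selfR A).X) →ₗ[K] I.Y) = I.dY ∘ₗ gK k := by
    refine Finsupp.lhom_ext fun σ a => ?_
    exact (congrArg (gK k) ((twG (selfR A) X).dd_single σ a)).trans (gK_dd k σ a)
  exact LinearMap.congr_fun h x

theorem gK_mem {m : ℤ} {x : X.ι →₀ A.C} (hx : ∀ σ, x σ ∈ A.G (m - X.s σ)) :
    gK k x ∈ I.gr.G m := by
  rw [gK, Finsupp.lsum_apply]
  refine Submodule.sum_mem _ fun σ _ => ?_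
  have := I.L_deg (hx σ) (k.deg σ)
  rwa [show (X.s σ : ℤ) + (m - X.s σ) = m by ring] at this

theorem gK_smul (a : A.C) (x : X.ι →₀ A.C) : gK k (a • x) = I.L a (gK k x) := by
  have h : (gK k ∘ₗ Finsupp.mapRange.linearMap (LinearMap.mulLeft K a) :
      (X.ι →₀ A.C) →ₗ[K] I.Y) = I.L a ∘ₗ gK k := by
    refine Finsupp.lhom_ext fun σ b => ?_
    rw [LinearMap.comp_apply, LinearMap.comp_apply, Finsupp.mapRange.linearMap_apply,
      Finsupp.mapRange_single, gK_single, gK_single, ← I.L_mul]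
    rfl
  refine Eq.trans ?_ (LinearMap.congr_fun h x)
  refine congrArg (gK k) ?_
  refine Finsupp.ext fun σ => ?_
  rfl

end kk

namespace Sq

variable {A0 A : DGA K} (S : Sq A0 A) (I : In A)

/-- `Y` as a left `A0`-module -/
noncomputable abbrev KK0 : LM A0 := resL S.i (KKl I)

theorem ωev_l (a : A0.C) (x : I.Y) (r : I.Z) :
    S.ω (I.ev (I.L (S.i.f a) x) r) = a • S.ω (I.ev x r) := by
  rw [I.ev_l, S.ω_mul, S.πi, S.ωi, smul_zero, add_zero]

theorem ωev_d (x : I.Y) (r : I.Z) :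
    S.ω (I.ev (I.dY x) r) + S.ω (I.ev x (I.dZ r)) = S.M.d (S.ω (I.ev x r)) := by
  rw [← map_add, ← I.ev_D, S.ω_D]

/-- the pairing `Y ⊗ H → M` -/
noncomputable def bβ : Pair (S.KK0 I) S.M.toLM (HH I) where
  b := I.ev.compr₂ S.ω
  b_l a x r := S.ωev_l I a x r
  b_mem hx hr := S.ω_mem (I.ev_deg hx hr)
  b_d x r := S.ωev_d I x r

variable {I} {X : LCells A} (k : Kt I X)

/-- `A ⊗ X → Y` over `A0` -/
noncomputable def f2 : LH (tP S.P X) (S.KK0 I) where
  f := gK k
  f_mem hx := gK_mem k fun σ => (hx σ).1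
  f_d x := gK_d k x
  lin a x := gK_smul k (S.i.f a) x

variable {Y : RCells A0} {n : ℤ} (V : VF Y S.M.toLM n)

theorem sq_f : (TB143.comp (T k n) ((f1 V).m X)).f =
    (TB143.comp (V.pm (S.bβ I)) (TB143.comp ((S.f2 k).m Y) (ascH Y S.P X))).f := by
  refine Finsupp.lhom_ext fun σ y => ?_
  suffices h : ∀ y : Y.ι →₀ A.C,
      (T k n).f (((f1 V).m X).f (Finsupp.single σ (show (tQ Y S.P).X from y))) =
      (V.pm (S.bβ I)).f (((S.f2 k).m Y).f ((ascH Y S.P X).f
        (Finsupp.single σ (show (tQ Y S.P).X from y)))) from h y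
  intro y
  induction y using Finsupp.induction_linear with
  | zero =>
    rw [show (Finsupp.single σ (show (tQ Y S.P).X from (0 : Y.ι →₀ A.C)) :
      X.ι →₀ (tQ Y S.P).X) = 0 from Finsupp.single_zero σ]
    rw [show ((f1 V).m X).f 0 = 0 from map_zero _, map_zero,
      show (ascH Y S.P X).f 0 = 0 from map_zero _]
    rw [show ((S.f2 k).m Y).f 0 = 0 from map_zero _, map_zero]
  | add f g hf hg =>
    rw [show (Finsupp.single σ (show (tQ Y S.P).X from (f + g : Y.ι →₀ A.C)) :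
      X.ι →₀ (tQ Y S.P).X) = Finsupp.single σ (show (tQ Y S.P).X from f) +
        Finsupp.single σ (show (tQ Y S.P).X from g) from Finsupp.single_add σ _ _]
    rw [show ((f1 V).m X).f (Finsupp.single σ (show (tQ Y S.P).X from f) +
        Finsupp.single σ (show (tQ Y S.P).X from g)) = _ from map_add _ _ _, map_add,
      show (ascH Y S.P X).f (Finsupp.single σ (show (tQ Y S.P).X from f) +
        Finsupp.single σ (show (tQ Y S.P).X from g)) = _ from map_add _ _ _,
      show ((S.f2 k).m Y).f ((ascH Y S.P X).f (Finsupp.single σ (show (tQ Y S.P).X from f)) +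
        (ascH Y S.P X).f (Finsupp.single σ (show (tQ Y S.P).X from g))) = _ from map_add _ _ _,
      map_add, hf, hg]
  | single κ γ =>
    have e1 : ((f1 V).m X).f (Finsupp.single σ (show (tQ Y S.P).X from Finsupp.single κ γ)) =
        Finsupp.single σ ((V.pm S.bA).f (Finsupp.single κ γ)) := RH.m_single (f1 V) X _ σ
    have e2 : (ascH Y S.P X).f (Finsupp.single σ (show (tQ Y S.P).X from Finsupp.single κ γ)) =
        Finsupp.single κ (show (tP S.P X).X from Finsupp.single σ γ) := swp_single σ κ γ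
    have e3 : ((S.f2 k).m Y).f (Finsupp.single κ (show (tP S.P X).X from Finsupp.single σ γ)) =
        Finsupp.single κ (I.L γ (k.kt σ)) :=
      (LH.m_single (S.f2 k) Y _ κ).trans (congrArg _ (gK_single k σ γ))
    rw [e1, e2, e3]
    refine LinearMap.ext fun z => ?_
    refine Eq.trans ?_ (VF.pm_single V (S.bβ I) κ (I.L γ (k.kt σ)) z).symm
    change (Finsupp.lsum K (fun σ => T1 k σ) (Finsupp.single σ ((V.pm S.bA).f
      (Finsupp.single κ γ))) : I.Z →ₗ[K] K) z = V.v κ (S.ω (I.ev (I.L γ (k.kt σ)) z))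
    rw [Finsupp.lsum_single, T1_apply, I.ev_l]
    exact VF.pm_single V S.bA κ γ _

/-- **the square: `D(A) ⊗ X → D(H)` is a quasi-isomorphism** -/
theorem T_qi (h1 : QI (f1 V).toGCHom) (h2 : QI (S.f2 k).toGCHom) (h3 : QI (V.pm (S.bβ I))) :
    QI (T k n) := by
  refine QI.of_comp_right ((f1 V).m_qi X h1) ?_
  rw [hext (S.sq_f k V)]
  exact QI.comp h3 (QI.comp ((S.f2 k).m_qi Y h2) (ascH_qi Y S.P X))

end Sq

end Crest.Agent.R186.DSq384
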