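import Crest.Agent.R186.DSq2_384

/-!
Row 186 (A), leaf A.FIN (helper384), part 3: `D1`, `D2` of `HIn` from the quasi-isomorphism
`D(A) ⊗ X → D(H)`.
-/

set_option autoImplicit false
set_option linter.style.haveILetI false
set_option linter.unusedSectionVars false

open MulOpposite

namespace Crest.Agent.R186.DSq384

open Hat827 Hat827.DGA Frame515 TB143 Res255 Adapt186 ConeHyp462
open Dual560 (LMd GCd HomC Pr DP reg dpG dpH HomC_d)

variable {K : Type} [Field K] {A : DGA K}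

section dual

variable {I : In A} {X : LCells A} (k : Kt I X)

theorem gH_d (η : I.Z) (σ : X.ι) : I.ev (k.kt σ) (I.dZ η) =
    A.D (I.ev (k.kt σ) η) + ∑ τ ∈ X.F (X.s σ), X.c σ τ * I.ev (k.kt τ) η := by
  have h1 : ∀ τ, X.c σ τ * I.ev (k.kt τ) η = I.ev (I.L (X.c σ τ) (k.kt τ)) η :=
    fun τ => (I.ev_l _ _ _).symm
  simp only [h1]
  have h2 : I.ev (I.dY (k.kt σ)) η + ∑ τ ∈ X.F (X.s σ), I.ev (I.L (X.c σ τ) (k.kt τ)) η =
      I.ev (I.dY (k.kt σ) + ∑ τ ∈ X.F (X.s σ), I.L (X.c σ τ) (k.kt τ)) η := by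
    rw [map_add, map_sum, LinearMap.add_apply, LinearMap.sum_apply]
  rw [I.ev_D, add_right_comm, h2, k.d, map_zero, LinearMap.zero_apply, zero_add]

theorem reg_d (X : LCells A) (φ : X.ι → A.C) (σ : X.ι) :
    (show A.C from ((HomC X (reg A)).d φ : X.ι → A.C) σ) =
      A.D (φ σ) + ∑ τ ∈ X.F (X.s σ), X.c σ τ * φ τ := HomC_d X (reg A) φ σ

/-- `H → Hom (X, A)` -/
noncomputable def gH : GCHom (HH I) (HomC X (reg A)) where
  f := LinearMap.pi fun σ => I.ev (k.kt σ)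
  f_mem := fun {m η} hη σ => ⟨I.ev_deg (k.deg σ) hη, by
    change X.e σ * I.ev (k.kt σ) η = I.ev (k.kt σ) η
    rw [← I.ev_l, k.e]⟩
  f_d η := by
    funext σ
    exact (gH_d k η σ).trans (reg_d X (fun σ => I.ev (k.kt σ) η) σ).symm

theorem gr_iff (n m : ℤ) (x : X.ι →₀ (A.C →ₗ[K] K)) :
    x ∈ (tG (DL (sL A) n) X).gr (m - n) ↔ x ∈ (tG (LMd (reg A)) X).gr m := by
  constructor
  · intro h σ
    refine ⟨fun l hl z hz => (h σ).1 l z hz ?_, (h σ).2⟩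
    have hl' : l ≠ -(m - (X.s σ : ℤ)) := hl
    change l ≠ -(m - n - (X.s σ : ℤ) + n)
    omega
  · intro h σ
    refine ⟨fun l z hz hl => (h σ).1 l ?_ z hz, (h σ).2⟩
    have hl' : l ≠ -(m - n - (X.s σ : ℤ) + n) := hl
    change l ≠ -(m - (X.s σ : ℤ))
    omega

theorem grD_iff (I : In A) (n m : ℤ) (φ : I.Z →ₗ[K] K) :
    φ ∈ (DH I n).gr (m - n) ↔ φ ∈ (GCd (HH I)).gr m := by
  constructor
  · intro h l hl z hz
    exact h l z hz (by omega)
  · intro h l z hz hl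
    exact h l (by omega) z hz

/-- `T` between 560's complexes -/
noncomputable def TT : GCHom (tG (LMd (reg A)) X) (GCd (HH I)) where
  f := (T k 0).f
  f_mem := fun {m x} hx => by
    have h := (T k 0).f_mem ((gr_iff 0 m x).2 hx)
    exact (grD_iff I 0 m _).1 h
  f_d x := (T k 0).f_d x

theorem TT_qi {n : ℤ} (h : QI (T k n)) : QI (TT k) := by
  refine ⟨fun m y hy hd => ?_, fun m x hx hd ⟨z, hz, e⟩ => ?_⟩
  · obtain ⟨x, hx, hdx, z, hz, e⟩ := h.surj (m - n) y ((grD_iff I n m y).2 hy) hd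
    refine ⟨x, (gr_iff n m x).1 hx, hdx, z, (grD_iff I n (m + 1) z).1 ?_, e⟩
    exact gr_cast hz (by ring)
  · obtain ⟨w, hw, e'⟩ := h.inj (m - n) x ((gr_iff n m x).2 hx) hd
      ⟨z, gr_cast ((grD_iff I n (m + 1) z).2 hz) (by ring), e⟩
    refine ⟨w, (gr_iff n (m + 1) w).1 ?_, e'⟩
    exact gr_cast hw (by ring)

/-- the projections of `H` -/
noncomputable def prH (I : In A) : Pr (HH I) where
  pi := I.gs.pr
  mem := I.gs.pr_mem
  same h := I.gs.mem_G.1 h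
  ne := fun {k l x} h hx => by
    rw [← I.gs.mem_G.1 hx]
    exact I.gs.pr_ne _ _ _ h
  lo := 0
  hi := I.gs.N
  sum x := (Dual560.sum_Icc I.gs.N (fun k => I.gs.pr k x)).trans
    ((Fin.sum_univ_eq_sum_range (fun k => I.gs.pr (k : ℤ) x) (I.gs.N + 1)).symm.trans
      (I.gs.total x))
  fin k := inferInstanceAs (Module.Finite K (I.gs.G k))

/-- `H → Hom (X, A)` is a quasi-isomorphism -/
theorem gH_qi (P : Pr (reg A).toGC) {n : ℤ} (h : QI (T k n)) : QI (gH k) := by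
  refine (dpH P).qi (dpG (prH I)) (TT k) (gH k) ?_ (TT_qi k h)
  intro x η
  have h1 : ((LinearMap.applyₗ η ∘ₗ (TT k).f : (X.ι →₀ (A.C →ₗ[K] K)) →ₗ[K] K)) =
      (Dual560.bb X (reg A)).flip ((gH k).f η) := by
    refine Finsupp.lhom_ext fun σ φ => ?_
    refine Eq.trans ?_ (Dual560.bb_single X (reg A) σ φ _).symm
    change (Finsupp.lsum K (fun σ => T1 k σ) (Finsupp.single σ φ) : I.Z →ₗ[K] K) η = _
    rw [Finsupp.lsum_single, T1_apply]
    rfl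
  exact LinearMap.congr_fun h1 x

end dual

/-- **`D1` and `D2` of `HIn`** -/
theorem D12 {I : In A} {X : PCells A} (k : Kt I (lc X)) (P : Pr (reg A).toGC) {n : ℤ}
    (h : QI (T k n)) :
    (∀ (p : ℤ) (φ : X.ι → A.C), (∀ σ, φ σ ∈ A.G ((X.s σ : ℤ) - p)) →
      (∀ σ, X.e σ * φ σ = φ σ) → (∀ σ, A.D (φ σ) + ∑ τ ∈ X.F (X.s σ), X.c σ τ * φ τ = 0) →
      ∃ η ∈ I.gs.G (-p), I.dZ η = 0 ∧ IsCob A X p (fun σ => φ σ + I.ev (k.kt σ) η)) ∧
    (∀ (p : ℤ), ∀ η ∈ I.gs.G (-p), I.dZ η = 0 → IsCob A X p (fun σ => I.ev (k.kt σ) η) →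
      ∃ η' ∈ I.gs.G (-p + 1), η = I.dZ η') := by
  have q := gH_qi k P h
  constructor
  · intro p φ h1 h2 h3
    obtain ⟨η, hη, hd, ψ, hψ, e⟩ := q.surj (-p) φ (fun σ => ⟨h1 σ, h2 σ⟩)
      (funext fun σ => (reg_d (lc X) φ σ).trans (h3 σ))
    refine ⟨η, hη, hd, ψ, fun σ => ?_, fun σ => (hψ σ).2, fun σ => ?_⟩
    · have : (show A.C from ψ σ) ∈ A.G ((X.s σ : ℤ) + (-p + 1)) := (hψ σ).1
      rwa [show (X.s σ : ℤ) + (-p + 1) = X.s σ - p + 1 by ring] at this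
    · have e1 : φ σ = I.ev (k.kt σ) η + (show A.C from ((HomC (lc X) (reg A)).d ψ :
        X.ι → A.C) σ) := congrFun e σ
      have e2 := reg_d (lc X) ψ σ
      change φ σ + I.ev (k.kt σ) η = _
      rw [e1, e2, add_right_comm, A.two, zero_add]
      rfl
  · intro p η hη hd ⟨ψ, p1, p2, p3⟩
    obtain ⟨w, hw, e⟩ := q.inj (-p) η hη hd ⟨ψ, fun σ => ⟨by
      have := p1 σ
      rwa [show (X.s σ : ℤ) - p + 1 = X.s σ + (-p + 1) by ring] at this, p2 σ⟩,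
      funext fun σ => (p3 σ).trans (reg_d (lc X) ψ σ).symm⟩
    exact ⟨w, hw, e⟩

end Crest.Agent.R186.DSq384
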