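import Crest.Agent.R186.DSq3_384
import Crest.Agent.R186.VJ_153

/-!
Row 186 (A), leaf A.FIN (helper384), part 4: the inputs of the square from 255's resolutions and
from the augmentation of `Y`.
-/

set_option autoImplicit false
set_option linter.style.haveILetI false
set_option linter.unusedSectionVars false

open MulOpposite

namespace Crest.Agent.R186.DSq384

open Hat827 Hat827.DGA Frame515 TB143 Res255 Adapt186 ConeHyp462
open Dual560 (LMd GCd HomC Pr DP reg dpG dpH HomC_d)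

variable {K : Type} [Field K]

/-! ### functionals from a resolution of `D(M)` -/

section res

variable {A0 : DGA K} {Y : RCells A0} {M : LM A0}

theorem sum_ev {ι : Type} (F : Finset ι) (f : ι → (LMd M).X) (m : M.X) :
    (show M.X →ₗ[K] K from ∑ τ ∈ F, f τ) m = ∑ τ ∈ F, (show M.X →ₗ[K] K from f τ) m :=
  map_sum ((LinearMap.applyₗ m : (M.X →ₗ[K] K) →ₗ[K] K) ∘ₗ (Dual560.evL M)) f F

/-- the functionals of an augmented system of cells -/
def VF.ofAug (R : RAug Y (LMd M)) : VF Y M R.lo where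
  v κ := R.v κ
  v_mem κ l m hm hl := R.v_mem κ l (by omega) m hm
  v_d κ m := by
    have h := congrArg (fun f : (LMd M).X => (show M.X →ₗ[K] K from f) m) (R.v_d κ)
    refine h.trans ?_
    exact sum_ev _ _ m

variable {A : DGA K} (S : Sq A0 A)

theorem b0_f {Y : RCells A0} (R : RRes Y (LMd S.M.toLM)) (x : Y.ι →₀ A0.C) :
    ((VF.ofAug R.toRAug).pm S.b0).f x = augR Y (LMd S.M.toLM) R.v x := by
  have h : (((VF.ofAug R.toRAug).pm S.b0).f : (Y.ι →₀ A0.C) →ₗ[K] (S.M.X →ₗ[K] K)) =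
      augR Y (LMd S.M.toLM) R.v := by
    refine Finsupp.lhom_ext fun κ a => ?_
    refine Eq.trans ?_ (augR_single Y (LMd S.M.toLM) R.v κ a).symm
    refine LinearMap.ext fun m => ?_
    exact VF.pm_single (VF.ofAug R.toRAug) S.b0 κ a m
  exact LinearMap.congr_fun h x

/-- **(c)**: `Y → D(M)` is a quasi-isomorphism -/
theorem b0_qi {Y : RCells A0} (R : RRes Y (LMd S.M.toLM)) :
    QI ((VF.ofAug R.toRAug).pm S.b0) := by
  have hg : ∀ (k : ℤ) (φ : S.M.X →ₗ[K] K), φ ∈ (DG S.M.toGC R.lo).gr k ↔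
      φ ∈ (LMd S.M.toLM).gr (R.lo + k) := by
    intro k φ
    constructor
    · intro h l hl z hz
      exact h l z hz (by omega)
    · intro h l z hz hl
      exact h l (by omega) z hz
  refine ⟨fun k y hy hd => ?_, fun k x hx hd ⟨z, hz, e⟩ => ?_⟩
  · obtain ⟨x, hx, hdx, z, hz, e⟩ := VJ153.aR_surj R k y ((hg k y).1 hy) hd
    refine ⟨x, hx, hdx, z, (hg (k + 1) z).2 hz, ?_⟩
    exact e.trans (congrArg₂ (· + ·) (b0_f S R x).symm rfl)
  · exact VJ153.aR_inj R k x hx hd ⟨z, (hg (k + 1) z).1 hz, (b0_f S R x).symm.trans e⟩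

end res

/-! ### `A ⊗ X → Y` is a quasi-isomorphism -/

section kk

variable {A : DGA K} {I : In A} {X : LCells A} (k : Kt I X)

/-- `A ⊗ X → Y` -/
noncomputable def gKH : GCHom (tG (selfR A) X) (KKl I).toGC where
  f := gK k
  f_mem hx := gK_mem k fun σ => (hx σ).1
  f_d x := gK_d k x

theorem gKH_qi {N : LM A} (R : LRes X N) (h0 : R.lo = 0) (a : GCHom (KKl I).toGC N.toGC)
    (ha : QI a) (hL : ∀ (g : A.C) (y : I.Y), a.f (I.L g y) = g • a.f y)
    (hv : ∀ σ, a.f (k.kt σ) = R.v σ) : QI (gKH k) := by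
  refine QI.of_comp_left ha ?_
  have h : ∀ x : X.ι →₀ A.C, a.f (gK k x) = augL X N R.v x := by
    intro x
    have h : (a.f ∘ₗ gK k : (X.ι →₀ A.C) →ₗ[K] N.X) = augL X N R.v := by
      refine Finsupp.lhom_ext fun σ g => ?_
      refine (congrArg a.f (gK_single k σ g)).trans ?_
      rw [augL_single, ← hv]
      exact hL g (k.kt σ)
    exact LinearMap.congr_fun h x
  have e0 : ∀ j : ℤ, R.lo + j = j := fun j => by rw [h0, zero_add]
  refine ⟨fun j y hy hd => ?_, fun j x hx hd ⟨z, hz, e⟩ => ?_⟩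
  · obtain ⟨x, hx, hdx, z, hz, e⟩ := VJ153.aL_surj R j y (gr_cast (X := N.toGC) hy (e0 j).symm) hd
    refine ⟨x, hx, hdx, z, gr_cast (X := N.toGC) hz (e0 _), ?_⟩
    exact e.trans (congrArg₂ (· + ·) (h x).symm rfl)
  · exact VJ153.aL_inj R j x hx hd ⟨z, gr_cast (X := N.toGC) hz (e0 _).symm, (h x).symm.trans e⟩

theorem f2_qi {A0 : DGA K} (S : Sq A0 A) (h : QI (gKH k)) : QI (S.f2 k).toGCHom :=
  ⟨h.surj, h.inj⟩

/-- the augmentation in degree zero is a quasi-isomorphism -/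
theorem aug_qi (N : LM A) (hN : ∀ j : ℤ, j ≠ 0 → ∀ v ∈ N.gr j, v = 0) (hd : ∀ v, N.d v = 0)
    (a : GCHom (KKl I).toGC N.toGC) (onto : ∀ w, ∃ y ∈ I.gr.G 0, a.f y = w)
    (ex : ∀ n : ℤ, 0 ≤ n → ∀ y ∈ I.gr.G n, I.dY y = 0 → (n = 0 → a.f y = 0) →
      ∃ y' ∈ I.gr.G (n + 1), y = I.dY y') (neg : ∀ j : ℤ, j < 0 → ∀ y ∈ I.gr.G j, y = 0) :
    QI a := by
  refine ⟨fun j y hy _ => ?_, fun j x hx hdx ⟨z, _, e⟩ => ?_⟩
  · by_cases hj : j = 0
    · obtain ⟨x, hx, e⟩ := onto y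
      subst hj
      refine ⟨x, hx, ?_, 0, Submodule.zero_mem _, by rw [e, map_zero, add_zero]⟩
      exact neg (0 - 1) (by omega) _ (I.dY_deg hx)
    · refine ⟨0, Submodule.zero_mem _, map_zero _, 0, Submodule.zero_mem _, ?_⟩
      rw [hN j hj y hy, map_zero, map_zero, add_zero]
  · by_cases hj : j < 0
    · exact ⟨0, Submodule.zero_mem _, by rw [neg j hj x hx, map_zero]⟩
    · exact ex j (by omega) x hx hdx fun _ => by rw [e, hd]

end kk

end Crest.Agent.R186.DSq384
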