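import Crest.Agent.R186.DSq4_384
import Crest.Agent.R186.FinD_988
import Crest.Agent.R186.C1Q_611

/-!
Row 186 (A), leaf A.FIN (helper384), part 5: the inputs of the square from exact cones
(`AcIff492.CE`), for the dual `FinV988.DR`.
-/

set_option autoImplicit false
set_option linter.style.haveILetI false
set_option linter.unusedSectionVars false

open MulOpposite

namespace Crest.Agent.R186.DSq384

open Hat827 Hat827.DGA Frame515 TB143 Res255 Adapt186 ConeHyp462
open FinV988 (DR dev dev_d)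
open FinD988 (DZc zev)
open AcIff492 (CE)

variable {K : Type} [Field K]

section res

variable {A0 : DGA K} {Y : RCells A0} {M : LM A0}

/-- the functionals of an augmented system of cells -/
noncomputable def VF.ofDR (R : RAug Y (DR M)) : VF Y M R.lo where
  v κ := R.v κ
  v_mem κ l m hm hl := R.v_mem κ l m hm (by omega)
  v_d κ m := by
    have h := congrArg (dev M m) (R.v_d κ)
    rw [dev_d, map_sum] at h
    exact h

/-- `V.pm b` from an exact cone -/
theorem pm_qi_of_ce {n : ℤ} (V : VF Y M n) {N : LM A0} {R : GC K} (b : Pair N M R) (W : GC K)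
    (e : (R.X →ₗ[K] K) ≃ₗ[K] W.X) (he : ∀ k φ, φ ∈ (DG R n).gr k ↔ e φ ∈ W.gr (n + k))
    (hd : ∀ φ, e ((DG R n).d φ) = W.d (e φ)) (F : (Y.ι →₀ N.X) →ₗ[K] W.X)
    (hF : ∀ κ x, F (Finsupp.single κ x) = e (V.pm1 b κ x))
    (h : ∀ k, CE (tY Y N) W n k F) : QI (V.pm b) := by
  have hf : ∀ x : Y.ι →₀ N.X, e ((V.pm b).f x) = F x := by
    intro x
    have h1 : (e.toLinearMap ∘ₗ (Finsupp.lsum K fun κ => V.pm1 b κ) :
        (Y.ι →₀ N.X) →ₗ[K] W.X) = F := by
      refine Finsupp.lhom_ext fun κ x => ?_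
      rw [LinearMap.comp_apply, Finsupp.lsum_single, hF]
      rfl
    exact LinearMap.congr_fun h1 x
  have htwo : ∀ x : Y.ι →₀ N.X, x + x = 0 := fun x => Finsupp.ext fun κ => by
    rw [Finsupp.add_apply, LM.two]
    rfl
  refine ⟨fun k y hy hdy => ?_, fun k x hx hdx ⟨z, hz, e1⟩ => ?_⟩
  · obtain ⟨w, hw, n', hn', e2, e3⟩ := h k 0 (e y) (Submodule.zero_mem _) (map_zero _)
      ((he k y).1 hy) (by rw [map_zero, zero_add, ← hd, hdy, map_zero])
    refine ⟨w, hw, e2, e.symm n', (he (k + 1) _).2 ?_, ?_⟩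
    · rw [LinearEquiv.apply_symm_apply]
      exact gr_cast (X := W) hn' (by ring)
    · apply e.injective
      rw [e3, ← hf]
      refine Eq.trans ?_ (map_add e _ _).symm
      rw [hd, LinearEquiv.apply_symm_apply]
  · obtain ⟨w, hw, -, -, e2, -⟩ := h (k + 1) x (e z) (gr_cast (X := tY Y N) hx (by ring)) hdx
      ((he (k + 1) z).1 hz) (by
        rw [← hd]
        have e4 : e ((DG R n).d z) = F x := by rw [← hf]; exact (congrArg e e1).symm
        rw [e4, ← map_add, htwo, map_zero])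
    exact ⟨w, hw, e2.symm⟩

variable {A : DGA K} (S : Sq A0 A)

/-- **(c)** for `DR` -/
theorem b0R_qi {Y : RCells A0} (R : RRes Y (DR S.M.toLM)) :
    QI ((VF.ofDR R.toRAug).pm S.b0) := by
  refine pm_qi_of_ce (VF.ofDR R.toRAug) S.b0 (DR S.M.toLM).toGC
    (LinearEquiv.refl K (S.M.X →ₗ[K] K)) ?_ (fun φ => rfl) (augR Y (DR S.M.toLM) R.v) ?_ ?_
  · intro k φ
    constructor
    · intro h l z hz hl
      exact h l z hz (by omega)
    · intro h l z hz hl
      exact h l z hz (by omega)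
  · intro κ a
    exact augR_single Y (DR S.M.toLM) R.v κ a
  · intro k x n h1 h2 h3 h4
    exact R.ex k x n h1 h2 h3 h4

/-- **(d)**: from 611's form of (c1) -/
theorem b1_qi_of {Y : RCells A0} (R : RAug Y (DR S.M.toLM))
    (h : ∀ k, CE (tY Y S.M.toLM) (DR (selfL A0)).toGC R.lo k
      (C1P611.evD (Z := selfL A0) (C1Q611.paOf S.M R))) :
    QI ((VF.ofDR R).pm S.b1) := by
  refine pm_qi_of_ce (VF.ofDR R) S.b1 (DR (selfL A0)).toGC
    (LinearEquiv.refl K (A0.C →ₗ[K] K)) ?_ (fun φ => rfl)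
    (C1P611.evD (Z := selfL A0) (C1Q611.paOf S.M R)) ?_ h
  · intro k φ
    constructor
    · intro h l z hz hl
      exact h l z hz (by omega)
    · intro h l z hz hl
      exact h l z hz (by omega)
  · intro κ m
    refine LinearMap.ext fun a => ?_
    exact C1Q611.evD_single S.M R κ m a

variable {I : In A}

/-- **(f)**: from a cone over `DZc I` -/
theorem bβ_qi_of {Y : RCells A0} (R : RAug Y (DR S.M.toLM))
    (F : (Y.ι →₀ (S.KK0 I).X) →ₗ[K] (DZc I).X)
    (hF : ∀ κ (y : I.Y) (z : I.Z), zev I z (F (Finsupp.single κ (show (S.KK0 I).X from y))) =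
      dev S.M.toLM (S.ω (I.ev y z)) (R.v κ))
    (h : ∀ k, CE (tY Y (S.KK0 I)) (DZc I) R.lo k F) :
    QI ((VF.ofDR R).pm (S.bβ I)) := by
  refine pm_qi_of_ce (VF.ofDR R) (S.bβ I) (DZc I)
    (LinearEquiv.refl K (I.Z →ₗ[K] K)) ?_ (fun φ => rfl) F ?_ h
  · intro k φ
    constructor
    · intro h l z hz hl
      exact h l z hz (by omega)
    · intro h l z hz hl
      exact h l z hz (by omega)
  · intro κ m
    refine LinearMap.ext fun a => ?_
    exact hF κ m a

/-- **(f)**: from a cone over `GCd` of `H` -/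
theorem bβ_qi_of' {Y : RCells A0} (R : RAug Y (DR S.M.toLM))
    (F : (Y.ι →₀ (S.KK0 I).X) →ₗ[K] (Dual560.GCd (HH I)).X)
    (hF : ∀ κ (y : I.Y) (z : I.Z), Dual560.ev (F (Finsupp.single κ (show (S.KK0 I).X from y))) z =
      dev S.M.toLM (S.ω (I.ev y z)) (R.v κ))
    (h : ∀ k, CE (tY Y (S.KK0 I)) (Dual560.GCd (HH I)) R.lo k F) :
    QI ((VF.ofDR R).pm (S.bβ I)) := by
  refine pm_qi_of_ce (VF.ofDR R) (S.bβ I) (Dual560.GCd (HH I))
    (LinearEquiv.refl K (I.Z →ₗ[K] K)) ?_ (fun φ => rfl) F ?_ h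
  · intro k φ
    constructor
    · intro h l hl z hz
      exact h l z hz (by omega)
    · intro h l z hz hl
      exact h l (by omega) z hz
  · intro κ m
    refine LinearMap.ext fun a => ?_
    exact hF κ m a

end res

end Crest.Agent.R186.DSq384
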