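import Crest.Agent.R186.BrickS_538
import Crest.Agent.R186.Inst_823

/-!
Row 186 (S0281), helper538, leaf B281.EV: the evaluation maps at element level.

Index `j` = exponent of `x₁`; `mo m j = x₀^(m-j) x₁^j`; `cf n j` = coefficient at `mo n j`;
`tr n M y = Σ_{j ≤ n} cf n j (M j y)` = the trace of `v ↦ M_v y`; `evl n M M' : C n`.
-/

set_option autoImplicit false

namespace Crest.Agent.R186.EV538

open B281

variable {K : Type} [Field K]

/-! ### coefficients -/

theorem X_apply (i : Fin 2) (z : Lau K) (p : ℤ × ℤ) : (X i : Op K) z p = z (p - B281.ev i) := by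
  have h : Function.Injective (fun m : ℤ × ℤ => m + B281.ev i) := fun a b h =>
    add_right_cancel h
  have h1 := Finsupp.mapDomain_apply h z (p - B281.ev i)
  simp only [sub_add_cancel] at h1
  exact h1

theorem D_apply (g : K) (i : Fin 2) (z : Lau K) (p : ℤ × ℤ) :
    (D g i) z p = cq g (co i p + 1) * z (p + B281.ev i) := by
  induction z using Finsupp.induction_linear with
  | zero => simp
  | add a b ha hb => rw [map_add, Finsupp.add_apply, ha, hb, Finsupp.add_apply, mul_add]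
  | single m a =>
    rw [D_single]
    by_cases h : m = p + B281.ev i
    · subst h
      rw [add_sub_cancel_right, Finsupp.single_eq_same, Finsupp.single_eq_same]
      have : co i (p + B281.ev i) = co i p + 1 := by
        fin_cases i <;> simp [co, B281.ev]
      rw [this]
    · rw [Finsupp.single_eq_of_ne' h, mul_zero, Finsupp.single_eq_of_ne']
      intro h1
      exact h (by rw [← h1, sub_add_cancel])

/-- the monomial `x₀^(m-j) x₁^j` -/
noncomputable def mo (m : ℤ) (j : ℕ) : Lau K := Finsupp.single (m - j, (j : ℤ)) 1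

/-- the coefficient at `x₀^(n-j) x₁^j` -/
def cf (n j : ℕ) (f : Lau K) : K := f ((n : ℤ) - j, (j : ℤ))

theorem cf_add (n j : ℕ) (f f' : Lau K) : cf n j (f + f') = cf n j f + cf n j f' := rfl
theorem cf_sub (n j : ℕ) (f f' : Lau K) : cf n j (f - f') = cf n j f - cf n j f' := rfl
theorem cf_smul (n j : ℕ) (c : K) (f : Lau K) : cf n j (c • f) = c * cf n j f := rfl

theorem cf_mo (n i j : ℕ) : cf n i (mo (n : ℤ) j : Lau K) = if i = j then 1 else 0 := by
  unfold cf mo
  rw [Finsupp.single_apply]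
  congr 1
  simp only [Prod.mk.injEq, Nat.cast_inj, eq_iff_iff]
  constructor
  · rintro ⟨_, h⟩; exact h.symm
  · rintro rfl; exact ⟨rfl, rfl⟩

/-- `Σ_{j ≤ n} (coefficient at j of M_j y)` -/
noncomputable def tr (n : ℕ) (M : ℕ → Op K) (y : Lau K) : K :=
  ∑ j ∈ Finset.range (n + 1), cf n j (M j y)

theorem tr_congr {n : ℕ} {M M' : ℕ → Op K} (h : ∀ j, j ≤ n → M j = M' j) (y : Lau K) :
    tr n M y = tr n M' y :=
  Finset.sum_congr rfl fun j hj => by rw [h j (by simpa [Nat.lt_succ_iff] using hj)]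

theorem tr_add (n : ℕ) (M M' : ℕ → Op K) (y : Lau K) : tr n (M + M') y = tr n M y + tr n M' y := by
  unfold tr
  rw [← Finset.sum_add_distrib]
  rfl

theorem tr_smul (n : ℕ) (c : K) (M : ℕ → Op K) (y : Lau K) : tr n (c • M) y = c * tr n M y := by
  unfold tr
  rw [Finset.mul_sum]
  rfl

theorem tr_add_right (n : ℕ) (M : ℕ → Op K) (y y' : Lau K) :
    tr n M (y + y') = tr n M y + tr n M y' := by
  unfold tr
  rw [← Finset.sum_add_distrib]
  exact Finset.sum_congr rfl fun j _ => by rw [map_add, cf_add]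

theorem tr_smul_right (n : ℕ) (M : ℕ → Op K) (c : K) (y : Lau K) :
    tr n M (c • y) = c * tr n M y := by
  unfold tr
  rw [Finset.mul_sum]
  exact Finset.sum_congr rfl fun j _ => by rw [map_smul, cf_smul]

theorem tr_zero_right (n : ℕ) (M : ℕ → Op K) : tr n M 0 = 0 := by
  have := tr_smul_right n M 0 0
  rwa [zero_smul, zero_mul] at this

/-- the evaluation on pairs of families (`M` of degree `0`, `M'` of degree `1`) -/
noncomputable def evl (n : ℕ) : ((ℕ → Op K) × (ℕ → Op K)) →ₗ[K] ((Fin (n + 1) → K) × (Fin n → K))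
    where
  toFun p := (fun b => tr n p.1 (mo n b), fun b => tr n p.2 (mo ((n : ℤ) - 1) b))
  map_add' p q := by
    refine Prod.ext ?_ ?_
    · funext b; exact tr_add _ _ _ _
    · funext b; exact tr_add _ _ _ _
  map_smul' c p := by
    refine Prod.ext ?_ ?_
    · funext b; exact tr_smul _ _ _ _
    · funext b; exact tr_smul _ _ _ _

theorem evl_congr {n : ℕ} {p q : (ℕ → Op K) × (ℕ → Op K)} (h1 : ∀ j, j ≤ n → p.1 j = q.1 j)
    (h2 : ∀ j, j ≤ n → p.2 j = q.2 j) : evl n p = evl n q := by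
  refine Prod.ext ?_ ?_
  · funext b; exact tr_congr h1 _
  · funext b; exact tr_congr h2 _

/-! ### the operators `x_i d_j` -/

theorem XD00 (g : K) (m : ℤ) (b : ℕ) :
    (X 0 : Op K) (D g 0 (mo m b)) = cq g (m - b) • mo m b := by
  unfold mo
  rw [D_single, X_single, Finsupp.smul_single]
  simp [B281.ev, co]

theorem XD11 (g : K) (m : ℤ) (b : ℕ) :
    (X 1 : Op K) (D g 1 (mo m b)) = cq g b • mo m b := by
  unfold mo
  rw [D_single, X_single, Finsupp.smul_single]
  simp [B281.ev, co]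

theorem XD01 (g : K) (m : ℤ) (b : ℕ) :
    (X 0 : Op K) (D g 1 (mo m (b + 1))) = cq g ((b : ℤ) + 1) • mo m b := by
  unfold mo
  rw [D_single, X_single, Finsupp.smul_single]
  have h1 : ((m - ((b + 1 : ℕ) : ℤ), ((b + 1 : ℕ) : ℤ)) : ℤ × ℤ) - B281.ev 1 + B281.ev 0 =
      (m - b, (b : ℤ)) := by
    refine Prod.ext ?_ ?_
    · simp [B281.ev]; ring
    · simp [B281.ev]
  rw [h1]
  simp [co]

theorem XD01_zero (g : K) (m : ℤ) : (X 0 : Op K) (D g 1 (mo m 0)) = 0 := by
  unfold mo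
  rw [D_single, X_single]
  simp [co, cq_zero]

theorem XD10 (g : K) (m : ℤ) (b : ℕ) :
    (X 1 : Op K) (D g 0 (mo m b)) = cq g (m - b) • mo m (b + 1) := by
  unfold mo
  rw [D_single, X_single, Finsupp.smul_single]
  have h1 : ((m - (b : ℤ), (b : ℤ)) : ℤ × ℤ) - B281.ev 0 + B281.ev 1 =
      (m - ((b + 1 : ℕ) : ℤ), ((b + 1 : ℕ) : ℤ)) := by
    refine Prod.ext ?_ ?_
    · simp [B281.ev]; ring
    · simp [B281.ev]
  rw [h1]
  simp [co]

/-- the index exchange: position of `x_i d_i'` in `BrickS538.op` (index = exponent of `x₁`) -/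
def sw (t : Fin 2 × Fin 2) : Fin 2 × Fin 2 := (1 - t.1, 1 - t.2)

/-- `tr` at the monomials of degree `m - 1`, `m` of them -/
theorem tr_op (g : K) (n m : ℕ) (M : ℕ → Op K) (t : Fin 2 × Fin 2) (b : Fin m) :
    tr n M ((X t.1 : Op K) (D g t.2 (mo ((m : ℤ) - 1) b))) =
      BrickS538.op g (sw t) m (fun b => tr n M (mo ((m : ℤ) - 1) b)) b := by
  obtain ⟨i, j⟩ := t
  fin_cases i <;> fin_cases j
  · show tr n M ((X 0 : Op K) (D g 0 (mo ((m : ℤ) - 1) b))) = BrickS538.op g (1, 1) m _ b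
    rw [XD00, tr_smul_right, BrickS538.op_oo]
    rfl
  · show tr n M ((X 0 : Op K) (D g 1 (mo ((m : ℤ) - 1) b))) = BrickS538.op g (1, 0) m _ b
    rw [BrickS538.op_oz]
    show _ = cq g (b : ℤ) * if h : 0 < (b : ℕ) then tr n M (mo ((m : ℤ) - 1) ((b : ℕ) - 1)) else 0
    obtain ⟨b, hb⟩ := b
    cases b with
    | zero =>
      simp only [Nat.cast_zero, cq_zero, zero_mul]
      rw [XD01_zero, tr_zero_right]
    | succ b =>
      rw [dif_pos (Nat.succ_pos b)]
      simp only [Nat.add_sub_cancel]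
      rw [XD01, tr_smul_right]
      push_cast
      rfl
  · show tr n M ((X 1 : Op K) (D g 0 (mo ((m : ℤ) - 1) b))) = BrickS538.op g (0, 1) m _ b
    rw [BrickS538.op_zo, XD10, tr_smul_right]
    show _ = cq g ((m : ℤ) - 1 - b) *
      if h : (b : ℕ) + 1 < m then tr n M (mo ((m : ℤ) - 1) ((b : ℕ) + 1)) else 0
    split_ifs with h
    · rfl
    · have : (m : ℤ) - 1 - (b : ℕ) = 0 := by
        have := b.2
        omega
      rw [this, cq_zero, zero_mul, zero_mul]
  · show tr n M ((X 1 : Op K) (D g 1 (mo ((m : ℤ) - 1) b))) = BrickS538.op g (0, 0) m _ b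
    rw [XD11, tr_smul_right, BrickS538.op_zz]
    rfl

/-- **(et)** right multiplication by `x_i d_i'` -/
theorem evl_op (g : K) (n : ℕ) (p : (ℕ → Op K) × (ℕ → Op K)) (t : Fin 2 × Fin 2) :
    evl n (fun j => p.1 j * (X t.1 * D g t.2), fun j => p.2 j * (X t.1 * D g t.2)) =
      BrickS538.pr (BrickS538.op g (sw t)) n (evl n p) := by
  refine Prod.ext ?_ ?_
  · funext b
    have := tr_op g n (n + 1) p.1 t b
    rw [show ((n + 1 : ℕ) : ℤ) - 1 = n by push_cast; ring] at this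
    exact this
  · funext b
    exact tr_op g n n p.2 t b

/-- the brick statement in this indexing -/
theorem brick_sw {g : K} (hg : Gen g) (n : ℕ)
    (δ : ((Fin (n + 1) → K) × (Fin n → K)) →ₗ[K] ((Fin (n + 2) → K) × (Fin (n + 1) → K)))
    (hδ : δ ≠ 0) (h : ∀ t x, δ (BrickS538.pr (BrickS538.op g (sw t)) n x) =
      BrickS538.pr (BrickS538.op g (sw t)) (n + 1) (δ x)) :
    LinearMap.ker δ = BrickS538.S K n ∧ LinearMap.range δ = BrickS538.S K (n + 1) := by
  refine BrickS538.brick_op hg n δ hδ fun t x => ?_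
  have := h (sw t) x
  have e : sw (sw t) = t := by
    obtain ⟨i, j⟩ := t
    fin_cases i <;> fin_cases j <;> rfl
  rwa [e] at this

/-! ### the column `O(-2)` -/

theorem tr_one (n : ℕ) (l : ℕ → K) {b : ℕ} (hb : b ≤ n) :
    tr n (fun j => l j • (1 : Op K)) (mo n b) = l b := by
  unfold tr
  rw [Finset.sum_eq_single b]
  · rw [LinearMap.smul_apply, Module.End.one_apply, cf_smul, cf_mo, if_pos rfl, mul_one]
  · intro j _ hj
    rw [LinearMap.smul_apply, Module.End.one_apply, cf_smul, cf_mo, if_neg hj, mul_zero]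
  · intro h
    exact absurd (Finset.mem_range.2 (by omega)) h

theorem X0_mo (m : ℤ) (b : ℕ) : (X 0 : Op K) (mo (m - 1) b) = mo m b := by
  unfold mo
  rw [X_single]
  congr 1
  refine Prod.ext ?_ ?_
  · simp [B281.ev]; ring
  · simp [B281.ev]

theorem X1_mo (m : ℤ) (b : ℕ) : (X 1 : Op K) (mo (m - 1) b) = mo m (b + 1) := by
  unfold mo
  rw [X_single]
  congr 1
  refine Prod.ext ?_ ?_
  · simp [B281.ev]; ring
  · simp [B281.ev]

theorem tr_X (n : ℕ) (μ ν : ℕ → K) {b : ℕ} (hb : b < n) :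
    tr n (fun j => μ j • (X 0 : Op K) + ν j • (X 1 : Op K)) (mo ((n : ℤ) - 1) b) =
      μ b + ν (b + 1) := by
  unfold tr
  have h : ∀ j, cf n j ((μ j • (X 0 : Op K) + ν j • (X 1 : Op K)) (mo ((n : ℤ) - 1) b)) =
      (if j = b then μ j else 0) + (if j = b + 1 then ν j else 0) := by
    intro j
    rw [LinearMap.add_apply, LinearMap.smul_apply, LinearMap.smul_apply, X0_mo, X1_mo, cf_add,
      cf_smul, cf_smul, cf_mo, cf_mo]
    split_ifs <;> simp
  rw [Finset.sum_congr rfl fun j _ => h j, Finset.sum_add_distrib, Finset.sum_ite_eq',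
    Finset.sum_ite_eq', if_pos (Finset.mem_range.2 (by omega)),
    if_pos (Finset.mem_range.2 (by omega))]

/-- the values on the column `O(-2)` -/
theorem evl_col (n : ℕ) (l μ ν : ℕ → K) :
    evl n (fun j => l j • (1 : Op K), fun j => μ j • (X 0 : Op K) + ν j • (X 1 : Op K)) =
      (fun b : Fin (n + 1) => l b, fun b : Fin n => μ b + ν (b + 1)) := by
  refine Prod.ext ?_ ?_
  · funext b
    exact tr_one n l (Nat.lt_succ_iff.1 b.2)
  · funext b
    exact tr_X n μ ν b.2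

/-- surjectivity on the column `O(-2)` -/
theorem evl_col_surj (n : ℕ) (c : (Fin (n + 1) → K) × (Fin n → K)) : ∃ l μ : ℕ → K,
    evl n (fun j => l j • (1 : Op K), fun j => μ j • (X 0 : Op K) + (0 : K) • (X 1 : Op K)) = c := by
  refine ⟨fun j => if h : j < n + 1 then c.1 ⟨j, h⟩ else 0,
    fun j => if h : j < n then c.2 ⟨j, h⟩ else 0, ?_⟩
  rw [evl_col n _ _ (fun _ => 0)]
  refine Prod.ext ?_ ?_
  · funext b
    exact dif_pos b.2
  · funext b
    show (if h : (b : ℕ) < n then c.2 ⟨b, h⟩ else 0) + 0 = c.2 b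
    rw [add_zero]
    exact dif_pos b.2

theorem evl_col_zero {n : ℕ} {l μ ν : ℕ → K}
    (h : evl n (fun j => l j • (1 : Op K), fun j => μ j • (X 0 : Op K) + ν j • (X 1 : Op K)) = 0) :
    (∀ b, b ≤ n → l b = 0) ∧ ∀ b, b < n → μ b + ν (b + 1) = 0 := by
  rw [evl_col] at h
  refine ⟨fun b hb => ?_, fun b hb => ?_⟩
  · exact congrFun (congrArg Prod.fst h) ⟨b, Nat.lt_succ_iff.2 hb⟩
  · exact congrFun (congrArg Prod.snd h) ⟨b, hb⟩

/-! ### the trace identities -/

theorem Pol_apply_neg_right {n : ℤ} {z : Lau K} (hz : z ∈ Pol K n) {a b : ℤ} (hb : b < 0) :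
    z (a, b) = 0 := by
  by_contra h
  have := hz (Finsupp.mem_support_iff.2 h)
  have h2 : (0 : ℤ) ≤ b := this.2.1
  omega

theorem Pol_apply_neg_left {n : ℤ} {z : Lau K} (hz : z ∈ Pol K n) {a b : ℤ} (ha : a < 0) :
    z (a, b) = 0 := by
  by_contra h
  have := hz (Finsupp.mem_support_iff.2 h)
  have h2 : (0 : ℤ) ≤ a := this.1
  omega

theorem cf_DX11 (g : K) (n j : ℕ) (z : Lau K) :
    cf n j (D g 1 ((X 1 : Op K) z)) = cq g ((j : ℤ) + 1) * cf n j z := by
  unfold cf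
  rw [D_apply, X_apply]
  simp [B281.ev, co]

theorem cf_DX00 (g : K) (n j : ℕ) (z : Lau K) :
    cf n j (D g 0 ((X 0 : Op K) z)) = cq g ((n : ℤ) - j + 1) * cf n j z := by
  unfold cf
  rw [D_apply, X_apply]
  simp [B281.ev, co]

theorem cf_DX10 (g : K) (n j : ℕ) (z : Lau K) :
    cf n j (D g 1 ((X 0 : Op K) z)) = cq g ((j : ℤ) + 1) * z ((n : ℤ) - (j + 1), (j : ℤ) + 1) := by
  unfold cf
  rw [D_apply, X_apply]
  simp [B281.ev, co, sub_sub]

theorem cf_DX01 (g : K) (n j : ℕ) (z : Lau K) :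
    cf n j (D g 0 ((X 1 : Op K) z)) =
      cq g ((n : ℤ) - j + 1) * z ((n : ℤ) - (j - 1), (j : ℤ) - 1) := by
  unfold cf
  rw [D_apply, X_apply]
  simp only [B281.ev, co]
  congr 2
  refine Prod.ext ?_ ?_
  · simp; ring
  · simp

/-- cyclicity for `d₁ x₁` and `d₀ x₀` -/
theorem cyc11 (g : K) (n : ℕ) (m : ℕ → Op K) (y : Lau K) :
    tr n (fun j => D g 1 * X 1 * m j - cq g ((j : ℤ) + 1) • m j) y = 0 := by
  refine Finset.sum_eq_zero fun j _ => ?_
  rw [LinearMap.sub_apply, Module.End.mul_apply, Module.End.mul_apply, LinearMap.smul_apply,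
    cf_sub, cf_DX11, cf_smul, sub_self]

theorem cyc00 (g : K) (n : ℕ) (m : ℕ → Op K) (y : Lau K) :
    tr n (fun j => D g 0 * X 0 * m j - cq g ((n : ℤ) - j + 1) • m j) y = 0 := by
  refine Finset.sum_eq_zero fun j _ => ?_
  rw [LinearMap.sub_apply, Module.End.mul_apply, Module.End.mul_apply, LinearMap.smul_apply,
    cf_sub, cf_DX00, cf_smul, sub_self]

/-- cyclicity for `d₁ x₀` (`d₁ x₀ f_j = c_j f_(j-1)`) -/
theorem cyc10 (g : K) (n : ℕ) (m : ℕ → Op K) (y : Lau K) (hy : m n y ∈ Pol K n) :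
    tr n (fun j => D g 1 * X 0 * m j - cq g (j : ℤ) • m (j - 1)) y = 0 := by
  have h1 : tr n (fun j => D g 1 * X 0 * m j - cq g (j : ℤ) • m (j - 1)) y =
      ∑ j ∈ Finset.range (n + 1), cq g ((j : ℤ) + 1) * (m j y) ((n : ℤ) - (j + 1), (j : ℤ) + 1) -
        ∑ j ∈ Finset.range (n + 1), cq g (j : ℤ) * cf n j (m (j - 1) y) := by
    rw [← Finset.sum_sub_distrib]
    refine Finset.sum_congr rfl fun j _ => ?_
    rw [LinearMap.sub_apply, Module.End.mul_apply, Module.End.mul_apply, LinearMap.smul_apply,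
      cf_sub, cf_DX10, cf_smul]
  rw [h1, Finset.sum_range_succ, Finset.sum_range_succ' (fun j => cq g (j : ℤ) * _)]
  have h2 : (m n y) ((n : ℤ) - (n + 1), (n : ℤ) + 1) = 0 :=
    Pol_apply_neg_left hy (by omega)
  rw [h2, mul_zero, add_zero, Nat.cast_zero, cq_zero, zero_mul, add_zero, sub_eq_zero]
  refine Finset.sum_congr rfl fun j _ => ?_
  rw [Nat.add_sub_cancel]
  unfold cf
  push_cast
  rfl

/-- cyclicity for `d₀ x₁` (`d₀ x₁ f_j = c_(n-j) f_(j+1)`) -/
theorem cyc01 (g : K) (n : ℕ) (m : ℕ → Op K) (y : Lau K) (hy : m 0 y ∈ Pol K n) :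
    tr n (fun j => D g 0 * X 1 * m j - cq g ((n : ℤ) - j) • m (j + 1)) y = 0 := by
  have h1 : tr n (fun j => D g 0 * X 1 * m j - cq g ((n : ℤ) - j) • m (j + 1)) y =
      ∑ j ∈ Finset.range (n + 1), cq g ((n : ℤ) - j + 1) *
        (m j y) ((n : ℤ) - (j - 1), (j : ℤ) - 1) -
        ∑ j ∈ Finset.range (n + 1), cq g ((n : ℤ) - j) * cf n j (m (j + 1) y) := by
    rw [← Finset.sum_sub_distrib]
    refine Finset.sum_congr rfl fun j _ => ?_
    rw [LinearMap.sub_apply, Module.End.mul_apply, Module.End.mul_apply, LinearMap.smul_apply,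
      cf_sub, cf_DX01, cf_smul]
  rw [h1, Finset.sum_range_succ (fun j => cq g ((n : ℤ) - j) * _), Finset.sum_range_succ']
  have h2 : (m 0 y) ((n : ℤ) - (((0 : ℕ) : ℤ) - 1), ((0 : ℕ) : ℤ) - 1) = 0 :=
    Pol_apply_neg_right hy (by norm_num)
  rw [h2, mul_zero, add_zero, sub_self, cq_zero, zero_mul, add_zero, sub_eq_zero]
  refine Finset.sum_congr rfl fun j _ => ?_
  have a1 : (n : ℤ) - ((j + 1 : ℕ) : ℤ) + 1 = n - j := by push_cast; ring
  have a2 : (n : ℤ) - (((j + 1 : ℕ) : ℤ) - 1) = n - j := by push_cast; ring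
  have a3 : ((j + 1 : ℕ) : ℤ) - 1 = j := by push_cast; ring
  unfold cf
  rw [a1, a2, a3]

/-- the transpose of `d₃`, `s = 1` (525): `m0 s j`, `m1 s j` = the two entries of the value at
(slot `s`, `f_j`) -/
noncomputable def d3t1 (g : K) (n : ℕ) (m0 m1 : Fin 2 → ℕ → Op K) (j : ℕ) : Op K :=
  D g 1 * X 1 * m0 0 j - cq g ((j : ℤ) + 1) • m0 0 j
    - (D g 1 * X 0 * m1 0 j - cq g (j : ℤ) • m1 0 (j - 1))
    - (D g 0 * X 1 * m0 1 j - cq g ((n : ℤ) - j) • m0 1 (j + 1))
    + (D g 0 * X 0 * m1 1 j - cq g ((n : ℤ) - j + 1) • m1 1 j)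

/-- **(c1), `s = 1`** : the traces of boundaries vanish -/
theorem c1_one (g : K) (n : ℕ) (m0 m1 : Fin 2 → ℕ → Op K) (y : Lau K)
    (h1 : m1 0 n y ∈ Pol K n) (h0 : m0 1 0 y ∈ Pol K n) : tr n (d3t1 g n m0 m1) y = 0 := by
  have e1 := cyc11 g n (m0 0) y
  have e2 := cyc10 g n (m1 0) y h1
  have e3 := cyc01 g n (m0 1) y h0
  have e4 := cyc00 g n (m1 1) y
  have e5 : tr n (d3t1 g n m0 m1) y =
      tr n (fun j => D g 1 * X 1 * m0 0 j - cq g ((j : ℤ) + 1) • m0 0 j) y
      - tr n (fun j => D g 1 * X 0 * m1 0 j - cq g (j : ℤ) • m1 0 (j - 1)) y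
      - tr n (fun j => D g 0 * X 1 * m0 1 j - cq g ((n : ℤ) - j) • m0 1 (j + 1)) y
      + tr n (fun j => D g 0 * X 0 * m1 1 j - cq g ((n : ℤ) - j + 1) • m1 1 j) y := by
    unfold tr
    rw [← Finset.sum_sub_distrib, ← Finset.sum_sub_distrib, ← Finset.sum_add_distrib]
    refine Finset.sum_congr rfl fun j _ => ?_
    rfl
  rw [e5, e1, e2, e3, e4]
  ring

end Crest.Agent.R186.EV538
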