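import Crest.Agent.R186.Inst_823
import Crest.Agent.R186.FDord_757

/-!
Row 186 (S0281), helper341, leaf B281.N0: the operator half.

* `Fil_neg`, `Fil00`, `Fil01` : the pieces of order `< 0` and `0`;
* `X_apply`, `D_apply` : coefficients;
* `tr_K2`, `tr_O0`, `tr_O1` : the traces of the coboundaries vanish;
* `row_O`, `row_K` : rows of matrices in `A g s`.
-/

set_option autoImplicit false

open Finset Matrix

namespace Crest.Agent.R186.B281

namespace N341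

variable {K : Type} [Field K]

theorem Fil_neg {g : K} {k P : ℤ} (hk : k < 0) {T : Op K} (hT : T ∈ Fil g k P) : T = 0 := by
  have h : {T : Op K | ∃ a b : ℕ × ℕ, (b.1 : ℤ) + b.2 ≤ k ∧
      (a.1 : ℤ) + a.2 - (b.1 + b.2) = P ∧ T = mon g a b} = ∅ := by
    ext T
    simp only [Set.mem_ofPred_eq, Set.mem_empty_iff_false, iff_false]
    rintro ⟨a, b, h1, _⟩
    omega
  unfold Fil at hT
  rw [h, Submodule.span_empty, Submodule.mem_bot] at hT
  exact hT

theorem Fil00 {g : K} {T : Op K} (hT : T ∈ Fil g 0 0) : ∃ c : K, T = c • (1 : Op K) := by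
  induction hT using Submodule.span_induction with
  | mem x hx =>
    obtain ⟨⟨a1, a2⟩, ⟨b1, b2⟩, h1, h2, rfl⟩ := hx
    simp only at h1 h2
    have e1 : b1 = 0 := by omega
    have e2 : b2 = 0 := by omega
    have e3 : a1 = 0 := by omega
    have e4 : a2 = 0 := by omega
    subst e1 e2 e3 e4
    exact ⟨1, by simp [mon]⟩
  | zero => exact ⟨0, by rw [zero_smul]⟩
  | add x y _ _ hx hy =>
    obtain ⟨c, rfl⟩ := hx
    obtain ⟨c', rfl⟩ := hy
    exact ⟨c + c', by rw [add_smul]⟩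
  | smul a x _ hx =>
    obtain ⟨c, rfl⟩ := hx
    exact ⟨a * c, by rw [smul_smul]⟩

theorem Fil01 {g : K} {T : Op K} (hT : T ∈ Fil g 0 1) :
    ∃ b c : K, T = b • (X 0 : Op K) + c • (X 1 : Op K) := by
  induction hT using Submodule.span_induction with
  | mem x hx =>
    obtain ⟨⟨a1, a2⟩, ⟨b1, b2⟩, h1, h2, rfl⟩ := hx
    simp only at h1 h2
    have e1 : b1 = 0 := by omega
    have e2 : b2 = 0 := by omega
    subst e1 e2
    have e3 : (a1 = 1 ∧ a2 = 0) ∨ (a1 = 0 ∧ a2 = 1) := by omega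
    rcases e3 with ⟨rfl, rfl⟩ | ⟨rfl, rfl⟩
    · exact ⟨1, 0, by simp [mon]⟩
    · exact ⟨0, 1, by simp [mon]⟩
  | zero => exact ⟨0, 0, by rw [zero_smul, zero_smul, add_zero]⟩
  | add x y _ _ hx hy =>
    obtain ⟨b, c, rfl⟩ := hx
    obtain ⟨b', c', rfl⟩ := hy
    exact ⟨b + b', c + c', by rw [add_smul, add_smul]; abel⟩
  | smul a x _ hx =>
    obtain ⟨b, c, rfl⟩ := hx
    exact ⟨a * b, a * c, by rw [smul_add, smul_smul, smul_smul]⟩

theorem X_apply (i : Fin 2) (f : Lau K) (m : ℤ × ℤ) : (X i : Op K) f m = f (m - ev i) := by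
  have hinj : Function.Injective (fun m : ℤ × ℤ => m + ev i) := fun a b h => add_right_cancel h
  have := Finsupp.mapDomain_apply hinj f (m - ev i)
  simp only [sub_add_cancel] at this
  exact this

theorem D_apply (g : K) (i : Fin 2) (f : Lau K) (m : ℤ × ℤ) :
    D g i f m = cq g (co i m + 1) * f (m + ev i) := by
  induction f using Finsupp.induction_linear with
  | zero => simp
  | add f f' hf hf' => rw [map_add, Finsupp.add_apply, hf, hf', Finsupp.add_apply, mul_add]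
  | single m' a =>
    rw [D_single, Finsupp.single_apply, Finsupp.single_apply]
    have hco : co i (m + ev i) = co i m + 1 := by fin_cases i <;> simp [co, ev]
    by_cases h : m' = m + ev i
    · subst h
      rw [if_pos (by rw [add_sub_cancel_right]), if_pos rfl, hco]
    · rw [if_neg h, if_neg, mul_zero]
      intro h'
      exact h (by rw [← h', sub_add_cancel])

theorem pol_apply {n : ℤ} {f : Lau K} (hf : f ∈ Pol K n) {m : ℤ × ℤ}
    (hm : ¬ (0 ≤ m.1 ∧ 0 ≤ m.2 ∧ m.1 + m.2 = n)) : f m = 0 := by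
  by_contra h
  exact hm (hf (Finsupp.mem_support_iff.2 h))

/-- the trace of the `K₂`-part of a coboundary -/
theorem tr_K2 (n : ℕ) (z0 z1 : ℕ → Lau K) (h0 : ∀ i, z0 i ∈ Pol K n) (h1 : ∀ i, z1 i ∈ Pol K n)
    (h : ∀ i, (X 1 : Op K) (z0 i) = (X 0 : Op K) (z1 i)) :
    ∑ j ∈ range (n + 1), ((z0 (j + 1)) ((n : ℤ) - j, j) - (z1 j) ((n : ℤ) - j, j)) = 0 := by
  have key : ∀ j : ℕ, (z0 (j + 1)) ((n : ℤ) - j, j) =
      (z1 (j + 1)) ((n : ℤ) - (j + 1 : ℕ), ((j + 1 : ℕ) : ℤ)) := by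
    intro j
    have := congrArg (fun f : Lau K => f ((n : ℤ) - j, (j : ℤ) + 1)) (h (j + 1))
    simp only [X_apply] at this
    have e1 : (((n : ℤ) - j, (j : ℤ) + 1) : ℤ × ℤ) - ev 1 = ((n : ℤ) - j, (j : ℤ)) := by
      simp [ev]
    have e2 : (((n : ℤ) - j, (j : ℤ) + 1) : ℤ × ℤ) - ev 0 =
        ((n : ℤ) - (j + 1 : ℕ), ((j + 1 : ℕ) : ℤ)) := by
      simp only [ev, if_true, Prod.mk_sub_mk]
      push_cast
      congr 1 <;> ring
    rw [e1, e2] at this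
    exact this
  have h2 : ∀ j : ℕ, (z0 (j + 1)) ((n : ℤ) - j, j) - (z1 j) ((n : ℤ) - j, j) =
      (fun j : ℕ => (z1 j) ((n : ℤ) - j, (j : ℤ))) (j + 1) -
        (fun j : ℕ => (z1 j) ((n : ℤ) - j, (j : ℤ))) j := fun j => by rw [key]
  refine (Finset.sum_congr rfl fun j _ => h2 j).trans ((Finset.sum_range_sub
    (fun j : ℕ => (z1 j) ((n : ℤ) - j, (j : ℤ))) (n + 1)).trans ?_)
  rw [pol_apply (h1 (n + 1)) (by push_cast; omega)]
  have h3 : (z1 0) ((n : ℤ) - (0 : ℕ), ((0 : ℕ) : ℤ)) = 0 := by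
    have := congrArg (fun f : Lau K => f ((n : ℤ) + 1, (0 : ℤ))) (h 0)
    simp only [X_apply] at this
    have e1 : (((n : ℤ) + 1, (0 : ℤ)) : ℤ × ℤ) - ev 1 = ((n : ℤ) + 1, (-1 : ℤ)) := by
      simp [ev]
    have e2 : (((n : ℤ) + 1, (0 : ℤ)) : ℤ × ℤ) - ev 0 = ((n : ℤ) - (0 : ℕ), ((0 : ℕ) : ℤ)) := by
      simp [ev]
    rw [e1, e2] at this
    rw [← this]
    exact pol_apply (h0 0) (by simp)
  rw [h3, sub_zero]

/-- coefficients of `x_1 d_1 β` -/
theorem X1D1_apply (g : K) (β : Lau K) (a b : ℤ) :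
    (X 1 * D g 1 : Op K) β (a, b) = cq g b * β (a, b) := by
  rw [Module.End.mul_apply, X_apply, D_apply, sub_add_cancel]
  congr 2
  simp [co, ev]

/-- coefficients of `d_0 x_1 β` -/
theorem D0X1_apply (g : K) (β : Lau K) (a b : ℤ) :
    (D g 0 * X 1 : Op K) β (a, b) = cq g (a + 1) * β (a + 1, b - 1) := by
  rw [Module.End.mul_apply, D_apply, X_apply]
  congr 2
  simp [ev]

/-- the trace of the first `O(-1)`-part of a coboundary -/
theorem tr_O0 (g : K) (n : ℕ) (β : ℕ → Lau K) :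
    ∑ j ∈ range (n + 1), (if 0 < j then (cq g j * (β (j - 1)) ((n : ℤ) - j, j) -
      ((X 1 * D g 1 : Op K) (β (j - 1))) ((n : ℤ) - j, j)) else 0) = 0 := by
  refine Finset.sum_eq_zero fun j _ => ?_
  split_ifs
  · rw [X1D1_apply, sub_self]
  · rfl

/-- the trace of the second `O(-1)`-part of a coboundary -/
theorem tr_O1 (g : K) (n : ℕ) (β : ℕ → Lau K) :
    ∑ j ∈ range (n + 1), ((if j < n then - (cq g ((n : ℤ) - j) * (β j) ((n : ℤ) - j, j)) else 0) +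
      (if 0 < j then ((D g 0 * X 1 : Op K) (β (j - 1))) ((n : ℤ) - j, j) else 0)) = 0 := by
  rw [Finset.sum_add_distrib, Finset.sum_range_succ, if_neg (lt_irrefl n), add_zero,
    Finset.sum_range_succ' (fun j : ℕ => if 0 < j then ((D g 0 * X 1 : Op K) (β (j - 1)))
      ((n : ℤ) - j, j) else 0), if_neg (lt_irrefl 0), add_zero, ← Finset.sum_add_distrib]
  refine Finset.sum_eq_zero fun j hj => ?_
  rw [if_pos (Finset.mem_range.1 hj), if_pos (Nat.succ_pos j), D0X1_apply, Nat.add_sub_cancel]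
  have e1 : (n : ℤ) - ((j + 1 : ℕ) : ℤ) + 1 = (n : ℤ) - j := by push_cast; ring
  have e2 : ((j + 1 : ℕ) : ℤ) - 1 = (j : ℤ) := by push_cast; ring
  rw [e1, e2, neg_add_cancel]

/-! ### rows -/

/-- the unit row at an `O`-position -/
theorem unit_O (g : K) (s : ℤ) (i : Fin 7) (hi : (i : ℕ) < 3) :
    (Pi.single i 1 : Fin 7 → Op K) ∈ Lat g s (i : ℕ) 0 := by
  have h0 : (1 : Op K) ∈ Fil g 0 0 := one_mem_Fil g le_rfl
  obtain ⟨i, hi'⟩ := i
  have hi2 : i = 0 ∨ i = 1 ∨ i = 2 := by simp only at hi; omega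
  rcases hi2 with rfl | rfl | rfl
  · refine ⟨?_, ?_, ?_, ⟨?_, ?_, ?_⟩, ?_, ?_, ?_⟩ <;> simp [h0]
  · refine ⟨?_, ?_, ?_, ⟨?_, ?_, ?_⟩, ?_, ?_, ?_⟩ <;> simp [h0]
  · refine ⟨?_, ?_, ?_, ⟨?_, ?_, ?_⟩, ?_, ?_, ?_⟩ <;> simp [h0]

/-- the unit rows of `K₁(-s)` -/
theorem unit_3 (g : K) (s : ℤ) : (Pi.single 3 1 : Fin 7 → Op K) ∈ Lat g s (s + 1) 0 := by
  have h0 : (1 : Op K) ∈ Fil g 1 0 := one_mem_Fil g (by omega)
  have h1 : (X 0 : Op K) ∈ Fil g 0 1 := X_mem_Fil g 0 (by omega)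
  refine ⟨?_, ?_, ?_, ⟨?_, ?_, ?_⟩, ?_, ?_, ?_⟩ <;> simp [h0, h1]

theorem unit_4 (g : K) (s : ℤ) : (Pi.single 4 1 : Fin 7 → Op K) ∈ Lat g s (s + 1) 0 := by
  have h0 : (1 : Op K) ∈ Fil g 1 0 := one_mem_Fil g (by omega)
  have h1 : (X 1 : Op K) ∈ Fil g 0 1 := X_mem_Fil g 1 (by omega)
  refine ⟨?_, ?_, ?_, ⟨?_, ?_, ?_⟩, ?_, ?_, ?_⟩ <;> simp [h0, h1]

/-- the unit rows of `K₂` -/
theorem unit_5 (g : K) (s : ℤ) : (Pi.single 5 1 : Fin 7 → Op K) ∈ Lat g s 2 0 := by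
  have h0 : (1 : Op K) ∈ Fil g 2 0 := one_mem_Fil g (by omega)
  have h1 : (X 0 : Op K) ∈ Fil g 0 1 := X_mem_Fil g 0 (by omega)
  refine ⟨?_, ?_, ?_, ⟨?_, ?_, ?_⟩, ?_, ?_, ?_⟩ <;> simp [h0, h1]

theorem unit_6 (g : K) (s : ℤ) : (Pi.single 6 1 : Fin 7 → Op K) ∈ Lat g s 2 0 := by
  have h0 : (1 : Op K) ∈ Fil g 2 0 := one_mem_Fil g (by omega)
  have h1 : (X 1 : Op K) ∈ Fil g 0 1 := X_mem_Fil g 1 (by omega)
  refine ⟨?_, ?_, ?_, ⟨?_, ?_, ?_⟩, ?_, ?_, ?_⟩ <;> simp [h0, h1]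

/-- the Koszul row of `K₂` -/
theorem kos_56 (g : K) (s : ℤ) :
    (X 1 : Op K) • (Pi.single 5 1 : Fin 7 → Op K) - (X 0 : Op K) • (Pi.single 6 1 : Fin 7 → Op K)
      ∈ Lat g s 0 1 := by
  have h0 : (X 0 : Op K) ∈ Fil g 0 1 := X_mem_Fil g 0 le_rfl
  have h1 : (X 1 : Op K) ∈ Fil g 0 1 := X_mem_Fil g 1 le_rfl
  refine ⟨?_, ?_, ?_, ⟨?_, ?_, ?_⟩, ?_, ?_, ?_⟩ <;> simp [h0, h1, X_comm (1 : Fin 2) 0]

/-- the Koszul row of `K₁(-s)` -/
theorem kos_34 (g : K) (s : ℤ) :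
    (X 1 : Op K) • (Pi.single 3 1 : Fin 7 → Op K) - (X 0 : Op K) • (Pi.single 4 1 : Fin 7 → Op K)
      ∈ Lat g s s 1 := by
  have h0 : (X 0 : Op K) ∈ Fil g 0 1 := X_mem_Fil g 0 (by omega)
  have h1 : (X 1 : Op K) ∈ Fil g 0 1 := X_mem_Fil g 1 (by omega)
  refine ⟨?_, ?_, ?_, ⟨?_, ?_, ?_⟩, ?_, ?_, ?_⟩ <;> simp [h0, h1, X_comm (1 : Fin 2) 0]

variable {g : K} {s e : ℤ} {M : Mat K}

theorem row_O (hM : Pres g s e M) (i : Fin 7) (hi : (i : ℕ) < 3) : M i ∈ Lat g s (i : ℕ) e := by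
  have h := hM _ _ _ (unit_O g s i hi)
  rwa [Matrix.single_one_vecMul, zero_add] at h

theorem row_3 (hM : Pres g s e M) : M 3 ∈ Lat g s (s + 1) e := by
  have h := hM _ _ _ (unit_3 g s)
  rwa [Matrix.single_one_vecMul, zero_add] at h

theorem row_4 (hM : Pres g s e M) : M 4 ∈ Lat g s (s + 1) e := by
  have h := hM _ _ _ (unit_4 g s)
  rwa [Matrix.single_one_vecMul, zero_add] at h

theorem row_5 (hM : Pres g s e M) : M 5 ∈ Lat g s 2 e := by
  have h := hM _ _ _ (unit_5 g s)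
  rwa [Matrix.single_one_vecMul, zero_add] at h

theorem row_6 (hM : Pres g s e M) : M 6 ∈ Lat g s 2 e := by
  have h := hM _ _ _ (unit_6 g s)
  rwa [Matrix.single_one_vecMul, zero_add] at h

theorem op_smul_vecMul (T : Op K) (v : Fin 7 → Op K) (M : Mat K) :
    (T • v) ᵥ* M = T • (v ᵥ* M) := by
  funext j
  simp only [Matrix.vecMul, dotProduct, Pi.smul_apply, smul_eq_mul, Finset.mul_sum, mul_assoc]

theorem row_56 (hM : Pres g s e M) :
    (fun j => (X 1 : Op K) * M 5 j - (X 0 : Op K) * M 6 j) ∈ Lat g s 0 (1 + e) := by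
  have h := hM _ _ _ (kos_56 g s)
  rwa [Matrix.sub_vecMul, op_smul_vecMul, op_smul_vecMul, Matrix.single_one_vecMul,
    Matrix.single_one_vecMul] at h

theorem row_34 (hM : Pres g s e M) :
    (fun j => (X 1 : Op K) * M 3 j - (X 0 : Op K) * M 4 j) ∈ Lat g s s (1 + e) := by
  have h := hM _ _ _ (kos_34 g s)
  rwa [Matrix.sub_vecMul, op_smul_vecMul, op_smul_vecMul, Matrix.single_one_vecMul,
    Matrix.single_one_vecMul] at h

/-! entries used by the columns `O(-2)` and `O(-1)` -/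

theorem ent02 (hM : Pres g s e M) : M 0 2 = 0 :=
  Fil_neg (by norm_num) (row_O hM 0 (by decide)).2.2.1

theorem ent12 (hM : Pres g s e M) : M 1 2 = 0 :=
  Fil_neg (by norm_num) (row_O hM 1 (by decide)).2.2.1

theorem ent22 (hM : Pres g s e M) : M 2 2 ∈ Fil g 0 e := by
  have := (row_O hM 2 (by decide)).2.2.1
  simpa using this

theorem ent01 (hM : Pres g s e M) : M 0 1 = 0 :=
  Fil_neg (by norm_num) (row_O hM 0 (by decide)).2.1

theorem ent11 (hM : Pres g s e M) : M 1 1 ∈ Fil g 0 e := by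
  have := (row_O hM 1 (by decide)).2.1
  simpa using this

theorem ent21 (hM : Pres g s e M) : M 2 1 ∈ Fil g 1 e := by
  have := (row_O hM 2 (by decide)).2.1
  norm_num at this
  exact this

theorem ent52 (hM : Pres g s e M) : M 5 2 ∈ Fil g 0 e := by
  have := (row_5 hM).2.2.1
  norm_num at this
  exact this

theorem ent62 (hM : Pres g s e M) : M 6 2 ∈ Fil g 0 e := by
  have := (row_6 hM).2.2.1
  norm_num at this
  exact this

theorem ent51 (hM : Pres g s e M) : M 5 1 ∈ Fil g 1 e := by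
  have := (row_5 hM).2.1
  norm_num at this
  exact this

theorem ent61 (hM : Pres g s e M) : M 6 1 ∈ Fil g 1 e := by
  have := (row_6 hM).2.1
  norm_num at this
  exact this

theorem kos2 (hM : Pres g s e M) : (X 1 : Op K) * M 5 2 = X 0 * M 6 2 :=
  sub_eq_zero.1 (Fil_neg (by norm_num) (row_56 hM).2.2.1)

theorem kos1 (hM : Pres g s e M) : (X 1 : Op K) * M 5 1 = X 0 * M 6 1 :=
  sub_eq_zero.1 (Fil_neg (by norm_num) (row_56 hM).2.1)

/-- `s = 0` : the column `O(-2)` vanishes at `K₁` -/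
theorem ent32 (hM : Pres g 0 e M) : M 3 2 = 0 :=
  Fil_neg (by norm_num) (row_3 hM).2.2.1

theorem ent42 (hM : Pres g 0 e M) : M 4 2 = 0 :=
  Fil_neg (by norm_num) (row_4 hM).2.2.1

/-! ### elements -/

/-- a row concentrated at an `O`-position -/
theorem single_mem_O {g : K} {s k P : ℤ} (c : Fin 7) (hc : (c : ℕ) < 3) {t : Op K}
    (ht : t ∈ Fil g (k - (c : ℕ)) P) : (Pi.single c t : Fin 7 → Op K) ∈ Lat g s k P := by
  obtain ⟨c, hc'⟩ := c
  have hc2 : c = 0 ∨ c = 1 ∨ c = 2 := by simp only at hc; omega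
  rcases hc2 with rfl | rfl | rfl
  · have ht' : t ∈ Fil g k P := by simpa using ht
    refine ⟨?_, ?_, ?_, ⟨?_, ?_, ?_⟩, ?_, ?_, ?_⟩ <;> simp [ht']
  · have ht' : t ∈ Fil g (k - 1) P := by simpa using ht
    refine ⟨?_, ?_, ?_, ⟨?_, ?_, ?_⟩, ?_, ?_, ?_⟩ <;> simp [ht']
  · have ht' : t ∈ Fil g (k - 2) P := by simpa using ht
    refine ⟨?_, ?_, ?_, ⟨?_, ?_, ?_⟩, ?_, ?_, ?_⟩ <;> simp [ht']

theorem vecMul_single (v : Fin 7 → Op K) (i j : Fin 7) (T : Op K) :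
    v ᵥ* (Matrix.single i j T : Mat K) = Pi.single j (v i * T) := by
  funext l
  simp only [Matrix.vecMul, dotProduct, Matrix.single_apply, Pi.single_apply]
  rw [Finset.sum_eq_single i]
  · by_cases h : l = j
    · subst h; simp
    · rw [if_neg h, if_neg, mul_zero]
      rintro ⟨-, h'⟩
      exact h h'.symm
  · intro b _ hb
    rw [if_neg, mul_zero]
    rintro ⟨h', -⟩
    exact hb h'.symm
  · intro h
    exact absurd (Finset.mem_univ i) h

/-- `v i ∈ Fil (k - i) P` at the `O`-positions -/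
theorem Lat_O {g : K} {s k P : ℤ} {v : Fin 7 → Op K} (hv : v ∈ Lat g s k P) (i : Fin 7)
    (hi : (i : ℕ) < 3) : v i ∈ Fil g (k - (i : ℕ)) P := by
  obtain ⟨v0, v1, v2, _⟩ := hv
  obtain ⟨i, hi'⟩ := i
  have hi2 : i = 0 ∨ i = 1 ∨ i = 2 := by simp only at hi; omega
  rcases hi2 with rfl | rfl | rfl
  · simpa using v0
  · simpa using v1
  · simpa using v2

/-- operators of order `≤ i - c` between the `O`-positions `i` and `c` -/
theorem Pres_single {g : K} (hg : Gen g) (s : ℤ) {e : ℤ} (i c : Fin 7) (hi : (i : ℕ) < 3)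
    (hc : (c : ℕ) < 3) {T : Op K} (hT : T ∈ Fil g ((i : ℕ) - (c : ℕ)) e) :
    Pres g s e (Matrix.single i c T) := by
  intro k P v hv
  rw [vecMul_single]
  refine single_mem_O c hc ?_
  have := FD757.Fil_mul hg (Lat_O hv i hi) hT
  rwa [show k - ((i : ℕ) : ℤ) + (((i : ℕ) : ℤ) - ((c : ℕ) : ℤ)) = k - ((c : ℕ) : ℤ) by ring] at this

/-- the line `e_{K₂} A e_{O(-2)}`, in degree one -/
theorem Pres_line {g : K} (s : ℤ) (φ : K) :
    Pres g s 1 (Matrix.single 5 2 (φ • X 0) + Matrix.single 6 2 (φ • X 1)) := by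
  intro k P v hv
  rw [Matrix.vecMul_add, vecMul_single, vecMul_single, ← Pi.single_add]
  refine single_mem_O 2 (by decide) ?_
  have h := hv.2.2.2.2.2.2
  rw [mul_smul_comm, mul_smul_comm, ← smul_add]
  exact Submodule.smul_mem _ _ h

end N341

end Crest.Agent.R186.B281
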