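import Crest.Agent.R186.PDef_580
import Crest.Agent.R186.N0Op_341
import Crest.Agent.R186.EV_538

/-!
Row 186 (S0281), helper341, leaf B281.N0: the column `O(-2)` (and `ev` on the column `O(-1)`)
of `Hom (K(n), A)` for `s = 0`, on the level of `A g s`.
-/

set_option autoImplicit false
set_option linter.unusedSectionVars false

open Finset Matrix

namespace Crest.Agent.R186.B281

namespace N341

variable {K : Type} [Field K] {g : K} {s : ℤ}

/-! ### entries of elements of `eps v * A` -/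

theorem fst_eps_mul (x : A g s) (v : Fin 5) (i j : Fin 7) :
    (eps g s v * x).1.fst i j = if blk i = v then x.1.fst i j else 0 := by
  rw [fst_mulA, eps_fst, idp, Matrix.diagonal_mul]
  split_ifs <;> simp

theorem snd_eps_mul (x : A g s) (v : Fin 5) (i j : Fin 7) :
    (eps g s v * x).1.snd i j = if blk i = v then x.1.snd i j else 0 := by
  rw [snd_mulA, eps_fst, eps_snd, zero_mul, add_zero, idp, Matrix.diagonal_mul]
  split_ifs <;> simp

theorem row_zero {v : Fin 5} {x : A g s} (h : eps g s v * x = x) {i : Fin 7} (hi : blk i ≠ v)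
    (j : Fin 7) : x.1.fst i j = 0 ∧ x.1.snd i j = 0 := by
  have h1 := fst_eps_mul x v i j
  have h2 := snd_eps_mul x v i j
  rw [if_neg hi, h] at h1 h2
  exact ⟨h1, h2⟩

theorem kos_scal {a b : K} (h : (X 1 : Op K) * (a • (1 : Op K)) = X 0 * (b • (1 : Op K))) :
    a = 0 ∧ b = 0 := by
  have h1 := congrArg (fun T : Op K => T (Finsupp.single (0, 0) 1)) h
  simp only [mul_smul_comm, mul_one, LinearMap.smul_apply, X_single] at h1
  constructor
  · have := congrArg (fun f : Lau K => f (0, 1)) h1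
    simpa [ev, Finsupp.single_apply] using this
  · have := congrArg (fun f : Lau K => f (1, 0)) h1
    simpa [ev, Finsupp.single_apply] using this.symm

theorem kos_lin {a b c d : K} (h : (X 1 : Op K) * (a • (X 0 : Op K) + b • (X 1 : Op K)) =
    X 0 * (c • (X 0 : Op K) + d • (X 1 : Op K))) : b = 0 ∧ c = 0 ∧ a = d := by
  have h1 := congrArg (fun T : Op K => T (Finsupp.single (0, 0) 1)) h
  simp only [mul_add, mul_smul_comm, LinearMap.smul_apply, LinearMap.add_apply,
    Module.End.mul_apply, X_single] at h1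
  refine ⟨?_, ?_, ?_⟩
  · have := congrArg (fun f : Lau K => f (0, 2)) h1
    simpa [ev, Finsupp.single_apply] using this
  · have := congrArg (fun f : Lau K => f (2, 0)) h1
    simpa [ev, Finsupp.single_apply] using this.symm
  · have := congrArg (fun f : Lau K => f (1, 1)) h1
    simpa [ev, Finsupp.single_apply] using this

theorem lin_zero {a b : K} (h : a • (X 0 : Op K) + b • (X 1 : Op K) = 0) : a = 0 ∧ b = 0 := by
  have h1 := congrArg (fun T : Op K => T (Finsupp.single (0, 0) 1)) h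
  simp only [LinearMap.smul_apply, LinearMap.add_apply, X_single] at h1
  constructor
  · have := congrArg (fun f : Lau K => f (1, 0)) h1
    simpa [ev, Finsupp.single_apply] using this
  · have := congrArg (fun f : Lau K => f (0, 1)) h1
    simpa [ev, Finsupp.single_apply] using this

theorem blk_ne_two {j : Fin 7} (h : j ≠ 2) : blk j ≠ 2 := by
  revert h; revert j; decide

theorem blk_ne_one {j : Fin 7} (h : j ≠ 1) : blk j ≠ 1 := by
  revert h; revert j; decide

theorem blk_ne_zero {j : Fin 7} (h : j ≠ 0) : blk j ≠ 0 := by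
  revert h; revert j; decide

theorem blk_ne_three {j : Fin 7} (h : j ≠ 3) (h' : j ≠ 4) : blk j ≠ 3 := by
  revert h h'; revert j; decide

theorem blk_ne_four {j : Fin 7} (h : j ≠ 5) (h' : j ≠ 6) : blk j ≠ 4 := by
  revert h h'; revert j; decide

/-! ### the column `O(-2)` -/

theorem col2_ext {x y : A g s} (hx : x ∈ Pv g s 2) (hy : y ∈ Pv g s 2)
    (h : ∀ i, x.1.fst i 2 = y.1.fst i 2) (h' : ∀ i, x.1.snd i 2 = y.1.snd i 2) : x = y := by
  refine A_ext (fun i j => ?_) (fun i j => ?_)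
  · by_cases hj : j = 2
    · subst hj; exact h i
    · rw [(mem_Pv.1 hx i j (blk_ne_two hj)).1, (mem_Pv.1 hy i j (blk_ne_two hj)).1]
  · by_cases hj : j = 2
    · subst hj; exact h' i
    · rw [(mem_Pv.1 hx i j (blk_ne_two hj)).2, (mem_Pv.1 hy i j (blk_ne_two hj)).2]

theorem col2_0 {x : A g s} (hx : x ∈ Pv g s 2) (h : eps g s 0 * x = x) : x = 0 := by
  refine col2_ext hx (zero_mem _) (fun i => ?_) (fun i => ?_)
  · by_cases hi : i = 0
    · subst hi; exact ent02 x.2.1
    · exact (row_zero h (blk_ne_zero hi) 2).1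
  · by_cases hi : i = 0
    · subst hi; exact ent02 x.2.2
    · exact (row_zero h (blk_ne_zero hi) 2).2

theorem col2_1 {x : A g s} (hx : x ∈ Pv g s 2) (h : eps g s 1 * x = x) : x = 0 := by
  refine col2_ext hx (zero_mem _) (fun i => ?_) (fun i => ?_)
  · by_cases hi : i = 1
    · subst hi; exact ent12 x.2.1
    · exact (row_zero h (blk_ne_one hi) 2).1
  · by_cases hi : i = 1
    · subst hi; exact ent12 x.2.2
    · exact (row_zero h (blk_ne_one hi) 2).2

theorem col2_3 {x : A g 0} (hx : x ∈ Pv g 0 2) (h : eps g 0 3 * x = x) : x = 0 := by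
  refine col2_ext hx (zero_mem _) (fun i => ?_) (fun i => ?_)
  · by_cases hi : i = 3
    · subst hi; exact ent32 x.2.1
    · by_cases hi' : i = 4
      · subst hi'; exact ent42 x.2.1
      · exact (row_zero h (blk_ne_three hi hi') 2).1
  · by_cases hi : i = 3
    · subst hi; exact ent32 x.2.2
    · by_cases hi' : i = 4
      · subst hi'; exact ent42 x.2.2
      · exact (row_zero h (blk_ne_three hi hi') 2).2

theorem col2_4 {x : A g s} (hx : x ∈ Pv g s 2) (h : eps g s 4 * x = x) :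
    ∃ φ : K, (∀ i, x.1.fst i 2 = 0) ∧ x.1.snd 5 2 = φ • (X 0 : Op K) ∧
      x.1.snd 6 2 = φ • (X 1 : Op K) := by
  obtain ⟨a, ha⟩ := Fil00 (ent52 x.2.1)
  obtain ⟨b, hb⟩ := Fil00 (ent62 x.2.1)
  have h1 := kos2 x.2.1
  rw [ha, hb] at h1
  obtain ⟨rfl, rfl⟩ := kos_scal h1
  obtain ⟨a1, b1, ha1⟩ := Fil01 (ent52 x.2.2)
  obtain ⟨c1, d1, hc1⟩ := Fil01 (ent62 x.2.2)
  have h2 := kos2 x.2.2
  rw [ha1, hc1] at h2
  obtain ⟨rfl, rfl, rfl⟩ := kos_lin h2
  refine ⟨a1, fun i => ?_, ?_, ?_⟩
  · by_cases hi : i = 5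
    · subst hi; rw [ha, zero_smul]
    · by_cases hi' : i = 6
      · subst hi'; rw [hb, zero_smul]
      · exact (row_zero h (blk_ne_four hi hi') 2).1
  · rw [ha1, zero_smul, add_zero]
  · rw [hc1, zero_smul, zero_add]

theorem col2_2 {x : A g s} (_hx : x ∈ Pv g s 2) : ∃ α β γ : K,
    x.1.fst 2 2 = α • (1 : Op K) ∧ x.1.snd 2 2 = β • (X 0 : Op K) + γ • (X 1 : Op K) := by
  obtain ⟨a, ha⟩ := Fil00 (ent22 x.2.1)
  obtain ⟨b, c, hb⟩ := Fil01 (ent22 x.2.2)
  exact ⟨a, b, c, ha, hb⟩

/-! ### maps out of the projectives -/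

theorem eps_val {v : Fin 5} {Y : Type} [AddCommGroup Y] [Module (A g s) Y]
    (φ : Pv g s v →ₗ[A g s] Y) : eps g s v • φ (Pgen g s v) = φ (Pgen g s v) :=
  Dev580.e_smul_hom (eps_idem g s v) φ

theorem eps_gen (v : Fin 5) : eps g s v • Pgen g s v = Pgen g s v :=
  Dev580.gen_smul (eps_idem g s v)

theorem hom_zero {v w : Fin 5} (h : ∀ x : A g s, x ∈ Pv g s w → eps g s v * x = x → x = 0)
    (φ : Pv g s v →ₗ[A g s] Pv g s w) : φ = 0 := by
  refine Dev580.hom_ext (eps_idem g s v) ?_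
  have h1 : eps g s v • φ (Pgen g s v) = φ (Pgen g s v) := eps_val φ
  exact Subtype.ext (h _ (φ (Pgen g s v)).2 (congrArg Subtype.val h1))

theorem H0_col2 {m : ℕ} (f : (Fin m → Pv g s 0) →ₗ[A g s] Pv g s 2) : f = 0 :=
  LinearMap.pi_ext' fun i => (hom_zero (fun x => col2_0) _).trans (LinearMap.zero_comp _).symm

theorem H1_col2 {m : ℕ} (f : (Fin 2 → Fin m → Pv g 0 3) →ₗ[A g 0] Pv g 0 2) : f = 0 :=
  LinearMap.pi_ext' fun _ => (LinearMap.pi_ext' fun _ =>
    (hom_zero (fun x => col2_3) _).trans (LinearMap.zero_comp _).symm).trans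
      (LinearMap.zero_comp _).symm

end N341

end Crest.Agent.R186.B281
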