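import Crest.Agent.R186.FamX_823

/-!
Row 186, S0281, leaf B281.F1 (helper823): powers and products of families, their `W`,
levelwise exactness, and (S') = `Fam.Sur` for all terms of the resolutions.
-/

set_option autoImplicit false

namespace Crest.Agent.R186.FamX823

open Crest.Agent.R186.B281

variable {K : Type} [Field K] {g : K}

/-! ### powers -/

/-- functions with values in a family -/
noncomputable def pi (F : Fam g) (ι : Type) : Fam g where
  N := ι → F.N
  L k P := Submodule.pi Set.univ fun _ => F.L k P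
  mono h := fun _ hx i hi => F.mono h (hx i hi)
  smul hT hn := fun i hi => F.smul hT (hn i hi)

theorem mem_pi {F : Fam g} {ι : Type} {k P : ℤ} {x : ι → F.N} :
    x ∈ (pi F ι).L k P ↔ ∀ i, x i ∈ F.L k P := by
  show x ∈ Submodule.pi Set.univ _ ↔ _
  simp [Submodule.mem_pi]

theorem pair_pi {N ι : Type} [AddCommGroup N] [Module (Op K) N]
    (r : Fin 7 → Op K) (m : Fin 7 → ι → N) (i : ι) :
    pair r m i = pair r (fun j => m j i) := by
  simp only [pair, Finset.sum_apply, Pi.smul_apply]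

theorem cact_pi {N ι : Type} [AddCommGroup N] [Module (Op K) N]
    (M : Mat K) (m : Fin 7 → ι → N) (j : Fin 7) (i : ι) :
    cact M m j i = cact M (fun j => m j i) j := by
  simp only [cact, Finset.sum_apply, Pi.smul_apply]

/-- `W` of a power -/
noncomputable def piW (F : Fam g) (ι : Type) (s : ℤ) : (pi F ι).W s ≃ₗ[A g s] (ι → F.W s) where
  toFun p i := ⟨((fun j => p.1.1 j i, fun j => p.1.2 j i) : Col F.N), by
    intro k P r hr
    have h := p.2 k P r hr
    refine ⟨?_, ?_⟩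
    · have h1 := mem_pi.1 h.1 i
      exact (pair_pi r p.1.1 i) ▸ h1
    · have h1 := mem_pi.1 h.2 i
      exact (pair_pi r p.1.2 i) ▸ h1⟩
  invFun q := ⟨((fun j i => (q i).1.1 j, fun j i => (q i).1.2 j) : Col (ι → F.N)), by
    intro k P r hr
    refine ⟨mem_pi.2 fun i => ?_, mem_pi.2 fun i => ?_⟩
    · exact (pair_pi r (fun j i => (q i).1.1 j) i).symm ▸ ((q i).2 k P r hr).1
    · exact (pair_pi r (fun j i => (q i).1.2 j) i).symm ▸ ((q i).2 k P r hr).2⟩
  left_inv p := by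
    apply Subtype.ext
    rfl
  right_inv q := by
    funext i
    apply Subtype.ext
    rfl
  map_add' p q := by
    funext i
    apply Subtype.ext
    rfl
  map_smul' x p := by
    funext i
    apply Subtype.ext
    refine Col.ext' (fun j => ?_) (fun j => ?_)
    · exact cact_pi x.1.fst p.1.1 j i
    · exact congrArg₂ (· + ·) (cact_pi x.1.fst p.1.2 j i) (cact_pi x.1.snd p.1.1 j i)

theorem piW_fst (F : Fam g) (ι : Type) (s : ℤ) (p : (pi F ι).W s) (i : ι) (j : Fin 7) :
    (piW F ι s p i).1.1 j = p.1.1 j i := rfl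

theorem piW_snd (F : Fam g) (ι : Type) (s : ℤ) (p : (pi F ι).W s) (i : ι) (j : Fin 7) :
    (piW F ι s p i).1.2 j = p.1.2 j i := rfl

/-! ### products -/

/-- the product of two families -/
noncomputable def prod (F G : Fam g) : Fam g where
  N := F.N × G.N
  L k P := (F.L k P).prod (G.L k P)
  mono h := fun _ hx => ⟨F.mono h hx.1, G.mono h hx.2⟩
  smul hT hn := ⟨F.smul hT hn.1, G.smul hT hn.2⟩

theorem mem_prod {F G : Fam g} {k P : ℤ} {x : F.N × G.N} :
    x ∈ (prod F G).L k P ↔ x.1 ∈ F.L k P ∧ x.2 ∈ G.L k P := Iff.rfl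

theorem pair_fst {N N' : Type} [AddCommGroup N] [Module (Op K) N] [AddCommGroup N']
    [Module (Op K) N'] (r : Fin 7 → Op K) (m : Fin 7 → N × N') :
    (pair r m).1 = pair r (fun j => (m j).1) := by
  simp only [pair, Prod.fst_sum, Prod.smul_fst]

theorem pair_snd {N N' : Type} [AddCommGroup N] [Module (Op K) N] [AddCommGroup N']
    [Module (Op K) N'] (r : Fin 7 → Op K) (m : Fin 7 → N × N') :
    (pair r m).2 = pair r (fun j => (m j).2) := by
  simp only [pair, Prod.snd_sum, Prod.smul_snd]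

theorem cact_fst {N N' : Type} [AddCommGroup N] [Module (Op K) N] [AddCommGroup N']
    [Module (Op K) N'] (M : Mat K) (m : Fin 7 → N × N') (j : Fin 7) :
    (cact M m j).1 = cact M (fun j => (m j).1) j := by
  simp only [cact, Prod.fst_sum, Prod.smul_fst]

theorem cact_snd {N N' : Type} [AddCommGroup N] [Module (Op K) N] [AddCommGroup N']
    [Module (Op K) N'] (M : Mat K) (m : Fin 7 → N × N') (j : Fin 7) :
    (cact M m j).2 = cact M (fun j => (m j).2) j := by
  simp only [cact, Prod.snd_sum, Prod.smul_snd]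

/-- `W` of a product -/
noncomputable def prodW (F G : Fam g) (s : ℤ) : (prod F G).W s ≃ₗ[A g s] (F.W s × G.W s) where
  toFun p := (⟨((fun j => (p.1.1 j).1, fun j => (p.1.2 j).1) : Col F.N), by
      intro k P r hr
      have h := p.2 k P r hr
      exact ⟨(pair_fst r p.1.1) ▸ h.1.1, (pair_fst r p.1.2) ▸ h.2.1⟩⟩,
    ⟨((fun j => (p.1.1 j).2, fun j => (p.1.2 j).2) : Col G.N), by
      intro k P r hr
      have h := p.2 k P r hr
      exact ⟨(pair_snd r p.1.1) ▸ h.1.2, (pair_snd r p.1.2) ▸ h.2.2⟩⟩)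
  invFun q := ⟨((fun j => (q.1.1.1 j, q.2.1.1 j), fun j => (q.1.1.2 j, q.2.1.2 j)) :
      Col (F.N × G.N)), by
    intro k P r hr
    have h1 := q.1.2 k P r hr
    have h2 := q.2.2 k P r hr
    refine ⟨⟨?_, ?_⟩, ?_, ?_⟩
    · exact (pair_fst r (fun j => (q.1.1.1 j, q.2.1.1 j))).symm ▸ h1.1
    · exact (pair_snd r (fun j => (q.1.1.1 j, q.2.1.1 j))).symm ▸ h2.1
    · exact (pair_fst r (fun j => (q.1.1.2 j, q.2.1.2 j))).symm ▸ h1.2
    · exact (pair_snd r (fun j => (q.1.1.2 j, q.2.1.2 j))).symm ▸ h2.2⟩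
  left_inv p := by
    apply Subtype.ext
    rfl
  right_inv q := by
    refine Prod.ext ?_ ?_ <;> apply Subtype.ext <;> rfl
  map_add' p q := by
    refine Prod.ext ?_ ?_ <;> apply Subtype.ext <;> rfl
  map_smul' x p := by
    refine Prod.ext ?_ ?_ <;> apply Subtype.ext <;> refine Col.ext' (fun j => ?_) (fun j => ?_)
    · exact cact_fst x.1.fst p.1.1 j
    · exact congrArg₂ (· + ·) (cact_fst x.1.fst p.1.2 j) (cact_fst x.1.snd p.1.1 j)
    · exact cact_snd x.1.fst p.1.1 j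
    · exact congrArg₂ (· + ·) (cact_snd x.1.fst p.1.2 j) (cact_snd x.1.snd p.1.1 j)

/-! ### (S') -/

theorem sur_pi {F : Fam g} {j i e : ℤ} (h : F.Sur j i e) (ι : Type) : (pi F ι).Sur j i e := by
  intro n hn
  choose a ha b hb c hc hh using fun t => h (n t) (mem_pi.1 hn t)
  exact ⟨a, mem_pi.2 ha, b, mem_pi.2 hb, c, mem_pi.2 hc, funext hh⟩

theorem sur_prod {F G : Fam g} {j i e : ℤ} (h : F.Sur j i e) (h' : G.Sur j i e) :
    (prod F G).Sur j i e := by
  rintro ⟨u, v⟩ ⟨hu, hv⟩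
  obtain ⟨u0, a0, u1, a1, u', a2, e1⟩ := h u hu
  obtain ⟨v0, b0, v1, b1, v', b2, e2⟩ := h' v hv
  exact ⟨(u0, v0), ⟨a0, b0⟩, (u1, v1), ⟨a1, b1⟩, (u', v'), ⟨a2, b2⟩, Prod.ext e1 e2⟩

/-- (S') for a family given by a line bundle lattice -/
theorem sur_O {F : Fam g} (f : F.N ≃ₗ[Op K] Op K) {c j i e : ℤ} (he : 0 ≤ e)
    (hj : ∀ P n, n ∈ F.L j P ↔ f n ∈ Fil g (j - c) P) : F.Sur j i e := by
  intro n hn
  obtain ⟨a, ha, b, hb, hh⟩ := surO he ((hj _ n).1 hn)
  refine ⟨f.symm a, (hj _ _).2 (by rwa [f.apply_symm_apply]), f.symm b,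
    (hj _ _).2 (by rwa [f.apply_symm_apply]), 0, zero_mem _, ?_⟩
  apply f.injective
  rw [add_zero, map_sub, map_smul, map_smul, f.apply_symm_apply, f.apply_symm_apply, hh,
    smul_eq_mul, smul_eq_mul]

/-- (S') for a family given by a `K`-lattice -/
theorem sur_K {F : Fam g} (hg : Gen g) (f : F.N ≃ₗ[Op K] (Fin 2 → Op K)) {c d j i e : ℤ}
    (he : 0 ≤ e) (hcd : c ≤ d) (hbc : c ≤ i ∨ d ≤ j)
    (hj : ∀ P n, n ∈ F.L j P ↔ InK g c d j P (f n 0) (f n 1))
    (hi : ∀ P n, n ∈ F.L i P ↔ InK g c d i P (f n 0) (f n 1)) : F.Sur j i e := by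
  intro n hn
  obtain ⟨p0, p1, q0, q1, r0, r1, hp, hq, hr, e0, e1⟩ :=
    surK hg he hcd hbc ((hj _ n).1 hn)
  refine ⟨f.symm ![p0, p1], (hj _ _).2 (by rw [f.apply_symm_apply]; exact hp),
    f.symm ![q0, q1], (hj _ _).2 (by rw [f.apply_symm_apply]; exact hq),
    f.symm ![r0, r1], (hi _ _).2 (by rw [f.apply_symm_apply]; exact hr), ?_⟩
  apply f.injective
  rw [map_add, map_sub, map_smul, map_smul, f.apply_symm_apply, f.apply_symm_apply,
    f.apply_symm_apply]
  funext t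
  fin_cases t
  · exact e0
  · exact e1

end Crest.Agent.R186.FamX823
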