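import Crest.Agent.R186.NullCol_538
import Crest.Agent.R186.ExtRes_700

/-!
Row 186 (S0281), helper341, leaf B281.N0 (also used for N1), the `Ext` half:

* `E0_iff_of_quot` : `0 → X → Y → Z → 0`, all `Ext(N, Z) = 0` ⇒ `Ext^q(N, X) = 0 ↔ Ext^q(N, Y) = 0`;
* `dev0`, `dev1` : the devissage of the five columns for `s = 0` and `s = 1`;
* `null_of_dev` : chain + resolutions + torsion quotients + column `P2` ⇒ `Ext^q(V 0, A) = 0`.
-/

set_option autoImplicit false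

open CategoryTheory CategoryTheory.Abelian

namespace Crest.Agent.R186.Null341

open NullChain538 ExtRes700

universe u

section Gen

variable {A : Type u} [Ring A]

/-- `0 → X → Y → Z → 0` with all `Ext(N, Z) = 0` -/
theorem E0_iff_of_quot {X Y Z N : Type u} [AddCommGroup X] [Module A X] [AddCommGroup Y]
    [Module A Y] [AddCommGroup Z] [Module A Z] [AddCommGroup N] [Module A N] (f : X →ₗ[A] Y)
    (g : Y →ₗ[A] Z) (hf : Function.Injective f) (hg : Function.Surjective g)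
    (he : Function.Exact f g) (hZ : ∀ q, E0 A N Z q) (q : ℕ) : E0 A N X q ↔ E0 A N Y q := by
  constructor
  · intro h
    exact cmid f g hf hg he q h (hZ q)
  · intro h
    cases q with
    | zero => exact cleft0 f hf h
    | succ q => exact cleft f g hf hg he q (hZ q) h

/-- `Ext^q(N, P)` vanishes for `P` finite projective as soon as `Ext^q(N, A)` does -/
theorem E0_fp {N : Type u} [AddCommGroup N] [Module A N] (P : Type u) [AddCommGroup P] [Module A P]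
    [Module.Finite A P] [Module.Projective A P] {q : ℕ} (h : E0 A N A q) : E0 A N P q := by
  obtain ⟨m, s, r, hrs⟩ := exists_retract (A := A) P
  exact retract_right s r hrs q (pi_right q m h)

variable {P0 P1 P2 PK1 PK2 : Type u} [AddCommGroup P0] [Module A P0] [AddCommGroup P1]
  [Module A P1] [AddCommGroup P2] [Module A P2] [AddCommGroup PK1] [Module A PK1]
  [AddCommGroup PK2] [Module A PK2]
  {Q1 Q2 Q3 Q4 : Type u} [AddCommGroup Q1] [Module A Q1] [AddCommGroup Q2] [Module A Q2]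
  [AddCommGroup Q3] [Module A Q3] [AddCommGroup Q4] [Module A Q4]

/-- devissage for `s = 0` -/
theorem dev0 (f1 : P2 →ₗ[A] P1) (g1 : P1 →ₗ[A] Q1) (i1 : Function.Injective f1)
    (s1 : Function.Surjective g1) (e1 : Function.Exact f1 g1)
    (f2 : P1 →ₗ[A] P0) (g2 : P0 →ₗ[A] Q2) (i2 : Function.Injective f2)
    (s2 : Function.Surjective g2) (e2 : Function.Exact f2 g2)
    (f3 : (Fin 2 → P1) →ₗ[A] PK1) (g3 : PK1 →ₗ[A] Q3) (i3 : Function.Injective f3)
    (s3 : Function.Surjective g3) (e3 : Function.Exact f3 g3)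
    (f4 : PK2 →ₗ[A] PK1) (g4 : PK1 →ₗ[A] Q4) (i4 : Function.Injective f4)
    (s4 : Function.Surjective g4) (e4 : Function.Exact f4 g4)
    (a : A →ₗ[A] (P0 × P1 × P2 × PK1 × PK2)) (b : (P0 × P1 × P2 × PK1 × PK2) →ₗ[A] A)
    (hab : b ∘ₗ a = LinearMap.id)
    (X : Type u) [AddCommGroup X] [Module A X] (q : ℕ) (h1 : ∀ q, E0 A X Q1 q)
    (h2 : ∀ q, E0 A X Q2 q) (h3 : ∀ q, E0 A X Q3 q) (h4 : ∀ q, E0 A X Q4 q)
    (h : E0 A X P2 q) : E0 A X A q := by
  have k1 : E0 A X P1 q := (E0_iff_of_quot f1 g1 i1 s1 e1 h1 q).1 h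
  have k0 : E0 A X P0 q := (E0_iff_of_quot f2 g2 i2 s2 e2 h2 q).1 k1
  have k3 : E0 A X PK1 q := (E0_iff_of_quot f3 g3 i3 s3 e3 h3 q).1 (pi_right q 2 k1)
  have k4 : E0 A X PK2 q := (E0_iff_of_quot f4 g4 i4 s4 e4 h4 q).2 k3
  exact retract_right a b hab q (prod_right q k0 (prod_right q k1 (prod_right q h
    (prod_right q k3 k4))))

/-- devissage for `s = 1` -/
theorem dev1 (f1 : P2 →ₗ[A] P1) (g1 : P1 →ₗ[A] Q1) (i1 : Function.Injective f1)
    (s1 : Function.Surjective g1) (e1 : Function.Exact f1 g1)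
    (f2 : P1 →ₗ[A] P0) (g2 : P0 →ₗ[A] Q2) (i2 : Function.Injective f2)
    (s2 : Function.Surjective g2) (e2 : Function.Exact f2 g2)
    (f3 : PK1 →ₗ[A] (Fin 2 → P1)) (g3 : (Fin 2 → P1) →ₗ[A] Q3) (i3 : Function.Injective f3)
    (s3 : Function.Surjective g3) (e3 : Function.Exact f3 g3)
    (f4 : PK1 →ₗ[A] PK2) (g4 : PK2 →ₗ[A] Q4) (i4 : Function.Injective f4)
    (s4 : Function.Surjective g4) (e4 : Function.Exact f4 g4)
    (a : A →ₗ[A] (P0 × P1 × P2 × PK1 × PK2)) (b : (P0 × P1 × P2 × PK1 × PK2) →ₗ[A] A)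
    (hab : b ∘ₗ a = LinearMap.id)
    (X : Type u) [AddCommGroup X] [Module A X] (q : ℕ) (h1 : ∀ q, E0 A X Q1 q)
    (h2 : ∀ q, E0 A X Q2 q) (h3 : ∀ q, E0 A X Q3 q) (h4 : ∀ q, E0 A X Q4 q)
    (h : E0 A X P2 q) : E0 A X A q := by
  have k1 : E0 A X P1 q := (E0_iff_of_quot f1 g1 i1 s1 e1 h1 q).1 h
  have k0 : E0 A X P0 q := (E0_iff_of_quot f2 g2 i2 s2 e2 h2 q).1 k1
  have k3 : E0 A X PK1 q := (E0_iff_of_quot f3 g3 i3 s3 e3 h3 q).2 (pi_right q 2 k1)
  have k4 : E0 A X PK2 q := (E0_iff_of_quot f4 g4 i4 s4 e4 h4 q).1 k3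
  exact retract_right a b hab q (prod_right q k0 (prod_right q k1 (prod_right q h
    (prod_right q k3 k4))))

/-- the converse of `MRes.ext3` -/
theorem h3_of_ext {E : Type u} [AddCommGroup E] [Module A E] (R : MRes A E) {Y : Type u}
    [AddCommGroup Y] [Module A Y] (h : E0 A E Y 3) : R.H3 Y := by
  intro f
  have h1 : R.toRes3.cls.comp (Ext.mk₀ (ModuleCat.ofHom f)) (add_zero 3) = 0 := h.elim _ _
  obtain ⟨g, hg⟩ := (R.toRes3.comp_eq_zero_iff (ModuleCat.ofHom f)).1 h1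
  refine ⟨g.hom, ?_⟩
  ext x
  exact congrArg (fun g => (ModuleCat.Hom.hom g) x) hg

/-- `Ext^q(E, Y) = 0` for `q ≠ 3` -/
theorem ext_ne3 {E : Type u} [AddCommGroup E] [Module A E] (R : MRes A E) {Y : Type u}
    [AddCommGroup Y] [Module A Y] (h0 : R.H0 Y) (h1 : R.H1 Y) (h2 : R.H2 Y) (q : ℕ)
    (hq : q ≠ 3) : E0 A E Y q := by
  match q, hq with
  | 0, _ => exact MRes.ext0 h0
  | 1, _ => exact MRes.ext1 h1
  | 2, _ => exact MRes.ext2 h2
  | q + 4, _ => exact MRes.ext_ge4 (R := R) (Y := Y) (q := q + 4) (by omega)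

end Gen

section Main

variable {A : Type u} [Ring A] {V E : ℕ → Type u} [∀ n, AddCommGroup (V n)] [∀ n, Module A (V n)]
  [∀ n, AddCommGroup (E n)] [∀ n, Module A (E n)]
  {k : Type*} [CommRing k] {P1 P2 : Type u} [AddCommGroup P1] [Module A P1] [Module k P1]
  [SMulCommClass A k P1] [AddCommGroup P2] [Module A P2] [Module k P2] [SMulCommClass A k P2]

/-- **nullness of the chain against `A`** from the column `P2`, the torsion quotients and the
evaluation maps (no lifts, no closed formula for the connecting map). -/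
theorem null_of_dev (i : ∀ n, V (n + 1) →ₗ[A] E n) (p : ∀ n, E n →ₗ[A] V n)
    (hi : ∀ n, Function.Injective (i n)) (hp : ∀ n, Function.Surjective (p n))
    (hex : ∀ n, Function.Exact (i n) (p n)) (hV : ∀ n, Nontrivial (V (n + 1)))
    (R : ∀ n, MRes A (E n)) (f0 : ∀ n, Module.Finite A (R n).K0)
    (f1 : ∀ n, Module.Finite A (R n).K1) (f2 : ∀ n, Module.Finite A (R n).K2)
    (ret : ∀ n, ∃ (m : ℕ) (s : (R n).K3 →ₗ[A] (Fin m → P2)) (r : (Fin m → P2) →ₗ[A] (R n).K3),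
      r ∘ₗ s = LinearMap.id)
    {κ : Type*} (Q : κ → Type u) [∀ j, AddCommGroup (Q j)] [∀ j, Module A (Q j)]
    (hQ : ∀ j n q, E0 A (E n) (Q j) q)
    (dev : ∀ (X : Type u) [AddCommGroup X] [Module A X] (q : ℕ),
      (∀ j q', E0 A X (Q j) q') → E0 A X P2 q → E0 A X A q)
    (h0 : ∀ n, (R n).H0 P2) (h1 : ∀ n, (R n).H1 P2) (h2 : ∀ n, (R n).H2 P2)
    (ρh : P2 →ₗ[A] P1) (j1 : κ) (π1 : P1 →ₗ[A] Q j1)
    (ρπ : Function.Exact ρh π1) (π1_surj : Function.Surjective π1)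
    {ι : Type*} (ρ : ι → P2 →ₗ[A] P1)
    (C : ℕ → Type*) [∀ n, AddCommGroup (C n)] [∀ n, Module k (C n)]
    (T : ∀ n, ι → C n →ₗ[k] C n)
    (ev2 : ∀ n, ((R n).K3 →ₗ[A] P2) →ₗ[k] C n) (ev1 : ∀ n, ((R n).K3 →ₗ[A] P1) →ₗ[k] C n)
    (s2 : ∀ n, Function.Surjective (ev2 n))
    (k2 : ∀ n f, ev2 n f = 0 → ∃ h : (R n).K2 →ₗ[A] P2, h ∘ₗ (R n).d3 = f)
    (c1 : ∀ n (h : (R n).K2 →ₗ[A] P1), ev1 n (h ∘ₗ (R n).d3) = 0)
    (eh : ∀ n f, ev1 n (ρh ∘ₗ f) = ev2 n f)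
    (et : ∀ n t f, ev1 n (ρ t ∘ₗ f) = T n t (ev2 n f))
    (S : ∀ n, Submodule k (C n)) (S0 : S 0 = ⊥)
    (brick : ∀ n (δ : C n →ₗ[k] C (n + 1)), δ ≠ 0 → (∀ t c, δ (T n t c) = T (n + 1) t (δ c)) →
      LinearMap.ker δ = S n ∧ LinearMap.range δ = S (n + 1)) (q : ℕ) :
    E0 A (V 0) A q := by
  have hx : ∀ n q, q ≠ 3 → E0 A (E n) P2 q := fun n q hq =>
    ext_ne3 (R n) (h0 n) (h1 n) (h2 n) q hq
  have hA : ∀ n q, q ≠ 3 → E0 A (E n) A q := fun n q hq =>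
    dev (E n) q (fun j q' => hQ j n q') (hx n q hq)
  have hK : ∀ n q, q ≠ 3 → ∀ (P : Type u) [AddCommGroup P] [Module A P] [Module.Finite A P]
      [Module.Projective A P], E0 A (E n) P q := fun n q hq P _ _ _ _ => E0_fp P (hA n q hq)
  have c2 : ∀ n (h : (R n).K2 →ₗ[A] P2), ev2 n (h ∘ₗ (R n).d3) = 0 := by
    intro n h
    rw [← eh, ← LinearMap.comp_assoc]
    exact c1 n _
  refine dev (V 0) q (fun j q' => mext_zero_all i p hi hp hex (Q j) (fun n q => hQ j n q) q' 0) ?_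
  refine null_of_col i p hi hp hex hV R ?_ ?_ ?_ hx ret ρh ρ C T ev2 ev1 s2 ?_ ?_ eh et S S0
    brick q
  · intro n
    have := f0 n
    have := (R n).p0
    exact hK (n + 1) 0 (by omega) (R n).K0
  · intro n
    have := f1 n
    have := (R n).p1
    exact hK (n + 1) 1 (by omega) (R n).K1
  · intro n
    have := f2 n
    have := (R n).p2
    exact hK (n + 1) 2 (by omega) (R n).K2
  · intro n f
    refine ⟨k2 n f, ?_⟩
    rintro ⟨h, rfl⟩
    exact c2 n h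
  · intro n f
    refine ⟨fun hf => ?_, ?_⟩
    · have := (R n).p2
      have := (R n).p3
      obtain ⟨g, hg⟩ := h3_of_ext (R n) (hQ j1 n 3) (π1 ∘ₗ f)
      obtain ⟨h, hh⟩ := Module.projective_lifting_property π1 g π1_surj
      obtain ⟨f', hf'⟩ := lift_exact ρh π1 ρπ (f - h ∘ₗ (R n).d3) (by
        rw [LinearMap.comp_sub, ← hg, ← hh, LinearMap.comp_assoc, sub_self])
      have e1 : ev2 n f' = 0 := by
        rw [← eh, hf', map_sub, hf, c1, sub_self]
      obtain ⟨h', hh'⟩ := k2 n f' e1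
      refine ⟨h + ρh ∘ₗ h', ?_⟩
      rw [LinearMap.add_comp, LinearMap.comp_assoc, hh', hf']
      abel
    · rintro ⟨h, rfl⟩
      exact c1 n h

end Main

end Crest.Agent.R186.Null341
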