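import Crest.Agent.R186.LCA_229
import Crest.Agent.R186.B281P_128
import Crest.Agent.R186.FamX2_823
import Crest.Agent.R186.NullAbs_341
import Crest.Agent.R186.EVA_538

/-!
Row 186, S0281 base, leaf B281.DEV (helper147, second of helper580): the devissage on the level of
families, both `s`.

* `FF hg s j`, `FS hg s j` : the four pairs `L' ≤ L`; `QT hg s j = W(L) / W(L')`; `isQuo`;
* `dev0`, `dev1` : nullness of the column `O(-2)` and of the four quotients ⇒ nullness of `A`;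
* `π1`, `ρπ`, `π1_surj` : the first quotient through `EVA538.ρh`.
-/

set_option autoImplicit false
set_option linter.unusedSectionVars false

open Matrix

noncomputable section

namespace Crest.Agent.R186.B281.Dev147

open ExtRes700

variable {K : Type} [Field K] {g : K}

/-! ### quotients -/

/-- `W(L) / W(L')` -/
def Quo (F : Fam g) (F' : F.Sub) (s : ℤ) : Type := F.W s ⧸ LinearMap.range (F'.inc.W s)

instance (F : Fam g) (F' : F.Sub) (s : ℤ) : AddCommGroup (Quo F F' s) :=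
  inferInstanceAs (AddCommGroup (F.W s ⧸ LinearMap.range (F'.inc.W s)))

instance (F : Fam g) (F' : F.Sub) (s : ℤ) : Module (A g s) (Quo F F' s) :=
  inferInstanceAs (Module (A g s) (F.W s ⧸ LinearMap.range (F'.inc.W s)))

/-- the projection -/
def quo (F : Fam g) (F' : F.Sub) (s : ℤ) : F.W s →ₗ[A g s] Quo F F' s :=
  Submodule.mkQ (LinearMap.range (F'.inc.W s))

theorem mem_range_inc (F : Fam g) (F' : F.Sub) (s : ℤ) (y : F.W s) :
    y ∈ LinearMap.range (F'.inc.W s) ↔ (y : Col F.N) ∈ F'.fam.W s := by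
  constructor
  · rintro ⟨x, rfl⟩
    exact x.2
  · intro h
    exact ⟨⟨y.1, h⟩, rfl⟩

theorem quo_surj (F : Fam g) (F' : F.Sub) (s : ℤ) : Function.Surjective (quo F F' s) :=
  Submodule.mkQ_surjective _

theorem quo_ex (F : Fam g) (F' : F.Sub) (s : ℤ) : Function.Exact (F'.inc.W s) (quo F F' s) :=
  LinearMap.exact_map_mkQ_range _

theorem isQuo' (F : Fam g) (F' : F.Sub) (s : ℤ) : IsQuo F F' s (quo F F' s) where
  surj := quo_surj F F' s
  ker y := by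
    rw [← mem_range_inc]
    exact Submodule.Quotient.mk_eq_zero _

theorem inc_inj (F : Fam g) (F' : F.Sub) (s : ℤ) : Function.Injective (F'.inc.W s) := by
  intro x y h
  apply Subtype.ext
  have h1 : (F'.inc.W s x).1 = (F'.inc.W s y).1 := congrArg Subtype.val h
  exact h1

/-- one step of the devissage -/
theorem step (F : Fam g) (F' : F.Sub) (s : ℤ) {X : Type} [AddCommGroup X] [Module (A g s) X]
    (hQ : ∀ q, E0 (A g s) X (Quo F F' s) q) (q : ℕ) :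
    E0 (A g s) X (F'.fam.W s) q ↔ E0 (A g s) X (F.W s) q :=
  Null341.E0_iff_of_quot (F'.inc.W s) (quo F F' s) (inc_inj F F' s) (quo_surj F F' s)
    (quo_ex F F' s) hQ q

/-- transport of `E0` in the second variable -/
theorem e0_equiv {s : ℤ} {X Y Y' : Type} [AddCommGroup X] [Module (A g s) X] [AddCommGroup Y]
    [Module (A g s) Y] [AddCommGroup Y'] [Module (A g s) Y'] (e : Y ≃ₗ[A g s] Y') {q : ℕ}
    (h : E0 (A g s) X Y q) : E0 (A g s) X Y' q :=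
  retract_right (e.symm : Y' →ₗ[A g s] Y) (e : Y →ₗ[A g s] Y')
    (LinearMap.ext fun y => e.apply_symm_apply y) q h

/-! ### the four pairs of families -/

/-- the subfamily `F_(k-c') P` of `TO c` -/
def subO (hg : Gen g) (c c' : ℤ) (h : c ≤ c') : (TO hg c).Sub where
  L := (TO hg c').L
  le := fun hn => Fil_mono g (by omega) hn
  mono := (TO hg c').mono
  smul := (TO hg c').smul

/-- the subfamily `TK c' d'` of `TK c d` -/
def subK (hg : Gen g) (c d c' d' : ℤ) (h : c ≤ c') (h' : d ≤ d') : (TK hg c d).Sub where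
  L := (TK hg c' d').L
  le := fun hn => ⟨Fil_mono g (by omega) hn.1, Fil_mono g (by omega) hn.2.1,
    Fil_mono g (by omega) hn.2.2⟩
  mono := (TK hg c' d').mono
  smul := (TK hg c' d').smul

/-- the subfamily of pairs in `F_(k-d) P` of `TK c d` -/
def subP (hg : Gen g) (c d : ℤ) (h : c ≤ d) : (TK hg c d).Sub where
  L := fun k P => {
    carrier := {v | v 0 ∈ Fil g (k - d) P ∧ v 1 ∈ Fil g (k - d) P}
    zero_mem' := ⟨zero_mem _, zero_mem _⟩
    add_mem' := fun hv hw => ⟨add_mem hv.1 hw.1, add_mem hv.2 hw.2⟩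
    smul_mem' := fun t _ hv => ⟨Submodule.smul_mem _ t hv.1, Submodule.smul_mem _ t hv.2⟩ }
  le := fun {k P n} hn => ⟨Fil_mono g (by omega) hn.1, Fil_mono g (by omega) hn.2,
    add_mem (FamX823.mulX hg hn.1 0) (FamX823.mulX hg hn.2 1)⟩
  mono := fun h _ hv => ⟨Fil_mono g (by omega) hv.1, Fil_mono g (by omega) hv.2⟩
  smul := fun {j e k P T n} hT hn => ⟨(TO hg d).smul hT hn.1, (TO hg d).smul hT hn.2⟩

theorem mem_subO (hg : Gen g) (c c' : ℤ) (h : c ≤ c') (k P : ℤ) (n : Op K) :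
    n ∈ (subO hg c c' h).L k P ↔ n ∈ Fil g (k - c') P := Iff.rfl

theorem mem_subK (hg : Gen g) (c d c' d' : ℤ) (h : c ≤ c') (h' : d ≤ d') (k P : ℤ)
    (v : Fin 2 → Op K) : v ∈ (subK hg c d c' d' h h').L k P ↔ v 0 ∈ Fil g (k - c') P ∧
      v 1 ∈ Fil g (k - c') P ∧ v 0 * X 0 + v 1 * X 1 ∈ Fil g (k - d') (P + 1) := Iff.rfl

theorem mem_subP (hg : Gen g) (c d : ℤ) (h : c ≤ d) (k P : ℤ)
    (v : Fin 2 → Op K) : v ∈ (subP hg c d h).L k P ↔ v 0 ∈ Fil g (k - d) P ∧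
      v 1 ∈ Fil g (k - d) P := Iff.rfl

/-- `W` of the subfamily `subO` -/
def subO_equiv (hg : Gen g) (c c' : ℤ) (h : c ≤ c') (s : ℤ) :
    (subO hg c c' h).fam.W s ≃ₗ[A g s] (TO hg c').W s :=
  Fam.Hom.equiv (F := (subO hg c c' h).fam) (G := TO hg c')
    { f := (LinearMap.id : Op K →ₗ[Op K] Op K), map := fun h => h }
    { f := (LinearMap.id : Op K →ₗ[Op K] Op K), map := fun h => h } s
    (fun _ => rfl) (fun _ => rfl)

/-- `W` of the subfamily `subK` -/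
def subK_equiv (hg : Gen g) (c d c' d' : ℤ) (h : c ≤ c') (h' : d ≤ d') (s : ℤ) :
    (subK hg c d c' d' h h').fam.W s ≃ₗ[A g s] (TK hg c' d').W s :=
  Fam.Hom.equiv (F := (subK hg c d c' d' h h').fam) (G := TK hg c' d')
    { f := (LinearMap.id : (Fin 2 → Op K) →ₗ[Op K] (Fin 2 → Op K)), map := fun h => h }
    { f := (LinearMap.id : (Fin 2 → Op K) →ₗ[Op K] (Fin 2 → Op K)), map := fun h => h } s
    (fun _ => rfl) (fun _ => rfl)

/-- `W` of the subfamily `subP` -/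
def subP_equiv (hg : Gen g) (c d : ℤ) (h : c ≤ d) (s : ℤ) :
    (subP hg c d h).fam.W s ≃ₗ[A g s] (FamX823.pi (TO hg d) (Fin 2)).W s :=
  Fam.Hom.equiv (F := (subP hg c d h).fam) (G := FamX823.pi (TO hg d) (Fin 2))
    { f := (LinearMap.id : (Fin 2 → Op K) →ₗ[Op K] (Fin 2 → Op K)),
      map := fun {k P n} h => FamX823.mem_pi.2 (by
        intro i
        match i with
        | 0 => exact h.1
        | 1 => exact h.2) }
    { f := (LinearMap.id : (Fin 2 → Op K) →ₗ[Op K] (Fin 2 → Op K)),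
      map := fun {k P n} h => ⟨FamX823.mem_pi.1 h 0, FamX823.mem_pi.1 h 1⟩ } s
    (fun _ => rfl) (fun _ => rfl)

/-- the four pairs -/
structure PairF (g : K) : Type 1 where
  F : Fam g
  S : F.Sub

/-- the four pairs `L' ≤ L`, `s = 0` -/
def PF0 (hg : Gen g) : Fin 4 → PairF g
  | 0 => ⟨TO hg (1 : ℕ), subO hg (1 : ℕ) (2 : ℕ) (by norm_num)⟩
  | 1 => ⟨TO hg (0 : ℕ), subO hg (0 : ℕ) (1 : ℕ) (by norm_num)⟩
  | 2 => ⟨TK hg 0 (0 + 1), subP hg 0 (0 + 1) (by norm_num)⟩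
  | 3 => ⟨TK hg 0 (0 + 1), subK hg 0 (0 + 1) 0 2 (by norm_num) (by norm_num)⟩

/-- the four pairs `L' ≤ L`, `s = 1` -/
def PF1 (hg : Gen g) : Fin 4 → PairF g
  | 0 => ⟨TO hg (1 : ℕ), subO hg (1 : ℕ) (2 : ℕ) (by norm_num)⟩
  | 1 => ⟨TO hg (0 : ℕ), subO hg (0 : ℕ) (1 : ℕ) (by norm_num)⟩
  | 2 => ⟨TK hg 1 (1 + 1), subP hg 1 (1 + 1) (by norm_num)⟩
  | 3 => ⟨TK hg 0 2, subK hg 0 2 1 (1 + 1) (by norm_num) (by norm_num)⟩

/-- the quotients, `s = 0` -/
abbrev QT0 (hg : Gen g) (j : Fin 4) : Type := Quo (PF0 hg j).F (PF0 hg j).S 0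

/-- the quotients, `s = 1` -/
abbrev QT1 (hg : Gen g) (j : Fin 4) : Type := Quo (PF1 hg j).F (PF1 hg j).S 1

theorem isQuo0 (hg : Gen g) (j : Fin 4) :
    IsQuo (PF0 hg j).F (PF0 hg j).S 0 (quo (PF0 hg j).F (PF0 hg j).S 0) := isQuo' _ _ _

theorem isQuo1 (hg : Gen g) (j : Fin 4) :
    IsQuo (PF1 hg j).F (PF1 hg j).S 1 (quo (PF1 hg j).F (PF1 hg j).S 1) := isQuo' _ _ _

/-- the decomposition of `A` -/
theorem decompA (s : ℤ) {X : Type} [AddCommGroup X] [Module (A g s) X] (q : ℕ)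
    (h : ∀ v, E0 (A g s) X (Pv g s v) q) : E0 (A g s) X (A g s) q :=
  Dev580.decomp (eps g s) (eps_idem g s) (sum_eps g s) q h

/-- **devissage, `s = 0`** -/
theorem dev0 (hg : Gen g) (X : Type) [AddCommGroup X] [Module (A g 0) X] (q : ℕ)
    (hQ : ∀ j q', E0 (A g 0) X (QT0 hg j) q') (h : E0 (A g 0) X (Pv g 0 2) q) :
    E0 (A g 0) X (A g 0) q := by
  have w2 : E0 (A g 0) X ((TO hg (2 : ℕ)).W 0) q := e0_equiv (WPv hg 0 2).symm h
  have w1 : E0 (A g 0) X ((TO hg (1 : ℕ)).W 0) q :=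
    (step (TO hg (1 : ℕ)) (subO hg (1 : ℕ) (2 : ℕ) (by norm_num)) 0 (hQ 0) q).1
      (e0_equiv (subO_equiv hg _ _ _ 0).symm w2)
  have w0 : E0 (A g 0) X ((TO hg (0 : ℕ)).W 0) q :=
    (step (TO hg (0 : ℕ)) (subO hg (0 : ℕ) (1 : ℕ) (by norm_num)) 0 (hQ 1) q).1
      (e0_equiv (subO_equiv hg _ _ _ 0).symm w1)
  have wp : E0 (A g 0) X ((FamX823.pi (TO hg (0 + 1)) (Fin 2)).W 0) q :=
    e0_equiv (FamX823.piW (TO hg (0 + 1)) (Fin 2) 0).symm (pi_right q 2 (by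
      have e : (0 + 1 : ℤ) = ((1 : ℕ) : ℤ) := by norm_num
      rw [e]
      exact w1))
  have w3 : E0 (A g 0) X ((TK hg 0 (0 + 1)).W 0) q :=
    (step (TK hg 0 (0 + 1)) (subP hg 0 (0 + 1) (by norm_num)) 0 (hQ 2) q).1
      (e0_equiv (subP_equiv hg _ _ _ 0).symm wp)
  have w4 : E0 (A g 0) X ((TK hg 0 2).W 0) q :=
    e0_equiv (subK_equiv hg 0 (0 + 1) 0 2 (by norm_num) (by norm_num) 0)
      ((step (TK hg 0 (0 + 1)) (subK hg 0 (0 + 1) 0 2 (by norm_num) (by norm_num)) 0 (hQ 3) q).2 w3)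
  refine decompA 0 q fun v => ?_
  match v with
  | 0 => exact e0_equiv (WPv hg 0 0) w0
  | 1 => exact e0_equiv (WPv hg 0 1) w1
  | 2 => exact h
  | 3 => exact e0_equiv (WPv hg 0 3) w3
  | 4 => exact e0_equiv (WPv hg 0 4) w4

/-- **devissage, `s = 1`** -/
theorem dev1 (hg : Gen g) (X : Type) [AddCommGroup X] [Module (A g 1) X] (q : ℕ)
    (hQ : ∀ j q', E0 (A g 1) X (QT1 hg j) q') (h : E0 (A g 1) X (Pv g 1 2) q) :
    E0 (A g 1) X (A g 1) q := by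
  have w2 : E0 (A g 1) X ((TO hg (2 : ℕ)).W 1) q := e0_equiv (WPv hg 1 2).symm h
  have w1 : E0 (A g 1) X ((TO hg (1 : ℕ)).W 1) q :=
    (step (TO hg (1 : ℕ)) (subO hg (1 : ℕ) (2 : ℕ) (by norm_num)) 1 (hQ 0) q).1
      (e0_equiv (subO_equiv hg _ _ _ 1).symm w2)
  have w0 : E0 (A g 1) X ((TO hg (0 : ℕ)).W 1) q :=
    (step (TO hg (0 : ℕ)) (subO hg (0 : ℕ) (1 : ℕ) (by norm_num)) 1 (hQ 1) q).1
      (e0_equiv (subO_equiv hg _ _ _ 1).symm w1)
  have wp : E0 (A g 1) X ((FamX823.pi (TO hg (1 + 1)) (Fin 2)).W 1) q :=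
    e0_equiv (FamX823.piW (TO hg (1 + 1)) (Fin 2) 1).symm (pi_right q 2 (by
      have e : (1 + 1 : ℤ) = ((2 : ℕ) : ℤ) := by norm_num
      rw [e]
      exact w2))
  have w3 : E0 (A g 1) X ((TK hg 1 (1 + 1)).W 1) q :=
    (step (TK hg 1 (1 + 1)) (subP hg 1 (1 + 1) (by norm_num)) 1 (hQ 2) q).1
      (e0_equiv (subP_equiv hg _ _ _ 1).symm wp)
  have w4 : E0 (A g 1) X ((TK hg 0 2).W 1) q :=
    (step (TK hg 0 2) (subK hg 0 2 1 (1 + 1) (by norm_num) (by norm_num)) 1 (hQ 3) q).1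
      (e0_equiv (subK_equiv hg 0 2 1 (1 + 1) (by norm_num) (by norm_num) 1).symm w3)
  refine decompA 1 q fun v => ?_
  match v with
  | 0 => exact e0_equiv (WPv hg 1 0) w0
  | 1 => exact e0_equiv (WPv hg 1 1) w1
  | 2 => exact h
  | 3 => exact e0_equiv (WPv hg 1 3) w3
  | 4 => exact e0_equiv (WPv hg 1 4) w4

/-! ### the first quotient through `ρh` -/

/-- `W(TO 1) ≃ Pv g s 1` -/
def eO1 (hg : Gen g) (s : ℤ) : (TO hg (1 : ℕ)).W s ≃ₗ[A g s] Pv g s 1 := WPv hg s 1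

/-- `W(TO 2) ≃ Pv g s 2` -/
def eO2 (hg : Gen g) (s : ℤ) : (TO hg (2 : ℕ)).W s ≃ₗ[A g s] Pv g s 2 := WPv hg s 2

/-- `Pv g s 1 → W(TO 1) / W(TO 2)` -/
def π1 (hg : Gen g) (s : ℤ) :
    Pv g s 1 →ₗ[A g s] Quo (TO hg (1 : ℕ)) (subO hg (1 : ℕ) (2 : ℕ) (by norm_num)) s :=
  quo (TO hg (1 : ℕ)) (subO hg (1 : ℕ) (2 : ℕ) (by norm_num)) s ∘ₗ
    ((eO1 hg s).symm : Pv g s 1 →ₗ[A g s] (TO hg (1 : ℕ)).W s)

theorem π1_surj (hg : Gen g) (s : ℤ) : Function.Surjective (π1 hg s) :=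
  (quo_surj _ _ s).comp (eO1 hg s).symm.surjective

theorem ρ_key (hg : Gen g) (s : ℤ) (x : Pv g s 2) :
    (eO1 hg s).symm (EVA538.ρh hg s x) =
      (subO hg (1 : ℕ) (2 : ℕ) (by norm_num)).inc.W s
        ((subO_equiv hg _ _ (by norm_num) s).symm ((eO2 hg s).symm x)) := by
  apply Subtype.ext
  refine Col.ext' (fun i => ?_) (fun i => ?_)
  · exact (EVA538.fst_mul_u hg 2 1 (by decide) (by decide) 1 EVA538.one_mem21 _ i).trans
      (mul_one _)
  · exact (EVA538.snd_mul_u hg 2 1 (by decide) (by decide) 1 EVA538.one_mem21 _ i).trans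
      (mul_one _)

theorem ρπ (hg : Gen g) (s : ℤ) : Function.Exact (EVA538.ρh hg s) (π1 hg s) := by
  intro y
  have h := quo_ex (TO hg (1 : ℕ)) (subO hg (1 : ℕ) (2 : ℕ) (by norm_num)) s ((eO1 hg s).symm y)
  constructor
  · intro hy
    obtain ⟨w, hw⟩ := h.1 hy
    refine ⟨eO2 hg s (subO_equiv hg _ _ (by norm_num) s w), ?_⟩
    apply (eO1 hg s).symm.injective
    rw [ρ_key, LinearEquiv.symm_apply_apply, LinearEquiv.symm_apply_apply, hw]
  · rintro ⟨x, rfl⟩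
    refine h.2 ⟨_, (ρ_key hg s x).symm⟩

end Crest.Agent.R186.B281.Dev147
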