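import Mathlib

/-!
Row 186 (A) (helper697): devissage for graded complexes (homological degree, no directness of the
grading is assumed). `Ac gr d k` : every cycle of degree `k` is the boundary of an element of
degree `k + 1`.  Everything is unbundled: `gr : ℤ → Submodule K X`, `d : X →ₗ[K] X`.
-/

set_option autoImplicit false

namespace Crest.Agent.R186.Dev697

universe u

variable {K : Type u} [Field K]
variable {X X' X'' : Type u} [AddCommGroup X] [Module K X] [AddCommGroup X'] [Module K X']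
  [AddCommGroup X''] [Module K X'']

/-- exactness in degree `k` -/
def Ac (gr : ℤ → Submodule K X) (d : X →ₗ[K] X) (k : ℤ) : Prop :=
  ∀ x ∈ gr k, d x = 0 → ∃ y ∈ gr (k + 1), d y = x

/-- exactness in all degrees `≤ s` -/
def AcTo (gr : ℤ → Submodule K X) (d : X →ₗ[K] X) (s : ℤ) : Prop :=
  ∀ k, k ≤ s → Ac gr d k

theorem AcTo.mono {gr : ℤ → Submodule K X} {d : X →ₗ[K] X} {s t : ℤ} (h : AcTo gr d s)
    (hts : t ≤ s) : AcTo gr d t := fun k hk => h k (hk.trans hts)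

theorem Ac.of_bot {gr : ℤ → Submodule K X} {d : X →ₗ[K] X} {k : ℤ} (h : gr k = ⊥) :
    Ac gr d k := by
  intro x hx _
  rw [h, Submodule.mem_bot] at hx
  exact ⟨0, zero_mem _, by rw [map_zero, hx]⟩

/-- `(gr, d)` is a complex -/
structure IsC (gr : ℤ → Submodule K X) (d : X →ₗ[K] X) : Prop where
  dd : ∀ x, d (d x) = 0
  mem : ∀ k, ∀ x ∈ gr k, d x ∈ gr (k - 1)

theorem IsC.mem' {gr : ℤ → Submodule K X} {d : X →ₗ[K] X} (h : IsC gr d) {k : ℤ} {x : X}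
    (hx : x ∈ gr (k + 1)) : d x ∈ gr k := by
  have := h.mem _ x hx
  rwa [add_sub_cancel_right] at this

/-- a chain map of degree `0` -/
structure Mp (gr : ℤ → Submodule K X) (d : X →ₗ[K] X) (gr' : ℤ → Submodule K X')
    (d' : X' →ₗ[K] X') (f : X →ₗ[K] X') : Prop where
  mem : ∀ k, ∀ x ∈ gr k, f x ∈ gr' k
  comm : ∀ x, f (d x) = d' (f x)

/-- quasi-isomorphism in degree `k` (elementwise) -/
structure QI (gr : ℤ → Submodule K X) (d : X →ₗ[K] X) (gr' : ℤ → Submodule K X')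
    (d' : X' →ₗ[K] X') (f : X →ₗ[K] X') (k : ℤ) : Prop where
  surj : ∀ y ∈ gr' k, d' y = 0 → ∃ x ∈ gr k, d x = 0 ∧ ∃ z ∈ gr' (k + 1), y = f x + d' z
  inj : ∀ x ∈ gr k, d x = 0 → (∃ z ∈ gr' (k + 1), f x = d' z) → ∃ w ∈ gr (k + 1), x = d w

theorem Ac.of_QI {gr : ℤ → Submodule K X} {d : X →ₗ[K] X} {gr' : ℤ → Submodule K X'}
    {d' : X' →ₗ[K] X'} {f : X →ₗ[K] X'} (hf : Mp gr d gr' d' f) {k : ℤ}
    (h : QI gr d gr' d' f k) (ha : Ac gr d k) : Ac gr' d' k := by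
  intro y hy hy0
  obtain ⟨x, hx, hx0, z, hz, rfl⟩ := h.surj y hy hy0
  obtain ⟨w, hw, rfl⟩ := ha x hx hx0
  exact ⟨f w + z, add_mem (hf.mem _ _ hw) hz, by rw [map_add, ← hf.comm]⟩

theorem Ac.of_QI' {gr : ℤ → Submodule K X} {d : X →ₗ[K] X} {gr' : ℤ → Submodule K X'}
    {d' : X' →ₗ[K] X'} {f : X →ₗ[K] X'} (hf : Mp gr d gr' d' f) {k : ℤ}
    (h : QI gr d gr' d' f k) (ha : Ac gr' d' k) : Ac gr d k := by
  intro x hx hx0
  obtain ⟨z, hz, e⟩ := ha (f x) (hf.mem _ _ hx) (by rw [← hf.comm, hx0, map_zero])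
  obtain ⟨w, hw, e'⟩ := h.inj x hx hx0 ⟨z, hz, e.symm⟩
  exact ⟨w, hw, e'.symm⟩

/-- short exact sequence of graded complexes -/
structure SES (gr' : ℤ → Submodule K X') (d' : X' →ₗ[K] X') (gr : ℤ → Submodule K X)
    (d : X →ₗ[K] X) (gr'' : ℤ → Submodule K X'') (d'' : X'' →ₗ[K] X'')
    (i : X' →ₗ[K] X) (p : X →ₗ[K] X'') : Prop where
  c' : IsC gr' d'
  c : IsC gr d
  c'' : IsC gr'' d''
  i_mp : Mp gr' d' gr d i
  p_mp : Mp gr d gr'' d'' p
  inj : Function.Injective i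
  zero : ∀ x, p (i x) = 0
  ex : ∀ k, ∀ x ∈ gr k, p x = 0 → ∃ x' ∈ gr' k, i x' = x
  sur : ∀ k, ∀ x ∈ gr'' k, ∃ y ∈ gr k, p y = x

section ses

variable {gr' : ℤ → Submodule K X'} {d' : X' →ₗ[K] X'} {gr : ℤ → Submodule K X} {d : X →ₗ[K] X}
  {gr'' : ℤ → Submodule K X''} {d'' : X'' →ₗ[K] X''} {i : X' →ₗ[K] X} {p : X →ₗ[K] X''}

theorem SES.mid (S : SES gr' d' gr d gr'' d'' i p) {k : ℤ} (h' : Ac gr' d' k)
    (h'' : Ac gr'' d'' k) : Ac gr d k := by
  intro x hx hx0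
  obtain ⟨y'', hy'', e⟩ := h'' (p x) (S.p_mp.mem _ _ hx) (by rw [← S.p_mp.comm, hx0, map_zero])
  obtain ⟨y, hy, rfl⟩ := S.sur _ y'' hy''
  obtain ⟨x', hx', e'⟩ := S.ex k (x - d y) (sub_mem hx (S.c.mem' hy))
    (by rw [map_sub, S.p_mp.comm, e, sub_self])
  obtain ⟨z', hz', e2⟩ := h' x' hx' (S.inj (by
    rw [S.i_mp.comm, e', map_sub, hx0, S.c.dd, sub_zero, map_zero]))
  refine ⟨i z' + y, add_mem (S.i_mp.mem _ _ hz') hy, ?_⟩
  rw [map_add, ← S.i_mp.comm, e2, e', sub_add_cancel]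

theorem SES.left (S : SES gr' d' gr d gr'' d'' i p) {k : ℤ} (h : Ac gr d k)
    (h'' : Ac gr'' d'' (k + 1)) : Ac gr' d' k := by
  intro x' hx' hx0
  obtain ⟨y, hy, e⟩ := h (i x') (S.i_mp.mem _ _ hx') (by rw [← S.i_mp.comm, hx0, map_zero])
  obtain ⟨z'', hz'', e2⟩ := h'' (p y) (S.p_mp.mem _ _ hy) (by rw [← S.p_mp.comm, e, S.zero])
  obtain ⟨z, hz, rfl⟩ := S.sur _ z'' hz''
  obtain ⟨y', hy', e3⟩ := S.ex (k + 1) (y - d z) (sub_mem hy (S.c.mem' hz))
    (by rw [map_sub, S.p_mp.comm, e2, sub_self])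
  refine ⟨y', hy', S.inj ?_⟩
  rw [S.i_mp.comm, e3, map_sub, S.c.dd, sub_zero, e]

theorem SES.right (S : SES gr' d' gr d gr'' d'' i p) {k : ℤ} (h : Ac gr d (k + 1))
    (h' : Ac gr' d' k) : Ac gr'' d'' (k + 1) := by
  intro x'' hx'' hx0
  obtain ⟨x, hx, rfl⟩ := S.sur _ x'' hx''
  obtain ⟨x', hx', e⟩ := S.ex k (d x) (S.c.mem' hx) (by rw [S.p_mp.comm, hx0])
  obtain ⟨y', hy', e2⟩ := h' x' hx' (S.inj (by rw [S.i_mp.comm, e, S.c.dd, map_zero]))
  obtain ⟨z, hz, e3⟩ := h (x - i y') (sub_mem hx (S.i_mp.mem _ _ hy'))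
    (by rw [map_sub, ← S.i_mp.comm, e2, e, sub_self])
  exact ⟨p z, S.p_mp.mem _ _ hz, by rw [← S.p_mp.comm, e3, map_sub, S.zero, sub_zero]⟩

theorem SES.midTo (S : SES gr' d' gr d gr'' d'' i p) {s : ℤ} (h' : AcTo gr' d' s)
    (h'' : AcTo gr'' d'' s) : AcTo gr d s := fun k hk => S.mid (h' k hk) (h'' k hk)

theorem SES.leftTo (S : SES gr' d' gr d gr'' d'' i p) {s : ℤ} (h : AcTo gr d s)
    (h'' : AcTo gr'' d'' (s + 1)) : AcTo gr' d' s :=
  fun k hk => S.left (h k hk) (h'' (k + 1) (by omega))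

/-- **the degree shift**: `N'` exact up to `s - 1` and `N` exact give `N''` exact up to `s` -/
theorem SES.rightTo (S : SES gr' d' gr d gr'' d'' i p) {s : ℤ} (h : AcTo gr d s)
    (h' : AcTo gr' d' (s - 1)) : AcTo gr'' d'' s := by
  intro k hk
  have := S.right (k := k - 1) (h _ (by omega)) (h' _ (by omega))
  rwa [sub_add_cancel] at this

end ses

/-- exactness along a finite chain of quotients, abstract form: `A n` = acyclicity of the `n`-th
step, `B n` = acyclicity of the `n`-th quotient -/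
theorem chain_mid {A B : ℕ → Prop} (step : ∀ n, B n → A (n + 1) → A n) (hB : ∀ n, B n) {m : ℕ}
    (hm : A m) : A 0 := by
  induction m with
  | zero => exact hm
  | succ m ih => exact ih (step m (hB m) hm)

/-- **degree induction** : if "all `V j` exact up to `s - 1`" implies "`V i` exact up to `s`"
then all are exact -/
theorem deg_ind {I : Type*} {P : I → ℤ → Prop} (h0 : ∀ i, P i (-1))
    (step : ∀ s : ℕ, (∀ j, P j ((s : ℤ) - 1)) → ∀ i, P i s) (s : ℕ) (i : I) : P i s := by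
  induction s generalizing i with
  | zero => exact step 0 (by simpa using h0) i
  | succ s ih => exact step (s + 1) (fun j => by simpa using ih j) i

end Crest.Agent.R186.Dev697
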