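import Crest.Agent.R186.Dual_827
import Crest.Agent.R186.Frame_515
import Crest.Agent.R186.GrP_44
import Crest.Agent.R186.SemiFree_515

/-!
Row 186 (A), leaf DICT, duality half, part 2 (helper827): the same in the terms of `Frame_515`.

* `Prj N` : projections of a graded complex with finite range;
* `Du N : RM A` : the dual right dg module of a left dg module `N`;
* `hom_ex` : exactness of `(Du N) ⊗ X` in degree `p` gives exactness of `Hom(X, N)` in degree `p`;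
* `exC_of`, `exV_of` : the fields `exC`, `exV` of `Hat827.Cells`.
-/

set_option autoImplicit false
set_option linter.style.haveILetI false

open MulOpposite

namespace Crest.Agent.R186.Dual827

open Hat827 Frame515

variable {K : Type} [Field K]

/-- projections of a graded complex, finite range -/
structure Prj (N : GC K) where
  pr : ℤ → N.X →ₗ[K] N.X
  pr_mem : ∀ (k : ℤ) (z : N.X), pr k z ∈ N.gr k
  pr_same : ∀ {k : ℤ} {z : N.X}, z ∈ N.gr k → pr k z = z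
  pr_ne : ∀ {k l : ℤ} {z : N.X}, z ∈ N.gr l → k ≠ l → pr k z = 0
  lo : ℤ
  hi : ℤ
  pr_sum : ∀ z : N.X, ∑ k ∈ Finset.Icc lo hi, pr k z = z

variable {A : DGA K}

theorem LM.dbl (N : LM A) (y : N.X) : y + y = 0 := by
  have h : y = (1 : A.C) • y := by rw [one_smul]
  rw [h, ← add_smul, A.two, zero_smul]

/-- the data of `Dual_827` -/
def mkLZ (N : LM A) (P : Prj N.toGC) : LZ A where
  Z := N.X
  gr := N.gr
  smul_mem := N.smul_mem
  d := N.d
  d_mem := N.d_mem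
  leib := N.leib
  pr := P.pr
  pr_mem := P.pr_mem
  pr_same := P.pr_same
  pr_ne := P.pr_ne
  lo := P.lo
  hi := P.hi
  pr_sum := P.pr_sum

/-- cell data of a cell system -/
def mkCD (X : LCells A) : CD A where
  ι := X.ι
  s := X.s
  F := X.F
  mem_F := X.mem_F
  e := X.e
  e_mem := X.e_mem
  e_idem := X.e_idem
  c := X.c
  c_mem := X.c_mem
  c_left := X.c_left
  c_right := X.c_right

/-! ### the dual right module -/

/-- the carrier of the dual -/
def DuX (N : LM A) : Type := N.X →ₗ[K] K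

instance (N : LM A) : AddCommGroup (DuX N) := inferInstanceAs (AddCommGroup (N.X →ₗ[K] K))
instance (N : LM A) : Module K (DuX N) := inferInstanceAs (Module K (N.X →ₗ[K] K))

/-- the functional -/
def DuX.lin {N : LM A} (f : DuX N) : N.X →ₗ[K] K := f

/-- evaluation -/
def DuX.ev {N : LM A} (f : DuX N) (z : N.X) : K := DuX.lin f z

/-- constructor -/
def DuX.mk {N : LM A} (f : N.X →ₗ[K] K) : DuX N := f

theorem DuX.ext' {N : LM A} {f g : DuX N} (h : ∀ z, f.ev z = g.ev z) : f = g := by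
  have h' : f.lin = g.lin := LinearMap.ext h
  exact h'

@[simp] theorem DuX.mk_ev {N : LM A} (f : N.X →ₗ[K] K) (z : N.X) : (DuX.mk f).ev z = f z := rfl
@[simp] theorem DuX.lin_ap {N : LM A} (f : DuX N) (z : N.X) : f.lin z = f.ev z := rfl
@[simp] theorem DuX.add_ev {N : LM A} (f g : DuX N) (z : N.X) : (f + g).ev z = f.ev z + g.ev z := rfl
@[simp] theorem DuX.zero_ev {N : LM A} (z : N.X) : (0 : DuX N).ev z = 0 := rfl
@[simp] theorem DuX.smul_ev {N : LM A} (r : K) (f : DuX N) (z : N.X) : (r • f).ev z = r * f.ev z := rfl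
theorem DuX.ev_add {N : LM A} (f : DuX N) (z w : N.X) : f.ev (z + w) = f.ev z + f.ev w :=
  map_add f.lin z w
theorem DuX.ev_zero {N : LM A} (f : DuX N) : f.ev 0 = 0 := map_zero f.lin
theorem DuX.ev_smul {N : LM A} (f : DuX N) (r : K) (z : N.X) : f.ev (r • z) = r * f.ev z :=
  map_smul f.lin r z

/-- evaluation at a point, as a linear map -/
def DuX.evL {N : LM A} (z : N.X) : DuX N →ₗ[K] K where
  toFun f := f.ev z
  map_add' _ _ := rfl
  map_smul' _ _ := rfl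

theorem DuX.sum_ev {N : LM A} {κ : Type} (S : Finset κ) (f : κ → DuX N) (z : N.X) :
    (∑ i ∈ S, f i).ev z = ∑ i ∈ S, (f i).ev z := map_sum (DuX.evL z) f S

instance (N : LM A) : Module A.Cᵐᵒᵖ (DuX N) where
  smul a f := DuX.mk (f.lin ∘ₗ lmul N (unop a))
  one_smul f := DuX.ext' fun z => by
    change f.ev (unop (1 : A.Cᵐᵒᵖ) • z) = f.ev z
    rw [unop_one, one_smul]
  mul_smul a b f := DuX.ext' fun z => by
    change f.ev (unop (a * b) • z) = f.ev (unop b • (unop a • z))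
    rw [unop_mul, mul_smul]
  smul_zero a := DuX.ext' fun z => rfl
  smul_add a f g := DuX.ext' fun z => rfl
  add_smul a b f := DuX.ext' fun z => by
    change f.ev (unop (a + b) • z) = f.ev (unop a • z) + f.ev (unop b • z)
    rw [unop_add, add_smul, DuX.ev_add]
  zero_smul f := DuX.ext' fun z => by
    change f.ev (unop (0 : A.Cᵐᵒᵖ) • z) = 0
    rw [unop_zero, zero_smul, DuX.ev_zero]

theorem DuX.op_ev {N : LM A} (a : A.C) (f : DuX N) (z : N.X) : (op a • f).ev z = f.ev (a • z) := rfl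

instance (N : LM A) : IsScalarTower K A.Cᵐᵒᵖ (DuX N) where
  smul_assoc r a f := DuX.ext' fun z => by
    change f.ev (unop (r • a) • z) = r * f.ev (unop a • z)
    rw [unop_smul, smul_assoc, DuX.ev_smul]

/-- the dual right dg module -/
def Du (N : LM A) : RM A where
  X := DuX N
  gr k :=
    { carrier := {f | ∀ (l : ℤ) (z : N.X), z ∈ N.gr l → l ≠ -k → f.ev z = 0}
      add_mem' := by
        intro f g hf hg l z hz hl
        rw [DuX.add_ev, hf l z hz hl, hg l z hz hl, add_zero]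
      zero_mem' := fun _ _ _ _ => rfl
      smul_mem' := by
        intro r f hf l z hz hl
        rw [DuX.smul_ev, hf l z hz hl, mul_zero] }
  d :=
    { toFun := fun f => DuX.mk (f.lin ∘ₗ N.d)
      map_add' := fun _ _ => rfl
      map_smul' := fun _ _ => rfl }
  d_mem := by
    intro k f hf l z hz hl
    exact hf (l - 1) (N.d z) (N.d_mem hz) (by omega)
  d_d f := DuX.ext' fun z => by
    change f.ev (N.d (N.d z)) = 0
    rw [N.d_d, DuX.ev_zero]
  smul_mem := by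
    intro k l a f ha hf j z hz hj
    exact hf (k + j) (a • z) (N.smul_mem ha hz) (by omega)
  leib a f := DuX.ext' fun z => by
    change f.ev (a • N.d z) = f.ev (A.D a • z) + f.ev (N.d (a • z))
    rw [N.leib, DuX.ev_add, ← add_assoc, ← DuX.ev_add, LM.dbl, DuX.ev_zero, zero_add]

theorem Du_gr {N : LM A} {k : ℤ} {f : DuX N} :
    f ∈ (Du N).gr k ↔ ∀ (l : ℤ) (z : N.X), z ∈ N.gr l → l ≠ -k → f.ev z = 0 := Iff.rfl

theorem Du_d {N : LM A} (f : DuX N) (z : N.X) : DuX.ev ((Du N).d f) z = f.ev (N.d z) := rfl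

/-- exactness in one degree -/
def AcAt (X : GC K) (k : ℤ) : Prop :=
  ∀ x ∈ X.gr k, X.d x = 0 → ∃ y ∈ X.gr (k + 1), X.d y = x

theorem Ac.at {X : GC K} (h : Ac X) (k : ℤ) : AcAt X k := fun x hx hd => h k x hx hd

/-! ### elementwise form of exactness of `G ⊗ X` -/

section elem

variable (G : RM A) (X : LCells A)

/-- exactness of `G ⊗ X` in degree `k`, elementwise -/
theorem tG_elem {k : ℤ} (h : AcAt (tG G X) k) (x : X.ι → G.X) (S : Finset X.ι)
    (hS : ∀ σ, σ ∉ S → x σ = 0) (h1 : ∀ σ, x σ ∈ G.gr (k - X.s σ))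
    (h2 : ∀ σ, op (X.e σ) • x σ = x σ)
    (h3 : ∀ τ, G.d (x τ) + ∑ σ ∈ S, op (X.c σ τ) • x σ = 0) :
    ∃ (y : X.ι → G.X) (S' : Finset X.ι), (∀ σ, σ ∉ S' → y σ = 0) ∧
      (∀ σ, y σ ∈ G.gr (k + 1 - X.s σ)) ∧ (∀ σ, op (X.e σ) • y σ = y σ) ∧
      ∀ S'' : Finset X.ι, (∀ σ, σ ∉ S'' → y σ = 0) →
        ∀ τ, x τ = G.d (y τ) + ∑ σ ∈ S'', op (X.c σ τ) • y σ := by
  classical
  let xx : (twG G X).ι →₀ G.toGC.X := Finsupp.onFinset S (fun σ => x σ) fun σ hσ => by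
    by_contra hc
    exact hσ (hS σ hc)
  have hgr : xx ∈ (twG G X).gr k := fun σ => ⟨h1 σ, h2 σ⟩
  have hs : xx.support ⊆ S := Finsupp.support_onFinset_subset
  have hd : (twG G X).dd xx = 0 := by
    refine Finsupp.ext fun τ => ?_
    rw [(twG G X).dd_apply' xx S hs τ]
    exact h3 τ
  obtain ⟨y0, hy, hyd⟩ := h xx hgr hd
  obtain ⟨y, rfl⟩ : ∃ y : (twG G X).ι →₀ G.toGC.X, y = y0 := ⟨y0, rfl⟩
  refine ⟨fun σ => y σ, y.support, fun σ hσ => ?_, fun σ => (hy σ).1, fun σ => (hy σ).2, ?_⟩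
  · exact Finsupp.notMem_support_iff.1 hσ
  · intro S'' hS'' τ
    have hsub : y.support ⊆ S'' := by
      intro σ hσ
      by_contra hc
      exact (Finsupp.mem_support_iff.1 hσ) (hS'' σ hc)
    have e1 := (twG G X).dd_apply' y S'' hsub τ
    have e2 := DFunLike.congr_fun (show (twG G X).dd y = xx from hyd) τ
    exact e2.symm.trans e1

/-- converse: exactness of `G ⊗ X` in degree `k` from the elementwise form -/
theorem tG_of_elem {k : ℤ}
    (h : ∀ (x : X.ι → G.X) (S : Finset X.ι), (∀ σ, σ ∉ S → x σ = 0) →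
      (∀ σ, x σ ∈ G.gr (k - X.s σ)) → (∀ σ, op (X.e σ) • x σ = x σ) →
      (∀ τ, G.d (x τ) + ∑ σ ∈ S, op (X.c σ τ) • x σ = 0) →
      ∃ (y : X.ι → G.X) (S' : Finset X.ι), (∀ σ, σ ∉ S' → y σ = 0) ∧
        (∀ σ, y σ ∈ G.gr (k + 1 - X.s σ)) ∧ (∀ σ, op (X.e σ) • y σ = y σ) ∧
        ∀ τ, x τ = G.d (y τ) + ∑ σ ∈ S', op (X.c σ τ) • y σ) : AcAt (tG G X) k := by
  classical
  intro x hx hd
  let x' : (twG G X).ι →₀ G.toGC.X := x
  obtain ⟨y, S', hS', y1, y2, y3⟩ := h (fun σ => x' σ) x'.support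
    (fun σ hσ => Finsupp.notMem_support_iff.1 hσ) (fun σ => (hx σ).1) (fun σ => (hx σ).2)
    (fun τ => by
      have e1 := (twG G X).dd_apply' x' x'.support (Finset.Subset.refl _) τ
      have e2 := DFunLike.congr_fun (show (twG G X).dd x' = 0 from hd) τ
      exact e1.symm.trans e2)
  let yy : (twG G X).ι →₀ G.toGC.X := Finsupp.onFinset S' (fun σ => y σ) fun σ hσ => by
    by_contra hc
    exact hσ (hS' σ hc)
  refine ⟨yy, fun σ => ⟨y1 σ, y2 σ⟩, ?_⟩
  refine Finsupp.ext fun τ => ?_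
  have e1 := (twG G X).dd_apply' yy S' Finsupp.support_onFinset_subset τ
  refine e1.trans (y3 τ).symm

end elem

/-- evaluation of the differential of `(Du N) ⊗ X` -/
theorem Du_sum_ev {N : LM A} {X : LCells A} (S : Finset X.ι) (y : X.ι → (Du N).X) (τ : X.ι)
    (z : N.X) :
    DuX.ev ((Du N).d (y τ) + ∑ σ ∈ S, op (X.c σ τ) • y σ) z =
      DuX.ev (y τ) (N.d z) + ∑ σ ∈ S, DuX.ev (y σ) (X.c σ τ • z) :=
  (DuX.add_ev (N := N) ((Du N).d (y τ)) (∑ σ ∈ S, op (X.c σ τ) • y σ) z).trans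
    (congrArg (fun r : K => DuX.ev (y τ) (N.d z) + r)
      (DuX.sum_ev (N := N) S (fun σ => op (X.c σ τ) • y σ) z))

/-! ### from `Frame_515` to the hypothesis of `Dual_827` -/

section tex

variable (X : LCells A) (N : LM A)

theorem tex_of (P : Prj N.toGC) {p : ℤ} (h : AcAt (tG (Du N) X) p) {M M' : ℕ} (hM : P.hi + p ≤ M)
    (hM' : P.hi + (p + 1) ≤ M') : TEx (mkCD X) (mkLZ N P) p M M' := by
  classical
  intro x h1 h2 h3
  have supp : ∀ (q : ℤ) (m : ℕ) (f : X.ι → (N.X →ₗ[K] K)), P.hi + q ≤ m →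
      (∀ σ l z, z ∈ N.gr l → l ≠ (X.s σ : ℤ) - q → f σ z = 0) → ∀ σ, σ ∉ X.F m → f σ = 0 := by
    intro q m f hm hf σ hσ
    rw [X.mem_F] at hσ
    ext z
    rw [← P.pr_sum z, map_sum]
    refine Finset.sum_eq_zero fun k hk => ?_
    rw [Finset.mem_Icc] at hk
    exact hf σ k _ (P.pr_mem k z) (by omega)
  obtain ⟨y, S', hS', y1, y2, y3⟩ := tG_elem (Du N) X h (fun σ => DuX.mk (x σ)) (X.F M)
    (fun σ hσ => supp p M x hM h1 σ hσ)
    (fun σ => by
      intro l z hz hl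
      refine h1 σ l z hz ?_
      change l ≠ (X.s σ : ℤ) - p
      omega)
    (fun σ => DuX.ext' fun z => h2 σ z)
    (fun τ => DuX.ext' fun z => (Du_sum_ev (X.F M) (fun σ => DuX.mk (x σ)) τ z).trans (h3 τ z))
  have hy1 : ∀ σ l z, z ∈ N.gr l → l ≠ (X.s σ : ℤ) - (p + 1) → (DuX.lin (y σ)) z = 0 := by
    intro σ l z hz hl
    exact y1 σ l z hz (by omega)
  have hys : ∀ σ, σ ∉ X.F M' → y σ = 0 := fun σ hσ =>
    supp (p + 1) M' (fun σ => DuX.lin (y σ)) hM' hy1 σ hσ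
  refine ⟨fun σ => DuX.lin (y σ), hy1, fun σ z => ?_, fun τ z => ?_⟩
  · exact congrArg (fun f : DuX N => f.ev z) (y2 σ)
  · have h := congrArg (fun f : DuX N => f.ev z) (y3 (X.F M') hys τ)
    exact h.trans (Du_sum_ev (X.F M') y τ z)

/-- **exactness of `Hom(X, N)` in degree `p` from exactness of `(Du N) ⊗ X` in degree `p`.** -/
theorem hom_ex (P : Prj N.toGC) {p : ℤ} (h : AcAt (tG (Du N) X) p) (φ : X.ι → N.X)
    (h1 : ∀ σ, φ σ ∈ N.gr ((X.s σ : ℤ) - p)) (h2 : ∀ σ, X.e σ • φ σ = φ σ)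
    (h3 : ∀ σ, N.d (φ σ) + ∑ τ ∈ X.F (X.s σ), X.c σ τ • φ τ = 0) :
    ∃ ψ : X.ι → N.X, (∀ σ, ψ σ ∈ N.gr ((X.s σ : ℤ) - p + 1)) ∧ (∀ σ, X.e σ • ψ σ = ψ σ) ∧
      ∀ σ, φ σ = N.d (ψ σ) + ∑ τ ∈ X.F (X.s σ), X.c σ τ • ψ τ := by
  obtain ⟨M, hM⟩ : ∃ M : ℕ, P.hi + p ≤ M := ⟨(P.hi + p).toNat, by omega⟩
  obtain ⟨M', hM'⟩ : ∃ M : ℕ, P.hi + (p + 1) ≤ M := ⟨(P.hi + (p + 1)).toNat, by omega⟩
  obtain ⟨ψ, hψ, hb⟩ := hom_exact (X := mkCD X) (Z := mkLZ N P) (p := p) (M := M) (M' := M')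
    hM (by change P.hi + p + 1 ≤ (M' : ℤ); omega) (tex_of X N P h hM hM') (φ := φ) ⟨h1, h2⟩
    (funext h3)
  refine ⟨ψ, fun σ => ?_, hψ.2, fun σ => (congrFun hb σ).symm⟩
  have h := hψ.1 σ
  change ψ σ ∈ N.gr ((X.s σ : ℤ) - (p - 1)) at h
  rwa [show (X.s σ : ℤ) - (p - 1) = (X.s σ : ℤ) - p + 1 by ring] at h

end tex

end Crest.Agent.R186.Dual827
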