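import Crest.Agent.R186.Dual2_827

/-!
Row 186 (A), leaf DICT, duality half, part 3 (helper827): the fields `exC`, `exV` of `Hat827.Cells`
from the acyclicity of `(Du A) ⊗ X` and of `(Du V) ⊗ X` (degrees `≥ 1`), `X : SemiFree515.Pre A V`.
-/

set_option autoImplicit false
set_option linter.style.haveILetI false

open MulOpposite

namespace Crest.Agent.R186.Dual827

open Hat827 Frame515 SemiFree515

variable {K : Type} [Field K]

/-- `A` as a left dg module -/
def regL (A : DGA K) : LM A where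
  X := A.C
  gr := A.G
  d := A.D
  d_mem := A.D_mem
  d_d := A.D_D
  smul_mem := A.mul_mem
  leib := A.D_mul

/-- projections of `A` -/
def regP {A : DGA K} (g : GrP44.GrP A) : Prj (regL A).toGC where
  pr := g.pi
  pr_mem := g.mem
  pr_same {k z} hz := g.same k z hz
  pr_ne {k l z} hz hkl := g.ne k l z hkl hz
  lo := 0
  hi := A.N
  pr_sum z := by
    refine Eq.trans ?_ (g.sum z)
    symm
    refine Finset.sum_bij (fun (k : ℕ) _ => (k : ℤ)) ?_ ?_ ?_ ?_
    · intro k hk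
      rw [Finset.mem_range] at hk
      rw [Finset.mem_Icc]
      omega
    · intro a _ b _ h
      exact_mod_cast h
    · intro b hb
      rw [Finset.mem_Icc] at hb
      exact ⟨b.toNat, by rw [Finset.mem_range]; omega, by omega⟩
    · intro k _
      rfl

section V

variable {A : DGA K} (V : Type) [AddCommGroup V] [Module K V] [Module A.C V] [IsScalarTower K A.C V]

/-- the conditions for an honest module to be a dg module in degree zero -/
structure Hon (A : DGA K) (V : Type) [AddCommGroup V] [Module K V] [Module A.C V] : Prop where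
  pos : ∀ (k : ℤ), 0 < k → ∀ a ∈ A.G k, ∀ v : V, a • v = 0
  D : ∀ (a : A.C) (v : V), A.D a • v = 0

/-- `Hon` from its degree-one part -/
theorem Hon.of {V : Type} [AddCommGroup V] [Module K V] [Module A.C V] [IsScalarTower K A.C V]
    (g : GrP44.GrP A) (pos : ∀ (k : ℤ), 0 < k → ∀ a ∈ A.G k, ∀ v : V, a • v = 0)
    (dpos : ∀ a ∈ A.G 1, ∀ v : V, A.D a • v = 0) : Hon A V where
  pos := pos
  D a v := by
    rw [← g.sum a, map_sum, Finset.sum_smul]
    refine Finset.sum_eq_zero fun k _ => ?_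
    rcases Nat.lt_trichotomy k 1 with h | h | h
    · have h0 : A.D (g.pi k a) = 0 := DGA.neg (A.D_mem (g.mem k a)) (by omega)
      rw [h0, zero_smul]
    · subst h
      exact dpos _ (g.mem 1 a) v
    · exact pos (k - 1) (by omega) _ (A.D_mem (g.mem k a)) v

/-- an honest module as a dg module in degree zero -/
def V0 (h : Hon A V) : LM A where
  X := V
  gr k := if k = 0 then ⊤ else ⊥
  d := 0
  d_mem _ := Submodule.zero_mem _
  d_d _ := rfl
  smul_mem {k l a x} ha hx := by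
    by_cases hl : l = 0
    · subst hl
      by_cases hk : k = 0
      · subst hk
        rw [if_pos (by ring)]
        trivial
      · have : a • x = 0 := by
          rcases lt_or_gt_of_ne hk with h1 | h1
          · rw [DGA.neg ha h1, zero_smul]
          · exact h.pos k h1 a ha x
        rw [this]
        exact Submodule.zero_mem _
    · rw [if_neg hl, Submodule.mem_bot] at hx
      rw [hx, smul_zero]
      exact Submodule.zero_mem _
  leib a x := by
    rw [LinearMap.zero_apply, LinearMap.zero_apply, smul_zero, add_zero, h.D]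

theorem V0_gr (h : Hon A V) (k : ℤ) : (V0 V h).gr k = if k = 0 then ⊤ else ⊥ := rfl

theorem V0_mem (h : Hon A V) {k : ℤ} {v : (V0 V h).X} : v ∈ (V0 V h).gr k ↔ (k ≠ 0 → v = 0) := by
  rw [V0_gr]
  by_cases hk : k = 0
  · rw [if_pos hk]
    exact ⟨fun _ h0 => absurd hk h0, fun _ => trivial⟩
  · rw [if_neg hk, Submodule.mem_bot]
    exact ⟨fun h0 _ => h0, fun h0 => h0 hk⟩

/-- projections of `V0` -/
def V0P (h : Hon A V) : Prj (V0 V h).toGC where
  pr k := if k = 0 then LinearMap.id else 0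
  pr_mem k z := by
    by_cases hk : k = 0
    · rw [if_pos hk, V0_gr, if_pos hk]
      trivial
    · rw [if_neg hk]
      exact Submodule.zero_mem _
  pr_same {k z} hz := by
    by_cases hk : k = 0
    · rw [if_pos hk]
      rfl
    · rw [V0_gr, if_neg hk, Submodule.mem_bot] at hz
      rw [hz, map_zero]
  pr_ne {k l z} hz hkl := by
    by_cases hk : k = 0
    · have hl : l ≠ 0 := fun h0 => hkl (hk.trans h0.symm)
      rw [V0_gr, if_neg hl, Submodule.mem_bot] at hz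
      rw [hz, map_zero]
    · rw [if_neg hk]
      rfl
  lo := 0
  hi := 0
  pr_sum z := by
    rw [Finset.Icc_self, Finset.sum_singleton, if_pos rfl]
    rfl

variable {V}

/-- cells of a resolution -/
def preL (X : Pre A V) : LCells A where
  ι := X.ι
  s := X.s
  F := X.F
  mem_F := X.mem_F
  e := X.e
  e_mem := X.e_mem
  e_idem := X.e_idem
  c := X.c
  c_mem := X.c_mem
  c_left := X.c_left
  c_right := X.c_right
  mc := X.mc

/-- **`exC`** -/
theorem exC_of (X : Pre A V) (g : GrP44.GrP A) (h : Ac (tG (Du (regL A)) (preL X))) :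
    ∀ (p : ℤ) (φ : X.ι → A.C), (∀ σ, φ σ ∈ A.G ((X.s σ : ℤ) - p)) → (∀ σ, X.e σ * φ σ = φ σ) →
      (∀ σ, A.D (φ σ) + ∑ τ ∈ X.F (X.s σ), X.c σ τ * φ τ = 0) →
      ∃ ψ : X.ι → A.C, (∀ σ, ψ σ ∈ A.G ((X.s σ : ℤ) - p + 1)) ∧ (∀ σ, X.e σ * ψ σ = ψ σ) ∧
        ∀ σ, φ σ = A.D (ψ σ) + ∑ τ ∈ X.F (X.s σ), X.c σ τ * ψ τ :=
  fun p φ h1 h2 h3 => hom_ex (preL X) (regL A) (regP g) (fun x hx hd => h p x hx hd) φ h1 h2 h3

/-- `Hom(X, V)` in degree `p` -/
theorem hom_exV (X : LCells A) (hV : Hon A V) {p : ℤ} (h : AcAt (tG (Du (V0 V hV)) X) p)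
    (φ : X.ι → V) (h1 : ∀ σ, (X.s σ : ℤ) ≠ p → φ σ = 0) (h2 : ∀ σ, X.e σ • φ σ = φ σ)
    (h3 : ∀ σ, ∑ τ ∈ X.F (X.s σ), X.c σ τ • φ τ = 0) :
    ∃ ψ : X.ι → V, (∀ σ, (X.s σ : ℤ) ≠ p - 1 → ψ σ = 0) ∧ (∀ σ, X.e σ • ψ σ = ψ σ) ∧
      ∀ σ, φ σ = ∑ τ ∈ X.F (X.s σ), X.c σ τ • ψ τ := by
  obtain ⟨ψ, p1, p2, p3⟩ := hom_ex X (V0 V hV) (V0P V hV) h φ
    (fun σ => (V0_mem V hV).2 fun h0 => h1 σ fun h' => h0 (by rw [h', sub_self])) h2
    (fun σ => (zero_add (∑ τ ∈ X.F (X.s σ), X.c σ τ • φ τ)).trans (h3 σ))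
  refine ⟨ψ, fun σ hσ => (V0_mem V hV).1 (p1 σ) (fun h0 => hσ (by linarith)), p2, fun σ => ?_⟩
  exact (p3 σ).trans (zero_add (∑ τ ∈ X.F (X.s σ), X.c σ τ • (show X.ι → V from ψ) τ))

/-- **`exV`** -/
theorem exV_of (X : Pre A V) (hV : Hon A V)
    (h : ∀ m : ℕ, AcAt (tG (Du (V0 V hV)) (preL X)) ((m : ℤ) + 1)) :
    ∀ (m : ℕ) (φ : X.ι → V), (∀ σ, X.s σ ≠ m + 1 → φ σ = 0) → (∀ σ, X.e σ • φ σ = φ σ) →
      (∀ σ, X.s σ = m + 2 → ∑ τ ∈ X.F (m + 1), X.c σ τ • φ τ = 0) →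
      ∃ ψ : X.ι → V, (∀ σ, X.s σ ≠ m → ψ σ = 0) ∧
        ∀ σ, X.s σ = m + 1 → φ σ = ∑ τ ∈ X.F m, X.c σ τ • ψ τ := by
  intro m φ h1 h2 h3
  have hd : ∀ σ, ∑ τ ∈ X.F (X.s σ), X.c σ τ • φ τ = 0 := by
    intro σ
    by_cases hσ : X.s σ = m + 2
    · rw [← h3 σ hσ]
      symm
      refine Finset.sum_subset ?_ ?_
      · intro τ hτ
        rw [X.mem_F] at hτ ⊢
        omega
      · intro τ _ hτ'
        rw [X.mem_F] at hτ'
        rw [h1 τ (by omega), smul_zero]
    · refine Finset.sum_eq_zero fun τ hτ => ?_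
      by_cases hτ1 : X.s τ = m + 1
      · rcases lt_or_gt_of_ne (show (X.s σ : ℤ) - X.s τ - 1 ≠ 0 by omega) with h' | h'
        · rw [DGA.neg (X.c_mem σ τ) h', zero_smul]
        · exact hV.pos _ h' _ (X.c_mem σ τ) _
      · rw [h1 τ hτ1, smul_zero]
  obtain ⟨ψ, p1, _, p3⟩ := hom_exV (preL X) hV (h m) φ
    (fun σ hσ => h1 σ fun h' => hσ (by
      change (X.s σ : ℤ) = (m : ℤ) + 1
      rw [h']
      push_cast
      ring)) h2 hd
  have q1 : ∀ σ, X.s σ ≠ m → ψ σ = 0 := by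
    intro σ hσ
    refine p1 σ ?_
    change (X.s σ : ℤ) ≠ (m : ℤ) + 1 - 1
    omega
  refine ⟨ψ, q1, fun σ hσ => (p3 σ).trans ?_⟩
  symm
  refine Finset.sum_subset ?_ ?_
  · intro τ hτ
    change τ ∈ X.F (X.s σ)
    rw [X.mem_F] at hτ ⊢
    omega
  · intro τ _ hτ'
    rw [X.mem_F] at hτ'
    rw [q1 τ (by omega), smul_zero]

/-- **the cells over `A` from the two acyclicity statements.** -/
def cells_of [Module.Finite K V] [Nontrivial V] (X : Pre A V) (g : GrP44.GrP A) (hV : Hon A V)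
    (hC : Ac (tG (Du (regL A)) (preL X)))
    (h : ∀ m : ℕ, AcAt (tG (Du (V0 V hV)) (preL X)) ((m : ℤ) + 1)) : Hat827.Cells A where
  V := V
  dpos x _ w := hV.D x w
  ι := X.ι
  s := X.s
  F := X.F
  mem_F := X.mem_F
  e := X.e
  e_mem := X.e_mem
  e_idem := X.e_idem
  c := X.c
  c_mem := X.c_mem
  c_left := X.c_left
  c_right := X.c_right
  mc := X.mc
  v := X.v
  v_e := X.v_e
  v_zero := X.v_zero
  v_aug := X.v_aug
  exR := X.exR
  exR0 := X.exR0
  gen := X.gen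
  exV := exV_of X hV h
  exC := exC_of X g hC

end V

end Crest.Agent.R186.Dual827
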