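import Crest.Agent.R186.HatC_827

/-!
Row 186 (A), leaf DICT, duality half (helper827): for a finite-dimensional graded left dg module `Z`
over `A : Hat827.DGA K` and cell data `X`, exactness of `Hom(X, Z)` in degree `p` follows from
exactness of `(Dual Z) ⊗ X` in degree `p`.
-/

set_option autoImplicit false
set_option linter.style.haveILetI false

namespace Crest.Agent.R186.Dual827

open Hat827

variable {K : Type} [Field K]

/-- a finite-dimensional graded left dg module with projections -/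
structure LZ (A : DGA K) where
  Z : Type
  [grp : AddCommGroup Z]
  [modK : Module K Z]
  [modC : Module A.C Z]
  [tower : IsScalarTower K A.C Z]
  gr : ℤ → Submodule K Z
  smul_mem : ∀ {k l : ℤ} {a : A.C} {z : Z}, a ∈ A.G k → z ∈ gr l → a • z ∈ gr (k + l)
  d : Z →ₗ[K] Z
  d_mem : ∀ {k : ℤ} {z : Z}, z ∈ gr k → d z ∈ gr (k - 1)
  leib : ∀ (a : A.C) (z : Z), d (a • z) = A.D a • z + a • d z
  pr : ℤ → Z →ₗ[K] Z
  pr_mem : ∀ (k : ℤ) (z : Z), pr k z ∈ gr k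
  pr_same : ∀ {k : ℤ} {z : Z}, z ∈ gr k → pr k z = z
  pr_ne : ∀ {k l : ℤ} {z : Z}, z ∈ gr l → k ≠ l → pr k z = 0
  lo : ℤ
  hi : ℤ
  pr_sum : ∀ z : Z, ∑ k ∈ Finset.Icc lo hi, pr k z = z

attribute [instance] LZ.grp LZ.modK LZ.modC LZ.tower

/-- cell data -/
structure CD (A : DGA K) where
  ι : Type
  s : ι → ℕ
  F : ℕ → Finset ι
  mem_F : ∀ m σ, σ ∈ F m ↔ s σ ≤ m
  e : ι → A.C
  e_mem : ∀ σ, e σ ∈ A.G 0
  e_idem : ∀ σ, e σ * e σ = e σ
  c : ι → ι → A.C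
  c_mem : ∀ σ τ, c σ τ ∈ A.G ((s σ : ℤ) - s τ - 1)
  c_left : ∀ σ τ, e σ * c σ τ = c σ τ
  c_right : ∀ σ τ, c σ τ * e τ = c σ τ

namespace LZ

variable {A : DGA K} (Z : LZ A)

theorem pr_out {l : ℤ} (hl : l ∉ Finset.Icc Z.lo Z.hi) (z : Z.Z) : Z.pr l z = 0 := by
  conv_lhs => rw [← Z.pr_sum z]
  rw [map_sum]
  refine Finset.sum_eq_zero fun k hk => Z.pr_ne (Z.pr_mem k z) ?_
  rintro rfl
  exact hl hk

theorem eq_zero_of_hi {l : ℤ} {z : Z.Z} (hz : z ∈ Z.gr l) (hl : Z.hi < l) : z = 0 := by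
  rw [← Z.pr_same hz]
  exact Z.pr_out (by simp only [Finset.mem_Icc]; omega) z

theorem pr_smul {k l m : ℤ} (hm : m = k + l) {a : A.C} (ha : a ∈ A.G k) (z : Z.Z) :
    Z.pr m (a • z) = a • Z.pr l z := by
  subst hm
  conv_lhs => rw [← Z.pr_sum z]
  rw [Finset.smul_sum, map_sum]
  by_cases hl : l ∈ Finset.Icc Z.lo Z.hi
  · rw [Finset.sum_eq_single l]
    · exact Z.pr_same (Z.smul_mem ha (Z.pr_mem l z))
    · intro j _ hj
      refine Z.pr_ne (Z.smul_mem ha (Z.pr_mem j z)) ?_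
      intro h
      exact hj (by omega)
    · intro h
      exact absurd hl h
  · rw [Z.pr_out hl, smul_zero]
    refine Finset.sum_eq_zero fun j hj => Z.pr_ne (Z.smul_mem ha (Z.pr_mem j z)) ?_
    intro h
    have : l = j := by omega
    exact hl (this ▸ hj)

theorem pr_d {k l : ℤ} (hl : l = k + 1) (z : Z.Z) : Z.pr k (Z.d z) = Z.d (Z.pr l z) := by
  subst hl
  conv_lhs => rw [← Z.pr_sum z]
  rw [map_sum, map_sum]
  by_cases hl : k + 1 ∈ Finset.Icc Z.lo Z.hi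
  · rw [Finset.sum_eq_single (k + 1)]
    · refine Z.pr_same ?_
      have h := Z.d_mem (Z.pr_mem (k + 1) z)
      rwa [show k + 1 - 1 = k by ring] at h
    · intro j _ hj
      refine Z.pr_ne (Z.d_mem (Z.pr_mem j z)) ?_
      intro h
      exact hj (by omega)
    · intro h
      exact absurd hl h
  · rw [Z.pr_out hl, map_zero]
    refine Finset.sum_eq_zero fun j hj => Z.pr_ne (Z.d_mem (Z.pr_mem j z)) ?_
    intro h
    have : k + 1 = j := by omega
    exact hl (this ▸ hj)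

end LZ

namespace CD

variable {A : DGA K} (X : CD A)

theorem c_zero {σ τ : X.ι} (h : X.s σ ≤ X.s τ) : X.c σ τ = 0 :=
  A.neg (X.c_mem σ τ) (by omega)

theorem c_zero' {σ τ : X.ι} (h : τ ∉ X.F (X.s σ)) : X.c σ τ = 0 := by
  rw [X.mem_F] at h
  exact X.c_zero (by omega)

theorem D_e (σ : X.ι) : A.D (X.e σ) = 0 :=
  A.neg (A.D_mem (X.e_mem σ)) (by omega)

end CD

section main

variable {A : DGA K} (X : CD A) (Z : LZ A)

/-- the differential of `Hom(X, Z)` -/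
def bd : (X.ι → Z.Z) →ₗ[K] (X.ι → Z.Z) where
  toFun φ σ := Z.d (φ σ) + ∑ τ ∈ X.F (X.s σ), X.c σ τ • φ τ
  map_add' φ ψ := by
    funext σ
    simp only [Pi.add_apply, map_add, smul_add, Finset.sum_add_distrib]
    abel
  map_smul' r φ := by
    funext σ
    simp only [Pi.smul_apply, map_smul, RingHom.id_apply, smul_add, Finset.smul_sum]
    congr 1
    refine Finset.sum_congr rfl fun τ _ => ?_
    exact smul_algebra_smul_comm r (X.c σ τ) (φ τ)

theorem bd_apply (φ : X.ι → Z.Z) (σ : X.ι) :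
    bd X Z φ σ = Z.d (φ σ) + ∑ τ ∈ X.F (X.s σ), X.c σ τ • φ τ := rfl

/-- the degree `p` part of `Hom(X, Z)` -/
def Hm (p : ℤ) : Submodule K (X.ι → Z.Z) where
  carrier := {φ | (∀ σ, φ σ ∈ Z.gr ((X.s σ : ℤ) - p)) ∧ ∀ σ, X.e σ • φ σ = φ σ}
  add_mem' := by
    rintro φ ψ ⟨h1, h2⟩ ⟨h3, h4⟩
    refine ⟨fun σ => Submodule.add_mem _ (h1 σ) (h3 σ), fun σ => ?_⟩
    rw [Pi.add_apply, smul_add, h2, h4]
  zero_mem' := ⟨fun σ => Submodule.zero_mem _, fun σ => smul_zero _⟩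
  smul_mem' := by
    rintro r φ ⟨h1, h2⟩
    refine ⟨fun σ => Submodule.smul_mem _ r (h1 σ), fun σ => ?_⟩
    rw [Pi.smul_apply]
    exact ((smul_algebra_smul_comm r (X.e σ) (φ σ)).symm ▸ congrArg (r • ·) (h2 σ) :)

variable {X Z}

theorem bd_mem {p q : ℤ} (hq : q = p + 1) {φ : X.ι → Z.Z} (h : φ ∈ Hm X Z p) :
    bd X Z φ ∈ Hm X Z q := by
  subst hq
  obtain ⟨h1, h2⟩ := h
  constructor
  · intro σ
    rw [bd_apply]
    refine Submodule.add_mem _ ?_ (Submodule.sum_mem _ fun τ _ => ?_)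
    · have h := Z.d_mem (h1 σ)
      rwa [show (X.s σ : ℤ) - p - 1 = (X.s σ : ℤ) - (p + 1) by ring] at h
    · have h := Z.smul_mem (X.c_mem σ τ) (h1 τ)
      rwa [show (X.s σ : ℤ) - X.s τ - 1 + ((X.s τ : ℤ) - p) = (X.s σ : ℤ) - (p + 1) by ring] at h
  · intro σ
    rw [bd_apply, smul_add, Finset.smul_sum]
    congr 1
    · have h := Z.leib (X.e σ) (φ σ)
      rw [X.D_e, zero_smul, zero_add, h2] at h
      exact h.symm
    · refine Finset.sum_congr rfl fun τ _ => ?_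
      rw [smul_smul, X.c_left]

/-- the support of an element of degree `p` -/
theorem supp {p : ℤ} {φ : X.ι → Z.Z} (h : φ ∈ Hm X Z p) {M : ℕ} (hM : Z.hi + p ≤ M) {σ : X.ι}
    (hσ : σ ∉ X.F M) : φ σ = 0 := by
  rw [X.mem_F] at hσ
  exact Z.eq_zero_of_hi (h.1 σ) (by omega)

/-- sum over `F (s σ)` equals the sum over `F M` -/
theorem sum_c {p : ℤ} {φ : X.ι → Z.Z} (h : φ ∈ Hm X Z p) {M : ℕ} (hM : Z.hi + p ≤ M) (σ : X.ι) :
    ∑ τ ∈ X.F (X.s σ), X.c σ τ • φ τ = ∑ τ ∈ X.F M, X.c σ τ • φ τ := by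
  classical
  have e1 : ∑ τ ∈ X.F (X.s σ), X.c σ τ • φ τ = ∑ τ ∈ X.F (X.s σ) ∪ X.F M, X.c σ τ • φ τ := by
    refine Finset.sum_subset Finset.subset_union_left fun τ _ hτ => ?_
    rw [X.c_zero' hτ, zero_smul]
  have e2 : ∑ τ ∈ X.F M, X.c σ τ • φ τ = ∑ τ ∈ X.F (X.s σ) ∪ X.F M, X.c σ τ • φ τ := by
    refine Finset.sum_subset Finset.subset_union_right fun τ _ hτ => ?_
    rw [supp h hM hτ, smul_zero]
  rw [e1, e2]

variable (X Z)

/-- **exactness of `(Dual Z) ⊗ X` in degree `p`.** -/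
def TEx (p : ℤ) (M M' : ℕ) : Prop :=
  ∀ x : X.ι → (Z.Z →ₗ[K] K),
    (∀ σ l z, z ∈ Z.gr l → l ≠ (X.s σ : ℤ) - p → x σ z = 0) →
    (∀ σ z, x σ (X.e σ • z) = x σ z) →
    (∀ τ z, x τ (Z.d z) + ∑ σ ∈ X.F M, x σ (X.c σ τ • z) = 0) →
    ∃ y : X.ι → (Z.Z →ₗ[K] K),
      (∀ σ l z, z ∈ Z.gr l → l ≠ (X.s σ : ℤ) - (p + 1) → y σ z = 0) ∧
      (∀ σ z, y σ (X.e σ • z) = y σ z) ∧
      (∀ τ z, x τ z = y τ (Z.d z) + ∑ σ ∈ X.F M', y σ (X.c σ τ • z))

variable {X Z}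

theorem smul_lin (a : A.C) (r : K) (z : Z.Z) : a • r • z = r • a • z :=
  (smul_algebra_smul_comm r a z).symm ▸ rfl

/-- multiplication by an element of `C`, as a `K`-linear map -/
def act (Z : LZ A) (a : A.C) : Z.Z →ₗ[K] Z.Z where
  toFun z := a • z
  map_add' := smul_add a
  map_smul' r z := by
    rw [RingHom.id_apply]
    exact (smul_algebra_smul_comm r a z).symm ▸ rfl

theorem act_apply (Z : LZ A) (a : A.C) (z : Z.Z) : act Z a z = a • z := rfl

/-- **`Hom(X, Z)` is exact in degree `p`.** -/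
theorem hom_exact {p : ℤ} {M M' : ℕ} (hM : Z.hi + p ≤ M) (hM' : Z.hi + p + 1 ≤ M')
    (hT : TEx X Z p M M') {φ : X.ι → Z.Z} (hφ : φ ∈ Hm X Z p) (hd : bd X Z φ = 0) :
    ∃ ψ ∈ Hm X Z (p - 1), bd X Z ψ = φ := by
  classical
  by_contra hcon
  have hnot : φ ∉ (Hm X Z (p - 1)).map (bd X Z) := by
    rintro ⟨ψ, hψ, h⟩
    exact hcon ⟨ψ, hψ, h⟩
  obtain ⟨lam, hl0, hlr⟩ := Submodule.exists_le_ker_of_notMem hnot
  -- the functional as a tensor
  let x : X.ι → (Z.Z →ₗ[K] K) := fun σ =>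
    lam ∘ₗ (LinearMap.single K (fun _ : X.ι => Z.Z) σ) ∘ₗ act Z (X.e σ) ∘ₗ Z.pr ((X.s σ : ℤ) - p)
  have x_ap : ∀ σ z, x σ z = lam (Pi.single σ (X.e σ • Z.pr ((X.s σ : ℤ) - p) z)) := by
    intro σ z
    rfl
  have x_of : ∀ {ψ : X.ι → Z.Z}, ψ ∈ Hm X Z p → ∀ σ, x σ (ψ σ) = lam (Pi.single σ (ψ σ)) := by
    intro ψ hψ σ
    rw [x_ap, Z.pr_same (hψ.1 σ), hψ.2]
  have pair : ∀ {ψ : X.ι → Z.Z}, ψ ∈ Hm X Z p → lam ψ = ∑ σ ∈ X.F M, x σ (ψ σ) := by
    intro ψ hψ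
    have e1 : ψ = ∑ σ ∈ X.F M, Pi.single σ (ψ σ) := by
      funext τ
      rw [Finset.sum_apply]
      by_cases hτ : τ ∈ X.F M
      · rw [Finset.sum_eq_single τ]
        · rw [Pi.single_eq_same]
        · intro σ _ hσ
          rw [Pi.single_eq_of_ne hσ.symm]
        · intro h
          exact absurd hτ h
      · rw [supp hψ hM hτ]
        symm
        refine Finset.sum_eq_zero fun σ hσ => ?_
        rw [Pi.single_eq_of_ne]
        rintro rfl
        exact hτ hσ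
    conv_lhs => rw [e1]
    rw [map_sum]
    exact Finset.sum_congr rfl fun σ _ => (x_of hψ σ).symm
  have xsupp : ∀ σ, σ ∉ X.F M → x σ = 0 := by
    intro σ hσ
    ext z
    rw [X.mem_F] at hσ
    rw [x_ap, Z.eq_zero_of_hi (Z.pr_mem _ z) (by omega), smul_zero, Pi.single_zero, map_zero]
    rfl
  have x1 : ∀ σ l z, z ∈ Z.gr l → l ≠ (X.s σ : ℤ) - p → x σ z = 0 := by
    intro σ l z hz hl
    rw [x_ap, Z.pr_ne hz hl.symm, smul_zero, Pi.single_zero, map_zero]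
  have x2 : ∀ σ z, x σ (X.e σ • z) = x σ z := by
    intro σ z
    rw [x_ap, x_ap, Z.pr_smul (k := 0) (l := (X.s σ : ℤ) - p) (by ring) (X.e_mem σ), smul_smul,
      X.e_idem]
  have x3 : ∀ τ z, x τ (Z.d z) + ∑ σ ∈ X.F M, x σ (X.c σ τ • z) = 0 := by
    intro τ z
    set w : Z.Z := X.e τ • Z.pr ((X.s τ : ℤ) - (p - 1)) z with hw
    have hw1 : w ∈ Z.gr ((X.s τ : ℤ) - (p - 1)) := by
      have h := Z.smul_mem (X.e_mem τ) (Z.pr_mem ((X.s τ : ℤ) - (p - 1)) z)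
      rwa [zero_add] at h
    have hw2 : X.e τ • w = w := by
      rw [hw, smul_smul, X.e_idem]
    have hs : (Pi.single τ w : X.ι → Z.Z) ∈ Hm X Z (p - 1) := by
      constructor
      · intro σ
        by_cases h : σ = τ
        · subst h
          rw [Pi.single_eq_same]
          exact hw1
        · rw [Pi.single_eq_of_ne h]
          exact Submodule.zero_mem _
      · intro σ
        by_cases h : σ = τ
        · subst h
          rw [Pi.single_eq_same]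
          exact hw2
        · rw [Pi.single_eq_of_ne h, smul_zero]
    have hb : bd X Z (Pi.single τ w) ∈ Hm X Z p := bd_mem (by ring) hs
    have h0 : lam (bd X Z (Pi.single τ w)) = 0 := hlr ⟨_, hs, rfl⟩
    rw [pair hb] at h0
    have hbσ : ∀ σ, bd X Z (Pi.single τ w) σ = (if σ = τ then Z.d w else 0) + X.c σ τ • w := by
      intro σ
      rw [bd_apply]
      congr 1
      · by_cases h : σ = τ
        · subst h
          rw [Pi.single_eq_same, if_pos rfl]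
        · rw [Pi.single_eq_of_ne h, if_neg h, map_zero]
      · by_cases h : τ ∈ X.F (X.s σ)
        · rw [Finset.sum_eq_single τ]
          · rw [Pi.single_eq_same]
          · intro ρ _ hρ
            rw [Pi.single_eq_of_ne hρ, smul_zero]
          · intro h'
            exact absurd h h'
        · rw [X.c_zero' h, zero_smul]
          refine Finset.sum_eq_zero fun ρ hρ => ?_
          rw [Pi.single_eq_of_ne, smul_zero]
          rintro rfl
          exact h hρ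
    have e1 : x τ (Z.d z) = x τ (Z.d w) := by
      rw [x_ap, x_ap]
      congr 2
      rw [Z.pr_d (l := (X.s τ : ℤ) - (p - 1)) (by ring),
        Z.pr_d (l := (X.s τ : ℤ) - (p - 1)) (by ring), Z.pr_same hw1, hw, Z.leib, X.D_e, zero_smul,
        zero_add, smul_smul, X.e_idem]
    have e2 : ∀ σ, x σ (X.c σ τ • z) = x σ (X.c σ τ • w) := by
      intro σ
      rw [x_ap, x_ap]
      congr 2
      rw [Z.pr_smul (l := (X.s τ : ℤ) - (p - 1)) (by ring) (X.c_mem σ τ),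
        Z.pr_smul (l := (X.s τ : ℤ) - (p - 1)) (by ring) (X.c_mem σ τ), Z.pr_same hw1, hw,
        smul_smul (X.c σ τ) (X.e τ), X.c_right]
    rw [e1, Finset.sum_congr rfl fun σ _ => e2 σ]
    simp only [hbσ, map_add, Finset.sum_add_distrib] at h0
    rw [← h0]
    congr 1
    by_cases hτ : τ ∈ X.F M
    · rw [Finset.sum_eq_single τ]
      · rw [if_pos rfl]
      · intro σ _ hσ
        rw [if_neg hσ, map_zero]
      · intro h
        exact absurd hτ h
    · rw [xsupp τ hτ]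
      symm
      refine Finset.sum_eq_zero fun σ hσ => ?_
      rw [if_neg, map_zero]
      rintro rfl
      exact hτ hσ
  obtain ⟨y, y1, y2, y3⟩ := hT x x1 x2 x3
  apply hl0
  rw [pair hφ, Finset.sum_congr rfl fun τ _ => y3 τ (φ τ), Finset.sum_add_distrib,
    Finset.sum_comm]
  have hMM : X.F M ⊆ X.F (max M M') := by
    intro σ hσ
    rw [X.mem_F] at hσ ⊢
    exact le_trans hσ (le_max_left _ _)
  have hMM' : X.F M' ⊆ X.F (max M M') := by
    intro σ hσ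
    rw [X.mem_F] at hσ ⊢
    exact le_trans hσ (le_max_right _ _)
  have ysupp : ∀ σ, σ ∉ X.F M' → ∀ z, y σ z = 0 := by
    intro σ hσ z
    rw [X.mem_F] at hσ
    rw [← Z.pr_sum z, map_sum]
    refine Finset.sum_eq_zero fun k hk => ?_
    rw [Finset.mem_Icc] at hk
    exact y1 σ k _ (Z.pr_mem k z) (by omega)
  have hA : ∑ τ ∈ X.F M, y τ (Z.d (φ τ)) = ∑ τ ∈ X.F (max M M'), y τ (Z.d (φ τ)) := by
    refine Finset.sum_subset hMM fun τ _ hτ => ?_
    rw [supp hφ hM hτ, map_zero, map_zero]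
  have hB : ∑ σ ∈ X.F M', ∑ τ ∈ X.F M, y σ (X.c σ τ • φ τ)
      = ∑ σ ∈ X.F (max M M'), y σ (∑ τ ∈ X.F (X.s σ), X.c σ τ • φ τ) := by
    rw [Finset.sum_subset hMM' fun σ _ hσ => Finset.sum_eq_zero fun τ _ => ysupp σ hσ _]
    refine Finset.sum_congr rfl fun σ _ => ?_
    rw [sum_c hφ hM, map_sum]
  rw [hA, hB, ← Finset.sum_add_distrib]
  refine Finset.sum_eq_zero fun σ _ => ?_
  rw [← map_add]
  have := congrFun hd σ
  rw [bd_apply] at this
  rw [this, Pi.zero_apply, map_zero]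

end main

end Crest.Agent.R186.Dual827
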