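import Crest.Agent.R186.Ex_306
import Crest.Agent.R186.Cells1_221

/-!
Row 186, half (A), short road of helper306 (helper595): exactness of the sixteen left cells of `V_{-1}`
with values in a pair of families `Ex306.Fam`, at all six levels.
-/

set_option autoImplicit false
set_option linter.unusedSectionVars false
set_option linter.unusedSimpArgs false

namespace Crest.Agent.R186.L16

open Ex306 Cells221
open Crest.Agent.R186.PBW128 (E)

variable {K : Type} [Field K] {g : K}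

/-- the two families as one -/
abbrev YY (Y : Fam K g) : Bool → ℕ → Type
  | true, a => Y.Y1 a
  | false, a => Y.Y0 a

noncomputable instance (Y : Fam K g) (b : Bool) (a : ℕ) : AddCommGroup (YY Y b a) :=
  match b with
  | true => Y.a1 a
  | false => Y.a0 a

noncomputable instance (Y : Fam K g) (b : Bool) (a : ℕ) : Module K (YY Y b a) :=
  match b with
  | true => Y.m1 a
  | false => Y.m0 a

/-- row of a cell (`true` = `P`-degree `0`) -/
abbrev cB : Cell → Bool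
  | some (.d _) => false
  | some (.z _) => false
  | some (.e _) => false
  | some (.gj _) => false
  | _ => true

/-- Adams position of a cell -/
abbrev cA : Cell → ℕ
  | none => 0
  | some (.d _) => 1
  | some .f => 1
  | some (.z _) => 2
  | some .zc => 2
  | some (.u s) => 1 + s.val
  | some (.e _) => 2
  | some (.gj _) => 3
  | some .gc => 3
  | some (.v s) => 1 + s.val + 1

/-- the space of values at a cell -/
abbrev Yc (Y : Fam K g) (c : Cell) : Type := YY Y (cB c) (cA c)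

/-- the scalars `c_j` -/
def cj (g : K) (j : Fin 2) : K := if j = 0 then g ^ 2 else g

/-- `x_j d_i` as a linear map -/
noncomputable def mL (Y : Fam K g) (j i : Fin 2) (a : ℕ) : Y.Y0 a →ₗ[K] Y.Y0 (a + 1) where
  toFun := Y.m j i a
  map_add' u v := by
    unfold Fam.m
    split_ifs <;> simp only [map_add, smul_add] <;> abel
  map_smul' r u := by
    unfold Fam.m
    split_ifs <;> simp only [map_smul, smul_add, RingHom.id_apply, smul_comm r]

theorem mL_apply (Y : Fam K g) (j i : Fin 2) (a : ℕ) (y : Y.Y0 a) : mL Y j i a y = Y.m j i a y := rfl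

/-- the adjacent-level operators of the sixteen cells -/
noncomputable def Tc (Y : Fam K g) : ∀ c c' : Cell, Yc Y c' →ₗ[K] Yc Y c
  | some (.d j), none => Y.d j 0
  | some (.z j), some (.d i) => if i = 0 then mL Y j 1 1 else g • mL Y j 0 1
  | some .zc, some (.z i) => if i = 0 then Y.x 1 2 else Y.x 0 2
  | some .zc, some .f => Y.h1 1
  | some (.e j), some .f => cj g j • Y.d j 1
  | some (.gj j), some (.e i) => if i = 0 then ((cj g j)⁻¹ * g) • mL Y j 1 2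
      else ((cj g j)⁻¹ * g ^ 3) • mL Y j 0 2
  | some .gc, some (.gj i) => if i = 0 then (cj g 1)⁻¹ • Y.x 1 3 else (cj g 0)⁻¹ • Y.x 0 3
  | some (.v s), some (.u i) => if h : i = s then
      (by subst h; exact Y.th1 (g ^ 2)⁻¹ (1 + i.val)) else 0
  | _, _ => 0

/-- the bijectivities used (`θ_0` on `Y_1`, `θ_{-1}` on `Y_0`) -/
structure Bij (Y : Fam K g) : Prop where
  i1 : ∀ a, a ≤ 2 → ∀ y, Y.th1 (g ^ 2)⁻¹ a y = 0 → y = 0
  s1 : ∀ a, a ≤ 2 → ∀ y, ∃ z, Y.th1 (g ^ 2)⁻¹ a z = y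
  i0 : ∀ a, 1 ≤ a → a ≤ 2 → ∀ y, Y.th0 g⁻¹ a y = 0 → y = 0
  s0 : ∀ a, 1 ≤ a → a ≤ 2 → ∀ y, ∃ z, Y.th0 g⁻¹ a z = y

theorem sumC {M : Type*} [AddCommMonoid M] (F : Cell → M) : ∑ c, F c = F none +
    (F (some (.d 0)) + F (some (.d 1)) + F (some .f) + F (some (.z 0)) + F (some (.z 1))
      + F (some .zc) + F (some (.u 0)) + F (some (.u 1)) + F (some (.e 0))
      + F (some (.e 1)) + F (some (.gj 0)) + F (some (.gj 1)) + F (some .gc) + F (some (.v 0))
      + F (some (.v 1))) := by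
  rw [Fintype.sum_option, Cells221.sumE]

section sums

variable (Y : Fam K g) (ζ : ∀ c, Yc Y c)

theorem S_none : ∑ c', Tc Y none c' (ζ c') = 0 := by
  rw [sumC]; simp [Tc]

theorem S_d (j : Fin 2) : ∑ c', Tc Y (some (.d j)) c' (ζ c') = Y.d j 0 (ζ none) := by
  rw [sumC]; simp [Tc]

theorem S_f : ∑ c', Tc Y (some .f) c' (ζ c') = 0 := by
  rw [sumC]; simp [Tc]

theorem S_u (s : Fin 2) : ∑ c', Tc Y (some (.u s)) c' (ζ c') = 0 := by
  rw [sumC]; simp [Tc]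

theorem S_z (j : Fin 2) : ∑ c', Tc Y (some (.z j)) c' (ζ c') =
    Y.m j 1 1 (ζ (some (.d 0))) + g • Y.m j 0 1 (ζ (some (.d 1))) := by
  rw [sumC]; simp [Tc, mL_apply]

theorem S_zc : ∑ c', Tc Y (some .zc) c' (ζ c') =
    Y.h1 1 (ζ (some .f)) + Y.x 1 2 (ζ (some (.z 0))) + Y.x 0 2 (ζ (some (.z 1))) := by
  rw [sumC]; simp [Tc]

theorem S_e (j : Fin 2) : ∑ c', Tc Y (some (.e j)) c' (ζ c') =
    cj g j • Y.d j 1 (ζ (some .f)) := by
  rw [sumC]; simp [Tc]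

theorem S_gj (j : Fin 2) : ∑ c', Tc Y (some (.gj j)) c' (ζ c') =
    ((cj g j)⁻¹ * g) • Y.m j 1 2 (ζ (some (.e 0))) +
      ((cj g j)⁻¹ * g ^ 3) • Y.m j 0 2 (ζ (some (.e 1))) := by
  rw [sumC]; simp [Tc, mL_apply]

theorem S_gc : ∑ c', Tc Y (some .gc) c' (ζ c') =
    (cj g 1)⁻¹ • Y.x 1 3 (ζ (some (.gj 0))) + (cj g 0)⁻¹ • Y.x 0 3 (ζ (some (.gj 1))) := by
  rw [sumC]; simp [Tc]

theorem S_v0 : ∑ c', Tc Y (some (.v 0)) c' (ζ c') = Y.th1 (g ^ 2)⁻¹ 1 (ζ (some (.u 0))) := by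
  rw [sumC]; simp [Tc]

theorem S_v1 : ∑ c', Tc Y (some (.v 1)) c' (ζ c') = Y.th1 (g ^ 2)⁻¹ 2 (ζ (some (.u 1))) := by
  rw [sumC]; simp [Tc]

end sums

section build

variable {Y : Fam K g}

/-- a cochain from its components -/
def mkw (n : Y.Y1 0) (d0 d1 : Y.Y0 1) (f : Y.Y1 1) (z0 z1 : Y.Y0 2) (u0 : Y.Y1 1) (u1 : Y.Y1 2)
    (e0 e1 : Y.Y0 2) (g0 g1 : Y.Y0 3) : ∀ c, Yc Y c
  | none => n
  | some (.d j) => if j = 0 then d0 else d1
  | some .f => f
  | some (.z j) => if j = 0 then z0 else z1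
  | some .zc => 0
  | some (.u ⟨0, _⟩) => u0
  | some (.u ⟨1, _⟩) => u1
  | some (.e j) => if j = 0 then e0 else e1
  | some (.gj j) => if j = 0 then g0 else g1
  | some .gc => 0
  | some (.v _) => 0

end build

variable (Y : Fam K g) (hg : g ≠ 0) (hg1 : g ≠ 1) (two : (2 : K) = 0) (hB : Bij Y)

include hg hg1 two hB

theorem lev0 (ζ : ∀ c, Yc Y c) (h1 : ∀ c, cdeg c = 1 → ∑ c', Tc Y c c' (ζ c') = 0) :
    ζ none = 0 := by
  have e0 := h1 (some (.d 0)) rfl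
  have e1 := h1 (some (.d 1)) rfl
  rw [S_d] at e0 e1
  exact Y.l0 hg hg1 two 0 (hB.i1 0 (by omega)) (ζ none) e0 e1

theorem lev1 (ζ : ∀ c, Yc Y c) (h1 : ∀ c, cdeg c = 2 → ∑ c', Tc Y c c' (ζ c') = 0) :
    ∃ y : Y.Y1 0, Y.d 0 0 y = ζ (some (.d 0)) ∧ Y.d 1 0 y = ζ (some (.d 1)) := by
  have e0 := h1 (some (.z 0)) rfl
  have e1 := h1 (some (.z 1)) rfl
  rw [S_z] at e0 e1
  exact Y.l1 hg hg1 two 0 (hB.s1 0 (by omega)) (hB.i0 1 le_rfl (by omega)) _ _ e0 e1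

theorem lev2 (ζ : ∀ c, Yc Y c) (h1 : ∀ c, cdeg c = 3 → ∑ c', Tc Y c c' (ζ c') = 0) :
    ζ (some .f) = 0 ∧ ζ (some (.u 0)) = 0 ∧ ∃ p0 p1 : Y.Y0 1,
      Y.m 0 1 1 p0 + g • Y.m 0 0 1 p1 = ζ (some (.z 0)) ∧
      Y.m 1 1 1 p0 + g • Y.m 1 0 1 p1 = ζ (some (.z 1)) := by
  have e0 := h1 (some (.e 0)) rfl
  have e1 := h1 (some (.e 1)) rfl
  have ec := h1 (some .zc) rfl
  have ev := h1 (some (.v 0)) rfl
  rw [S_e] at e0 e1
  rw [S_zc] at ec
  rw [S_v0] at ev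
  have hf : ζ (some .f) = 0 := by
    refine Y.l0 hg hg1 two 1 (hB.i1 1 (by omega)) (ζ (some .f)) ?_ ?_
    · exact (smul_eq_zero.1 e0).resolve_left (by simp [cj, hg])
    · exact (smul_eq_zero.1 e1).resolve_left (by simp [cj, hg])
  refine ⟨hf, hB.i1 1 (by omega) _ ev, ?_⟩
  rw [hf, map_zero, zero_add] at ec
  exact Y.l2 hg hg1 two 1 (hB.s0 1 le_rfl (by omega)) (hB.i1 1 (by omega)) _ _ ec

theorem lev3 (ζ : ∀ c, Yc Y c) (h1 : ∀ c, cdeg c = 4 → ∑ c', Tc Y c c' (ζ c') = 0) :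
    ζ (some (.u 1)) = 0 ∧ ∃ (f : Y.Y1 1) (z0 z1 : Y.Y0 2) (u0 : Y.Y1 1),
      Y.h1 1 f + Y.x 1 2 z0 + Y.x 0 2 z1 = ζ (some .zc) ∧
      cj g 0 • Y.d 0 1 f = ζ (some (.e 0)) ∧ cj g 1 • Y.d 1 1 f = ζ (some (.e 1)) ∧
      Y.th1 (g ^ 2)⁻¹ 1 u0 = ζ (some (.v 0)) := by
  have e0 := h1 (some (.gj 0)) rfl
  have e1 := h1 (some (.gj 1)) rfl
  have ev := h1 (some (.v 1)) rfl
  rw [S_gj] at e0 e1
  rw [S_v1] at ev
  refine ⟨hB.i1 2 le_rfl _ ev, ?_⟩
  have k : ∀ j : Fin 2, ((cj g j)⁻¹ * g) • Y.m j 1 2 (ζ (some (.e 0))) +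
      ((cj g j)⁻¹ * g ^ 3) • Y.m j 0 2 (ζ (some (.e 1))) = 0 →
      Y.m j 1 2 (ζ (some (.e 0))) + g • Y.m j 0 2 (g • ζ (some (.e 1))) = 0 := by
    intro j h
    have hc : (cj g j) ≠ 0 := by unfold cj; split_ifs <;> simp [hg]
    have h2 : ((cj g j)⁻¹ * g) • (Y.m j 1 2 (ζ (some (.e 0))) +
        g • Y.m j 0 2 (g • ζ (some (.e 1)))) = 0 := by
      rw [← h, smul_add, ← mL_apply Y j 0, ← mL_apply Y j 0, map_smul, smul_smul, smul_smul]
      congr 2
      ring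
    exact (smul_eq_zero.1 h2).resolve_left (mul_ne_zero (inv_ne_zero hc) hg)
  obtain ⟨f, hf0, hf1⟩ := Y.l1 hg hg1 two 1 (hB.s1 1 (by omega)) (hB.i0 2 (by omega) le_rfl)
    (ζ (some (.e 0))) (g • ζ (some (.e 1))) (k 0 e0) (k 1 e1)
  obtain ⟨z0, z1, hz⟩ := Y.l3 hg hg1 two 1 (hB.s1 1 (by omega))
    (ζ (some .zc) - Y.h1 1 ((g ^ 2)⁻¹ • f))
  obtain ⟨u0, hu⟩ := hB.s1 1 (by omega) (ζ (some (.v 0)))
  refine ⟨(g ^ 2)⁻¹ • f, z0, z1, u0, ?_, ?_, ?_, hu⟩
  · rw [add_assoc, hz]; abel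
  · have : cj g 0 = g ^ 2 := rfl
    rw [this, map_smul, smul_smul, mul_inv_cancel₀ (pow_ne_zero 2 hg), one_smul, hf0]
  · have : cj g 1 = g := rfl
    rw [this, map_smul, hf1, smul_smul, smul_smul]
    have : g * (g ^ 2)⁻¹ * g = 1 := by field_simp
    rw [this, one_smul]

theorem lev4 (ζ : ∀ c, Yc Y c) (h1 : ∀ c, cdeg c = 5 → ∑ c', Tc Y c c' (ζ c') = 0) :
    ∃ (e0 e1 : Y.Y0 2) (u1 : Y.Y1 2),
      (∀ j, ((cj g j)⁻¹ * g) • Y.m j 1 2 e0 + ((cj g j)⁻¹ * g ^ 3) • Y.m j 0 2 e1 =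
        ζ (some (.gj j))) ∧ Y.th1 (g ^ 2)⁻¹ 2 u1 = ζ (some (.v 1)) := by
  have ec := h1 (some .gc) rfl
  rw [S_gc] at ec
  obtain ⟨u1, hu⟩ := hB.s1 2 le_rfl (ζ (some (.v 1)))
  obtain ⟨p0, p1, h0, h1'⟩ := Y.l2 hg hg1 two 2 (hB.s0 2 (by omega) le_rfl) (hB.i1 2 le_rfl)
    ((cj g 1)⁻¹ • ζ (some (.gj 0))) ((cj g 0)⁻¹ • ζ (some (.gj 1))) (by
      rw [map_smul, map_smul]; exact ec)
  refine ⟨g ^ 2 • p0, g • p1, u1, ?_, hu⟩
  intro j
  have hj : j = 0 ∨ j = 1 := by fin_cases j <;> simp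
  have c0 : cj g 0 = g ^ 2 := rfl
  have c1 : cj g 1 = g := rfl
  rw [← mL_apply Y j 1, ← mL_apply Y j 0, map_smul, map_smul, smul_smul, smul_smul]
  rcases hj with rfl | rfl
  · rw [c1] at h0
    have h2 : ζ (some (.gj 0)) = g • (Y.m 0 1 2 p0 + g • Y.m 0 0 2 p1) := by
      rw [h0, smul_smul, mul_inv_cancel₀ hg, one_smul]
    rw [h2, smul_add, smul_smul, mL_apply, mL_apply, c0]
    congr 2 <;> field_simp
  · rw [c0] at h1'
    have h2 : ζ (some (.gj 1)) = g ^ 2 • (Y.m 1 1 2 p0 + g • Y.m 1 0 2 p1) := by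
      rw [h1', smul_smul, mul_inv_cancel₀ (pow_ne_zero 2 hg), one_smul]
    rw [h2, smul_add, smul_smul, mL_apply, mL_apply, c1]
    congr 2 <;> field_simp

theorem lev5 (ζ : ∀ c, Yc Y c) : ∃ g0 g1 : Y.Y0 3,
      (cj g 1)⁻¹ • Y.x 1 3 g0 + (cj g 0)⁻¹ • Y.x 0 3 g1 = ζ (some .gc) := by
  obtain ⟨z0, z1, h⟩ := Y.l3 hg hg1 two 2 (hB.s1 2 le_rfl) (ζ (some .gc))
  refine ⟨cj g 1 • z0, cj g 0 • z1, ?_⟩
  have c0 : cj g 0 = g ^ 2 := rfl
  have c1 : cj g 1 = g := rfl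
  rw [map_smul, map_smul, smul_smul, smul_smul, c0, c1, inv_mul_cancel₀ hg,
    inv_mul_cancel₀ (pow_ne_zero 2 hg), one_smul, one_smul, h]

omit hg hg1 two hB in
/-- case distinction over the sixteen cells -/
theorem forallC {P : Cell → Prop} (n : P none) (d0 : P (some (.d 0))) (d1 : P (some (.d 1)))
    (f : P (some .f)) (z0 : P (some (.z 0))) (z1 : P (some (.z 1))) (zc : P (some .zc))
    (u0 : P (some (.u 0))) (u1 : P (some (.u 1))) (e0 : P (some (.e 0))) (e1 : P (some (.e 1)))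
    (g0 : P (some (.gj 0))) (g1 : P (some (.gj 1))) (gc : P (some .gc))
    (v0 : P (some (.v 0))) (v1 : P (some (.v 1))) : ∀ c, P c := by
  intro c
  have h : ∀ j : Fin 2, j = 0 ∨ j = 1 := fun j => by fin_cases j <;> simp
  rcases c with _ | l
  · exact n
  · cases l with
    | d j => rcases h j with rfl | rfl <;> assumption
    | f => exact f
    | z j => rcases h j with rfl | rfl <;> assumption
    | zc => exact zc
    | u j => rcases h j with rfl | rfl <;> assumption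
    | e j => rcases h j with rfl | rfl <;> assumption
    | gj j => rcases h j with rfl | rfl <;> assumption
    | gc => exact gc
    | v j => rcases h j with rfl | rfl <;> assumption

/-- **exactness of the sixteen cells**, on the families -/
theorem exY (m : ℕ) (ζ : ∀ c, Yc Y c) (h0 : ∀ c, cdeg c ≠ m → ζ c = 0)
    (h1 : ∀ c, cdeg c = m + 1 → ∑ c', Tc Y c c' (ζ c') = 0) :
    ∃ ω : ∀ c, Yc Y c, (∀ c, cdeg c + 1 ≠ m → ω c = 0) ∧
      ∀ c, cdeg c = m → ζ c = ∑ c', Tc Y c c' (ω c') := by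
  match m, h0, h1 with
  | 0, h0, h1 =>
    refine ⟨fun _ => 0, fun _ _ => rfl, fun c hc => ?_⟩
    simp only [map_zero, Finset.sum_const_zero]
    rcases c with _ | l
    · exact lev0 Y hg hg1 two hB ζ h1
    · cases l <;> simp [cdeg] at hc
  | 1, h0, h1 =>
    obtain ⟨y, hy0, hy1⟩ := lev1 Y hg hg1 two hB ζ h1
    refine ⟨mkw y 0 0 0 0 0 0 0 0 0 0 0, ?_, ?_⟩
    · apply forallC <;> first | exact fun _ => rfl | exact fun hc => absurd rfl hc
    · apply forallC <;> first | exact fun hc => absurd hc (by decide) | skip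
      · intro _; rw [S_d]; exact hy0.symm
      · intro _; rw [S_d]; exact hy1.symm
  | 2, h0, h1 =>
    obtain ⟨hf, hu, p0, p1, h2, h3⟩ := lev2 Y hg hg1 two hB ζ h1
    refine ⟨mkw 0 p0 p1 0 0 0 0 0 0 0 0 0, ?_, ?_⟩
    · apply forallC <;> first | exact fun _ => rfl | exact fun hc => absurd rfl hc
    · apply forallC <;> first | exact fun hc => absurd hc (by decide) | skip
      · intro _; rw [S_f]; exact hf
      · intro _; rw [S_z]; exact h2.symm
      · intro _; rw [S_z]; exact h3.symm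
      · intro _; rw [S_u]; exact hu
  | 3, h0, h1 =>
    obtain ⟨hu, f, z0, z1, u0, h2, h3, h4, h5⟩ := lev3 Y hg hg1 two hB ζ h1
    refine ⟨mkw 0 0 0 f z0 z1 u0 0 0 0 0 0, ?_, ?_⟩
    · apply forallC <;> first | exact fun _ => rfl | exact fun hc => absurd rfl hc
    · apply forallC <;> first | exact fun hc => absurd hc (by decide) | skip
      · intro _; rw [S_zc]; exact h2.symm
      · intro _; rw [S_u]; exact hu
      · intro _; rw [S_e]; exact h3.symm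
      · intro _; rw [S_e]; exact h4.symm
      · intro _; rw [S_v0]; exact h5.symm
  | 4, h0, h1 =>
    obtain ⟨e0, e1, u1, h2, h3⟩ := lev4 Y hg hg1 two hB ζ h1
    refine ⟨mkw 0 0 0 0 0 0 0 u1 e0 e1 0 0, ?_, ?_⟩
    · apply forallC <;> first | exact fun _ => rfl | exact fun hc => absurd rfl hc
    · apply forallC <;> first | exact fun hc => absurd hc (by decide) | skip
      · intro _; rw [S_gj]; exact (h2 0).symm
      · intro _; rw [S_gj]; exact (h2 1).symm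
      · intro _; rw [S_v1]; exact h3.symm
  | 5, h0, h1 =>
    obtain ⟨g0, g1, h2⟩ := lev5 Y hg hg1 two hB ζ
    refine ⟨mkw 0 0 0 0 0 0 0 0 0 0 g0 g1, ?_, ?_⟩
    · apply forallC <;> first | exact fun _ => rfl | exact fun hc => absurd rfl hc
    · apply forallC <;> first | exact fun hc => absurd hc (by decide) | skip
      · intro _; rw [S_gc]; exact h2.symm
  | m + 6, h0, h1 =>
    refine ⟨fun _ => 0, fun _ _ => rfl, ?_⟩
    intro c hc
    exfalso
    revert hc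
    revert c
    apply forallC <;> (intro hc; simp [cdeg] at hc)

/-- the same with integer levels and arbitrary models of the spaces and operators
(the form of `Zig498.TF.ac_of_H`) -/
theorem ex16 {V : Cell → Type} [∀ c, AddCommGroup (V c)] [∀ c, Module K (V c)]
    (e : ∀ c, V c ≃ₗ[K] Yc Y c) (T : ∀ c c', V c' →ₗ[K] V c)
    (hT : ∀ c c', cdeg c = cdeg c' + 1 → ∀ v, e c (T c c' v) = Tc Y c c' (e c' v))
    (m : ℤ) (ζ : ∀ c, V c) (h0 : ∀ c, (cdeg c : ℤ) ≠ m → ζ c = 0)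
    (h1 : ∀ c, (cdeg c : ℤ) = m + 1 → ∑ c', T c c' (ζ c') = 0) :
    ∃ ω : ∀ c, V c, (∀ c, (cdeg c : ℤ) + 1 ≠ m → ω c = 0) ∧
      ∀ c, (cdeg c : ℤ) = m → ζ c = ∑ c', T c c' (ω c') := by
  by_cases hm : m < 0
  · refine ⟨fun _ => 0, fun _ _ => rfl, fun c hc => ?_⟩
    omega
  obtain ⟨n, rfl⟩ : ∃ n : ℕ, m = n := ⟨m.toNat, by omega⟩
  have hTc : ∀ c c', cdeg c ≠ cdeg c' + 1 → Tc Y c c' = 0 := by
    apply forallC <;> apply forallC <;>
      first
      | exact fun _ => rfl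
      | exact fun h => absurd rfl h
  have key : ∀ (k : ℕ) (x : ∀ c, V c), (∀ c, cdeg c ≠ k → x c = 0) → ∀ c, cdeg c = k + 1 →
      e c (∑ c', T c c' (x c')) = ∑ c', Tc Y c c' (e c' (x c')) := by
    intro k x hx c hc
    rw [map_sum]
    refine Finset.sum_congr rfl fun c' _ => ?_
    by_cases h : cdeg c' = k
    · exact hT c c' (by omega) _
    · rw [hx c' h, map_zero, map_zero, map_zero, map_zero]
  obtain ⟨ω, hω0, hω⟩ := exY Y hg hg1 two hB n (fun c => e c (ζ c))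
    (fun c hc => by rw [h0 c (by exact_mod_cast hc), map_zero])
    (fun c hc => by
      rw [← key n ζ (fun c h => h0 c (by exact_mod_cast h)) c hc, h1 c (by exact_mod_cast hc),
        map_zero])
  refine ⟨fun c => (e c).symm (ω c), fun c hc => ?_, fun c hc => ?_⟩
  · show (e c).symm (ω c) = 0
    rw [hω0 c (fun h => hc (by exact_mod_cast h)), map_zero]
  · have hc' : cdeg c = n := by exact_mod_cast hc
    apply (e c).injective
    by_cases hn : n = 0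
    · subst hn
      rw [hω c hc', map_sum]
      refine Finset.sum_congr rfl fun c' _ => ?_
      have h3 : ω c' = 0 := hω0 c' (by omega)
      simp only [h3, map_zero]
    · rw [key (n - 1) (fun c => (e c).symm (ω c)) (fun c h => by
        show (e c).symm (ω c) = 0
        rw [hω0 c (by omega), map_zero]) c (by omega), hω c hc']
      exact Finset.sum_congr rfl fun c' _ => by rw [LinearEquiv.apply_symm_apply]

end Crest.Agent.R186.L16
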