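import Crest.Agent.R186.FamT_462
import Crest.Agent.R186.Cells1_221
import Crest.Agent.R186.L16_595

/-!
Row 186 (A), short road of helper306 (helper462): exactness of the first page for the sixteen cells.
-/

set_option autoImplicit false
set_option linter.style.haveILetI false

namespace Crest.Agent.R186.HL462

open Hat827 Win810 Adapt186 KHev302 ConeHyp462
open Cells221 (Cell cdeg)

variable {K : Type} [Field K] {w : WD K} {E : CE w} {X : PCells w.dga} {g : K}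

/-- row of a cell -/
def pcc : Cell → ℤ
  | some (.d _) => 1
  | some (.z _) => 1
  | some (.e _) => 1
  | some (.gj _) => 1
  | _ => 2

/-- Adams position of a cell -/
def kcc : Cell → ℕ
  | none => 0
  | some (.d _) => 1
  | some .f => 1
  | some (.z _) => 2
  | some .zc => 2
  | some (.u s) => 1 + s.val
  | some (.e _) => 2
  | some (.gj _) => 3
  | some .gc => 3
  | some (.v s) => 1 + s.val + 1

/-- the constants `c_0 = g²`, `c_1 = g` -/
def cz (g : K) (j : Fin 2) : K := if j = 0 then g ^ 2 else g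

/-- the entries of degree zero -/
def tb (L : Lt E g) : Cell → Cell → E.B
  | some (.d j), none => L.d j
  | some (.z j), some (.d i) => if i = 0 then L.x j * L.d 1 else g • (L.x j * L.d 0)
  | some .zc, some (.z i) => if i = 0 then L.x 1 else L.x 0
  | some .zc, some .f => L.h
  | some (.e j), some .f => cz g j • L.d j
  | some (.gj j), some (.e i) => if i = 0 then ((cz g j)⁻¹ * g) • (L.x j * L.d 1)
      else ((cz g j)⁻¹ * g ^ 3) • (L.x j * L.d 0)
  | some .gc, some (.gj i) => if i = 0 then (cz g 1)⁻¹ • L.x 1 else (cz g 0)⁻¹ • L.x 0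
  | some (.v s), some (.u i) => if i = s then L.t + (g ^ 2)⁻¹ • L.h else 0
  | _, _ => 0

theorem Lt.xd_mem (L : Lt E g) (j i : Fin 2) : L.x j * L.d i ∈ E.pb 0 1 0 := by
  have := E.pb_mul (L.x_mem j) (L.d_mem i)
  norm_num at this
  exact this

theorem tb_mem (L : Lt E g) (c c' : Cell) :
    tb L c c' ∈ E.pb (pcc c - pcc c') ((kcc c : ℤ) - kcc c') 0 := by
  unfold tb
  split
  · exact L.d_mem _
  · split_ifs
    · exact L.xd_mem _ _
    · exact Submodule.smul_mem _ _ (L.xd_mem _ _)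
  · split_ifs
    · exact L.x_mem _
    · exact L.x_mem _
  · exact L.h_mem
  · exact Submodule.smul_mem _ _ (L.d_mem _)
  · split_ifs
    · exact Submodule.smul_mem _ _ (L.xd_mem _ _)
    · exact Submodule.smul_mem _ _ (L.xd_mem _ _)
  · split_ifs
    · exact Submodule.smul_mem _ _ (L.x_mem _)
    · exact Submodule.smul_mem _ _ (L.x_mem _)
  · rename_i s i
    split_ifs with h
    · subst h
      have := Submodule.add_mem _ L.t_mem (Submodule.smul_mem _ (g ^ 2)⁻¹ L.h_mem)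
      have e : ((kcc (some (.v i)) : ℕ) : ℤ) - (kcc (some (.u i)) : ℕ) = 1 := by
        change ((1 + i.val + 1 : ℕ) : ℤ) - ((1 + i.val : ℕ) : ℤ) = 1
        push_cast
        ring
      rw [e]
      exact this
    · exact Submodule.zero_mem _
  · exact Submodule.zero_mem _

theorem Lt.xd_D (L : Lt E g) (j i : Fin 2) : E.DB (L.x j * L.d i) = 0 := by
  rw [E.DB_mul, L.Dx, L.Dd, zero_mul, mul_zero, add_zero]

theorem tb_D (L : Lt E g) (c c' : Cell) : E.DB (tb L c c') = 0 := by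
  unfold tb
  split
  · exact L.Dd _
  · split_ifs
    · exact L.xd_D _ _
    · rw [map_smul, L.xd_D, smul_zero]
  · split_ifs
    · exact L.Dx _
    · exact L.Dx _
  · exact L.Dh
  · rw [map_smul, L.Dd, smul_zero]
  · split_ifs
    · rw [map_smul, L.xd_D, smul_zero]
    · rw [map_smul, L.xd_D, smul_zero]
  · split_ifs
    · rw [map_smul, L.Dx, smul_zero]
    · rw [map_smul, L.Dx, smul_zero]
  · split_ifs
    · exact L.th_D _
    · exact map_zero _
  · exact map_zero _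

variable (X) in
/-- homology at a cell -/
abbrev Hc (L : Lt E g) (a0 n : ℤ) (c : Cell) : Type := HT E X (pcc c) (a0 + kcc c) n

variable (X) in
/-- the operator between two cells -/
def Tc (L : Lt E g) (a0 n : ℤ) (c c' : Cell) : Hc X L a0 n c' →ₗ[K] Hc X L a0 n c :=
  op E X (tb L c c') (tb_mem L c c') (tb_D L c c') (by ring) (by ring)

theorem Tc_zero (L : Lt E g) (a0 n : ℤ) {c c' : Cell} (h : tb L c c' = 0) (y : Hc X L a0 n c') :
    Tc X L a0 n c c' y = 0 := by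
  obtain ⟨u, hu, rfl⟩ := cl_surj y
  unfold Tc
  rw [op_cl, cl_zero, h, lm_zero]
  exact Submodule.zero_mem _

variable (X) in
/-- comparison with helper595's model -/
noncomputable def eqv (L : Lt E g) (a0 n : ℤ) : ∀ c, Hc X L a0 n c ≃ₗ[K] L16.Yc (fam E X L a0 n) c
  | none => LinearEquiv.refl K (HT E X 2 (a0 + ((0 : ℕ) : ℤ)) n)
  | some (.d _) => LinearEquiv.refl K (HT E X 1 (a0 + ((1 : ℕ) : ℤ)) n)
  | some .f => LinearEquiv.refl K (HT E X 2 (a0 + ((1 : ℕ) : ℤ)) n)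
  | some (.z _) => LinearEquiv.refl K (HT E X 1 (a0 + ((2 : ℕ) : ℤ)) n)
  | some .zc => LinearEquiv.refl K (HT E X 2 (a0 + ((2 : ℕ) : ℤ)) n)
  | some (.u s) => LinearEquiv.refl K (HT E X 2 (a0 + ((1 + s.val : ℕ) : ℤ)) n)
  | some (.e _) => LinearEquiv.refl K (HT E X 1 (a0 + ((2 : ℕ) : ℤ)) n)
  | some (.gj _) => LinearEquiv.refl K (HT E X 1 (a0 + ((3 : ℕ) : ℤ)) n)
  | some .gc => LinearEquiv.refl K (HT E X 2 (a0 + ((3 : ℕ) : ℤ)) n)
  | some (.v s) => LinearEquiv.refl K (HT E X 2 (a0 + ((1 + s.val + 1 : ℕ) : ℤ)) n)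

/-- the four products `x_j d_i` -/
structure Mx (L : Lt E g) : Prop where
  m00 : L.x 0 * L.d 0 = L.h + g • (L.d 0 * L.x 0)
  m01 : L.x 0 * L.d 1 = g • (L.d 1 * L.x 0)
  m10 : L.x 1 * L.d 0 = L.d 0 * L.x 1
  m11 : L.x 1 * L.d 1 = L.h + g • (L.d 1 * L.x 1) + (g - 1) • (L.d 0 * L.x 0)

theorem m_cl (L : Lt E g) (M : Mx L) (a0 n : ℤ) (j i : Fin 2) (a : ℕ) (u : TB E X)
    (hu : u ∈ Zt E X 1 (a0 + a) n) (hu' : lm E X (L.x j * L.d i) u ∈ Zt E X 1 (a0 + (a + 1 : ℕ)) n) :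
    (fam E X L a0 n).m j i a (cl u hu) = cl (lm E X (L.x j * L.d i) u) hu' := by
  obtain rfl | rfl : j = 0 ∨ j = 1 := by fin_cases j <;> simp
  · obtain rfl | rfl : i = 0 ∨ i = 1 := by fin_cases i <;> simp
    · refine cl_congr (u := lm E X L.h u + g • lm E X (L.d 0) (lm E X (L.x 0) u)) ?_
      rw [M.m00, lm_add, lm_smul, lm_mul]
    · refine cl_congr (u := g • lm E X (L.d 1) (lm E X (L.x 0) u)) ?_
      rw [M.m01, lm_smul, lm_mul]
  · obtain rfl | rfl : i = 0 ∨ i = 1 := by fin_cases i <;> simp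
    · refine cl_congr (u := lm E X (L.d 0) (lm E X (L.x 1) u)) ?_
      rw [M.m10, lm_mul]
    · refine cl_congr (u := lm E X L.h u + g • lm E X (L.d 1) (lm E X (L.x 1) u) +
        (g - 1) • lm E X (L.d 0) (lm E X (L.x 0) u)) ?_
      rw [M.m11, lm_add, lm_add, lm_smul, lm_smul, lm_mul, lm_mul]

theorem lm_smul_Z {p a n : ℤ} {b : E.B} {u : TB E X} (r : K) (h : lm E X b u ∈ Zt E X p a n) :
    lm E X (r • b) u ∈ Zt E X p a n := by
  rw [lm_smul]
  exact Submodule.smul_mem _ r h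

theorem cl_lm_smul {p a n : ℤ} {b : E.B} {u : TB E X} (r : K) (h : lm E X b u ∈ Zt E X p a n)
    (h' : lm E X (r • b) u ∈ Zt E X p a n) :
    cl (lm E X (r • b) u) h' = r • cl (lm E X b u) h :=
  cl_congr (lm_smul E X r b u)

theorem m_Z (L : Lt E g) (a0 n : ℤ) (j i : Fin 2) (a : ℕ) (u : TB E X)
    (hu : u ∈ Zt E X 1 (a0 + a) n) : lm E X (L.x j * L.d i) u ∈ Zt E X 1 (a0 + (a + 1 : ℕ)) n :=
  lm_Z (L.xd_mem j i) (L.xd_D j i) (by norm_num) (by push_cast; ring) hu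

theorem m_cl' (L : Lt E g) (M : Mx L) (a0 n : ℤ) (r : K) (j i : Fin 2) (a : ℕ) (u : TB E X)
    (hu : u ∈ Zt E X 1 (a0 + a) n)
    (hu' : lm E X (r • (L.x j * L.d i)) u ∈ Zt E X 1 (a0 + (a + 1 : ℕ)) n) :
    cl (lm E X (r • (L.x j * L.d i)) u) hu' =
      (show HT E X 1 (a0 + (a + 1 : ℕ)) n from r • (fam E X L a0 n).m j i a (cl u hu)) := by
  have h := m_cl L M a0 n j i a u hu (m_Z L a0 n j i a u hu)
  have h2 := cl_lm_smul r (m_Z L a0 n j i a u hu) hu'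
  rw [h2, ← h]
  rfl

theorem hT (L : Lt E g) (M : Mx L) (a0 n : ℤ) : ∀ c c' : Cell, cdeg c = cdeg c' + 1 →
    ∀ v, eqv X L a0 n c (Tc X L a0 n c c' v) =
      L16.Tc (fam E X L a0 n) c c' (eqv X L a0 n c' v) := by
  have z : ∀ c c' : Cell, tb L c c' = 0 → L16.Tc (fam E X L a0 n) c c' = 0 →
      ∀ v, eqv X L a0 n c (Tc X L a0 n c c' v) =
      L16.Tc (fam E X L a0 n) c c' (eqv X L a0 n c' v) := by
    intro c c' h1 h2 v
    rw [Tc_zero L a0 n h1, h2, map_zero]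
    rfl
  apply L16.forallC <;> apply L16.forallC <;>
    first
    | exact fun h => absurd h (by decide)
    | exact fun _ => z _ _ rfl rfl
    | exact fun _ _ => rfl
    | skip
  · intro _ v
    obtain ⟨u, hu, rfl⟩ := cl_surj v
    exact (m_cl L M a0 n 0 1 1 u hu _).symm
  · intro _ v
    obtain ⟨u, hu, rfl⟩ := cl_surj v
    exact m_cl' L M a0 n g 0 0 1 u hu _
  · intro _ v
    obtain ⟨u, hu, rfl⟩ := cl_surj v
    exact (m_cl L M a0 n 1 1 1 u hu _).symm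
  · intro _ v
    obtain ⟨u, hu, rfl⟩ := cl_surj v
    exact m_cl' L M a0 n g 1 0 1 u hu _
  · intro _ v
    obtain ⟨u, hu, rfl⟩ := cl_surj v
    exact cl_lm_smul (L16.cj g 0) _ _
  · intro _ v
    obtain ⟨u, hu, rfl⟩ := cl_surj v
    exact cl_lm_smul (L16.cj g 1) _ _
  · intro _ v
    obtain ⟨u, hu, rfl⟩ := cl_surj v
    exact m_cl' L M a0 n ((L16.cj g 0)⁻¹ * g) 0 1 2 u hu _
  · intro _ v
    obtain ⟨u, hu, rfl⟩ := cl_surj v
    exact m_cl' L M a0 n ((L16.cj g 0)⁻¹ * g ^ 3) 0 0 2 u hu _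
  · intro _ v
    obtain ⟨u, hu, rfl⟩ := cl_surj v
    exact m_cl' L M a0 n ((L16.cj g 1)⁻¹ * g) 1 1 2 u hu _
  · intro _ v
    obtain ⟨u, hu, rfl⟩ := cl_surj v
    exact m_cl' L M a0 n ((L16.cj g 1)⁻¹ * g ^ 3) 1 0 2 u hu _
  · intro _ v
    obtain ⟨u, hu, rfl⟩ := cl_surj v
    exact cl_lm_smul (L16.cj g 1)⁻¹ _ _
  · intro _ v
    obtain ⟨u, hu, rfl⟩ := cl_surj v
    exact cl_lm_smul (L16.cj g 0)⁻¹ _ _
  · intro _ v
    exact (th1_eq L a0 n (g ^ 2)⁻¹ 1 v).symm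
  · intro _ v
    exact (th1_eq L a0 n (g ^ 2)⁻¹ 2 v).symm

/-- the sixteen cells inside `E` -/
structure Cel (L : Lt E g) (a0 : ℤ) where
  e : Cell ≃ E.ka
  cd_eq : ∀ c, E.cd (e c) = cdeg c
  P_eq : ∀ c, w.P (E.oc (e c)) + 1 = pcc c
  A_eq : ∀ c, w.A (E.oc (e c)) = a0 + kcc c
  tab : ∀ c c', cdeg c = cdeg c' + 1 → E.cc (e c) (e c') = tb L c c'

theorem sum_cl {ι : Type} [Fintype ι] {p a n : ℤ} (f : ι → TB E X) (h : ∀ i, f i ∈ Zt E X p a n) :
    ∑ i, cl (f i) (h i) = cl (∑ i, f i) (Submodule.sum_mem _ fun i _ => h i) := by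
  have h1 : ∀ i, cl (f i) (h i) = (Submodule.mkQ ((Bt E X p a n).comap (Zt E X p a n).subtype))
      ⟨f i, h i⟩ := fun i => rfl
  simp only [h1]
  rw [← map_sum]
  change _ = (Submodule.mkQ ((Bt E X p a n).comap (Zt E X p a n).subtype))
      ⟨∑ i, f i, Submodule.sum_mem _ fun i _ => h i⟩
  congr 1
  apply Subtype.ext
  rw [AddSubmonoidClass.coe_finsetSum]

theorem Tc_Z (L : Lt E g) (a0 n : ℤ) (c c' : Cell) {u : TB E X}
    (hu : u ∈ Zt E X (pcc c') (a0 + kcc c') n) :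
    lm E X (tb L c c') u ∈ Zt E X (pcc c) (a0 + kcc c) n :=
  lm_Z (tb_mem L c c') (tb_D L c c') (by ring) (by ring) hu

theorem Tc_cl (L : Lt E g) (a0 n : ℤ) (c c' : Cell) {u : TB E X}
    (hu : u ∈ Zt E X (pcc c') (a0 + kcc c') n) :
    Tc X L a0 n c c' (cl u hu) = cl (lm E X (tb L c c') u) (Tc_Z L a0 n c c' hu) := rfl

/-- **the first page is exact** -/
theorem E1_of {L : Lt E g} (M : Mx L) {a0 : ℤ} (C : Cel L a0) (hg : g ≠ 0) (hg1 : g ≠ 1)
    (two : (2 : K) = 0) (hB : ∀ n, L16.Bij (fam E X L a0 n)) (r n : ℤ) : (ft E X).E1 r n := by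
  intro u hu0 huG hud hsum
  have hpos : ∀ (c : Cell) (k : ℤ), Tg E X (w.P (E.oc (C.e c)) + 1) (w.A (E.oc (C.e c))) k =
      Tg E X (pcc c) (a0 + kcc c) k := fun c k => by rw [C.P_eq, C.A_eq]
  have hlv : ∀ c : Cell, (ft E X).lv (C.e c) = (cdeg c : ℤ) := fun c => by
    change ((E.cd (C.e c) : ℕ) : ℤ) = _
    rw [C.cd_eq]
  have hG : ∀ c : Cell, u (C.e c) ∈ Zt E X (pcc c) (a0 + kcc c) n := fun c => by
    refine ⟨?_, hud (C.e c)⟩
    rw [← hpos]
    exact huG (C.e c)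
  have hsumE : ∀ (c : Cell) (f : E.ka → TB E X) (q : ℤ), (cdeg c : ℤ) = q + 1 →
      (∀ c', (cdeg c' : ℤ) ≠ q → f (C.e c') = 0) →
      ∑ k, lm E X (E.cc (C.e c) k) (f k) = ∑ c', lm E X (tb L c c') (f (C.e c')) := by
    intro c f q hc hf
    rw [← Equiv.sum_comp C.e]
    refine Finset.sum_congr rfl fun c' _ => ?_
    by_cases h : (cdeg c' : ℤ) = q
    · rw [C.tab c c' (by omega)]
    · rw [hf c' h, map_zero, map_zero]
  obtain ⟨ω, hω0, hω⟩ := L16.ex16 (Y := fam E X L a0 n) hg hg1 two (hB n) (eqv X L a0 n)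
    (Tc X L a0 n) (hT L M a0 n) r (fun c => cl (u (C.e c)) (hG c)) (fun c hc => by
      have h1 : u (C.e c) = 0 := hu0 _ (by rw [hlv]; exact hc)
      rw [cl_zero, h1]
      exact Submodule.zero_mem _) (fun c hc => by
      simp only [Tc_cl]
      rw [sum_cl, cl_zero]
      obtain ⟨v, hv, hv'⟩ := hsum (C.e c) (by rw [hlv]; exact hc)
      refine ⟨v, ?_, ?_⟩
      · rw [← hpos]
        exact hv
      · rw [← hsumE c u r hc (fun c' h => hu0 _ (by rw [hlv]; exact h))]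
        exact hv'.symm)
  choose W' hW' hWc using fun c => cl_surj (ω c)
  set W : Cell → TB E X := fun c => if (cdeg c : ℤ) + 1 = r then W' c else 0 with hW
  have hWZ : ∀ c, W c ∈ Zt E X (pcc c) (a0 + kcc c) n := fun c => by
    by_cases h : (cdeg c : ℤ) + 1 = r
    · simp only [hW, if_pos h]
      exact hW' c
    · simp only [hW, if_neg h]
      exact Submodule.zero_mem _
  have hWω : ∀ c, ω c = cl (W c) (hWZ c) := fun c => by
    by_cases h : (cdeg c : ℤ) + 1 = r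
    · rw [← hWc c]
      exact cl_congr (by simp only [hW, if_pos h])
    · rw [hω0 c h]
      symm
      rw [cl_zero]
      simp only [hW, if_neg h]
      exact Submodule.zero_mem _
  refine ⟨fun k => W (C.e.symm k), fun k hk => ?_, fun k => ?_, fun k => ?_, fun k hk => ?_⟩
  · obtain ⟨c, rfl⟩ := C.e.surjective k
    rw [hlv] at hk
    simp only [Equiv.symm_apply_apply, hW]
    exact if_neg (by omega)
  · obtain ⟨c, rfl⟩ := C.e.surjective k
    simp only [Equiv.symm_apply_apply]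
    change W c ∈ Tg E X (w.P (E.oc (C.e c)) + 1) (w.A (E.oc (C.e c))) n
    rw [hpos]
    exact (hWZ c).1
  · obtain ⟨c, rfl⟩ := C.e.surjective k
    simp only [Equiv.symm_apply_apply]
    exact (hWZ c).2
  · obtain ⟨c, rfl⟩ := C.e.surjective k
    rw [hlv] at hk
    have h1 := hω c hk
    simp only [hWω, Tc_cl] at h1
    rw [sum_cl, cl_eq] at h1
    obtain ⟨v, hv, hv'⟩ := h1
    refine ⟨v, ?_, ?_⟩
    · change v ∈ Tg E X (w.P (E.oc (C.e c)) + 1) (w.A (E.oc (C.e c))) (n + 1)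
      rw [hpos]
      exact hv
    · have h2 := hsumE c (fun k => W (C.e.symm k)) (r - 1) (by omega) (fun c' h => by
        simp only [Equiv.symm_apply_apply, hW]
        exact if_neg (by omega))
      simp only [Equiv.symm_apply_apply] at h2
      change u (C.e c) = ∑ k, lm E X (E.cc (C.e c) k) (W (C.e.symm k)) + dT E X (n + 1) v
      rw [h2, hv']
      abel

/-- **`H ⊗ X` is acyclic** (field `H` of `FinD384.HIn`) -/
theorem HIn_H16 {L : Lt E g} (M : Mx L) {a0 : ℤ} (C : Cel L a0) (hg : g ≠ 0) (hg1 : g ≠ 1)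
    (two : (2 : K) = 0) (b1 : ∀ a : ℕ, a ≤ 2 → Bij E X (L.t + (g ^ 2)⁻¹ • L.h) 2 (a0 + a))
    (b0 : ∀ a : ℕ, 1 ≤ a → a ≤ 2 → Bij E X (L.t + g⁻¹ • L.h) 1 (a0 + a)) (m : ℕ)
    (y : X.ι → E.toIn.Z) (hy : ∀ σ, y σ ∈ E.toIn.gs.G ((m : ℤ) - X.s σ))
    (he : ∀ σ, E.toIn.Rr (X.e σ) (y σ) = y σ)
    (hd : ∀ τ, E.toIn.dZ (y τ) + ∑ σ ∈ X.F m, E.toIn.Rr (X.c σ τ) (y σ) = 0) :
    ∃ z : X.ι → E.toIn.Z, (∀ σ, z σ ∈ E.toIn.gs.G ((m : ℤ) + 1 - X.s σ)) ∧
      (∀ σ, E.toIn.Rr (X.e σ) (z σ) = z σ) ∧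
      ∀ τ, y τ = E.toIn.dZ (z τ) + ∑ σ ∈ X.F (m + 1), E.toIn.Rr (X.c σ τ) (z σ) :=
  HIn_H E X (E1_of M C hg hg1 two fun n =>
    { i1 := fun a ha y h => th1_inj L a0 n (b1 a ha) y h
      s1 := fun a ha y => th1_onto L a0 n (b1 a ha) y
      i0 := fun a h1 h2 y h => th0_inj L a0 n (b0 a h1 h2) y h
      s0 := fun a h1 h2 y => th0_onto L a0 n (b0 a h1 h2) y }) m y hy he hd

end Crest.Agent.R186.HL462
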