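import Crest.Agent.R186.EndA_448
import Crest.Agent.R186.EndV_448
import Crest.Agent.R186.KX_378
import Crest.Agent.R186.FinD_988

/-!
Row 186, half (A), integration (helper448): the null pair from (H), (V), (K), (D) on the concrete
objects.
-/

set_option autoImplicit false
set_option linter.style.haveILetI false
set_option linter.unusedSectionVars false

noncomputable section

open MulOpposite

namespace Crest.Agent.R186.EndB448

open Hat827 Win810 Frame515 Res255 DefsQ830 SM890 KH186 FinD384 ConeHyp462 Adapt186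
open FinV988 SemiFree515 EndA448 EndV448 FinD988

variable {K : Type} [Field K] (π : Par K) (s : ℕ) (hs : 5 ≤ s)

/-- the concrete `CE` -/
abbrev EG : CE (KHc302.WG π s (KHc302.two_le hs)) := KHc302.CEr π s hs

/-- the concrete input of the cone -/
abbrev IG : In (Gam π s hs) := (EG π s hs).toIn

theorem HmP_ev (y : (IG π s hs).Y) (z : (IG π s hs).Z) :
    (HmP π s (KHc302.two_le hs)).f ((IG π s hs).ev y z) = 0 := by
  apply Subtype.ext
  ext i j
  change (bdM π s (KHc302.two_le hs)).fst ((CE.evK (E := EG π s hs) y z).1 i j) = 0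
  rw [CE.evK_apply]
  rfl

/-- `ev` kills `V` -/
theorem evV (y : (IG π s hs).Y) (z : (IG π s hs).Z) (v : (VG π s hs).X) :
    (IG π s hs).ev y z • v = 0 := by
  change (HmP π s (KHc302.two_le hs)).f ((IG π s hs).ev y z) • (show (V2 π).X from v) = 0
  rw [HmP_ev, zero_smul]

/-- (V) -/
def PV : Prop := ∀ k : ℤ, 1 ≤ k → ExAt (tG (DR (VG π s hs)) (XL π s hs)) k

/-- (H) -/
def PH : Prop := Ac (tG (EG π s hs).Hrm (XL π s hs))

variable {π s hs}

/-- the cells with rigidity -/
def PG (hV : PV π s hs) : PCells (Gam π s hs) :=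
  pcells (VG π s hs) (deg0_VG π s hs) (XG π s hs) hV

theorem lpc_PG (hV : PV π s hs) : lpc (PG hV) = XL π s hs := rfl

/-- **(K) + (D)** on the concrete objects -/
theorem null_B (hH : PH π s hs) (hV : PV π s hs) (U : KX378.Aug (IG π s hs) (PG hV))
    (hD : ∀ (kt : (PG hV).ι → (IG π s hs).Y) (hk : ∀ σ, kt σ ∈ (IG π s hs).gr.G ((PG hV).s σ))
      (hd : KtD (IG π s hs) (PG hV) kt), (∀ σ, (IG π s hs).L ((PG hV).e σ) (kt σ) = kt σ) →
      (∀ σ, U.a (kt σ) = (PG hV).v σ) → QI (gD (IG π s hs) (PG hV) kt hk hd)) :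
    Nonempty (Spine700.Null.{0, 0} K) := by
  obtain ⟨kt, k1, k2, k3, k4, k5, k6⟩ := U.kt_KX
  have hq : QI (gD (IG π s hs) (PG hV) kt k1 k3) := hD kt k1 k3 k2 k5
  exact null_abs (EG π s hs) (VG π s hs) (deg0_VG π s hs) (XG π s hs) (evV π s hs) hV hH
    { kt := kt, kt_deg := k1, kt_e := k2, kt_d := k3, kt_ne := k4, KX := k6 }
    { D1 := D1_of (prlSelf (grM π s (KHc302.two_le hs))) k1 k2 k3 hq
      D2 := D2_of k1 k3 hq }

end Crest.Agent.R186.EndB448
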