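import Crest.Agent.R186.EndF_448
import Crest.Agent.R186.TopA_226

/-!
Row 186, half (A), tail (helper560): `EndF448.null_F` at the parameters `TopA226.par0` over
`k0 = Frac F₂[x₀, x₁, x₂]`, `s = 5`, and the five conclusions S0280, S0282 ... S0285 from the
three open literals `HM`, `PH`, `HD`.
-/

set_option autoImplicit false

open CategoryTheory Crest Crest.AlgebraR

namespace Crest.Agent.R186.EndC560

open Crest.Agent.R186 Spine700

universe u

/-- `5 ≤ 5` -/
theorem h55 : 5 ≤ 5 := le_refl 5

/-- **the three open literals at `par0`, `s = 5`** -/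
structure Open3 : Prop where
  hM : EndF448.HM TopA226.par0 5 h55
  hH : EndB448.PH TopA226.par0 5 h55
  hD : ∀ hV : EndB448.PV TopA226.par0 5 h55, EndF448.HD hV

/-- **the null pair over the ground field** -/
theorem nullA (h : Open3) : Nonempty (Spine700.Null.{0, 0} Spine700.k0) :=
  EndF448.null_F h.hM h.hH h.hD

/-- the `AR` datum over the ground field -/
theorem arA (h : Open3) : Nonempty (Close700.AR.{0, 0} Spine700.k0) :=
  Spine700.ar_of_null (nullA h)

end Crest.Agent.R186.EndC560
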