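import Crest.Agent.R186.Tw_124
import Crest.Agent.R186.ConeAlg_462

/-!
Row 186 (A), END (helper124): the map `H → Hom_Γ(X, Γ)` dualized,
`D(Γ) ⊗_Γ X → D(H)`, is a quasi-isomorphism as soon as for ONE system of right cells
`Y → D(Γ)` (quasi-isomorphism) the map `Y ⊗_Γ KK → D(H)` is one.  Everything ungraded.
-/

set_option autoImplicit false
set_option linter.unusedSectionVars false

noncomputable section

open Matrix

namespace Crest.Agent.R186.EndD124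

open Acy154 Tw124 Hat827 ConeAlg462

variable {K : Type} [Field K]

/-- left cells, all idempotents `1` -/
structure LC (A : DGA K) where
  I : Ix
  c : I.ι → I.ι → A.C
  lt : ∀ σ τ, I.s σ ≤ I.s τ → c σ τ = 0
  mc : ∀ σ τ, A.D (c σ τ) + ∑ ρ ∈ I.F (I.s σ), c σ ρ * c ρ τ = 0

/-- right cells, all idempotents `1`: `d u_κ = Σ u_m r κ m` -/
structure RC (A : DGA K) where
  I : Ix
  r : I.ι → I.ι → A.C
  lt : ∀ σ τ, I.s σ ≤ I.s τ → r σ τ = 0
  mc : ∀ σ τ, A.D (r σ τ) + ∑ ρ ∈ I.F (I.s σ), r ρ τ * r σ ρ = 0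

variable {A : DGA K}

/-- the functional `x ↦ φ (a x)` -/
def rt (φ : Module.Dual K A.C) : A.C →ₗ[K] Module.Dual K A.C := (LinearMap.mul K A.C).compr₂ φ

@[simp] theorem rt_apply (φ : Module.Dual K A.C) (a x : A.C) : rt φ a x = φ (a * x) := rfl

/-- the differential of `D(Γ)` -/
def dD (A : DGA K) : Module.Dual K A.C →ₗ[K] Module.Dual K A.C := A.D.dualMap

@[simp] theorem dD_apply (φ : Module.Dual K A.C) (x : A.C) : dD A φ x = φ (A.D x) := rfl

/-- the right action on `D(Γ)` -/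
def rD (a : A.C) : Module.Dual K A.C →ₗ[K] Module.Dual K A.C := (LinearMap.mulLeft K a).dualMap

@[simp] theorem rD_apply (a : A.C) (φ : Module.Dual K A.C) (x : A.C) : rD a φ x = φ (a * x) := rfl

theorem two' {M : Type*} [AddCommGroup M] [Module K M] (A : DGA K) [Nontrivial A.C] (x : M) :
    x + x = 0 := by
  have h : algebraMap K A.C (1 + 1) = 0 := by rw [map_add, map_one]; exact A.two 1
  have h2 : (1 + 1 : K) = 0 := (algebraMap K A.C).injective (by rw [h, map_zero])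
  have h3 : ((1 : K) + 1) • x = 0 := by rw [h2, zero_smul]
  rwa [add_smul, one_smul] at h3

theorem two_dual (φ : Module.Dual K A.C) : φ + φ = 0 := by
  ext x
  rw [LinearMap.add_apply, ← map_add, A.two, map_zero, LinearMap.zero_apply]

/-! ### the four complexes -/

variable (Y : RC A) (X : LC A)

/-- `Y ⊗ Γ` -/
abbrev dYA : (Y.I.ι →₀ A.C) →ₗ[K] (Y.I.ι →₀ A.C) :=
  tw Y.I A.D fun k l => LinearMap.mulLeft K (Y.r k l)

/-- `Γ ⊗ X` -/
abbrev dAX : (X.I.ι →₀ A.C) →ₗ[K] (X.I.ι →₀ A.C) :=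
  tw X.I A.D fun σ τ => LinearMap.mulRight K (X.c σ τ)

/-- `D(Γ) ⊗ X` -/
abbrev dDX : (X.I.ι →₀ Module.Dual K A.C) →ₗ[K] (X.I.ι →₀ Module.Dual K A.C) :=
  tw X.I (dD A) fun σ τ => rD (X.c σ τ)

/-- `Y ⊗ Γ ⊗ X`, cells of `Y` outside -/
abbrev dYX : (Y.I.ι →₀ X.I.ι →₀ A.C) →ₗ[K] (Y.I.ι →₀ X.I.ι →₀ A.C) :=
  tw Y.I (dAX X) fun k l => mp X.I (LinearMap.mulLeft K (Y.r k l))

/-- `Y ⊗ Γ ⊗ X`, cells of `X` outside -/
abbrev dXY : (X.I.ι →₀ Y.I.ι →₀ A.C) →ₗ[K] (X.I.ι →₀ Y.I.ι →₀ A.C) :=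
  tw X.I (dYA Y) fun σ τ => mp Y.I (LinearMap.mulRight K (X.c σ τ))

theorem dYA_sq (x) : dYA Y (dYA Y x) = 0 := by
  refine tw_sq A.D_D (fun σ τ h => by rw [Y.lt σ τ h, LinearMap.mulLeft_zero_eq_zero]) ?_ x
  intro σ τ x
  simp only [LinearMap.mulLeft_apply]
  rw [A.D_mul, add_assoc (A.D _ * x), A.two, add_zero]
  rw [show ∑ ρ ∈ Y.I.F (Y.I.s σ), Y.r ρ τ * (Y.r σ ρ * x) =
    (∑ ρ ∈ Y.I.F (Y.I.s σ), Y.r ρ τ * Y.r σ ρ) * x from by
      rw [Finset.sum_mul]; exact Finset.sum_congr rfl fun _ _ => (mul_assoc _ _ _).symm]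
  rw [← add_mul, Y.mc, zero_mul]

theorem dAX_sq (x) : dAX X (dAX X x) = 0 := by
  refine tw_sq A.D_D (fun σ τ h => by rw [X.lt σ τ h, LinearMap.mulRight_zero_eq_zero]) ?_ x
  intro σ τ x
  simp only [LinearMap.mulRight_apply]
  have h0 : A.D (x * X.c σ τ) + A.D x * X.c σ τ = x * A.D (X.c σ τ) := by
    rw [A.D_mul, add_comm (A.D x * X.c σ τ), add_assoc, A.two, add_zero]
  rw [h0]
  rw [show ∑ ρ ∈ X.I.F (X.I.s σ), x * X.c σ ρ * X.c ρ τ =
    x * (∑ ρ ∈ X.I.F (X.I.s σ), X.c σ ρ * X.c ρ τ) from by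
      rw [Finset.mul_sum]; exact Finset.sum_congr rfl fun _ _ => (mul_assoc _ _ _)]
  rw [← mul_add, X.mc, mul_zero]

theorem dDX_sq (x) : dDX X (dDX X x) = 0 := by
  refine tw_sq (fun φ => ?_) (fun σ τ h => ?_) ?_ x
  · ext x
    rw [dD_apply, dD_apply, A.D_D, map_zero, LinearMap.zero_apply]
  · ext φ x
    rw [rD_apply, X.lt σ τ h, zero_mul, map_zero]
    rfl
  · intro σ τ φ
    ext x
    simp only [LinearMap.add_apply, dD_apply, rD_apply, LinearMap.sum_apply,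
      LinearMap.zero_apply, A.D_mul, map_add]
    rw [← map_sum, add_comm (φ (A.D _ * x)), ← add_assoc (φ (X.c σ τ * A.D x)), ← map_add,
      A.two, map_zero, zero_add, ← map_add]
    rw [show ∑ ρ ∈ X.I.F (X.I.s σ), X.c σ ρ * (X.c ρ τ * x) =
      (∑ ρ ∈ X.I.F (X.I.s σ), X.c σ ρ * X.c ρ τ) * x from by
        rw [Finset.sum_mul]; exact Finset.sum_congr rfl fun _ _ => (mul_assoc _ _ _).symm]
    rw [← add_mul, X.mc, zero_mul, map_zero]

theorem dYX_sq (x) : dYX Y X (dYX Y X x) = 0 := by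
  refine tw_sq (dAX_sq X) (fun σ τ h => ?_) ?_ x
  · rw [Y.lt σ τ h]
    refine Finsupp.lhom_ext fun α p => ?_
    rw [mp_single]
    simp
  · intro σ τ x
    have h := ext_single X.I (f := dAX X ∘ₗ mp X.I (LinearMap.mulLeft K (Y.r σ τ)) +
      mp X.I (LinearMap.mulLeft K (Y.r σ τ)) ∘ₗ dAX X +
      ∑ ρ ∈ Y.I.F (Y.I.s σ), mp X.I (LinearMap.mulLeft K (Y.r ρ τ)) ∘ₗ
        mp X.I (LinearMap.mulLeft K (Y.r σ ρ))) (g := 0) (fun α p => by
      simp only [LinearMap.add_apply, LinearMap.comp_apply, LinearMap.sum_apply, mp_single,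
        tw_single, map_add, map_sum, LinearMap.mulLeft_apply, LinearMap.mulRight_apply,
        LinearMap.zero_apply, A.D_mul, mul_assoc, Finsupp.single_add]
      have h1 : ∑ ρ ∈ Y.I.F (Y.I.s σ), (Finsupp.single α (Y.r ρ τ * (Y.r σ ρ * p)) :
          X.I.ι →₀ A.C) = Finsupp.single α (A.D (Y.r σ τ) * p) := by
        have h2 := Y.mc σ τ
        have h3 : ∑ ρ ∈ Y.I.F (Y.I.s σ), Y.r ρ τ * Y.r σ ρ = A.D (Y.r σ τ) :=
          (add_right_inj (A.D (Y.r σ τ))).1 (by rw [h2, A.two])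
        rw [← h3, Finset.sum_mul]
        simp only [mul_assoc]
        exact (map_sum (Finsupp.lsingle α : A.C →ₗ[K] X.I.ι →₀ A.C) _ _).symm
      rw [h1]
      have t1 : ∀ y : X.I.ι →₀ A.C, y + y = 0 := fun y => by
        ext i; rw [Finsupp.add_apply, A.two]; rfl
      generalize (Finsupp.single α (A.D (Y.r σ τ) * p) : X.I.ι →₀ A.C) = a
      generalize (Finsupp.single α (Y.r σ τ * A.D p) : X.I.ι →₀ A.C) = b
      generalize ∑ x ∈ X.I.F (X.I.s α), (Finsupp.single x (Y.r σ τ * (p * X.c α x)) :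
        X.I.ι →₀ A.C) = c
      calc a + b + c + (b + c) + a = (a + a) + (b + b) + (c + c) := by abel
        _ = 0 := by rw [t1 a, t1 b, t1 c, add_zero, add_zero]) x
    simpa [LinearMap.sum_apply] using h

/-! ### exchanging the two sums -/

/-- `Y ⊗ (Γ ⊗ X) = (Y ⊗ Γ) ⊗ X` -/
def sw : (Y.I.ι →₀ X.I.ι →₀ A.C) ≃ₗ[K] (X.I.ι →₀ Y.I.ι →₀ A.C) :=
  (Finsupp.curryLinearEquiv K).symm ≪≫ₗ
    Finsupp.domLCongr (Equiv.prodComm _ _) ≪≫ₗ Finsupp.curryLinearEquiv K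

@[simp] theorem sw_single (k : Y.I.ι) (σ : X.I.ι) (a : A.C) :
    sw Y X (Finsupp.single k (Finsupp.single σ a)) = Finsupp.single σ (Finsupp.single k a) := by
  simp [sw]

theorem dXY_single (k : Y.I.ι) (σ : X.I.ι) (a : A.C) :
    dXY Y X (sw Y X (Finsupp.single k (Finsupp.single σ a))) =
      sw Y X (dYX Y X (Finsupp.single k (Finsupp.single σ a))) := by
  rw [sw_single, tw_single, tw_single, tw_single, tw_single, map_add, map_sum]
  have h1 : sw Y X (Finsupp.single k (Finsupp.single σ (A.D a) +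
      ∑ τ ∈ X.I.F (X.I.s σ), Finsupp.single τ (LinearMap.mulRight K (X.c σ τ) a))) =
      Finsupp.single σ (Finsupp.single k (A.D a)) +
      ∑ τ ∈ X.I.F (X.I.s σ), Finsupp.single τ (Finsupp.single k (a * X.c σ τ)) := by
    rw [Finsupp.single_add, map_add, sw_single]
    congr 1
    have h2 : (Finsupp.single k (∑ τ ∈ X.I.F (X.I.s σ),
        Finsupp.single τ (LinearMap.mulRight K (X.c σ τ) a)) : Y.I.ι →₀ X.I.ι →₀ A.C) =
        ∑ τ ∈ X.I.F (X.I.s σ), Finsupp.single k (Finsupp.single τ (a * X.c σ τ)) :=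
      map_sum (Finsupp.lsingle k : (X.I.ι →₀ A.C) →ₗ[K] Y.I.ι →₀ X.I.ι →₀ A.C) _ _
    rw [h2, map_sum]
    exact Finset.sum_congr rfl fun τ _ => sw_single Y X k τ _
  rw [h1]
  have h3 : ∀ l, sw Y X (Finsupp.single l (mp X.I (LinearMap.mulLeft K (Y.r k l))
      (Finsupp.single σ a))) = Finsupp.single σ (Finsupp.single l (Y.r k l * a)) := by
    intro l
    rw [mp_single, LinearMap.mulLeft_apply, sw_single]
  rw [Finset.sum_congr rfl fun l _ => h3 l]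
  have h4 : (Finsupp.single σ (Finsupp.single k (A.D a) +
      ∑ l ∈ Y.I.F (Y.I.s k), Finsupp.single l (LinearMap.mulLeft K (Y.r k l) a)) :
        X.I.ι →₀ Y.I.ι →₀ A.C) = Finsupp.single σ (Finsupp.single k (A.D a)) +
      ∑ l ∈ Y.I.F (Y.I.s k), Finsupp.single σ (Finsupp.single l (Y.r k l * a)) := by
    rw [Finsupp.single_add]
    congr 1
    exact map_sum (Finsupp.lsingle σ : (Y.I.ι →₀ A.C) →ₗ[K] X.I.ι →₀ Y.I.ι →₀ A.C) _ _
  rw [h4]
  have h5 : ∀ τ, (Finsupp.single τ (mp Y.I (LinearMap.mulRight K (X.c σ τ))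
      (Finsupp.single k a)) : X.I.ι →₀ Y.I.ι →₀ A.C) =
      Finsupp.single τ (Finsupp.single k (a * X.c σ τ)) := by
    intro τ
    rw [mp_single, LinearMap.mulRight_apply]
  rw [Finset.sum_congr rfl fun τ _ => h5 τ]
  abel

theorem ext2 {Q : Type*} [AddCommGroup Q] [Module K Q]
    {f g : (Y.I.ι →₀ X.I.ι →₀ A.C) →ₗ[K] Q}
    (h : ∀ k σ a, f (Finsupp.single k (Finsupp.single σ a)) =
      g (Finsupp.single k (Finsupp.single σ a))) (x : Y.I.ι →₀ X.I.ι →₀ A.C) : f x = g x := by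
  refine ext_single Y.I (f := f) (g := g) (fun k y => ?_) x
  exact ext_single X.I (f := f ∘ₗ Finsupp.lsingle k) (g := g ∘ₗ Finsupp.lsingle k)
    (fun σ a => h k σ a) y

theorem sw_chain (x) : dXY Y X (sw Y X x) = sw Y X (dYX Y X x) :=
  ext2 Y X (Q := X.I.ι →₀ Y.I.ι →₀ A.C) (f := dXY Y X ∘ₗ (sw Y X).toLinearMap)
    (g := (sw Y X).toLinearMap ∘ₗ dYX Y X) (fun k σ a => dXY_single Y X k σ a) x

theorem dXY_sq (x) : dXY Y X (dXY Y X x) = 0 := by
  obtain ⟨y, rfl⟩ := (sw Y X).surjective x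
  rw [sw_chain, sw_chain, dYX_sq, map_zero]

/-! ### right cells over `D(Γ)` -/

/-- the map `Y → D(Γ)` given by values on the cells -/
def res (φ : Y.I.ι → Module.Dual K A.C) : (Y.I.ι →₀ A.C) →ₗ[K] Module.Dual K A.C :=
  Finsupp.lsum K fun k => rt (φ k)

@[simp] theorem res_single (φ : Y.I.ι → Module.Dual K A.C) (k : Y.I.ι) (a : A.C) :
    res Y φ (Finsupp.single k a) = rt (φ k) a := by simp [res]

/-- `φ` is compatible with the differentials -/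
def Cp (φ : Y.I.ι → Module.Dual K A.C) : Prop :=
  ∀ k x, φ k (A.D x) = ∑ l ∈ Y.I.F (Y.I.s k), φ l (Y.r k l * x)

variable {Y}

theorem res_chain {φ : Y.I.ι → Module.Dual K A.C} (h : Cp Y φ) (x) :
    dD A (res Y φ x) = res Y φ (dYA Y x) := by
  refine ext_single Y.I (f := dD A ∘ₗ res Y φ) (g := res Y φ ∘ₗ dYA Y) (fun k a => ?_) x
  ext y
  rw [LinearMap.comp_apply, LinearMap.comp_apply, res_single, tw_single, map_add, map_sum,
    res_single, dD_apply, rt_apply, LinearMap.add_apply, LinearMap.sum_apply, rt_apply]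
  have h1 := h k (a * y)
  rw [A.D_mul, map_add] at h1
  have h2 : ∑ l ∈ Y.I.F (Y.I.s k), (res Y φ (Finsupp.single l
      (LinearMap.mulLeft K (Y.r k l) a))) y = ∑ l ∈ Y.I.F (Y.I.s k), φ l (Y.r k l * (a * y)) :=
    Finset.sum_congr rfl fun l _ => by
      rw [res_single, rt_apply, LinearMap.mulLeft_apply, mul_assoc]
  rw [h2, ← h1, ← add_assoc, ← map_add, A.two, map_zero, zero_add]

variable (Y) in
/-- `Y ⊗ Γ ⊗ X → D(Γ) ⊗ X` -/
def f1 (φ : Y.I.ι → Module.Dual K A.C) :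
    (Y.I.ι →₀ X.I.ι →₀ A.C) →ₗ[K] (X.I.ι →₀ Module.Dual K A.C) :=
  mp X.I (res Y φ) ∘ₗ (sw Y X).toLinearMap

@[simp] theorem f1_single (φ : Y.I.ι → Module.Dual K A.C) (k : Y.I.ι) (σ : X.I.ι) (a : A.C) :
    f1 Y X φ (Finsupp.single k (Finsupp.single σ a)) = Finsupp.single σ (rt (φ k) a) := by
  rw [f1, LinearMap.comp_apply, LinearEquiv.coe_coe, sw_single, mp_single, res_single]

theorem mulRight_chain {φ : Y.I.ι → Module.Dual K A.C} (c : A.C) (x : Y.I.ι →₀ A.C) :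
    rD c (res Y φ x) = res Y φ (mp Y.I (LinearMap.mulRight K c) x) := by
  refine ext_single Y.I (f := rD c ∘ₗ res Y φ)
    (g := res Y φ ∘ₗ mp Y.I (LinearMap.mulRight K c)) (fun k a => ?_) x
  ext y
  rw [LinearMap.comp_apply, LinearMap.comp_apply, res_single, mp_single, res_single, rD_apply,
    rt_apply, rt_apply, LinearMap.mulRight_apply, mul_assoc]

theorem f1_qi {φ : Y.I.ι → Module.Dual K A.C} (h : Cp Y φ) (hq : QI (dYA Y) (dD A) (res Y φ)) :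
    QI (M := Y.I.ι →₀ X.I.ι →₀ A.C) (N := X.I.ι →₀ Module.Dual K A.C) (dYX Y X) (dDX X)
      (f1 Y X φ) := by
  have h1 : QI (M := X.I.ι →₀ Y.I.ι →₀ A.C) (N := X.I.ι →₀ Module.Dual K A.C) (dXY Y X)
      (dDX X) (mp X.I (res Y φ)) := by
    refine tw_qi (dYA_sq Y) (fun φ => ?_) (fun σ τ hs => ?_) (fun σ τ hs => ?_) (dXY_sq Y X)
      (dDX_sq X) (res_chain h) (fun σ τ x => mulRight_chain (X.c σ τ) x) hq
    · ext x
      rw [dD_apply, dD_apply, A.D_D, map_zero, LinearMap.zero_apply]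
    · rw [X.lt σ τ hs]
      refine Finsupp.lhom_ext fun α p => ?_
      rw [mp_single]
      simp
    · ext φ x
      rw [rD_apply, X.lt σ τ hs, zero_mul, map_zero]
      rfl
  have h0 : QI (M := Y.I.ι →₀ X.I.ι →₀ A.C) (N := X.I.ι →₀ Y.I.ι →₀ A.C) (dYX Y X) (dXY Y X)
      (sw Y X).toLinearMap :=
    qi_equiv (M := Y.I.ι →₀ X.I.ι →₀ A.C) (N := X.I.ι →₀ Y.I.ι →₀ A.C) (sw Y X) (sw_chain Y X)
  exact qi_comp (M := Y.I.ι →₀ X.I.ι →₀ A.C) (N := X.I.ι →₀ Y.I.ι →₀ A.C)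
    (P := X.I.ι →₀ Module.Dual K A.C) (sw_chain Y X)
    (tw_map (res_chain h) fun σ τ x => mulRight_chain (X.c σ τ) x) h0 h1

theorem f1_chain {φ : Y.I.ι → Module.Dual K A.C} (h : Cp Y φ) (x) :
    dDX X (f1 Y X φ x) = f1 Y X φ (dYX Y X x) := by
  show dDX X (mp X.I (res Y φ) (sw Y X x)) = mp X.I (res Y φ) (sw Y X (dYX Y X x))
  rw [← sw_chain]
  exact tw_map (res_chain h) (fun σ τ x => mulRight_chain (X.c σ τ) x) _

/-! ### the module `KK`, the map `kt` and the map to `D(H)` -/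

section data

variable (S : Data A)

/-- differential of `KK` -/
def dKK : (S.β → K) →ₗ[K] (S.β → K) := S.δ.mulVecLin

@[simp] theorem dKK_apply (k : S.β → K) : dKK S k = S.δ *ᵥ k := rfl

/-- action on `KK` -/
def aKK (a : A.C) : (S.β → K) →ₗ[K] (S.β → K) := (S.ρ a).mulVecLin

@[simp] theorem aKK_apply (a : A.C) (k : S.β → K) : aKK S a k = S.ρ a *ᵥ k := rfl

/-- differential of `H` -/
def dH : (S.γ → K) →ₗ[K] (S.γ → K) := S.ε.vecMulLinear

@[simp] theorem dH_apply (k : S.γ → K) : dH S k = k ᵥ* S.ε := rfl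

/-- `D(H)` -/
abbrev dDH : Module.Dual K (S.γ → K) →ₗ[K] Module.Dual K (S.γ → K) := (dH S).dualMap

/-- `Y ⊗ KK` -/
abbrev dYK (Y : RC A) : (Y.I.ι →₀ S.β → K) →ₗ[K] (Y.I.ι →₀ S.β → K) :=
  tw Y.I (dKK S) fun k l => aKK S (Y.r k l)

theorem dKK_sq (k) : dKK S (dKK S k) = 0 := by
  rw [dKK_apply, dKK_apply, Matrix.mulVec_mulVec, S.δδ, Matrix.zero_mulVec]

theorem dKK_a (a : A.C) (k : S.β → K) :
    dKK S (aKK S a k) + aKK S a (dKK S k) = aKK S (A.D a) k := by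
  simp only [dKK_apply, aKK_apply, Matrix.mulVec_mulVec]
  rw [← Matrix.add_mulVec, S.ρ_D]

theorem two_KK (k : S.β → K) : k + k = 0 := by
  have h := congrArg (fun a => S.ρ a *ᵥ k) (A.two 1)
  simpa [Matrix.add_mulVec] using h

variable (Y) in
theorem dYK_sq (x) : dYK S Y (dYK S Y x) = 0 := by
  refine tw_sq (dKK_sq S) (fun σ τ h => ?_) ?_ x
  · ext1
    rw [Y.lt σ τ h]
    simp [aKK]
  · intro σ τ k
    rw [dKK_a]
    have h1 : ∑ ρ ∈ Y.I.F (Y.I.s σ), aKK S (Y.r ρ τ) (aKK S (Y.r σ ρ) k) =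
        aKK S (∑ ρ ∈ Y.I.F (Y.I.s σ), Y.r ρ τ * Y.r σ ρ) k := by
      simp only [aKK_apply, Matrix.mulVec_mulVec, ← map_mul, map_sum]
      rw [Matrix.sum_mulVec]
    rw [h1]
    simp only [aKK_apply]
    rw [← Matrix.add_mulVec, ← map_add, Y.mc, map_zero, Matrix.zero_mulVec]

/-- the map `X → KK` given by its values on the cells -/
def gX (kt : X.I.ι → S.β → K) : (X.I.ι →₀ A.C) →ₗ[K] (S.β → K) :=
  Finsupp.lsum K fun σ =>
    { toFun := fun a => S.ρ a *ᵥ kt σ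
      map_add' := fun a b => by rw [map_add, Matrix.add_mulVec]
      map_smul' := fun r a => by rw [map_smul, Matrix.smul_mulVec, RingHom.id_apply] }

@[simp] theorem gX_single (kt : X.I.ι → S.β → K) (σ : X.I.ι) (a : A.C) :
    gX X S kt (Finsupp.single σ a) = S.ρ a *ᵥ kt σ := by simp [gX]

/-- `kt` is a cocycle -/
def Ck (kt : X.I.ι → S.β → K) : Prop :=
  ∀ σ, S.δ *ᵥ kt σ + ∑ τ ∈ X.I.F (X.I.s σ), S.ρ (X.c σ τ) *ᵥ kt τ = 0

variable {S}

theorem gX_chain {kt : X.I.ι → S.β → K} (h : Ck X S kt) (x) :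
    dKK S (gX X S kt x) = gX X S kt (dAX X x) := by
  refine ext_single X.I (f := dKK S ∘ₗ gX X S kt) (g := gX X S kt ∘ₗ dAX X) (fun σ a => ?_) x
  rw [LinearMap.comp_apply, LinearMap.comp_apply, gX_single, tw_single, map_add, map_sum,
    gX_single, dKK_apply]
  have h1 : ∑ τ ∈ X.I.F (X.I.s σ), gX X S kt (Finsupp.single τ
      (LinearMap.mulRight K (X.c σ τ) a)) =
      S.ρ a *ᵥ (∑ τ ∈ X.I.F (X.I.s σ), S.ρ (X.c σ τ) *ᵥ kt τ) := by
    rw [Matrix.mulVec_sum]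
    refine Finset.sum_congr rfl fun τ _ => ?_
    rw [gX_single, LinearMap.mulRight_apply, map_mul, Matrix.mulVec_mulVec]
  have h2 : ∑ τ ∈ X.I.F (X.I.s σ), S.ρ (X.c σ τ) *ᵥ kt τ = S.δ *ᵥ kt σ :=
    (add_right_inj (S.δ *ᵥ kt σ)).1 (by rw [h σ, two_KK])
  rw [h1, h2, S.ρ_D, Matrix.add_mulVec, Matrix.mulVec_mulVec, Matrix.mulVec_mulVec, add_assoc,
    two_KK, add_zero]

theorem g_act (kt : X.I.ι → S.β → K) (a : A.C) (x : X.I.ι →₀ A.C) :
    aKK S a (gX X S kt x) = gX X S kt (mp X.I (LinearMap.mulLeft K a) x) := by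
  refine ext_single X.I (f := aKK S a ∘ₗ gX X S kt)
    (g := gX X S kt ∘ₗ mp X.I (LinearMap.mulLeft K a)) (fun σ b => ?_) x
  rw [LinearMap.comp_apply, LinearMap.comp_apply, gX_single, mp_single, gX_single, aKK_apply,
    LinearMap.mulLeft_apply, map_mul, Matrix.mulVec_mulVec]

variable (Y) in
theorem f2_qi {kt : X.I.ι → S.β → K} (h : Ck X S kt) (hq : QI (dAX X) (dKK S) (gX X S kt)) :
    QI (M := Y.I.ι →₀ X.I.ι →₀ A.C) (N := Y.I.ι →₀ S.β → K) (dYX Y X) (dYK S Y)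
      (mp Y.I (gX X S kt)) := by
  refine tw_qi (dAX_sq X) (dKK_sq S) (fun σ τ hs => ?_) (fun σ τ hs => ?_) (dYX_sq Y X)
    (dYK_sq Y S) (gX_chain X h) (fun σ τ x => g_act X kt (Y.r σ τ) x) hq
  · rw [Y.lt σ τ hs]
    refine Finsupp.lhom_ext fun α p => ?_
    rw [mp_single]
    simp
  · ext1
    rw [Y.lt σ τ hs]
    simp [aKK]

variable (S) in
/-- `η ↦ ev (k ⊗ η)` -/
def evm (k : S.β → K) : (S.γ → K) →ₗ[K] A.C where
  toFun η := S.ev (vecMulVec k η)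
  map_add' a b := by rw [Matrix.vecMulVec_add, map_add]
  map_smul' r a := by rw [Matrix.vecMulVec_smul, map_smul, RingHom.id_apply]

@[simp] theorem evm_apply (k : S.β → K) (η : S.γ → K) : evm S k η = S.ev (vecMulVec k η) := rfl

variable (S) in
/-- `k ↦ (η ↦ φ (ev (k ⊗ η)))` -/
def evb (φ : Module.Dual K A.C) : (S.β → K) →ₗ[K] Module.Dual K (S.γ → K) where
  toFun k := φ ∘ₗ evm S k
  map_add' a b := LinearMap.ext fun η => by
    simp [Matrix.add_vecMulVec]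
  map_smul' r a := LinearMap.ext fun η => by
    simp [Matrix.smul_vecMulVec]

@[simp] theorem evb_apply (φ : Module.Dual K A.C) (k : S.β → K) (η : S.γ → K) :
    evb S φ k η = φ (S.ev (vecMulVec k η)) := rfl

variable (S Y) in
/-- `Y ⊗ KK → D(H)` -/
def bt (φ : Y.I.ι → Module.Dual K A.C) : (Y.I.ι →₀ S.β → K) →ₗ[K] Module.Dual K (S.γ → K) :=
  Finsupp.lsum K fun k => evb S (φ k)

@[simp] theorem bt_single (φ : Y.I.ι → Module.Dual K A.C) (k : Y.I.ι) (x : S.β → K) :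
    bt Y S φ (Finsupp.single k x) = evb S (φ k) x := by simp [bt]

variable (S) in
/-- `D(Γ) ⊗ X → D(H)` -/
def ds (kt : X.I.ι → S.β → K) :
    (X.I.ι →₀ Module.Dual K A.C) →ₗ[K] Module.Dual K (S.γ → K) :=
  Finsupp.lsum K fun σ => (evm S (kt σ)).dualMap

@[simp] theorem ds_single (kt : X.I.ι → S.β → K) (σ : X.I.ι) (ψ : Module.Dual K A.C) :
    ds X S kt (Finsupp.single σ ψ) = (evm S (kt σ)).dualMap ψ := by simp [ds]

theorem ev_D' (k : S.β → K) (η : S.γ → K) :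
    A.D (S.ev (vecMulVec k η)) + S.ev (vecMulVec (S.δ *ᵥ k) η) =
      S.ev (vecMulVec k (η ᵥ* S.ε)) := by
  have h1 : S.δ * vecMulVec k η = vecMulVec (S.δ *ᵥ k) η := by
    rw [Matrix.mul_vecMulVec]
  have h2 : vecMulVec k η * S.ε = vecMulVec k (η ᵥ* S.ε) := by
    rw [Matrix.vecMulVec_mul]
  rw [S.ev_D, h1, h2, map_add, add_right_comm, A.two, zero_add]

theorem ev_a (a : A.C) (k : S.β → K) (η : S.γ → K) :
    S.ev (vecMulVec (S.ρ a *ᵥ k) η) = a * S.ev (vecMulVec k η) := by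
  rw [← S.ev_l, Matrix.mul_vecMulVec]

theorem bt_chain {φ : Y.I.ι → Module.Dual K A.C} (h : Cp Y φ) (x) :
    dDH S (bt Y S φ x) = bt Y S φ (dYK S Y x) := by
  refine ext_single Y.I (f := dDH S ∘ₗ bt Y S φ) (g := bt Y S φ ∘ₗ dYK S Y) (fun k x => ?_) x
  refine LinearMap.ext fun η => ?_
  rw [LinearMap.comp_apply, LinearMap.comp_apply, bt_single, tw_single, map_add, map_sum,
    bt_single, LinearMap.dualMap_apply, evb_apply, dH_apply, LinearMap.add_apply,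
    LinearMap.sum_apply, evb_apply, dKK_apply, ← ev_D', map_add, h k, add_comm]
  congr 1
  refine Finset.sum_congr rfl fun l _ => ?_
  rw [bt_single, evb_apply, aKK_apply, ev_a]

theorem ds_chain {kt : X.I.ι → S.β → K} (h : Ck X S kt) (x) :
    dDH S (ds X S kt x) = ds X S kt (dDX X x) := by
  refine ext_single X.I (f := dDH S ∘ₗ ds X S kt) (g := ds X S kt ∘ₗ dDX X) (fun σ ψ => ?_) x
  refine LinearMap.ext fun η => ?_
  rw [LinearMap.comp_apply, LinearMap.comp_apply, ds_single, tw_single, map_add, map_sum,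
    ds_single, LinearMap.dualMap_apply, LinearMap.dualMap_apply, dH_apply, LinearMap.add_apply,
    LinearMap.sum_apply, LinearMap.dualMap_apply, dD_apply, evm_apply, evm_apply, ← ev_D',
    map_add]
  congr 1
  have h2 : S.δ *ᵥ kt σ = ∑ τ ∈ X.I.F (X.I.s σ), S.ρ (X.c σ τ) *ᵥ kt τ := by
    have h3 := h σ
    exact ((add_right_inj (S.δ *ᵥ kt σ)).1 (by rw [h3, two_KK])).symm
  have h4 : S.ev (vecMulVec (S.δ *ᵥ kt σ) η) =
      ∑ τ ∈ X.I.F (X.I.s σ), X.c σ τ * S.ev (vecMulVec (kt τ) η) := by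
    rw [h2]
    have h5 : vecMulVec (∑ τ ∈ X.I.F (X.I.s σ), S.ρ (X.c σ τ) *ᵥ kt τ) η =
        ∑ τ ∈ X.I.F (X.I.s σ), vecMulVec (S.ρ (X.c σ τ) *ᵥ kt τ) η := by
      ext i j
      simp [Matrix.vecMulVec_apply, Finset.sum_mul, Matrix.sum_apply]
    rw [h5, map_sum]
    exact Finset.sum_congr rfl fun τ _ => ev_a _ _ _
  rw [h4, map_sum]
  refine Finset.sum_congr rfl fun τ _ => ?_
  rw [ds_single, LinearMap.dualMap_apply, rD_apply, evm_apply]

/-- the triangle -/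
theorem tri (φ : Y.I.ι → Module.Dual K A.C) (kt : X.I.ι → S.β → K)
    (x : Y.I.ι →₀ X.I.ι →₀ A.C) :
    ds X S kt (f1 Y X φ x) = bt Y S φ (mp Y.I (gX X S kt) x) := by
  refine ext2 Y X (Q := Module.Dual K (S.γ → K)) (f := ds X S kt ∘ₗ f1 Y X φ)
    (g := bt Y S φ ∘ₗ mp Y.I (gX X S kt)) (fun k σ a => ?_) x
  refine LinearMap.ext fun η => ?_
  rw [LinearMap.comp_apply, LinearMap.comp_apply, f1_single, ds_single, mp_single, bt_single,
    gX_single, LinearMap.dualMap_apply, rt_apply, evb_apply, evm_apply, ev_a]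

/-- **the dual of `H → Hom_Γ(X, Γ)` is a quasi-isomorphism** -/
theorem ds_qi {φ : Y.I.ι → Module.Dual K A.C} {kt : X.I.ι → S.β → K} (hφ : Cp Y φ)
    (hk : Ck X S kt) (q1 : QI (dYA Y) (dD A) (res Y φ)) (q2 : QI (dAX X) (dKK S) (gX X S kt))
    (q3 : QI (M := Y.I.ι →₀ S.β → K) (N := Module.Dual K (S.γ → K)) (dYK S Y) (dDH S)
      (bt Y S φ)) :
    QI (M := X.I.ι →₀ Module.Dual K A.C) (N := Module.Dual K (S.γ → K)) (dDX X) (dDH S)
      (ds X S kt) := by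
  refine qi_of_comp_left (M := Y.I.ι →₀ X.I.ι →₀ A.C) (N := X.I.ι →₀ Module.Dual K A.C)
    (f := f1 Y X φ) (g := ds X S kt) (f1_chain X hφ) (ds_chain X hk) (f1_qi X hφ q1) ?_
  have h1 : QI (M := Y.I.ι →₀ X.I.ι →₀ A.C) (N := Module.Dual K (S.γ → K)) (dYX Y X) (dDH S)
      (bt Y S φ ∘ₗ mp Y.I (gX X S kt)) :=
    qi_comp (M := Y.I.ι →₀ X.I.ι →₀ A.C) (N := Y.I.ι →₀ S.β → K)
      (P := Module.Dual K (S.γ → K))
      (tw_map (gX_chain X hk) fun σ τ x => g_act X kt (Y.r σ τ) x) (bt_chain hφ)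
      (f2_qi Y X hk q2) q3
  have h2 : ds X S kt ∘ₗ f1 Y X φ = bt Y S φ ∘ₗ mp Y.I (gX X S kt) :=
    LinearMap.ext fun x => tri X φ kt x
  rw [h2]
  exact h1

end data

end Crest.Agent.R186.EndD124
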