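import Crest.Agent.R186.EndD_124
import Crest.Agent.R186.ConeCells_384

/-!
Row 186 (A), END (helper124): the fields `D1`, `D2` of `ConeCells384.JHyp` from the dual
quasi-isomorphism `D(Γ) ⊗ X → D(H)`.
-/

set_option autoImplicit false
set_option linter.unusedSectionVars false

noncomputable section

open Matrix

namespace Crest.Agent.R186.EndD124

open Acy154 Tw124 Hat827 ConeAlg462

/-! ### duality of quasi-isomorphisms -/

section dual

variable {K : Type*} [Field K] {M N : Type*} [AddCommGroup M] [Module K M] [AddCommGroup N]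
  [Module K N] {dM : M →ₗ[K] M} {dN : N →ₗ[K] N} {f : M →ₗ[K] N}

theorem cone_fun (hM : ∀ x, dM (dM x) = 0) (hN : ∀ x, dN (dN x) = 0)
    (cf : ∀ x, dN (f x) = f (dM x)) (hq : QI dM dN f) (α : Module.Dual K M)
    (β : Module.Dual K N) (h1 : ∀ n, β (dN n) = 0) (h2 : ∀ m, β (f m) = α (dM m)) :
    ∃ (α' : Module.Dual K M) (β' : Module.Dual K N), (∀ m, α m = β' (f m) + α' (dM m)) ∧
      ∀ n, β n = β' (dN n) := by
  obtain ⟨h, hh⟩ := exists_contraction (coneD_sq hM hN cf) (cone_of_qi hq cf)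
  let Λ : (M × N) →ₗ[K] K := α.coprod β
  have hz : ∀ x, Λ (coneD dM dN f x) = 0 := by
    intro x
    rw [coneD_apply]
    show α (-dM x.1) + β (f x.1 + dN x.2) = 0
    rw [map_neg, map_add, h1, h2, add_zero, neg_add_cancel]
  have hL : ∀ x, Λ x = Λ (h (coneD dM dN f x)) := by
    intro x
    conv_lhs => rw [← hh x]
    rw [map_add, hz, zero_add]
  refine ⟨-(Λ ∘ₗ h ∘ₗ LinearMap.inl K M N), Λ ∘ₗ h ∘ₗ LinearMap.inr K M N, fun m => ?_,
    fun n => ?_⟩
  · have := hL (m, 0)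
    rw [coneD_apply] at this
    have e1 : Λ (m, 0) = α m := by
      show α m + β 0 = α m
      rw [map_zero, add_zero]
    rw [← e1, this]
    show Λ (h (-dM m, f m + dN 0)) = Λ (h (0, f m)) + -(Λ (h (dM m, 0)))
    rw [map_zero, add_zero, ← sub_eq_add_neg, ← map_sub, ← map_sub]
    congr 2
    ext <;> simp
  · have := hL (0, n)
    rw [coneD_apply] at this
    have e1 : Λ (0, n) = β n := by
      show α 0 + β n = β n
      rw [map_zero, zero_add]
    rw [← e1, this]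
    show Λ (h (-dM 0, f 0 + dN n)) = Λ (h (0, dN n))
    rw [map_zero, map_zero, neg_zero, zero_add]

end dual

variable {K : Type} [Field K] {A : DGA K} (X : LC A) {S : Data A}

theorem eq_of_dual {K : Type} [Field K] {V : Type} [AddCommGroup V] [Module K V] {x y : V}
    (h : ∀ ψ : Module.Dual K V, ψ x = ψ y) : x = y := by
  rw [← sub_eq_zero, ← Module.forall_dual_apply_eq_zero_iff K]
  intro ψ
  rw [map_sub, h, sub_self]

/-- evaluation at a family -/
def evX (φ : X.I.ι → A.C) : Module.Dual K (X.I.ι →₀ Module.Dual K A.C) :=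
  Finsupp.lsum K fun σ => Module.Dual.eval K A.C (φ σ)

@[simp] theorem evX_single (φ : X.I.ι → A.C) (σ : X.I.ι) (ψ : Module.Dual K A.C) :
    evX X φ (Finsupp.single σ ψ) = ψ (φ σ) := by
  rw [evX, Finsupp.lsum_single]; rfl

theorem evX_d (φ : X.I.ι → A.C) (σ : X.I.ι) (ψ : Module.Dual K A.C) :
    evX X φ (dDX X (Finsupp.single σ ψ)) =
      ψ (A.D (φ σ) + ∑ τ ∈ X.I.F (X.I.s σ), X.c σ τ * φ τ) := by
  rw [tw_single, map_add, map_sum, evX_single, dD_apply, map_add, map_sum]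
  congr 1
  refine Finset.sum_congr rfl fun τ _ => ?_
  rw [evX_single, rD_apply]

theorem exists_fam (ζ : Module.Dual K (X.I.ι →₀ Module.Dual K A.C)) :
    ∃ ψ : X.I.ι → A.C, evX X ψ = ζ := by
  refine ⟨fun σ => (Module.evalEquiv K A.C).symm (ζ ∘ₗ Finsupp.lsingle σ), ?_⟩
  refine Finsupp.lhom_ext fun σ φ => ?_
  rw [evX_single]
  have h := Module.apply_evalEquiv_symm_apply K A.C φ (ζ ∘ₗ Finsupp.lsingle σ)
  rw [h]
  rfl

theorem D1_un {kt : X.I.ι → S.β → K} (hk : Ck X S kt)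
    (hq : QI (M := X.I.ι →₀ Module.Dual K A.C) (N := Module.Dual K (S.γ → K)) (dDX X) (dDH S)
      (ds X S kt)) (φ : X.I.ι → A.C)
    (hφ : ∀ σ, A.D (φ σ) + ∑ τ ∈ X.I.F (X.I.s σ), X.c σ τ * φ τ = 0) :
    ∃ (ψ : X.I.ι → A.C) (η : S.γ → K), η ᵥ* S.ε = 0 ∧
      ∀ σ, φ σ = A.D (ψ σ) + ∑ τ ∈ X.I.F (X.I.s σ), X.c σ τ * ψ τ +
        S.ev (vecMulVec (kt σ) η) := by
  have hsq : ∀ x, dDH S (dDH S x) = 0 := by
    intro x
    refine LinearMap.ext fun η => ?_
    rw [LinearMap.dualMap_apply, LinearMap.dualMap_apply, dH_apply, dH_apply,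
      Matrix.vecMul_vecMul, S.εε, Matrix.vecMul_zero, map_zero, LinearMap.zero_apply]
  obtain ⟨ζ, ξ, h1, h2⟩ := cone_fun (dDX_sq X) hsq (ds_chain X hk) hq (evX X φ) 0
    (fun n => rfl) (fun m => by
      have := ext_single X.I (f := evX X φ ∘ₗ dDX X) (g := 0) (fun σ ψ => by
        rw [LinearMap.comp_apply, evX_d, hφ, map_zero, LinearMap.zero_apply]) m
      rw [LinearMap.comp_apply] at this
      rw [this]; rfl)
  obtain ⟨ψ, rfl⟩ := exists_fam X ζ
  refine ⟨ψ, (Module.evalEquiv K (S.γ → K)).symm ξ, ?_, fun σ => ?_⟩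
  · apply eq_of_dual (K := K)
    intro Θ
    have := h2 Θ
    rw [LinearMap.zero_apply] at this
    rw [map_zero]
    have h3 := Module.apply_evalEquiv_symm_apply K (S.γ → K) (dDH S Θ) ξ
    rw [← this] at h3
    rw [← h3]
    rfl
  · apply eq_of_dual (K := K)
    intro Θ
    have h3 := h1 (Finsupp.single σ Θ)
    rw [evX_single, evX_d, ds_single] at h3
    rw [h3, map_add Θ (_ + _), add_comm]
    congr 1
    have h4 := Module.apply_evalEquiv_symm_apply K (S.γ → K)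
      ((evm S (kt σ)).dualMap Θ) ξ
    rw [← h4]
    rfl

theorem D2_un {kt : X.I.ι → S.β → K} (hk : Ck X S kt)
    (hq : QI (M := X.I.ι →₀ Module.Dual K A.C) (N := Module.Dual K (S.γ → K)) (dDX X) (dDH S)
      (ds X S kt)) (ψ : X.I.ι → A.C) (η : S.γ → K) (hη : η ᵥ* S.ε = 0)
    (hψ : ∀ σ, S.ev (vecMulVec (kt σ) η) =
      A.D (ψ σ) + ∑ τ ∈ X.I.F (X.I.s σ), X.c σ τ * ψ τ) :
    ∃ η' : S.γ → K, η = η' ᵥ* S.ε := by
  have hsq : ∀ x, dDH S (dDH S x) = 0 := by
    intro x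
    refine LinearMap.ext fun η => ?_
    rw [LinearMap.dualMap_apply, LinearMap.dualMap_apply, dH_apply, dH_apply,
      Matrix.vecMul_vecMul, S.εε, Matrix.vecMul_zero, map_zero, LinearMap.zero_apply]
  obtain ⟨ζ, ξ, _, h2⟩ := cone_fun (dDX_sq X) hsq (ds_chain X hk) hq (evX X ψ)
    (Module.Dual.eval K (S.γ → K) η) (fun Θ => by
      show Θ (dH S η) = 0
      rw [dH_apply, hη, map_zero]) (fun m => by
      have := ext_single X.I (f := Module.Dual.eval K (S.γ → K) η ∘ₗ ds X S kt)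
        (g := evX X ψ ∘ₗ dDX X) (fun σ Θ => by
          rw [LinearMap.comp_apply, LinearMap.comp_apply, evX_d, ds_single, ← hψ]
          rfl) m
      exact this)
  refine ⟨(Module.evalEquiv K (S.γ → K)).symm ξ, ?_⟩
  apply eq_of_dual (K := K)
  intro Θ
  have h3 := Module.apply_evalEquiv_symm_apply K (S.γ → K) (dDH S Θ) ξ
  have h4 := h2 Θ
  rw [← h3] at h4
  exact h4

end Crest.Agent.R186.EndD124
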