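import Crest.Agent.R186.Glue_255
import Crest.Agent.R186.FDual_162

/-!
Row 186 (A), helper255: 162's right dual `dRM` and 988's right dual `DR` give the same complexes.
-/

set_option autoImplicit false
set_option linter.style.haveILetI false
set_option linter.unusedSectionVars false

open MulOpposite

namespace Crest.Agent.R186.Glue255

open Hat827 Hat827.DGA Frame515 Res255 SemiFree515 FinV988

variable {K : Type} [Field K] {A B : DGA K}

theorem dRM_gr (N : LM A) (k : ℤ) (f : N.X →ₗ[K] K) :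
    (show (FDual162.dRM N).X from f) ∈ (FDual162.dRM N).gr k ↔
      (show (DR N).X from f) ∈ (DR N).gr k :=
  ⟨fun h l z hz hl => h l hl z hz, fun h l hl z hz => h l z hz hl⟩

theorem tG_dRM_gr (N : LM A) (X : LCells A) (k : ℤ) (x : X.ι →₀ (N.X →ₗ[K] K)) :
    (show (tG (FDual162.dRM N) X).X from x) ∈ (tG (FDual162.dRM N) X).gr k ↔
      (show (tG (DR N) X).X from x) ∈ (tG (DR N) X).gr k := by
  constructor
  · intro h σ
    exact ⟨(dRM_gr N _ (x σ)).1 (h σ).1, (h σ).2⟩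
  · intro h σ
    exact ⟨(dRM_gr N _ (x σ)).2 (h σ).1, (h σ).2⟩

theorem tG_dRM_d (N : LM A) (X : LCells A) (x : X.ι →₀ (N.X →ₗ[K] K)) :
    (tG (FDual162.dRM N) X).d x = (tG (DR N) X).d x := rfl

theorem exAt_dRM (N : LM A) (X : LCells A) (k : ℤ) :
    ExAt (tG (FDual162.dRM N) X) k ↔ ExAt (tG (DR N) X) k := by
  constructor
  · intro h x hx hd
    obtain ⟨y, hy, hyd⟩ := h x ((tG_dRM_gr N X k x).2 hx) hd
    exact ⟨y, (tG_dRM_gr N X (k + 1) y).1 hy, hyd⟩
  · intro h x hx hd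
    obtain ⟨y, hy, hyd⟩ := h x ((tG_dRM_gr N X k x).1 hx) hd
    exact ⟨y, (tG_dRM_gr N X (k + 1) y).2 hy, hyd⟩

end Crest.Agent.R186.Glue255
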