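import Crest.Agent.R186.EndB_448
import Crest.Agent.R186.VJ_153
import Crest.Agent.R186.MW_890
import Crest.Agent.R186.C3T_667
import Crest.Agent.R186.Glue2_255

/-!
Row 186, half (A), integration (helper448): (V) on the concrete objects from the acyclicity of
`(Y ⊗ M) ⊗ X`.
-/

set_option autoImplicit false
set_option linter.style.haveILetI false
set_option linter.unusedSectionVars false

noncomputable section

open MulOpposite

namespace Crest.Agent.R186.EndP448

open Hat827 Win810 Frame515 Res255 DefsQ830 SM890 KH186 FinD384 ConeHyp462 Adapt186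
open FinV988 SemiFree515 EndA448 EndV448 FinD988 EndB448 TB143

variable {K : Type} [Field K] (π : Par K) (s : ℕ) (hs : 5 ≤ s)

/-- `Γ = L'' ⊕ M` -/
def extG : VJ153.Ext (Gam π s hs) (WR π).dga where
  inl := inlH (bdM π s (KHc302.two_le hs))
  fst := HmP π s (KHc302.two_le hs)
  fst_inl b := fstH_inlH (bdM π s (KHc302.two_le hs)) b
  M := resBR (HmP π s (KHc302.two_le hs)) (MW π s (KHc302.two_le hs))
  j := inrW (bdM π s (KHc302.two_le hs))
  j_mem h := inrW_mem (bdM π s (KHc302.two_le hs)) h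
  j_d m := inrW_d (bdM π s (KHc302.two_le hs)) m
  j_l b m := (inlH_mul_inrW (bdM π s (KHc302.two_le hs)) b m).symm
  j_r a m := (inrW_mul (bdM π s (KHc302.two_le hs)) m a).symm
  j_inj {k m} _ h := inrW_inj (bdM π s (KHc302.two_le hs)) (h.trans (map_zero _).symm)
  j_ex h h' := inrW_ex (bdM π s (KHc302.two_le hs)) h h'
  fst_j _ := rfl

/-- `X''` resolves `V` -/
def R2 : LRes (C3T667.XX π) (V2 π) := C3T667.lres π

/-- (C3, m = -1) -/
theorem c3 (k : ℤ) (hk : k ≠ 0) : Z (tG (DR (V2 π)) (C3T667.XX π)) k := by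
  have h : ExAt (tG (FDual162.dRM (V2 π)) (C3T667.XX π)) k := fun x hx hd => C3T667.c3_ex π k hk hx hd
  exact (Glue255.exAt_dRM (V2 π) (C3T667.XX π) k).1 h

/-- **(V)** from `hM` -/
theorem PV_of {Y : RCells (WR π).dga} (RY : RRes Y (DR (V2 π)))
    (hM : Ac (tG (tQ Y (extG π s hs).M) (XL π s hs))) : PV π s hs := by
  intro k hk
  have h := VJ153.eqv_main (extG π s hs) RY (X := XL π s hs) (RX π s hs) (R2 π) hM k k (by
    change k = (0 : ℤ) - 0 + k
    ring)
  exact h.1.2 (c3 π k (by omega))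

end Crest.Agent.R186.EndP448
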