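import Crest.Agent.R186.ExR_807
import Crest.Agent.R186.Ex_306

/-!
Row 186, half (A) (helper807): the sixteen right cells of `D V_(-2)` over 306's `Fam`:
`ryF F : RY K g` and `exactZF`, the exactness at every level from the bijectivity of `th0 1` on `Y0`
and of `th1 g⁻¹` on `Y1` (positions `0, 1, 2`).
-/

set_option autoImplicit false

namespace Crest.Agent.R186.ExRF807

open Crest.Agent.R186.Ex306 Crest.Agent.R186.ExR807
open Crest.Agent.R186.Cells221 (Cell cdeg)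

variable {K : Type} [Field K] {g : K}

/-- the elements `d_j x_i` on `Y1` -/
def wF (F : Fam K g) (j i : Fin 2) (b : ℕ) : F.Y1 b →ₗ[K] F.Y1 (b + 1) :=
  if i = 0 then (if j = 0 then g⁻¹ • (F.x 0 (b + 1) ∘ₗ F.d 0 b + F.h1 b)
      else g⁻¹ • (F.x 0 (b + 1) ∘ₗ F.d 1 b))
  else (if j = 0 then F.x 1 (b + 1) ∘ₗ F.d 0 b
    else g⁻¹ • (F.x 1 (b + 1) ∘ₗ F.d 1 b + F.h1 b +
      (g - 1) • (g⁻¹ • (F.x 0 (b + 1) ∘ₗ F.d 0 b + F.h1 b))))

theorem wF00 (F : Fam K g) (b : ℕ) (y : F.Y1 b) :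
    wF F 0 0 b y = g⁻¹ • (F.x 0 (b + 1) (F.d 0 b y) + F.h1 b y) := rfl
theorem wF10 (F : Fam K g) (b : ℕ) (y : F.Y1 b) :
    wF F 1 0 b y = g⁻¹ • F.x 0 (b + 1) (F.d 1 b y) := rfl
theorem wF01 (F : Fam K g) (b : ℕ) (y : F.Y1 b) :
    wF F 0 1 b y = F.x 1 (b + 1) (F.d 0 b y) := rfl
theorem wF11 (F : Fam K g) (b : ℕ) (y : F.Y1 b) :
    wF F 1 1 b y = g⁻¹ • (F.x 1 (b + 1) (F.d 1 b y) + F.h1 b y +
      (g - 1) • (g⁻¹ • (F.x 0 (b + 1) (F.d 0 b y) + F.h1 b y))) := rfl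

/-- `wF j i = n j i` of `Ex_306` -/
theorem wF_eq (F : Fam K g) (j i : Fin 2) (b : ℕ) (y : F.Y1 b) : wF F j i b y = F.n j i b y := by
  have hj : j = 0 ∨ j = 1 := by fin_cases j <;> simp
  have hi : i = 0 ∨ i = 1 := by fin_cases i <;> simp
  rcases hj with rfl | rfl <;> rcases hi with rfl | rfl <;> rfl

section rel

variable (F : Fam K g) (two : (2 : K) = 0) (hg : g ≠ 0) (hg1 : g ≠ 1)

include two hg hg1

theorem k0F (b : ℕ) (y : F.Y0 b) : wF F 0 0 b (F.x 1 b y) = wF F 0 1 b (F.x 0 b y) := by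
  have e1 := F.xt 1 b y
  have e2 := F.ht0 b y
  have e3 := F.ht1 b (F.x 1 b y)
  have e4 := F.xh 1 b y
  have g1 : g - 1 ≠ 0 := sub_ne_zero.mpr hg1
  rw [wF00, wF01]
  rw [e2, map_add, map_smul, map_add, e4] at e1
  generalize F.h1 b (F.x 1 b y) = u at *
  generalize F.x 1 (b + 1) (F.d 0 b (F.x 0 b y)) = v at *
  generalize F.x 1 (b + 1) (F.d 1 b (F.x 1 b y)) = w at *
  generalize F.x 0 (b + 1) (F.d 0 b (F.x 1 b y)) = z at *
  generalize F.t1 b (F.x 1 b y) = t at *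
  have h : (g * (g - 1)) • (g⁻¹ • (z + u)) = (g * (g - 1)) • v := by
    linear_combination (norm := (match_scalars <;> field_simp <;> ring)) (-g) • e1 - e3 +
      (g - 1) • two • u
  have h2 := congrArg (fun y => (g * (g - 1))⁻¹ • y) h
  have h3 : g * (g - 1) ≠ 0 := mul_ne_zero hg g1
  simpa only [smul_smul (g * (g - 1))⁻¹ (g * (g - 1)), inv_mul_cancel₀ h3, one_smul] using h2

theorem k1F (b : ℕ) (y : F.Y0 b) : wF F 1 0 b (F.x 1 b y) = wF F 1 1 b (F.x 0 b y) := by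
  have e1 := F.xt 0 b y
  have e2 := F.ht0 b y
  have e3 := F.ht1 b (F.x 0 b y)
  have e4 := F.xh 0 b y
  have g1 : g - 1 ≠ 0 := sub_ne_zero.mpr hg1
  rw [wF10, wF11]
  rw [e2, map_add, map_smul, map_add, e4] at e1
  generalize F.h1 b (F.x 0 b y) = u at *
  generalize F.x 0 (b + 1) (F.d 0 b (F.x 0 b y)) = v at *
  generalize F.x 0 (b + 1) (F.d 1 b (F.x 1 b y)) = w at *
  generalize F.x 1 (b + 1) (F.d 1 b (F.x 0 b y)) = z at *
  generalize F.t1 b (F.x 0 b y) = t at *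
  have h : (g ^ 2 * (g - 1)) • (g⁻¹ • w) =
      (g ^ 2 * (g - 1)) • (g⁻¹ • (z + u + (g - 1) • (g⁻¹ • (v + u)))) := by
    linear_combination (norm := (match_scalars <;> field_simp <;> ring)) g • e1 + e3 -
      (g * (g - 1)) • two • u - ((g - 1) ^ 2) • two • v
  have h2 := congrArg (fun y => (g ^ 2 * (g - 1))⁻¹ • y) h
  have h3 : g ^ 2 * (g - 1) ≠ 0 := mul_ne_zero (pow_ne_zero 2 hg) g1
  simpa only [smul_smul (g ^ 2 * (g - 1))⁻¹ (g ^ 2 * (g - 1)), inv_mul_cancel₀ h3, one_smul] using h2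

theorem q0F (b : ℕ) (y : F.Y1 b) :
    F.d 1 (b + 1) (wF F 0 0 b y) + g • F.d 0 (b + 1) (wF F 1 0 b y) = 0 := by
  have e1 := F.td 1 b y
  have e2 := F.ht0 (b + 1) (F.d 1 b y)
  have e3 := congrArg (F.d 1 (b + 1)) (F.ht1 b y)
  have e4 := F.hd 1 b y
  have g1 : g - 1 ≠ 0 := sub_ne_zero.mpr hg1
  rw [wF00, wF10]
  simp only [map_add, map_smul] at e3 ⊢
  rw [e2, e4] at e1
  generalize F.d 1 (b + 1) (F.h1 b y) = u at *
  generalize F.d 0 (b + 1) (F.x 0 (b + 1) (F.d 1 b y)) = v at *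
  generalize F.d 1 (b + 1) (F.x 1 (b + 1) (F.d 1 b y)) = w at *
  generalize F.d 1 (b + 1) (F.x 0 (b + 1) (F.d 0 b y)) = z at *
  generalize F.d 1 (b + 1) (F.t1 b y) = t at *
  have h : (g * (g - 1)) • (g⁻¹ • (z + u) + g • (g⁻¹ • v)) = 0 := by
    linear_combination (norm := (match_scalars <;> field_simp <;> ring)) (-g) • e1 - e3 +
      (g - 1) • two • u + (g * (g - 1)) • two • v
  exact (smul_eq_zero.1 h).resolve_left (mul_ne_zero hg g1)

theorem q1F (b : ℕ) (y : F.Y1 b) :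
    F.d 1 (b + 1) (wF F 0 1 b y) + g • F.d 0 (b + 1) (wF F 1 1 b y) = 0 := by
  have e1 := F.td 0 b y
  have e2 := F.ht0 (b + 1) (F.d 0 b y)
  have e3 := congrArg (F.d 0 (b + 1)) (F.ht1 b y)
  have e4 := F.hd 0 b y
  have g1 : g - 1 ≠ 0 := sub_ne_zero.mpr hg1
  rw [wF01, wF11]
  simp only [map_add, map_smul] at e3 ⊢
  rw [e2, e4] at e1
  generalize F.d 0 (b + 1) (F.h1 b y) = u at *
  generalize F.d 0 (b + 1) (F.x 0 (b + 1) (F.d 0 b y)) = v at *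
  generalize F.d 1 (b + 1) (F.x 1 (b + 1) (F.d 0 b y)) = w at *
  generalize F.d 0 (b + 1) (F.x 1 (b + 1) (F.d 1 b y)) = z at *
  generalize F.d 0 (b + 1) (F.t1 b y) = t at *
  have h : (g * (g - 1)) • (w + g • (g⁻¹ • (z + u + (g - 1) • (g⁻¹ • (v + u))))) = 0 := by
    linear_combination (norm := (match_scalars <;> field_simp <;> ring)) g • e1 + e3 +
      (g * (g - 1)) • two • z + ((g - 1) ^ 2) • two • u
  exact (smul_eq_zero.1 h).resolve_left (mul_ne_zero hg g1)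

omit two hg hg1 in
theorem xh' (j : Fin 2) (b : ℕ) (y : F.Y0 b) : F.x j (b + 1) (F.h0 b y) = F.h1 b (F.x j b y) :=
  F.xh j b y

omit two hg hg1 in
/-- `h` commutes with the elements `d_j x_i` -/
theorem hwF (j i : Fin 2) (b : ℕ) (y : F.Y1 b) :
    wF F j i (b + 1) (F.h1 b y) = F.h1 (b + 1) (wF F j i b y) := by
  have hj : j = 0 ∨ j = 1 := by fin_cases j <;> simp
  have hi : i = 0 ∨ i = 1 := by fin_cases i <;> simp
  rcases hj with rfl | rfl <;> rcases hi with rfl | rfl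
  · rw [wF00, wF00, ← F.hd, F.xh]; simp only [map_add, map_smul]
  · rw [wF01, wF01, ← F.hd, F.xh]
  · rw [wF10, wF10, ← F.hd, F.xh]; simp only [map_smul]
  · rw [wF11, wF11, ← F.hd, ← F.hd, F.xh, F.xh]; simp only [map_add, map_smul]

end rel

/-- the two rows of `F` -/
def YF (F : Fam K g) : Fin 2 → ℕ → Type
  | 0, b => F.Y0 b
  | 1, b => F.Y1 b

instance (F : Fam K g) : ∀ i b, AddCommGroup (YF F i b)
  | 0, b => F.a0 b
  | 1, b => F.a1 b

instance (F : Fam K g) : ∀ i b, Module K (YF F i b)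
  | 0, b => F.m0 b
  | 1, b => F.m1 b

/-- `h` on both rows -/
def hF (F : Fam K g) : ∀ i b, YF F i b →ₗ[K] YF F i (b + 1)
  | 0, b => F.h0 b
  | 1, b => F.h1 b

/-- 306's family as an `RY` -/
def ryF (F : Fam K g) (two : (2 : K) = 0) (hg : g ≠ 0) (hg1 : g ≠ 1) : RY K g where
  Y := YF F
  x := F.x
  d := F.d
  h := hF F
  w := wF F
  r00 b _ y := by
    change F.x 0 (b + 1) (F.d 0 b y) = F.h1 b y + g • wF F 0 0 b y
    rw [wF00]
    generalize F.x 0 (b + 1) (F.d 0 b y) = v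
    generalize F.h1 b y = u
    linear_combination (norm := (match_scalars <;> field_simp <;> ring)) (-(1 : K)) • two • u
  r01 b _ y := by
    change F.x 0 (b + 1) (F.d 1 b y) = g • wF F 1 0 b y
    rw [wF10, smul_smul, mul_inv_cancel₀ hg, one_smul]
  r10 b _ y := rfl
  r11 b _ y := by
    change F.x 1 (b + 1) (F.d 1 b y) = F.h1 b y + g • wF F 1 1 b y + (g - 1) • wF F 0 0 b y
    rw [wF11, wF00]
    generalize F.x 0 (b + 1) (F.d 0 b y) = v
    generalize F.x 1 (b + 1) (F.d 1 b y) = w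
    generalize F.h1 b y = u
    linear_combination (norm := (match_scalars <;> field_simp <;> ring)) (-(1 : K)) • two • u -
      ((g - 1) * g⁻¹) • two • (v + u)
  k0 b _ y := k0F F two hg hg1 b y
  k1 b _ y := k1F F two hg hg1 b y
  hw j i b _ y := hwF F j i b y
  q j b _ y := by
    have hj : j = 0 ∨ j = 1 := by fin_cases j <;> simp
    rcases hj with rfl | rfl
    · exact q0F F two hg hg1 b y
    · exact q1F F two hg hg1 b y

/-- `th0 1 = (g-1) S0` -/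
theorem S0_ryF (F : Fam K g) (two : (2 : K) = 0) (hg : g ≠ 0) (hg1 : g ≠ 1) (b : ℕ) (y : F.Y0 b) :
    F.th0 1 b y = (g - 1) • ((ryF F two hg hg1).S0 b y : F.Y0 (b + 1)) :=
  F.th0_1 hg hg1 two b y

/-- `th1 g⁻¹ = g⁻¹ (g-1) Th` -/
theorem Th_ryF (F : Fam K g) (two : (2 : K) = 0) (hg : g ≠ 0) (hg1 : g ≠ 1) (b : ℕ) (y : F.Y1 b) :
    F.th1 g⁻¹ b y = (g⁻¹ * (g - 1)) • ((ryF F two hg hg1).Th b y : F.Y1 (b + 1)) := by
  rw [F.th1_m1 hg hg1 two]
  change _ = (g⁻¹ * (g - 1)) • (F.h1 b y + g • (wF F 0 0 b y + wF F 1 1 b y))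
  rw [wF00, wF11]
  generalize F.x 0 (b + 1) (F.d 0 b y) = v
  generalize F.x 1 (b + 1) (F.d 1 b y) = w
  generalize F.h1 b y = u
  linear_combination (norm := (match_scalars <;> field_simp <;> ring))
    (-(g⁻¹ * (g - 1))) • two • (u + u + v) +
      ((g⁻¹ * (g - 1)) * g⁻¹) • two • (v + u)

theorem bij_smul {A B : Type} [AddCommGroup A] [Module K A] [AddCommGroup B] [Module K B]
    (f k : A →ₗ[K] B) (c : K) (hc : c ≠ 0) (h : ∀ y, f y = c • k y) (hf : Function.Bijective f) :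
    Function.Bijective k := by
  constructor
  · intro y y' e
    exact hf.1 (by rw [h, h, e])
  · intro y
    obtain ⟨z, hz⟩ := hf.2 (c • y)
    refine ⟨z, ?_⟩
    rw [h] at hz
    have := congrArg (fun y => c⁻¹ • y) hz
    simpa [smul_smul, hc] using this

/-- the table vanishes off the adjacent levels -/
theorem T_zero {g : K} (M : RY K g) : ∀ a b : Cell, cdeg b ≠ cdeg a + 1 → M.T a b = 0 := by
  refine forall_cell ?_ ?_ ?_ ?_ ?_ ?_ ?_ ?_ ?_ ?_ ?_ ?_ ?_ ?_ ?_ ?_ <;>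
  refine forall_cell ?_ ?_ ?_ ?_ ?_ ?_ ?_ ?_ ?_ ?_ ?_ ?_ ?_ ?_ ?_ ?_ <;>
  intro h <;> first | rfl | exact absurd rfl h

/-- **EXr, transported form**: any family `Z` of spaces indexed by the cells with operators which
are the table on the adjacent levels and zero elsewhere -/
theorem exactE (M : RY K g) (two : (2 : K) = 0) (hg : g ≠ 0) (hg1 : g ≠ 1)
    (hS : ∀ b, b < 3 → Function.Bijective (M.S0 b)) (hT : ∀ b, b < 2 → Function.Bijective (M.Th b))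
    (Z : Cell → Type) [∀ a, AddCommGroup (Z a)] [∀ a, Module K (Z a)]
    (e : ∀ a, Z a ≃ₗ[K] M.Y (pi0 a) (pb a)) (C : ∀ a b : Cell, Z b →ₗ[K] Z a)
    (hC0 : ∀ a b, cdeg b ≠ cdeg a + 1 → C a b = 0)
    (hC : ∀ a b, cdeg b = cdeg a + 1 → ∀ z, e a (C a b z) = M.T a b (e b z))
    (m : ℤ) (φ : ∀ a : Cell, Z a) (h0 : ∀ a, -(cdeg a : ℤ) ≠ m → φ a = 0)
    (hc : ∀ a, -(cdeg a : ℤ) = m + 1 → ∑ b, C a b (φ b) = 0) :
    ∃ ψ : ∀ a : Cell, Z a, (∀ a, -(cdeg a : ℤ) + 1 ≠ m → ψ a = 0) ∧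
      ∀ a, -(cdeg a : ℤ) = m → φ a = ∑ b, C a b (ψ b) := by
  have key : ∀ a b z, e a (C a b z) = M.T a b (e b z) := by
    intro a b z
    by_cases h : cdeg b = cdeg a + 1
    · exact hC a b h z
    · rw [hC0 a b h, T_zero M a b h, LinearMap.zero_apply, LinearMap.zero_apply, map_zero]
  obtain ⟨ψ, h1, h2⟩ := RY.exactZ two hg hg1 hS hT (M.T) (fun _ _ => rfl) m (fun a => e a (φ a))
    (fun a ha => by rw [h0 a ha, map_zero])
    (fun a ha => by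
      rw [Finset.sum_congr rfl fun b _ => (key a b (φ b)).symm, ← map_sum, hc a ha, map_zero])
  refine ⟨fun a => (e a).symm (ψ a), fun a ha => ?_, fun a ha => ?_⟩
  · change (e a).symm (ψ a) = 0
    rw [h1 a ha, map_zero]
  apply (e a).injective
  rw [h2 a ha, map_sum]
  refine Finset.sum_congr rfl fun b _ => ?_
  rw [key, LinearEquiv.apply_symm_apply]

/-- **EXr over 306's family** -/
theorem exactF (F : Fam K g) (two : (2 : K) = 0) (hg : g ≠ 0) (hg1 : g ≠ 1)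
    (b0 : ∀ b, b < 3 → Function.Bijective (F.th0 1 b))
    (b1 : ∀ b, b < 2 → Function.Bijective (F.th1 g⁻¹ b))
    (Z : Cell → Type) [∀ a, AddCommGroup (Z a)] [∀ a, Module K (Z a)]
    (e : ∀ a, Z a ≃ₗ[K] YF F (pi0 a) (pb a)) (C : ∀ a b : Cell, Z b →ₗ[K] Z a)
    (hC0 : ∀ a b, cdeg b ≠ cdeg a + 1 → C a b = 0)
    (hC : ∀ a b, cdeg b = cdeg a + 1 → ∀ z, e a (C a b z) = (ryF F two hg hg1).T a b (e b z))
    (m : ℤ) (φ : ∀ a : Cell, Z a) (h0 : ∀ a, -(cdeg a : ℤ) ≠ m → φ a = 0)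
    (hc : ∀ a, -(cdeg a : ℤ) = m + 1 → ∑ b, C a b (φ b) = 0) :
    ∃ ψ : ∀ a : Cell, Z a, (∀ a, -(cdeg a : ℤ) + 1 ≠ m → ψ a = 0) ∧
      ∀ a, -(cdeg a : ℤ) = m → φ a = ∑ b, C a b (ψ b) := by
  have g1 : g - 1 ≠ 0 := sub_ne_zero.mpr hg1
  refine exactE (ryF F two hg hg1) two hg hg1 (fun b hb => ?_) (fun b hb => ?_) Z e C hC0 hC m φ
    h0 hc
  · exact bij_smul (F.th0 1 b) _ (g - 1) g1 (S0_ryF F two hg hg1 b) (b0 b hb)
  · exact bij_smul (F.th1 g⁻¹ b) _ _ (mul_ne_zero (inv_ne_zero hg) g1) (Th_ryF F two hg hg1 b)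
      (b1 b hb)

end Crest.Agent.R186.ExRF807
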