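import Crest.Agent.R186.Cells_221

/-!
Row 186, half (A), 306's short road (#34919), leaf EXr (helper807): the sixteen RIGHT cells of
`D V_{-2} = e_(0,3) L / (E L)` with values in the homology `Y` of a dg left `L`-module.

* `RY K g` : rows `Y i b` (`i = 0, 1`, `b = 0, .., 3`), operators `x j : Y 0 b → Y 1 b`,
  `d j : Y 1 b → Y 0 (b+1)`, `h`, and `w j i : Y 1 b → Y 1 (b+1)` (the element `d_j x_i`),
  with the relations of `R'` and `r x_j = D z_j = 0`;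
* `pi0`, `pb` : position of the right cells; `T a b` : the coefficient of the cell `a` in the
  differential of the cell `b`, first letter split off (positive letters act by `0`);
* `exactR`, `exactZ` : the complex `φ ↦ (∑ b, T a b (φ b))_a` is exact at every level as soon as
  `S0 = (t - h)/(g-1)` is bijective on `Y 0 b` (`b < 3`) and `Th = g (t - g⁻¹ h)/(g-1)` on `Y 1 b`
  (`b < 2`); `S0_bij`, `Th_bij` give both from the bijectivity of `t - h`, `t - g⁻¹ h`.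
-/

set_option autoImplicit false

namespace Crest.Agent.R186.ExR807

open Crest.Agent.R186.PBW128 (E)
open Crest.Agent.R186.Cells221 (Cell cdeg)

/-- the rows of a module over the window of `R'` killed by the positive letters and by
`r x_j = D z_j` -/
structure RY (K : Type) [Field K] (g : K) where
  Y : Fin 2 → ℕ → Type
  [grp : ∀ i b, AddCommGroup (Y i b)]
  [mod : ∀ i b, Module K (Y i b)]
  x : Fin 2 → ∀ b, Y 0 b →ₗ[K] Y 1 b
  d : Fin 2 → ∀ b, Y 1 b →ₗ[K] Y 0 (b + 1)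
  h : ∀ i b, Y i b →ₗ[K] Y i (b + 1)
  /-- `w j i` = the element `d_j x_i` on `Y 1` -/
  w : Fin 2 → Fin 2 → ∀ b, Y 1 b →ₗ[K] Y 1 (b + 1)
  r00 : ∀ b, b < 3 → ∀ y, x 0 (b + 1) (d 0 b y) = h 1 b y + g • w 0 0 b y
  r01 : ∀ b, b < 3 → ∀ y, x 0 (b + 1) (d 1 b y) = g • w 1 0 b y
  r10 : ∀ b, b < 3 → ∀ y, x 1 (b + 1) (d 0 b y) = w 0 1 b y
  r11 : ∀ b, b < 3 → ∀ y, x 1 (b + 1) (d 1 b y) = h 1 b y + g • w 1 1 b y + (g - 1) • w 0 0 b y
  k0 : ∀ b, b < 3 → ∀ y, w 0 0 b (x 1 b y) = w 0 1 b (x 0 b y)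
  k1 : ∀ b, b < 3 → ∀ y, w 1 0 b (x 1 b y) = w 1 1 b (x 0 b y)
  hw : ∀ j i b, b < 2 → ∀ y, w j i (b + 1) (h 1 b y) = h 1 (b + 1) (w j i b y)
  /-- `r x_j = 0` -/
  q : ∀ j b, b < 2 → ∀ y, d 1 (b + 1) (w 0 j b y) + g • d 0 (b + 1) (w 1 j b y) = 0

attribute [instance] RY.grp RY.mod

namespace RY

variable {K : Type} [Field K] {g : K} (M : RY K g)

/-- `(t - h)/(g-1) = d_0 x_0 + d_1 x_1` on `Y 0` -/
def S0 (b : ℕ) : M.Y 0 b →ₗ[K] M.Y 0 (b + 1) := M.d 0 b ∘ₗ M.x 0 b + M.d 1 b ∘ₗ M.x 1 b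

/-- `g (t - g⁻¹ h)/(g-1) = h + g (d_0 x_0 + d_1 x_1)` on `Y 1` -/
def Th (b : ℕ) : M.Y 1 b →ₗ[K] M.Y 1 (b + 1) := M.h 1 b + g • (M.w 0 0 b + M.w 1 1 b)

/-- `t` on `Y 0` -/
def t0 (b : ℕ) : M.Y 0 b →ₗ[K] M.Y 0 (b + 1) := M.h 0 b + (g - 1) • M.S0 b

/-- `t` on `Y 1` -/
def t1 (b : ℕ) : M.Y 1 b →ₗ[K] M.Y 1 (b + 1) := M.h 1 b + (g - 1) • (M.w 0 0 b + M.w 1 1 b)

variable {M}

theorem S0_apply (b : ℕ) (y : M.Y 0 b) :
    M.S0 b y = M.d 0 b (M.x 0 b y) + M.d 1 b (M.x 1 b y) := rfl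

theorem Th_apply (b : ℕ) (y : M.Y 1 b) :
    M.Th b y = M.h 1 b y + g • (M.w 0 0 b y + M.w 1 1 b y) := rfl

/-- `theta_(-2) = t - h = (g-1) S0` on `Y 0` -/
theorem theta0 (b : ℕ) (y : M.Y 0 b) : M.t0 b y - M.h 0 b y = (g - 1) • M.S0 b y := by
  simp [t0]

/-- `theta_(-1) = t - g⁻¹ h`, `g theta_(-1) = (g-1) Th` on `Y 1` -/
theorem theta1 (hg : g ≠ 0) (b : ℕ) (y : M.Y 1 b) :
    g • (M.t1 b y - g⁻¹ • M.h 1 b y) = (g - 1) • M.Th b y := by
  simp only [t1, Th_apply, LinearMap.add_apply, LinearMap.smul_apply]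
  match_scalars <;> field_simp

theorem S0_bij (hg : g ≠ 1) (b : ℕ)
    (h : Function.Bijective fun y : M.Y 0 b => M.t0 b y - M.h 0 b y) :
    Function.Bijective (M.S0 b) := by
  have h1 : (g - 1) ≠ 0 := sub_ne_zero.2 hg
  simp only [theta0] at h
  constructor
  · intro y y' e
    exact h.1 (by simp only [e])
  · intro y
    obtain ⟨z, hz⟩ := h.2 ((g - 1) • y)
    refine ⟨z, ?_⟩
    have := congrArg (fun y => (g - 1)⁻¹ • y) hz
    simpa [smul_smul, h1] using this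

theorem Th_bij (hg0 : g ≠ 0) (hg : g ≠ 1) (b : ℕ)
    (h : Function.Bijective fun y : M.Y 1 b => M.t1 b y - g⁻¹ • M.h 1 b y) :
    Function.Bijective (M.Th b) := by
  have h1 : (g - 1) ≠ 0 := sub_ne_zero.2 hg
  have key : ∀ y : M.Y 1 b, M.t1 b y - g⁻¹ • M.h 1 b y = (g⁻¹ * (g - 1)) • M.Th b y := by
    intro y
    rw [mul_smul, ← theta1 hg0, smul_smul, inv_mul_cancel₀ hg0, one_smul]
  have h2 : g⁻¹ * (g - 1) ≠ 0 := mul_ne_zero (inv_ne_zero hg0) h1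
  simp only [key] at h
  constructor
  · intro y y' e
    exact h.1 (by simp only [e])
  · intro y
    obtain ⟨z, hz⟩ := h.2 ((g⁻¹ * (g - 1)) • y)
    refine ⟨z, ?_⟩
    have := congrArg (fun y => (g⁻¹ * (g - 1))⁻¹ • y) hz
    simp only [smul_smul, inv_mul_cancel₀ h2, one_smul] at this
    exact this

section char2

variable (two : (2 : K) = 0)
include two

theorem add_self (i : Fin 2) (b : ℕ) (y : M.Y i b) : y + y = 0 := by
  rw [← two_smul K, two, zero_smul]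

theorem eq_of_add {i : Fin 2} {b : ℕ} {y z : M.Y i b} (h : y + z = 0) : y = z := by
  have h2 := add_self two i b z
  calc y = y + z + z := by rw [add_assoc, h2, add_zero]
    _ = z := by rw [h, zero_add]

/-- `d_j Th = S0 d_j` -/
theorem d_Th (j : Fin 2) (b : ℕ) (hb : b < 2) (y : M.Y 1 b) :
    M.d j (b + 1) (M.Th b y) = M.S0 (b + 1) (M.d j b y) := by
  have e0 := eq_of_add two (M.q 0 b hb y)
  have e1 := eq_of_add two (M.q 1 b hb y)
  have hj : j = 0 ∨ j = 1 := by fin_cases j <;> simp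
  have h2 : (g - 1 : K) = g + 1 := by
    rw [sub_eq_add_neg, neg_eq_of_add_eq_zero_right (show (1 : K) + 1 = 0 by rw [one_add_one_eq_two, two])]
  rcases hj with rfl | rfl
  · rw [S0_apply, M.r00 b (by omega), M.r10 b (by omega), Th_apply]
    simp only [map_add, map_smul, smul_add]
    rw [e1, ← add_assoc]
  · rw [S0_apply, M.r01 b (by omega), M.r11 b (by omega), Th_apply, h2]
    simp only [map_add, map_smul, smul_add, add_smul, one_smul]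
    rw [e0]
    have h3 := add_self two 0 _ (g • M.d 0 (b + 1) (M.w 1 0 b y))
    have h4 := h3
    rw [← e0] at h3
    rw [← e0]
    calc _ = M.d 1 (b + 1) (M.h 1 b y) + (g • M.d 1 (b + 1) (M.w 0 0 b y) +
        g • M.d 1 (b + 1) (M.w 1 1 b y)) + (M.d 1 (b + 1) (M.w 0 0 b y) +
          M.d 1 (b + 1) (M.w 0 0 b y)) := by rw [h3, add_zero]
      _ = _ := by abel

/-- `Th x_j = x_j S0` -/
theorem Th_x (j : Fin 2) (b : ℕ) (hb : b < 3) (y : M.Y 0 b) :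
    M.Th b (M.x j b y) = M.x j (b + 1) (M.S0 b y) := by
  have hj : j = 0 ∨ j = 1 := by fin_cases j <;> simp
  rcases hj with rfl | rfl
  · rw [S0_apply, map_add, M.r00 b hb, M.r01 b hb, Th_apply, M.k1 b hb]
    simp only [smul_add]
    abel
  · rw [S0_apply, map_add, M.r10 b hb, M.r11 b hb, Th_apply, ← M.k0 b hb]
    simp only [smul_add, sub_smul, one_smul]
    abel

theorem Th_h (b : ℕ) (hb : b < 2) (y : M.Y 1 b) :
    M.Th (b + 1) (M.h 1 b y) = M.h 1 (b + 1) (M.Th b y) := by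
  rw [Th_apply, Th_apply, M.hw _ _ b hb, M.hw _ _ b hb]
  simp only [map_add, map_smul]

/-- `Th` commutes with the elements `d_j x_i` -/
theorem w_Th (hg : g ≠ 0) (j i : Fin 2) (b : ℕ) (hb : b < 2) (y : M.Y 1 b) :
    M.w j i (b + 1) (M.Th b y) = M.Th (b + 1) (M.w j i b y) := by
  have hj : j = 0 ∨ j = 1 := by fin_cases j <;> simp
  have hi : i = 0 ∨ i = 1 := by fin_cases i <;> simp
  have key : ∀ a c : Fin 2, M.x a (b + 1 + 1) (M.d c (b + 1) (M.Th b y)) =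
      M.Th (b + 1) (M.x a (b + 1) (M.d c b y)) := by
    intro a c
    rw [d_Th two c b hb, Th_x two a (b + 1) (by omega)]
  have can : ∀ {u v : M.Y 1 (b + 1 + 1)}, g • u = g • v → u = v := by
    intro u v h
    have := congrArg (fun z => g⁻¹ • z) h
    simpa [smul_smul, hg] using this
  have w00 : M.w 0 0 (b + 1) (M.Th b y) = M.Th (b + 1) (M.w 0 0 b y) := by
    apply can
    have h1 := key 0 0
    rw [M.r00 (b + 1) (by omega), M.r00 b (by omega), map_add, Th_h two b hb, map_smul] at h1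
    exact add_left_cancel h1
  rcases hj with rfl | rfl <;> rcases hi with rfl | rfl
  · exact w00
  · have h1 := key 1 0
    rwa [M.r10 (b + 1) (by omega), M.r10 b (by omega)] at h1
  · apply can
    have h1 := key 0 1
    rwa [M.r01 (b + 1) (by omega), M.r01 b (by omega), map_smul] at h1
  · apply can
    have h1 := key 1 1
    rw [M.r11 (b + 1) (by omega), M.r11 b (by omega), map_add, map_add, Th_h two b hb, map_smul,
      map_smul, w00] at h1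
    exact add_left_cancel (add_right_cancel h1)

/-! ### components -/

/-- `x_0 (d_0 a + d_1 b) + g³ (d_1 x_0) (g⁻² b) + g² (d_1 x_1) (g⁻¹ a) = Th a` -/
theorem I1a (hg : g ≠ 0) (b : ℕ) (hb : b < 3) (a c : M.Y 1 b) :
    M.x 0 (b + 1) (M.d 0 b a + M.d 1 b c) +
      (g ^ 3 • M.w 1 0 b ((g ^ 2)⁻¹ • c) + g ^ 2 • M.w 1 1 b (g⁻¹ • a)) = M.Th b a := by
  rw [map_add, M.r00 b hb, M.r01 b hb, Th_apply, map_smul, map_smul]
  generalize M.w 1 0 b c = u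
  generalize M.w 1 1 b a = v
  generalize M.w 0 0 b a = w
  generalize M.h 1 b a = t
  linear_combination (norm := (match_scalars <;> field_simp <;> ring)) (g * 1) • two • u

theorem I1b (hg : g ≠ 0) (b : ℕ) (hb : b < 3) (a c : M.Y 1 b) :
    M.x 1 (b + 1) (M.d 0 b a + M.d 1 b c) +
      (g ^ 2 • M.w 0 0 b ((g ^ 2)⁻¹ • c) + g • M.w 0 1 b (g⁻¹ • a)) = M.Th b c := by
  rw [map_add, M.r10 b hb, M.r11 b hb, Th_apply, map_smul, map_smul]
  generalize M.w 0 1 b a = u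
  generalize M.w 1 1 b c = v
  generalize M.w 0 0 b c = w
  generalize M.h 1 b c = t
  linear_combination (norm := (match_scalars <;> field_simp <;> ring)) (1 : K) • two • u

theorem I2a (hg : g ≠ 0) (b : ℕ) (hb : b < 3) (z0 z1 : M.Y 1 b) :
    g • M.x 1 (b + 1) (M.d 0 b ((g ^ 2)⁻¹ • z1) + M.d 1 b (g⁻¹ • z0)) +
      (g ^ 2)⁻¹ • (g ^ 2 • M.w 0 0 b z0 + g • M.w 0 1 b z1) = M.Th b z0 := by
  rw [map_add, M.r10 b hb, M.r11 b hb, Th_apply]
  simp only [map_smul]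
  generalize M.w 0 1 b z1 = u
  generalize M.w 1 1 b z0 = v
  generalize M.w 0 0 b z0 = w
  generalize M.h 1 b z0 = t
  linear_combination (norm := (match_scalars <;> field_simp <;> ring)) g⁻¹ • two • u

theorem I2b (hg : g ≠ 0) (b : ℕ) (hb : b < 3) (z0 z1 : M.Y 1 b) :
    g ^ 2 • M.x 0 (b + 1) (M.d 0 b ((g ^ 2)⁻¹ • z1) + M.d 1 b (g⁻¹ • z0)) +
      g⁻¹ • (g ^ 3 • M.w 1 0 b z0 + g ^ 2 • M.w 1 1 b z1) = M.Th b z1 := by
  rw [map_add, M.r00 b hb, M.r01 b hb, Th_apply]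
  simp only [map_smul]
  generalize M.w 1 0 b z0 = u
  generalize M.w 1 1 b z1 = v
  generalize M.w 0 0 b z1 = w
  generalize M.h 1 b z1 = t
  linear_combination (norm := (match_scalars <;> field_simp <;> ring)) (g ^ 2) • two • u

/-- last map onto -/
theorem c0 (b : ℕ) (s : Function.Surjective (M.S0 b)) (y : M.Y 0 (b + 1)) :
    ∃ a c : M.Y 1 b, y = M.d 0 b a + M.d 1 b c := by
  obtain ⟨z, rfl⟩ := s y
  exact ⟨_, _, S0_apply b z⟩

/-- `d_0 a + d_1 c = 0` -/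
theorem c1 (hg : g ≠ 0) (b : ℕ) (hb : b < 2) (s : Function.Surjective (M.Th b))
    (i : Function.Injective (M.S0 (b + 1))) (a c : M.Y 1 (b + 1))
    (e : M.d 0 (b + 1) a + M.d 1 (b + 1) c = 0) :
    ∃ z0 z1 : M.Y 1 b, a = g ^ 3 • M.w 1 0 b z0 + g ^ 2 • M.w 1 1 b z1 ∧
      c = g ^ 2 • M.w 0 0 b z0 + g • M.w 0 1 b z1 := by
  obtain ⟨a', rfl⟩ := s a
  obtain ⟨c', rfl⟩ := s c
  rw [d_Th two 0 b hb, d_Th two 1 b hb, ← map_add] at e
  have e' : M.d 0 b a' + M.d 1 b c' = 0 := i (by rw [e, map_zero])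
  have h1 := I1a two hg b (by omega) a' c'
  have h2 := I1b two hg b (by omega) a' c'
  rw [e', map_zero, zero_add] at h1 h2
  exact ⟨_, _, h1.symm, h2.symm⟩

/-- cycles at `z`, one step above -/
theorem c2 (hg : g ≠ 0) (b : ℕ) (hb : b < 2) (s : Function.Surjective (M.Th b))
    (i : Function.Injective (M.Th (b + 1))) (z0 z1 : M.Y 1 (b + 1))
    (e0 : g ^ 3 • M.w 1 0 (b + 1) z0 + g ^ 2 • M.w 1 1 (b + 1) z1 = 0)
    (e1 : g ^ 2 • M.w 0 0 (b + 1) z0 + g • M.w 0 1 (b + 1) z1 = 0) :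
    ∃ y : M.Y 0 (b + 1), z0 = g • M.x 1 (b + 1) y ∧ z1 = g ^ 2 • M.x 0 (b + 1) y := by
  obtain ⟨a, rfl⟩ := s z0
  obtain ⟨c, rfl⟩ := s z1
  rw [w_Th two hg 1 0 b hb, w_Th two hg 1 1 b hb] at e0
  rw [w_Th two hg 0 0 b hb, w_Th two hg 0 1 b hb] at e1
  have h0 : g ^ 3 • M.w 1 0 b a + g ^ 2 • M.w 1 1 b c = 0 := i (by
    rw [map_add, LinearMap.map_smul (M.Th (b + 1)), LinearMap.map_smul (M.Th (b + 1)), e0, map_zero])
  have h1 : g ^ 2 • M.w 0 0 b a + g • M.w 0 1 b c = 0 := i (by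
    rw [map_add, LinearMap.map_smul (M.Th (b + 1)), LinearMap.map_smul (M.Th (b + 1)), e1, map_zero])
  have h2 := I2a two hg b (by omega) a c
  have h3 := I2b two hg b (by omega) a c
  rw [h1, smul_zero, add_zero] at h2
  rw [h0, smul_zero, add_zero] at h3
  exact ⟨_, h2.symm, h3.symm⟩

/-- `x_0 y = x_1 y = 0` -/
theorem c3 (hg : g ≠ 0) (b : ℕ) (i : Function.Injective (M.S0 b)) (y : M.Y 0 b)
    (e1 : g • M.x 1 b y = 0) (e0 : g ^ 2 • M.x 0 b y = 0) : y = 0 := by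
  have h1 : M.x 1 b y = 0 := (smul_eq_zero.1 e1).resolve_left hg
  have h0 : M.x 0 b y = 0 := (smul_eq_zero.1 e0).resolve_left (pow_ne_zero 2 hg)
  apply i
  rw [S0_apply, h1, h0, map_zero, map_zero, map_zero, add_zero]

/-- cycles at `g_j` (first position) -/
theorem c4 (hg : g ≠ 0) (b : ℕ) (hb : b < 3) (s : Function.Surjective (M.S0 b))
    (i : Function.Injective (M.Th b)) (z0 z1 : M.Y 1 b)
    (e0 : g ^ 3 • M.w 1 0 b z0 + g ^ 2 • M.w 1 1 b z1 = 0)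
    (e1 : g ^ 2 • M.w 0 0 b z0 + g • M.w 0 1 b z1 = 0) :
    ∃ y : M.Y 0 b, z0 = g • M.x 1 b y ∧ z1 = g ^ 2 • M.x 0 b y := by
  have h2 := I2a two hg b (by omega) z0 z1
  have h3 := I2b two hg b (by omega) z0 z1
  rw [e1, smul_zero, add_zero] at h2
  rw [e0, smul_zero, add_zero] at h3
  obtain ⟨y, hy⟩ := s (M.d 0 b ((g ^ 2)⁻¹ • z1) + M.d 1 b (g⁻¹ • z0))
  rw [← hy, ← Th_x two 1 b hb, ← map_smul] at h2
  rw [← hy, ← Th_x two 0 b hb, ← map_smul] at h3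
  exact ⟨y, (i h2).symm, (i h3).symm⟩

/-- `t + h = (g-1) S0` on `Y 0` -/
theorem t0_add (b : ℕ) (y : M.Y 0 b) : M.t0 b y + M.h 0 b y = (g - 1) • M.S0 b y := by
  have h := add_self two 0 b.succ (M.h 0 b y)
  calc M.t0 b y + M.h 0 b y = M.h 0 b y + M.h 0 b y + (g - 1) • M.S0 b y := by
        simp only [t0, LinearMap.add_apply, LinearMap.smul_apply]; abel
    _ = _ := by rw [show M.h 0 b y + M.h 0 b y = 0 from h, zero_add]

theorem uv_surj (hg1 : g ≠ 1) (b : ℕ) (s : Function.Surjective (M.S0 b)) (y : M.Y 0 (b + 1)) :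
    ∃ v : M.Y 0 b, y = M.t0 b v + M.h 0 b v := by
  obtain ⟨z, hz⟩ := s y
  have h1 : (g - 1) ≠ 0 := sub_ne_zero.2 hg1
  refine ⟨(g - 1)⁻¹ • z, ?_⟩
  rw [t0_add two, map_smul, smul_smul, mul_inv_cancel₀ h1, one_smul, hz]

theorem uv_inj (hg1 : g ≠ 1) (b : ℕ) (i : Function.Injective (M.S0 b)) (v : M.Y 0 b)
    (e : M.t0 b v + M.h 0 b v = 0) : v = 0 := by
  have h1 : (g - 1) ≠ 0 := sub_ne_zero.2 hg1
  rw [t0_add two] at e
  exact i (by rw [(smul_eq_zero.1 e).resolve_left h1, map_zero])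

end char2

/-! ### table -/

end RY

/-- row (`0` or `1`) of the right cell -/
def pi0 : Cell → Fin 2
  | some (.d _) => 1
  | some (.z _) => 1
  | some (.e _) => 1
  | some (.gj _) => 1
  | _ => 0

/-- position in the row -/
def pb : Cell → ℕ
  | none => 3
  | some (.d _) => 2
  | some .f => 2
  | some (.z _) => 1
  | some .zc => 1
  | some (.u s) => 2 - s.val
  | some (.e _) => 1
  | some (.gj _) => 0
  | some .gc => 0
  | some (.v s) => 1 - s.val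

theorem forall_cell {P : Cell → Prop} (h1 : P none) (h2 : P (some (.d 0))) (h3 : P (some (.d 1)))
    (h4 : P (some .f)) (h5 : P (some (.z 0))) (h6 : P (some (.z 1))) (h7 : P (some .zc))
    (h8 : P (some (.u 0))) (h9 : P (some (.u 1))) (h10 : P (some (.e 0))) (h11 : P (some (.e 1)))
    (h12 : P (some (.gj 0))) (h13 : P (some (.gj 1))) (h14 : P (some .gc))
    (h15 : P (some (.v 0))) (h16 : P (some (.v 1))) : ∀ a, P a
  | none => h1
  | some (.d 0) => h2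
  | some (.d 1) => h3
  | some .f => h4
  | some (.z 0) => h5
  | some (.z 1) => h6
  | some .zc => h7
  | some (.u 0) => h8
  | some (.u 1) => h9
  | some (.e 0) => h10
  | some (.e 1) => h11
  | some (.gj 0) => h12
  | some (.gj 1) => h13
  | some .gc => h14
  | some (.v 0) => h15
  | some (.v 1) => h16

theorem sum_cell {A : Type} [AddCommMonoid A] (F : Cell → A) :
    ∑ b, F b = F none + F (some (.d 0)) + F (some (.d 1)) + F (some .f) + F (some (.z 0)) +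
      F (some (.z 1)) + F (some .zc) + F (some (.u 0)) + F (some (.u 1)) + F (some (.e 0)) +
      F (some (.e 1)) + F (some (.gj 0)) + F (some (.gj 1)) + F (some .gc) + F (some (.v 0)) +
      F (some (.v 1)) := by
  have h : (Finset.univ : Finset Cell) = {none, some (.d 0), some (.d 1), some .f, some (.z 0),
      some (.z 1), some .zc, some (.u 0), some (.u 1), some (.e 0), some (.e 1), some (.gj 0),
      some (.gj 1), some .gc, some (.v 0), some (.v 1)} := by decide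
  rw [h]
  repeat rw [Finset.sum_insert (by decide)]
  rw [Finset.sum_singleton]
  simp only [add_assoc]

namespace RY

variable {K : Type} [Field K] {g : K} (M : RY K g)

/-- the table: `T a b` = coefficient of the cell `a` in the differential of the cell `b` -/
noncomputable def T : ∀ a b : Cell, M.Y (pi0 b) (pb b) →ₗ[K] M.Y (pi0 a) (pb a)
  | none, some (.d 0) => M.d 0 2
  | none, some (.d 1) => M.d 1 2
  | some (.d 0), some (.z 0) => g ^ 3 • M.w 1 0 1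
  | some (.d 0), some (.z 1) => g ^ 2 • M.w 1 1 1
  | some (.d 1), some (.z 0) => g ^ 2 • M.w 0 0 1
  | some (.d 1), some (.z 1) => g • M.w 0 1 1
  | some .f, some .zc => M.h 0 1
  | some (.z 1), some .zc => g ^ 2 • M.x 0 1
  | some (.z 0), some .zc => g • M.x 1 1
  | some .f, some (.e 0) => M.d 0 1
  | some .f, some (.e 1) => M.d 1 1
  | some (.e 0), some (.gj 0) => g ^ 3 • M.w 1 0 0
  | some (.e 0), some (.gj 1) => g ^ 2 • M.w 1 1 0
  | some (.e 1), some (.gj 0) => g ^ 2 • M.w 0 0 0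
  | some (.e 1), some (.gj 1) => g • M.w 0 1 0
  | some (.gj 1), some .gc => g ^ 2 • M.x 0 0
  | some (.gj 0), some .gc => g • M.x 1 0
  | some (.u 0), some (.v 0) => M.t0 1 + M.h 0 1
  | some (.u 1), some (.v 1) => M.t0 0 + M.h 0 0
  | _, _ => 0

theorem row_none (φ : ∀ a, M.Y (pi0 a) (pb a)) : ∑ b, M.T none b (φ b) = M.d 0 2 (φ (some (.d 0))) + M.d 1 2 (φ (some (.d 1))) := by
  rw [sum_cell]
  have h : 0 + M.d 0 2 (φ (some (.d 0))) + M.d 1 2 (φ (some (.d 1))) + 0 + 0 + 0 + 0 + 0 + 0 + 0 + 0 + 0 + 0 + 0 + 0 + 0 = (M.d 0 2 (φ (some (.d 0))) + M.d 1 2 (φ (some (.d 1))) : M.Y (pi0 none) (pb none)) := by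
    simp only [zero_add, add_zero]
  exact h

theorem row_d0 (φ : ∀ a, M.Y (pi0 a) (pb a)) : ∑ b, M.T (some (.d 0)) b (φ b) = g ^ 3 • M.w 1 0 1 (φ (some (.z 0))) + g ^ 2 • M.w 1 1 1 (φ (some (.z 1))) := by
  rw [sum_cell]
  have h : 0 + 0 + 0 + 0 + g ^ 3 • M.w 1 0 1 (φ (some (.z 0))) + g ^ 2 • M.w 1 1 1 (φ (some (.z 1))) + 0 + 0 + 0 + 0 + 0 + 0 + 0 + 0 + 0 + 0 = (g ^ 3 • M.w 1 0 1 (φ (some (.z 0))) + g ^ 2 • M.w 1 1 1 (φ (some (.z 1))) : M.Y (pi0 (some (.d 0))) (pb (some (.d 0)))) := by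
    simp only [zero_add, add_zero]
  exact h

theorem row_d1 (φ : ∀ a, M.Y (pi0 a) (pb a)) : ∑ b, M.T (some (.d 1)) b (φ b) = g ^ 2 • M.w 0 0 1 (φ (some (.z 0))) + g • M.w 0 1 1 (φ (some (.z 1))) := by
  rw [sum_cell]
  have h : 0 + 0 + 0 + 0 + g ^ 2 • M.w 0 0 1 (φ (some (.z 0))) + g • M.w 0 1 1 (φ (some (.z 1))) + 0 + 0 + 0 + 0 + 0 + 0 + 0 + 0 + 0 + 0 = (g ^ 2 • M.w 0 0 1 (φ (some (.z 0))) + g • M.w 0 1 1 (φ (some (.z 1))) : M.Y (pi0 (some (.d 1))) (pb (some (.d 1)))) := by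
    simp only [zero_add, add_zero]
  exact h

theorem row_f (φ : ∀ a, M.Y (pi0 a) (pb a)) : ∑ b, M.T (some .f) b (φ b) = M.h 0 1 (φ (some .zc)) + M.d 0 1 (φ (some (.e 0))) + M.d 1 1 (φ (some (.e 1))) := by
  rw [sum_cell]
  have h : 0 + 0 + 0 + 0 + 0 + 0 + M.h 0 1 (φ (some .zc)) + 0 + 0 + M.d 0 1 (φ (some (.e 0))) + M.d 1 1 (φ (some (.e 1))) + 0 + 0 + 0 + 0 + 0 = (M.h 0 1 (φ (some .zc)) + M.d 0 1 (φ (some (.e 0))) + M.d 1 1 (φ (some (.e 1))) : M.Y (pi0 (some .f)) (pb (some .f))) := by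
    simp only [zero_add, add_zero]
  exact h

theorem row_z0 (φ : ∀ a, M.Y (pi0 a) (pb a)) : ∑ b, M.T (some (.z 0)) b (φ b) = g • M.x 1 1 (φ (some .zc)) := by
  rw [sum_cell]
  have h : 0 + 0 + 0 + 0 + 0 + 0 + g • M.x 1 1 (φ (some .zc)) + 0 + 0 + 0 + 0 + 0 + 0 + 0 + 0 + 0 = (g • M.x 1 1 (φ (some .zc)) : M.Y (pi0 (some (.z 0))) (pb (some (.z 0)))) := by
    simp only [zero_add, add_zero]
  exact h

theorem row_z1 (φ : ∀ a, M.Y (pi0 a) (pb a)) : ∑ b, M.T (some (.z 1)) b (φ b) = g ^ 2 • M.x 0 1 (φ (some .zc)) := by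
  rw [sum_cell]
  have h : 0 + 0 + 0 + 0 + 0 + 0 + g ^ 2 • M.x 0 1 (φ (some .zc)) + 0 + 0 + 0 + 0 + 0 + 0 + 0 + 0 + 0 = (g ^ 2 • M.x 0 1 (φ (some .zc)) : M.Y (pi0 (some (.z 1))) (pb (some (.z 1)))) := by
    simp only [zero_add, add_zero]
  exact h

theorem row_zc (φ : ∀ a, M.Y (pi0 a) (pb a)) : ∑ b, M.T (some .zc) b (φ b) = 0 := by
  rw [sum_cell]
  have h : 0 + 0 + 0 + 0 + 0 + 0 + 0 + 0 + 0 + 0 + 0 + 0 + 0 + 0 + 0 + 0 = (0 : M.Y (pi0 (some .zc)) (pb (some .zc))) := by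
    simp only [zero_add, add_zero]
  exact h

theorem row_u0 (φ : ∀ a, M.Y (pi0 a) (pb a)) : ∑ b, M.T (some (.u 0)) b (φ b) = (M.t0 1 (φ (some (.v 0))) + M.h 0 1 (φ (some (.v 0)))) := by
  rw [sum_cell]
  have h : 0 + 0 + 0 + 0 + 0 + 0 + 0 + 0 + 0 + 0 + 0 + 0 + 0 + 0 + (M.t0 1 (φ (some (.v 0))) + M.h 0 1 (φ (some (.v 0)))) + 0 = ((M.t0 1 (φ (some (.v 0))) + M.h 0 1 (φ (some (.v 0)))) : M.Y (pi0 (some (.u 0))) (pb (some (.u 0)))) := by
    simp only [zero_add, add_zero]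
  exact h

theorem row_u1 (φ : ∀ a, M.Y (pi0 a) (pb a)) : ∑ b, M.T (some (.u 1)) b (φ b) = (M.t0 0 (φ (some (.v 1))) + M.h 0 0 (φ (some (.v 1)))) := by
  rw [sum_cell]
  have h : 0 + 0 + 0 + 0 + 0 + 0 + 0 + 0 + 0 + 0 + 0 + 0 + 0 + 0 + 0 + (M.t0 0 (φ (some (.v 1))) + M.h 0 0 (φ (some (.v 1)))) = ((M.t0 0 (φ (some (.v 1))) + M.h 0 0 (φ (some (.v 1)))) : M.Y (pi0 (some (.u 1))) (pb (some (.u 1)))) := by
    simp only [zero_add, add_zero]
  exact h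

theorem row_e0 (φ : ∀ a, M.Y (pi0 a) (pb a)) : ∑ b, M.T (some (.e 0)) b (φ b) = g ^ 3 • M.w 1 0 0 (φ (some (.gj 0))) + g ^ 2 • M.w 1 1 0 (φ (some (.gj 1))) := by
  rw [sum_cell]
  have h : 0 + 0 + 0 + 0 + 0 + 0 + 0 + 0 + 0 + 0 + 0 + g ^ 3 • M.w 1 0 0 (φ (some (.gj 0))) + g ^ 2 • M.w 1 1 0 (φ (some (.gj 1))) + 0 + 0 + 0 = (g ^ 3 • M.w 1 0 0 (φ (some (.gj 0))) + g ^ 2 • M.w 1 1 0 (φ (some (.gj 1))) : M.Y (pi0 (some (.e 0))) (pb (some (.e 0)))) := by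
    simp only [zero_add, add_zero]
  exact h

theorem row_e1 (φ : ∀ a, M.Y (pi0 a) (pb a)) : ∑ b, M.T (some (.e 1)) b (φ b) = g ^ 2 • M.w 0 0 0 (φ (some (.gj 0))) + g • M.w 0 1 0 (φ (some (.gj 1))) := by
  rw [sum_cell]
  have h : 0 + 0 + 0 + 0 + 0 + 0 + 0 + 0 + 0 + 0 + 0 + g ^ 2 • M.w 0 0 0 (φ (some (.gj 0))) + g • M.w 0 1 0 (φ (some (.gj 1))) + 0 + 0 + 0 = (g ^ 2 • M.w 0 0 0 (φ (some (.gj 0))) + g • M.w 0 1 0 (φ (some (.gj 1))) : M.Y (pi0 (some (.e 1))) (pb (some (.e 1)))) := by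
    simp only [zero_add, add_zero]
  exact h

theorem row_g0 (φ : ∀ a, M.Y (pi0 a) (pb a)) : ∑ b, M.T (some (.gj 0)) b (φ b) = g • M.x 1 0 (φ (some .gc)) := by
  rw [sum_cell]
  have h : 0 + 0 + 0 + 0 + 0 + 0 + 0 + 0 + 0 + 0 + 0 + 0 + 0 + g • M.x 1 0 (φ (some .gc)) + 0 + 0 = (g • M.x 1 0 (φ (some .gc)) : M.Y (pi0 (some (.gj 0))) (pb (some (.gj 0)))) := by
    simp only [zero_add, add_zero]
  exact h

theorem row_g1 (φ : ∀ a, M.Y (pi0 a) (pb a)) : ∑ b, M.T (some (.gj 1)) b (φ b) = g ^ 2 • M.x 0 0 (φ (some .gc)) := by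
  rw [sum_cell]
  have h : 0 + 0 + 0 + 0 + 0 + 0 + 0 + 0 + 0 + 0 + 0 + 0 + 0 + g ^ 2 • M.x 0 0 (φ (some .gc)) + 0 + 0 = (g ^ 2 • M.x 0 0 (φ (some .gc)) : M.Y (pi0 (some (.gj 1))) (pb (some (.gj 1)))) := by
    simp only [zero_add, add_zero]
  exact h

theorem row_gc (φ : ∀ a, M.Y (pi0 a) (pb a)) : ∑ b, M.T (some .gc) b (φ b) = 0 := by
  rw [sum_cell]
  have h : 0 + 0 + 0 + 0 + 0 + 0 + 0 + 0 + 0 + 0 + 0 + 0 + 0 + 0 + 0 + 0 = (0 : M.Y (pi0 (some .gc)) (pb (some .gc))) := by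
    simp only [zero_add, add_zero]
  exact h

theorem row_v0 (φ : ∀ a, M.Y (pi0 a) (pb a)) : ∑ b, M.T (some (.v 0)) b (φ b) = 0 := by
  rw [sum_cell]
  have h : 0 + 0 + 0 + 0 + 0 + 0 + 0 + 0 + 0 + 0 + 0 + 0 + 0 + 0 + 0 + 0 = (0 : M.Y (pi0 (some (.v 0))) (pb (some (.v 0)))) := by
    simp only [zero_add, add_zero]
  exact h

theorem row_v1 (φ : ∀ a, M.Y (pi0 a) (pb a)) : ∑ b, M.T (some (.v 1)) b (φ b) = 0 := by
  rw [sum_cell]
  have h : 0 + 0 + 0 + 0 + 0 + 0 + 0 + 0 + 0 + 0 + 0 + 0 + 0 + 0 + 0 + 0 = (0 : M.Y (pi0 (some (.v 1))) (pb (some (.v 1)))) := by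
    simp only [zero_add, add_zero]
  exact h

variable {M}

/-- a family on the cells -/
def mkC (n : M.Y 0 3) (d0 d1 : M.Y 1 2) (f : M.Y 0 2) (z0 z1 : M.Y 1 1) (zc : M.Y 0 1)
    (u0 : M.Y 0 2) (u1 : M.Y 0 1) (e0 e1 : M.Y 1 1) (g0 g1 : M.Y 1 0) (gc : M.Y 0 0)
    (v0 : M.Y 0 1) (v1 : M.Y 0 0) : ∀ a : Cell, M.Y (pi0 a) (pb a)
  | none => n
  | some (.d 0) => d0
  | some (.d 1) => d1
  | some .f => f
  | some (.z 0) => z0
  | some (.z 1) => z1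
  | some .zc => zc
  | some (.u 0) => u0
  | some (.u 1) => u1
  | some (.e 0) => e0
  | some (.e 1) => e1
  | some (.gj 0) => g0
  | some (.gj 1) => g1
  | some .gc => gc
  | some (.v 0) => v0
  | some (.v 1) => v1

variable (two : (2 : K) = 0) (hg : g ≠ 0) (hg1 : g ≠ 1)
  (hS : ∀ b, b < 3 → Function.Bijective (M.S0 b)) (hT : ∀ b, b < 2 → Function.Bijective (M.Th b))

include two hg hg1 hS hT

/-- **EXr**: the sixteen right cells of `D V_(-2)` with values in `Y` are exact at every level -/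
theorem exactR (k : ℕ) (φ : ∀ a : Cell, M.Y (pi0 a) (pb a)) (h0 : ∀ a, cdeg a ≠ k → φ a = 0)
    (hc : ∀ a, cdeg a + 1 = k → ∑ b, M.T a b (φ b) = 0) :
    ∃ ψ : ∀ a : Cell, M.Y (pi0 a) (pb a), (∀ a, cdeg a ≠ k + 1 → ψ a = 0) ∧
      ∀ a, cdeg a = k → φ a = ∑ b, M.T a b (ψ b) := by
  rcases k with _ | _ | _ | _ | _ | _ | k
  · -- level 0
    obtain ⟨a, c, e⟩ := c0 two 2 (hS 2 (by omega)).2 (φ none)
    refine ⟨mkC 0 a c 0 0 0 0 0 0 0 0 0 0 0 0 0, ?_, ?_⟩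
    · refine forall_cell ?_ ?_ ?_ ?_ ?_ ?_ ?_ ?_ ?_ ?_ ?_ ?_ ?_ ?_ ?_ ?_ <;> intro h <;>
        first | rfl | exact absurd rfl h
    · refine forall_cell ?_ ?_ ?_ ?_ ?_ ?_ ?_ ?_ ?_ ?_ ?_ ?_ ?_ ?_ ?_ ?_ <;> intro h <;>
        first | exact absurd h (by decide) | skip
      rw [row_none]
      exact e
  · -- level 1
    have e := hc none rfl
    rw [row_none] at e
    obtain ⟨a, c, e1, e2⟩ := c1 two hg 1 (by omega) (hT 1 (by omega)).2 (hS 2 (by omega)).1 _ _ e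
    refine ⟨mkC 0 0 0 0 a c 0 0 0 0 0 0 0 0 0 0, ?_, ?_⟩
    · refine forall_cell ?_ ?_ ?_ ?_ ?_ ?_ ?_ ?_ ?_ ?_ ?_ ?_ ?_ ?_ ?_ ?_ <;> intro h <;>
        first | rfl | exact absurd rfl h
    · refine forall_cell ?_ ?_ ?_ ?_ ?_ ?_ ?_ ?_ ?_ ?_ ?_ ?_ ?_ ?_ ?_ ?_ <;> intro h <;>
        first | exact absurd h (by decide) | skip
      · rw [row_d0]
        exact e1
      · rw [row_d1]
        exact e2
  · -- level 2
    have e0 := hc (some (.d 0)) rfl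
    have e1 := hc (some (.d 1)) rfl
    rw [row_d0] at e0
    rw [row_d1] at e1
    obtain ⟨y, y0, y1⟩ := c2 two hg 0 (by omega) (hT 0 (by omega)).2 (hT 1 (by omega)).1 _ _ e0 e1
    obtain ⟨f, hf⟩ : ∃ f : M.Y 0 2, φ (some .f) = f := ⟨_, rfl⟩
    obtain ⟨a, c, e2⟩ := c0 two 1 (hS 1 (by omega)).2 (f - M.h 0 1 y)
    obtain ⟨v, e3⟩ := uv_surj two hg1 1 (hS 1 (by omega)).2 (φ (some (.u 0)))
    refine ⟨mkC 0 0 0 0 0 0 y 0 0 a c 0 0 0 v 0, ?_, ?_⟩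
    · refine forall_cell ?_ ?_ ?_ ?_ ?_ ?_ ?_ ?_ ?_ ?_ ?_ ?_ ?_ ?_ ?_ ?_ <;> intro h <;>
        first | rfl | exact absurd rfl h
    · refine forall_cell ?_ ?_ ?_ ?_ ?_ ?_ ?_ ?_ ?_ ?_ ?_ ?_ ?_ ?_ ?_ ?_ <;> intro h <;>
        first | exact absurd h (by decide) | skip
      · rw [row_f]
        have e4 : f = M.h 0 1 y + (M.d 0 1 a + M.d 1 1 c) := by
          rw [← e2]; exact (add_sub_cancel _ _).symm
        rw [← add_assoc] at e4
        exact hf.trans e4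
      · rw [row_z0]
        exact y0
      · rw [row_z1]
        exact y1
      · rw [row_u0]
        exact e3
  · -- level 3
    have ef := hc (some .f) rfl
    have e0 := hc (some (.z 0)) rfl
    have e1 := hc (some (.z 1)) rfl
    have eu := hc (some (.u 0)) rfl
    rw [row_f] at ef
    rw [row_z0] at e0
    rw [row_z1] at e1
    rw [row_u0] at eu
    have hz := c3 two hg 1 (hS 1 (by omega)).1 _ e0 e1
    have hv := uv_inj two hg1 1 (hS 1 (by omega)).1 _ eu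
    rw [hz, map_zero, zero_add] at ef
    obtain ⟨a, c, e2, e3⟩ := c1 two hg 0 (by omega) (hT 0 (by omega)).2 (hS 1 (by omega)).1 _ _ ef
    obtain ⟨v, e4⟩ := uv_surj two hg1 0 (hS 0 (by omega)).2 (φ (some (.u 1)))
    refine ⟨mkC 0 0 0 0 0 0 0 0 0 0 0 a c 0 0 v, ?_, ?_⟩
    · refine forall_cell ?_ ?_ ?_ ?_ ?_ ?_ ?_ ?_ ?_ ?_ ?_ ?_ ?_ ?_ ?_ ?_ <;> intro h <;>
        first | rfl | exact absurd rfl h
    · refine forall_cell ?_ ?_ ?_ ?_ ?_ ?_ ?_ ?_ ?_ ?_ ?_ ?_ ?_ ?_ ?_ ?_ <;> intro h <;>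
        first | exact absurd h (by decide) | skip
      · rw [row_zc]
        exact hz
      · rw [row_u1]
        exact e4
      · rw [row_e0]
        exact e2
      · rw [row_e1]
        exact e3
      · rw [row_v0]
        exact hv
  · -- level 4
    have e0 := hc (some (.e 0)) rfl
    have e1 := hc (some (.e 1)) rfl
    have eu := hc (some (.u 1)) rfl
    rw [row_e0] at e0
    rw [row_e1] at e1
    rw [row_u1] at eu
    have hv := uv_inj two hg1 0 (hS 0 (by omega)).1 _ eu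
    obtain ⟨y, y0, y1⟩ := c4 two hg 0 (by omega) (hS 0 (by omega)).2 (hT 0 (by omega)).1 _ _ e0 e1
    refine ⟨mkC 0 0 0 0 0 0 0 0 0 0 0 0 0 y 0 0, ?_, ?_⟩
    · refine forall_cell ?_ ?_ ?_ ?_ ?_ ?_ ?_ ?_ ?_ ?_ ?_ ?_ ?_ ?_ ?_ ?_ <;> intro h <;>
        first | rfl | exact absurd rfl h
    · refine forall_cell ?_ ?_ ?_ ?_ ?_ ?_ ?_ ?_ ?_ ?_ ?_ ?_ ?_ ?_ ?_ ?_ <;> intro h <;>
        first | exact absurd h (by decide) | skip
      · rw [row_g0]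
        exact y0
      · rw [row_g1]
        exact y1
      · rw [row_v1]
        exact hv
  · -- level 5
    have e0 := hc (some (.gj 0)) rfl
    have e1 := hc (some (.gj 1)) rfl
    rw [row_g0] at e0
    rw [row_g1] at e1
    have hz := c3 two hg 0 (hS 0 (by omega)).1 _ e0 e1
    refine ⟨fun _ => 0, fun _ _ => rfl, ?_⟩
    refine forall_cell ?_ ?_ ?_ ?_ ?_ ?_ ?_ ?_ ?_ ?_ ?_ ?_ ?_ ?_ ?_ ?_ <;> intro h <;>
      first | exact absurd h (by decide) | skip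
    rw [row_gc]
    exact hz
  · refine ⟨fun _ => 0, fun _ _ => rfl, ?_⟩
    refine forall_cell ?_ ?_ ?_ ?_ ?_ ?_ ?_ ?_ ?_ ?_ ?_ ?_ ?_ ?_ ?_ ?_ <;> intro h <;>
      simp [cdeg] at h <;> omega

/-- the same in the shape of `Zig498.TF.ex_of_H` with `s l = - cdeg l` -/
theorem exactZ (C : ∀ a b : Cell, M.Y (pi0 b) (pb b) →ₗ[K] M.Y (pi0 a) (pb a))
    (hC : ∀ a b, C a b = M.T a b) (m : ℤ) (φ : ∀ a : Cell, M.Y (pi0 a) (pb a))
    (h0 : ∀ a, -(cdeg a : ℤ) ≠ m → φ a = 0)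
    (hc : ∀ a, -(cdeg a : ℤ) = m + 1 → ∑ b, C a b (φ b) = 0) :
    ∃ ψ : ∀ a : Cell, M.Y (pi0 a) (pb a), (∀ a, -(cdeg a : ℤ) + 1 ≠ m → ψ a = 0) ∧
      ∀ a, -(cdeg a : ℤ) = m → φ a = ∑ b, C a b (ψ b) := by
  simp only [hC] at hc ⊢
  rcases le_or_gt m 0 with hm | hm
  · obtain ⟨k, rfl⟩ : ∃ k : ℕ, m = -(k : ℤ) := ⟨m.toNat + (-m).toNat, by omega⟩
    obtain ⟨ψ, h1, h2⟩ := exactR two hg hg1 hS hT k φ (fun a ha => h0 a (by omega))
      (fun a ha => hc a (by omega))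
    exact ⟨ψ, fun a ha => h1 a (by omega), fun a ha => h2 a (by omega)⟩
  · exact ⟨fun _ => 0, fun _ _ => rfl, fun a ha => by omega⟩

end RY

end Crest.Agent.R186.ExR807
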