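import Crest.Agent.R186.Ex_306
import Crest.Agent.R186.C2x_354

/-!
Row 186, half (A), (V') (helper698): EXl for RIGHT modules (helper340 #35778 item (2), helper698
#35916).  A right `H_0(L)`-module is a `Ex306.Fam K g⁻¹` (columns in reversed order), and the sixteen
LEFT cells with values in it are exact by 306's `r0 - r3` at `g⁻¹`.
-/

set_option autoImplicit false

noncomputable section

namespace Crest.Agent.R186.ExT698

open Crest.Agent.R186.DefsQ830 Crest.Agent.R186.Cells221 Crest.Agent.R186.Ex306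
open Crest.Agent.R186.PBW128 (E)

/-- right action of the degree zero part of the window on `M = ⊕ M e_(i,b)`; `P i b = M e_(i,b)`,
`X j = (· x_j)`, `D j = (· d_j)`, `H = (· h)`, `T = (· t)` -/
structure ROp (K : Type) [Field K] (g : K) (M : Type) [AddCommGroup M] [Module K M] where
  P : Fin 2 → ℤ → Submodule K M
  X : Fin 2 → M →ₗ[K] M
  D : Fin 2 → M →ₗ[K] M
  H : M →ₗ[K] M
  T : M →ₗ[K] M
  X_mem : ∀ j b {m : M}, m ∈ P 1 b → X j m ∈ P 0 b
  D_mem : ∀ j b {m : M}, m ∈ P 0 b → D j m ∈ P 1 (b - 1)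
  H_mem : ∀ i b {m : M}, m ∈ P i b → H m ∈ P i (b - 1)
  T_mem : ∀ i b {m : M}, m ∈ P i b → T m ∈ P i (b - 1)
  t0 : ∀ b {m : M}, m ∈ P 0 b → T m = H m + (g - 1) • (X 0 (D 0 m) + X 1 (D 1 m))
  t1 : ∀ b {m : M}, m ∈ P 1 b → g ^ 2 • T m = H m + (g - 1) • (D 0 (X 0 m) + g • D 1 (X 1 m))
  tx : ∀ j b {m : M}, m ∈ P 1 b → T (X j m) = g • X j (T m)
  td : ∀ j b {m : M}, m ∈ P 0 b → g • T (D j m) = D j (T m)
  hx : ∀ j b {m : M}, m ∈ P 1 b → H (X j m) = X j (H m)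
  hd : ∀ j b {m : M}, m ∈ P 0 b → H (D j m) = D j (H m)

namespace ROp

variable {K : Type} [Field K] {g : K} {M : Type} [AddCommGroup M] [Module K M] (R : ROp K g M)

/-- restriction of an operator to submodules -/
def rs {A B : Submodule K M} (f : M →ₗ[K] M) (h : ∀ m ∈ A, f m ∈ B) : A →ₗ[K] B :=
  f.restrict h

theorem idx (a : ℕ) : (3 : ℤ) - ((a + 1 : ℕ) : ℤ) = 3 - (a : ℤ) - 1 := by push_cast; ring

theorem mm {i : Fin 2} {b c : ℤ} (h : b = c) {m : M} (hm : m ∈ R.P i b) : m ∈ R.P i c := h ▸ hm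

variable (hg : g ≠ 0) (two : (2 : K) = 0)

/-- the family over `g⁻¹` -/
def fam : Fam K g⁻¹ where
  Y0 a := R.P 1 (3 - (a : ℤ))
  Y1 a := R.P 0 (3 - (a : ℤ))
  x j a := rs (R.X j) fun m hm => R.X_mem j _ hm
  d j a := rs ((if j = 0 then g else g ^ 2) • R.D j) fun m hm =>
    Submodule.smul_mem _ _ (R.mm (idx a).symm (R.D_mem j _ hm))
  h0 a := rs R.H fun m hm => R.mm (idx a).symm (R.H_mem 1 _ hm)
  h1 a := rs R.H fun m hm => R.mm (idx a).symm (R.H_mem 0 _ hm)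
  t0 a := rs (g ^ 2 • R.T) fun m hm =>
    Submodule.smul_mem _ _ (R.mm (idx a).symm (R.T_mem 1 _ hm))
  t1 a := rs (g ^ 2 • R.T) fun m hm =>
    Submodule.smul_mem _ _ (R.mm (idx a).symm (R.T_mem 0 _ hm))
  ht0 a y := by
    apply Subtype.ext
    show g ^ 2 • R.T y.1 = R.H y.1 + (g⁻¹ - 1) • ((if (0 : Fin 2) = 0 then g else g ^ 2) •
      R.D 0 (R.X 0 y.1) + (if (1 : Fin 2) = 0 then g else g ^ 2) • R.D 1 (R.X 1 y.1))
    rw [R.t1 _ y.2, if_pos rfl, if_neg (by decide)]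
    generalize R.H y.1 = u
    generalize R.D 0 (R.X 0 y.1) = v
    generalize R.D 1 (R.X 1 y.1) = w
    linear_combination (norm := (match_scalars <;> field_simp <;> ring))
      (g - 1) • two • (v + g • w)
  ht1 a y := by
    apply Subtype.ext
    show g⁻¹ ^ 2 • (g ^ 2 • R.T y.1) = R.H y.1 + (g⁻¹ - 1) • (R.X 0 ((if (0 : Fin 2) = 0 then g else g ^ 2) •
      R.D 0 y.1) + g⁻¹ • R.X 1 ((if (1 : Fin 2) = 0 then g else g ^ 2) • R.D 1 y.1))
    rw [R.t0 _ y.2, if_pos rfl, if_neg (by decide), map_smul, map_smul]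
    generalize R.H y.1 = u
    generalize R.X 0 (R.D 0 y.1) = v
    generalize R.X 1 (R.D 1 y.1) = w
    linear_combination (norm := (match_scalars <;> field_simp <;> ring))
      (g - 1) • two • (v + w)
  xt j a y := by
    apply Subtype.ext
    show R.X j (g ^ 2 • R.T y.1) = g⁻¹ • (g ^ 2 • R.T (R.X j y.1))
    rw [R.tx j _ y.2, map_smul, smul_smul, smul_smul]
    congr 1
    field_simp
  td j a y := by
    apply Subtype.ext
    show g ^ 2 • R.T ((if j = 0 then g else g ^ 2) • R.D j y.1) =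
      g⁻¹ • ((if j = 0 then g else g ^ 2) • R.D j (g ^ 2 • R.T y.1))
    rw [map_smul, map_smul, ← R.td j _ y.2]
    simp only [smul_smul]
    congr 1
    field_simp
  xh j a y := by
    apply Subtype.ext
    show R.X j (R.H y.1) = R.H (R.X j y.1)
    rw [R.hx j _ y.2]
  hd j a y := by
    apply Subtype.ext
    show R.H ((if j = 0 then g else g ^ 2) • R.D j y.1) = (if j = 0 then g else g ^ 2) • R.D j (R.H y.1)
    rw [map_smul, R.hd j _ y.2]

/-- `x_0 d_0` from the right (through the relations) -/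
def n00 (m : M) : M := R.H m + g • R.X 0 (R.D 0 m)
/-- `x_0 d_1` -/
def n01 (m : M) : M := g • R.X 0 (R.D 1 m)
/-- `x_1 d_0` -/
def n10 (m : M) : M := R.X 1 (R.D 0 m)
/-- `x_1 d_1` -/
def n11 (m : M) : M := R.H m + g • R.X 1 (R.D 1 m) + (g - 1) • R.X 0 (R.D 0 m)

theorem n00_smul (a : K) (m : M) : R.n00 (a • m) = a • R.n00 m := by
  simp only [n00, map_smul, smul_add, smul_comm a]
theorem n01_smul (a : K) (m : M) : R.n01 (a • m) = a • R.n01 m := by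
  simp only [n01, map_smul, smul_comm a]
theorem n10_smul (a : K) (m : M) : R.n10 (a • m) = a • R.n10 m := by
  simp only [n10, map_smul]
theorem n11_smul (a : K) (m : M) : R.n11 (a • m) = a • R.n11 m := by
  simp only [n11, map_smul, smul_add, smul_comm a]

/-- the bijectivities: `theta_0` on the columns `(1,·)`, `theta_(-1)` on the columns `(0,·)` -/
structure Bij : Prop where
  i1 : ∀ b : ℤ, 1 ≤ b → b ≤ 3 → ∀ m ∈ R.P 1 b, R.T m + (g ^ 2)⁻¹ • R.H m = 0 → m = 0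
  s1 : ∀ b : ℤ, 1 ≤ b → b ≤ 3 → ∀ m ∈ R.P 1 (b - 1), ∃ n ∈ R.P 1 b, R.T n + (g ^ 2)⁻¹ • R.H n = m
  i0 : ∀ b : ℤ, 2 ≤ b → b ≤ 3 → ∀ m ∈ R.P 0 b, R.T m + g⁻¹ • R.H m = 0 → m = 0
  s0 : ∀ b : ℤ, 2 ≤ b → b ≤ 3 → ∀ m ∈ R.P 0 (b - 1), ∃ n ∈ R.P 0 b, R.T n + g⁻¹ • R.H n = m

variable {R} (hB : R.Bij)

include hg two hB

theorem sc {a : K} (ha : a ≠ 0) {m n : M} (h : a • m = a • n) : m = n := by
  have := congrArg (fun v => a⁻¹ • v) h
  simpa [smul_smul, ha] using this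

theorem f_i0 (a : ℕ) (ha : a ≤ 2) (y : (R.fam hg two).Y0 a)
    (h : (R.fam hg two).th0 1 a y = 0) : y = 0 := by
  apply Subtype.ext
  have h1 : g ^ 2 • R.T y.1 + (1 : K) • R.H y.1 = 0 := congrArg Subtype.val h
  refine hB.i1 (3 - (a : ℤ)) (by omega) (by omega) y.1 y.2 ?_
  have : g ^ 2 • (R.T y.1 + (g ^ 2)⁻¹ • R.H y.1) = g ^ 2 • (0 : M) := by
    rw [smul_zero, smul_add, smul_smul, mul_inv_cancel₀ (pow_ne_zero 2 hg)]
    exact h1
  exact sc hg two hB (pow_ne_zero 2 hg) this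

theorem f_s0 (a : ℕ) (ha : a ≤ 2) (y : (R.fam hg two).Y0 (a + 1)) :
    ∃ z, (R.fam hg two).th0 1 a z = y := by
  have hy : ((g ^ 2)⁻¹ • y.1) ∈ R.P 1 (3 - (a : ℤ) - 1) :=
    Submodule.smul_mem _ _ (R.mm (idx a) y.2)
  obtain ⟨n, hn, h⟩ := hB.s1 (3 - (a : ℤ)) (by omega) (by omega) _ hy
  refine ⟨⟨n, hn⟩, Subtype.ext ?_⟩
  show g ^ 2 • R.T n + (1 : K) • R.H n = y.1
  have := congrArg (fun v => g ^ 2 • v) h
  simp only [smul_add, smul_smul, mul_inv_cancel₀ (pow_ne_zero 2 hg)] at this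
  rw [this, one_smul]

theorem f_i1 (a : ℕ) (ha : a ≤ 1) (y : (R.fam hg two).Y1 a)
    (h : (R.fam hg two).th1 (g⁻¹)⁻¹ a y = 0) : y = 0 := by
  apply Subtype.ext
  have h1 : g ^ 2 • R.T y.1 + (g⁻¹)⁻¹ • R.H y.1 = 0 := congrArg Subtype.val h
  refine hB.i0 (3 - (a : ℤ)) (by omega) (by omega) y.1 y.2 ?_
  have : g ^ 2 • (R.T y.1 + g⁻¹ • R.H y.1) = g ^ 2 • (0 : M) := by
    rw [smul_zero, ← h1, smul_add, smul_smul, inv_inv]
    congr 2
    field_simp
  exact sc hg two hB (pow_ne_zero 2 hg) this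

theorem f_s1 (a : ℕ) (ha : a ≤ 1) (y : (R.fam hg two).Y1 (a + 1)) :
    ∃ z, (R.fam hg two).th1 (g⁻¹)⁻¹ a z = y := by
  have hy : ((g ^ 2)⁻¹ • y.1) ∈ R.P 0 (3 - (a : ℤ) - 1) :=
    Submodule.smul_mem _ _ (R.mm (idx a) y.2)
  obtain ⟨n, hn, h⟩ := hB.s0 (3 - (a : ℤ)) (by omega) (by omega) _ hy
  refine ⟨⟨n, hn⟩, Subtype.ext ?_⟩
  show g ^ 2 • R.T n + (g⁻¹)⁻¹ • R.H n = y.1
  have := congrArg (fun v => g ^ 2 • v) h
  simp only [smul_add, smul_smul, mul_inv_cancel₀ (pow_ne_zero 2 hg), one_smul] at this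
  rw [← this, inv_inv]
  congr 2
  field_simp

theorem nz1 (a : K) : a + a = 0 := by rw [← two_mul, two, zero_mul]

variable (hg1 : g ≠ 1)
include hg1

theorem gi1 : g⁻¹ ≠ 1 := fun h => hg1 (by rw [← inv_inv g, h, inv_one])

/-- row `r3` -/
theorem e3 (a : ℕ) (ha : a ≤ 2) {w : M} (hw : w ∈ R.P 1 (3 - (a : ℤ))) (e0 : R.X 0 w = 0)
    (e1 : R.X 1 w = 0) : w = 0 := by
  have := (R.fam hg two).r3 (inv_ne_zero hg) (gi1 hg two hB hg1) two a
    (fun y hy => f_i0 hg two hB a ha y hy) ⟨w, hw⟩ (Subtype.ext e0) (Subtype.ext e1)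
  exact congrArg Subtype.val this

/-- row `r0` -/
theorem e0 (a : ℕ) (ha : a ≤ 2) {y : M} (hy : y ∈ R.P 1 (3 - (a : ℤ) - 1)) :
    ∃ u0 ∈ R.P 0 (3 - (a : ℤ)), ∃ u1 ∈ R.P 0 (3 - (a : ℤ)), R.D 0 u0 + R.D 1 u1 = y := by
  obtain ⟨u0, u1, h⟩ := (R.fam hg two).r0 (inv_ne_zero hg) (gi1 hg two hB hg1) two a
    (f_s0 hg two hB a ha) ⟨y, R.mm (idx a).symm hy⟩
  refine ⟨g • u0.1, Submodule.smul_mem _ _ u0.2, g ^ 2 • u1.1, Submodule.smul_mem _ _ u1.2, ?_⟩
  rw [map_smul, map_smul]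
  exact congrArg Subtype.val h

/-- row `r2` -/
theorem e2 (a : ℕ) (ha : a ≤ 1) {z0 z1 : M} (h0 : z0 ∈ R.P 0 (3 - (a : ℤ)))
    (h1 : z1 ∈ R.P 0 (3 - (a : ℤ))) (c0 : R.n01 z0 + R.n11 z1 = 0)
    (c1 : R.n00 z0 + R.n10 z1 = 0) :
    ∃ w ∈ R.P 1 (3 - (a : ℤ)), z0 = R.X 1 w ∧ z1 = R.X 0 w := by
  obtain ⟨w, k0, k1⟩ := (R.fam hg two).r2 (inv_ne_zero hg) (gi1 hg two hB hg1) two a
    (f_s0 hg two hB a (by omega)) (f_i1 hg two hB a ha) ⟨g • z0, Submodule.smul_mem _ _ h0⟩ ⟨z1, h1⟩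
    (by
      apply Subtype.ext
      show g⁻¹ • (g⁻¹ ^ 2 • ((g⁻¹)⁻¹ • R.X 0 ((if (1 : Fin 2) = 0 then g else g ^ 2) •
        R.D 1 (g • z0))) + g⁻¹ • ((g⁻¹)⁻¹ • (R.X 1 ((if (1 : Fin 2) = 0 then g else g ^ 2) •
        R.D 1 z1) + R.H z1 + (g⁻¹ - 1) • ((g⁻¹)⁻¹ • (R.X 0 ((if (0 : Fin 2) = 0 then g else g ^ 2) •
        R.D 0 z1) + R.H z1))))) = 0
      rw [← c0, if_pos rfl, if_neg (by decide), n01, n11]
      simp only [map_smul]
      generalize R.H z1 = u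
      generalize R.X 0 (R.D 1 z0) = v
      generalize R.X 1 (R.D 1 z1) = w
      generalize R.X 0 (R.D 0 z1) = s
      linear_combination (norm := (match_scalars <;> field_simp <;> ring))
        ((1 - g) • two • s) + (g⁻¹ - 1) • two • u)
    (by
      apply Subtype.ext
      show g⁻¹ ^ 2 • ((g⁻¹)⁻¹ • (R.X 0 ((if (0 : Fin 2) = 0 then g else g ^ 2) • R.D 0 (g • z0)) +
        R.H (g • z0))) + g⁻¹ • R.X 1 ((if (0 : Fin 2) = 0 then g else g ^ 2) • R.D 0 z1) = 0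
      rw [← c1, if_pos rfl, n00, n10]
      simp only [map_smul]
      match_scalars <;> field_simp)
  have q0 : g • z0 = g⁻¹ • R.X 1 w.1 := congrArg Subtype.val k0
  have q1 : z1 = g⁻¹ ^ 2 • R.X 0 w.1 := congrArg Subtype.val k1
  refine ⟨g⁻¹ ^ 2 • w.1, Submodule.smul_mem _ _ w.2, ?_, ?_⟩
  · apply sc hg two hB hg
    rw [q0, map_smul, smul_smul]
    congr 1
    field_simp
  · rw [q1, map_smul]

/-- row `r1` -/
theorem e1 (a : ℕ) (ha : a ≤ 1) {u0 u1 : M} (h0 : u0 ∈ R.P 0 (3 - (a : ℤ) - 1))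
    (h1 : u1 ∈ R.P 0 (3 - (a : ℤ) - 1)) (c : R.D 0 u0 + R.D 1 u1 = 0) :
    ∃ z0 ∈ R.P 0 (3 - (a : ℤ)), ∃ z1 ∈ R.P 0 (3 - (a : ℤ)),
      R.n01 z0 + R.n11 z1 = u0 ∧ g • (R.n00 z0 + R.n10 z1) = u1 := by
  obtain ⟨z0, z1, k0, k1⟩ := (R.fam hg two).r1 (inv_ne_zero hg) (gi1 hg two hB hg1) two a
    (f_s1 hg two hB a ha) (f_i0 hg two hB (a + 1) (by omega))
    ⟨u0, R.mm (idx a).symm h0⟩ ⟨g⁻¹ • u1, Submodule.smul_mem _ _ (R.mm (idx a).symm h1)⟩
    (by
      apply Subtype.ext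
      show (if (0 : Fin 2) = 0 then g else g ^ 2) • R.D 0 u0 +
        (if (1 : Fin 2) = 0 then g else g ^ 2) • R.D 1 (g⁻¹ • u1) = 0
      rw [if_pos rfl, if_neg (by decide), map_smul, smul_smul,
        show g ^ 2 * g⁻¹ = g by field_simp, ← smul_add, c, smul_zero])
  refine ⟨g⁻¹ • z0.1, Submodule.smul_mem _ _ z0.2, z1.1, z1.2, ?_, ?_⟩
  · have q : g⁻¹ • (g⁻¹ ^ 2 • ((g⁻¹)⁻¹ • R.X 0 ((if (1 : Fin 2) = 0 then g else g ^ 2) •
        R.D 1 z0.1)) + g⁻¹ • ((g⁻¹)⁻¹ • (R.X 1 ((if (1 : Fin 2) = 0 then g else g ^ 2) •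
        R.D 1 z1.1) + R.H z1.1 + (g⁻¹ - 1) • ((g⁻¹)⁻¹ • (R.X 0 ((if (0 : Fin 2) = 0 then g
        else g ^ 2) • R.D 0 z1.1) + R.H z1.1))))) = u0 := congrArg Subtype.val k0
    rw [← q, if_pos rfl, if_neg (by decide), n01, n11]
    simp only [map_smul]
    generalize R.H z1.1 = u
    generalize R.X 0 (R.D 1 z0.1) = v
    generalize R.X 1 (R.D 1 z1.1) = w
    generalize R.X 0 (R.D 0 z1.1) = s
    linear_combination (norm := (match_scalars <;> field_simp <;> ring))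
      -((1 - g) • two • s) - (g⁻¹ - 1) • two • u
  · have q : g⁻¹ ^ 2 • ((g⁻¹)⁻¹ • (R.X 0 ((if (0 : Fin 2) = 0 then g else g ^ 2) • R.D 0 z0.1) +
        R.H z0.1)) + g⁻¹ • R.X 1 ((if (0 : Fin 2) = 0 then g else g ^ 2) • R.D 0 z1.1) =
        g⁻¹ • u1 := congrArg Subtype.val k1
    apply sc hg two hB (inv_ne_zero hg)
    rw [← q, if_pos rfl, n00, n10]
    simp only [map_smul]
    match_scalars <;> field_simp

end ROp

/-- right multiplication by the degree zero part of 44's table `c0` -/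
def ROp.tab {K : Type} [Field K] (π : Par K) {M : Type} [AddCommGroup M] [Module K M]
    (R : ROp K π.g M) : Cell → Cell → (M →ₗ[K] M)
  | some (.d j), none => R.D j
  | some (.z j), some (.d i) =>
      if j = 0 then (if i = 0 then π.g • R.X 0 ∘ₗ R.D 1 else π.g • (R.H + π.g • R.X 0 ∘ₗ R.D 0))
      else (if i = 0 then R.H + π.g • R.X 1 ∘ₗ R.D 1 + (π.g - 1) • R.X 0 ∘ₗ R.D 0
        else π.g • (R.X 1 ∘ₗ R.D 0))
  | some .zc, some (.z i) => if i = 0 then R.X 1 else R.X 0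
  | some .zc, some .f => R.H
  | some (.e j), some .f => π.c j • R.D j
  | some (.gj j), some (.e i) =>
      if j = 0 then (if i = 0 then ((π.c 0)⁻¹ * π.g) • (π.g • R.X 0 ∘ₗ R.D 1)
        else ((π.c 0)⁻¹ * π.g ^ 3) • (R.H + π.g • R.X 0 ∘ₗ R.D 0))
      else (if i = 0 then ((π.c 1)⁻¹ * π.g) • (R.H + π.g • R.X 1 ∘ₗ R.D 1 +
          (π.g - 1) • R.X 0 ∘ₗ R.D 0)
        else ((π.c 1)⁻¹ * π.g ^ 3) • (R.X 1 ∘ₗ R.D 0))
  | some .gc, some (.gj i) => if i = 0 then (π.c 1)⁻¹ • R.X 1 else (π.c 0)⁻¹ • R.X 0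
  | some (.v s), some (.u i) => if i = s then R.T + (π.g ^ 2)⁻¹ • R.H else 0
  | _, _ => 0

section tot

variable {K : Type} [Field K] (π : Par K) {M : Type} [AddCommGroup M] [Module K M]
  (R : ROp K π.g M)

theorem sum16 (F : Cell → M) : ∑ c, F c = F none + (F (some (.d 0)) + F (some (.d 1)) +
    F (some .f) + F (some (.z 0)) + F (some (.z 1)) + F (some .zc) + F (some (.u 0)) +
    F (some (.u 1)) + F (some (.e 0)) + F (some (.e 1)) + F (some (.gj 0)) + F (some (.gj 1)) +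
    F (some .gc) + F (some (.v 0)) + F (some (.v 1))) := by
  rw [C2b44.sumC, sumE]

theorem S_none (y : Cell → M) : ∑ c, R.tab π c none (y c) =
    R.D 0 (y (some (.d 0))) + R.D 1 (y (some (.d 1))) := by
  rw [sum16]; simp [ROp.tab]

theorem S_d0 (y : Cell → M) : ∑ c, R.tab π c (some (.d 0)) (y c) =
    R.n01 (y (some (.z 0))) + R.n11 (y (some (.z 1))) := by
  rw [sum16]; simp [ROp.tab, ROp.n01, ROp.n11]

theorem S_d1 (y : Cell → M) : ∑ c, R.tab π c (some (.d 1)) (y c) =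
    π.g • (R.n00 (y (some (.z 0))) + R.n10 (y (some (.z 1)))) := by
  rw [sum16]; simp [ROp.tab, ROp.n00, ROp.n10]

theorem S_f (y : Cell → M) : ∑ c, R.tab π c (some .f) (y c) =
    R.H (y (some .zc)) + (π.g ^ 2 • R.D 0 (y (some (.e 0))) + π.g • R.D 1 (y (some (.e 1)))) := by
  rw [sum16]; simp [ROp.tab, Par.c, add_assoc]

theorem S_z0 (y : Cell → M) : ∑ c, R.tab π c (some (.z 0)) (y c) = R.X 1 (y (some .zc)) := by
  rw [sum16]; simp [ROp.tab]

theorem S_z1 (y : Cell → M) : ∑ c, R.tab π c (some (.z 1)) (y c) = R.X 0 (y (some .zc)) := by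
  rw [sum16]; simp [ROp.tab]

theorem S_zc (y : Cell → M) : ∑ c, R.tab π c (some .zc) (y c) = 0 := by
  rw [sum16]; simp [ROp.tab]

theorem S_u (s : Fin 2) (y : Cell → M) : ∑ c, R.tab π c (some (.u s)) (y c) =
    R.T (y (some (.v s))) + (π.g ^ 2)⁻¹ • R.H (y (some (.v s))) := by
  rw [sum16]
  rcases Fin.exists_fin_two.1 ⟨s, rfl⟩ with h | h <;> subst h <;> simp [ROp.tab]

theorem S_e0 (y : Cell → M) : ∑ c, R.tab π c (some (.e 0)) (y c) =
    π.g⁻¹ • R.n01 (y (some (.gj 0))) + R.n11 (y (some (.gj 1))) := by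
  have g0 := π.g0
  rw [sum16]
  simp only [ROp.tab, ROp.n01, ROp.n11, Par.c, if_true, one_ne_zero, if_false,
    LinearMap.zero_apply, zero_add, add_zero, LinearMap.smul_apply, LinearMap.add_apply,
    LinearMap.comp_apply]
  rw [show (π.g ^ 2)⁻¹ * π.g = π.g⁻¹ by field_simp, inv_mul_cancel₀ g0, one_smul]

theorem S_e1 (y : Cell → M) : ∑ c, R.tab π c (some (.e 1)) (y c) =
    π.g ^ 2 • (π.g⁻¹ • R.n00 (y (some (.gj 0))) + R.n10 (y (some (.gj 1)))) := by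
  have g0 := π.g0
  rw [sum16]
  simp only [ROp.tab, ROp.n00, ROp.n10, Par.c, if_true, one_ne_zero, if_false,
    LinearMap.zero_apply, zero_add, add_zero, LinearMap.smul_apply, LinearMap.add_apply,
    LinearMap.comp_apply]
  rw [show (π.g ^ 2)⁻¹ * π.g ^ 3 = π.g ^ 2 * π.g⁻¹ by field_simp,
    show π.g⁻¹ * π.g ^ 3 = π.g ^ 2 by field_simp]
  simp only [smul_add, smul_smul, mul_assoc]

theorem S_g0 (y : Cell → M) : ∑ c, R.tab π c (some (.gj 0)) (y c) =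
    π.g⁻¹ • R.X 1 (y (some .gc)) := by
  rw [sum16]; simp [ROp.tab, Par.c]

theorem S_g1 (y : Cell → M) : ∑ c, R.tab π c (some (.gj 1)) (y c) =
    (π.g ^ 2)⁻¹ • R.X 0 (y (some .gc)) := by
  rw [sum16]; simp [ROp.tab, Par.c]

theorem S_gc (y : Cell → M) : ∑ c, R.tab π c (some .gc) (y c) = 0 := by
  rw [sum16]; simp [ROp.tab]

theorem S_v (s : Fin 2) (y : Cell → M) : ∑ c, R.tab π c (some (.v s)) (y c) = 0 := by
  rw [sum16]; simp [ROp.tab]

/-- sixteen values -/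
def cv (a : M) (d : Fin 2 → M) (f : M) (z : Fin 2 → M) (zc : M) (u e gj : Fin 2 → M) (gc : M)
    (v : Fin 2 → M) : Cell → M
  | none => a
  | some (.d j) => d j
  | some .f => f
  | some (.z j) => z j
  | some .zc => zc
  | some (.u s) => u s
  | some (.e j) => e j
  | some (.gj j) => gj j
  | some .gc => gc
  | some (.v s) => v s

/-- a condition on the sixteen cells -/
theorem all16 (p : Cell → Prop) (hn : p none) (hd0 : p (some (.d 0))) (hd1 : p (some (.d 1)))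
    (hf : p (some .f)) (hz0 : p (some (.z 0))) (hz1 : p (some (.z 1))) (hzc : p (some .zc))
    (hu0 : p (some (.u 0))) (hu1 : p (some (.u 1))) (he0 : p (some (.e 0))) (he1 : p (some (.e 1)))
    (hg0 : p (some (.gj 0))) (hg1 : p (some (.gj 1))) (hgc : p (some .gc)) (hv0 : p (some (.v 0)))
    (hv1 : p (some (.v 1))) : ∀ c, p c := by
  have two : ∀ q : Fin 2 → Prop, q 0 → q 1 → ∀ j, q j := fun q h0 h1 j => by
    rcases Fin.exists_fin_two.1 ⟨j, rfl⟩ with h | h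
    · rw [h]; exact h0
    · rw [h]; exact h1
  rintro (_ | c)
  · exact hn
  · cases c with
    | d j => exact two (fun j => p (some (.d j))) hd0 hd1 j
    | f => exact hf
    | z j => exact two (fun j => p (some (.z j))) hz0 hz1 j
    | zc => exact hzc
    | u j => exact two (fun j => p (some (.u j))) hu0 hu1 j
    | e j => exact two (fun j => p (some (.e j))) he0 he1 j
    | gj j => exact two (fun j => p (some (.gj j))) hg0 hg1 j
    | gc => exact hgc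
    | v j => exact two (fun j => p (some (.v j))) hv0 hv1 j

/-- membership in the columns of the cells -/
def Mem (y : Cell → M) : Prop :=
  ∀ c, y c ∈ R.P (C2x354.oc c).1 ((((C2x354.oc c).2.val : ℕ) : ℤ))

variable {R}

/-- **EXl for right modules**: the sixteen left cells with values in a right `H_0(L)`-module -/
theorem ROp.exact (hB : R.Bij) (r : ℕ) (y : Cell → M) (hy : Mem π R y)
    (h0 : ∀ c, cdeg c ≠ r → y c = 0)
    (hc : ∀ c', cdeg c' + 1 = r → ∑ c, R.tab π c c' (y c) = 0) :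
    ∃ w : Cell → M, Mem π R w ∧ (∀ c, cdeg c ≠ r + 1 → w c = 0) ∧
      ∀ c', cdeg c' = r → y c' = ∑ c, R.tab π c c' (w c) := by
  have g0 := π.g0
  have g1 : π.g ≠ 1 := fun h => π.gn 1 one_pos (by rw [h, one_pow])
  have tw := π.two
  have k0 : ∀ c, y c = 0 ∨ cdeg c = r := fun c => by
    by_cases h : cdeg c = r
    · exact Or.inr h
    · exact Or.inl (h0 c h)
  match r, h0, hc with
  | 0, h0, hc =>
    obtain ⟨u0, m0, u1, m1, h⟩ := ROp.e0 g0 tw hB g1 2 (by norm_num) (y := y none)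
      (by simpa [C2x354.oc] using hy none)
    refine ⟨cv 0 ![u0, u1] 0 0 0 0 0 0 0 0, ?_, ?_, ?_⟩
    · refine all16 _ ?_ ?_ ?_ ?_ ?_ ?_ ?_ ?_ ?_ ?_ ?_ ?_ ?_ ?_ ?_ ?_ <;>
        first | exact Submodule.zero_mem _ | skip
      · simpa [C2x354.oc, cv] using m0
      · simpa [C2x354.oc, cv] using m1
    · refine all16 _ ?_ ?_ ?_ ?_ ?_ ?_ ?_ ?_ ?_ ?_ ?_ ?_ ?_ ?_ ?_ ?_ <;>
        first | exact fun _ => rfl | exact fun h => absurd rfl h
    · refine all16 _ ?_ ?_ ?_ ?_ ?_ ?_ ?_ ?_ ?_ ?_ ?_ ?_ ?_ ?_ ?_ ?_ <;>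
        first | (intro h; exact absurd h (by decide)) | skip
      intro _
      rw [S_none]
      exact h.symm
  | 1, h0, hc =>
    have h1 := hc none rfl
    rw [S_none] at h1
    obtain ⟨z0, m0, z1, m1, q0, q1⟩ := ROp.e1 g0 tw hB g1 1 (by norm_num)
      (by simpa [C2x354.oc] using hy (some (.d 0))) (by simpa [C2x354.oc] using hy (some (.d 1))) h1
    refine ⟨cv 0 0 0 ![z0, z1] 0 0 0 0 0 0, ?_, ?_, ?_⟩
    · refine all16 _ ?_ ?_ ?_ ?_ ?_ ?_ ?_ ?_ ?_ ?_ ?_ ?_ ?_ ?_ ?_ ?_ <;>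
        first | exact Submodule.zero_mem _ | skip
      · have : z0 ∈ R.P 0 2 := by simpa using m0
        simpa [C2x354.oc, cv] using this
      · have : z1 ∈ R.P 0 2 := by simpa using m1
        simpa [C2x354.oc, cv] using this
    · refine all16 _ ?_ ?_ ?_ ?_ ?_ ?_ ?_ ?_ ?_ ?_ ?_ ?_ ?_ ?_ ?_ ?_ <;>
        first | exact fun _ => rfl | exact fun h => absurd rfl h
    · refine all16 _ ?_ ?_ ?_ ?_ ?_ ?_ ?_ ?_ ?_ ?_ ?_ ?_ ?_ ?_ ?_ ?_ <;>
        first | (intro h; exact absurd h (by decide)) | skip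
      · intro _
        rw [S_d0]
        exact q0.symm
      · intro _
        rw [S_d1]
        exact q1.symm
  | 2, h0, hc =>
    have h1 := hc (some (.d 0)) rfl
    have h2 := hc (some (.d 1)) rfl
    rw [S_d0] at h1
    rw [S_d1, smul_eq_zero] at h2
    have h2 := h2.resolve_left g0
    obtain ⟨w, mw, q0, q1⟩ := ROp.e2 g0 tw hB g1 1 (by norm_num)
      (by simpa [C2x354.oc] using hy (some (.z 0))) (by simpa [C2x354.oc] using hy (some (.z 1))) h1 h2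
    have mw' : w ∈ R.P 1 2 := by simpa using mw
    have mH : R.H w ∈ R.P 1 1 := by simpa using R.H_mem 1 2 mw'
    have mf : y (some .f) ∈ R.P 1 1 := by simpa [C2x354.oc] using hy (some .f)
    obtain ⟨u0, m0, u1, m1, h⟩ := ROp.e0 g0 tw hB g1 1 (by norm_num) (y := y (some .f) - R.H w)
      (by simpa using Submodule.sub_mem _ mf mH)
    have m0' : u0 ∈ R.P 0 2 := by simpa using m0
    have m1' : u1 ∈ R.P 0 2 := by simpa using m1
    have mu : y (some (.u 0)) ∈ R.P 1 (2 - 1) := by simpa [C2x354.oc] using hy (some (.u 0))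
    obtain ⟨v, mv, hv⟩ := hB.s1 2 (by norm_num) (by norm_num) _ mu
    refine ⟨cv 0 0 0 0 w 0 ![(π.g ^ 2)⁻¹ • u0, π.g⁻¹ • u1] 0 0 ![v, 0], ?_, ?_, ?_⟩
    · refine all16 _ ?_ ?_ ?_ ?_ ?_ ?_ ?_ ?_ ?_ ?_ ?_ ?_ ?_ ?_ ?_ ?_ <;>
        first | exact Submodule.zero_mem _ | skip
      · simpa [C2x354.oc, cv] using mw'
      · simpa [C2x354.oc, cv] using Submodule.smul_mem _ (π.g ^ 2)⁻¹ m0'
      · simpa [C2x354.oc, cv] using Submodule.smul_mem _ π.g⁻¹ m1'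
      · simpa [C2x354.oc, cv] using mv
    · refine all16 _ ?_ ?_ ?_ ?_ ?_ ?_ ?_ ?_ ?_ ?_ ?_ ?_ ?_ ?_ ?_ ?_ <;>
        first | exact fun _ => rfl | exact fun h => absurd rfl h
    · refine all16 _ ?_ ?_ ?_ ?_ ?_ ?_ ?_ ?_ ?_ ?_ ?_ ?_ ?_ ?_ ?_ ?_ <;>
        first | (intro h; exact absurd h (by decide)) | skip
      · intro _
        rw [S_f]
        show y (some .f) = R.H w + (π.g ^ 2 • R.D 0 ((π.g ^ 2)⁻¹ • u0) + π.g • R.D 1 (π.g⁻¹ • u1))
        rw [map_smul, map_smul, smul_inv_smul₀ (pow_ne_zero 2 g0), smul_inv_smul₀ g0, h]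
        abel
      · intro _
        rw [S_z0]
        exact q0
      · intro _
        rw [S_z1]
        exact q1
      · intro _
        rw [S_u]
        exact hv.symm
  | 3, h0, hc =>
    have h1 := hc (some (.z 0)) rfl
    have h2 := hc (some (.z 1)) rfl
    have h3 := hc (some .f) rfl
    have h4 := hc (some (.u 0)) rfl
    rw [S_z0] at h1
    rw [S_z1] at h2
    rw [S_u] at h4
    have mzc : y (some .zc) ∈ R.P 1 2 := by simpa [C2x354.oc] using hy (some .zc)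
    have zc0 : y (some .zc) = 0 := ROp.e3 g0 tw hB g1 1 (by norm_num)
      (by simpa using mzc) h2 h1
    rw [S_f, zc0, map_zero, zero_add] at h3
    have me0 : y (some (.e 0)) ∈ R.P 0 2 := by simpa [C2x354.oc] using hy (some (.e 0))
    have me1 : y (some (.e 1)) ∈ R.P 0 2 := by simpa [C2x354.oc] using hy (some (.e 1))
    have h5 : R.D 0 (y (some (.e 0))) + R.D 1 (π.g⁻¹ • y (some (.e 1))) = 0 := by
      have h6 : π.g ^ 2 • (R.D 0 (y (some (.e 0))) + R.D 1 (π.g⁻¹ • y (some (.e 1)))) = 0 := by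
        rw [smul_add, map_smul, smul_smul, show π.g ^ 2 * π.g⁻¹ = π.g by field_simp]
        exact h3
      exact (smul_eq_zero.1 h6).resolve_left (pow_ne_zero 2 g0)
    obtain ⟨z0, m0, z1, m1, q0, q1⟩ := ROp.e1 g0 tw hB g1 0 (by norm_num)
      (by simpa using me0) (by simpa using Submodule.smul_mem _ π.g⁻¹ me1) h5
    have m0' : z0 ∈ R.P 0 3 := by simpa using m0
    have m1' : z1 ∈ R.P 0 3 := by simpa using m1
    have mv0 : y (some (.v 0)) ∈ R.P 1 2 := by simpa [C2x354.oc] using hy (some (.v 0))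
    have v0 : y (some (.v 0)) = 0 := hB.i1 2 (by norm_num) (by norm_num) _ mv0 h4
    have mu : y (some (.u 1)) ∈ R.P 1 (3 - 1) := by simpa [C2x354.oc] using hy (some (.u 1))
    obtain ⟨v, mv, hv⟩ := hB.s1 3 (by norm_num) (by norm_num) _ mu
    refine ⟨cv 0 0 0 0 0 0 0 ![π.g • z0, z1] 0 ![0, v], ?_, ?_, ?_⟩
    · refine all16 _ ?_ ?_ ?_ ?_ ?_ ?_ ?_ ?_ ?_ ?_ ?_ ?_ ?_ ?_ ?_ ?_ <;>
        first | exact Submodule.zero_mem _ | skip
      · simpa [C2x354.oc, cv] using Submodule.smul_mem _ π.g m0'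
      · simpa [C2x354.oc, cv] using m1'
      · simpa [C2x354.oc, cv] using mv
    · refine all16 _ ?_ ?_ ?_ ?_ ?_ ?_ ?_ ?_ ?_ ?_ ?_ ?_ ?_ ?_ ?_ ?_ <;>
        first | exact fun _ => rfl | exact fun h => absurd rfl h
    · refine all16 _ ?_ ?_ ?_ ?_ ?_ ?_ ?_ ?_ ?_ ?_ ?_ ?_ ?_ ?_ ?_ ?_ <;>
        first | (intro h; exact absurd h (by decide)) | skip
      · intro _
        rw [S_zc]
        exact zc0
      · intro _
        rw [S_u]
        exact hv.symm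
      · intro _
        rw [S_e0]
        show _ = π.g⁻¹ • R.n01 (π.g • z0) + R.n11 z1
        rw [R.n01_smul, inv_smul_smul₀ g0, q0]
      · intro _
        rw [S_e1]
        show _ = π.g ^ 2 • (π.g⁻¹ • R.n00 (π.g • z0) + R.n10 z1)
        rw [R.n00_smul, inv_smul_smul₀ g0, pow_two, mul_smul, q1, smul_inv_smul₀ g0]
      · intro _
        rw [S_v]
        exact v0
  | 4, h0, hc =>
    have h1 := hc (some (.e 0)) rfl
    have h2 := hc (some (.e 1)) rfl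
    have h4 := hc (some (.u 1)) rfl
    rw [S_e0] at h1
    rw [S_e1, smul_eq_zero] at h2
    have h2 := h2.resolve_left (pow_ne_zero 2 g0)
    rw [S_u] at h4
    have mg0 : y (some (.gj 0)) ∈ R.P 0 3 := by simpa [C2x354.oc] using hy (some (.gj 0))
    have mg1 : y (some (.gj 1)) ∈ R.P 0 3 := by simpa [C2x354.oc] using hy (some (.gj 1))
    have mv1 : y (some (.v 1)) ∈ R.P 1 3 := by simpa [C2x354.oc] using hy (some (.v 1))
    have v1 : y (some (.v 1)) = 0 := hB.i1 3 (by norm_num) (by norm_num) _ mv1 h4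
    obtain ⟨w, mw, q0, q1⟩ := ROp.e2 g0 tw hB g1 0 (by norm_num)
      (z0 := π.g⁻¹ • y (some (.gj 0))) (z1 := y (some (.gj 1)))
      (by simpa using Submodule.smul_mem _ π.g⁻¹ mg0) (by simpa using mg1)
      (by rw [R.n01_smul]; exact h1) (by rw [R.n00_smul]; exact h2)
    have mw' : w ∈ R.P 1 3 := by simpa using mw
    refine ⟨cv 0 0 0 0 0 0 0 0 (π.g ^ 2 • w) 0, ?_, ?_, ?_⟩
    · refine all16 _ ?_ ?_ ?_ ?_ ?_ ?_ ?_ ?_ ?_ ?_ ?_ ?_ ?_ ?_ ?_ ?_ <;>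
        first | exact Submodule.zero_mem _ | skip
      simpa [C2x354.oc, cv] using Submodule.smul_mem _ (π.g ^ 2) mw'
    · refine all16 _ ?_ ?_ ?_ ?_ ?_ ?_ ?_ ?_ ?_ ?_ ?_ ?_ ?_ ?_ ?_ ?_ <;>
        first | exact fun _ => rfl | exact fun h => absurd rfl h
    · refine all16 _ ?_ ?_ ?_ ?_ ?_ ?_ ?_ ?_ ?_ ?_ ?_ ?_ ?_ ?_ ?_ ?_ <;>
        first | (intro h; exact absurd h (by decide)) | skip
      · intro _
        rw [S_g0]
        show _ = π.g⁻¹ • R.X 1 (π.g ^ 2 • w)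
        rw [map_smul, ← q0, pow_two, mul_smul, inv_smul_smul₀ g0, smul_inv_smul₀ g0]
      · intro _
        rw [S_g1]
        show _ = (π.g ^ 2)⁻¹ • R.X 0 (π.g ^ 2 • w)
        rw [map_smul, inv_smul_smul₀ (pow_ne_zero 2 g0), q1]
      · intro _
        rw [S_v]
        exact v1
  | 5, h0, hc =>
    have h1 := hc (some (.gj 0)) rfl
    have h2 := hc (some (.gj 1)) rfl
    rw [S_g0, smul_eq_zero] at h1
    rw [S_g1, smul_eq_zero] at h2
    have h1 := h1.resolve_left (inv_ne_zero g0)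
    have h2 := h2.resolve_left (inv_ne_zero (pow_ne_zero 2 g0))
    have mgc : y (some .gc) ∈ R.P 1 3 := by simpa [C2x354.oc] using hy (some .gc)
    have gc0 : y (some .gc) = 0 := ROp.e3 g0 tw hB g1 0 (by norm_num)
      (by simpa using mgc) h2 h1
    refine ⟨0, fun c => Submodule.zero_mem _, fun c _ => rfl, ?_⟩
    refine all16 _ ?_ ?_ ?_ ?_ ?_ ?_ ?_ ?_ ?_ ?_ ?_ ?_ ?_ ?_ ?_ ?_ <;>
      first | (intro h; exact absurd h (by decide)) | skip
    intro _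
    rw [S_gc]
    exact gc0
  | r + 6, h0, hc =>
    refine ⟨0, fun c => Submodule.zero_mem _, fun c _ => rfl, ?_⟩
    refine all16 _ ?_ ?_ ?_ ?_ ?_ ?_ ?_ ?_ ?_ ?_ ?_ ?_ ?_ ?_ ?_ ?_ <;>
      (intro h; exfalso; simp [cdeg] at h; try omega)

end tot

end Crest.Agent.R186.ExT698
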