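import Crest.Agent.R186.C2b_362
import Crest.Agent.R186.WL2_221
import Crest.Agent.R186.C2x_354

/-!
Row 186, half (A), leaf A.WL (4) / (f1) (helper390): the sixteen cells over the window of
`R' = R''/(W_+)` (first presented abstractly by `QW π` : a window data `w` with a map
`pr : R'' → w.S` of kernel `J`, compatible with `D` and the pieces).

* `KKc π : GLC (WL π)` : the sixteen cells over 221's `WL π`;
* `KKres π : (KKc π).Res (VWL (hr π) (-1))` : they resolve `V_{-1}`; `preKK π` over the window algebra;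
* `KK_hom_pos : 0 ≤ n → (KKc π).HomEx (VWL (hr π) n)`,
  `KK_hom_inv : n ≤ -2 → (KKc π).HomEx (VWL (hi π) n)`.
-/

set_option autoImplicit false
set_option linter.style.haveILetI false

noncomputable section

namespace Crest.Agent.R186.F1_390

open Crest.Agent.R186.DefsQ830 Crest.Agent.R186.PBW128 Crest.Agent.R186.Der580
open Crest.Agent.R186.VOp220 Crest.Agent.R186.Vmod220
open Crest.Agent.R186.Cells221 Crest.Agent.R186.C2b362
open Crest.Agent.R186.Win810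

variable {K : Type} [Field K] {π : Par K}

/-! ### the table is homogeneous -/

theorem cc_pz (σ τ : Cell) :
    cc π σ τ ∈ pz π (cP σ - cP τ) (cA σ - cA τ) ((cdeg σ : ℤ) - cdeg τ - 1) := by
  cases σ with
  | none => exact Submodule.zero_mem _
  | some l =>
    cases τ with
    | none =>
      have h : X π l.toGen ∈ pc π l.toGen.dP l.toGen.dA l.toGen.dC := PBW128.X_mem_pc π _
      rw [← mem_pz_nat] at h
      refine pz_cast h ?_ ?_ ?_
      · rw [cP_some]; simp [cP]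
      · simp [cA]
      · rw [cdeg_some]; simp [cdeg]
    | some l' =>
      show cf π l l' ∈ _
      rcases cf_mem π l l' with h | ⟨A, C, h1, h2, h⟩
      · rw [h]; exact Submodule.zero_mem _
      · rw [← mem_pz_nat] at h
        refine pz_cast h ?_ ?_ ?_
        · rw [cP_some, cP_some]
        · simp only [cA]; omega
        · rw [cdeg_some, cdeg_some]; omega

/-- a window of `R'` -/
structure QW (π : Par K) where
  w : WD K
  pr : R π →ₐ[K] w.S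
  ker : ∀ r, pr r = 0 ↔ r ∈ J π
  D_pr : ∀ r, w.D (pr r) = pr (D π r)
  pc_eq : ∀ P A C, w.pc P A C = (pz π P A C).map pr.toLinearMap
  oc : Cell → w.Ob
  oP : ∀ c, w.P (oc c) = 1 + cP c
  oA : ∀ c, w.A (oc c) = cA c

namespace QW

variable (Q : QW π)

theorem mem_pc {P A C : ℤ} {a : Q.w.S} :
    a ∈ Q.w.pc P A C ↔ ∃ r ∈ pz π P A C, Q.pr r = a := by
  rw [Q.pc_eq]; rfl

/-- lifting entries of the window -/
theorem mem_q {i j : Q.w.Ob} {C : ℤ} {a : Q.w.S} :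
    a ∈ Q.w.q i j C ↔ ∃ r ∈ pz π (Q.w.P i - Q.w.P j) (Q.w.A i - Q.w.A j) C, Q.pr r = a :=
  Q.mem_pc

theorem pr_mem {i : Q.w.Ob} {σ : Cell} {C : ℤ} {r : R π}
    (h : r ∈ pz π (Q.w.P i - 1 - cP σ) (Q.w.A i - cA σ) C) : Q.pr r ∈ Q.w.q i (Q.oc σ) C := by
  rw [mem_q]
  refine ⟨r, pz_cast h ?_ ?_ rfl, rfl⟩
  · rw [Q.oP]; ring
  · rw [Q.oA]

theorem lift {i : Q.w.Ob} {σ : Cell} {C : ℤ} {a : Q.w.S} (h : a ∈ Q.w.q i (Q.oc σ) C) :
    ∃ r ∈ pz π (Q.w.P i - 1 - cP σ) (Q.w.A i - cA σ) C, Q.pr r = a := by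
  obtain ⟨r, hr, h1⟩ := Q.mem_q.1 h
  refine ⟨r, pz_cast hr ?_ ?_ rfl, h1⟩
  · rw [Q.oP]; ring
  · rw [Q.oA]

/-- the attaching elements -/
def c (σ τ : Cell) : Q.w.S := Q.pr (cc π σ τ)

/-- cells of degree at most `m` -/
def F (m : ℕ) : Finset Cell := Finset.univ.filter fun σ => cdeg σ ≤ m

omit Q in
theorem mem_F (m : ℕ) (σ : Cell) : σ ∈ F m ↔ cdeg σ ≤ m := by simp [F]

theorem c_mem (σ τ : Cell) : Q.c σ τ ∈ Q.w.q (Q.oc σ) (Q.oc τ) ((cdeg σ : ℤ) - cdeg τ - 1) := by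
  rw [mem_q]
  refine ⟨cc π σ τ, pz_cast (cc_pz σ τ) ?_ ?_ rfl, rfl⟩
  · rw [Q.oP, Q.oP]; ring
  · rw [Q.oA, Q.oA]

omit Q in
theorem cc_zero {σ τ : Cell} (h : cdeg σ ≤ cdeg τ) : cc π σ τ = 0 :=
  pz_neg (Or.inr (by omega)) (cc_pz σ τ)

theorem mc (σ τ : Cell) : Q.w.D (Q.c σ τ) + ∑ ρ ∈ F (cdeg σ), Q.c σ ρ * Q.c ρ τ = 0 := by
  have h1 : ∑ ρ ∈ F (cdeg σ), Q.c σ ρ * Q.c ρ τ = ∑ ρ, Q.c σ ρ * Q.c ρ τ := by
    refine Finset.sum_subset (Finset.subset_univ _) fun ρ _ hρ => ?_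
    rw [mem_F] at hρ
    unfold c
    rw [cc_zero (by omega), map_zero, zero_mul]
  rw [h1]
  unfold c
  rw [Q.D_pr]
  simp only [← map_mul]
  rw [← map_sum, ← map_add, Q.ker]
  exact cc_mc σ τ

/-- rows: the lifted cocycle condition -/
theorem row_J {m : ℕ} {i : Q.w.Ob} {x : Cell → Q.w.S} {X : Cell → R π}
    (hX : ∀ σ, X σ ∈ pz π (Q.w.P i - 1 - cP σ) (Q.w.A i - cA σ) ((m : ℤ) - cdeg σ))
    (hx : ∀ σ, Q.pr (X σ) = x σ) (τ : Cell)
    (h : Q.w.D (x τ) + ∑ σ ∈ F m, x σ * Q.c σ τ = 0) :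
    D π (X τ) + ∑ σ, X σ * cc π σ τ ∈ J π := by
  rw [← Q.ker, map_add, map_sum, ← Q.D_pr, hx]
  rw [← h]
  congr 1
  rw [eq_comm]
  have : ∀ σ, Q.pr (X σ * cc π σ τ) = x σ * Q.c σ τ := fun σ => by rw [map_mul, hx]; rfl
  simp only [this]
  refine Finset.sum_subset (Finset.subset_univ _) fun σ _ hσ => ?_
  rw [mem_F] at hσ
  rw [← hx, pz_neg (Or.inr (by omega)) (hX σ), map_zero, zero_mul]

theorem row_eq {m : ℕ} {i : Q.w.Ob} {x : Cell → Q.w.S} {X Y : Cell → R π}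
    (hY : ∀ σ, Y σ ∈ pz π (Q.w.P i - 1 - cP σ) (Q.w.A i - cA σ) ((m : ℤ) - cdeg σ))
    (hx : ∀ σ, Q.pr (X σ) = x σ) (τ : Cell)
    (h : X τ - (D π (Y τ) + ∑ σ, Y σ * cc π σ τ) ∈ J π) :
    x τ = Q.w.D (Q.pr (Y τ)) + ∑ σ ∈ F m, Q.pr (Y σ) * Q.c σ τ := by
  rw [← Q.ker, map_sub, sub_eq_zero, hx] at h
  rw [h, map_add, map_sum, Q.D_pr]
  congr 1
  rw [eq_comm]
  have : ∀ σ, Q.pr (Y σ * cc π σ τ) = Q.pr (Y σ) * Q.c σ τ := fun σ => by rw [map_mul]; rfl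
  simp only [this]
  refine Finset.sum_subset (Finset.subset_univ _) fun σ _ hσ => ?_
  rw [mem_F] at hσ
  rw [pz_neg (Or.inr (by omega)) (hY σ), map_zero, zero_mul]

/-- **exactness in positive degrees** -/
theorem exR (m : ℕ) (i : Q.w.Ob) (x : Cell → Q.w.S)
    (hx : ∀ σ, x σ ∈ Q.w.q i (Q.oc σ) ((m : ℤ) + 1 - cdeg σ))
    (h : ∀ τ, Q.w.D (x τ) + ∑ σ ∈ F (m + 1), x σ * Q.c σ τ = 0) :
    ∃ y : Cell → Q.w.S, (∀ σ, y σ ∈ Q.w.q i (Q.oc σ) ((m : ℤ) + 2 - cdeg σ)) ∧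
      ∀ τ, x τ = Q.w.D (y τ) + ∑ σ ∈ F (m + 2), y σ * Q.c σ τ := by
  choose X hX hXx using fun σ => Q.lift (hx σ)
  obtain ⟨Y, _, hY, hYX⟩ := exR_mod (P := Q.w.P i - 1) (A := Q.w.A i) (C := (m : ℤ) + 1)
    (by omega) X hX (fun τ => by
      refine Q.row_J (m := m + 1) (i := i) (x := x) ?_ hXx τ (h τ)
      intro σ
      exact pz_cast (hX σ) rfl rfl (by push_cast; ring))
  have hY' : ∀ σ, Y σ ∈ pz π (Q.w.P i - 1 - cP σ) (Q.w.A i - cA σ) (((m + 2 : ℕ) : ℤ) - cdeg σ) :=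
    fun σ => pz_cast (hY σ) rfl rfl (by push_cast; ring)
  refine ⟨fun σ => Q.pr (Y σ), fun σ => Q.pr_mem (pz_cast (hY σ) rfl rfl (by ring)), fun τ => ?_⟩
  exact Q.row_eq hY' hXx τ (hYX τ)

/-- **exactness in degree zero** -/
theorem exR0 (i : Q.w.Ob) (x : Cell → Q.w.S)
    (hx : ∀ σ, x σ ∈ Q.w.q i (Q.oc σ) (-(cdeg σ : ℤ)))
    (h : ∀ r : R π, Q.pr r = x none → Vmod220.rep π r (mon K 0 0) = 0) :
    ∃ y : Cell → Q.w.S, (∀ σ, y σ ∈ Q.w.q i (Q.oc σ) ((1 : ℤ) - cdeg σ)) ∧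
      ∀ τ, x τ = Q.w.D (y τ) + ∑ σ ∈ F 1, y σ * Q.c σ τ := by
  choose X hX hXx using fun σ => Q.lift (hx σ)
  have hX0 : ∀ σ, X σ ∈ pz π (Q.w.P i - 1 - cP σ) (Q.w.A i - cA σ) (0 - cdeg σ) :=
    fun σ => pz_cast (hX σ) rfl rfl (by ring)
  have hz : ∀ σ, σ ≠ none → X σ = 0 := by
    intro σ hσ
    refine pz_neg (Or.inr ?_) (hX σ)
    cases σ with
    | none => exact absurd rfl hσ
    | some l =>
      have : (cdeg (some l) : ℤ) = l.toGen.dC + 1 := cdeg_some l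
      omega
  have hD : ∀ τ, D π (X τ) = 0 := fun τ =>
    pz_neg (Or.inr (by have := cdeg τ; omega)) (D_pz (hX0 τ))
  obtain ⟨Y, _, hY, hYX⟩ := exR0_mod (P := Q.w.P i - 1) (A := Q.w.A i) X hX0 (fun τ => by
      rw [hD, zero_add, Finset.sum_eq_zero]
      · exact Submodule.zero_mem _
      · intro σ _
        cases σ with
        | none => show X none * 0 = 0; rw [mul_zero]
        | some l => rw [hz _ (by simp), zero_mul]) (h _ (hXx none))
  have hY' : ∀ σ, Y σ ∈ pz π (Q.w.P i - 1 - cP σ) (Q.w.A i - cA σ) (((1 : ℕ) : ℤ) - cdeg σ) :=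
    fun σ => pz_cast (hY σ) rfl rfl (by push_cast; ring)
  refine ⟨fun σ => Q.pr (Y σ), fun σ => Q.pr_mem (pz_cast (hY σ) rfl rfl (by ring)), fun τ => ?_⟩
  exact Q.row_eq hY' hXx τ (hYX τ)

/-- **generation** -/
theorem gen (i : Q.w.Ob) (hA : 0 ≤ Q.w.A i) {u : Pol K} (hu : u ∈ hom K (Q.w.P i - 1)) :
    ∃ r : R π, Q.pr r ∈ Q.w.q i (Q.oc none) 0 ∧ Vmod220.rep π r (mon K 0 0) = u := by
  obtain ⟨r, hr, h⟩ := gen_mod (π := π) (Q.w.A i).toNat hu
  refine ⟨r, Q.pr_mem (pz_cast hr ?_ ?_ rfl), h⟩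
  · simp [cP]
  · simp [cA, hA]

theorem F0_sum {M : Type*} [AddCommMonoid M] (f : Cell → M) : ∑ τ ∈ F 0, f τ = f none := by
  refine Finset.sum_eq_single none ?_ ?_
  · intro τ hτ h
    rw [mem_F] at hτ
    cases τ with
    | none => exact absurd rfl h
    | some l =>
      have : (cdeg (some l) : ℤ) = l.toGen.dC + 1 := cdeg_some l
      omega
  · intro h
    exact absurd ((mem_F 0 none).2 (le_refl _)) h

end QW

/-! ### the sixteen cells over 221's `WL π` -/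

open WL221

theorem pz_pcZ (P A C : ℤ) : pz π P A C = pcZ π P A C := by
  rw [pz_eq, pcZ]

variable (π) in
/-- the window of `R'` -/
def QL : QW π where
  w := WL π
  pr := prL π
  ker _ := prL_eq_zero_iff.trans mem_J.symm
  D_pr r := DL_prL r
  pc_eq P A C := by
    rw [pz_pcZ]
    exact (map_pcZ_prL P A C).symm
  oc := C2x354.oc
  oP := C2x354.oc_fst
  oA c := (C2x354.oc_snd c).trans (by cases c <;> rfl)

variable (π) in
/-- **the sixteen cells** over the window of `R'` -/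
def KKc : GLC (WL π) where
  ι := Cell
  s := cdeg
  F := QW.F
  mem_F := QW.mem_F
  o := C2x354.oc
  c := (QL π).c
  c_mem := (QL π).c_mem
  mc := (QL π).mc

theorem rho_c (h : HRep π) (n : ℤ) (σ τ : Cell) (v : Pol K) :
    (VWL h n).rho ((QL π).c σ τ) v = h.rho (cc π σ τ) v :=
  congrArg (fun T : Module.End K (Pol K) => T v) (VWL_rho h n (cc π σ τ))

/-- the augmentation values -/
def v0 (K : Type) [Field K] : Cell → Pol K
  | none => mon K 0 0
  | some _ => 0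

/-- a row carried by the base cell -/
def xg (r : R π) : Cell → RL π
  | none => prL π r
  | some _ => 0

variable (π) in
/-- **the sixteen cells resolve `V_{-1}`** -/
def KKres : (KKc π).Res (VWL (hr π) (-1)) where
  v := v0 K
  v_mem σ := by
    cases σ with
    | none =>
      change mon K 0 0 ∈ hom K (-1 + ((((1 : Fin 2)).val : ℕ) : ℤ))
      have : (-1 + ((((1 : Fin 2)).val : ℕ) : ℤ)) = 0 := by simp
      rw [this]
      exact mon_mem (by simp)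
    | some l => exact Submodule.zero_mem _
  v_zero σ h := by
    cases σ with
    | none => exact absurd rfl h
    | some l => rfl
  v_aug σ _ := by
    change Cell at σ
    change ∑ τ ∈ QW.F 0, (VWL (WL221.hr π) (-1)).rho ((QL π).c σ τ) (v0 K τ) = 0
    rw [QW.F0_sum, rho_c]
    cases σ with
    | none =>
      exact (congrArg (fun T : Module.End K (Pol K) => T (mon K 0 0))
        (map_zero (WL221.hr π).rho)).trans rfl
    | some l => exact rep_E1 l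
  exR := (QL π).exR
  exR0 i x hx h := by
    refine (QL π).exR0 i x hx fun r hr' => ?_
    change ∑ τ ∈ QW.F 0, (VWL (WL221.hr π) (-1)).rho (x τ) (v0 K τ) = 0 at h
    rw [QW.F0_sum] at h
    refine Eq.trans ?_ h
    rw [← hr']
    exact (congrArg (fun T : Module.End K (Pol K) => T (mon K 0 0)) (VWL_rho (WL221.hr π) (-1) r)).symm
  gen i u hu := by
    have hu' : u ∈ hom K ((WL π).P i - 1) := by
      change u ∈ hom K (-1 + (WL π).P i) at hu
      rwa [show -1 + (WL π).P i = (WL π).P i - 1 by ring] at hu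
    obtain ⟨r, hr, h⟩ := (QL π).gen i (Int.natCast_nonneg _) hu'
    refine ⟨xg r, fun σ => ?_, ?_⟩
    · cases σ with
      | none => exact hr
      | some l => exact Submodule.zero_mem _
    · change ∑ τ ∈ QW.F 0, (VWL (WL221.hr π) (-1)).rho (xg r τ) (v0 K τ) = u
      rw [QW.F0_sum, ← h]
      exact congrArg (fun T : Module.End K (Pol K) => T (mon K 0 0)) (VWL_rho (WL221.hr π) (-1) r)

variable (π) in
/-- the resolution of `V_{-1}` over the window algebra -/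
noncomputable def preKK : SemiFree515.Pre (WL π).dga (VWL (hr π) (-1)).VM := (KKres π).toPre

/-! ### (f1) -/

theorem sum_all (h : HRep π) {k : ℕ} {φ : Cell → Pol K} (h0 : ∀ c, cdeg c ≠ k → φ c = 0)
    (σ : Cell) : ∑ τ ∈ QW.F k, h.rho (cc π σ τ) (φ τ) = ∑ τ, h.rho (cc π σ τ) (φ τ) := by
  refine Finset.sum_subset (Finset.subset_univ _) fun τ _ hτ => ?_
  rw [QW.mem_F] at hτ
  rw [h0 τ (by omega), map_zero]

theorem sum_zero (h : HRep π) {k : ℕ} {φ : Cell → Pol K} (h0 : ∀ c, cdeg c ≠ k → φ c = 0)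
    {σ : Cell} (hσ : cdeg σ ≠ k + 1) : ∑ τ, h.rho (cc π σ τ) (φ τ) = 0 := by
  refine Finset.sum_eq_zero fun τ _ => ?_
  by_cases hτ : cdeg τ = k
  · by_cases h1 : cdeg σ ≤ k
    · rw [QW.cc_zero (by omega), map_zero]
      rfl
    · have h2 := cc_pz (π := π) σ τ
      rw [pz_pcZ] at h2
      exact h.pos' (by omega) h2 _
  · rw [h0 τ hτ, map_zero]

theorem mem_W (h : HRep π) (n : ℤ) (σ : Cell) (v : Pol K) :
    v ∈ (VWL h n).W ((KKc π).o σ) ↔ v ∈ h.H (n + 1 + cP σ) := by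
  change v ∈ h.H (n + (((C2x354.oc σ).1.val : ℕ) : ℤ)) ↔ _
  rw [C2x354.oc_fst, add_assoc]

/-- exactness of the Hom complex, from exactness of the table -/
theorem homEx_of (h : HRep π) (n : ℤ)
    (ex : ∀ (k : ℕ) (φ : Cell → Pol K), (∀ c, φ c ∈ h.H (n + 1 + cP c)) →
      (∀ c, cdeg c ≠ k + 1 → φ c = 0) → (∀ σ, ∑ τ, h.rho (cc π σ τ) (φ τ) = 0) →
      ∃ ψ : Cell → Pol K, (∀ c, ψ c ∈ h.H (n + 1 + cP c)) ∧ (∀ c, cdeg c ≠ k → ψ c = 0) ∧
        ∀ σ, ∑ τ, h.rho (cc π σ τ) (ψ τ) = φ σ)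
    (ex0 : ∀ φ : Cell → Pol K, (∀ c, φ c ∈ h.H (n + 1 + cP c)) →
      (∀ c, cdeg c ≠ 0 → φ c = 0) → (∀ σ, ∑ τ, h.rho (cc π σ τ) (φ τ) = 0) → φ = 0) :
    (KKc π).HomEx (VWL h n) := by
  constructor
  · intro k φ hφ h0 hc
    change Cell → Pol K at φ
    have h0' : ∀ c, cdeg c ≠ k + 1 → φ c = 0 := h0
    obtain ⟨ψ, h1, h2, h3⟩ := ex k φ (fun c => (mem_W h n c _).1 (hφ c)) h0' (fun σ => by
      by_cases hσ : cdeg σ = k + 2
      · rw [← sum_all h h0']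
        exact (Finset.sum_congr rfl fun τ _ => (rho_c h n σ τ _).symm).trans (hc σ hσ)
      · exact sum_zero h h0' (by omega))
    refine ⟨ψ, fun c => (mem_W h n c _).2 (h1 c), h2, fun σ _ => ?_⟩
    change Cell at σ
    rw [← h3 σ, ← sum_all h h2]
    exact Finset.sum_congr rfl fun τ _ => (rho_c h n σ τ _).symm
  · intro φ hφ h0 hc
    change Cell → Pol K at φ
    have h0' : ∀ c, cdeg c ≠ 0 → φ c = 0 := h0
    refine ex0 φ (fun c => (mem_W h n c _).1 (hφ c)) h0' (fun σ => ?_)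
    by_cases hσ : cdeg σ = 1
    · rw [← sum_all h h0']
      exact (Finset.sum_congr rfl fun τ _ => (rho_c h n σ τ _).symm).trans (hc σ hσ)
    · exact sum_zero h h0' (by omega)

theorem D0_sum (φ : Cell → Pol K) (σ : Cell) :
    D0 π φ σ = ∑ τ, Vmod220.rep π (cc π σ τ) (φ τ) := by
  cases σ with
  | none =>
    rw [D0_none, Finset.sum_eq_zero]
    intro τ _
    change Vmod220.rep π 0 (φ τ) = 0
    rw [map_zero]
    rfl
  | some l => rw [D0_eq, Fintype.sum_option]; rfl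

theorem D0I_sum (φ : Cell → Pol K) (σ : Cell) :
    Inv439.D0I π φ σ = ∑ τ, Inv439.repI π (cc π σ τ) (φ τ) := by
  cases σ with
  | none =>
    rw [Inv439.D0I_none, Finset.sum_eq_zero]
    intro τ _
    change Inv439.repI π 0 (φ τ) = 0
    rw [map_zero]
    rfl
  | some l => rw [Inv439.D0I_eq, Fintype.sum_option]; rfl

/-- **(f1)** `Hom (cells, V_n)` is exact for `n ≥ 0` -/
theorem KK_hom_pos {n : ℤ} (hn : 0 ≤ n) : (KKc π).HomEx (VWL (hr π) n) := by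
  obtain ⟨m, rfl⟩ : ∃ m : ℕ, n = m := ⟨n.toNat, by omega⟩
  refine homEx_of (hr π) m ?_ ?_
  · intro k φ hφ h0 hc
    obtain ⟨ψ, h1, h2, h3⟩ := exact_pos (π := π) m k (φ := φ) hφ h0
      (funext fun σ => (D0_sum φ σ).trans (hc σ))
    exact ⟨ψ, h1, h2, fun σ => (D0_sum ψ σ).symm.trans (congrFun h3 σ)⟩
  · intro φ hφ h0 hc
    exact exact_zero (π := π) m (φ := φ) hφ h0 (funext fun σ => (D0_sum φ σ).trans (hc σ))

/-- **(f1)** `Hom (cells, Inv_n)` is exact for `n ≤ -2` -/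
theorem KK_hom_inv {n : ℤ} (hn : n ≤ -2) : (KKc π).HomEx (VWL (hi π) n) := by
  refine homEx_of (hi π) n ?_ ?_
  · intro k φ hφ h0 hc
    obtain ⟨ψ, h1, h2, h3⟩ := Inv439.exactI_pos (π := π) hn k (φ := φ) hφ h0
      (funext fun σ => (D0I_sum φ σ).trans (hc σ))
    exact ⟨ψ, h1, h2, fun σ => (D0I_sum ψ σ).symm.trans (congrFun h3 σ)⟩
  · intro φ hφ h0 hc
    exact Inv439.exactI_zero (π := π) hn (φ := φ) hφ h0
      (funext fun σ => (D0I_sum φ σ).trans (hc σ))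

end Crest.Agent.R186.F1_390
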