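import Crest.Agent.R186.Frame_515

/-!
Row 186 (helper322), half (A), leaf A.F2, abstract part on `Frame515`:

* `QI.of_ses` : a map of degreewise short exact sequences, a quasi-isomorphism on the first two
  terms, is a quasi-isomorphism on the third one.
* `KRow` : a "Koszul row" `0 → X → Y² → W → 0` of graded complexes; `KRow.qi` : the same for rows.
* `tGmap`, `KRow.tG` : Koszul rows of right dg modules tensored with left cells.
-/

set_option autoImplicit false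
set_option linter.unusedSectionVars false

open MulOpposite

namespace Crest.Agent.R186.F2322

open Hat827 Hat827.DGA Frame515

variable {K : Type} [Field K]

/-- a degreewise short exact sequence of graded complexes -/
structure Ses (X Y W : GC K) where
  i : GCHom X Y
  p : GCHom Y W
  pi : ∀ x, p.f (i.f x) = 0
  inj : ∀ {k : ℤ} {x : X.X}, x ∈ X.gr k → i.f x = 0 → x = 0
  ker : ∀ {k : ℤ} {y : Y.X}, y ∈ Y.gr k → p.f y = 0 → ∃ x ∈ X.gr k, i.f x = y
  sur : ∀ {k : ℤ} {w : W.X}, w ∈ W.gr k → ∃ y ∈ Y.gr k, p.f y = w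

theorem GC.d_mem' (X : GC K) {k : ℤ} {x : X.X} (h : x ∈ X.gr (k + 1)) : X.d x ∈ X.gr k := by
  have := X.d_mem h
  rwa [add_sub_cancel_right] at this

theorem qi_of_ses {X Y W X' Y' W' : GC K} (S : Ses X Y W) (S' : Ses X' Y' W')
    (a : GCHom X X') (b : GCHom Y Y') (c : GCHom W W')
    (h1 : ∀ x, b.f (S.i.f x) = S'.i.f (a.f x)) (h2 : ∀ y, c.f (S.p.f y) = S'.p.f (b.f y))
    (ha : QI a) (hb : QI b) : QI c := by
  constructor
  · intro k w' hw' hd
    obtain ⟨y', hy', rfl⟩ := S'.sur hw'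
    obtain ⟨x', hx', ex'⟩ := S'.ker (Y'.d_mem hy') (by rw [← S'.p.f_d] at hd; exact hd)
    have hdx' : X'.d x' = 0 := by
      refine S'.inj (X'.d_mem hx') ?_
      rw [S'.i.f_d, ex', Y'.d_d]
    obtain ⟨x, hx, hdx, z', hz', e⟩ := ha.surj _ x' hx' hdx'
    rw [sub_add_cancel] at hz'
    have hix : b.f (S.i.f x) = Y'.d (y' - S'.i.f z') := by
      rw [map_sub, ← S'.i.f_d, ← ex', e, map_add, h1]
      abel
    obtain ⟨y, hy, ey⟩ := hb.inj (k - 1) (S.i.f x) (S.i.f_mem hx)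
      (by rw [← S.i.f_d, hdx, map_zero])
      ⟨y' - S'.i.f z', by
        rw [sub_add_cancel]
        exact Submodule.sub_mem _ hy' (S'.i.f_mem hz'), hix⟩
    rw [sub_add_cancel] at hy
    obtain ⟨c0, hc0, hdc0, e0, he0, ee⟩ := hb.surj k (y' - S'.i.f z' - b.f y)
      (Submodule.sub_mem _ (Submodule.sub_mem _ hy' (S'.i.f_mem hz')) (b.f_mem hy))
      (by rw [map_sub, ← hix, ← b.f_d, ← ey, sub_self])
    refine ⟨S.p.f (y + c0), S.p.f_mem (Submodule.add_mem _ hy hc0), ?_, S'.p.f e0, S'.p.f_mem he0, ?_⟩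
    · rw [← S.p.f_d, map_add, hdc0, add_zero, ← ey, S.pi]
    · have : y' = b.f (y + c0) + S'.i.f z' + Y'.d e0 := by
        rw [map_add, add_assoc (b.f y), add_assoc (b.f y), add_right_comm (b.f c0), ← ee]
        abel
      rw [this, map_add, map_add, S'.pi, add_zero, h2, S'.p.f_d]
  · rintro k w hw hdw ⟨z', hz', e⟩
    obtain ⟨y, hy, rfl⟩ := S.sur hw
    obtain ⟨x, hx, ex⟩ := S.ker (Y.d_mem hy) (by rw [← S.p.f_d] at hdw; exact hdw)
    have hdx : X.d x = 0 := by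
      refine S.inj (X.d_mem hx) ?_
      rw [S.i.f_d, ex, Y.d_d]
    obtain ⟨y', hy', rfl⟩ := S'.sur hz'
    obtain ⟨x', hx', ex'⟩ := S'.ker (k := k) (y := b.f y - Y'.d y')
      (Submodule.sub_mem _ (b.f_mem hy) (GC.d_mem' Y' hy'))
      (by rw [map_sub, ← h2, e, S'.p.f_d, sub_self])
    have hax : a.f x = X'.d x' := by
      have : S'.i.f (a.f x - X'.d x') = 0 := by
        rw [map_sub, S'.i.f_d, ex', map_sub, Y'.d_d, sub_zero, ← h1, ex, b.f_d, sub_self]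
      exact sub_eq_zero.1 (S'.inj (Submodule.sub_mem _ (a.f_mem hx) (X'.d_mem hx')) this)
    obtain ⟨x1, hx1, ex1⟩ := ha.inj (k - 1) x hx hdx ⟨x', by rwa [sub_add_cancel], hax⟩
    rw [sub_add_cancel] at hx1
    obtain ⟨x2, hx2, hdx2, z2, hz2, e2⟩ := ha.surj k (x' - a.f x1)
      (Submodule.sub_mem _ hx' (a.f_mem hx1))
      (by rw [map_sub, ← hax, ← a.f_d, ← ex1, sub_self])
    obtain ⟨y3, hy3, ey3⟩ := hb.inj k (y - S.i.f x1 - S.i.f x2)
      (Submodule.sub_mem _ (Submodule.sub_mem _ hy (S.i.f_mem hx1)) (S.i.f_mem hx2))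
      (by rw [map_sub, map_sub, ← S.i.f_d, ← S.i.f_d, hdx2, map_zero, sub_zero, ← ex1, ex, sub_self])
      ⟨y' + S'.i.f z2, Submodule.add_mem _ hy' (S'.i.f_mem hz2), by
        rw [map_sub, map_sub, h1, h1, map_add, ← S'.i.f_d]
        have h3 : S'.i.f x' - S'.i.f (a.f x1) = S'.i.f (a.f x2) + S'.i.f (X'.d z2) := by
          rw [← map_sub, e2, map_add]
        have h4 : b.f y = Y'.d y' + S'.i.f x' := by rw [ex']; abel
        rw [h4, add_sub_assoc, h3]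
        abel⟩
    refine ⟨S.p.f y3, S.p.f_mem hy3, ?_⟩
    rw [← S.p.f_d, ← ey3, map_sub, map_sub, S.pi, S.pi, sub_zero, sub_zero]

/-- direct sum -/
def prodGC (X Y : GC K) : GC K where
  X := X.X × Y.X
  gr k := (X.gr k).prod (Y.gr k)
  d := X.d.prodMap Y.d
  d_mem h := ⟨X.d_mem h.1, Y.d_mem h.2⟩
  d_d x := Prod.ext (X.d_d _) (Y.d_d _)

def prodHom {X Y X' Y' : GC K} (a : GCHom X X') (b : GCHom Y Y') :
    GCHom (prodGC X Y) (prodGC X' Y') where
  f := a.f.prodMap b.f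
  f_mem h := ⟨a.f_mem h.1, b.f_mem h.2⟩
  f_d x := Prod.ext (a.f_d _) (b.f_d _)

theorem prod_qi {X Y X' Y' : GC K} {a : GCHom X X'} {b : GCHom Y Y'} (ha : QI a) (hb : QI b) :
    QI (prodHom a b) := by
  constructor
  · rintro k ⟨x, y⟩ ⟨hx, hy⟩ h
    obtain ⟨x1, hx1, dx1, z1, hz1, e1⟩ := ha.surj k x hx (congrArg Prod.fst h)
    obtain ⟨y1, hy1, dy1, z2, hz2, e2⟩ := hb.surj k y hy (congrArg Prod.snd h)
    exact ⟨(x1, y1), ⟨hx1, hy1⟩, Prod.ext dx1 dy1, (z1, z2), ⟨hz1, hz2⟩, Prod.ext e1 e2⟩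
  · rintro k ⟨x, y⟩ ⟨hx, hy⟩ h ⟨⟨z1, z2⟩, ⟨hz1, hz2⟩, e⟩
    obtain ⟨w1, hw1, e1⟩ := ha.inj k x hx (congrArg Prod.fst h) ⟨z1, hz1, congrArg Prod.fst e⟩
    obtain ⟨w2, hw2, e2⟩ := hb.inj k y hy (congrArg Prod.snd h) ⟨z2, hz2, congrArg Prod.snd e⟩
    exact ⟨(w1, w2), ⟨hw1, hw2⟩, Prod.ext e1 e2⟩

/-- a Koszul row `0 → X → Y² → W → 0`; `l` = the two components of the first map, `r` of the
second one -/
structure KRow (X Y W : GC K) where
  l0 : GCHom X Y
  l1 : GCHom X Y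
  r0 : GCHom Y W
  r1 : GCHom Y W
  zero : ∀ x, r0.f (l0.f x) + r1.f (l1.f x) = 0
  inj : ∀ {k : ℤ} {x : X.X}, x ∈ X.gr k → l0.f x = 0 → l1.f x = 0 → x = 0
  ker : ∀ {k : ℤ} {u v : Y.X}, u ∈ Y.gr k → v ∈ Y.gr k → r0.f u + r1.f v = 0 →
    ∃ x ∈ X.gr k, l0.f x = u ∧ l1.f x = v
  sur : ∀ {k : ℤ} {w : W.X}, w ∈ W.gr k → ∃ u ∈ Y.gr k, ∃ v ∈ Y.gr k, r0.f u + r1.f v = w

def KRow.ses {X Y W : GC K} (S : KRow X Y W) : Ses X (prodGC Y Y) W where
  i := { f := S.l0.f.prod S.l1.f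
         f_mem := fun h => ⟨S.l0.f_mem h, S.l1.f_mem h⟩
         f_d := fun x => Prod.ext (S.l0.f_d x) (S.l1.f_d x) }
  p := { f := S.r0.f.coprod S.r1.f
         f_mem := fun h => Submodule.add_mem _ (S.r0.f_mem h.1) (S.r1.f_mem h.2)
         f_d := fun x => by
           change S.r0.f (Y.d x.1) + S.r1.f (Y.d x.2) = W.d (S.r0.f x.1 + S.r1.f x.2)
           rw [map_add, S.r0.f_d, S.r1.f_d] }
  pi x := S.zero x
  inj h e := S.inj h (congrArg Prod.fst e) (congrArg Prod.snd e)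
  ker h e := by
    obtain ⟨x, hx, e1, e2⟩ := S.ker h.1 h.2 e
    exact ⟨x, hx, Prod.ext e1 e2⟩
  sur h := by
    obtain ⟨u, hu, v, hv, e⟩ := S.sur h
    exact ⟨(u, v), ⟨hu, hv⟩, e⟩

/-- **the five lemma for Koszul rows** -/
theorem KRow.qi {X Y W X' Y' W' : GC K} (S : KRow X Y W) (S' : KRow X' Y' W')
    (a : GCHom X X') (b : GCHom Y Y') (c : GCHom W W')
    (h10 : ∀ x, b.f (S.l0.f x) = S'.l0.f (a.f x)) (h11 : ∀ x, b.f (S.l1.f x) = S'.l1.f (a.f x))
    (h20 : ∀ y, c.f (S.r0.f y) = S'.r0.f (b.f y)) (h21 : ∀ y, c.f (S.r1.f y) = S'.r1.f (b.f y))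
    (ha : QI a) (hb : QI b) : QI c :=
  qi_of_ses S.ses S'.ses a (prodHom b b) c (fun x => Prod.ext (h10 x) (h11 x))
    (fun y => by
      change c.f (S.r0.f y.1 + S.r1.f y.2) = S'.r0.f (b.f y.1) + S'.r1.f (b.f y.2)
      rw [map_add, h20, h21]) ha (prod_qi hb hb)

/-! ### tensoring with cells -/

/-- maps of right dg modules -/
structure RHom {A : DGA K} (G G' : RM A) extends GCHom G.toGC G'.toGC where
  map_op : ∀ (a : A.C) (x : G.X), f (op a • x) = op a • f x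

section tens

variable {A : DGA K}

/-- `f ⊗ X` -/
noncomputable def tGmap {G G' : RM A} (f : RHom G G') (X : LCells A) : GCHom (tG G X) (tG G' X) where
  f := Finsupp.mapRange.linearMap (α := X.ι) f.f
  f_mem {k x} hx σ := by
    refine ⟨f.f_mem (hx σ).1, ?_⟩
    have h : op (X.e σ) • (show X.ι →₀ G.X from x) σ = (show X.ι →₀ G.X from x) σ := (hx σ).2
    change op (X.e σ) • f.f ((show X.ι →₀ G.X from x) σ) = f.f ((show X.ι →₀ G.X from x) σ)
    rw [← f.map_op, h]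
  f_d x := by
    classical
    refine Finsupp.ext fun τ => ?_
    have e1 : (show X.ι →₀ G'.X from (tG G' X).d (Finsupp.mapRange.linearMap (α := X.ι) f.f x)) τ =
        G'.d (f.f (x τ)) + ∑ σ ∈ (show X.ι →₀ G.X from x).support, op (X.c σ τ) • f.f (x σ) :=
      (twG G' X).dd_apply' _ (show X.ι →₀ G.X from x).support
        (Finsupp.support_mapRange (hf := map_zero _)) τ
    have e2 : (show X.ι →₀ G.X from (tG G X).d x) τ =
        G.d (x τ) + ∑ σ ∈ (show X.ι →₀ G.X from x).support, op (X.c σ τ) • (x σ) :=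
      (twG G X).dd_apply' _ (show X.ι →₀ G.X from x).support (Finset.Subset.refl _) τ
    change f.f ((show X.ι →₀ G.X from (tG G X).d x) τ) = _
    rw [e2]
    refine Eq.trans ?_ e1.symm
    rw [map_add, map_sum, f.f_d]
    congr 1
    exact Finset.sum_congr rfl fun σ _ => f.map_op _ _

theorem tGmap_apply {G G' : RM A} (f : RHom G G') (X : LCells A) (x : X.ι →₀ G.X) (σ : X.ι) :
    (show X.ι →₀ G'.X from (tGmap f X).f x) σ = f.f (x σ) := rfl

/-- a Koszul row of right dg modules -/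
structure RRow (G0 G1 G2 : RM A) where
  l0 : RHom G0 G1
  l1 : RHom G0 G1
  r0 : RHom G1 G2
  r1 : RHom G1 G2
  zero : ∀ x, r0.f (l0.f x) + r1.f (l1.f x) = 0
  inj : ∀ {k : ℤ} {x : G0.X}, x ∈ G0.gr k → l0.f x = 0 → l1.f x = 0 → x = 0
  ker : ∀ {k : ℤ} {u v : G1.X}, u ∈ G1.gr k → v ∈ G1.gr k → r0.f u + r1.f v = 0 →
    ∃ x ∈ G0.gr k, l0.f x = u ∧ l1.f x = v
  sur : ∀ {k : ℤ} {w : G2.X}, w ∈ G2.gr k → ∃ u ∈ G1.gr k, ∃ v ∈ G1.gr k, r0.f u + r1.f v = w

theorem op_mem {G : RM A} (X : LCells A) (σ : X.ι) {k : ℤ} {x : G.X} (hx : x ∈ G.gr k) :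
    op (X.e σ) • x ∈ G.gr k := by
  have := G.smul_mem (X.e_mem σ) hx
  rwa [zero_add] at this

theorem op_idem {G : RM A} (X : LCells A) (σ : X.ι) (x : G.X) :
    op (X.e σ) • op (X.e σ) • x = op (X.e σ) • x := by
  rw [smul_smul, ← op_mul, X.e_idem]

/-- Koszul rows may be tensored with cells -/
noncomputable def RRow.tG {G0 G1 G2 : RM A} (S : RRow G0 G1 G2) (X : LCells A) :
    KRow (tG G0 X) (tG G1 X) (tG G2 X) where
  l0 := tGmap S.l0 X
  l1 := tGmap S.l1 X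
  r0 := tGmap S.r0 X
  r1 := tGmap S.r1 X
  zero x := Finsupp.ext fun σ => S.zero ((show X.ι →₀ G0.X from x) σ)
  inj {k x} hx h0 h1 := Finsupp.ext fun σ =>
    S.inj (hx σ).1 (DFunLike.congr_fun (F := X.ι →₀ G1.X) h0 σ)
      (DFunLike.congr_fun (F := X.ι →₀ G1.X) h1 σ)
  ker {k u v} hu hv h := by
    classical
    have h' : ∀ σ, S.r0.f ((show X.ι →₀ G1.X from u) σ) + S.r1.f ((show X.ι →₀ G1.X from v) σ) = 0 :=
      fun σ => DFunLike.congr_fun (F := X.ι →₀ G2.X) h σ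
    choose w hw e0 e1 using fun σ => S.ker (hu σ).1 (hv σ).1 (h' σ)
    have hws : ∀ σ, w σ ≠ 0 → σ ∈ (show X.ι →₀ G1.X from u).support ∪
        (show X.ι →₀ G1.X from v).support := by
      intro σ hσ
      by_contra hc
      rw [Finset.mem_union, not_or, Finsupp.notMem_support_iff, Finsupp.notMem_support_iff] at hc
      exact hσ (S.inj (hw σ) (by rw [e0, hc.1]) (by rw [e1, hc.2]))
    refine ⟨Finsupp.onFinset _ w hws, fun σ => ⟨hw σ, ?_⟩, Finsupp.ext fun σ => e0 σ,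
      Finsupp.ext fun σ => e1 σ⟩
    change op (X.e σ) • w σ = w σ
    rw [← sub_eq_zero]
    have hu2 : op (X.e σ) • (show X.ι →₀ G1.X from u) σ = (show X.ι →₀ G1.X from u) σ := (hu σ).2
    have hv2 : op (X.e σ) • (show X.ι →₀ G1.X from v) σ = (show X.ι →₀ G1.X from v) σ := (hv σ).2
    refine S.inj (Submodule.sub_mem _ (op_mem X σ (hw σ)) (hw σ)) ?_ ?_
    · rw [map_sub, S.l0.map_op, e0, sub_eq_zero]
      exact hu2
    · rw [map_sub, S.l1.map_op, e1, sub_eq_zero]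
      exact hv2
  sur {k w} hw := by
    classical
    have h : ∀ σ, ∃ u v : G1.X, u ∈ G1.gr (k - X.s σ) ∧ v ∈ G1.gr (k - X.s σ) ∧
        op (X.e σ) • u = u ∧ op (X.e σ) • v = v ∧
        S.r0.f u + S.r1.f v = (show X.ι →₀ G2.X from w) σ ∧
        ((show X.ι →₀ G2.X from w) σ = 0 → u = 0 ∧ v = 0) := by
      intro σ
      by_cases h0 : (show X.ι →₀ G2.X from w) σ = 0
      · exact ⟨0, 0, Submodule.zero_mem _, Submodule.zero_mem _, smul_zero _, smul_zero _,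
          by rw [map_zero, map_zero, h0, add_zero], fun _ => ⟨rfl, rfl⟩⟩
      · obtain ⟨u, hu, v, hv, e⟩ := S.sur (hw σ).1
        have hw2 : op (X.e σ) • (show X.ι →₀ G2.X from w) σ = (show X.ι →₀ G2.X from w) σ := (hw σ).2
        refine ⟨op (X.e σ) • u, op (X.e σ) • v, op_mem X σ hu, op_mem X σ hv, op_idem X σ u,
          op_idem X σ v, ?_, fun h => absurd h h0⟩
        rw [S.r0.map_op, S.r1.map_op, ← smul_add, e]
        exact hw2
    choose u v hu hv eu ev e h0 using h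
    refine ⟨Finsupp.onFinset (show X.ι →₀ G2.X from w).support u fun σ hσ => by
        rw [Finsupp.mem_support_iff]
        exact fun hc => hσ (h0 σ hc).1, fun σ => ⟨hu σ, eu σ⟩,
      Finsupp.onFinset (show X.ι →₀ G2.X from w).support v fun σ hσ => by
        rw [Finsupp.mem_support_iff]
        exact fun hc => hσ (h0 σ hc).2, fun σ => ⟨hv σ, ev σ⟩, Finsupp.ext fun σ => e σ⟩

end tens

end Crest.Agent.R186.F2322
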