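import Crest.Agent.R186.Defs281_128

/-!
Row 186, S0281, leaf B281.D1 (helper757): linear independence of the monomial operators
`x^a d^b` and `d^b x^a`, normal ordering both ways, products, finite dimension.
-/

set_option autoImplicit false

open Finset

namespace Crest.Agent.R186.B281

namespace FD757

variable {K : Type} [Field K]

/-- `fac g b m = c(m) c(m-1) ... c(m-b+1)` -/
noncomputable def fac (g : K) (b : ℕ) (m : ℤ) : K := ∏ t ∈ range b, cq g (m - t)

theorem fac_zero (g : K) (m : ℤ) : fac g 0 m = 1 := by simp [fac]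

theorem fac_succ (g : K) (b : ℕ) (m : ℤ) : fac g (b + 1) m = fac g b m * cq g (m - b) := by
  simp [fac, prod_range_succ]

theorem fac_succ' (g : K) (b : ℕ) (m : ℤ) : fac g (b + 1) m = cq g m * fac g b (m - 1) := by
  unfold fac
  rw [prod_range_succ', mul_comm]
  simp only [Nat.cast_zero, sub_zero, Nat.cast_add, Nat.cast_one]
  congr 1
  refine prod_congr rfl fun t _ => ?_
  congr 1
  ring

theorem fac_eq_zero_iff {g : K} (hg : Gen g) (b : ℕ) (m : ℤ) :
    fac g b m = 0 ↔ 0 ≤ m ∧ m < b := by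
  unfold fac
  rw [prod_eq_zero_iff]
  constructor
  · rintro ⟨t, ht, h0⟩
    rw [mem_range] at ht
    by_contra hm
    refine cq_ne hg (m := m - t) ?_ h0
    omega
  · rintro ⟨h1, h2⟩
    refine ⟨m.toNat, by rw [mem_range]; omega, ?_⟩
    rw [show m - (m.toNat : ℤ) = 0 by omega, cq_zero]

theorem X_pow_single (i : Fin 2) (a : ℕ) (m : ℤ × ℤ) (c : K) :
    ((X i : Op K) ^ a) (Finsupp.single m c) = Finsupp.single (m + (a : ℤ) • ev i) c := by
  induction a with
  | zero => simp
  | succ a ih =>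
    rw [pow_succ', Module.End.mul_apply, ih, X_single]
    congr 1
    push_cast
    rw [add_smul, one_smul, add_assoc]

theorem D_pow_single (g : K) (i : Fin 2) (b : ℕ) (m : ℤ × ℤ) (c : K) :
    ((D g i : Op K) ^ b) (Finsupp.single m c) =
      Finsupp.single (m - (b : ℤ) • ev i) (fac g b (co i m) * c) := by
  induction b with
  | zero => simp [fac_zero]
  | succ b ih =>
    rw [pow_succ', Module.End.mul_apply, ih, D_single, fac_succ]
    congr 1
    · push_cast
      rw [add_smul, one_smul, sub_sub]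
    · have : co i (m - (b : ℤ) • ev i) = co i m - b := by
        fin_cases i <;> simp [co, ev]
      rw [this]
      ring

theorem mon_single (g : K) (a b : ℕ × ℕ) (m : ℤ × ℤ) (c : K) :
    mon g a b (Finsupp.single m c) =
      Finsupp.single (m.1 + a.1 - b.1, m.2 + a.2 - b.2) (fac g b.1 m.1 * fac g b.2 m.2 * c) := by
  unfold mon
  simp only [Module.End.mul_apply, D_pow_single, X_pow_single]
  congr 1
  · ext <;> simp [ev] <;> ring
  · simp [co, ev, mul_assoc]

/-- the monomial operator in the reversed order, `d^b x^a` -/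
noncomputable def rmon (g : K) (a b : ℕ × ℕ) : Op K :=
  D g 0 ^ b.1 * D g 1 ^ b.2 * X 0 ^ a.1 * X 1 ^ a.2

theorem rmon_single (g : K) (a b : ℕ × ℕ) (m : ℤ × ℤ) (c : K) :
    rmon g a b (Finsupp.single m c) =
      Finsupp.single (m.1 + a.1 - b.1, m.2 + a.2 - b.2)
        (fac g b.1 (m.1 + a.1) * fac g b.2 (m.2 + a.2) * c) := by
  unfold rmon
  simp only [Module.End.mul_apply, D_pow_single, X_pow_single]
  congr 1
  · ext <;> simp [ev] <;> ring
  · simp [co, ev]
    ring

/-- a triangular family of diagonal-shift operators is linearly independent -/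
theorem indep_of (F : (ℕ × ℕ) × (ℕ × ℕ) → Op K)
    (f : (ℕ × ℕ) × (ℕ × ℕ) → ℤ × ℤ → K)
    (hF : ∀ p m, F p (Finsupp.single m 1) =
      Finsupp.single (m.1 + p.1.1 - p.2.1, m.2 + p.1.2 - p.2.2) (f p m))
    (h : ∀ p₀ : (ℕ × ℕ) × (ℕ × ℕ), ∃ m : ℤ × ℤ, f p₀ m ≠ 0 ∧ ∀ p : (ℕ × ℕ) × (ℕ × ℕ),
      (p.1.1 : ℤ) - p.2.1 = p₀.1.1 - p₀.2.1 → (p.1.2 : ℤ) - p.2.2 = p₀.1.2 - p₀.2.2 →
      f p m ≠ 0 → p.2.1 ≤ p₀.2.1 ∧ p.2.2 ≤ p₀.2.2) :
    LinearIndependent K F := by
  show Function.Injective (Finsupp.linearCombination K F)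
  refine (injective_iff_map_eq_zero (Finsupp.linearCombination K F)).2 ?_
  intro l hl
  by_contra hne
  have hs : l.support.Nonempty := Finsupp.support_nonempty_iff.2 hne
  obtain ⟨p₀, hp₀, hmin⟩ := exists_min_image l.support (fun p => p.2.1 + p.2.2) hs
  obtain ⟨m, hm, hall⟩ := h p₀
  have h1 := congrArg (fun T : Op K => (T (Finsupp.single m 1))
    (m.1 + p₀.1.1 - p₀.2.1, m.2 + p₀.1.2 - p₀.2.2)) hl
  simp only [LinearMap.zero_apply, Finsupp.coe_zero, Pi.zero_apply] at h1
  rw [Finsupp.linearCombination_apply, Finsupp.sum, LinearMap.sum_apply, Finsupp.finsetSum_apply,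
    sum_eq_single p₀] at h1
  · rw [LinearMap.smul_apply, hF, Finsupp.smul_apply, Finsupp.single_eq_same, smul_eq_mul] at h1
    rcases mul_eq_zero.1 h1 with h2 | h2
    · exact Finsupp.mem_support_iff.1 hp₀ h2
    · exact hm h2
  · intro p hp hne'
    rw [LinearMap.smul_apply, hF, Finsupp.smul_apply]
    by_cases hpt : ((m.1 + p.1.1 - p.2.1, m.2 + p.1.2 - p.2.2) : ℤ × ℤ) =
        (m.1 + p₀.1.1 - p₀.2.1, m.2 + p₀.1.2 - p₀.2.2)
    · rw [Prod.mk.injEq] at hpt
      by_cases hf : f p m = 0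
      · rw [hf]; simp
      · exfalso
        have h3 := hall p (by omega) (by omega) hf
        have h4 := hmin p hp
        have h5 : p.2.1 = p₀.2.1 := by omega
        have h6 : p.2.2 = p₀.2.2 := by omega
        apply hne'
        ext <;> omega
    · rw [Finsupp.single_apply, if_neg hpt, smul_zero]
  · intro hp
    exact absurd hp₀ hp

theorem mon_indep {g : K} (hg : Gen g) :
    LinearIndependent K (fun p : (ℕ × ℕ) × (ℕ × ℕ) => mon g p.1 p.2) := by
  refine indep_of _ (fun p m => fac g p.2.1 m.1 * fac g p.2.2 m.2)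
    (fun p m => by rw [mon_single, mul_one]) ?_
  intro p₀
  refine ⟨(p₀.2.1, p₀.2.2), ?_, ?_⟩
  · simp only [ne_eq, mul_eq_zero, fac_eq_zero_iff hg, not_or]
    omega
  · intro p _ _ hf
    simp only [ne_eq, mul_eq_zero, fac_eq_zero_iff hg, not_or] at hf
    omega

theorem rmon_indep {g : K} (hg : Gen g) :
    LinearIndependent K (fun p : (ℕ × ℕ) × (ℕ × ℕ) => rmon g p.1 p.2) := by
  refine indep_of _ (fun p m => fac g p.2.1 (m.1 + p.1.1) * fac g p.2.2 (m.2 + p.1.2))
    (fun p m => by rw [rmon_single, mul_one]) ?_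
  intro p₀
  refine ⟨(-1 - (p₀.1.1 : ℤ), -1 - (p₀.1.2 : ℤ)), ?_, ?_⟩
  · simp only [ne_eq, mul_eq_zero, fac_eq_zero_iff hg, not_or]
    omega
  · intro p h1 h2 hf
    simp only [ne_eq, mul_eq_zero, fac_eq_zero_iff hg, not_or] at hf
    omega

end FD757

end Crest.Agent.R186.B281
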