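import Crest.Agent.R186.HH_498
import Crest.Agent.R186.Ex_306

/-!
Row 186, half (A), short road, leaf A.H2 (helper654): the homology of the rows `U (p, a)` as 306's
`Fam`.  `RowSys` = complexes `U p a` with left multiplication by the elements of a ring `B`
(362's `LU` lemmas), `XDHT` = the elements `x_j, d_j, h, t` with their relations.
-/

set_option autoImplicit false
set_option linter.style.haveILetI false
set_option linter.unusedSectionVars false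

namespace Crest.Agent.R186.FamU654

open Frame515 Zig498 Ex306

variable {K : Type} [Field K]

/-! ### representatives -/

/-- `x` represents the class `ζ` -/
def IsRep {X : GC K} {n : ℤ} (ζ : HH X n) (x : X.X) : Prop :=
  ∃ (hx : x ∈ X.gr n) (hd : X.d x = 0), cls X n x hx hd = ζ

namespace IsRep

variable {X Y : GC K} {n : ℤ}

theorem ex (ζ : HH X n) : ∃ x, IsRep ζ x := by
  obtain ⟨x, hx, hd, h⟩ := exists_rep ζ
  exact ⟨x, hx, hd, h⟩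

theorem add {ζ ζ' : HH X n} {x x' : X.X} (h : IsRep ζ x) (h' : IsRep ζ' x') :
    IsRep (ζ + ζ') (x + x') := by
  obtain ⟨hx, hd, rfl⟩ := h
  obtain ⟨hx', hd', rfl⟩ := h'
  exact ⟨Submodule.add_mem _ hx hx', by rw [map_add, hd, hd', add_zero], rfl⟩

theorem smul {ζ : HH X n} {x : X.X} (r : K) (h : IsRep ζ x) : IsRep (r • ζ) (r • x) := by
  obtain ⟨hx, hd, rfl⟩ := h
  exact ⟨Submodule.smul_mem _ r hx, by rw [map_smul, hd, smul_zero], rfl⟩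

theorem map {ζ : HH X n} {x : X.X} (f : X.X →ₗ[K] Y.X) (hf : HOK n f) (h : IsRep ζ x) :
    IsRep (Hm f hf ζ) (f x) := by
  obtain ⟨hx, hd, rfl⟩ := h
  exact ⟨(hf.z x hx hd).1, (hf.z x hx hd).2, rfl⟩

theorem eq {ζ ζ' : HH X n} {x x' : X.X} (h : IsRep ζ x) (h' : IsRep ζ' x')
    (e : ∃ z ∈ X.gr (n + 1), x = x' + X.d z) : ζ = ζ' := by
  obtain ⟨hx, hd, rfl⟩ := h
  obtain ⟨hx', hd', rfl⟩ := h'
  exact cls_eq.2 e

theorem eq' {ζ ζ' : HH X n} {x x' : X.X} (h : IsRep ζ x) (h' : IsRep ζ' x')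
    (e : x = x') : ζ = ζ' :=
  h.eq h' ⟨0, Submodule.zero_mem _, by rw [map_zero, add_zero, e]⟩

end IsRep

/-! ### rows -/

/-- complexes `U p a` with left multiplication by a ring `B` -/
structure RowSys (K : Type) [Field K] (B : Type) [Ring B] [Algebra K B] where
  EB : ℤ → ℤ → Submodule K B
  pb : ℤ → ℤ → ℤ → Submodule K B
  pb_le : ∀ (P A C : ℤ), pb P A C ≤ EB P A
  EB_mul : ∀ {P A P' A' : ℤ} {a b : B}, a ∈ EB P A → b ∈ EB P' A' → a * b ∈ EB (P + P') (A + A')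
  DB : B →ₗ[K] B
  U : ℤ → ℤ → GC K
  L : ∀ {p a p' a' : ℤ} (b : B), b ∈ EB (p' - p) (a' - a) → (U p a).X →ₗ[K] (U p' a').X
  L_mul : ∀ {p a p' a' p'' a'' : ℤ} (b b' : B) (hb : b ∈ EB (p' - p) (a' - a))
    (hb' : b' ∈ EB (p'' - p') (a'' - a')) (h : b' * b ∈ EB (p'' - p) (a'' - a)) (u : (U p a).X),
    L b' hb' (L b hb u) = L (b' * b) h u
  L_add : ∀ {p a p' a' : ℤ} (b b' : B) (hb : b ∈ EB (p' - p) (a' - a))
    (hb' : b' ∈ EB (p' - p) (a' - a)) (h : b + b' ∈ EB (p' - p) (a' - a)) (u : (U p a).X),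
    L (b + b') h u = L b hb u + L b' hb' u
  L_smul : ∀ {p a p' a' : ℤ} (r : K) (b : B) (hb : b ∈ EB (p' - p) (a' - a))
    (h : r • b ∈ EB (p' - p) (a' - a)) (u : (U p a).X), L (r • b) h u = r • L b hb u
  L_d : ∀ {p a p' a' : ℤ} (b : B) (hb : b ∈ EB (p' - p) (a' - a))
    (hD : DB b ∈ EB (p' - p) (a' - a)) (u : (U p a).X),
    (U p' a').d (L b hb u) = L (DB b) hD u + L b hb ((U p a).d u)
  L_mem : ∀ {p a p' a' k l : ℤ} {b : B} (hb : b ∈ EB (p' - p) (a' - a))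
    (_ : b ∈ pb (p' - p) (a' - a) k) {u : (U p a).X} (_ : u ∈ (U p a).gr l),
    L b hb u ∈ (U p' a').gr (l + k)

namespace RowSys

variable {B : Type} [Ring B] [Algebra K B] (R : RowSys K B)

theorem pb_cast {P A C P' A' C' : ℤ} {b : B} (h : b ∈ R.pb P A C) (e1 : P = P') (e2 : A = A')
    (e3 : C = C') : b ∈ R.pb P' A' C' := by
  subst e1 e2 e3; exact h

theorem EB_cast {P A P' A' : ℤ} {b : B} (h : b ∈ R.EB P A) (e1 : P = P') (e2 : A = A') :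
    b ∈ R.EB P' A' := by
  subst e1 e2; exact h

variable {R}

theorem L_eq {p a p' a' : ℤ} {b b' : B} (h : b = b') (hb : b ∈ R.EB (p' - p) (a' - a))
    (hb' : b' ∈ R.EB (p' - p) (a' - a)) (u : (R.U p a).X) : R.L b hb u = R.L b' hb' u := by
  subst h; rfl

theorem L_zero {p a p' a' : ℤ} {b : B} (h : b = 0) (hb : b ∈ R.EB (p' - p) (a' - a))
    (u : (R.U p a).X) : R.L b hb u = 0 := by
  have h0 : (0 : K) • (0 : B) ∈ R.EB (p' - p) (a' - a) := by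
    rw [smul_zero]; exact Submodule.zero_mem _
  rw [L_eq (b' := (0 : K) • (0 : B)) (by rw [h, smul_zero]) hb h0,
    R.L_smul 0 0 (Submodule.zero_mem _) h0, zero_smul]

theorem L_cyc {p a p' a' : ℤ} {b : B} (hb : b ∈ R.EB (p' - p) (a' - a)) (hD : R.DB b = 0)
    (u : (R.U p a).X) : (R.U p' a').d (R.L b hb u) = R.L b hb ((R.U p a).d u) := by
  rw [R.L_d b hb (by rw [hD]; exact Submodule.zero_mem _), L_zero hD, zero_add]

/-- left multiplication by a cycle of degree zero -/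
def lH {p a p' a' : ℤ} {b : B} (hb : b ∈ R.pb (p' - p) (a' - a) 0) (hD : R.DB b = 0) :
    GCHom (R.U p a) (R.U p' a') where
  f := R.L b (R.pb_le _ _ _ hb)
  f_mem {k u} hu := by
    have := R.L_mem (R.pb_le _ _ _ hb) hb hu
    rwa [add_zero] at this
  f_d u := (L_cyc _ hD u).symm

theorem lH_f {p a p' a' : ℤ} {b : B} (hb : b ∈ R.pb (p' - p) (a' - a) 0) (hD : R.DB b = 0)
    (u : (R.U p a).X) : (lH hb hD).f u = R.L b (R.pb_le _ _ _ hb) u := rfl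

/-- its effect on homology -/
def lHm {p a p' a' : ℤ} {b : B} (hb : b ∈ R.pb (p' - p) (a' - a) 0) (hD : R.DB b = 0) (n : ℤ) :
    HH (R.U p a) n →ₗ[K] HH (R.U p' a') n := Hm (lH hb hD).f (HOK.of_hom n (lH hb hD))

theorem rep_lHm {p a p' a' : ℤ} {b : B} (hb : b ∈ R.pb (p' - p) (a' - a) 0) (hD : R.DB b = 0)
    {n : ℤ} {ζ : HH (R.U p a) n} {u : (R.U p a).X} (h : IsRep ζ u) :
    IsRep (lHm hb hD n ζ) (R.L b (R.pb_le _ _ _ hb) u) := h.map _ _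

end RowSys

open RowSys

/-- the elements `x_j, d_j, h, t` and their relations -/
structure XDHT {B : Type} [Ring B] [Algebra K B] (R : RowSys K B) (g : K) where
  x : Fin 2 → B
  d : Fin 2 → B
  s : Fin 2 → B
  h : B
  t : B
  x_mem : ∀ j, x j ∈ R.pb 1 0 0
  d_mem : ∀ j, d j ∈ R.pb (-1) 1 0
  s_mem : ∀ j, s j ∈ R.pb (-1) 2 1
  h_mem : h ∈ R.pb 0 1 0
  t_mem : t ∈ R.pb 0 1 0
  x_D : ∀ j, R.DB (x j) = 0
  d_D : ∀ j, R.DB (d j) = 0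
  h_D : R.DB h = 0
  t_D : R.DB t = 0
  ht0 : t = h + (g - 1) • (d 0 * x 0 + d 1 * x 1)
  ht1 : g ^ 2 • t = h + (g - 1) • (x 0 * d 0 + g • (x 1 * d 1))
  xt : ∀ j, x j * t = g • (t * x j)
  td : ∀ j, t * d j = g • (d j * t) + R.DB (s j)
  xh : ∀ j, x j * h = h * x j
  hd : ∀ j, h * d j = d j * h

namespace XDHT

variable {B : Type} [Ring B] [Algebra K B] {R : RowSys K B} {g : K} (T : XDHT R g)

/-- degrees of the four kinds of maps -/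
theorem mx (p a : ℤ) (j : Fin 2) : T.x j ∈ R.pb (p + 1 - p) (a - a) 0 :=
  R.pb_cast (T.x_mem j) (by ring) (by ring) rfl
theorem md (p : ℤ) (a : ℕ) (j : Fin 2) : T.d j ∈ R.pb (p - (p + 1)) (((a + 1 : ℕ) : ℤ) - a) 0 :=
  R.pb_cast (T.d_mem j) (by ring) (by push_cast; ring) rfl
theorem mh (p : ℤ) (a : ℕ) : T.h ∈ R.pb (p - p) (((a + 1 : ℕ) : ℤ) - a) 0 :=
  R.pb_cast T.h_mem (by ring) (by push_cast; ring) rfl
theorem mt (p : ℤ) (a : ℕ) : T.t ∈ R.pb (p - p) (((a + 1 : ℕ) : ℤ) - a) 0 :=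
  R.pb_cast T.t_mem (by ring) (by push_cast; ring) rfl

/-- memberships of products -/
theorem e_dx (p : ℤ) (a : ℕ) (i j : Fin 2) :
    T.d i * T.x j ∈ R.EB (p - p) (((a + 1 : ℕ) : ℤ) - a) :=
  R.EB_cast (R.EB_mul (R.pb_le _ _ _ (T.d_mem i)) (R.pb_le _ _ _ (T.x_mem j))) (by ring)
    (by push_cast; ring)
theorem e_xd (p : ℤ) (a : ℕ) (i j : Fin 2) :
    T.x i * T.d j ∈ R.EB (p + 1 - (p + 1)) (((a + 1 : ℕ) : ℤ) - a) :=
  R.EB_cast (R.EB_mul (R.pb_le _ _ _ (T.x_mem i)) (R.pb_le _ _ _ (T.d_mem j))) (by ring)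
    (by push_cast; ring)
theorem e_xt (p : ℤ) (a : ℕ) (j : Fin 2) :
    T.x j * T.t ∈ R.EB (p + 1 - p) (((a + 1 : ℕ) : ℤ) - a) :=
  R.EB_cast (R.EB_mul (R.pb_le _ _ _ (T.x_mem j)) (R.pb_le _ _ _ T.t_mem)) (by ring)
    (by push_cast; ring)
theorem e_tx (p : ℤ) (a : ℕ) (j : Fin 2) :
    T.t * T.x j ∈ R.EB (p + 1 - p) (((a + 1 : ℕ) : ℤ) - a) :=
  R.EB_cast (R.EB_mul (R.pb_le _ _ _ T.t_mem) (R.pb_le _ _ _ (T.x_mem j))) (by ring)
    (by push_cast; ring)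
theorem e_xh (p : ℤ) (a : ℕ) (j : Fin 2) :
    T.x j * T.h ∈ R.EB (p + 1 - p) (((a + 1 : ℕ) : ℤ) - a) :=
  R.EB_cast (R.EB_mul (R.pb_le _ _ _ (T.x_mem j)) (R.pb_le _ _ _ T.h_mem)) (by ring)
    (by push_cast; ring)
theorem e_hx (p : ℤ) (a : ℕ) (j : Fin 2) :
    T.h * T.x j ∈ R.EB (p + 1 - p) (((a + 1 : ℕ) : ℤ) - a) :=
  R.EB_cast (R.EB_mul (R.pb_le _ _ _ T.h_mem) (R.pb_le _ _ _ (T.x_mem j))) (by ring)
    (by push_cast; ring)
theorem e_td (p : ℤ) (a : ℕ) (j : Fin 2) :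
    T.t * T.d j ∈ R.EB (p - (p + 1)) (((a + 1 + 1 : ℕ) : ℤ) - a) :=
  R.EB_cast (R.EB_mul (R.pb_le _ _ _ T.t_mem) (R.pb_le _ _ _ (T.d_mem j))) (by ring)
    (by push_cast; ring)
theorem e_dt (p : ℤ) (a : ℕ) (j : Fin 2) :
    T.d j * T.t ∈ R.EB (p - (p + 1)) (((a + 1 + 1 : ℕ) : ℤ) - a) :=
  R.EB_cast (R.EB_mul (R.pb_le _ _ _ (T.d_mem j)) (R.pb_le _ _ _ T.t_mem)) (by ring)
    (by push_cast; ring)
theorem e_hd (p : ℤ) (a : ℕ) (j : Fin 2) :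
    T.h * T.d j ∈ R.EB (p - (p + 1)) (((a + 1 + 1 : ℕ) : ℤ) - a) :=
  R.EB_cast (R.EB_mul (R.pb_le _ _ _ T.h_mem) (R.pb_le _ _ _ (T.d_mem j))) (by ring)
    (by push_cast; ring)
theorem e_dh (p : ℤ) (a : ℕ) (j : Fin 2) :
    T.d j * T.h ∈ R.EB (p - (p + 1)) (((a + 1 + 1 : ℕ) : ℤ) - a) :=
  R.EB_cast (R.EB_mul (R.pb_le _ _ _ (T.d_mem j)) (R.pb_le _ _ _ T.h_mem)) (by ring)
    (by push_cast; ring)
theorem e_s (p : ℤ) (a : ℕ) (j : Fin 2) :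
    T.s j ∈ R.pb (p - (p + 1)) (((a + 1 + 1 : ℕ) : ℤ) - a) 1 :=
  R.pb_cast (T.s_mem j) (by ring) (by push_cast; ring) rfl

/-- **the homology of the rows `p`, `p + 1` as 306's family** -/
def fam (p n : ℤ) : Fam K g where
  Y0 a := HH (R.U p a) n
  Y1 a := HH (R.U (p + 1) a) n
  x j a := lHm (T.mx p a j) (T.x_D j) n
  d j a := lHm (T.md p a j) (T.d_D j) n
  h0 a := lHm (T.mh p a) T.h_D n
  h1 a := lHm (T.mh (p + 1) a) T.h_D n
  t0 a := lHm (T.mt p a) T.t_D n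
  t1 a := lHm (T.mt (p + 1) a) T.t_D n
  ht0 a y := by
    obtain ⟨u, hu⟩ := IsRep.ex y
    refine (rep_lHm _ _ hu).eq' ((rep_lHm _ _ hu).add (((rep_lHm _ _ (rep_lHm _ _ hu)).add
      (rep_lHm _ _ (rep_lHm _ _ hu))).smul (g - 1))) ?_
    rw [R.L_mul _ _ _ _ (T.e_dx p a 0 0), R.L_mul _ _ _ _ (T.e_dx p a 1 1),
      ← R.L_add _ _ _ _ (Submodule.add_mem _ (T.e_dx p a 0 0) (T.e_dx p a 1 1)),
      ← R.L_smul _ _ _ (Submodule.smul_mem _ _ (Submodule.add_mem _ (T.e_dx p a 0 0)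
        (T.e_dx p a 1 1))),
      ← R.L_add _ _ _ _ (Submodule.add_mem _ (R.pb_le _ _ _ (T.mh p a))
        (Submodule.smul_mem _ _ (Submodule.add_mem _ (T.e_dx p a 0 0) (T.e_dx p a 1 1))))]
    exact L_eq T.ht0 _ _ _
  ht1 a y := by
    obtain ⟨u, hu⟩ := IsRep.ex y
    refine ((rep_lHm _ _ hu).smul _).eq' ((rep_lHm _ _ hu).add
      (((rep_lHm _ _ (rep_lHm _ _ hu)).add
      ((rep_lHm _ _ (rep_lHm _ _ hu)).smul g)).smul (g - 1))) ?_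
    have k0 := T.e_xd p a 0 0
    have k1 := T.e_xd p a 1 1
    have k2 := Submodule.smul_mem _ g k1
    have k3 := Submodule.add_mem _ k0 k2
    have k4 := Submodule.smul_mem _ (g - 1) k3
    rw [R.L_mul _ _ _ _ k0, R.L_mul _ _ _ _ k1, ← R.L_smul _ _ _ k2,
      ← R.L_add _ _ _ _ k3, ← R.L_smul _ _ _ k4,
      ← R.L_add _ _ _ _ (Submodule.add_mem _ (R.pb_le _ _ _ (T.mh (p + 1) a)) k4),
      ← R.L_smul _ _ _ (Submodule.smul_mem _ (g ^ 2) (R.pb_le _ _ _ (T.mt (p + 1) a)))]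
    exact L_eq T.ht1 _ _ _
  xt j a y := by
    obtain ⟨u, hu⟩ := IsRep.ex y
    refine (rep_lHm _ _ (rep_lHm _ _ hu)).eq' ((rep_lHm _ _ (rep_lHm _ _ hu)).smul g) ?_
    rw [R.L_mul _ _ _ _ (T.e_xt p a j), R.L_mul _ _ _ _ (T.e_tx p a j),
      ← R.L_smul _ _ _ (Submodule.smul_mem _ g (T.e_tx p a j))]
    exact L_eq (T.xt j) _ _ _
  td j a y := by
    obtain ⟨u, hu⟩ := IsRep.ex y
    obtain ⟨hun, hud, -⟩ := id hu
    refine (rep_lHm _ _ (rep_lHm _ _ hu)).eq ((rep_lHm _ _ (rep_lHm _ _ hu)).smul g)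
      ⟨R.L (T.s j) (R.pb_le _ _ _ (T.e_s p a j)) u, R.L_mem _ (T.e_s p a j) hun, ?_⟩
    have k1 := Submodule.smul_mem _ g (T.e_dt p a j)
    have k0 : R.DB (T.s j) ∈ R.EB (p - (p + 1)) (((a + 1 + 1 : ℕ) : ℤ) - a) := by
      have h : R.DB (T.s j) = T.t * T.d j - g • (T.d j * T.t) := by rw [T.td j]; abel
      rw [h]
      exact Submodule.sub_mem _ (T.e_td p a j) k1
    rw [R.L_d _ _ k0, hud, map_zero, add_zero, R.L_mul _ _ _ _ (T.e_td p a j),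
      R.L_mul _ _ _ _ (T.e_dt p a j), ← R.L_smul _ _ _ k1,
      ← R.L_add _ _ _ _ (Submodule.add_mem _ k1 k0)]
    exact L_eq (T.td j) _ _ _
  xh j a y := by
    obtain ⟨u, hu⟩ := IsRep.ex y
    refine (rep_lHm _ _ (rep_lHm _ _ hu)).eq' (rep_lHm _ _ (rep_lHm _ _ hu)) ?_
    rw [R.L_mul _ _ _ _ (T.e_xh p a j), R.L_mul _ _ _ _ (T.e_hx p a j)]
    exact L_eq (T.xh j) _ _ _
  hd j a y := by
    obtain ⟨u, hu⟩ := IsRep.ex y
    refine (rep_lHm _ _ (rep_lHm _ _ hu)).eq' (rep_lHm _ _ (rep_lHm _ _ hu)) ?_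
    rw [R.L_mul _ _ _ _ (T.e_hd p a j), R.L_mul _ _ _ _ (T.e_dh p a j)]
    exact L_eq (T.hd j) _ _ _

/-- membership of `θ = t + l h` -/
theorem mth (l : K) (p : ℤ) (a : ℕ) :
    T.t + l • T.h ∈ R.pb (p - p) (((a + 1 : ℕ) : ℤ) - a) 0 :=
  Submodule.add_mem _ (T.mt p a) (Submodule.smul_mem _ l (T.mh p a))

theorem th_D (l : K) : R.DB (T.t + l • T.h) = 0 := by
  rw [map_add, map_smul, T.t_D, T.h_D, smul_zero, add_zero]

theorem th0_eq (l : K) (p n : ℤ) (a : ℕ) (y : HH (R.U p a) n) :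
    (T.fam p n).th0 l a y = lHm (T.mth l p a) (T.th_D l) n y := by
  obtain ⟨u, hu⟩ := IsRep.ex y
  refine IsRep.eq' ((rep_lHm (T.mt p a) T.t_D hu).add ((rep_lHm (T.mh p a) T.h_D hu).smul l))
    (rep_lHm _ _ hu) ?_
  rw [R.L_add _ _ (R.pb_le _ _ _ (T.mt p a))
    (Submodule.smul_mem _ l (R.pb_le _ _ _ (T.mh p a))), R.L_smul _ _ (R.pb_le _ _ _ (T.mh p a))]

theorem th1_eq (l : K) (p n : ℤ) (a : ℕ) (y : HH (R.U (p + 1) a) n) :
    (T.fam p n).th1 l a y = lHm (T.mth l (p + 1) a) (T.th_D l) n y := by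
  obtain ⟨u, hu⟩ := IsRep.ex y
  refine IsRep.eq' ((rep_lHm (T.mt (p + 1) a) T.t_D hu).add
    ((rep_lHm (T.mh (p + 1) a) T.h_D hu).smul l)) (rep_lHm _ _ hu) ?_
  rw [R.L_add _ _ (R.pb_le _ _ _ (T.mt (p + 1) a))
    (Submodule.smul_mem _ l (R.pb_le _ _ _ (T.mh (p + 1) a))),
    R.L_smul _ _ (R.pb_le _ _ _ (T.mh (p + 1) a))]

/-- the chain map `θ` on the row `p` -/
def thH (l : K) (p : ℤ) (a : ℕ) : GCHom (R.U p a) (R.U p ((a + 1 : ℕ) : ℤ)) :=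
  lH (T.mth l p a) (T.th_D l)

theorem th0_bij (l : K) (p n : ℤ) (a : ℕ) (h : QI (T.thH l p a)) :
    Function.Bijective ((T.fam p n).th0 l a) := by
  have h1 := bijective_of_QI h n
  have h2 : ⇑((T.fam p n).th0 l a) = ⇑(lHm (T.mth l p a) (T.th_D l) n) :=
    funext fun y => T.th0_eq l p n a y
  rw [h2]
  exact h1

theorem th1_bij (l : K) (p n : ℤ) (a : ℕ) (h : QI (T.thH l (p + 1) a)) :
    Function.Bijective ((T.fam p n).th1 l a) := by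
  have h1 := bijective_of_QI h n
  have h2 : ⇑((T.fam p n).th1 l a) = ⇑(lHm (T.mth l (p + 1) a) (T.th_D l) n) :=
    funext fun y => T.th1_eq l p n a y
  rw [h2]
  exact h1

end XDHT

end Crest.Agent.R186.FamU654
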