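import Crest.Agent.R186.Inst_823
import Crest.Agent.R186.B281W_128
import Crest.Agent.R186.FilPBW_633

/-!
Row 186, S0281, leaf B281.F1 (helper823): the terms of the resolutions as families.

* `kgen (hg : Gen g) : KGen g` (from 633's `X3R`, `X2R`);
* `Fam.pi F ι`, `Fam.prod F G`; levelwise exactness of componentwise maps;
* `Fam.Sur` ((S')) for the line bundles, the `K`-lattices, `pi`, `prod`.
-/

set_option autoImplicit false

namespace Crest.Agent.R186.FamX823

open Crest.Agent.R186.B281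

variable {K : Type} [Field K] {g : K}

/-- generation of the lattices of the `K`-vertices -/
theorem kgen (hg : Gen g) : KGen g := by
  intro j k P a b ha hb h
  obtain ⟨a', ha', b', hb', e1⟩ := FilPBW633.X3R hg ha hb h
  rw [add_sub_cancel_right] at ha' hb'
  have m1 : a' ∈ Fil g k P := Fil_mono g (by omega) ha'
  have m2 : b' ∈ Fil g k P := Fil_mono g (by omega) hb'
  have e2 : (a - a') * X 0 + (b - b') * X 1 = 0 := by
    rw [sub_mul, sub_mul, sub_add_sub_comm, e1, sub_self]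
  obtain ⟨e, he, e3, e4⟩ := FilPBW633.X2R hg (sub_mem ha m1) (sub_mem hb m2) e2
  exact ⟨a', ha', b', hb', e, he, by rw [← e3]; abel, by
    rw [sub_eq_add_neg, ← e4]; abel⟩

/-- left generation by `x`: degree `P ≥ 1` -/
theorem Fil_left {k P : ℤ} (hP : 1 ≤ P) {T : Op K} (hT : T ∈ Fil g k P) :
    ∃ T0 ∈ Fil g k (P - 1), ∃ T1 ∈ Fil g k (P - 1), T = X 1 * T0 - X 0 * T1 := by
  induction hT using Submodule.span_induction with
  | mem x hx =>
    obtain ⟨⟨a0, a1⟩, ⟨b0, b1⟩, h1, h2, rfl⟩ := hx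
    simp only at h1 h2
    rcases Nat.eq_zero_or_pos a0 with h | h
    · subst h
      obtain ⟨a, rfl⟩ : ∃ a, a1 = a + 1 := ⟨a1 - 1, by omega⟩
      refine ⟨mon g (0, a) (b0, b1), mon_mem g _ _ h1 (by push_cast at h2 ⊢; omega), 0,
        zero_mem _, ?_⟩
      simp only [mon, pow_zero, one_mul, pow_succ', mul_zero, sub_zero, mul_assoc]
    · obtain ⟨a, rfl⟩ : ∃ a, a0 = a + 1 := ⟨a0 - 1, by omega⟩
      refine ⟨0, zero_mem _, -mon g (a, a1) (b0, b1),
        neg_mem (mon_mem g _ _ h1 (by push_cast at h2 ⊢; omega)), ?_⟩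
      simp only [mon, pow_succ', mul_zero, zero_sub, mul_neg, neg_neg, mul_assoc]
  | zero => exact ⟨0, zero_mem _, 0, zero_mem _, by rw [mul_zero, mul_zero, sub_zero]⟩
  | add x y _ _ hx hy =>
    obtain ⟨a, ha, b, hb, e1⟩ := hx
    obtain ⟨c, hc, d, hd, e2⟩ := hy
    exact ⟨a + c, add_mem ha hc, b + d, add_mem hb hd, by rw [e1, e2, mul_add, mul_add]; abel⟩
  | smul r x _ hx =>
    obtain ⟨a, ha, b, hb, e1⟩ := hx
    exact ⟨r • a, Submodule.smul_mem _ _ ha, r • b, Submodule.smul_mem _ _ hb, by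
      rw [e1, smul_sub, mul_smul_comm, mul_smul_comm]⟩

/-- left generation by `x` and the constants: degree `0` -/
theorem Fil_left0 {k : ℤ} {T : Op K} (hT : T ∈ Fil g k 0) :
    ∃ T0 ∈ Fil g k (-1), ∃ T1 ∈ Fil g k (-1), ∃ c : K, (k < 0 → c = 0) ∧
      T = X 1 * T0 - X 0 * T1 + c • 1 := by
  induction hT using Submodule.span_induction with
  | mem x hx =>
    obtain ⟨⟨a0, a1⟩, ⟨b0, b1⟩, h1, h2, rfl⟩ := hx
    simp only at h1 h2
    rcases Nat.eq_zero_or_pos a0 with h | h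
    · subst h
      rcases Nat.eq_zero_or_pos a1 with h' | h'
      · subst h'
        have e0 : b0 = 0 := by push_cast at h2; omega
        have e1 : b1 = 0 := by push_cast at h2; omega
        subst e0 e1
        refine ⟨0, zero_mem _, 0, zero_mem _, 1, fun hk => absurd h1 (by push_cast; omega), ?_⟩
        simp [mon]
      · obtain ⟨a, rfl⟩ : ∃ a, a1 = a + 1 := ⟨a1 - 1, by omega⟩
        refine ⟨mon g (0, a) (b0, b1), mon_mem g _ _ h1 (by push_cast at h2 ⊢; omega), 0,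
          zero_mem _, 0, fun _ => rfl, ?_⟩
        simp only [mon, pow_zero, one_mul, pow_succ', mul_zero, sub_zero, mul_assoc, zero_smul,
          add_zero]
    · obtain ⟨a, rfl⟩ : ∃ a, a0 = a + 1 := ⟨a0 - 1, by omega⟩
      refine ⟨0, zero_mem _, -mon g (a, a1) (b0, b1),
        neg_mem (mon_mem g _ _ h1 (by push_cast at h2 ⊢; omega)), 0, fun _ => rfl, ?_⟩
      simp only [mon, pow_succ', mul_zero, zero_sub, mul_neg, neg_neg, mul_assoc, zero_smul,
          add_zero]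
  | zero => exact ⟨0, zero_mem _, 0, zero_mem _, 0, fun _ => rfl, by
      rw [mul_zero, mul_zero, sub_zero, zero_smul, add_zero]⟩
  | add x y _ _ hx hy =>
    obtain ⟨a, ha, b, hb, r, hr, e1⟩ := hx
    obtain ⟨c, hc, d, hd, t, ht, e2⟩ := hy
    exact ⟨a + c, add_mem ha hc, b + d, add_mem hb hd, r + t,
      fun hk => by rw [hr hk, ht hk, add_zero], by
      rw [e1, e2, mul_add, mul_add, add_smul]; abel⟩
  | smul r x _ hx =>
    obtain ⟨a, ha, b, hb, t, ht, e1⟩ := hx
    exact ⟨r • a, Submodule.smul_mem _ _ ha, r • b, Submodule.smul_mem _ _ hb, r * t,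
      fun hk => by rw [ht hk, mul_zero], by
      rw [e1, smul_add, smul_sub, mul_smul_comm, mul_smul_comm, smul_smul]⟩

/-- membership in the lattice `TK c d` -/
def InK (g : K) (c d k P : ℤ) (v0 v1 : Op K) : Prop :=
  v0 ∈ Fil g (k - c) P ∧ v1 ∈ Fil g (k - c) P ∧ v0 * X 0 + v1 * X 1 ∈ Fil g (k - d) (P + 1)

theorem mulX (hg : Gen g) {k P : ℤ} {T : Op K} (hT : T ∈ Fil g k P) (i : Fin 2) :
    T * X i ∈ Fil g k (P + 1) := by
  have := FilPBW633.Fil_mul hg hT (X_mem_Fil g i (le_refl 0))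
  rwa [add_zero] at this

theorem InK.add {c d k P : ℤ} {v0 v1 w0 w1 : Op K} (h : InK g c d k P v0 v1)
    (h' : InK g c d k P w0 w1) : InK g c d k P (v0 + w0) (v1 + w1) := by
  refine ⟨add_mem h.1 h'.1, add_mem h.2.1 h'.2.1, ?_⟩
  have := add_mem h.2.2 h'.2.2
  rwa [show v0 * X 0 + v1 * X 1 + (w0 * X 0 + w1 * X 1) =
    (v0 + w0) * X 0 + (v1 + w1) * X 1 by simp only [add_mul]; abel] at this

theorem InK.smul {c d k P : ℤ} {v0 v1 : Op K} (r : K) (h : InK g c d k P v0 v1) :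
    InK g c d k P (r • v0) (r • v1) := by
  refine ⟨Submodule.smul_mem _ _ h.1, Submodule.smul_mem _ _ h.2.1, ?_⟩
  have := Submodule.smul_mem _ r h.2.2
  rwa [smul_add, ← smul_mul_assoc, ← smul_mul_assoc] at this

theorem InK.zero {c d k P : ℤ} : InK g c d k P 0 0 :=
  ⟨zero_mem _, zero_mem _, by rw [zero_mul, zero_mul, add_zero]; exact zero_mem _⟩

/-- rows `e (x₁, -x₀)` -/
theorem InK.kap (hg : Gen g) {c d k P : ℤ} {w : Op K} (h : w ∈ Fil g (k - c) (P - 1)) :
    InK g c d k P (w * X 1) (-(w * X 0)) := by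
  have h1 := mulX hg h 1
  have h0 := mulX hg h 0
  rw [sub_add_cancel] at h1 h0
  refine ⟨h1, neg_mem h0, ?_⟩
  rw [neg_mul, mul_assoc, mul_assoc, X_comm 1 0, add_neg_cancel]
  exact zero_mem _

set_option maxHeartbeats 400000 in
/-- **(S') for the `K`-lattices**, elementwise -/
theorem surK (hg : Gen g) {a b c d e : ℤ} (he : 0 ≤ e) (hcd : c ≤ d)
    (hbc : c ≤ b ∨ d ≤ a) {v0 v1 : Op K} (hv : InK g c d a (e + 1) v0 v1) :
    ∃ p0 p1 q0 q1 r0 r1 : Op K, InK g c d a e p0 p1 ∧ InK g c d a e q0 q1 ∧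
      InK g c d b (e + 1) r0 r1 ∧ v0 = X 1 * p0 - X 0 * q0 + r0 ∧
      v1 = X 1 * p1 - X 0 * q1 + r1 := by
  obtain ⟨j, hj⟩ : ∃ j : ℕ, d = c + j := ⟨(d - c).toNat, by omega⟩
  obtain ⟨p, hp, q, hq, w, hw, e0, e1⟩ := kgen hg j (a - c) (e + 1) v0 v1 hv.1 hv.2.1 (by
    have := hv.2.2
    rwa [hj, ← sub_sub] at this)
  rw [sub_sub, ← hj] at hp hq
  rw [add_sub_cancel_right] at hw
  obtain ⟨p0, hp0, p1, hp1, ep⟩ := Fil_left (by omega) hp
  obtain ⟨q0, hq0, q1, hq1, eq⟩ := Fil_left (by omega) hq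
  rw [add_sub_cancel_right] at hp0 hp1 hq0 hq1
  have hrow : ∀ {s t : Op K}, s ∈ Fil g (a - d) e → t ∈ Fil g (a - d) e → InK g c d a e s t :=
    fun hs ht => ⟨Fil_mono g (by omega) hs, Fil_mono g (by omega) ht,
      add_mem (mulX hg hs 0) (mulX hg ht 1)⟩
  rcases lt_or_eq_of_le he with he | he
  · obtain ⟨w0, hw0, w1, hw1, ew⟩ := Fil_left (by omega) hw
    have hk0 : InK g c d a e (p0 + w0 * X 1) (q0 + -(w0 * X 0)) :=
      InK.add (hrow hp0 hq0) (InK.kap (c := c) (d := d) (k := a) (P := e) hg hw0)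
    have hk1 : InK g c d a e (p1 + w1 * X 1) (q1 + -(w1 * X 0)) :=
      InK.add (hrow hp1 hq1) (InK.kap (c := c) (d := d) (k := a) (P := e) hg hw1)
    refine ⟨p0 + w0 * X 1, q0 + -(w0 * X 0), p1 + w1 * X 1, q1 + -(w1 * X 0), 0, 0,
      hk0, hk1, InK.zero, ?_, ?_⟩
    · rw [e0, ep, ew, sub_mul]
      simp only [mul_add, mul_assoc, add_zero]
      abel
    · rw [e1, eq, ew, sub_mul]
      simp only [mul_add, mul_neg, mul_assoc, add_zero]
      abel
  · subst he
    obtain ⟨w0, hw0, w1, hw1, r, hr, ew⟩ := Fil_left0 hw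
    have hk0 : InK g c d a 0 (p0 + w0 * X 1) (q0 + -(w0 * X 0)) :=
      InK.add (hrow hp0 hq0) (InK.kap (c := c) (d := d) (k := a) (P := 0) hg (by rwa [zero_sub]))
    have hk1 : InK g c d a 0 (p1 + w1 * X 1) (q1 + -(w1 * X 0)) :=
      InK.add (hrow hp1 hq1) (InK.kap (c := c) (d := d) (k := a) (P := 0) hg (by rwa [zero_sub]))
    by_cases hac : a - c < 0
    · refine ⟨p0 + w0 * X 1, q0 + -(w0 * X 0), p1 + w1 * X 1, q1 + -(w1 * X 0), 0, 0,
        hk0, hk1, InK.zero, ?_, ?_⟩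
      · rw [e0, ep, ew, hr hac, zero_smul, add_zero, sub_mul]
        simp only [mul_add, mul_assoc, add_zero]
        abel
      · rw [e1, eq, ew, hr hac, zero_smul, add_zero, sub_mul]
        simp only [mul_add, mul_neg, mul_assoc, add_zero]
        abel
    · rcases hbc with hbc | hbc
      · have h1 : (1 : Op K) ∈ Fil g (b - c) (0 + 1 - 1) := by
          rw [add_sub_cancel_right]; exact one_mem_Fil g (by omega)
        have h2 : InK g c d b (0 + 1) (1 * X 1) (-(1 * X 0)) :=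
          InK.kap (c := c) (d := d) (k := b) (P := 0 + 1) hg h1
        refine ⟨p0 + w0 * X 1, q0 + -(w0 * X 0), p1 + w1 * X 1, q1 + -(w1 * X 0),
          r • (1 * X 1), r • (-(1 * X 0)), hk0, hk1, h2.smul r, ?_, ?_⟩
        · rw [e0, ep, ew, add_mul, sub_mul, smul_mul_assoc]
          simp only [mul_add, mul_assoc]
          abel
        · rw [e1, eq, ew, add_mul, sub_mul, smul_mul_assoc, smul_neg]
          simp only [mul_add, mul_neg, mul_assoc]
          abel
      · have h1 : InK g c d a 0 (r • 1) (r • (0 : Op K)) := InK.smul r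
          ⟨one_mem_Fil g (by omega), zero_mem _, by
            rw [one_mul, zero_mul, add_zero]; exact X_mem_Fil g 0 (by omega)⟩
        have h2 : InK g c d a 0 (r • (0 : Op K)) (r • 1) := InK.smul r
          ⟨zero_mem _, one_mem_Fil g (by omega), by
            rw [one_mul, zero_mul, zero_add (X 1 : Op K)]; exact X_mem_Fil g 1 (by omega)⟩
        refine ⟨p0 + w0 * X 1 + r • 1, q0 + -(w0 * X 0) + r • 0, p1 + w1 * X 1 + r • 0,
          q1 + -(w1 * X 0) + r • 1, 0, 0, hk0.add h1, hk1.add h2, InK.zero, ?_, ?_⟩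
        · rw [e0, ep, ew, add_mul, sub_mul, smul_mul_assoc, one_mul]
          simp only [mul_add, mul_assoc, add_zero, smul_zero, mul_smul_comm, mul_one, mul_zero]
          abel
        · rw [e1, eq, ew, add_mul, sub_mul, smul_mul_assoc, one_mul]
          simp only [mul_add, mul_neg, mul_assoc, add_zero, smul_zero, mul_smul_comm, mul_one,
            mul_zero]
          abel

/-- (S') for the line bundles, elementwise -/
theorem surO {k e : ℤ} (he : 0 ≤ e) {T : Op K} (hT : T ∈ Fil g k (e + 1)) :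
    ∃ T0 ∈ Fil g k e, ∃ T1 ∈ Fil g k e, T = X 1 * T0 - X 0 * T1 := by
  obtain ⟨u0, h0, u1, h1, h⟩ := Fil_left (by omega) hT
  rw [add_sub_cancel_right] at h0 h1
  exact ⟨u0, h0, u1, h1, h⟩

end Crest.Agent.R186.FamX823
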