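import Crest.Agent.R186.Frame_515

/-!
Row 186 (A) (helper75): twisting data with a decreasing filtration by fibres.

`T : Tw B`, `π : T.ι → Q`, `len : Q → ℕ`, `m σ τ = 0` unless `π σ = π τ` or `len (π σ) < len (π τ)`.
If every fibre is acyclic (and `len ≤ s`, `B` bounded below) then the whole complex is acyclic.
-/

set_option autoImplicit false
set_option linter.style.haveILetI false
set_option linter.unusedSectionVars false

namespace Crest.Agent.R186.FibTw75

open Hat827 Hat827.DGA Frame515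

variable {K : Type} [Field K] {B : GC K}

section

variable (T : Tw B) {Q : Type} (π : T.ι → Q) (len : Q → ℕ)

/-- triangularity with respect to `len ∘ π` -/
def Tri : Prop := ∀ σ τ, π σ ≠ π τ → len (π τ) ≤ len (π σ) → T.m σ τ = 0

variable {T π len}

/-- the fibre over `q` -/
noncomputable def fib (h : Tri T π len) (q : Q) : Tw B where
  ι := {σ // π σ = q}
  s σ := T.s σ.1
  F n := by classical exact (T.F n).subtype fun σ => π σ = q
  mem_F n σ := by
    classical
    rw [Finset.mem_subtype]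
    exact T.mem_F n σ.1
  p σ := T.p σ.1
  m σ τ := T.m σ.1 τ.1
  p_mem σ := T.p_mem σ.1
  p_p σ := T.p_p σ.1
  p_d σ := T.p_d σ.1
  m_zero σ τ hs := T.m_zero σ.1 τ.1 hs
  m_mem σ τ := T.m_mem σ.1 τ.1
  p_m σ τ := T.p_m σ.1 τ.1
  mc := by
    classical
    rintro ⟨σ, hσ⟩ ⟨τ, hτ⟩ x
    have h1 := T.mc σ τ x
    have h2 : ∑ ρ ∈ T.F (T.s σ), T.m ρ τ (T.m σ ρ x) =
        ∑ ρ ∈ (T.F (T.s σ)).subtype (fun σ => π σ = q), T.m ρ.1 τ (T.m σ ρ.1 x) := by
      rw [Finset.sum_subtype_eq_sum_filter (s := T.F (T.s σ)) (p := fun σ => π σ = q)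
        (f := fun ρ => T.m ρ τ (T.m σ ρ x))]
      rw [Finset.sum_filter]
      refine Finset.sum_congr rfl fun ρ _ => ?_
      split_ifs with hρ
      · rfl
      · by_cases h3 : len (π ρ) ≤ len (π σ)
        · rw [h σ ρ (by rw [hσ]; exact fun e => hρ e.symm) h3, LinearMap.zero_apply, map_zero]
        · rw [h ρ τ (by rw [hτ]; exact hρ) (by rw [hτ, ← hσ]; omega), LinearMap.zero_apply]
    rw [h2] at h1
    exact h1

/-- extension by zero -/
noncomputable def ext (q : Q) (y : {σ // π σ = q} →₀ B.X) : T.ι →₀ B.X :=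
  y.embDomain (Function.Embedding.subtype _)

theorem ext_apply (q : Q) (y : {σ // π σ = q} →₀ B.X) (τ : {σ // π σ = q}) :
    ext (T := T) q y τ.1 = y τ :=
  Finsupp.embDomain_apply_self (Function.Embedding.subtype _) y τ

theorem ext_zero {q : Q} (y : {σ // π σ = q} →₀ B.X) {τ : T.ι} (hτ : π τ ≠ q) :
    ext (T := T) q y τ = 0 := by
  refine Finsupp.embDomain_notin_range _ _ _ ?_
  rintro ⟨a, rfl⟩
  exact hτ a.2

theorem ext_dd (h : Tri T π len) {q : Q} (y : {σ // π σ = q} →₀ B.X) (τ : {σ // π σ = q}) :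
    T.dd (ext q y) τ.1 = (fib h q).dd y τ := by
  rw [T.dd_apply' (ext q y) (y.support.map (Function.Embedding.subtype _))
    (by rw [ext, Finsupp.support_embDomain]),
    (fib h q).dd_apply' y y.support (Finset.Subset.refl _), ext_apply, Finset.sum_map]
  congr 1
  refine Finset.sum_congr rfl fun σ _ => ?_
  have := ext_apply (T := T) q y σ
  show T.m σ.1 τ.1 (ext q y σ.1) = T.m σ.1 τ.1 (y σ)
  rw [this]

theorem ext_dd_zero (h : Tri T π len) {q : Q} (y : {σ // π σ = q} →₀ B.X) {τ : T.ι}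
    (h1 : π τ ≠ q) (h2 : len (π τ) ≤ len q) : T.dd (ext q y) τ = 0 := by
  rw [T.dd_apply' (ext q y) (y.support.map (Function.Embedding.subtype _))
    (by rw [ext, Finsupp.support_embDomain]), ext_zero y h1, map_zero, zero_add, Finset.sum_map]
  refine Finset.sum_eq_zero fun σ _ => ?_
  show T.m σ.1 τ (ext q y σ.1) = 0
  rw [h σ.1 τ (by rw [σ.2]; exact fun e => h1 e.symm) (by rw [σ.2]; exact h2),
    LinearMap.zero_apply]

theorem ext_mem (h : Tri T π len) {q : Q} {k : ℤ} {y : {σ // π σ = q} →₀ B.X}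
    (hy : y ∈ (fib h q).gr k) : ext q y ∈ T.gr k := by
  intro τ
  by_cases hτ : π τ = q
  · have := ext_apply (T := T) q y ⟨τ, hτ⟩
    rw [show ext q y τ = y ⟨τ, hτ⟩ from this]
    exact hy ⟨τ, hτ⟩
  · rw [ext_zero y hτ]
    exact ⟨Submodule.zero_mem _, map_zero _⟩

theorem sub_mem' (h : Tri T π len) {q : Q} {k : ℤ} {x : T.ι →₀ B.X} (hx : x ∈ T.gr k) :
    x.subtypeDomain (fun σ => π σ = q) ∈ (fib h q).gr k := fun σ => hx σ.1

/-- the component over `q` of a cycle supported in `len ≥ len q` is a cycle -/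
theorem sub_dd (h : Tri T π len) {q : Q} {x : T.ι →₀ B.X}
    (hs : ∀ σ ∈ x.support, len q ≤ len (π σ)) (τ : {σ // π σ = q}) :
    (fib h q).dd (x.subtypeDomain (fun σ => π σ = q)) τ = T.dd x τ.1 := by
  classical
  rw [T.dd_apply' x x.support (Finset.Subset.refl _),
    (fib h q).dd_apply' (x.subtypeDomain (fun σ => π σ = q))
      (x.support.subtype (fun σ => π σ = q)) (by rw [Finsupp.support_subtypeDomain])]
  congr 1
  show ∑ σ ∈ x.support.subtype (fun σ => π σ = q), T.m σ.1 τ.1 (x σ.1) = _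
  rw [Finset.sum_subtype_eq_sum_filter (s := x.support) (p := fun σ => π σ = q)
    (f := fun σ => T.m σ τ.1 (x σ)), Finset.sum_filter]
  refine Finset.sum_congr rfl fun σ hσ => ?_
  split_ifs with h1
  · rfl
  · rw [h σ τ.1 (by rw [τ.2]; exact h1) (by rw [τ.2]; exact hs σ hσ), LinearMap.zero_apply]

theorem step (h : Tri T π len) (hac : ∀ q, Ac (fib h q).cx) {n : ℤ} {k : ℕ} {x : T.ι →₀ B.X}
    (hx : x ∈ T.gr n) (hd : T.dd x = 0) (hs : ∀ σ ∈ x.support, k ≤ len (π σ)) :
    ∃ y ∈ T.gr (n + 1), ∀ σ ∈ (x - T.dd y).support, k + 1 ≤ len (π σ) := by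
  classical
  let S := (x.support.image π).filter fun q => len q = k
  have hq : ∀ q ∈ S, ∃ y : {σ // π σ = q} →₀ B.X, y ∈ (fib h q).gr (n + 1) ∧
      (fib h q).dd y = x.subtypeDomain (fun σ => π σ = q) := by
    intro q hq
    have hk : len q = k := (Finset.mem_filter.1 hq).2
    obtain ⟨y, hy, e⟩ := hac q n (x.subtypeDomain (fun σ => π σ = q)) (sub_mem' h hx) (by
      refine Finsupp.ext fun τ => ?_
      have := sub_dd h (q := q) (x := x) (fun σ hσ => by rw [hk]; exact hs σ hσ) τ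
      rw [hd] at this
      exact this)
    exact ⟨y, hy, e⟩
  choose! Y hY1 hY2 using hq
  refine ⟨∑ q ∈ S, ext q (Y q), Submodule.sum_mem _ fun q hq => ext_mem h (hY1 q hq), ?_⟩
  intro τ hτ
  rw [Finsupp.mem_support_iff] at hτ
  by_contra hc
  apply hτ
  have hle : len (π τ) ≤ k := by omega
  rw [Finsupp.sub_apply, map_sum, Finsupp.finsetSum_apply]
  by_cases h1 : π τ ∈ S
  · rw [Finset.sum_eq_single (π τ)]
    · have h2 := ext_dd h (Y (π τ)) ⟨τ, rfl⟩
      rw [hY2 _ h1] at h2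
      rw [show T.dd (ext (π τ) (Y (π τ))) τ = _ from h2]
      exact sub_self _
    · intro q hq hne
      exact ext_dd_zero h (Y q) (fun e => hne e.symm) (by rw [(Finset.mem_filter.1 hq).2]; exact hle)
    · intro h3
      exact absurd h1 h3
  · have h2 : x τ = 0 := by
      by_contra h3
      have h4 := Finsupp.mem_support_iff.2 h3
      have h5 := hs τ h4
      exact h1 (Finset.mem_filter.2 ⟨Finset.mem_image_of_mem π h4, by omega⟩)
    rw [h2, Finset.sum_eq_zero, sub_zero]
    intro q hq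
    exact ext_dd_zero h (Y q) (fun e => h1 (e ▸ hq)) (by rw [(Finset.mem_filter.1 hq).2]; exact hle)

/-- **fibrewise acyclic ⇒ acyclic** -/
theorem ac_of_fib (h : Tri T π len) (hlen : ∀ σ, len (π σ) ≤ T.s σ) (n0 : ℤ)
    (h0 : ∀ k < n0, B.gr k = ⊥) (hac : ∀ q, Ac (fib h q).cx) : Ac T.cx := by
  intro n x hx hd
  have hx' : x ∈ T.gr n := hx
  have hd' : T.dd x = 0 := hd
  have key : ∀ j : ℕ, ∃ y ∈ T.gr (n + 1), ∀ σ ∈ (x - T.dd y).support, j ≤ len (π σ) := by
    intro j
    induction j with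
    | zero => exact ⟨0, Submodule.zero_mem _, fun _ _ => Nat.zero_le _⟩
    | succ j ih =>
      obtain ⟨y, hy, hs⟩ := ih
      have h1 : T.dd y ∈ T.gr n := by
        have := T.dd_mem hy
        rwa [add_sub_cancel_right] at this
      obtain ⟨z, hz, hz'⟩ := step h hac (Submodule.sub_mem _ hx' h1)
        (by rw [map_sub, hd', T.dd_dd, sub_zero]) hs
      refine ⟨y + z, Submodule.add_mem _ hy hz, ?_⟩
      rw [map_add, ← sub_sub]
      exact hz'
  obtain ⟨y, hy, hs⟩ := key ((n - n0).toNat + 1)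
  refine ⟨y, hy, ?_⟩
  have h1 : T.dd y ∈ T.gr n := by
    have := T.dd_mem hy
    rwa [add_sub_cancel_right] at this
  have h2 : x - T.dd y = 0 := by
    refine Finsupp.ext fun σ => ?_
    by_contra hne
    have h3 := hs σ (Finsupp.mem_support_iff.2 hne)
    have h4 := (Submodule.sub_mem _ hx' h1 : x - T.dd y ∈ T.gr n) σ
    have h5 := hlen σ
    rw [h0 (n - T.s σ) (by omega)] at h4
    exact hne ((Submodule.mem_bot K).1 h4.1)
  exact (sub_eq_zero.1 h2).symm

end

end Crest.Agent.R186.FibTw75
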