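import Crest.Agent.R186.LCF_369

/-!
# Row 186, S0281 base (helper369): pairs of families `L' ≤ L` and the dictionary they give

`Pr g U` : `U` a left module with operators `x i`, `d i` (`x_i d_i = 1 + g d_i x_i`), two families
`L k P`, `L' k P` (`k` level, `P` degree).  Instances: `(Fil g k P, Fil g (k-1) P)` on `Op K`,
`(K₁-rows, (Fil (k-1))²)` on `Fin 2 → Op K`.
-/

set_option autoImplicit false

namespace Crest.Agent.R186.LC369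

/-- a pair of families (FIELDS FROZEN 17:40, to be instantiated) -/
structure Pr (K : Type*) [Field K] (g : K) (U : Type*) [AddCommGroup U] [Module K U] where
  x : Fin 2 → U →ₗ[K] U
  d : Fin 2 → U →ₗ[K] U
  xx : ∀ u, x 0 (x 1 u) = x 1 (x 0 u)
  xd0 : ∀ i u, x i (d i u) = u + g • d i (x i u)
  xd1 : ∀ i j u, i ≠ j → x i (d j u) = d j (x i u)
  L : ℤ → ℤ → Submodule K U
  L' : ℤ → ℤ → Submodule K U
  le : ∀ k P u, u ∈ L' k P → u ∈ L k P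
  /-- `h` kills the quotient -/
  h : ∀ k P u, u ∈ L k P → u ∈ L' (k + 1) P
  xL : ∀ i k P u, u ∈ L k P → x i u ∈ L k (P + 1)
  xL' : ∀ i k P u, u ∈ L' k P → x i u ∈ L' k (P + 1)
  dL : ∀ i k P u, u ∈ L k P → d i u ∈ L (k + 1) (P - 1)
  dL' : ∀ i k P u, u ∈ L' k P → d i u ∈ L' (k + 1) (P - 1)
  /-- `x`-Koszul modulo `L'` -/
  XK : ∀ k P u v, u ∈ L k P → v ∈ L k P → x 1 u - x 0 v ∈ L' k (P + 1) →
    ∃ w ∈ L k (P - 1), u - x 0 w ∈ L' k P ∧ v - x 1 w ∈ L' k P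
  XI : ∀ k P u, u ∈ L k P → x 1 u ∈ L' k (P + 1) → u ∈ L' k P
  /-- `d`-Koszul modulo `L'` -/
  DK : ∀ k P u v, u ∈ L k P → v ∈ L k P → d 0 u - d 1 v ∈ L' (k + 1) (P - 1) →
    ∃ w ∈ L (k - 1) (P + 1), u - d 1 w ∈ L' k P ∧ v - d 0 w ∈ L' k P
  DI : ∀ k P u, u ∈ L k P → d 0 u ∈ L' (k + 1) (P - 1) → u ∈ L' k P

namespace Pr

variable {K : Type*} [Field K] {g : K} {U : Type*} [AddCommGroup U] [Module K U] (R : Pr K g U)

/-- surjectivity of `d` onto level `k` (true for order `≥ 1`) -/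
def DS (k : ℤ) : Prop := ∀ P w, w ∈ R.L k P →
  ∃ u ∈ R.L (k - 1) (P + 1), ∃ v ∈ R.L (k - 1) (P + 1), w - (R.d 0 u - R.d 1 v) ∈ R.L' k P

/-- surjectivity of `x` onto `L k P` (true for `k + P ≥ 1` resp. `P ≥ 1` ...) -/
def XS (k P : ℤ) : Prop := ∀ w ∈ R.L k P,
  ∃ u ∈ R.L k (P - 1), ∃ v ∈ R.L k (P - 1), w - (R.x 0 u - R.x 1 v) ∈ R.L' k P

/-- `L b (P+1) ≤ x1 L' k P - x0 L' k P + L' b (P+1)` -/
def LX (b k P : ℤ) : Prop := ∀ m ∈ R.L b (P + 1),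
  ∃ u ∈ R.L' k P, ∃ v ∈ R.L' k P, m - (R.x 1 u - R.x 0 v) ∈ R.L' b (P + 1)

end Pr

end Crest.Agent.R186.LC369
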