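import Crest.Agent.R186.Sym_461
import Crest.Agent.R186.LCP_369
import Crest.Agent.R186.Inst_823

/-!
# Row 186, S0281 base, LCQ s = 0 (helper461): the pair `(Fil g k P, Fil g (k-1) P)` on `Op K`

`filPr hg : LC369.Pr K g (Op K)`, `filPr_DS`, `filPr_XS`, `filPr_LX`.
-/

set_option autoImplicit false

namespace Crest.Agent.R186.B281.Sym461

open PBWD633

section ring

variable {K : Type*} [Field K] {g : K} {R : Type*} [Ring R] [Algebra K R]

theorem r_xx (W : QW g R) (u : R) : xx W 0 * (xx W 1 * u) = xx W 1 * (xx W 0 * u) := by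
  show W.x0 * (W.x1 * u) = W.x1 * (W.x0 * u)
  rw [← mul_assoc, ← mul_assoc, W.hx]

theorem r_xd0 (W : QW g R) (i : Fin 2) (u : R) :
    xx W i * (dd W i * u) = u + g • (dd W i * (xx W i * u)) := by
  fin_cases i
  · show W.x0 * (W.d0 * u) = u + g • (W.d0 * (W.x0 * u))
    rw [← mul_assoc, ← mul_assoc, W.h00, add_mul, one_mul, smul_mul_assoc]
  · show W.x1 * (W.d1 * u) = u + g • (W.d1 * (W.x1 * u))
    rw [← mul_assoc, ← mul_assoc, W.h11, add_mul, one_mul, smul_mul_assoc]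

theorem r_xd1 (W : QW g R) (i j : Fin 2) (u : R) (h : i ≠ j) :
    xx W i * (dd W j * u) = dd W j * (xx W i * u) := by
  fin_cases i <;> fin_cases j
  · exact absurd rfl h
  · show W.x0 * (W.d1 * u) = W.d1 * (W.x0 * u)
    rw [← mul_assoc, ← mul_assoc, W.h01]
  · show W.x1 * (W.d0 * u) = W.d0 * (W.x1 * u)
    rw [← mul_assoc, ← mul_assoc, W.h10]
  · exact absurd rfl h

/-- sign change in the surjectivity statements -/
theorem r_sgn {A B C : Submodule K R} {x y w : R}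
    (h : ∃ a ∈ A, ∃ b ∈ B, w - (x * a + y * b) ∈ C) :
    ∃ a ∈ A, ∃ b ∈ B, w - (x * a - y * b) ∈ C := by
  obtain ⟨a, ha, b, hb, h⟩ := h
  refine ⟨a, ha, -b, neg_mem hb, ?_⟩
  rw [mul_neg, sub_neg_eq_add]
  exact h

theorem r_sgn' {A B : Submodule K R} {C : Submodule K R} {x y w : R}
    (h : ∃ a ∈ A, ∃ b ∈ B, w = x * a + y * b) :
    ∃ b ∈ B, ∃ a ∈ A, w - (y * b - x * a) ∈ C := by
  obtain ⟨a, ha, b, hb, rfl⟩ := h
  refine ⟨b, hb, -a, neg_mem ha, ?_⟩
  rw [mul_neg, sub_neg_eq_add, add_comm (y * b), sub_self]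
  exact zero_mem _

theorem r_sgn'' {A B : Submodule K R} {C : Submodule K R} {x y w : R}
    (h : ∃ a ∈ A, ∃ b ∈ B, w - (x * a + y * b) ∈ C) :
    ∃ b ∈ B, ∃ a ∈ A, w - (y * b - x * a) ∈ C := by
  obtain ⟨a, ha, b, hb, h⟩ := h
  refine ⟨b, hb, -a, neg_mem ha, ?_⟩
  rw [mul_neg, sub_neg_eq_add, add_comm (y * b)]
  exact h

end ring

variable {K : Type} [Field K] {g : K}

/-- the pair `(Fil g k P, Fil g (k-1) P)` -/
noncomputable def filPr (hg : Gen g) : LC369.Pr K g (Op K) where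
  x i := LinearMap.mulLeft K (X i)
  d i := LinearMap.mulLeft K (D g i)
  xx u := by
    have h := r_xx (W hg) u
    rw [xx_eq, xx_eq] at h
    exact h
  xd0 i u := by
    have h := r_xd0 (W hg) i u
    rw [xx_eq, dd_eq] at h
    exact h
  xd1 i j u hij := by
    have h := r_xd1 (W hg) i j u hij
    rw [xx_eq, dd_eq] at h
    exact h
  L k P := Fil g k P
  L' k P := Fil g (k - 1) P
  le k P u hu := Fil_mono hg (by omega) P hu
  h k P u hu := by
    rw [add_sub_cancel_right]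
    exact hu
  xL i k P u hu := X_mem hg i hu
  xL' i k P u hu := X_mem hg i hu
  dL i k P u hu := D_mem hg i hu
  dL' i k P u hu := by
    have h := D_mem hg i hu
    rw [sub_add_cancel] at h
    rw [add_sub_cancel_right]
    exact h
  XK k P u v hu hv h := XK hg hu hv h
  XI k P u hu h := XI hg 1 hu h
  DK k P u v hu hv h := by
    rw [add_sub_cancel_right] at h
    exact DK hg hu hv h
  DI k P u hu h := by
    rw [add_sub_cancel_right] at h
    refine DI hg 0 (k := k - 1) hu ?_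
    rw [sub_add_cancel]
    exact h

theorem filPr_x (hg : Gen g) (i : Fin 2) (u : Op K) : (filPr hg).x i u = X i * u := rfl
theorem filPr_d (hg : Gen g) (i : Fin 2) (u : Op K) : (filPr hg).d i u = D g i * u := rfl
theorem filPr_L (hg : Gen g) (k P : ℤ) : (filPr hg).L k P = Fil g k P := rfl
theorem filPr_L' (hg : Gen g) (k P : ℤ) : (filPr hg).L' k P = Fil g (k - 1) P := rfl

theorem filPr_DS (hg : Gen g) {k : ℤ} (hk : k ≠ 0) : (filPr hg).DS k := fun _ _ hw =>
  r_sgn (DSn hg hk hw)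

theorem filPr_XS (hg : Gen g) {k P : ℤ} (hk : P + k ≠ 0 ∨ k < 0) : (filPr hg).XS k P :=
  fun _ hw => r_sgn (XSn hg hk hw)

/-- `LX b k P` for `b ≤ k - 1`, `P + 1 + b ≠ 0 ∨ b < 0` -/
theorem filPr_LX (hg : Gen g) {b k P : ℤ} (hb : b ≤ k - 1) (hP : P + 1 + b ≠ 0 ∨ b < 0) :
    (filPr hg).LX b k P := by
  intro m hm
  have h1 : m ∈ Fil g b (P + 1) := hm
  obtain ⟨u, hu, v, hv, h⟩ := XSn hg hP h1
  rw [add_sub_cancel_right] at hu hv
  exact r_sgn'' ⟨u, Fil_mono hg hb P hu, v, Fil_mono hg hb P hv, h⟩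

end Crest.Agent.R186.B281.Sym461
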