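import Mathlib

/-!
Row 186 (helper830): elementwise exactness through filtrations.

`G m` is the part of degree `m`, `D` lowers the degree by one (`D (G (m+1)) ⊆ G m`), all exactness
statements are "`y ∈ G m`, `D y = 0` ⟹ `y = D z`, `z ∈ G (m+1)`".
-/

set_option autoImplicit false

namespace Crest.Agent.R186.Filt830

section

variable {Y : Type*} [AddCommGroup Y] (D : Y →+ Y) (G : ℤ → AddSubgroup Y)

/-- exactness in degree `m` -/
def Ex (m : ℤ) : Prop := ∀ y ∈ G m, D y = 0 → ∃ z ∈ G (m + 1), D z = y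

/-- exactness of `A` modulo `B` in degree `m` (only closed elements of `A` are needed) -/
def ExMod (A B : AddSubgroup Y) (m : ℤ) : Prop :=
  ∀ y ∈ G m, y ∈ A → D y = 0 → ∃ z ∈ G (m + 1), z ∈ A ∧ y - D z ∈ B

/-- the full quotient form implies the weak form -/
theorem ExMod.of_quot {A B : AddSubgroup Y} {m : ℤ}
    (h : ∀ y ∈ G m, y ∈ A → D y ∈ B → ∃ z ∈ G (m + 1), z ∈ A ∧ y - D z ∈ B) :
    ExMod D G A B m := fun y hy hA h0 => h y hy hA (by rw [h0]; exact B.zero_mem)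

/-- **decreasing filtration**, finite in the degree `m` -/
theorem ex_of_dec (hDD : ∀ y, D (D y) = 0) (hD : ∀ {m : ℤ} {y : Y}, y ∈ G m → D y ∈ G (m - 1))
    (F : ℕ → AddSubgroup Y) (m : ℤ) (h0 : ∀ y ∈ G m, y ∈ F 0)
    (N : ℕ) (hN : ∀ y ∈ G m, y ∈ F N → y = 0)
    (h : ∀ k, k < N → ExMod D G (F k) (F (k + 1)) m) : Ex D G m := by
  have key : ∀ k, k ≤ N → ∀ y ∈ G m, D y = 0 → ∃ z ∈ G (m + 1), y - D z ∈ F k := by
    intro k
    induction k with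
    | zero =>
      intro _ y hy _
      exact ⟨0, (G (m + 1)).zero_mem, by simpa using h0 y hy⟩
    | succ k ih =>
      intro hk y hy hDy
      obtain ⟨z, hz, hzF⟩ := ih (by omega) y hy hDy
      have hDz : D z ∈ G m := by simpa using hD hz
      obtain ⟨w, hw, _, hwF⟩ := h k (by omega) (y - D z) ((G m).sub_mem hy hDz) hzF
        (by rw [map_sub, hDy, hDD, sub_zero])
      exact ⟨z + w, (G (m + 1)).add_mem hz hw, by rw [map_add, ← sub_sub]; exact hwF⟩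
  intro y hy hDy
  obtain ⟨z, hz, hzF⟩ := key N le_rfl y hy hDy
  have hDz : D z ∈ G m := by simpa using hD hz
  exact ⟨z, hz, (sub_eq_zero.1 (hN _ ((G m).sub_mem hy hDz) hzF)).symm⟩

/-- **increasing filtration**, exhaustive, `F 0 = 0` -/
theorem ex_of_inc (hDD : ∀ y, D (D y) = 0) (hD : ∀ {m : ℤ} {y : Y}, y ∈ G m → D y ∈ G (m - 1))
    (F : ℕ → AddSubgroup Y) (m : ℤ) (hF : ∀ y ∈ G m, ∃ k, y ∈ F k)
    (h0 : ∀ y ∈ G m, y ∈ F 0 → y = 0)
    (h : ∀ k, ExMod D G (F (k + 1)) (F k) m) : Ex D G m := by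
  have key : ∀ k, ∀ y ∈ G m, y ∈ F k → D y = 0 → ∃ z ∈ G (m + 1), D z = y := by
    intro k
    induction k with
    | zero =>
      intro y hy hk _
      exact ⟨0, (G (m + 1)).zero_mem, by rw [map_zero, h0 y hy hk]⟩
    | succ k ih =>
      intro y hy hk hDy
      obtain ⟨w, hw, _, hwF⟩ := h k y hy hk hDy
      have hDw : D w ∈ G m := by simpa using hD hw
      obtain ⟨z, hz, hzF⟩ := ih (y - D w) ((G m).sub_mem hy hDw) hwF
        (by rw [map_sub, hDy, hDD, sub_zero])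
      exact ⟨z + w, (G (m + 1)).add_mem hz hw, by rw [map_add, hzF, sub_add_cancel]⟩
  intro y hy hDy
  obtain ⟨k, hk⟩ := hF y hy
  exact key k y hy hk hDy

/-- a homogeneous contraction gives exactness -/
theorem ex_of_contract (s : Y →+ Y) (hs : ∀ {m : ℤ} {y : Y}, y ∈ G m → s y ∈ G (m + 1))
    (h : ∀ y, D (s y) + s (D y) = y) (m : ℤ) : Ex D G m := fun y hy h0 =>
  ⟨s y, hs hy, by have := h y; rwa [h0, map_zero, add_zero] at this⟩

end

/-! ### short exact sequences -/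

section

variable {X Y Z : Type*} [AddCommGroup X] [AddCommGroup Y] [AddCommGroup Z]
  (DX : X →+ X) (DY : Y →+ Y) (DZ : Z →+ Z)
  (GX : ℤ → AddSubgroup X) (GY : ℤ → AddSubgroup Y) (GZ : ℤ → AddSubgroup Z)

/-- a homogeneous short exact sequence of complexes `0 → X → Y → Z → 0` -/
structure SES (i : X →+ Y) (p : Y →+ Z) : Prop where
  iG : ∀ m, ∀ x ∈ GX m, i x ∈ GY m
  pG : ∀ m, ∀ y ∈ GY m, p y ∈ GZ m
  iD : ∀ x, i (DX x) = DY (i x)
  pD : ∀ y, p (DY y) = DZ (p y)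
  DXG : ∀ m, ∀ x ∈ GX m, DX x ∈ GX (m - 1)
  DYG : ∀ m, ∀ y ∈ GY m, DY y ∈ GY (m - 1)
  DDX : ∀ x, DX (DX x) = 0
  DDY : ∀ y, DY (DY y) = 0
  DDZ : ∀ z, DZ (DZ z) = 0
  inj : ∀ m, ∀ x ∈ GX m, i x = 0 → x = 0
  ex : ∀ m, ∀ y ∈ GY m, p y = 0 → ∃ x ∈ GX m, i x = y
  sur : ∀ m, ∀ z ∈ GZ m, ∃ y ∈ GY m, p y = z
  pi : ∀ x, p (i x) = 0

variable {DX DY DZ GX GY GZ} {i : X →+ Y} {p : Y →+ Z}

/-- `X`, `Z` exact in degree `m` ⟹ `Y` exact in degree `m` -/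
theorem SES.mid (h : SES DX DY DZ GX GY GZ i p) {m : ℤ} (hX : Ex DX GX m) (hZ : Ex DZ GZ m) :
    Ex DY GY m := by
  intro y hy hDy
  obtain ⟨z, hz, hzy⟩ := hZ (p y) (h.pG m y hy) (by rw [← h.pD, hDy, map_zero])
  obtain ⟨w, hw, hwz⟩ := h.sur (m + 1) z hz
  have hDw : DY w ∈ GY m := by simpa using h.DYG (m + 1) w hw
  obtain ⟨x, hx, hxy⟩ := h.ex m (y - DY w) ((GY m).sub_mem hy hDw)
    (by rw [map_sub, h.pD, hwz, hzy, sub_self])
  have hDx : DX x = 0 := by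
    refine h.inj (m - 1) _ (h.DXG m x hx) ?_
    rw [h.iD, hxy, map_sub, hDy, h.DDY, sub_zero]
  obtain ⟨x', hx', hxx⟩ := hX x hx hDx
  exact ⟨w + i x', (GY (m + 1)).add_mem hw (h.iG _ _ hx'), by
    rw [map_add, ← h.iD, hxx, hxy, add_sub_cancel]⟩

/-- `Y` exact in degree `m + 1`, `X` exact in degree `m` ⟹ `Z` exact in degree `m + 1` -/
theorem SES.right (h : SES DX DY DZ GX GY GZ i p) {m : ℤ} (hY : Ex DY GY (m + 1))
    (hX : Ex DX GX m) : Ex DZ GZ (m + 1) := by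
  intro z hz hDz
  obtain ⟨y, hy, hyz⟩ := h.sur (m + 1) z hz
  have hDy : DY y ∈ GY m := by simpa using h.DYG (m + 1) y hy
  obtain ⟨x, hx, hxy⟩ := h.ex m (DY y) hDy (by rw [h.pD, hyz, hDz])
  have hDx : DX x = 0 := by
    refine h.inj (m - 1) _ (h.DXG m x hx) ?_
    rw [h.iD, hxy, h.DDY]
  obtain ⟨x', hx', hxx⟩ := hX x hx hDx
  obtain ⟨w, hw, hwy⟩ := hY (y - i x') ((GY (m + 1)).sub_mem hy (h.iG _ _ hx'))
    (by rw [map_sub, ← h.iD, hxx, hxy, sub_self])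
  refine ⟨p w, h.pG _ _ hw, ?_⟩
  rw [← h.pD, hwy, map_sub, h.pi, sub_zero, hyz]

/-- `Y` exact in degree `m`, `Z` exact in degree `m + 1` ⟹ `X` exact in degree `m` -/
theorem SES.left (h : SES DX DY DZ GX GY GZ i p) {m : ℤ} (hY : Ex DY GY m)
    (hZ : Ex DZ GZ (m + 1)) : Ex DX GX m := by
  intro x hx hDx
  obtain ⟨y, hy, hyx⟩ := hY (i x) (h.iG m x hx) (by rw [← h.iD, hDx, map_zero])
  obtain ⟨z, hz, hzy⟩ := hZ (p y) (h.pG _ y hy) (by rw [← h.pD, hyx, h.pi])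
  obtain ⟨w, hw, hwz⟩ := h.sur (m + 1 + 1) z hz
  have hDw : DY w ∈ GY (m + 1) := by simpa using h.DYG (m + 1 + 1) w hw
  obtain ⟨x', hx', hxy⟩ := h.ex (m + 1) (y - DY w) ((GY (m + 1)).sub_mem hy hDw)
    (by rw [map_sub, h.pD, hwz, hzy, sub_self])
  refine ⟨x', hx', ?_⟩
  have hmem : DX x' ∈ GX m := by simpa using h.DXG (m + 1) x' hx'
  have := h.inj m (DX x' - x) ((GX m).sub_mem hmem hx) (by
    rw [map_sub, h.iD, hxy, map_sub, h.DDY, sub_zero, hyx, sub_self])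
  exact sub_eq_zero.1 this

end

end Crest.Agent.R186.Filt830
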