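import Crest.Agent.R186.LinkK8_721
import Crest.Agent.R186.CellFin_355

/-!
Row 186, S0281, block LINK (helper721), part 9: **the final link theorem**.

From `A`-level data to the literal hypotheses of `CellFin.c0281_cell`.
-/

set_option autoImplicit false
set_option linter.unusedSectionVars false
set_option linter.style.haveILetI false
set_option linter.unusedVariables false

universe u w

open CategoryTheory CategoryTheory.Abelian MulOpposite

namespace Crest.Agent.R186.LinkK721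

open ExtRes700 Dual700

section

variable {k : Type u} [Field k] {A : Type u} [Ring A] [Algebra k A] [Module.Finite k A]
  {J Y : Type u} [AddCommGroup J] [Module k J] [Module A J] [IsScalarTower k A J]
  [AddCommGroup Y] [Module k Y] [Module A Y] [IsScalarTower k A Y]
  {Jq Yq : Type u} [AddCommGroup Jq] [Module k Jq] [Module A Jq] [IsScalarTower k A Jq]
  [AddCommGroup Yq] [Module k Yq] [Module A Yq] [IsScalarTower k A Yq]
  [Module.Finite k J] [Module.Finite k Y] [Module.Finite k Jq] [Module.Finite k Yq]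
  {V0 W I' X0 P' Y1 : Type u}
  [AddCommGroup V0] [Module k V0] [Module A V0] [IsScalarTower k A V0] [Module.Finite k V0]
  [AddCommGroup W] [Module k W] [Module A W] [IsScalarTower k A W] [Module.Finite k W]
  [AddCommGroup I'] [Module k I'] [Module A I'] [IsScalarTower k A I'] [Module.Finite k I']
  [AddCommGroup X0] [Module k X0] [Module A X0] [IsScalarTower k A X0] [Module.Finite k X0]
  [AddCommGroup P'] [Module k P'] [Module A P'] [IsScalarTower k A P'] [Module.Finite k P']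
  [AddCommGroup Y1] [Module k Y1] [Module A Y1] [IsScalarTower k A Y1] [Module.Finite k Y1]
  {πJ : J →ₗ[A] Jq} {πY : Y →ₗ[A] Yq} (hJ : Function.Surjective πJ)
  (hY : Function.Surjective πY)

/-! ### the four modules and the three maps -/

/-- `E1 = (I' ; Y1)` -/
noncomputable def actE1 (ρ : I' →ₗ[A] Jq) (j1 : Yq →ₗ[A] Y1) :
    Act k (LinearMap.ker πJ) (LinearMap.ker πY) I' Y1 := actQ hJ ρ j1

/-- `E2 = (X0 ; P')` -/
def actE2 (π : X0 →ₗ[A] LinearMap.ker πJ) (jP : LinearMap.ker πY →ₗ[A] P') :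
    Act k (LinearMap.ker πJ) (LinearMap.ker πY) X0 P' := actP π jP

/-- `V → E1` -/
noncomputable def mi (ι : V0 →ₗ[A] Jq) (inc0 : V0 →ₗ[A] I') (ρ : I' →ₗ[A] Jq)
    (hρ : ρ ∘ₗ inc0 = ι) (j1 : Yq →ₗ[A] Y1) :
    GM (actV (k := k) (πY := πY) hJ ι) →ₗ[GG (k := k) πJ πY]
      GM (actE1 (k := k) (πY := πY) hJ ρ j1) :=
  GM.hom _ _ inc0 j1 (fun f x => by
    show j1 (bar hJ f (ι x)) = j1 (bar hJ f (ρ (inc0 x)))
    rw [← hρ]
    rfl)

/-- `E1 → E2` -/
noncomputable def mp (ρ : I' →ₗ[A] Jq) (j1 : Yq →ₗ[A] Y1) (d : I' →ₗ[A] X0)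
    (π : X0 →ₗ[A] LinearMap.ker πJ) (d' : Y1 →ₗ[A] P') (jP : LinearMap.ker πY →ₗ[A] P')
    (h1 : π ∘ₗ d = 0) (h2 : d' ∘ₗ j1 = 0) :
    GM (actE1 (k := k) (πY := πY) hJ ρ j1) →ₗ[GG (k := k) πJ πY]
      GM (actE2 (k := k) (πJ := πJ) (πY := πY) π jP) :=
  GM.hom _ _ d d' (fun f x => by
    have e1 : d' (j1 (bar hJ f (ρ x))) = 0 := LinearMap.congr_fun h2 _
    have e2 : π (d x) = 0 := LinearMap.congr_fun h1 x
    refine Eq.trans e1 ?_
    show 0 = jP ⟨f.1 (π (d x) : J), f.2 _ (π (d x)).2⟩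
    have e3 : (⟨f.1 (π (d x) : J), f.2 _ (π (d x)).2⟩ : LinearMap.ker πY) = 0 := by
      apply Subtype.ext
      show f.1 (π (d x) : J) = 0
      rw [e2]
      exact map_zero f.1
    rw [e3, map_zero])

/-- `E2 → M` -/
noncomputable def mq (π : X0 →ₗ[A] LinearMap.ker πJ) (jP : LinearMap.ker πY →ₗ[A] P')
    (q' : P' →ₗ[A] W) (ϖ : LinearMap.ker πY →ₗ[A] W) (h : q' ∘ₗ jP = ϖ) :
    GM (actE2 (k := k) (πJ := πJ) (πY := πY) π jP) →ₗ[GG (k := k) πJ πY]
      GM (actM (k := k) (πJ := πJ) ϖ) :=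
  GM.hom _ _ π q' (fun f x => by
    show q' (jP ⟨f.1 (π x : J), f.2 _ (π x).2⟩) = ϖ ⟨f.1 (π x : J), f.2 _ (π x).2⟩
    rw [← h]
    rfl)

/-- the simples of `Gam` -/
theorem simples {n : ℕ} (h : Spine700.Simples k A n) :
    Spine700.Simples k (GG (k := k) πJ πY) n := by
  obtain ⟨Q, hQ, hn⟩ := h
  refine ⟨Q.comp prj, hQ.comp fun a => ⟨inc a, rfl⟩, fun x hx => ?_⟩
  obtain ⟨m, hm⟩ := hn x.1 hx
  refine ⟨m + m, ?_⟩
  have h1 : (x ^ m).1 = 0 := by
    have h2 : prj (x ^ m) = prj x ^ m := map_pow prj x m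
    exact h2.trans hm
  rw [pow_add]
  refine Gam.ext ?_ fun j => ?_
  · rw [mul_fst, h1, mul_zero, zero_fst]
  · rw [mul_snd_apply, h1, zero_smul, zero_smul, map_zero, add_zero, zero_snd_apply]

end

/-- **S0281 from the `A`-level link data.** -/
theorem c0281_link {k : Type} [Field k] {A : Type} [Ring A] [Algebra k A] [Module.Finite k A]
    {J Y Jq Yq V0 W I' X0 P' Y1 : Type}
    [AddCommGroup J] [Module k J] [Module A J] [IsScalarTower k A J] [Module.Finite k J]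
    [AddCommGroup Y] [Module k Y] [Module A Y] [IsScalarTower k A Y] [Module.Finite k Y]
    [AddCommGroup Jq] [Module k Jq] [Module A Jq] [IsScalarTower k A Jq] [Module.Finite k Jq]
    [AddCommGroup Yq] [Module k Yq] [Module A Yq] [IsScalarTower k A Yq] [Module.Finite k Yq]
    [AddCommGroup V0] [Module k V0] [Module A V0] [IsScalarTower k A V0] [Module.Finite k V0]
    [AddCommGroup W] [Module k W] [Module A W] [IsScalarTower k A W] [Module.Finite k W]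
    [AddCommGroup I'] [Module k I'] [Module A I'] [IsScalarTower k A I'] [Module.Finite k I']
    [AddCommGroup X0] [Module k X0] [Module A X0] [IsScalarTower k A X0] [Module.Finite k X0]
    [AddCommGroup P'] [Module k P'] [Module A P'] [IsScalarTower k A P'] [Module.Finite k P']
    [AddCommGroup Y1] [Module k Y1] [Module A Y1] [IsScalarTower k A Y1] [Module.Finite k Y1]
    -- `J ↠ J/U`, `Y ↠ Y/P`
    (πJ : J →ₗ[A] Jq) (hJ : Function.Surjective πJ)
    (πY : Y →ₗ[A] Yq) (hY : Function.Surjective πY)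
    (ι : V0 →ₗ[A] Jq) (hι : ι ≠ 0) (ϖ : LinearMap.ker πY →ₗ[A] W) (hϖ : ϖ ≠ 0)
    -- `0 → V0 → I' → X0 → U → 0`
    (inc0 : V0 →ₗ[A] I') (d : I' →ₗ[A] X0) (π : X0 →ₗ[A] LinearMap.ker πJ)
    (hi0 : Function.Injective inc0) (e1 : Function.Exact inc0 d) (e2 : Function.Exact d π)
    (hπ : Function.Surjective π) (ρ : I' →ₗ[A] Jq) (hρ : ρ ∘ₗ inc0 = ι)
    -- `0 → Y/P → Y1 → P' → W → 0`
    (j1 : Yq →ₗ[A] Y1) (d' : Y1 →ₗ[A] P') (q' : P' →ₗ[A] W)
    (hj1 : Function.Injective j1) (e3 : Function.Exact j1 d') (e4 : Function.Exact d' q')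
    (hq' : Function.Surjective q') (jP : LinearMap.ker πY →ₗ[A] P') (hjP : q' ∘ₗ jP = ϖ)
    -- left side
    (vA : ∀ i, E0 A V0 A i) (vJ : ∀ i, E0 A V0 J i) (vY : ∀ i, E0 A V0 Y i)
    (vP : ∀ i, E0 A V0 (LinearMap.ker πY) i) (vJq : ∀ i, E0 A V0 Jq (i + 1))
    (hVq : ∀ f : V0 →ₗ[A] Jq, ∃ c : k, ∀ v, f v = c • ι v)
    (vX : ∀ i, E0 A V0 X0 i) (vY1 : ∀ i, E0 A V0 Y1 i) (vP' : ∀ i, E0 A V0 P' i)
    (vI : ∀ i, E0 A V0 I' (i + 1))
    (hVI : ∀ f : V0 →ₗ[A] I', ∃ c : k, ∀ v, f v = c • inc0 v)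
    -- right side
    (wA : ∀ i, E0 Aᵐᵒᵖ (Dl k W) Aᵐᵒᵖ i) (wJ : ∀ i, E0 A J W i) (wY : ∀ i, E0 A Y W i)
    (wJq : ∀ i, E0 A Jq W i) (wP : ∀ i, E0 A (LinearMap.ker πY) W (i + 1))
    (hPW : ∀ f : LinearMap.ker πY →ₗ[A] W, ∃ c : k, ∀ p, f p = c • ϖ p)
    (wX : ∀ i, E0 A X0 W i) (wY1 : ∀ i, E0 A Y1 W i) (wI : ∀ i, E0 A I' W i)
    (wP' : ∀ i, E0 A P' W (i + 1))
    (hPW' : ∀ f : P' →ₗ[A] W, ∃ c : k, ∀ p, f p = c • q' p)
    {n : ℕ} (hn7 : n ≤ 7) (hn : Spine700.Simples k A n) : Spine700.C0281.{w} k := by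
  haveI : IsNoetherianRing A := noethG k A
  haveI : Module.Finite A J := finiteG (k := k) J
  haveI : Module.Finite A Jq := finiteG (k := k) Jq
  -- the (co)induction data
  let cV := coiV (k := k) hJ ι hY hι hVq vJ vJq
  let cM := coiM (k := k) (πJ := πJ) ϖ hJ hϖ hPW wY wP
  -- the four modules
  let cE1 := actE1 (k := k) (πY := πY) hJ ρ j1
  let cE2 := actE2 (k := k) (πJ := πJ) (πY := πY) π jP
  have p1 : π ∘ₗ d = 0 := e2.linearMap_comp_eq_zero
  have p2 : d' ∘ₗ j1 = 0 := e3.linearMap_comp_eq_zero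
  -- nonzero
  obtain ⟨v1, hv1⟩ : ∃ v, ι v ≠ 0 := by
    by_contra h4
    push Not at h4
    exact hι (LinearMap.ext h4)
  obtain ⟨w1, hw1⟩ : ∃ p, ϖ p ≠ 0 := by
    by_contra h4
    push Not at h4
    exact hϖ (LinearMap.ext h4)
  haveI : Nontrivial (GM (actV (k := k) (πY := πY) hJ ι)) :=
    ⟨((v1, 0) : V0 × Yq), ((0, 0) : V0 × Yq), fun h => hv1 (by
      have h1 : v1 = 0 := congrArg Prod.fst h
      rw [h1, map_zero])⟩
  haveI : Nontrivial (GM (actM (k := k) (πJ := πJ) ϖ)) :=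
    ⟨((0, ϖ w1) : LinearMap.ker πJ × W), ((0, 0) : LinearMap.ker πJ × W), fun h => hw1
      (congrArg Prod.snd h)⟩
  haveI : Module.Finite k (LinearMap.ker πJ) := finite_sub (k := k) (LinearMap.ker πJ)
  -- restriction of pairs
  have rV : ∀ {X₁ X₂ : Type} [AddCommGroup X₁] [Module A X₁] [AddCommGroup X₂] [Module A X₂]
      (c : Act k (LinearMap.ker πJ) (LinearMap.ker πY) X₁ X₂) (i : ℕ), E0 A V0 X₁ i →
      E0 A V0 X₂ i → E0 A V0 (RA (phi k πJ πY) (GM c)) i := fun c i h1 h2 =>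
    iso_right (raGM c).symm i (prod_right i h1 h2)
  have rW : ∀ {X₁ X₂ : Type} [AddCommGroup X₁] [Module A X₁] [AddCommGroup X₂] [Module A X₂]
      (c : Act k (LinearMap.ker πJ) (LinearMap.ker πY) X₁ X₂) (i : ℕ), E0 A X₁ W i →
      E0 A X₂ W i → E0 A (RA (phi k πJ πY) (GM c)) W i := fun c i h1 h2 =>
    iso_left (raGM c).symm i (prod_left i h1 h2)
  haveI : Module.Finite (GG (k := k) πJ πY) (GM cE1) := finiteG (k := k) (GM cE1)
  haveI : Module.Finite (GG (k := k) πJ πY) (GM cE2) := finiteG (k := k) (GM cE2)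
  refine CellFin.c0281_cell (K := k) (G := GG (k := k) πJ πY)
    (GM (actV (k := k) (πY := πY) hJ ι)) (GM cE1) (GM cE2) (GM (actM (k := k) (πJ := πJ) ϖ))
    (mi hJ ι inc0 ρ hρ j1) (mp hJ ρ j1 d π d' jP p1 p2) (mq π jP q' ϖ hjP)
    (GM.hom_inj _ hi0 hj1) (GM.hom_exact _ _ e1 e3) (GM.hom_exact _ _ e2 e4)
    (GM.hom_surj _ hπ hq') ?_ ?_ ?_ ?_ ?_ ?_ ?_ ?_ hn7 (simples hn)
  · -- null
    intro j
    exact ind inc cV (GG (k := k) πJ πY) j (e0_left πJ πY hJ j (vA j) (vY j) (vP j))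
  · intro j
    exact ind inc cV (GM cE2) j (rV cE2 j (vX j) (vP' j))
  · intro j hj
    obtain ⟨i, rfl⟩ := Nat.exists_eq_add_of_le' hj
    exact ind inc cV (GM cE1) (i + 1) (rV cE1 (i + 1) (vI i) (vY1 (i + 1)))
  · -- `Hom(V, E1) = k i`
    intro φ
    let φ1 : V0 →ₗ[A] I' × Y1 := (raGM cE1).toLinearMap ∘ₗ RA.map (phi k πJ πY) φ ∘ₗ
      sV (k := k) (πY := πY) hJ ι
    obtain ⟨c, hc⟩ := hVI (LinearMap.fst A I' Y1 ∘ₗ φ1)
    have hz : LinearMap.snd A I' Y1 ∘ₗ φ1 = 0 := zero_iff.1 (vY1 0) _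
    refine ⟨c, ?_⟩
    -- the difference vanishes on the generators
    have h0 : ∀ v : V0, φ (prV hJ ι v 0) =
        c • mi (k := k) (πY := πY) hJ ι inc0 ρ hρ j1 (prV hJ ι v 0) := by
      intro v
      refine Prod.ext (hc v) ?_
      refine (LinearMap.congr_fun hz v).trans ?_
      show (0 : Y1) = c • j1 0
      rw [map_zero, smul_zero]
    obtain ⟨ξ, hξ⟩ := exists_fun (k := k) _ hv1
    intro x
    obtain ⟨y, hy⟩ := hY x.2
    have h6 : x = prV hJ ι x.1 0 + (el (a1 πJ πY ξ y) : GG (k := k) πJ πY) •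
        prV (k := k) (πY := πY) hJ ι v1 0 := by
      rw [smul_prV, el_fst, zero_smul, el_snd, bar_a1, hξ, one_smul, hy]
      exact Prod.ext (add_zero _).symm (zero_add _).symm
    rw [h6, map_add, map_add, map_smul, map_smul, h0, h0, smul_add]
    congr 1
    exact (smul_comm' (k := k) (A := GG (k := k) πJ πY) (Y := GM cE1) _ c _).symm
  · -- conull
    intro j
    refine coindR inc cM j ?_
    exact e0_right πJ πY hJ hY j (wA j) ((dual_iff (K := k) J W j).1 (wJ j))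
      ((dual_iff (K := k) Jq W j).1 (wJq j))
  · intro j
    exact cM.coind j ⟨GM cE1⟩ (rW cE1 j (wI j) (wY1 j))
  · intro j hj
    obtain ⟨i, rfl⟩ := Nat.exists_eq_add_of_le' hj
    exact cM.coind (i + 1) ⟨GM cE2⟩ (rW cE2 (i + 1) (wX (i + 1)) (wP' i))
  · -- `Hom(E2, M) = k q`
    intro φ
    let φ1 : X0 × P' →ₗ[A] W := cM.pr ∘ₗ RA.map (phi k πJ πY) φ ∘ₗ (raGM cE2).symm.toLinearMap
    obtain ⟨c, hc⟩ := hPW' (φ1 ∘ₗ LinearMap.inr A X0 P')
    have hz : φ1 ∘ₗ LinearMap.inl A X0 P' = 0 := zero_iff.1 (wX 0) _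
    refine ⟨c, ?_⟩
    have h1 : ∀ x : X0 × P', φ1 x = c • q' x.2 := by
      intro x
      have h2 : x = LinearMap.inl A X0 P' x.1 + LinearMap.inr A X0 P' x.2 :=
        Prod.ext (add_zero _).symm (zero_add _).symm
      have h3 : φ1 (LinearMap.inl A X0 P' x.1) = 0 := LinearMap.congr_fun hz x.1
      have h4 : φ1 (LinearMap.inr A X0 P' x.2) = c • q' x.2 := hc x.2
      conv_lhs => rw [h2]
      rw [map_add, h3, h4, zero_add]
    intro x
    rw [← sub_eq_zero]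
    refine cM.uni _ fun g => ?_
    have h5 : g • (φ x - c • mq (k := k) π jP q' ϖ hjP x) =
        φ (g • x) - c • mq (k := k) π jP q' ϖ hjP (g • x) := by
      rw [smul_sub, map_smul, map_smul]
      congr 1
      exact (smul_comm' _ _ _).symm
    rw [h5]
    have h6 : cM.pr (φ (g • x) - c • mq (k := k) π jP q' ϖ hjP (g • x) :
        GM (actM (k := k) (πJ := πJ) ϖ)) =
        cM.pr (φ (g • x) : GM (actM (k := k) (πJ := πJ) ϖ)) -
        cM.pr (c • mq (k := k) π jP q' ϖ hjP (g • x) : GM (actM (k := k) (πJ := πJ) ϖ)) :=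
      map_sub cM.pr _ _
    refine h6.trans (sub_eq_zero.2 ?_)
    exact h1 (g • x)

end Crest.Agent.R186.LinkK721
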