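import Crest.Agent.R186.LinkC_328
import Crest.Agent.R186.LinkK9_721

/-!
Row 186, S0281, block LINK (helper328): the joint.  A two-sided base `LinkC328.Two K A A'` with
`A`, `A'` finite-dimensional and at most seven simples gives `C0281`
(via 721's `LinkK721.c0281_link`, i.e. 355's `CellFin.c0281_cell`).
-/

set_option autoImplicit false
set_option linter.unusedSectionVars false
set_option linter.style.haveILetI false

universe u w

open CategoryTheory CategoryTheory.Abelian MulOpposite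

namespace Crest.Agent.R186.LinkE328

open ExtRes700 LinkA328 LinkB328 LinkC328 Trans328 Dual700 LinkK721

/-! ### the left side: `P3 ≃ ker (Y → Y / λ P3)` -/

section side

variable {K : Type u} [Field K] {A : Type u} [Ring A] [Algebra K A] (S : Side K A)

/-- `Y / λ P3` -/
abbrev Yq : Type u := S.Y ⧸ LinearMap.range S.lam

/-- `Y → Y / λ P3` -/
def piY : S.Y →ₗ[A] Yq S := (LinearMap.range S.lam).mkQ

theorem piY_surj : Function.Surjective (piY S) := Submodule.mkQ_surjective _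

theorem piY_lam (x : S.P3) : piY S (S.lam x) = 0 :=
  (Submodule.Quotient.mk_eq_zero _).2 ⟨x, rfl⟩

theorem piY_zero (y : S.Y) (h : piY S y = 0) : ∃ x, S.lam x = y :=
  (Submodule.Quotient.mk_eq_zero (p := LinearMap.range S.lam)).1 h

/-- `P3 → ker` -/
def eP0 : S.P3 →ₗ[A] LinearMap.ker (piY S) := S.lam.codRestrict _ fun x => piY_lam S x

theorem eP0_bij : Function.Bijective (eP0 S) := by
  constructor
  · intro x y h
    exact S.lam_inj (congrArg Subtype.val h)
  · rintro ⟨y, hy⟩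
    obtain ⟨x, hx⟩ := piY_zero S y hy
    exact ⟨x, Subtype.ext hx⟩

/-- `P3 ≃ ker` -/
noncomputable def eP : S.P3 ≃ₗ[A] LinearMap.ker (piY S) := LinearEquiv.ofBijective _ (eP0_bij S)

/-- `ker → P0` -/
noncomputable def jP : LinearMap.ker (piY S) →ₗ[A] S.P0 := S.h ∘ₗ (eP S).symm.toLinearMap

theorem jP_eP (x : S.P3) : jP S (eP S x) = S.h x := by
  change S.h ((eP S).symm (eP S x)) = S.h x
  rw [LinearEquiv.symm_apply_apply]

/-- `ker → W` -/
noncomputable def om : LinearMap.ker (piY S) →ₗ[A] S.W := S.ε ∘ₗ jP S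

theorem om_ne : om S ≠ 0 := by
  intro h
  apply S.eps_h_ne
  ext x
  have h1 := LinearMap.congr_fun h (eP S x)
  change S.ε (jP S (eP S x)) = 0 at h1
  rw [jP_eP] at h1
  exact h1

theorem om_one (f : LinearMap.ker (piY S) →ₗ[A] S.W) : ∃ c : K, ∀ p, f p = c • om S p := by
  obtain ⟨c, hc⟩ := S.one3 (f ∘ₗ (eP S).toLinearMap)
  refine ⟨c, fun p => ?_⟩
  have h1 := hc ((eP S).symm p)
  change f (eP S ((eP S).symm p)) = _ at h1
  rw [LinearEquiv.apply_symm_apply] at h1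
  exact h1

/-- `Y / λ P3 → Y₁` -/
def j1 : Yq S →ₗ[A] S.Y1 := (LinearMap.range S.lam).liftQ S.yaY (by
  rintro _ ⟨x, rfl⟩
  exact (S.yaY_ker _).2 ⟨x, rfl⟩)

theorem j1_pi (y : S.Y) : j1 S (piY S y) = S.yaY y := rfl

theorem j1_inj : Function.Injective (j1 S) := by
  rw [injective_iff_map_eq_zero]
  intro z hz
  obtain ⟨y, rfl⟩ := piY_surj S z
  rw [j1_pi] at hz
  obtain ⟨x, rfl⟩ := (S.yaY_ker _).1 hz
  exact piY_lam S x

theorem j1_exact : Function.Exact (j1 S) S.ybY := by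
  intro z
  rw [S.ybY_exact z]
  constructor
  · rintro ⟨y, rfl⟩
    exact ⟨piY S y, rfl⟩
  · rintro ⟨y, rfl⟩
    obtain ⟨y, rfl⟩ := piY_surj S y
    exact ⟨y, rfl⟩

end side

/-! ### the two-sided part -/

section two

variable {K : Type u} [Field K] {A A' : Type u} [Ring A] [Algebra K A] [Ring A'] [Algebra K A']
  (T : Two K A A')

/-- `V → I3` -/
def io : T.S.V →ₗ[A] T.I3 := T.hI ∘ₗ T.η

theorem io_eq : io T = du K T.τ (T.S'.ε ∘ₗ T.S'.h) ∘ₗ T.eV.toLinearMap := rfl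

theorem du_zero_iff {τ : A ≃ₐ[K] A'ᵐᵒᵖ} {X Y : Type u} [AddCommGroup X] [Module K X] [Module A' X]
    [IsScalarTower K A' X] [AddCommGroup Y] [Module K Y] [Module A' Y] [IsScalarTower K A' Y]
    (f : X →ₗ[A'] Y) (h : du K τ f = 0) : f = 0 := dm_injective (K := K) (by
  have h3 : du K τ f = du K τ 0 := by rw [h, du_zero]
  ext ψ
  exact congrArg (fun F : Du K τ Y →ₗ[A] Du K τ X => F ψ) h3)

theorem io_ne : io T ≠ 0 := by
  intro h
  apply T.S'.eps_h_ne
  apply du_zero_iff (K := K) (τ := T.τ)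
  ext φ
  have h1 := LinearMap.congr_fun h (T.eV.symm φ)
  rw [io_eq] at h1
  change du K T.τ (T.S'.ε ∘ₗ T.S'.h) (T.eV (T.eV.symm φ)) = 0 at h1
  rw [LinearEquiv.apply_symm_apply] at h1
  exact h1

theorem io_one (φ : T.S.V →ₗ[A] T.I3) : ∃ c : K, ∀ v, φ v = c • io T v := by
  obtain ⟨f, hf⟩ := du_full (K := K) (τ := T.τ) (X := T.S'.P3) (Y := T.S'.W)
    (φ ∘ₗ T.eV.symm.toLinearMap)
  obtain ⟨c, hc⟩ := T.S'.one3 f
  refine ⟨c, fun v => ?_⟩
  have h1 : φ v = du K T.τ f (T.eV v) := by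
    rw [hf]
    simp
  rw [h1]
  apply Du.ext
  intro x
  rw [ev_du, hc, Du.ev_ksmul]
  exact LinearMap.map_smul (Du.fn K T.τ (T.eV v)) c _

/-- `X₀ → U` -/
def pX : T.X0 →ₗ[A] LinearMap.ker T.ρ := (xb T.c1 T.tJ).codRestrict _ fun z => by
  have h1 := (xb_range T.c1 T.c2 T.tJ T.x2 (xb T.c1 T.tJ z)).1 ⟨z, rfl⟩
  rw [LinearMap.mem_ker, ← T.c2_tJ]
  exact h1

theorem pX_exact : Function.Exact (xa T.c0 T.c1 T.tJ T.x1) (pX T) := by
  intro z
  rw [← xb_exact T.c0 T.c1 T.tJ T.x1 z]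
  exact Subtype.ext_iff

theorem pX_surj : Function.Surjective (pX T) := by
  rintro ⟨y, hy⟩
  rw [LinearMap.mem_ker, ← T.c2_tJ] at hy
  obtain ⟨z, hz⟩ := (xb_range T.c1 T.c2 T.tJ T.x2 y).2 hy
  exact ⟨z, Subtype.ext hz⟩

/-- `Aᵐᵒᵖ → D (Du A')` -/
def dA0 (τ : A ≃ₐ[K] A'ᵐᵒᵖ) : Aᵐᵒᵖ →ₗ[Aᵐᵒᵖ] Dl K (Du K τ A') where
  toFun a := show Du K τ A' →ₗ[K] K from
    { toFun := fun φ => Du.ev K τ φ (τ a.unop).unop
      map_add' := fun _ _ => rfl
      map_smul' := fun _ _ => rfl }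
  map_add' a b := by
    apply Dl.ext
    intro φ
    change Du.ev K τ φ (τ (a.unop + b.unop)).unop =
      Du.ev K τ φ (τ a.unop).unop + Du.ev K τ φ (τ b.unop).unop
    rw [map_add]
    exact LinearMap.map_add (Du.fn K τ φ) _ _
  map_smul' b a := by
    apply Dl.ext
    intro φ
    change Du.ev K τ φ (τ (a.unop * b.unop)).unop = Du.ev K τ (b.unop • φ) (τ a.unop).unop
    rw [Du.ev_smul, map_mul]
    rfl

theorem dA0_bij (τ : A ≃ₐ[K] A'ᵐᵒᵖ) [FiniteDimensional K A'] : Function.Bijective (dA0 τ) := by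
  constructor
  · rw [injective_iff_map_eq_zero]
    intro a ha
    have h1 : Module.Dual.eval K A' (τ a.unop).unop = 0 := by
      ext φ
      exact congrArg (fun F : Dl K (Du K τ A') => F (Du.mk K τ φ)) ha
    have h2 := (Module.bijective_dual_eval K A').1 (h1.trans (map_zero _).symm)
    have h3 : τ a.unop = 0 := MulOpposite.unop_injective h2
    have h4 : a.unop = 0 := by
      apply τ.injective
      rw [h3, map_zero]
    exact MulOpposite.unop_injective h4
  · intro Φ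
    obtain ⟨x, hx⟩ := (Module.bijective_dual_eval K A').2
      (show (A' →ₗ[K] K) →ₗ[K] K from
        { toFun := fun φ => Φ (Du.mk K τ φ)
          map_add' := fun φ ψ => LinearMap.map_add (show Du K τ A' →ₗ[K] K from Φ) _ _
          map_smul' := fun c φ => LinearMap.map_smul (show Du K τ A' →ₗ[K] K from Φ) c _ })
    refine ⟨op (τ.symm (op x)), ?_⟩
    apply Dl.ext
    intro φ
    change Du.ev K τ φ (τ (τ.symm (op x))).unop = Φ φ
    rw [AlgEquiv.apply_symm_apply]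
    exact congrArg (fun F : (A' →ₗ[K] K) →ₗ[K] K => F (Du.fn K τ φ)) hx

/-- **`RHom_{Aᵐᵒᵖ}(D W, Aᵐᵒᵖ) = 0`.** -/
theorem wA [FiniteDimensional K A] [FiniteDimensional K A'] (i : ℕ) :
    E0 Aᵐᵒᵖ (Dl K T.S.W) Aᵐᵒᵖ i := by
  haveI : IsNoetherianRing A := noethG K A
  haveI : IsNoetherianRing A' := noethG K A'
  haveI : Module.Finite A' T.S'.V := finiteG (k := K) T.S'.V
  haveI : Module.Finite A (Du K T.τ A') := finiteG (k := K) (Du K T.τ A')
  have h1 := T.IW A' i
  have h2 := (dual_iff (K := K) (Du K T.τ A') T.S.W i).1 h1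
  exact iso_right (LinearEquiv.ofBijective _ (dA0_bij T.τ)).symm i h2

end two

/-- **the joint** -/
theorem c0281_two {K : Type} [Field K] {A A' : Type} [Ring A] [Algebra K A] [Ring A']
    [Algebra K A'] [FiniteDimensional K A] [FiniteDimensional K A'] (T : Two K A A')
    {n : ℕ} (hn7 : n ≤ 7) (hn : Spine700.Simples K A n) : Spine700.C0281.{w} K := by
  haveI : IsNoetherianRing A := noethG K A
  haveI : IsNoetherianRing A' := noethG K A'
  haveI f0 : FiniteDimensional K T.S'.P0 := Module.Finite.trans A' _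
  haveI f1 : FiniteDimensional K T.S'.P1 := Module.Finite.trans A' _
  haveI f2 : FiniteDimensional K T.S'.P2 := Module.Finite.trans A' _
  haveI f3 : FiniteDimensional K T.S'.P3 := Module.Finite.trans A' _
  haveI g0 : FiniteDimensional K T.S.P0 := Module.Finite.trans A _
  haveI g1 : FiniteDimensional K T.S.P1 := Module.Finite.trans A _
  haveI g2 : FiniteDimensional K T.S.P2 := Module.Finite.trans A _
  haveI g3 : FiniteDimensional K T.S.P3 := Module.Finite.trans A _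
  haveI : Module.Finite A' T.S'.V := finiteG (k := K) T.S'.V
  haveI : FiniteDimensional K T.S'.Y := inferInstance
  haveI : Module.Finite A' T.S'.Y := finiteG (k := K) T.S'.Y
  haveI : FiniteDimensional K T.S.Y := inferInstance
  haveI : Module.Finite K T.X0 := finite_sub (k := K) T.X0
  haveI : Module.Finite K T.S.Y1 := inferInstance
  haveI : Module.Finite K (Yq T.S) := inferInstance
  exact c0281_link (k := K) (A := A) T.ρ T.ρ_surj (piY T.S) (piY_surj T.S) (io T) (io_ne T)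
    (om T.S) (om_ne T.S) T.η (xa T.c0 T.c1 T.tJ T.x1) (pX T) T.η_inj
    (xa_exact T.η T.c0 T.c1 T.tJ T.x0 T.x1) (pX_exact T) (pX_surj T) T.hI rfl
    (j1 T.S) T.S.ybY T.S.ε (j1_inj T.S) (j1_exact T.S) T.S.eY_exact T.S.hε (jP T.S) rfl
    T.S.null T.VJ T.S.VY (fun i => iso_right (eP T.S) i (T.S.VP T.S.P3 i))
    (fun i => T.VI T.S'.P3 (i + 1) (Nat.succ_pos i)) (io_one T) T.VX0 T.S.VY1 (T.S.VP T.S.P0)
    (fun i => T.VI T.S'.P0 (i + 1) (Nat.succ_pos i)) T.one'
    (wA T) T.JW T.S.YW (T.IW T.S'.P3)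
    (fun i => iso_left (eP T.S) (i + 1) (T.S.pW T.S.P3 (i + 1) (Nat.succ_pos i)))
    (om_one T.S) T.X0W T.S.Y1W (T.IW T.S'.P0)
    (fun i => T.S.pW T.S.P0 (i + 1) (Nat.succ_pos i)) T.S.one hn7 hn

end Crest.Agent.R186.LinkE328
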