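import Crest.Agent.R186.Indep_667
import Crest.Agent.R186.Defs281_128

/-!
Row 186, S0281, leaf B281.PAR (helper667): the parameter of the base over the ground field
`k0 = Frac F₂[x, y, z]`.
-/

set_option autoImplicit false

namespace Crest.Agent.R186.Par667

open Crest.Agent.R186.B281

/-- the parameter -/
noncomputable def g0 : Indep667.k0 := Indep667.par 0

theorem gen0 : Gen g0 := by
  refine ⟨Indep667.par_ne_zero 0, fun n hn h => ?_⟩
  have h1 := Indep667.par_indep3 (n : ℤ) 0 0 (by
    rw [zpow_natCast, zpow_zero, zpow_zero, mul_one, mul_one]; exact h)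
  omega

/-- `k0` contains a parameter which is not a root of unity -/
theorem exists_gen :
    ∃ g : FractionRing (MvPolynomial (Fin 3) (ZMod 2)), Gen g :=
  ⟨g0, gen0⟩

end Crest.Agent.R186.Par667
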