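import Mathlib
import Crest.Agent.R186.Defs281_128

/-!
Row 186, S0281 base (helper763): `A g s` has semisimple quotient `K^5` (s = 0, 1) and is finite
dimensional.
-/

set_option autoImplicit false

open Matrix

namespace Crest.Agent.R186.B281.Simp763

variable {K : Type} [Field K]

/-! ### ring identities -/

section ring

variable {R : Type} [Ring R] [Algebra K R]

theorem r1 {x0 x1 a c : R} {β : K} (h : x1 * a - x0 * c = β • x1) :
    x1 * (a - β • (1 : R)) = x0 * c := by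
  rw [mul_sub, mul_smul_comm, mul_one, ← h, sub_sub_cancel]

theorem r2 {x0 x1 b d : R} {β : K} (h : x1 * b - x0 * d = -β • x0) :
    x1 * b = x0 * (d - β • (1 : R)) := by
  rw [mul_sub, mul_smul_comm, mul_one]
  rw [neg_smul, sub_eq_iff_eq_add] at h
  rw [h]
  abel

/-- `a - β = x₀ z₀`, `b = x₀ z₁`, `a x₀ + b x₁ = p x₀ + q x₁` -/
theorem r3 {x0 x1 a b z0 z1 : R} {β p q : K} (ha : a - β • (1 : R) = x0 * z0) (hb : b = x0 * z1)
    (h : a * x0 + b * x1 = p • x0 + q • x1) :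
    x0 * (z0 * x0 + z1 * x1) = (p - β) • x0 + q • x1 := by
  have h1 : a = x0 * z0 + β • (1 : R) := by rw [← ha, sub_add_cancel]
  rw [h1, hb, add_mul, smul_one_mul] at h
  rw [mul_add, ← mul_assoc, ← mul_assoc, sub_smul]
  rw [show x0 * z0 * x0 + x0 * z1 * x1 = (x0 * z0 * x0 + β • x0 + x0 * z1 * x1) - β • x0 by abel, h]
  abel

theorem r4 {x0 x1 c d z0 z1 : R} {β r t : K} (hc : c = x1 * z0) (hd : d - β • (1 : R) = x1 * z1)
    (h : c * x0 + d * x1 = r • x0 + t • x1) :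
    x1 * (z0 * x0 + z1 * x1) = r • x0 + (t - β) • x1 := by
  have h1 : d = x1 * z1 + β • (1 : R) := by rw [← hd, sub_add_cancel]
  rw [h1, hc, add_mul, smul_one_mul] at h
  rw [mul_add, ← mul_assoc, ← mul_assoc, sub_smul]
  rw [show x1 * z0 * x0 + x1 * z1 * x1 = (x1 * z0 * x0 + (x1 * z1 * x1 + β • x1)) - β • x1 by abel,
    h]
  abel

theorem r6 {x0 x1 : R} {c d : K} (h : c • x1 - d • x0 = 0) : -d • x0 + c • x1 = 0 := by
  rw [← h, neg_smul]
  abel

theorem r7 (x0 x1 : R) (h : x0 * x1 = x1 * x0) : x1 * x0 + ((-1 : K) • x0) * x1 = 0 := by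
  rw [neg_smul, one_smul, neg_mul, h, add_neg_cancel]

theorem r8 (x0 x1 m n : R) : x1 * m + ((-1 : K) • x0) * n = x1 * m - x0 * n := by
  rw [neg_smul, one_smul, neg_mul, sub_eq_add_neg]

theorem r9 {a b : R} (h : a - b = 0) : a = b := sub_eq_zero.1 h

/-- a scalar which vanishes -/
theorem r10 {x0 x1 a b : R} {l : K} (h1 : (a - l • (1 : R)) * x0 + b * x1 = 0)
    (h2 : a * x0 + b * x1 = 0) : l • x0 = 0 := by
  rw [sub_mul, smul_one_mul] at h1
  rw [← sub_eq_zero.2 (h2.trans h1.symm)]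
  abel

theorem r11 {x0 x1 a c : R} {l : K} (h1 : x1 * (a - l • (1 : R)) = x0 * c)
    (h2 : x1 * a = x0 * c) : l • x1 = 0 := by
  rw [mul_sub, mul_smul_comm, mul_one, h2] at h1
  rw [sub_eq_self] at h1
  exact h1

theorem r12 (a : R) {l : K} (h : l = 0) : a - l • (1 : R) = a := by
  rw [h, zero_smul, sub_zero]

theorem r14 {x0 x1 a b c d : R} (h : (x1 * a - x0 * c) * x0 + (x1 * b - x0 * d) * x1 = 0) :
    x1 * (a * x0 + b * x1) = x0 * (c * x0 + d * x1) := by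
  rw [← sub_eq_zero, ← h]
  noncomm_ring

theorem r5 {x0 x1 y z0 z1 m n : R} (hm : m = y * z0) (hn : n = y * z1)
    (h : z0 * x0 + z1 * x1 = 0) : m * x0 + n * x1 = 0 := by
  rw [hm, hn, mul_assoc, mul_assoc, ← mul_add, h, mul_zero]

end ring

/-! ### nilpotency, over any ring -/

section nil

variable {R : Type} [Ring R]

theorem vm (v : Fin 7 → R) (M : Matrix (Fin 7) (Fin 7) R) (j : Fin 7) :
    (v ᵥ* M) j = v 0 * M 0 j + v 1 * M 1 j + v 2 * M 2 j + v 3 * M 3 j + v 4 * M 4 j +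
      v 5 * M 5 j + v 6 * M 6 j := by
  simp [Matrix.vecMul, dotProduct, Fin.sum_univ_seven]

theorem vmc (x0 x1 : R) (v : Fin 7 → R) (M : Matrix (Fin 7) (Fin 7) R) (j j' : Fin 7) :
    (v ᵥ* M) j * x0 + (v ᵥ* M) j' * x1 = v 0 * (M 0 j * x0 + M 0 j' * x1) +
      v 1 * (M 1 j * x0 + M 1 j' * x1) + v 2 * (M 2 j * x0 + M 2 j' * x1) +
      v 3 * (M 3 j * x0 + M 3 j' * x1) + v 4 * (M 4 j * x0 + M 4 j' * x1) +
      v 5 * (M 5 j * x0 + M 5 j' * x1) + v 6 * (M 6 j * x0 + M 6 j' * x1) := by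
  rw [vm, vm]
  simp only [add_mul, mul_add, mul_assoc]
  abel

theorem pow_seven {M : Matrix (Fin 7) (Fin 7) R}
    (h : ∀ v : Fin 7 → R, (((((((v ᵥ* M) ᵥ* M) ᵥ* M) ᵥ* M) ᵥ* M) ᵥ* M) ᵥ* M) = 0) :
    M ^ 7 = 0 := by
  ext i j
  have h1 := congrFun (h (Pi.single i 1)) j
  simp only [Matrix.vecMul_vecMul] at h1
  rw [Matrix.single_one_vecMul] at h1
  rw [Pi.zero_apply] at h1
  rw [Matrix.zero_apply, ← h1]
  simp only [pow_succ, pow_zero, one_mul]
  rfl

/-- the vanishing entries, `s = 0` -/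
structure Nil0 (x0 x1 : R) (M : Matrix (Fin 7) (Fin 7) R) : Prop where
  a : ∀ j, M 0 j = 0
  b1 : M 1 1 = 0
  b2 : M 1 2 = 0
  b56 : M 1 5 * x0 + M 1 6 * x1 = 0
  c2 : M 2 2 = 0
  d1 : M 3 1 = 0
  e1 : M 4 1 = 0
  d2 : M 3 2 = 0
  e2 : M 4 2 = 0
  k3 : x1 * M 3 3 = x0 * M 4 3
  k4 : x1 * M 3 4 = x0 * M 4 4
  d34 : M 3 3 * x0 + M 3 4 * x1 = 0
  e34 : M 4 3 * x0 + M 4 4 * x1 = 0
  d56 : M 3 5 * x0 + M 3 6 * x1 = 0
  e56 : M 4 5 * x0 + M 4 6 * x1 = 0
  k5 : x1 * M 3 5 = x0 * M 4 5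
  k6 : x1 * M 3 6 = x0 * M 4 6
  f1 : x1 * M 5 1 = x0 * M 6 1
  f2 : M 5 2 = 0
  h2 : M 6 2 = 0
  f34 : x1 * (M 5 3 * x0 + M 5 4 * x1) = x0 * (M 6 3 * x0 + M 6 4 * x1)
  n5 : x1 * M 5 5 = x0 * M 6 5
  n6 : x1 * M 5 6 = x0 * M 6 6
  f56 : M 5 5 * x0 + M 5 6 * x1 = 0
  h56 : M 6 5 * x0 + M 6 6 * x1 = 0

variable {x0 x1 : R}

theorem Nil0.pow (hk : ∀ a b m n : R, a * x0 + b * x1 = 0 → x1 * m = x0 * n → a * m + b * n = 0)
    {M : Matrix (Fin 7) (Fin 7) R} (h : Nil0 x0 x1 M) : M ^ 7 = 0 := by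
  have p1 : ∀ v : Fin 7 → R, (v ᵥ* M) 2 = 0 := fun v => by
    rw [vm, h.a, h.b2, h.c2, h.d2, h.e2, h.f2, h.h2]
    simp only [mul_zero, add_zero]
  have p2 : ∀ v : Fin 7 → R, v 2 = 0 → (v ᵥ* M) 5 * x0 + (v ᵥ* M) 6 * x1 = 0 := fun v h2 => by
    rw [vmc, h.a, h.a, h.b56, h2, h.d56, h.e56, h.f56, h.h56]
    simp only [mul_zero, zero_mul, add_zero]
  have p3 : ∀ v : Fin 7 → R, v 2 = 0 → v 5 * x0 + v 6 * x1 = 0 → (v ᵥ* M) 1 = 0 :=
    fun v h2 h3 => by
    rw [vm, h.a, h.b1, h2, h.d1, h.e1]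
    simp only [mul_zero, zero_mul, zero_add]
    exact hk _ _ _ _ h3 h.f1
  have p4 : ∀ v : Fin 7 → R, v 2 = 0 → v 5 * x0 + v 6 * x1 = 0 → v 1 = 0 →
      (v ᵥ* M) 3 * x0 + (v ᵥ* M) 4 * x1 = 0 := fun v h2 h3 h4 => by
    rw [vmc, h.a, h.a, h2, h4, h.d34, h.e34]
    simp only [mul_zero, zero_mul, zero_add]
    exact hk _ _ _ _ h3 h.f34
  have p5 : ∀ v : Fin 7 → R, v 2 = 0 → v 5 * x0 + v 6 * x1 = 0 → v 1 = 0 →
      v 3 * x0 + v 4 * x1 = 0 → (v ᵥ* M) 5 = 0 ∧ (v ᵥ* M) 6 = 0 := fun v h2 h3 h4 h5 => by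
    constructor
    · rw [vm, h.a, h2, h4]
      simp only [mul_zero, zero_mul, zero_add]
      rw [add_assoc, hk _ _ _ _ h3 h.n5, hk _ _ _ _ h5 h.k5, add_zero]
    · rw [vm, h.a, h2, h4]
      simp only [mul_zero, zero_mul, zero_add]
      rw [add_assoc, hk _ _ _ _ h3 h.n6, hk _ _ _ _ h5 h.k6, add_zero]
  have p6 : ∀ v : Fin 7 → R, v 2 = 0 → v 1 = 0 → v 3 * x0 + v 4 * x1 = 0 →
      v 5 = 0 → v 6 = 0 → (v ᵥ* M) 3 = 0 ∧ (v ᵥ* M) 4 = 0 := fun v h2 h4 h5 h6 h7 => by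
    constructor
    · rw [vm, h.a, h2, h4, h6, h7]
      simp only [mul_zero, zero_mul, zero_add, add_zero]
      exact hk _ _ _ _ h5 h.k3
    · rw [vm, h.a, h2, h4, h6, h7]
      simp only [mul_zero, zero_mul, zero_add, add_zero]
      exact hk _ _ _ _ h5 h.k4
  have p7 : ∀ v : Fin 7 → R, v 2 = 0 → v 1 = 0 → v 3 = 0 → v 4 = 0 →
      v 5 = 0 → v 6 = 0 → v ᵥ* M = 0 := fun v h2 h4 h5 h6 h7 h8 => by
    funext j
    rw [vm, h.a, h2, h4, h5, h6, h7, h8]
    simp only [mul_zero, zero_mul, add_zero, Pi.zero_apply]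
  apply pow_seven
  intro v
  have a1 := p1 v
  have a2 := p1 (v ᵥ* M)
  have b2 := p2 _ a1
  have a3 := p1 ((v ᵥ* M) ᵥ* M)
  have b3 := p2 _ a2
  have c3 := p3 _ a2 b2
  have a4 := p1 (((v ᵥ* M) ᵥ* M) ᵥ* M)
  have b4 := p2 _ a3
  have c4 := p3 _ a3 b3
  have d4 := p4 _ a3 b3 c3
  have a5 := p1 ((((v ᵥ* M) ᵥ* M) ᵥ* M) ᵥ* M)
  have b5 := p2 _ a4
  have c5 := p3 _ a4 b4
  have d5 := p4 _ a4 b4 c4
  have e5 := p5 _ a4 b4 c4 d4
  have a6 := p1 (((((v ᵥ* M) ᵥ* M) ᵥ* M) ᵥ* M) ᵥ* M)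
  have c6 := p3 _ a5 b5
  have d6 := p4 _ a5 b5 c5
  have e6 := p5 _ a5 b5 c5 d5
  have f6 := p6 _ a5 c5 d5 e5.1 e5.2
  exact p7 _ a6 c6 f6.1 f6.2 e6.1 e6.2

/-- the vanishing entries, `s = 1` -/
structure Nil1 (x0 x1 : R) (M : Matrix (Fin 7) (Fin 7) R) : Prop where
  a : ∀ j, M 0 j = 0
  b1 : M 1 1 = 0
  b2 : M 1 2 = 0
  b3 : M 1 3 = 0
  b4 : M 1 4 = 0
  b56 : M 1 5 * x0 + M 1 6 * x1 = 0
  c2 : M 2 2 = 0
  d2 : M 3 2 = 0
  e2 : M 4 2 = 0
  k3 : x1 * M 3 3 = x0 * M 4 3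
  k4 : x1 * M 3 4 = x0 * M 4 4
  d34 : M 3 3 * x0 + M 3 4 * x1 = 0
  e34 : M 4 3 * x0 + M 4 4 * x1 = 0
  k56 : x1 * (M 3 5 * x0 + M 3 6 * x1) = x0 * (M 4 5 * x0 + M 4 6 * x1)
  f1 : x1 * M 5 1 = x0 * M 6 1
  f2 : M 5 2 = 0
  h2 : M 6 2 = 0
  g3 : x1 * M 5 3 = x0 * M 6 3
  g4 : x1 * M 5 4 = x0 * M 6 4
  f34 : M 5 3 * x0 + M 5 4 * x1 = 0
  h34 : M 6 3 * x0 + M 6 4 * x1 = 0
  n5 : x1 * M 5 5 = x0 * M 6 5
  n6 : x1 * M 5 6 = x0 * M 6 6
  f56 : M 5 5 * x0 + M 5 6 * x1 = 0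
  h56 : M 6 5 * x0 + M 6 6 * x1 = 0

theorem Nil1.pow (hk : ∀ a b m n : R, a * x0 + b * x1 = 0 → x1 * m = x0 * n → a * m + b * n = 0)
    {M : Matrix (Fin 7) (Fin 7) R} (h : Nil1 x0 x1 M) : M ^ 7 = 0 := by
  have p1 : ∀ v : Fin 7 → R, (v ᵥ* M) 2 = 0 := fun v => by
    rw [vm, h.a, h.b2, h.c2, h.d2, h.e2, h.f2, h.h2]
    simp only [mul_zero, add_zero]
  have p2 : ∀ v : Fin 7 → R, v 2 = 0 → (v ᵥ* M) 3 * x0 + (v ᵥ* M) 4 * x1 = 0 := fun v h2 => by
    rw [vmc, h.a, h.a, h.b3, h.b4, h2, h.d34, h.e34, h.f34, h.h34]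
    simp only [mul_zero, zero_mul, add_zero]
  have p3 : ∀ v : Fin 7 → R, v 2 = 0 → v 3 * x0 + v 4 * x1 = 0 →
      (v ᵥ* M) 5 * x0 + (v ᵥ* M) 6 * x1 = 0 := fun v h2 h3 => by
    rw [vmc, h.a, h.a, h.b56, h2, h.f56, h.h56]
    simp only [mul_zero, zero_mul, zero_add, add_zero]
    exact hk _ _ _ _ h3 h.k56
  have p4 : ∀ v : Fin 7 → R, v 2 = 0 → v 3 * x0 + v 4 * x1 = 0 → v 5 * x0 + v 6 * x1 = 0 →
      (v ᵥ* M) 3 = 0 ∧ (v ᵥ* M) 4 = 0 := fun v h2 h3 h4 => by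
    constructor
    · rw [vm, h.a, h.b3, h2]
      simp only [mul_zero, zero_mul, zero_add]
      rw [add_assoc, hk _ _ _ _ h3 h.k3, hk _ _ _ _ h4 h.g3, add_zero]
    · rw [vm, h.a, h.b4, h2]
      simp only [mul_zero, zero_mul, zero_add]
      rw [add_assoc, hk _ _ _ _ h3 h.k4, hk _ _ _ _ h4 h.g4, add_zero]
  have p5 : ∀ v : Fin 7 → R, v 2 = 0 → v 5 * x0 + v 6 * x1 = 0 → v 3 = 0 → v 4 = 0 →
      (v ᵥ* M) 1 = 0 := fun v h2 h4 h5 h6 => by
    rw [vm, h.a, h.b1, h2, h5, h6]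
    simp only [mul_zero, zero_mul, zero_add]
    exact hk _ _ _ _ h4 h.f1
  have p6 : ∀ v : Fin 7 → R, v 2 = 0 → v 5 * x0 + v 6 * x1 = 0 → v 3 = 0 → v 4 = 0 → v 1 = 0 →
      (v ᵥ* M) 5 = 0 ∧ (v ᵥ* M) 6 = 0 := fun v h2 h4 h5 h6 h7 => by
    constructor
    · rw [vm, h.a, h2, h5, h6, h7]
      simp only [mul_zero, zero_mul, zero_add]
      exact hk _ _ _ _ h4 h.n5
    · rw [vm, h.a, h2, h5, h6, h7]
      simp only [mul_zero, zero_mul, zero_add]
      exact hk _ _ _ _ h4 h.n6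
  have p7 : ∀ v : Fin 7 → R, v 2 = 0 → v 1 = 0 → v 3 = 0 → v 4 = 0 →
      v 5 = 0 → v 6 = 0 → v ᵥ* M = 0 := fun v h2 h4 h5 h6 h7 h8 => by
    funext j
    rw [vm, h.a, h2, h4, h5, h6, h7, h8]
    simp only [mul_zero, zero_mul, add_zero, Pi.zero_apply]
  apply pow_seven
  intro v
  have a1 := p1 v
  have a2 := p1 (v ᵥ* M)
  have b2 := p2 _ a1
  have a3 := p1 ((v ᵥ* M) ᵥ* M)
  have b3 := p2 _ a2
  have c3 := p3 _ a2 b2
  have a4 := p1 (((v ᵥ* M) ᵥ* M) ᵥ* M)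
  have b4 := p2 _ a3
  have c4 := p3 _ a3 b3
  have d4 := p4 _ a3 b3 c3
  have a5 := p1 ((((v ᵥ* M) ᵥ* M) ᵥ* M) ᵥ* M)
  have b5 := p2 _ a4
  have c5 := p3 _ a4 b4
  have d5 := p4 _ a4 b4 c4
  have e5 := p5 _ a4 c4 d4.1 d4.2
  have a6 := p1 (((((v ᵥ* M) ᵥ* M) ᵥ* M) ᵥ* M) ᵥ* M)
  have d6 := p4 _ a5 b5 c5
  have e6 := p5 _ a5 c5 d5.1 d5.2
  have f6 := p6 _ a5 c5 d5.1 d5.2 e5
  exact p7 _ a6 e6 d6.1 d6.2 f6.1 f6.2

end nil

/-! ### elementary facts on the pieces -/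

theorem Fil_neg (g : K) {k P : ℤ} (hk : k < 0) : Fil g k P = ⊥ := by
  rw [eq_bot_iff, Fil, Submodule.span_le]
  rintro T ⟨a, b, h1, _, _⟩
  omega

theorem zero_of_neg {g : K} {k P : ℤ} {T : Op K} (hT : T ∈ Fil g k P) (hk : k < 0) : T = 0 := by
  rw [Fil_neg g hk] at hT
  exact hT

/-- the support of `T x^m` for `T` in a piece -/
def Supp (P : ℤ) (m : ℤ × ℤ) : Set (ℤ × ℤ) :=
  {n | n.1 + n.2 = m.1 + m.2 + P ∧ (0 ≤ m.1 → 0 ≤ n.1) ∧ (0 ≤ m.2 → 0 ≤ n.2)}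

/-- an operator of `P`-degree `P` which preserves the two half planes -/
def Good (P : ℤ) (T : Op K) : Prop :=
  ∀ m : ℤ × ℤ, T (Finsupp.single m 1) ∈ Finsupp.supported K K (Supp P m)

theorem Good.apply {P : ℤ} {T : Op K} (hT : Good P T) {f : Lau K} {S : Set (ℤ × ℤ)}
    (hf : f ∈ Finsupp.supported K K S) {S' : Set (ℤ × ℤ)} (h : ∀ m ∈ S, Supp P m ⊆ S') :
    T f ∈ Finsupp.supported K K S' := by
  rw [Finsupp.supported_eq_span_single] at hf
  induction hf using Submodule.span_induction with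
  | mem x hx =>
    obtain ⟨m, hm, rfl⟩ := hx
    exact Finsupp.supported_mono (h m hm) (hT m)
  | zero => rw [map_zero]; exact zero_mem _
  | add x y _ _ hx hy => rw [map_add]; exact add_mem hx hy
  | smul a x _ hx => rw [map_smul]; exact Submodule.smul_mem _ _ hx

theorem Good.mul {P Q : ℤ} {S T : Op K} (hS : Good P S) (hT : Good Q T) : Good (P + Q) (S * T) := by
  intro m
  refine hS.apply (hT m) ?_
  rintro n ⟨h1, h2, h3⟩ l ⟨l1, l2, l3⟩
  exact ⟨by omega, fun h => l2 (h2 h), fun h => l3 (h3 h)⟩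

theorem Good.one : Good 0 (1 : Op K) := by
  intro m
  rw [Module.End.one_apply]
  exact Finsupp.single_mem_supported K _ ⟨by omega, id, id⟩

theorem Good.X (i : Fin 2) : Good 1 (X i : Op K) := by
  intro m
  rw [X_single]
  refine Finsupp.single_mem_supported K _ ?_
  fin_cases i <;> simp [ev, Supp] <;> omega

theorem Good.D (g : K) (i : Fin 2) : Good (-1) (D g i : Op K) := by
  intro m
  rw [D_single]
  by_cases h0 : co i m = 0
  · rw [h0, cq_zero, zero_mul, Finsupp.single_zero]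
    exact zero_mem _
  · refine Finsupp.single_mem_supported K _ ?_
    fin_cases i <;> simp [ev, co, Supp] at h0 ⊢ <;> omega

theorem Good.pow {P : ℤ} {T : Op K} (hT : Good P T) (r : ℕ) : Good (r * P) (T ^ r) := by
  induction r with
  | zero => simpa using Good.one
  | succ r ih =>
    rw [pow_succ]
    have := ih.mul hT
    rwa [show (r : ℤ) * P + P = ((r + 1 : ℕ) : ℤ) * P by push_cast; ring] at this

theorem Good.mon (g : K) (a b : ℕ × ℕ) : Good ((a.1 : ℤ) + a.2 - (b.1 + b.2)) (mon g a b) := by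
  have := ((((Good.X (K := K) 0).pow a.1).mul ((Good.X (K := K) 1).pow a.2)).mul
    ((Good.D g 0).pow b.1)).mul ((Good.D g 1).pow b.2)
  rw [B281.mon]
  convert this using 1
  ring

theorem good_of_mem {g : K} {k P : ℤ} {T : Op K} (hT : T ∈ Fil g k P) : Good P T := by
  induction hT using Submodule.span_induction with
  | mem x hx =>
    obtain ⟨a, b, _, h2, rfl⟩ := hx
    rw [← h2]
    exact Good.mon g a b
  | zero =>
    intro m
    rw [LinearMap.zero_apply]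
    exact zero_mem _
  | add x y _ _ hx hy =>
    intro m
    rw [LinearMap.add_apply]
    exact add_mem (hx m) (hy m)
  | smul a x _ hx =>
    intro m
    rw [LinearMap.smul_apply]
    exact Submodule.smul_mem _ a (hx m)

/-- the constant `1` -/
noncomputable def u0 : Lau K := Finsupp.single (0, 0) 1

theorem Good.const {T : Op K} (hT : Good 0 T) : T u0 = (T u0 (0, 0)) • (u0 : Lau K) := by
  have h := hT (0, 0)
  rw [Finsupp.mem_supported] at h
  ext n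
  rw [Finsupp.smul_apply, u0, Finsupp.single_apply, smul_eq_mul, mul_ite, mul_one, mul_zero]
  split_ifs with h0
  · rw [← h0]
  · by_contra h1
    have h2 := h (Finsupp.mem_support_iff.2 h1)
    obtain ⟨a1, a2, a3⟩ := h2
    have a2' := a2 le_rfl
    have a3' := a3 le_rfl
    apply h0
    apply Prod.ext
    · show (0 : ℤ) = n.1
      simp only at a1; omega
    · show (0 : ℤ) = n.2
      simp only at a1; omega

theorem mem_zero {g : K} {T : Op K} (hT : T ∈ Fil g 0 0) : ∃ c : K, T = c • (1 : Op K) := by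
  induction hT using Submodule.span_induction with
  | mem x hx =>
    obtain ⟨a, b, h1, h2, rfl⟩ := hx
    refine ⟨1, ?_⟩
    have ha1 : a.1 = 0 := by omega
    have ha2 : a.2 = 0 := by omega
    have hb1 : b.1 = 0 := by omega
    have hb2 : b.2 = 0 := by omega
    rw [mon, ha1, ha2, hb1, hb2]
    simp
  | zero => exact ⟨0, by simp⟩
  | add x y _ _ hx hy =>
    obtain ⟨c, rfl⟩ := hx
    obtain ⟨d, rfl⟩ := hy
    exact ⟨c + d, by rw [add_smul]⟩
  | smul a x _ hx =>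
    obtain ⟨c, rfl⟩ := hx
    exact ⟨a * c, by rw [mul_smul]⟩

theorem mem_one {g : K} {T : Op K} (hT : T ∈ Fil g 0 1) :
    ∃ c d : K, T = c • (X 0 : Op K) + d • X 1 := by
  induction hT using Submodule.span_induction with
  | mem x hx =>
    obtain ⟨a, b, h1, h2, rfl⟩ := hx
    have hb1 : b.1 = 0 := by omega
    have hb2 : b.2 = 0 := by omega
    rcases Nat.eq_zero_or_pos a.1 with ha | ha
    · have ha2 : a.2 = 1 := by omega
      refine ⟨0, 1, ?_⟩
      rw [mon, ha, ha2, hb1, hb2]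
      simp
    · have ha1 : a.1 = 1 := by omega
      have ha2 : a.2 = 0 := by omega
      refine ⟨1, 0, ?_⟩
      rw [mon, ha1, ha2, hb1, hb2]
      simp
  | zero => exact ⟨0, 0, by simp⟩
  | add x y _ _ hx hy =>
    obtain ⟨c, d, rfl⟩ := hx
    obtain ⟨c', d', rfl⟩ := hy
    exact ⟨c + c', d + d', by rw [add_smul, add_smul]; abel⟩
  | smul a x _ hx =>
    obtain ⟨c, d, rfl⟩ := hx
    exact ⟨a * c, a * d, by rw [mul_smul, mul_smul, smul_add]⟩

/-! ### inverses of the `x_i` -/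

/-- the inverse of `x_i` -/
noncomputable def Y (i : Fin 2) : Op K := Finsupp.lmapDomain K K (fun m => m - ev i)

theorem Y_single (i : Fin 2) (m : ℤ × ℤ) (a : K) :
    Y i (Finsupp.single m a) = Finsupp.single (m - ev i) a := by
  simp [Y]

theorem X_Y (i : Fin 2) : (X i : Op K) * Y i = 1 := by
  apply op_ext
  intro m
  simp only [Module.End.mul_apply, X_single, Y_single, sub_add_cancel, Module.End.one_apply]

theorem Y_X (i : Fin 2) : (Y i : Op K) * X i = 1 := by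
  apply op_ext
  intro m
  simp only [Module.End.mul_apply, X_single, Y_single, add_sub_cancel_right, Module.End.one_apply]

theorem X_apply (i : Fin 2) (f : Lau K) (n : ℤ × ℤ) : (X i f) (n + ev i) = f n := by
  rw [X, Finsupp.lmapDomain_apply]
  exact Finsupp.mapDomain_apply (fun a b h => add_right_cancel h) f n

theorem supp_zero {S : Set (ℤ × ℤ)} {f : Lau K} (hf : f ∈ Finsupp.supported K K S) {n : ℤ × ℤ}
    (hn : n ∉ S) : f n = 0 := by
  by_contra h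
  exact hn (hf (Finsupp.mem_support_iff.2 h))

theorem X_cancel (i : Fin 2) {S T : Op K} (h : X i * S = X i * T) : S = T := by
  have := congrArg (fun U => Y i * U) h
  simpa only [← mul_assoc, Y_X, one_mul] using this

/-- `m = x₀ t`, `n = x₁ t` -/
theorem left_kos {m n : Op K} (h : X 1 * m = X 0 * n) : ∃ t : Op K, m = X 0 * t ∧ n = X 1 * t := by
  refine ⟨Y 0 * m, ?_, ?_⟩
  · rw [← mul_assoc, X_Y, one_mul]
  · apply X_cancel 0
    rw [← h]
    have h1 : (X 0 : Op K) * (X 1 * (Y 0 * m)) = X 1 * ((X 0 * Y 0) * m) := by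
      rw [← mul_assoc, X_comm 0 1]
      simp only [mul_assoc]
    rw [h1, X_Y, one_mul]

theorem right_kos {a b : Op K} (h : a * X 0 + b * X 1 = 0) :
    ∃ e : Op K, a = e * X 1 ∧ b = -(e * X 0) := by
  refine ⟨a * Y 1, ?_, ?_⟩
  · rw [mul_assoc, Y_X, mul_one]
  · have h1 : b = -(a * X 0 * Y 1) := by
      have h2 := congrArg (fun U => U * Y 1) h
      simp only [add_mul, zero_mul] at h2
      rw [mul_assoc b, X_Y, mul_one] at h2
      exact @eq_neg_of_add_eq_zero_right (Op K) _ _ _ h2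
    rw [h1, mul_assoc, mul_assoc]
    congr 2
    apply op_ext
    intro m
    simp only [Module.End.mul_apply, X_single, Y_single]
    congr 1
    ring

theorem kos {a b m n : Op K} (h : a * X 0 + b * X 1 = 0) (h' : X 1 * m = X 0 * n) :
    a * m + b * n = 0 := by
  obtain ⟨t, rfl, rfl⟩ := left_kos h'
  rw [← mul_assoc, ← mul_assoc, ← add_mul, h, zero_mul]

/-- two lines -/
theorem lin_indep {c d : K} (h : c • (X 0 : Op K) + d • X 1 = 0) : c = 0 ∧ d = 0 := by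
  have h1 := congrArg (fun T : Op K => T u0) h
  simp only [LinearMap.add_apply, LinearMap.smul_apply, LinearMap.zero_apply, u0, X_single] at h1
  constructor
  · have h2 := DFunLike.congr_fun h1 ((1, 0) : ℤ × ℤ)
    simpa [ev, Finsupp.single_apply] using h2
  · have h2 := DFunLike.congr_fun h1 ((0, 1) : ℤ × ℤ)
    simpa [ev, Finsupp.single_apply] using h2

/-! ### the constant coefficient -/

/-- the constant coefficient of `T 1` -/
noncomputable def cf (T : Op K) : K := T u0 (0, 0)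

theorem cf_add (S T : Op K) : cf (S + T) = cf S + cf T := rfl

theorem cf_smul (c : K) (T : Op K) : cf (c • T) = c * cf T := rfl

theorem cf_one : cf (1 : Op K) = 1 := by
  simp [cf, u0]

theorem cf_zero : cf (0 : Op K) = 0 := rfl

theorem cf_mul (S : Op K) {T : Op K} (hT : Good 0 T) : cf (S * T) = cf S * cf T := by
  rw [cf, Module.End.mul_apply, hT.const, map_smul, Finsupp.smul_apply, smul_eq_mul, mul_comm]
  rfl

theorem cf_kos {m n : Op K} (hm : Good 0 m) (hn : Good 0 n) (h : X 1 * m = X 0 * n) :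
    cf m = 0 ∧ cf n = 0 := by
  have h1 : X 1 (m u0) = X 0 (n u0) := congrArg (fun T : Op K => T u0) h
  rw [hm.const, hn.const, map_smul, map_smul] at h1
  have h0 : X 1 (u0 : Lau K) = Finsupp.single ((0, 0) + ev 1) 1 := X_single _ _ _
  have h0' : X 0 (u0 : Lau K) = Finsupp.single ((0, 0) + ev 0) 1 := X_single _ _ _
  rw [h0, h0'] at h1
  have h2 := h1
  constructor
  · have h3 := DFunLike.congr_fun h1 ((0, 1) : ℤ × ℤ)
    simpa [ev, Finsupp.single_apply, cf, u0] using h3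
  · have h3 := DFunLike.congr_fun h2 ((1, 0) : ℤ × ℤ)
    simpa [ev, Finsupp.single_apply, cf, u0, eq_comm] using h3

/-! ### the core lemma: a diagonal block is a scalar plus `x_i e (x₁, -x₀)` -/

theorem quad {p q r t : K} (h : X 1 * (p • (X 0 : Op K) + q • X 1) =
    X 0 * (r • (X 0 : Op K) + t • X 1)) : q = 0 ∧ r = 0 ∧ p = t := by
  have h1 := congrArg (fun T : Op K => T u0) h
  simp only [Module.End.mul_apply, LinearMap.add_apply, LinearMap.smul_apply, map_add, map_smul,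
    u0, X_single] at h1
  refine ⟨?_, ?_, ?_⟩
  · have h3 := DFunLike.congr_fun h1 ((0, 2) : ℤ × ℤ)
    simpa [ev, Finsupp.single_apply] using h3
  · have h3 := DFunLike.congr_fun h1 ((2, 0) : ℤ × ℤ)
    simpa [ev, Finsupp.single_apply, eq_comm] using h3
  · have h3 := DFunLike.congr_fun h1 ((1, 1) : ℤ × ℤ)
    simpa [ev, Finsupp.single_apply] using h3

theorem block {g : K} {a b c d : Op K} (gb : Good 0 b) (gc : Good 0 c)
    (h1 : a * X 0 + b * X 1 ∈ Fil g 0 1) (h2 : c * X 0 + d * X 1 ∈ Fil g 0 1)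
    (h3 : X 1 * a - X 0 * c ∈ Fil g 0 1) (h4 : X 1 * b - X 0 * d ∈ Fil g 0 1)
    (h5 : (X 1 * a - X 0 * c) * X 0 + (X 1 * b - X 0 * d) * X 1 = 0) :
    ∃ l : K, X 1 * (a - l • 1) = X 0 * c ∧ X 1 * b = X 0 * (d - l • 1) ∧
      (a - l • 1) * X 0 + b * X 1 = 0 ∧ c * X 0 + (d - l • 1) * X 1 = 0 := by
  obtain ⟨α, β, hu⟩ := mem_one h3
  obtain ⟨γ, δ, hv⟩ := mem_one h4
  obtain ⟨p, q, hc⟩ := mem_one h1
  obtain ⟨r, t, hd⟩ := mem_one h2
  -- the scalar
  have hx : (X 0 : Op K) * X 1 = X 1 * X 0 := X_comm 0 1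
  have k1 : α = 0 ∧ δ = 0 ∧ γ = -β := by
    rw [hu, hv] at h5
    have h6 := congrArg (fun T : Op K => T u0) h5
    simp only [Module.End.mul_apply, LinearMap.add_apply, LinearMap.smul_apply,
      u0, X_single, LinearMap.zero_apply] at h6
    refine ⟨?_, ?_, ?_⟩
    · have h7 := DFunLike.congr_fun h6 ((2, 0) : ℤ × ℤ)
      simpa [ev, Finsupp.single_apply] using h7
    · have h7 := DFunLike.congr_fun h6 ((0, 2) : ℤ × ℤ)
      simpa [ev, Finsupp.single_apply] using h7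
    · have h7 := DFunLike.congr_fun h6 ((1, 1) : ℤ × ℤ)
      rw [eq_neg_iff_add_eq_zero, add_comm]
      simpa [ev, Finsupp.single_apply] using h7
  obtain ⟨rfl, rfl, rfl⟩ := k1
  rw [zero_smul, zero_add] at hu
  rw [zero_smul, add_zero] at hv
  have e1 : X 1 * (a - β • 1) = X 0 * c := r1 (R := Op K) hu
  have e2 : X 1 * b = X 0 * (d - β • 1) := r2 (R := Op K) hv
  refine ⟨β, e1, e2, ?_⟩
  obtain ⟨z0, za, zc⟩ := left_kos e1
  obtain ⟨z1, zb, zd⟩ := left_kos e2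
  have f1 := r3 (R := Op K) za zb hc
  have f2 := r4 (R := Op K) zc zd hd
  obtain ⟨rfl, rfl, hpt⟩ : q = 0 ∧ r = 0 ∧ p - β = t - β := by
    apply quad
    rw [← f1, ← f2, ← mul_assoc, ← mul_assoc, hx]
  rw [zero_smul, add_zero] at f1
  have f3 : z0 * X 0 + z1 * X 1 = (p - β) • (1 : Op K) := by
    apply X_cancel 0
    rw [f1, mul_smul_comm, mul_one]
  have f4 : p - β = 0 := by
    have h6 := congrArg (fun T : Op K => T (Finsupp.single (-1, -1) 1) (-1, -1)) f3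
    simp only [LinearMap.add_apply, LinearMap.smul_apply, Module.End.mul_apply, X_single,
      Module.End.one_apply, Finsupp.add_apply, Finsupp.smul_apply, Finsupp.single_eq_same,
      smul_eq_mul, mul_one] at h6
    rw [← h6]
    have g1 : (z0 (Finsupp.single ((-1, -1) + ev 0) 1)) (-1, -1) = 0 := by
      rw [← X_apply 1, ← Module.End.mul_apply, ← zc]
      refine supp_zero (gc _) ?_
      rintro ⟨_, h7, _⟩
      simp [ev] at h7
    have g2 : (z1 (Finsupp.single ((-1, -1) + ev 1) 1)) (-1, -1) = 0 := by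
      rw [← X_apply 0, ← Module.End.mul_apply, ← zb]
      refine supp_zero (gb _) ?_
      rintro ⟨_, _, h7⟩
      simp [ev] at h7
    rw [g1, g2, add_zero]
  rw [f4, zero_smul] at f3
  exact ⟨r5 (R := Op K) za zb f3, r5 (R := Op K) zc zd f3⟩

/-! ### rows -/

theorem row_e {g : K} {s : ℤ} {M : Mat K} (hM : Pres g s 0 M) (i : Fin 7) {k : ℤ}
    (h : (Pi.single i 1 : Fin 7 → Op K) ∈ Lat g s k 0) : M i ∈ Lat g s k 0 := by
  have := hM k 0 _ h
  rwa [Matrix.single_one_vecMul, add_zero] at this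

/-- the row `(x₁, -x₀)` at the positions `3, 4` -/
noncomputable def kap1 : Fin 7 → Op K := ![0, 0, 0, X 1, (-1 : K) • (X 0 : Op K), 0, 0]

/-- the row `(x₁, -x₀)` at the positions `5, 6` -/
noncomputable def kap2 : Fin 7 → Op K := ![0, 0, 0, 0, 0, X 1, (-1 : K) • (X 0 : Op K)]

theorem kap1_mul (M : Mat K) (j : Fin 7) : (kap1 ᵥ* M) j = X 1 * M 3 j - X 0 * M 4 j := by
  refine Eq.trans ?_ (r8 (K := K) (R := Op K) (X 0) (X 1) (M 3 j) (M 4 j))
  simp [kap1, Matrix.vecMul, dotProduct, Fin.sum_univ_seven, -neg_smul]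

theorem kap2_mul (M : Mat K) (j : Fin 7) : (kap2 ᵥ* M) j = X 1 * M 5 j - X 0 * M 6 j := by
  refine Eq.trans ?_ (r8 (K := K) (R := Op K) (X 0) (X 1) (M 5 j) (M 6 j))
  simp [kap2, Matrix.vecMul, dotProduct, Fin.sum_univ_seven, -neg_smul]

theorem kap1_mem (g : K) (s : ℤ) : (kap1 : Fin 7 → Op K) ∈ Lat g s s 1 := by
  have h : (X 1 : Op K) * X 0 + ((-1 : K) • (X 0 : Op K)) * X 1 = 0 :=
    r7 (K := K) (R := Op K) _ _ (X_comm 0 1)
  refine ⟨?_, ?_, ?_, ⟨?_, ?_, ?_⟩, ?_, ?_, ?_⟩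
  · exact zero_mem _
  · exact zero_mem _
  · exact zero_mem _
  · exact X_mem_Fil g 1 (by omega)
  · have := X_mem_Fil (K := K) g 0 (k := s - s) (by omega)
    exact (Fil g (s - s) 1).smul_mem (-1) this
  · show (X 1 : Op K) * X 0 + ((-1 : K) • (X 0 : Op K)) * X 1 ∈ _
    rw [h]
    exact zero_mem _
  · exact zero_mem _
  · exact zero_mem _
  · show (0 : Op K) * X 0 + 0 * X 1 ∈ _
    rw [zero_mul, zero_mul, add_zero]
    exact zero_mem _

theorem kap2_mem (g : K) (s : ℤ) : (kap2 : Fin 7 → Op K) ∈ Lat g s 0 1 := by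
  have h : (X 1 : Op K) * X 0 + ((-1 : K) • (X 0 : Op K)) * X 1 = 0 :=
    r7 (K := K) (R := Op K) _ _ (X_comm 0 1)
  refine ⟨?_, ?_, ?_, ⟨?_, ?_, ?_⟩, ?_, ?_, ?_⟩
  · exact zero_mem _
  · exact zero_mem _
  · exact zero_mem _
  · exact zero_mem _
  · exact zero_mem _
  · show (0 : Op K) * X 0 + 0 * X 1 ∈ _
    rw [zero_mul, zero_mul, add_zero]
    exact zero_mem _
  · exact X_mem_Fil g 1 (by omega)
  · have := X_mem_Fil (K := K) g 0 (k := 0) le_rfl
    exact (Fil g 0 1).smul_mem (-1) this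
  · show (X 1 : Op K) * X 0 + ((-1 : K) • (X 0 : Op K)) * X 1 ∈ _
    rw [h]
    exact zero_mem _

theorem e_mem (g : K) {s k : ℤ} (i : Fin 7) (h0 : 0 ≤ k) (h1 : i = 1 → 1 ≤ k) (h2 : i = 2 → 2 ≤ k)
    (h3 : i = 3 ∨ i = 4 → s + 1 ≤ k) (h4 : i = 5 ∨ i = 6 → 2 ≤ k) :
    (Pi.single i 1 : Fin 7 → Op K) ∈ Lat g s k 0 := by
  have hv : ∀ j : Fin 7, (Pi.single i 1 : Fin 7 → Op K) j = if j = i then 1 else 0 := fun j => by
    rw [Pi.single_apply]
  have e1 : ∀ (j : Fin 7) (l : ℤ), (j = i → 0 ≤ l) →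
      (Pi.single i 1 : Fin 7 → Op K) j ∈ Fil g l 0 := by
    intro j l hl
    rw [hv]
    split_ifs with h
    · exact one_mem_Fil g (hl h)
    · exact zero_mem _
  have e2 : ∀ (j : Fin 7) (r : Fin 2) (l : ℤ), (j = i → 0 ≤ l) →
      (Pi.single i 1 : Fin 7 → Op K) j * X r ∈ Fil g l (0 + 1) := by
    intro j r l hl
    rw [hv]
    split_ifs with h
    · rw [one_mul]; exact X_mem_Fil g r (hl h)
    · rw [zero_mul]; exact zero_mem _
  refine ⟨e1 _ _ fun _ => h0, e1 _ _ fun h => ?_, e1 _ _ fun h => ?_,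
    ⟨e1 _ _ fun h => ?_, e1 _ _ fun h => ?_, add_mem (e2 _ _ _ fun h => ?_) (e2 _ _ _ fun h => ?_)⟩,
    e1 _ _ fun h => h0, e1 _ _ fun h => h0, add_mem (e2 _ _ _ fun h => ?_) (e2 _ _ _ fun h => ?_)⟩
  · have := h1 h.symm; omega
  · have := h2 h.symm; omega
  · have := h3 (Or.inl h.symm); omega
  · have := h3 (Or.inr h.symm); omega
  · have := h3 (Or.inl h.symm); omega
  · have := h3 (Or.inr h.symm); omega
  · have := h4 (Or.inl h.symm); omega
  · have := h4 (Or.inr h.symm); omega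

theorem lin0 {g : K} {a b : Op K} (ha : a ∈ Fil g 0 0) (hb : b ∈ Fil g 0 0)
    (h : a * X 0 + b * X 1 = 0) : a = 0 ∧ b = 0 := by
  obtain ⟨c, rfl⟩ := mem_zero ha
  obtain ⟨d, rfl⟩ := mem_zero hb
  rw [smul_one_mul, smul_one_mul] at h
  obtain ⟨rfl, rfl⟩ := lin_indep h
  exact ⟨zero_smul _ _, zero_smul _ _⟩

theorem lin1 {g : K} {a b : Op K} (ha : a ∈ Fil g 0 0) (hb : b ∈ Fil g 0 0)
    (h : X 1 * a - X 0 * b = 0) : a = 0 ∧ b = 0 := by
  obtain ⟨c, rfl⟩ := mem_zero ha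
  obtain ⟨d, rfl⟩ := mem_zero hb
  rw [mul_smul_comm, mul_smul_comm, mul_one, mul_one] at h
  obtain ⟨h1, rfl⟩ := lin_indep (c := -d) (d := c) (r6 (R := Op K) h)
  rw [neg_eq_zero] at h1
  rw [h1]
  exact ⟨zero_smul _ _, zero_smul _ _⟩

theorem cst {g : K} {k P : ℤ} {a : Op K} (ha : a ∈ Fil g k P) (k' P' : ℤ) (h : k = k')
    (h' : P = P') : a ∈ Fil g k' P' := h ▸ h' ▸ ha

theorem sub0 {a b : Op K} (h : X 1 * a - X 0 * b = 0) : X 1 * a = X 0 * b :=
  r9 (R := Op K) h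

/-- the entries of a matrix preserving the lattices, `s = 0` -/
structure Fact0 (M : Mat K) (l : Fin 5 → K) : Prop where
  a0 : M 0 0 = l 0 • (1 : Op K)
  a1 : M 0 1 = 0
  a2 : M 0 2 = 0
  a3 : M 0 3 = 0
  a4 : M 0 4 = 0
  a5 : M 0 5 = 0
  a6 : M 0 6 = 0
  b1 : M 1 1 = l 1 • (1 : Op K)
  b2 : M 1 2 = 0
  b56 : M 1 5 * X 0 + M 1 6 * X 1 = 0
  c2 : M 2 2 = l 2 • (1 : Op K)
  d1 : M 3 1 = 0
  e1 : M 4 1 = 0
  d2 : M 3 2 = 0
  e2 : M 4 2 = 0
  k3 : X 1 * (M 3 3 - l 3 • (1 : Op K)) = X 0 * M 4 3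
  k4 : X 1 * M 3 4 = X 0 * (M 4 4 - l 3 • (1 : Op K))
  d34 : (M 3 3 - l 3 • (1 : Op K)) * X 0 + M 3 4 * X 1 = 0
  e34 : M 4 3 * X 0 + (M 4 4 - l 3 • (1 : Op K)) * X 1 = 0
  d56 : M 3 5 * X 0 + M 3 6 * X 1 = 0
  e56 : M 4 5 * X 0 + M 4 6 * X 1 = 0
  k5 : X 1 * M 3 5 = X 0 * M 4 5
  k6 : X 1 * M 3 6 = X 0 * M 4 6
  f1 : X 1 * M 5 1 = X 0 * M 6 1
  f2 : M 5 2 = 0
  h2 : M 6 2 = 0
  f34 : X 1 * (M 5 3 * X 0 + M 5 4 * X 1) = X 0 * (M 6 3 * X 0 + M 6 4 * X 1)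
  n5 : X 1 * (M 5 5 - l 4 • (1 : Op K)) = X 0 * M 6 5
  n6 : X 1 * M 5 6 = X 0 * (M 6 6 - l 4 • (1 : Op K))
  f56 : (M 5 5 - l 4 • (1 : Op K)) * X 0 + M 5 6 * X 1 = 0
  h56 : M 6 5 * X 0 + (M 6 6 - l 4 • (1 : Op K)) * X 1 = 0

theorem fact0 {g : K} {M : Mat K} (hM : Pres g 0 0 M) : ∃ l : Fin 5 → K, Fact0 M l := by
  obtain ⟨p0, p1, p2, ⟨p3, p4, p5⟩, p6, p7, p8⟩ := row_e hM 0 (k := 0) (e_mem g 0 (by omega)
    (by simp) (by simp) (by simp) (by simp))
  obtain ⟨q0, q1, q2, ⟨q3, q4, q5⟩, q6, q7, q8⟩ := row_e hM 1 (k := 1) (e_mem g 1 (by omega)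
    (by simp) (by simp) (by simp) (by simp))
  obtain ⟨r0, r1, r2, ⟨r3, r4, r5⟩, r6, r7, r8⟩ := row_e hM 2 (k := 2) (e_mem g 2 (by omega)
    (by simp) (by simp) (by simp) (by simp))
  obtain ⟨s0, s1, s2, ⟨s3, s4, s5⟩, s6, s7, s8⟩ := row_e hM 3 (k := 1) (e_mem g 3 (by omega)
    (by simp) (by simp) (by simp) (by simp))
  obtain ⟨t0, t1, t2, ⟨t3, t4, t5⟩, t6, t7, t8⟩ := row_e hM 4 (k := 1) (e_mem g 4 (by omega)
    (by simp) (by simp) (by simp) (by simp))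
  obtain ⟨u0, u1, u2, ⟨u3, u4, u5⟩, u6, u7, u8⟩ := row_e hM 5 (k := 2) (e_mem g 5 (by omega)
    (by simp) (by simp) (by simp) (by simp))
  obtain ⟨v0, v1, v2, ⟨v3, v4, v5⟩, v6, v7, v8⟩ := row_e hM 6 (k := 2) (e_mem g 6 (by omega)
    (by simp) (by simp) (by simp) (by simp))
  obtain ⟨x0, x1, x2, ⟨x3, x4, x5⟩, x6, x7, x8⟩ := hM 0 1 _ (kap1_mem g 0)
  obtain ⟨y0, y1, y2, ⟨y3, y4, y5⟩, y6, y7, y8⟩ := hM 0 1 _ (kap2_mem g 0)
  simp only [kap1_mul, kap2_mul] at x0 x1 x2 x3 x4 x5 x6 x7 x8 y0 y1 y2 y3 y4 y5 y6 y7 y8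
  -- constants
  obtain ⟨l0, h0⟩ := mem_zero p0
  obtain ⟨l1, h1⟩ := mem_zero (cst q1 0 0 (by norm_num) rfl)
  obtain ⟨l2, h2⟩ := mem_zero (cst r2 0 0 (by norm_num) rfl)
  obtain ⟨a3, a4⟩ := lin0 (cst p3 0 0 (by norm_num) rfl) (cst p4 0 0 (by norm_num) rfl)
    (zero_of_neg p5 (by norm_num))
  obtain ⟨a5, a6⟩ := lin0 p6 p7 (zero_of_neg p8 (by norm_num))
  obtain ⟨d1, e1⟩ := lin1 (cst s1 0 0 (by norm_num) rfl) (cst t1 0 0 (by norm_num) rfl)
    (zero_of_neg x1 (by norm_num))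
  obtain ⟨f2, i2⟩ := lin1 (cst u2 0 0 (by norm_num) rfl) (cst v2 0 0 (by norm_num) rfl)
    (zero_of_neg y2 (by norm_num))
  -- the diagonal blocks
  obtain ⟨l3, k3, k4, d34, e34⟩ := block (g := g) (good_of_mem s4) (good_of_mem t3)
    (cst s5 0 1 (by norm_num) (by norm_num)) (cst t5 0 1 (by norm_num) (by norm_num))
    (cst x3 0 1 (by norm_num) (by norm_num)) (cst x4 0 1 (by norm_num) (by norm_num))
    (zero_of_neg x5 (by norm_num))
  obtain ⟨l4, n5, n6, f56, h56⟩ := block (g := g) (good_of_mem u7) (good_of_mem v6)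
    (cst u8 0 1 (by norm_num) (by norm_num)) (cst v8 0 1 (by norm_num) (by norm_num))
    (cst y6 0 1 (by norm_num) (by norm_num)) (cst y7 0 1 (by norm_num) (by norm_num))
    (zero_of_neg y8 (by norm_num))
  -- `K₁ → K₂`
  have d56 := zero_of_neg s8 (by norm_num)
  have e56 := zero_of_neg t8 (by norm_num)
  obtain ⟨μ, m1, m2, m3, m4⟩ := block (g := g) (good_of_mem s7) (good_of_mem t6)
    (by rw [d56]; exact zero_mem _) (by rw [e56]; exact zero_mem _)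
    (cst x6 0 1 (by norm_num) (by norm_num)) (cst x7 0 1 (by norm_num) (by norm_num))
    (zero_of_neg x8 (by norm_num))
  have hμ : μ = 0 := (lin_indep (c := μ) (d := 0) (by
    rw [zero_smul, add_zero]
    exact r10 (R := Op K) m3 d56)).1
  rw [r12 (R := Op K) _ hμ] at m1 m2
  refine ⟨![l0, l1, l2, l3, l4], ?_⟩
  exact
    { a0 := h0
      a1 := zero_of_neg p1 (by norm_num)
      a2 := zero_of_neg p2 (by norm_num)
      a3 := a3
      a4 := a4
      a5 := a5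
      a6 := a6
      b1 := h1
      b2 := zero_of_neg q2 (by norm_num)
      b56 := zero_of_neg q8 (by norm_num)
      c2 := h2
      d1 := d1
      e1 := e1
      d2 := zero_of_neg s2 (by norm_num)
      e2 := zero_of_neg t2 (by norm_num)
      k3 := k3
      k4 := k4
      d34 := d34
      e34 := e34
      d56 := d56
      e56 := e56
      k5 := m1
      k6 := m2
      f1 := sub0 (zero_of_neg y1 (by norm_num))
      f2 := f2
      h2 := i2
      f34 := r14 (R := Op K) (zero_of_neg y5 (by norm_num))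
      n5 := n5
      n6 := n6
      f56 := f56
      h56 := h56 }

/-- the entries of a matrix preserving the lattices, `s = 1` -/
structure Fact1 (M : Mat K) (l : Fin 5 → K) : Prop where
  a0 : M 0 0 = l 0 • (1 : Op K)
  a1 : M 0 1 = 0
  a2 : M 0 2 = 0
  a3 : M 0 3 = 0
  a4 : M 0 4 = 0
  a5 : M 0 5 = 0
  a6 : M 0 6 = 0
  b1 : M 1 1 = l 1 • (1 : Op K)
  b2 : M 1 2 = 0
  b3 : M 1 3 = 0
  b4 : M 1 4 = 0
  b56 : M 1 5 * X 0 + M 1 6 * X 1 = 0
  c2 : M 2 2 = l 2 • (1 : Op K)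
  d2 : M 3 2 = 0
  e2 : M 4 2 = 0
  k3 : X 1 * (M 3 3 - l 3 • (1 : Op K)) = X 0 * M 4 3
  k4 : X 1 * M 3 4 = X 0 * (M 4 4 - l 3 • (1 : Op K))
  d34 : (M 3 3 - l 3 • (1 : Op K)) * X 0 + M 3 4 * X 1 = 0
  e34 : M 4 3 * X 0 + (M 4 4 - l 3 • (1 : Op K)) * X 1 = 0
  k56 : X 1 * (M 3 5 * X 0 + M 3 6 * X 1) = X 0 * (M 4 5 * X 0 + M 4 6 * X 1)
  f1 : X 1 * M 5 1 = X 0 * M 6 1
  f2 : M 5 2 = 0
  h2 : M 6 2 = 0
  g3 : X 1 * M 5 3 = X 0 * M 6 3
  g4 : X 1 * M 5 4 = X 0 * M 6 4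
  f34 : M 5 3 * X 0 + M 5 4 * X 1 = 0
  h34 : M 6 3 * X 0 + M 6 4 * X 1 = 0
  n5 : X 1 * (M 5 5 - l 4 • (1 : Op K)) = X 0 * M 6 5
  n6 : X 1 * M 5 6 = X 0 * (M 6 6 - l 4 • (1 : Op K))
  f56 : (M 5 5 - l 4 • (1 : Op K)) * X 0 + M 5 6 * X 1 = 0
  h56 : M 6 5 * X 0 + (M 6 6 - l 4 • (1 : Op K)) * X 1 = 0

theorem fact1 {g : K} {M : Mat K} (hM : Pres g 1 0 M) : ∃ l : Fin 5 → K, Fact1 M l := by
  obtain ⟨p0, p1, p2, ⟨p3, p4, p5⟩, p6, p7, p8⟩ := row_e hM 0 (k := 0) (e_mem g 0 (by omega)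
    (by simp) (by simp) (by simp) (by simp))
  obtain ⟨q0, q1, q2, ⟨q3, q4, q5⟩, q6, q7, q8⟩ := row_e hM 1 (k := 1) (e_mem g 1 (by omega)
    (by simp) (by simp) (by simp) (by simp))
  obtain ⟨r0, r1, r2, ⟨r3, r4, r5⟩, r6, r7, r8⟩ := row_e hM 2 (k := 2) (e_mem g 2 (by omega)
    (by simp) (by simp) (by simp) (by simp))
  obtain ⟨s0, s1, s2, ⟨s3, s4, s5⟩, s6, s7, s8⟩ := row_e hM 3 (k := 2) (e_mem g 3 (by omega)
    (by simp) (by simp) (by simp) (by simp))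
  obtain ⟨t0, t1, t2, ⟨t3, t4, t5⟩, t6, t7, t8⟩ := row_e hM 4 (k := 2) (e_mem g 4 (by omega)
    (by simp) (by simp) (by simp) (by simp))
  obtain ⟨u0, u1, u2, ⟨u3, u4, u5⟩, u6, u7, u8⟩ := row_e hM 5 (k := 2) (e_mem g 5 (by omega)
    (by simp) (by simp) (by simp) (by simp))
  obtain ⟨v0, v1, v2, ⟨v3, v4, v5⟩, v6, v7, v8⟩ := row_e hM 6 (k := 2) (e_mem g 6 (by omega)
    (by simp) (by simp) (by simp) (by simp))
  obtain ⟨x0, x1, x2, ⟨x3, x4, x5⟩, x6, x7, x8⟩ := hM 1 1 _ (kap1_mem g 1)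
  obtain ⟨y0, y1, y2, ⟨y3, y4, y5⟩, y6, y7, y8⟩ := hM 0 1 _ (kap2_mem g 1)
  simp only [kap1_mul, kap2_mul] at x0 x1 x2 x3 x4 x5 x6 x7 x8 y0 y1 y2 y3 y4 y5 y6 y7 y8
  -- constants
  obtain ⟨l0, h0⟩ := mem_zero p0
  obtain ⟨l1, h1⟩ := mem_zero (cst q1 0 0 (by norm_num) rfl)
  obtain ⟨l2, h2⟩ := mem_zero (cst r2 0 0 (by norm_num) rfl)
  obtain ⟨a5, a6⟩ := lin0 p6 p7 (zero_of_neg p8 (by norm_num))
  obtain ⟨b3, b4⟩ := lin0 (cst q3 0 0 (by norm_num) rfl) (cst q4 0 0 (by norm_num) rfl)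
    (zero_of_neg q5 (by norm_num))
  obtain ⟨d2, e2⟩ := lin1 (cst s2 0 0 (by norm_num) rfl) (cst t2 0 0 (by norm_num) rfl)
    (zero_of_neg x2 (by norm_num))
  obtain ⟨f2, i2⟩ := lin1 (cst u2 0 0 (by norm_num) rfl) (cst v2 0 0 (by norm_num) rfl)
    (zero_of_neg y2 (by norm_num))
  -- the diagonal blocks
  obtain ⟨l3, k3, k4, d34, e34⟩ := block (g := g) (good_of_mem s4) (good_of_mem t3)
    (cst s5 0 1 (by norm_num) (by norm_num)) (cst t5 0 1 (by norm_num) (by norm_num))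
    (cst x3 0 1 (by norm_num) (by norm_num)) (cst x4 0 1 (by norm_num) (by norm_num))
    (zero_of_neg x5 (by norm_num))
  obtain ⟨l4, n5, n6, f56, h56⟩ := block (g := g) (good_of_mem u7) (good_of_mem v6)
    (cst u8 0 1 (by norm_num) (by norm_num)) (cst v8 0 1 (by norm_num) (by norm_num))
    (cst y6 0 1 (by norm_num) (by norm_num)) (cst y7 0 1 (by norm_num) (by norm_num))
    (zero_of_neg y8 (by norm_num))
  -- `K₂ → K₁`
  have g3' := zero_of_neg y3 (by norm_num)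
  have g4' := zero_of_neg y4 (by norm_num)
  have g3 := sub0 g3'
  have g4 := sub0 g4'
  obtain ⟨μ, m1, m2, m3, m4⟩ := block (g := g) (good_of_mem u4) (good_of_mem v3)
    (cst u5 0 1 (by norm_num) (by norm_num)) (cst v5 0 1 (by norm_num) (by norm_num))
    (by rw [g3']; exact zero_mem _) (by rw [g4']; exact zero_mem _)
    (by rw [g3', g4', zero_mul, zero_mul, add_zero])
  have hμ : μ = 0 := (lin_indep (c := 0) (d := μ) (by
    rw [zero_smul, zero_add]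
    exact r11 (R := Op K) m1 g3)).2
  rw [r12 (R := Op K) _ hμ] at m3 m4
  refine ⟨![l0, l1, l2, l3, l4], ?_⟩
  exact
    { a0 := h0
      a1 := zero_of_neg p1 (by norm_num)
      a2 := zero_of_neg p2 (by norm_num)
      a3 := zero_of_neg p3 (by norm_num)
      a4 := zero_of_neg p4 (by norm_num)
      a5 := a5
      a6 := a6
      b1 := h1
      b2 := zero_of_neg q2 (by norm_num)
      b3 := b3
      b4 := b4
      b56 := zero_of_neg q8 (by norm_num)
      c2 := h2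
      d2 := d2
      e2 := e2
      k3 := k3
      k4 := k4
      d34 := d34
      e34 := e34
      k56 := r14 (R := Op K) (zero_of_neg x8 (by norm_num))
      f1 := sub0 (zero_of_neg y1 (by norm_num))
      f2 := f2
      h2 := i2
      g3 := g3
      g4 := g4
      f34 := m3
      h34 := m4
      n5 := n5
      n6 := n6
      f56 := f56
      h56 := h56 }

/-! ### the characters -/

theorem Good.sub_smul {a : Op K} (h : Good 0 a) (l : K) : Good 0 (a - l • (1 : Op K)) := by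
  intro m
  rw [LinearMap.sub_apply, LinearMap.smul_apply]
  exact Submodule.sub_mem _ (h m) (Submodule.smul_mem _ l (Good.one m))

theorem good_entry {g : K} {s : ℤ} {M : Mat K} (hM : Pres g s 0 M) (i j : Fin 7) :
    Good 0 (M i j) := by
  obtain ⟨k, hk⟩ := hM.entry i j
  exact good_of_mem hk

/-- the constant coefficient as a linear map -/
noncomputable def cfL : Op K →ₗ[K] K where
  toFun := cf
  map_add' := cf_add
  map_smul' := cf_smul

theorem cf_sub_smul (a : Op K) (l : K) : cf (a - l • (1 : Op K)) = cf a - l := by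
  have h : cf (a - l • (1 : Op K)) = cf a - l * cf (1 : Op K) := rfl
  rw [h, cf_one, mul_one]

theorem cf_smul_one (l : K) : cf (l • (1 : Op K)) = l := by
  rw [cf_smul, cf_one, mul_one]

theorem cf_mm (M M' : Mat K) (h : ∀ i j, Good 0 (M' i j)) (i j : Fin 7) :
    cf ((M * M') i j) = cf (M i 0) * cf (M' 0 j) + cf (M i 1) * cf (M' 1 j) +
      cf (M i 2) * cf (M' 2 j) + cf (M i 3) * cf (M' 3 j) + cf (M i 4) * cf (M' 4 j) +
      cf (M i 5) * cf (M' 5 j) + cf (M i 6) * cf (M' 6 j) := by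
  rw [Matrix.mul_apply, Fin.sum_univ_seven]
  simp only [cf_add]
  rw [cf_mul _ (h _ _), cf_mul _ (h _ _), cf_mul _ (h _ _), cf_mul _ (h _ _), cf_mul _ (h _ _),
    cf_mul _ (h _ _), cf_mul _ (h _ _)]

/-- the five characters -/
noncomputable def Qf (M : Mat K) : Fin 5 → K :=
  ![cf (M 0 0), cf (M 1 1), cf (M 2 2), cf (M 3 3), cf (M 5 5)]

/-- the entries which vanish at the constants -/
structure Cf (m m' : Fin 7 → Fin 7 → K) : Prop where
  z0 : ∀ k, k ≠ 0 → m 0 k = 0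
  z1 : ∀ k, k ≠ 1 → m 1 k * m' k 1 = 0
  z2 : ∀ k, k ≠ 2 → m' k 2 = 0
  z3 : ∀ k, k ≠ 3 → m 3 k * m' k 3 = 0
  z5 : ∀ k, k ≠ 5 → m 5 k * m' k 5 = 0

theorem Qf_mul {M M' : Mat K} (h : ∀ i j, Good 0 (M' i j))
    (hc : Cf (fun i j => cf (M i j)) (fun i j => cf (M' i j))) : Qf (M * M') = Qf M * Qf M' := by
  have e0 := cf_mm M M' h 0 0
  have e1 := cf_mm M M' h 1 1
  have e2 := cf_mm M M' h 2 2
  have e3 := cf_mm M M' h 3 3
  have e5 := cf_mm M M' h 5 5
  have z0 := hc.z0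
  have z1 := hc.z1
  have z2 := hc.z2
  have z3 := hc.z3
  have z5 := hc.z5
  rw [z0 1 (by decide), z0 2 (by decide), z0 3 (by decide), z0 4 (by decide), z0 5 (by decide),
    z0 6 (by decide)] at e0
  rw [z1 0 (by decide), z1 2 (by decide), z1 3 (by decide), z1 4 (by decide), z1 5 (by decide),
    z1 6 (by decide)] at e1
  rw [z2 0 (by decide), z2 1 (by decide), z2 3 (by decide), z2 4 (by decide), z2 5 (by decide),
    z2 6 (by decide)] at e2
  rw [z3 0 (by decide), z3 1 (by decide), z3 2 (by decide), z3 4 (by decide), z3 5 (by decide),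
    z3 6 (by decide)] at e3
  rw [z5 0 (by decide), z5 1 (by decide), z5 2 (by decide), z5 3 (by decide), z5 4 (by decide),
    z5 6 (by decide)] at e5
  simp only [mul_zero, zero_mul, add_zero, zero_add] at e0 e1 e2 e3 e5
  funext i
  fin_cases i
  · exact e0
  · exact e1
  · exact e2
  · exact e3
  · exact e5

/-- the entries which vanish at the constants, `s = 0` -/
theorem Fact0.cf {g : K} {M : Mat K} (hM : Pres g 0 0 M) {l : Fin 5 → K} (h : Fact0 M l) :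
    (∀ k, k ≠ 0 → cf (M 0 k) = 0) ∧ (∀ k, k ≠ 2 → cf (M k 2) = 0) ∧
      (cf (M 3 1) = 0 ∧ cf (M 4 1) = 0 ∧ cf (M 3 4) = 0 ∧ cf (M 3 5) = 0 ∧ cf (M 3 6) = 0 ∧
        cf (M 4 5) = 0) ∧ (cf (M 5 1) = 0 ∧ cf (M 6 1) = 0 ∧ cf (M 5 6) = 0) ∧
      (cf (M 1 1) = l 1 ∧ cf (M 3 3) = l 3 ∧ cf (M 5 5) = l 4 ∧ cf (M 0 0) = l 0 ∧
        cf (M 2 2) = l 2) := by
  have G := good_entry hM
  refine ⟨fun k hk => ?_, fun k hk => ?_, ⟨?_, ?_, ?_, ?_, ?_, ?_⟩, ⟨?_, ?_, ?_⟩, ?_, ?_, ?_, ?_, ?_⟩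
  · fin_cases k
    · exact absurd rfl hk
    · exact (congrArg Simp763.cf h.a1).trans cf_zero
    · exact (congrArg Simp763.cf h.a2).trans cf_zero
    · exact (congrArg Simp763.cf h.a3).trans cf_zero
    · exact (congrArg Simp763.cf h.a4).trans cf_zero
    · exact (congrArg Simp763.cf h.a5).trans cf_zero
    · exact (congrArg Simp763.cf h.a6).trans cf_zero
  · fin_cases k
    · exact (congrArg Simp763.cf h.a2).trans cf_zero
    · exact (congrArg Simp763.cf h.b2).trans cf_zero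
    · exact absurd rfl hk
    · exact (congrArg Simp763.cf h.d2).trans cf_zero
    · exact (congrArg Simp763.cf h.e2).trans cf_zero
    · exact (congrArg Simp763.cf h.f2).trans cf_zero
    · exact (congrArg Simp763.cf h.h2).trans cf_zero
  · rw [h.d1, cf_zero]
  · rw [h.e1, cf_zero]
  · exact (cf_kos (G 3 4) ((G 4 4).sub_smul _) h.k4).1
  · exact (cf_kos (G 3 5) (G 4 5) h.k5).1
  · exact (cf_kos (G 3 6) (G 4 6) h.k6).1
  · exact (cf_kos (G 3 5) (G 4 5) h.k5).2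
  · exact (cf_kos (G 5 1) (G 6 1) h.f1).1
  · exact (cf_kos (G 5 1) (G 6 1) h.f1).2
  · exact (cf_kos (G 5 6) ((G 6 6).sub_smul _) h.n6).1
  · rw [h.b1, cf_smul_one]
  · have := (cf_kos ((G 3 3).sub_smul _) (G 4 3) h.k3).1
    rwa [cf_sub_smul, sub_eq_zero] at this
  · have := (cf_kos ((G 5 5).sub_smul _) (G 6 5) h.n5).1
    rwa [cf_sub_smul, sub_eq_zero] at this
  · rw [h.a0, cf_smul_one]
  · rw [h.c2, cf_smul_one]

theorem cf_pair0 {g : K} {M M' : Mat K} (hM : Pres g 0 0 M) (hM' : Pres g 0 0 M') :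
    Cf (fun i j => cf (M i j)) (fun i j => cf (M' i j)) := by
  obtain ⟨l, h⟩ := fact0 hM
  obtain ⟨l', h'⟩ := fact0 hM'
  obtain ⟨a0, a2, ⟨a31, a41, a34, a35, a36, a45⟩, ⟨a51, a61, a56⟩, -⟩ := h.cf hM
  obtain ⟨b0, b2, ⟨b31, b41, b34, b35, b36, b45⟩, ⟨b51, b61, b56⟩, -⟩ := h'.cf hM'
  refine ⟨a0, fun k hk => ?_, b2, fun k hk => ?_, fun k hk => ?_⟩
  · fin_cases k
    · exact mul_eq_zero_of_right _ (b0 1 (by decide))
    · exact absurd rfl hk
    · exact mul_eq_zero_of_left (a2 1 (by decide)) _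
    · exact mul_eq_zero_of_right _ b31
    · exact mul_eq_zero_of_right _ b41
    · exact mul_eq_zero_of_right _ b51
    · exact mul_eq_zero_of_right _ b61
  · fin_cases k
    · exact mul_eq_zero_of_right _ (b0 3 (by decide))
    · exact mul_eq_zero_of_left a31 _
    · exact mul_eq_zero_of_left (a2 3 (by decide)) _
    · exact absurd rfl hk
    · exact mul_eq_zero_of_left a34 _
    · exact mul_eq_zero_of_left a35 _
    · exact mul_eq_zero_of_left a36 _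
  · fin_cases k
    · exact mul_eq_zero_of_right _ (b0 5 (by decide))
    · exact mul_eq_zero_of_left a51 _
    · exact mul_eq_zero_of_left (a2 5 (by decide)) _
    · exact mul_eq_zero_of_right _ b35
    · exact mul_eq_zero_of_right _ b45
    · exact absurd rfl hk
    · exact mul_eq_zero_of_left a56 _

/-- the entries which vanish at the constants, `s = 1` -/
theorem Fact1.cf {g : K} {M : Mat K} (hM : Pres g 1 0 M) {l : Fin 5 → K} (h : Fact1 M l) :
    (∀ k, k ≠ 0 → cf (M 0 k) = 0) ∧ (∀ k, k ≠ 2 → cf (M k 2) = 0) ∧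
      (cf (M 1 3) = 0 ∧ cf (M 1 4) = 0 ∧ cf (M 3 4) = 0) ∧
      (cf (M 5 1) = 0 ∧ cf (M 6 1) = 0 ∧ cf (M 5 3) = 0 ∧ cf (M 5 4) = 0 ∧ cf (M 6 3) = 0 ∧
        cf (M 5 6) = 0) ∧
      (cf (M 1 1) = l 1 ∧ cf (M 3 3) = l 3 ∧ cf (M 5 5) = l 4 ∧ cf (M 0 0) = l 0 ∧
        cf (M 2 2) = l 2) := by
  have G := good_entry hM
  refine ⟨fun k hk => ?_, fun k hk => ?_, ⟨?_, ?_, ?_⟩, ⟨?_, ?_, ?_, ?_, ?_, ?_⟩, ?_, ?_, ?_, ?_, ?_⟩
  · fin_cases k
    · exact absurd rfl hk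
    · exact (congrArg Simp763.cf h.a1).trans cf_zero
    · exact (congrArg Simp763.cf h.a2).trans cf_zero
    · exact (congrArg Simp763.cf h.a3).trans cf_zero
    · exact (congrArg Simp763.cf h.a4).trans cf_zero
    · exact (congrArg Simp763.cf h.a5).trans cf_zero
    · exact (congrArg Simp763.cf h.a6).trans cf_zero
  · fin_cases k
    · exact (congrArg Simp763.cf h.a2).trans cf_zero
    · exact (congrArg Simp763.cf h.b2).trans cf_zero
    · exact absurd rfl hk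
    · exact (congrArg Simp763.cf h.d2).trans cf_zero
    · exact (congrArg Simp763.cf h.e2).trans cf_zero
    · exact (congrArg Simp763.cf h.f2).trans cf_zero
    · exact (congrArg Simp763.cf h.h2).trans cf_zero
  · rw [h.b3, cf_zero]
  · rw [h.b4, cf_zero]
  · exact (cf_kos (G 3 4) ((G 4 4).sub_smul _) h.k4).1
  · exact (cf_kos (G 5 1) (G 6 1) h.f1).1
  · exact (cf_kos (G 5 1) (G 6 1) h.f1).2
  · exact (cf_kos (G 5 3) (G 6 3) h.g3).1
  · exact (cf_kos (G 5 4) (G 6 4) h.g4).1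
  · exact (cf_kos (G 5 3) (G 6 3) h.g3).2
  · exact (cf_kos (G 5 6) ((G 6 6).sub_smul _) h.n6).1
  · rw [h.b1, cf_smul_one]
  · have := (cf_kos ((G 3 3).sub_smul _) (G 4 3) h.k3).1
    rwa [cf_sub_smul, sub_eq_zero] at this
  · have := (cf_kos ((G 5 5).sub_smul _) (G 6 5) h.n5).1
    rwa [cf_sub_smul, sub_eq_zero] at this
  · rw [h.a0, cf_smul_one]
  · rw [h.c2, cf_smul_one]

theorem cf_pair1 {g : K} {M M' : Mat K} (hM : Pres g 1 0 M) (hM' : Pres g 1 0 M') :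
    Cf (fun i j => cf (M i j)) (fun i j => cf (M' i j)) := by
  obtain ⟨l, h⟩ := fact1 hM
  obtain ⟨l', h'⟩ := fact1 hM'
  obtain ⟨a0, a2, ⟨a13, a14, a34⟩, ⟨a51, a61, a53, a54, a63, a56⟩, -⟩ := h.cf hM
  obtain ⟨b0, b2, ⟨b13, b14, b34⟩, ⟨b51, b61, b53, b54, b63, b56⟩, -⟩ := h'.cf hM'
  refine ⟨a0, fun k hk => ?_, b2, fun k hk => ?_, fun k hk => ?_⟩
  · fin_cases k
    · exact mul_eq_zero_of_right _ (b0 1 (by decide))
    · exact absurd rfl hk
    · exact mul_eq_zero_of_left (a2 1 (by decide)) _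
    · exact mul_eq_zero_of_left a13 _
    · exact mul_eq_zero_of_left a14 _
    · exact mul_eq_zero_of_right _ b51
    · exact mul_eq_zero_of_right _ b61
  · fin_cases k
    · exact mul_eq_zero_of_right _ (b0 3 (by decide))
    · exact mul_eq_zero_of_right _ b13
    · exact mul_eq_zero_of_left (a2 3 (by decide)) _
    · exact absurd rfl hk
    · exact mul_eq_zero_of_left a34 _
    · exact mul_eq_zero_of_right _ b53
    · exact mul_eq_zero_of_right _ b63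
  · fin_cases k
    · exact mul_eq_zero_of_right _ (b0 5 (by decide))
    · exact mul_eq_zero_of_left a51 _
    · exact mul_eq_zero_of_left (a2 5 (by decide)) _
    · exact mul_eq_zero_of_left a53 _
    · exact mul_eq_zero_of_left a54 _
    · exact absurd rfl hk
    · exact mul_eq_zero_of_left a56 _

/-! ### nilpotency -/

theorem Fact0.nil {M : Mat K} {l : Fin 5 → K} (h : Fact0 M l) (hl : l = 0) :
    Nil0 (X 0 : Op K) (X 1) M := by
  have hl0 : ∀ i, l i = 0 := fun i => by rw [hl]; rfl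
  exact
    { a := fun j => by
        fin_cases j
        · exact h.a0.trans (by rw [hl0, zero_smul])
        · exact h.a1
        · exact h.a2
        · exact h.a3
        · exact h.a4
        · exact h.a5
        · exact h.a6
      b1 := h.b1.trans (by rw [hl0, zero_smul])
      b2 := h.b2
      b56 := h.b56
      c2 := h.c2.trans (by rw [hl0, zero_smul])
      d1 := h.d1
      e1 := h.e1
      d2 := h.d2
      e2 := h.e2
      k3 := by
        have := h.k3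
        rwa [r12 (R := Op K) _ (hl0 3)] at this
      k4 := by
        have := h.k4
        rwa [r12 (R := Op K) _ (hl0 3)] at this
      d34 := by
        have := h.d34
        rwa [r12 (R := Op K) _ (hl0 3)] at this
      e34 := by
        have := h.e34
        rwa [r12 (R := Op K) _ (hl0 3)] at this
      d56 := h.d56
      e56 := h.e56
      k5 := h.k5
      k6 := h.k6
      f1 := h.f1
      f2 := h.f2
      h2 := h.h2
      f34 := h.f34
      n5 := by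
        have := h.n5
        rwa [r12 (R := Op K) _ (hl0 4)] at this
      n6 := by
        have := h.n6
        rwa [r12 (R := Op K) _ (hl0 4)] at this
      f56 := by
        have := h.f56
        rwa [r12 (R := Op K) _ (hl0 4)] at this
      h56 := by
        have := h.h56
        rwa [r12 (R := Op K) _ (hl0 4)] at this }

theorem Fact1.nil {M : Mat K} {l : Fin 5 → K} (h : Fact1 M l) (hl : l = 0) :
    Nil1 (X 0 : Op K) (X 1) M := by
  have hl0 : ∀ i, l i = 0 := fun i => by rw [hl]; rfl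
  exact
    { a := fun j => by
        fin_cases j
        · exact h.a0.trans (by rw [hl0, zero_smul])
        · exact h.a1
        · exact h.a2
        · exact h.a3
        · exact h.a4
        · exact h.a5
        · exact h.a6
      b1 := h.b1.trans (by rw [hl0, zero_smul])
      b2 := h.b2
      b3 := h.b3
      b4 := h.b4
      b56 := h.b56
      c2 := h.c2.trans (by rw [hl0, zero_smul])
      d2 := h.d2
      e2 := h.e2
      k3 := by
        have := h.k3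
        rwa [r12 (R := Op K) _ (hl0 3)] at this
      k4 := by
        have := h.k4
        rwa [r12 (R := Op K) _ (hl0 3)] at this
      d34 := by
        have := h.d34
        rwa [r12 (R := Op K) _ (hl0 3)] at this
      e34 := by
        have := h.e34
        rwa [r12 (R := Op K) _ (hl0 3)] at this
      k56 := h.k56
      f1 := h.f1
      f2 := h.f2
      h2 := h.h2
      g3 := h.g3
      g4 := h.g4
      f34 := h.f34
      h34 := h.h34
      n5 := by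
        have := h.n5
        rwa [r12 (R := Op K) _ (hl0 4)] at this
      n6 := by
        have := h.n6
        rwa [r12 (R := Op K) _ (hl0 4)] at this
      f56 := by
        have := h.f56
        rwa [r12 (R := Op K) _ (hl0 4)] at this
      h56 := by
        have := h.h56
        rwa [r12 (R := Op K) _ (hl0 4)] at this }

theorem pow0 {g : K} {M : Mat K} (hM : Pres g 0 0 M) (hq : Qf M = 0) : M ^ 7 = 0 := by
  obtain ⟨l, h⟩ := fact0 hM
  obtain ⟨-, -, -, -, c1, c3, c4, c0, c2⟩ := h.cf hM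
  have hl : l = 0 := by
    funext i
    fin_cases i
    · exact c0.symm.trans (congrFun hq 0)
    · exact c1.symm.trans (congrFun hq 1)
    · exact c2.symm.trans (congrFun hq 2)
    · exact c3.symm.trans (congrFun hq 3)
    · exact c4.symm.trans (congrFun hq 4)
  exact (h.nil hl).pow fun a b m n h1 h2 => kos h1 h2

theorem pow1 {g : K} {M : Mat K} (hM : Pres g 1 0 M) (hq : Qf M = 0) : M ^ 7 = 0 := by
  obtain ⟨l, h⟩ := fact1 hM
  obtain ⟨-, -, -, -, c1, c3, c4, c0, c2⟩ := h.cf hM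
  have hl : l = 0 := by
    funext i
    fin_cases i
    · exact c0.symm.trans (congrFun hq 0)
    · exact c1.symm.trans (congrFun hq 1)
    · exact c2.symm.trans (congrFun hq 2)
    · exact c3.symm.trans (congrFun hq 3)
    · exact c4.symm.trans (congrFun hq 4)
  exact (h.nil hl).pow fun a b m n h1 h2 => kos h1 h2

/-! ### the map to `K^5` -/

/-- the entries of a diagonal matrix -/
def dgc (t : Fin 5 → K) : Fin 7 → K := ![t 0, t 1, t 2, t 3, t 3, t 4, t 4]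

/-- the diagonal matrices -/
noncomputable def dg (t : Fin 5 → K) : Mat K := Matrix.diagonal fun i => dgc t i • (1 : Op K)

theorem dg_mul (t : Fin 5 → K) (v : Fin 7 → Op K) (j : Fin 7) : (v ᵥ* dg t) j = dgc t j • v j := by
  rw [dg, Matrix.vecMul_diagonal, mul_smul_comm, mul_one]

theorem dg_pres (g : K) (s : ℤ) (t : Fin 5 → K) : Pres g s 0 (dg t) := by
  rintro k P v ⟨v0, v1, v2, ⟨v3, v4, v5⟩, v6, v7, v8⟩
  rw [add_zero]
  refine ⟨?_, ?_, ?_, ⟨?_, ?_, ?_⟩, ?_, ?_, ?_⟩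
  · rw [dg_mul]; exact Submodule.smul_mem _ _ v0
  · rw [dg_mul]; exact Submodule.smul_mem _ _ v1
  · rw [dg_mul]; exact Submodule.smul_mem _ _ v2
  · rw [dg_mul]; exact Submodule.smul_mem _ _ v3
  · rw [dg_mul]; exact Submodule.smul_mem _ _ v4
  · rw [dg_mul, dg_mul]
    have h := Submodule.smul_mem _ (t 3) v5
    rw [smul_add, ← smul_mul_assoc, ← smul_mul_assoc] at h
    exact h
  · rw [dg_mul]; exact Submodule.smul_mem _ _ v6
  · rw [dg_mul]; exact Submodule.smul_mem _ _ v7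
  · rw [dg_mul, dg_mul]
    have h := Submodule.smul_mem _ (t 4) v8
    rw [smul_add, ← smul_mul_assoc, ← smul_mul_assoc] at h
    exact h

theorem Qf_dg (t : Fin 5 → K) : Qf (dg t) = t := by
  funext i
  fin_cases i
  · show cf (dg t 0 0) = t 0
    rw [dg, Matrix.diagonal_apply_eq, cf_smul_one]; rfl
  · show cf (dg t 1 1) = t 1
    rw [dg, Matrix.diagonal_apply_eq, cf_smul_one]; rfl
  · show cf (dg t 2 2) = t 2
    rw [dg, Matrix.diagonal_apply_eq, cf_smul_one]; rfl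
  · show cf (dg t 3 3) = t 3
    rw [dg, Matrix.diagonal_apply_eq, cf_smul_one]; rfl
  · show cf (dg t 5 5) = t 4
    rw [dg, Matrix.diagonal_apply_eq, cf_smul_one]; rfl

/-- the diagonal matrices as elements of `A g s` -/
noncomputable def dgA (g : K) (s : ℤ) (t : Fin 5 → K) : A g s :=
  ⟨TrivSqZeroExt.inl (dg t), by
    rw [A]
    refine ⟨?_, ?_⟩
    · rw [TrivSqZeroExt.fst_inl]; exact dg_pres g s t
    · rw [TrivSqZeroExt.snd_inl]; exact Pres.zero g s 1⟩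

/-- `Q` as a linear map -/
noncomputable def QL (g : K) (s : ℤ) : A g s →ₗ[K] (Fin 5 → K) where
  toFun x := Qf x.1.fst
  map_add' x y := by
    funext i
    fin_cases i <;> rfl
  map_smul' c x := by
    funext i
    fin_cases i <;> rfl

/-- the map to `K^5` -/
noncomputable def Q (g : K) (s : ℤ)
    (h : ∀ M M' : Mat K, Pres g s 0 M → Pres g s 0 M' → Qf (M * M') = Qf M * Qf M') :
    A g s →ₐ[K] (Fin 5 → K) :=
  AlgHom.ofLinearMap (QL g s)
    (by
      show Qf (1 : Mat K) = 1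
      have : (1 : Mat K) = dg 1 := by
        rw [dg, ← Matrix.diagonal_one]
        congr 1
        funext i
        fin_cases i <;> exact (one_smul K _).symm
      rw [this, Qf_dg])
    (fun x y => by
      show Qf (x.1 * y.1).fst = _
      rw [TrivSqZeroExt.fst_mul]
      exact h _ _ x.2.1 y.2.1)

theorem Q_surj (g : K) (s : ℤ)
    (h : ∀ M M' : Mat K, Pres g s 0 M → Pres g s 0 M' → Qf (M * M') = Qf M * Qf M') :
    Function.Surjective (Q g s h) := fun t => ⟨dgA g s t, Qf_dg t⟩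

theorem sq_zero (x : DualNumber (Mat K)) (h : x.fst = 0) : x * x = 0 := by
  apply TrivSqZeroExt.ext
  · rw [TrivSqZeroExt.fst_mul, h, mul_zero, TrivSqZeroExt.fst_zero]
  · rw [TrivSqZeroExt.snd_mul, h, TrivSqZeroExt.snd_zero, zero_smul, MulOpposite.op_zero,
      zero_smul, add_zero]

theorem nilp {g : K} {s : ℤ} (x : A g s) (h : x.1.fst ^ 7 = 0) : IsNilpotent x := by
  refine ⟨7 + 7, ?_⟩
  apply Subtype.ext
  show (x.1) ^ (7 + 7) = 0
  rw [pow_add]
  refine sq_zero _ ?_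
  rw [← TrivSqZeroExt.fstHom_apply K, map_pow]
  exact h

theorem simples0 (g : K) : ∃ Q : A g 0 →ₐ[K] (Fin 5 → K), Function.Surjective Q ∧
    ∀ x, Q x = 0 → IsNilpotent x :=
  ⟨Q g 0 fun _ _ h h' => Qf_mul (good_entry h') (cf_pair0 h h'), Q_surj g 0 _,
    fun x hx => nilp x (pow0 x.2.1 hx)⟩

theorem simples1 (g : K) : ∃ Q : A g 1 →ₐ[K] (Fin 5 → K), Function.Surjective Q ∧
    ∀ x, Q x = 0 → IsNilpotent x :=
  ⟨Q g 1 fun _ _ h h' => Qf_mul (good_entry h') (cf_pair1 h h'), Q_surj g 1 _,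
    fun x hx => nilp x (pow1 x.2.1 hx)⟩

end Crest.Agent.R186.B281.Simp763
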