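import Crest.Agent.R186.W0A_822
import Crest.Agent.R186.W0def_93

/-!
# Row 186, S0281 base, leaf W0 (s = 0), helper822: 93's maps `W0.d3`, `W0.d2`, `W0.d1` are 322's maps
on rows; exactness.
-/

set_option autoImplicit false
set_option linter.unusedSectionVars false

open Matrix

namespace Crest.Agent.R186.W0B822

open Crest.Agent.R186.B281 Crest.Agent.R186.W0A822

variable {K : Type} [Field K] {g : K}

theorem mul_single_apply (M : Mat K) (a b : Fin 7) (T : Op K) (i j : Fin 7) :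
    (M * Matrix.single a b T) i j = if j = b then M i a * T else 0 := by
  have h : (M * Matrix.single a b T) i j = (M i ᵥ* Matrix.single a b T) j := rfl
  rw [h, W0.row_mul_single, Pi.single_apply]

theorem ff_mul {v w : Fin 5} (x : Pv g 0 v) (m : Pv g 0 w) (i j : Fin 7) :
    ff (mulR v m x) i j = ((x : A g 0).1.fst * (m : A g 0).1.fst) i j := rfl

theorem ss_mul {v w : Fin 5} (x : Pv g 0 v) (m : Pv g 0 w) (hm : (m : A g 0).1.snd = 0)
    (i j : Fin 7) :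
    ss (mulR v m x) i j = ((x : A g 0).1.snd * (m : A g 0).1.fst) i j := by
  rw [ss_def, mulR_coe, snd_mulA, hm, Matrix.mul_zero, zero_add]

theorem ff_add {v : Fin 5} (x y : Pv g 0 v) (i j : Fin 7) : ff (x + y) i j = ff x i j + ff y i j :=
  rfl

theorem ss_add {v : Fin 5} (x y : Pv g 0 v) (i j : Fin 7) : ss (x + y) i j = ss x i j + ss y i j :=
  rfl

theorem m3_ff (hg : Gen g) (x : Pv g 0 2) (k l : Fin 2) (i : Fin 7) :
    ff (mulR 2 (W0.m3 hg k l) x) i 1 = ff x i 2 * W0.c3 g k l := by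
  rw [ff_mul]
  exact (mul_single_apply _ 2 1 _ i 1).trans (if_pos rfl)

theorem m3_ss (hg : Gen g) (x : Pv g 0 2) (k l : Fin 2) (i : Fin 7) :
    ss (mulR 2 (W0.m3 hg k l) x) i 1 = ss x i 2 * W0.c3 g k l := by
  rw [ss_mul _ _ rfl]
  exact (mul_single_apply _ 2 1 _ i 1).trans (if_pos rfl)

theorem d3_coef (w : Op K) (k l : Fin 2) :
    w * W0.c3 g k l = WRes322.d3 Xr (Dr g) w k l := by
  fin_cases k <;> fin_cases l <;>
    simp [W0.c3, WRes322.d3, WRes322.syz, mul_assoc]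

theorem is3 (hg : Gen g) : Is3 (W0.d3 hg) := by
  intro x i
  refine ⟨?_, ?_⟩
  · funext k l
    exact (m3_ff hg x k l i).trans (d3_coef _ k l)
  · funext k l
    exact (m3_ss hg x k l i).trans (d3_coef _ k l)

theorem m2_mat (M : Mat K) (a b k : Fin 2) (i : Fin 7) :
    (M * (Matrix.single 1 3 (W0.c2 g a b k 0) + Matrix.single 1 4 (W0.c2 g a b k 1) : Mat K)) i 3 =
      M i 1 * W0.c2 g a b k 0 ∧
    (M * (Matrix.single 1 3 (W0.c2 g a b k 0) + Matrix.single 1 4 (W0.c2 g a b k 1) : Mat K)) i 4 =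
      M i 1 * W0.c2 g a b k 1 := by
  refine ⟨?_, ?_⟩
  · rw [Matrix.mul_add, Matrix.add_apply, mul_single_apply, mul_single_apply, if_pos rfl,
      if_neg (by decide), add_zero]
  · rw [Matrix.mul_add, Matrix.add_apply, mul_single_apply, mul_single_apply, if_pos rfl,
      if_neg (by decide), zero_add]

/-- the sum over the four coefficients is 322's `d2` -/
theorem d2_coef (u : Fin 2 → Fin 2 → Op K) (k j : Fin 2) :
    (∑ a, ∑ b, u a b * W0.c2 g a b k j) = WRes322.d2 g Xr (Dr g) u k j := by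
  simp only [Fin.sum_univ_two]
  fin_cases k <;> fin_cases j
  · simp [W0.c2, WRes322.d2, WRes322.syz, mul_assoc, Matrix.vecHead]
  · simp [W0.c2, WRes322.d2, WRes322.syz, mul_assoc, Matrix.vecHead, Matrix.vecTail, mul_add,
      sub_eq_add_neg]
  · simp [W0.c2, WRes322.d2, WRes322.syz, mul_assoc, Matrix.vecHead, Matrix.vecTail, mul_add,
      sub_eq_add_neg]
    abel
  · simp [W0.c2, WRes322.d2, WRes322.syz, mul_assoc, Matrix.vecHead, Matrix.vecTail, mul_add,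
      sub_eq_add_neg]
    abel

theorem ff_sum4 {w : Fin 5} (F : Fin 2 → Fin 2 → Pv g 0 w) (i j : Fin 7) :
    ff (∑ a, ∑ b, F a b) i j = ∑ a, ∑ b, ff (F a b) i j := by
  simp only [Fin.sum_univ_two]
  rfl

theorem ss_sum4 {w : Fin 5} (F : Fin 2 → Fin 2 → Pv g 0 w) (i j : Fin 7) :
    ss (∑ a, ∑ b, F a b) i j = ∑ a, ∑ b, ss (F a b) i j := by
  simp only [Fin.sum_univ_two]
  rfl

theorem d2_ff (hg : Gen g) (u : Fin 2 → Fin 2 → Pv g 0 1) (k : Fin 2) (i : Fin 7) :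
    ff (W0.d2 hg u k) i 3 = (∑ a, ∑ b, ff (u a b) i 1 * W0.c2 g a b k 0) ∧
    ff (W0.d2 hg u k) i 4 = (∑ a, ∑ b, ff (u a b) i 1 * W0.c2 g a b k 1) := by
  rw [W0.d2_apply, ff_sum4, ff_sum4]
  refine ⟨?_, ?_⟩
  · refine Finset.sum_congr rfl fun a _ => Finset.sum_congr rfl fun b _ => ?_
    exact (m2_mat _ a b k i).1
  · refine Finset.sum_congr rfl fun a _ => Finset.sum_congr rfl fun b _ => ?_
    exact (m2_mat _ a b k i).2

theorem d2_ss (hg : Gen g) (u : Fin 2 → Fin 2 → Pv g 0 1) (k : Fin 2) (i : Fin 7) :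
    ss (W0.d2 hg u k) i 3 = (∑ a, ∑ b, ss (u a b) i 1 * W0.c2 g a b k 0) ∧
    ss (W0.d2 hg u k) i 4 = (∑ a, ∑ b, ss (u a b) i 1 * W0.c2 g a b k 1) := by
  rw [W0.d2_apply, ss_sum4, ss_sum4]
  refine ⟨?_, ?_⟩
  · refine Finset.sum_congr rfl fun a _ => Finset.sum_congr rfl fun b _ => ?_
    rw [ss_mul _ _ rfl]
    exact (m2_mat _ a b k i).1
  · refine Finset.sum_congr rfl fun a _ => Finset.sum_congr rfl fun b _ => ?_
    rw [ss_mul _ _ rfl]
    exact (m2_mat _ a b k i).2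

theorem is2 (hg : Gen g) : Is2 (W0.d2 hg) := by
  intro u i
  refine ⟨?_, ?_⟩
  · funext k j
    fin_cases j
    · exact ((d2_ff hg u k i).1).trans (d2_coef (r1f u i) k 0)
    · exact ((d2_ff hg u k i).2).trans (d2_coef (r1f u i) k 1)
  · funext k j
    fin_cases j
    · exact ((d2_ss hg u k i).1).trans (d2_coef (r1s u i) k 0)
    · exact ((d2_ss hg u k i).2).trans (d2_coef (r1s u i) k 1)

theorem m1_mat (M : Mat K) (k : Fin 2) (i : Fin 7) :
    (M * (Matrix.single 3 0 (W0.c1 g k 0) + Matrix.single 4 0 (W0.c1 g k 1) : Mat K)) i 0 =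
      M i 3 * W0.c1 g k 0 + M i 4 * W0.c1 g k 1 := by
  rw [Matrix.mul_add, Matrix.add_apply, mul_single_apply, mul_single_apply, if_pos rfl, if_pos rfl]

theorem d1_coef (u : Fin 2 → Fin 2 → Op K) :
    (∑ k, (u k 0 * W0.c1 g k 0 + u k 1 * W0.c1 g k 1)) = WRes322.d1 Xr (Dr g) u := by
  rw [Fin.sum_univ_two]
  simp only [W0.c1, WRes322.d1, WRes322.cc, LinearMap.mulRight_apply, Matrix.cons_val_zero,
    Matrix.cons_val_one, add_mul, mul_sub, mul_one, mul_assoc]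
  abel

theorem ff_sum2 {w : Fin 5} (F : Fin 2 → Pv g 0 w) (i j : Fin 7) :
    ff (∑ a, F a) i j = ∑ a, ff (F a) i j := by
  simp only [Fin.sum_univ_two]
  rfl

theorem ss_sum2 {w : Fin 5} (F : Fin 2 → Pv g 0 w) (i j : Fin 7) :
    ss (∑ a, F a) i j = ∑ a, ss (F a) i j := by
  simp only [Fin.sum_univ_two]
  rfl

theorem d1_ff (hg : Gen g) (u : Fin 2 → Pv g 0 3) (i : Fin 7) :
    ff (W0.d1 hg u) i 0 = ∑ k, (ff (u k) i 3 * W0.c1 g k 0 + ff (u k) i 4 * W0.c1 g k 1) := by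
  rw [W0.d1_apply, ff_sum2]
  exact Finset.sum_congr rfl fun k _ => m1_mat _ k i

theorem d1_ss (hg : Gen g) (u : Fin 2 → Pv g 0 3) (i : Fin 7) :
    ss (W0.d1 hg u) i 0 = ∑ k, (ss (u k) i 3 * W0.c1 g k 0 + ss (u k) i 4 * W0.c1 g k 1) := by
  rw [W0.d1_apply, ss_sum2]
  refine Finset.sum_congr rfl fun k _ => ?_
  rw [ss_mul _ _ rfl]
  exact m1_mat _ k i

theorem is1 (hg : Gen g) : Is1 (W0.d1 hg) := fun u i =>
  ⟨(d1_ff hg u i).trans (d1_coef (r3f u i)), (d1_ss hg u i).trans (d1_coef (r3s u i))⟩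

/-- **`Exact d2 d1`** -/
theorem e21 (hg : Gen g) : Function.Exact (W0.d2 hg) (W0.d1 hg) :=
  W0A822.e21 hg (is2 hg) (is1 hg)

/-- **`Exact d3 d2`** -/
theorem e32 (hg : Gen g) : Function.Exact (W0.d3 hg) (W0.d2 hg) :=
  W0A822.e32 hg (is3 hg) (is2 hg)

/-- **`Injective d3`** -/
theorem h3 (hg : Gen g) : Function.Injective (W0.d3 hg) := W0A822.inj3 hg (is3 hg)

end Crest.Agent.R186.W0B822
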