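import Crest.Agent.R186.BiI_322
import Crest.Agent.R186.W4a_822
import Crest.Agent.R186.KGen_693
import Crest.Agent.R186.PDef_580

/-!
# Row 186, S0281 base: the `A g 1`-level exactness of the resolution of `W` (helper322)

Row level: `f3 : rows at O(-2) → rows at K₁' (two)`, `f2 : K₁'^2 → K₂^2`, `f1 : K₂^2 → O(0)`.
-/

set_option autoImplicit false
set_option linter.unusedSectionVars false

open Matrix

namespace Crest.Agent.R186.W1A322

open B281 W4a822 WRes322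

variable {K : Type} [Field K] {g : K}

/-- right multiplication by `x_i` -/
noncomputable abbrev rX (K : Type) [Field K] : Fin 2 → Op K →ₗ[K] Op K := fun i => LinearMap.mulRight K (X i)
/-- right multiplication by `d_i` -/
noncomputable abbrev rD (g : K) : Fin 2 → Op K →ₗ[K] Op K := fun i => LinearMap.mulRight K (D g i)
/-- left multiplication by `x_i` -/
noncomputable abbrev lX (K : Type) [Field K] : Fin 2 → Op K →ₗ[K] Op K := fun i => LinearMap.mulLeft K (X i)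
/-- the filtration -/
noncomputable abbrev FF (g : K) : ℤ → ℤ → Submodule K (Op K) := fun P A => B281.Fil g A P

def p3 : Fin 2 → Fin 7 := ![3, 4]
def p4 : Fin 2 → Fin 7 := ![5, 6]

/-- the entries of a pair of rows -/
def ent (p : Fin 2 → Fin 7) (r : Fin 2 → Fin 7 → Op K) : Fin 2 → Fin 2 → Op K := fun k i => r k (p i)

noncomputable def of3 (u : Fin 2 → Fin 2 → Op K) : Fin 2 → Fin 7 → Op K := fun k => ![0, 0, 0, u k 0, u k 1, 0, 0]
noncomputable def of4 (u : Fin 2 → Fin 2 → Op K) : Fin 2 → Fin 7 → Op K := fun k => ![0, 0, 0, 0, 0, u k 0, u k 1]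
noncomputable def of2 (w : Op K) : Unit → Fin 7 → Op K := fun _ => ![0, 0, w, 0, 0, 0, 0]

theorem LT4_row {c e : ℤ} {r : Fin 2 → Fin 7 → Op K} (h : LT g 1 (Fin 2) 4 c e r) :
    Row (rX K) (FF g) e c (c - 2) (ent p4 r) :=
  ⟨fun k i => by
    fin_cases i
    · exact (h k).1.2.2.2.2.1
    · exact (h k).1.2.2.2.2.2.1, fun k => (h k).1.2.2.2.2.2.2⟩

theorem LT4_eq {c e : ℤ} {r : Fin 2 → Fin 7 → Op K} (h : LT g 1 (Fin 2) 4 c e r) :
    of4 (ent p4 r) = r := by
  funext k j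
  have h' := (h k).2 j
  fin_cases j
  exacts [(h' (by decide)).symm, (h' (by decide)).symm, (h' (by decide)).symm, (h' (by decide)).symm,
    (h' (by decide)).symm, rfl, rfl]

theorem LT4_of {c e : ℤ} {u : Fin 2 → Fin 2 → Op K} (h : Row (rX K) (FF g) e c (c - 2) u) :
    LT g 1 (Fin 2) 4 c e (of4 u) := fun k => by
  refine ⟨⟨zero_mem _, zero_mem _, zero_mem _, ⟨zero_mem _, zero_mem _, ?_⟩, h.1 k 0, h.1 k 1, h.2 k⟩,
    fun j hj => ?_⟩
  · show (0 : Op K) * X 0 + 0 * X 1 ∈ _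
    rw [zero_mul, zero_mul, add_zero]; exact zero_mem _
  · fin_cases j
    exacts [rfl, rfl, rfl, rfl, rfl, absurd rfl hj, absurd rfl hj]

theorem LT3_row {c e : ℤ} {r : Fin 2 → Fin 7 → Op K} (h : LT g 1 (Fin 2) 3 c e r) :
    Row (rX K) (FF g) e (c - 1) (c - 2) (ent p3 r) :=
  ⟨fun k i => by
    fin_cases i
    · exact (h k).1.2.2.2.1.1
    · exact (h k).1.2.2.2.1.2.1, fun k => by
      have := (h k).1.2.2.2.1.2.2
      rw [show c - 1 - 1 = c - 2 by ring] at this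
      exact this⟩

theorem LT3_eq {c e : ℤ} {r : Fin 2 → Fin 7 → Op K} (h : LT g 1 (Fin 2) 3 c e r) :
    of3 (ent p3 r) = r := by
  funext k j
  have h' := (h k).2 j
  fin_cases j
  exacts [(h' (by decide)).symm, (h' (by decide)).symm, (h' (by decide)).symm, rfl, rfl,
    (h' (by decide)).symm, (h' (by decide)).symm]

theorem LT3_of {c e : ℤ} {u : Fin 2 → Fin 2 → Op K} (h : Row (rX K) (FF g) e (c - 1) (c - 2) u) :
    LT g 1 (Fin 2) 3 c e (of3 u) := fun k => by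
  refine ⟨⟨zero_mem _, zero_mem _, zero_mem _, ⟨h.1 k 0, h.1 k 1, ?_⟩, zero_mem _, zero_mem _, ?_⟩,
    fun j hj => ?_⟩
  · rw [show c - 1 - 1 = c - 2 by ring]; exact h.2 k
  · show (0 : Op K) * X 0 + 0 * X 1 ∈ _
    rw [zero_mul, zero_mul, add_zero]; exact zero_mem _
  · fin_cases j
    exacts [rfl, rfl, rfl, absurd rfl hj, absurd rfl hj, rfl, rfl]

theorem LT2_mem {c e : ℤ} {r : Unit → Fin 7 → Op K} (h : LT g 1 Unit 2 c e r) :
    r () 2 ∈ FF g e (c - 2) := (h ()).1.2.2.1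

theorem LT2_eq {c e : ℤ} {r : Unit → Fin 7 → Op K} (h : LT g 1 Unit 2 c e r) :
    of2 (r () 2) = r := by
  funext k j
  have h' := (h k).2 j
  fin_cases j
  exacts [(h' (by decide)).symm, (h' (by decide)).symm, rfl, (h' (by decide)).symm, (h' (by decide)).symm,
    (h' (by decide)).symm, (h' (by decide)).symm]

theorem LT2_of {c e : ℤ} {w : Op K} (h : w ∈ FF g e (c - 2)) : LT g 1 Unit 2 c e (of2 w) := fun k => by
  refine ⟨⟨zero_mem _, zero_mem _, h, ⟨zero_mem _, zero_mem _, ?_⟩, zero_mem _, zero_mem _, ?_⟩,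
    fun j hj => ?_⟩
  · show (0 : Op K) * X 0 + 0 * X 1 ∈ _
    rw [zero_mul, zero_mul, add_zero]; exact zero_mem _
  · show (0 : Op K) * X 0 + 0 * X 1 ∈ _
    rw [zero_mul, zero_mul, add_zero]; exact zero_mem _
  · fin_cases j
    exacts [rfl, rfl, absurd rfl hj, rfl, rfl, rfl, rfl]

/-- the differentials on rows -/
noncomputable def f3 (g : K) (r : Unit → Fin 7 → Op K) : Fin 2 → Fin 7 → Op K :=
  of3 (d3 (rX K) (rD g) (r () 2))
noncomputable def f2 (g : K) (r : Fin 2 → Fin 7 → Op K) : Fin 2 → Fin 7 → Op K :=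
  of4 (d2 g (rX K) (rD g) (ent p3 r))
noncomputable def f1 (g : K) (r : Fin 2 → Fin 7 → Op K) : Op K := d1 (rX K) (rD g) (ent p4 r)

/-- cycles -/
def C1 (g : K) (z : Fin 2 → Fin 7 → Op K) : Prop := f1 g z = 0
def C2 (g : K) (z : Fin 2 → Fin 7 → Op K) : Prop := d2 g (rX K) (rD g) (ent p3 z) = 0

theorem onto2 (hg : Gen g) {e : ℤ} (he : 0 ≤ e) (he1 : e ≤ 1) : OntoO g 1 3 4 (f2 g) (C1 g) e := by
  intro c _ z hz hC
  obtain ⟨v, hv, hvz⟩ := ex1 (BiI322.fil hg) hg.1 he he1 (by omega) (LT4_row hz) hC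
  refine ⟨of3 v, LT3_of hv, ?_⟩
  have : ent p3 (of3 v) = v := by funext k i; fin_cases i <;> rfl
  rw [f2, this, hvz, LT4_eq hz]

theorem onto3 (hg : Gen g) {e : ℤ} : OntoO g 1 2 3 (f3 g) (C2 g) e := by
  intro c _ z hz hC
  obtain ⟨w, hw, hwz⟩ := ex2 (BiI322.fil hg) hg.1 (LT3_row hz) hC
  refine ⟨of2 w, LT2_of hw, ?_⟩
  show of3 (d3 (rX K) (rD g) w) = z
  rw [hwz, LT3_eq hz]

theorem ent_xx (p : Fin 2 → Fin 7) (z z' : Fin 2 → Fin 7 → Op K) :
    ent p (xx z z') = Lw (lX K) ![ent p z, ent p z'] := rfl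

theorem ontoK2 (hg : Gen g) {e : ℤ} (he : 0 ≤ e) (he1 : e ≤ 1) : OntoK g 1 3 4 (f2 g) (C1 g) e := by
  intro a b hab z z' hz hz' hzz hC hC'
  have hba : b ≤ a ∧ 0 ≤ b ∧ b - 2 ≤ a - 2 := by rcases hab with h | h <;> omega
  have h1 : ∀ i, Row (rX K) (FF g) e a (a - 2) ((![ent p4 z, ent p4 z'] : Fin 2 → Fin 2 → Fin 2 → Op K) i) := by
    intro i; fin_cases i
    · exact LT4_row hz
    · exact LT4_row hz'
  have h0 : ∀ i, d1 (rX K) (rD g) ((![ent p4 z, ent p4 z'] : Fin 2 → Fin 2 → Fin 2 → Op K) i) = 0 := by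
    intro i; fin_cases i
    · exact hC
    · exact hC'
  obtain ⟨v, hv, hv', hvz⟩ := vert1 (BiI322.bi hg) hg.1 he he1 hba.1 (by omega) (by omega) hba.2.2 h1
    (LT4_row hzz) h0
  have ht : ∀ u : Fin 2 → Fin 2 → Op K, ent p3 (of3 u) = u := fun u => by
    funext k i; fin_cases i <;> rfl
  refine ⟨of3 (v 0), of3 (v 1), LT3_of (hv 0), LT3_of (hv 1), ?_, ?_, ?_⟩
  · have h2 := LT3_of (c := b) (e := e + 1) hv'
    have h3 : of3 (Lw (lX K) v) = xx (of3 (v 0)) (of3 (v 1)) := by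
      funext k j
      fin_cases j
      exacts [(by show (0 : Op K) = X 1 * 0 - X 0 * 0; simp), (by show (0 : Op K) = X 1 * 0 - X 0 * 0; simp),
        (by show (0 : Op K) = X 1 * 0 - X 0 * 0; simp), rfl, rfl,
        (by show (0 : Op K) = X 1 * 0 - X 0 * 0; simp), (by show (0 : Op K) = X 1 * 0 - X 0 * 0; simp)]
    rw [← h3]; exact h2
  · rw [f2, ht, hvz 0]; exact LT4_eq hz
  · rw [f2, ht, hvz 1]; exact LT4_eq hz'

theorem ontoK3 (hg : Gen g) {e : ℤ} : OntoK g 1 2 3 (f3 g) (C2 g) e := by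
  intro a b hab z z' hz hz' hzz hC hC'
  have h1 : ∀ i, Row (rX K) (FF g) e (a - 1) (a - 2)
      ((![ent p3 z, ent p3 z'] : Fin 2 → Fin 2 → Fin 2 → Op K) i) := by
    intro i; fin_cases i
    · exact LT3_row hz
    · exact LT3_row hz'
  have h0 : ∀ i, d2 g (rX K) (rD g) ((![ent p3 z, ent p3 z'] : Fin 2 → Fin 2 → Fin 2 → Op K) i) = 0 := by
    intro i; fin_cases i
    · exact hC
    · exact hC'
  obtain ⟨v, hv, hv', hvz⟩ := vert2 (BiI322.bi hg) hg.1 h1 (LT3_row hzz) h0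
  refine ⟨of2 (v 0), of2 (v 1), LT2_of (hv 0), LT2_of (hv 1), ?_, ?_, ?_⟩
  · have h2 := LT2_of (c := b) (e := e + 1) hv'
    have h3 : of2 (Lv (lX K) v) = xx (of2 (v 0)) (of2 (v 1)) := by
      funext k j
      fin_cases j
      exacts [(by show (0 : Op K) = X 1 * 0 - X 0 * 0; simp), (by show (0 : Op K) = X 1 * 0 - X 0 * 0; simp),
        rfl, (by show (0 : Op K) = X 1 * 0 - X 0 * 0; simp), (by show (0 : Op K) = X 1 * 0 - X 0 * 0; simp),
        (by show (0 : Op K) = X 1 * 0 - X 0 * 0; simp), (by show (0 : Op K) = X 1 * 0 - X 0 * 0; simp)]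
    rw [← h3]; exact h2
  · show of3 (d3 (rX K) (rD g) (v 0)) = z
    rw [hvz 0]; exact LT3_eq hz
  · show of3 (d3 (rX K) (rD g) (v 1)) = z'
    rw [hvz 1]; exact LT3_eq hz'

theorem fmul (hg : Gen g) : FMul g := fun hT hS => FD757.Fil_mul hg hT hS

/-! ### elements of `A g 1` -/

theorem supA {v : Fin 5} (x : Pv g 1 v) : SupA g 1 v (x : A g 1) := fun i j hj => mem_Pv.1 x.2 i j hj

theorem ent4_of4 (u : Fin 2 → Fin 2 → Op K) : ent p4 (of4 u) = u := by
  funext k i; fin_cases i <;> rfl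

theorem ent3_of3 (u : Fin 2 → Fin 2 → Op K) : ent p3 (of3 u) = u := by
  funext k i; fin_cases i <;> rfl

/-- `ι`-tuples of elements of `Pv` are determined by their rows -/
theorem pv_ext {ι : Type} {v : Fin 5} {x y : ι → Pv g 1 v}
    (h : ∀ i, (fun l => (x l : A g 1).1.fst i) = fun l => (y l : A g 1).1.fst i)
    (h' : ∀ i, (fun l => (x l : A g 1).1.snd i) = fun l => (y l : A g 1).1.snd i) : x = y := by
  funext l
  refine Subtype.ext (A_ext (fun i j => ?_) (fun i j => ?_))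
  · exact congrFun (congrFun (h i) l) j
  · exact congrFun (congrFun (h' i) l) j

/-- exactness at `Fin 2 → Pv g 1 4` -/
theorem e21 (hg : Gen g) (D2 : (Fin 2 → Pv g 1 3) →ₗ[A g 1] (Fin 2 → Pv g 1 4))
    (D1 : (Fin 2 → Pv g 1 4) →ₗ[A g 1] Pv g 1 0)
    (h1 : ∀ x i, (D1 x : A g 1).1.fst i 0 = f1 g (fun l => (x l : A g 1).1.fst i))
    (h1' : ∀ x i, (D1 x : A g 1).1.snd i 0 = f1 g (fun l => (x l : A g 1).1.snd i))
    (h2 : ∀ x i, (fun l => (D2 x l : A g 1).1.fst i) = f2 g (fun l => (x l : A g 1).1.fst i))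
    (h2' : ∀ x i, (fun l => (D2 x l : A g 1).1.snd i) = f2 g (fun l => (x l : A g 1).1.snd i)) :
    Function.Exact D2 D1 := by
  intro x
  constructor
  · intro hx
    obtain ⟨Y, hY, e, e'⟩ := lift_exact (kgen hg) (fmul hg) (f2 g) (C1 g) (C1 g)
      (onto2 hg le_rfl zero_le_one) (ontoK2 hg le_rfl zero_le_one) (onto2 hg zero_le_one le_rfl)
      (ontoK2 hg zero_le_one le_rfl) (fun l => (x l : A g 1)) (fun l => supA (x l))
      (fun i => by rw [C1, ← h1, hx]; rfl) (fun i => by rw [C1, ← h1', hx]; rfl)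
    refine ⟨fun l => ⟨Y l, mem_Pv.2 (hY l)⟩, pv_ext (fun i => ?_) (fun i => ?_)⟩
    · rw [h2]; exact e i
    · rw [h2']; exact e' i
  · rintro ⟨y, rfl⟩
    refine Subtype.ext (A_ext (fun i j => ?_) (fun i j => ?_))
    · by_cases hj : j = 0
      · subst hj
        rw [h1, h2, f1, f2, ent4_of4, d1_d2 (BiI322.fil hg)]; rfl
      · exact (mem_Pv.1 (D1 (D2 y)).2 i j (by fin_cases j <;> first | exact absurd rfl hj | decide)).1
    · by_cases hj : j = 0
      · subst hj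
        rw [h1', h2', f1, f2, ent4_of4, d1_d2 (BiI322.fil hg)]; rfl
      · exact (mem_Pv.1 (D1 (D2 y)).2 i j (by fin_cases j <;> first | exact absurd rfl hj | decide)).2

theorem of4_zero : of4 (0 : Fin 2 → Fin 2 → Op K) = fun _ _ => 0 := by
  funext k j; fin_cases j <;> rfl

theorem f2_f3 (hg : Gen g) (r : Unit → Fin 7 → Op K) : f2 g (f3 g r) = fun _ _ => 0 := by
  rw [f2, f3, ent3_of3, d2_d3 (BiI322.fil hg), of4_zero]

/-- exactness at `Fin 2 → Pv g 1 3` -/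
theorem e32 (hg : Gen g) (D3 : Pv g 1 2 →ₗ[A g 1] (Fin 2 → Pv g 1 3))
    (D2 : (Fin 2 → Pv g 1 3) →ₗ[A g 1] (Fin 2 → Pv g 1 4))
    (h3 : ∀ x i, (fun l => (D3 x l : A g 1).1.fst i) = f3 g (fun _ => (x : A g 1).1.fst i))
    (h3' : ∀ x i, (fun l => (D3 x l : A g 1).1.snd i) = f3 g (fun _ => (x : A g 1).1.snd i))
    (h2 : ∀ x i, (fun l => (D2 x l : A g 1).1.fst i) = f2 g (fun l => (x l : A g 1).1.fst i))
    (h2' : ∀ x i, (fun l => (D2 x l : A g 1).1.snd i) = f2 g (fun l => (x l : A g 1).1.snd i)) :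
    Function.Exact D3 D2 := by
  intro x
  constructor
  · intro hx
    have hc : ∀ i, C2 g (fun l => (x l : A g 1).1.fst i) := fun i => by
      have e1 := h2 x i
      rw [hx] at e1
      have e2 := congrArg (ent p4) e1
      rw [f2, ent4_of4] at e2
      exact e2.symm.trans rfl
    have hc' : ∀ i, C2 g (fun l => (x l : A g 1).1.snd i) := fun i => by
      have e1 := h2' x i
      rw [hx] at e1
      have e2 := congrArg (ent p4) e1
      rw [f2, ent4_of4] at e2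
      exact e2.symm.trans rfl
    obtain ⟨Y, hY, e, e'⟩ := lift_exact (kgen hg) (fmul hg) (f3 g) (C2 g) (C2 g)
      (onto3 hg) (ontoK3 hg) (onto3 hg) (ontoK3 hg) (fun l => (x l : A g 1)) (fun l => supA (x l)) hc hc'
    refine ⟨⟨Y (), mem_Pv.2 (hY ())⟩, pv_ext (fun i => ?_) (fun i => ?_)⟩
    · rw [h3]; exact e i
    · rw [h3']; exact e' i
  · rintro ⟨y, rfl⟩
    refine pv_ext (fun i => ?_) (fun i => ?_)
    · rw [h2, h3]; exact f2_f3 hg _
    · rw [h2', h3']; exact f2_f3 hg _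

/-- injectivity of `D3` -/
theorem inj3' (hg : Gen g) (D3 : Pv g 1 2 →ₗ[A g 1] (Fin 2 → Pv g 1 3))
    (h3 : ∀ x i, (fun l => (D3 x l : A g 1).1.fst i) = f3 g (fun _ => (x : A g 1).1.fst i))
    (h3' : ∀ x i, (fun l => (D3 x l : A g 1).1.snd i) = f3 g (fun _ => (x : A g 1).1.snd i)) :
    ∀ x, D3 x = 0 → x = 0 := by
  intro x hx
  refine Subtype.ext (A_ext (fun i j => ?_) (fun i j => ?_))
  · by_cases hj : j = 2
    · subst hj
      have e1 := h3 x i
      rw [hx] at e1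
      have e2 := congrArg (ent p3) e1
      rw [f3, ent3_of3] at e2
      obtain ⟨k, hk⟩ := rows_mem (kgen hg) (fmul hg) (x : A g 1).2.1 i
      exact ex3 (P := 0) (A := k - 2) (BiI322.fil hg) (BiI322.bi hg).Dinj hk.2.2.1 (e2.symm.trans rfl)
    · exact (mem_Pv.1 x.2 i j (by fin_cases j <;> first | exact absurd rfl hj | decide)).1
  · by_cases hj : j = 2
    · subst hj
      have e1 := h3' x i
      rw [hx] at e1
      have e2 := congrArg (ent p3) e1
      rw [f3, ent3_of3] at e2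
      obtain ⟨k, hk⟩ := rows_mem (kgen hg) (fmul hg) (x : A g 1).2.2 i
      exact ex3 (P := 1) (A := k - 2) (BiI322.fil hg) (BiI322.bi hg).Dinj hk.2.2.1 (e2.symm.trans rfl)
    · exact (mem_Pv.1 x.2 i j (by fin_cases j <;> first | exact absurd rfl hj | decide)).2

/-- injectivity of `D3` -/
theorem inj3 (hg : Gen g) (D3 : Pv g 1 2 →ₗ[A g 1] (Fin 2 → Pv g 1 3))
    (h3 : ∀ x i, (fun l => (D3 x l : A g 1).1.fst i) = f3 g (fun _ => (x : A g 1).1.fst i))
    (h3' : ∀ x i, (fun l => (D3 x l : A g 1).1.snd i) = f3 g (fun _ => (x : A g 1).1.snd i)) :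
    Function.Injective D3 :=
  LinearMap.ker_eq_bot.1 (LinearMap.ker_eq_bot'.2 (inj3' hg D3 h3 h3'))

end Crest.Agent.R186.W1A322
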