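import Crest.Agent.R186.W0def_93
import Crest.Agent.R186.W1A_322

/-!
Row 186, S0281 base, leaf B281.W0, `s = 0` (helper881): exactness of
`(Pv g 0 3)^2 --d1--> Pv g 0 0 --eps0--> W g 0 --> 0`.
-/

set_option autoImplicit false
set_option linter.unusedSectionVars false

open Matrix

namespace Crest.Agent.R186.B281.W0eps881

open W4a822 WRes322 W1A322

variable {K : Type} [Field K] {g : K}

/-! ### `res` -/

theorem X_dl (i : Fin 2) : X i (dl K) ∈ NN K := by
  rw [dl, X_single]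
  refine Finsupp.single_mem_supported K _ ?_
  fin_cases i <;> simp [ev]

theorem res_mul_X {k P : ℤ} {p : Op K} (hp : p ∈ B281.Fil g k P) (i : Fin 2) :
    res (p * X i) = 0 := NN_apply (Fil_NN hp (X_dl i))

theorem cq_neg_one (hg : Gen g) : cq g (-1) = 1 := by
  have := cq_pred hg 0
  rwa [cq_zero, mul_zero, add_zero, zero_sub] at this

theorem res_XD (hg : Gen g) (i : Fin 2) : res ((X i : Op K) * D g i) = 1 := by
  rw [res, Module.End.mul_apply, dl, D_single, X_single, sub_add_cancel]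
  have : co i ((-1 : ℤ), (-1 : ℤ)) = -1 := by fin_cases i <;> rfl
  rw [this, cq_neg_one hg, mul_one, Finsupp.single_eq_same]

theorem res_XD_ne {i j : Fin 2} (h : i ≠ j) : res ((X i : Op K) * D g j) = 0 := by
  rw [res, Module.End.mul_apply, dl, D_single, X_single]
  refine Finsupp.single_eq_of_ne ?_
  fin_cases i <;> fin_cases j <;> simp_all [ev]

theorem res_neg (T : Op K) : res (-T) = -res T := rfl

theorem res_sub (S T : Op K) : res (S - T) = res S - res T := rfl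

theorem res_c1 (hg : Gen g) (k i : Fin 2) : res (W0.c1 g k i) = 0 := by
  fin_cases k <;> fin_cases i
  · show res (X 0 * D g 0 - 1) = 0
    rw [res_sub, res_XD hg, res_one, sub_self]
  · exact res_XD_ne (by decide)
  · exact res_XD_ne (by decide)
  · show res (X 1 * D g 1 - 1) = 0
    rw [res_sub, res_XD hg, res_one, sub_self]

/-! ### lattices of rows -/

theorem LT3_row0 {c e : ℤ} {r : Fin 2 → Fin 7 → Op K} (h : LT g 0 (Fin 2) 3 c e r) :
    Row (rX K) (FF g) e c (c - 1) (ent p3 r) :=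
  ⟨fun k i => by
    fin_cases i
    · have := (h k).1.2.2.2.1.1
      rw [sub_zero] at this
      exact this
    · have := (h k).1.2.2.2.1.2.1
      rw [sub_zero] at this
      exact this, fun k => by
      have := (h k).1.2.2.2.1.2.2
      rw [sub_zero] at this
      exact this⟩

theorem LT3_of0 {c e : ℤ} {u : Fin 2 → Fin 2 → Op K} (h : Row (rX K) (FF g) e c (c - 1) u) :
    LT g 0 (Fin 2) 3 c e (of3 u) := fun k => by
  refine ⟨⟨zero_mem _, zero_mem _, zero_mem _, ⟨?_, ?_, ?_⟩, zero_mem _, zero_mem _, ?_⟩,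
    fun j hj => ?_⟩
  · rw [sub_zero]; exact h.1 k 0
  · rw [sub_zero]; exact h.1 k 1
  · rw [sub_zero]; exact h.2 k
  · show (0 : Op K) * X 0 + 0 * X 1 ∈ _
    rw [zero_mul, zero_mul, add_zero]; exact zero_mem _
  · fin_cases j
    exacts [rfl, rfl, rfl, absurd rfl hj, absurd rfl hj, rfl, rfl]

noncomputable def of0 (w : Op K) : Unit → Fin 7 → Op K := fun _ => ![w, 0, 0, 0, 0, 0, 0]

theorem LT0_mem {c e : ℤ} {r : Unit → Fin 7 → Op K} (h : LT g 0 Unit 0 c e r) :
    r () 0 ∈ FF g e c := (h ()).1.1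

theorem LT0_eq {c e : ℤ} {r : Unit → Fin 7 → Op K} (h : LT g 0 Unit 0 c e r) :
    of0 (r () 0) = r := by
  funext k j
  have h' := (h k).2 j
  fin_cases j
  exacts [rfl, (h' (by decide)).symm, (h' (by decide)).symm, (h' (by decide)).symm,
    (h' (by decide)).symm, (h' (by decide)).symm, (h' (by decide)).symm]

/-- the differential on rows -/
noncomputable def f1 (g : K) (r : Fin 2 → Fin 7 → Op K) : Unit → Fin 7 → Op K :=
  of0 (d1 (rX K) (rD g) (ent p3 r))

/-- the condition in degree `0` -/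
def C0 (z : Unit → Fin 7 → Op K) : Prop := res (z () 0) = 0

theorem ex0_zero (hg : Gen g) {c B : ℤ} {T : Op K} (hT : T ∈ B281.Fil g c 0) (h : res T = 0) :
    ∃ u, Row (rX K) (FF g) 0 c B u ∧ d1 (rX K) (rD g) u = T := by
  obtain ⟨t, p, hp, q, hq, e⟩ := BiI322.X1r0 hg hT
  have ht : t = 0 := by
    have h1 : res T = t + res (p * X 0) + res (q * X 1) := by
      rw [e, res_add, res_add, res_smul, res_one, mul_one]
    rw [res_mul_X hp, res_mul_X hq, add_zero, add_zero, h] at h1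
    exact h1.symm
  obtain ⟨u, hu, hu2⟩ := ex0 (BiI322.fil hg) (P := 0) (A := c) (B := B) (p := p) (q := q)
    (by simpa using hp) (by simpa using hq)
  refine ⟨u, hu, hu2.trans ?_⟩
  rw [e, ht, zero_smul, zero_add]
  rfl

theorem onto0 (hg : Gen g) : OntoO g 0 3 0 (f1 g) C0 0 := by
  intro c _ z hz hC
  obtain ⟨u, hu, hu2⟩ := ex0_zero hg (LT0_mem hz) hC (B := c - 1)
  refine ⟨of3 u, LT3_of0 hu, ?_⟩
  rw [f1, ent3_of3, hu2, LT0_eq hz]

theorem onto1 (hg : Gen g) : OntoO g 0 3 0 (f1 g) (fun _ => True) 1 := by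
  intro c _ z hz hC
  obtain ⟨u, hu, hu2⟩ := ex0_pos (BiI322.fil hg) (B := c - 1) le_rfl (LT0_mem hz)
  refine ⟨of3 u, LT3_of0 hu, ?_⟩
  rw [f1, ent3_of3, hu2, LT0_eq hz]

theorem ontoK (hg : Gen g) {e : ℤ} (he : 0 ≤ e) (he1 : e ≤ 1)
    (C : (Unit → Fin 7 → Op K) → Prop)
    (hC : ∀ c z, LT g 0 Unit 0 c e z → C z → ∃ u, Row (rX K) (FF g) e c (c - 1) u ∧
      d1 (rX K) (rD g) u = z () 0) : OntoK g 0 3 0 (f1 g) C e := by
  intro a b hab z z' hz hz' hzz hc hc'
  obtain ⟨u0, hu0, e0⟩ := hC a z hz hc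
  obtain ⟨u1, hu1, e1⟩ := hC a z' hz' hc'
  have hm : ∀ i : Fin 2, ∃ y, Row (rX K) (FF g) e a (a - 1) y ∧
      d1 (rX K) (rD g) y = (![z () 0, z' () 0] : Fin 2 → Op K) i := by
    intro i
    fin_cases i
    · exact ⟨u0, hu0, e0⟩
    · exact ⟨u1, hu1, e1⟩
  have hm' : Lv (lX K) (![z () 0, z' () 0] : Fin 2 → Op K) ∈ FF g (e + 1) b := LT0_mem hzz
  obtain ⟨y, hy, hy', hye⟩ := vert0 (BiI322.bi hg) hg.1 he he1 (B' := b - 1) (by omega)
    (by omega) (by omega) (by omega) (by omega) hm hm'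
  refine ⟨of3 (y 0), of3 (y 1), LT3_of0 (hy 0), LT3_of0 (hy 1), ?_, ?_, ?_⟩
  · have h2 := LT3_of0 (c := b) (e := e + 1) hy'
    have h3 : of3 (Lw (lX K) y) = xx (of3 (y 0)) (of3 (y 1)) := by
      funext k j
      fin_cases j
      exacts [(by show (0 : Op K) = X 1 * 0 - X 0 * 0; simp), (by show (0 : Op K) = X 1 * 0 - X 0 * 0; simp),
        (by show (0 : Op K) = X 1 * 0 - X 0 * 0; simp), rfl, rfl,
        (by show (0 : Op K) = X 1 * 0 - X 0 * 0; simp), (by show (0 : Op K) = X 1 * 0 - X 0 * 0; simp)]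
    rw [← h3]; exact h2
  · rw [f1, ent3_of3, hye 0]; exact LT0_eq hz
  · rw [f1, ent3_of3, hye 1]; exact LT0_eq hz'

/-! ### the rows of `d1` -/

theorem mul_single_apply' (M : Mat K) (i j : Fin 7) (T : Op K) (l : Fin 7) :
    (M * Matrix.single i j T) l j = M l i * T := by
  rw [Matrix.mul_apply, Finset.sum_eq_single i]
  · rw [Matrix.single_apply_same]
  · intro b _ hb
    rw [Matrix.single_apply_of_row_ne (Ne.symm hb), mul_zero]
  · intro h
    exact absurd (Finset.mem_univ i) h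

theorem m1_mul (M : Mat K) (k : Fin 2) (l : Fin 7) :
    (M * (Matrix.single 3 0 (W0.c1 g k 0) + Matrix.single 4 0 (W0.c1 g k 1)) : Mat K) l 0 =
      M l 3 * W0.c1 g k 0 + M l 4 * W0.c1 g k 1 := by
  rw [Matrix.mul_add, Matrix.add_apply, mul_single_apply', mul_single_apply']

theorem d1_formula (r : Fin 2 → Fin 7 → Op K) :
    r 0 3 * W0.c1 g 0 0 + r 0 4 * W0.c1 g 0 1 + (r 1 3 * W0.c1 g 1 0 + r 1 4 * W0.c1 g 1 1) =
      f1 g r () 0 := by
  show r 0 3 * (X 0 * D g 0 - 1) + r 0 4 * (X 1 * D g 0) +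
    (r 1 3 * (X 0 * D g 1) + r 1 4 * (X 1 * D g 1 - 1)) =
    (r 0 3 * X 0 + r 0 4 * X 1) * D g 0 - r 0 3 + ((r 1 3 * X 0 + r 1 4 * X 1) * D g 1 - r 1 4)
  simp only [mul_sub, add_mul, mul_one, mul_assoc]
  abel

theorem d1_fst (hg : Gen g) (y : Fin 2 → Pv g 0 3) (i : Fin 7) :
    (W0.d1 hg y : A g 0).1.fst i 0 = f1 g (fun l => (y l : A g 0).1.fst i) () 0 := by
  have h : (W0.d1 hg y : A g 0) = (y 0 : A g 0) * W0.m1 hg 0 + (y 1 : A g 0) * W0.m1 hg 1 := by
    rw [W0.d1_coe, Fin.sum_univ_two]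
  rw [h, ← d1_formula]
  show ((y 0 : A g 0).1.fst * (Matrix.single 3 0 (W0.c1 g 0 0) + Matrix.single 4 0 (W0.c1 g 0 1)) : Mat K) i 0 +
    ((y 1 : A g 0).1.fst * (Matrix.single 3 0 (W0.c1 g 1 0) + Matrix.single 4 0 (W0.c1 g 1 1)) : Mat K) i 0 = _
  rw [m1_mul, m1_mul]

theorem d1_snd (hg : Gen g) (y : Fin 2 → Pv g 0 3) (i : Fin 7) :
    (W0.d1 hg y : A g 0).1.snd i 0 = f1 g (fun l => (y l : A g 0).1.snd i) () 0 := by
  have h : (W0.d1 hg y : A g 0) = (y 0 : A g 0) * W0.m1 hg 0 + (y 1 : A g 0) * W0.m1 hg 1 := by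
    rw [W0.d1_coe, Fin.sum_univ_two]
  have hs : ∀ k, ((y k : A g 0) * W0.m1 hg k).1.snd i 0 =
      (y k : A g 0).1.snd i 3 * W0.c1 g k 0 + (y k : A g 0).1.snd i 4 * W0.c1 g k 1 := fun k => by
    rw [snd_mulA]
    show ((y k : A g 0).1.fst * 0 + (y k : A g 0).1.snd *
      (Matrix.single 3 0 (W0.c1 g k 0) + Matrix.single 4 0 (W0.c1 g k 1)) : Mat K) i 0 = _
    rw [Matrix.mul_zero, zero_add, m1_mul]
  rw [h, ← d1_formula, ← hs 0, ← hs 1]
  rfl

theorem supA0 {v : Fin 5} (x : Pv g 0 v) : SupA g 0 v (x : A g 0) := fun i j hj => mem_Pv.1 x.2 i j hj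

/-- the augmentation in coordinates -/
theorem eps0_coord (s : ℤ) (x : Pv g s 0) (i : Fin 7) : (W0.eps0 g s x : W g s) i = res ((x : A g s).1.fst i 0) := by
  show ∑ m, res ((x : A g s).1.fst i m) * (Pi.single 0 1 : Fin 7 → K) m = _
  rw [Finset.sum_eq_single 0]
  · rw [Pi.single_eq_same, mul_one]
  · intro b _ hb
    rw [Pi.single_eq_of_ne hb, mul_zero]
  · intro h
    exact absurd (Finset.mem_univ _) h

theorem m1_wv (hg : Gen g) (k : Fin 2) : (W0.m1 hg k : A g 0) • M2.wv g 0 0 = 0 := by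
  funext i
  refine (eps0_coord 0 (W0.m1 hg k) i).trans ?_
  show res ((Matrix.single 3 0 (W0.c1 g k 0) + Matrix.single 4 0 (W0.c1 g k 1) : Mat K) i 0) = 0
  rw [Matrix.add_apply, res_add]
  have h : ∀ (a : Fin 7) (T : Op K), res T = 0 → res ((Matrix.single a 0 T : Mat K) i 0) = 0 := by
    intro a T hT
    by_cases h : a = i
    · subst h
      rw [Matrix.single_apply_same, hT]
    · rw [Matrix.single_apply_of_row_ne h, res_zero]
  rw [h 3 _ (res_c1 hg k 0), h 4 _ (res_c1 hg k 1), add_zero]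

theorem eps0_d1 (hg : Gen g) (y : Fin 2 → Pv g 0 3) : W0.eps0 g 0 (W0.d1 hg y) = 0 := by
  rw [W0.eps0_apply, W0.d1_coe, Fin.sum_univ_two, add_smul, mul_smul, mul_smul, m1_wv, m1_wv,
    smul_zero, smul_zero, add_zero]

/-- **exactness at `Pv g 0 0`** -/
theorem e10 (hg : Gen g) : Function.Exact (W0.d1 hg) (W0.eps0 g 0) := by
  intro x
  constructor
  · intro hx
    have hres : ∀ i, res ((x : A g 0).1.fst i 0) = 0 := fun i => by
      rw [← eps0_coord, hx]
      rfl
    obtain ⟨Y, hY, e, e'⟩ := lift_exact (kgen hg) (fmul hg) (f1 g) C0 (fun _ => True)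
      (onto0 hg) (ontoK hg le_rfl zero_le_one C0 fun c z hz hC => ex0_zero hg (LT0_mem hz) hC)
      (onto1 hg) (ontoK hg zero_le_one le_rfl (fun _ => True) fun c z hz _ =>
        ex0_pos (BiI322.fil hg) le_rfl (LT0_mem hz))
      (fun _ : Unit => (x : A g 0)) (fun _ => supA0 x) (fun i => hres i) (fun _ => trivial)
    refine ⟨fun l => ⟨Y l, mem_Pv.2 (hY l)⟩, Subtype.ext (A_ext (fun i j => ?_) (fun i j => ?_))⟩
    · by_cases hj : j = 0
      · subst hj
        rw [d1_fst]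
        exact congrFun (congrFun (e i) ()) 0
      · have hb : blk j ≠ 0 := by fin_cases j <;> first | exact absurd rfl hj | decide
        rw [(mem_Pv.1 (W0.d1 hg _).2 i j hb).1, (mem_Pv.1 x.2 i j hb).1]
    · by_cases hj : j = 0
      · subst hj
        rw [d1_snd]
        exact congrFun (congrFun (e' i) ()) 0
      · have hb : blk j ≠ 0 := by fin_cases j <;> first | exact absurd rfl hj | decide
        rw [(mem_Pv.1 (W0.d1 hg _).2 i j hb).2, (mem_Pv.1 x.2 i j hb).2]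
  · rintro ⟨y, rfl⟩
    exact eps0_d1 hg y

/-! ### surjectivity, both `s` -/

/-- the matrix with first column `w` -/
noncomputable def colw (w : Fin 7 → K) : Mat K := fun l m => if m = 0 then w l • (1 : Op K) else 0

theorem vecMul_colw (w : Fin 7 → K) (v : Fin 7 → Op K) :
    v ᵥ* (colw w) = Pi.single 0 (∑ l, w l • v l) := by
  funext j
  by_cases hj : j = 0
  · subst hj
    rw [Pi.single_eq_same]
    show ∑ l, v l * (if (0 : Fin 7) = 0 then w l • (1 : Op K) else 0) = _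
    refine Finset.sum_congr rfl fun l _ => ?_
    rw [if_pos rfl, mul_smul_comm, mul_one]
  · rw [Pi.single_eq_of_ne hj]
    show ∑ l, v l * (if j = 0 then w l • (1 : Op K) else 0) = _
    refine Finset.sum_eq_zero fun l _ => ?_
    rw [if_neg hj, mul_zero]

theorem pres_colw {s : ℤ} (hs : 0 ≤ s) (w : Fin 7 → K) : Pres g s 0 (colw w) := by
  intro k P v hv
  rw [vecMul_colw, add_zero]
  refine M2.lat_single 0 (Or.inl rfl) (fun _ => ?_) (fun h => absurd h (by decide))
    (fun h => absurd h (by decide))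
  obtain ⟨v0, v1, v2, ⟨v3, v4, _⟩, v5, v6, _⟩ := hv
  refine Submodule.sum_mem _ fun i _ => Submodule.smul_mem _ _ ?_
  fin_cases i
  · exact v0
  · exact Fil_mono g (by omega) v1
  · exact Fil_mono g (by omega) v2
  · exact Fil_mono g (by omega) v3
  · exact Fil_mono g (by omega) v4
  · exact v5
  · exact v6

/-- the element with first column `w` -/
noncomputable def colE (g : K) (s : ℤ) (hs : 0 ≤ s) (w : Fin 7 → K) : Pv g s 0 :=
  ⟨ofM (colw w) 0 (pres_colw hs w) (Pres.zero g s 1), mem_Pv.2 fun r j hj =>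
    ⟨if_neg fun h => hj (by rw [h]; rfl), rfl⟩⟩

/-- **the augmentation is onto, both `s`** -/
theorem eps_surj (g : K) {s : ℤ} (hs : 0 ≤ s) : Function.Surjective (W0.eps0 g s) := by
  intro w
  refine ⟨colE g s hs w, ?_⟩
  funext i
  refine (eps0_coord s _ i).trans ?_
  show res (if (0 : Fin 7) = 0 then w i • (1 : Op K) else 0) = w i
  rw [if_pos rfl, res_smul, res_one, mul_one]

/-- **the augmentation is onto, `s = 0`** -/
theorem heps (g : K) : Function.Surjective (W0.eps0 g 0) := eps_surj g le_rfl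

end Crest.Agent.R186.B281.W0eps881
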