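import Crest.Agent.R186.W1b_952
import Crest.Agent.R186.W4a_822
import Crest.Agent.R186.KGen_693

/-!
Row 186, S0281, base, leaf B281.W1 (helper952): exactness of the resolution of `W g 1` over `A g 1`.
-/

set_option autoImplicit false
set_option linter.unusedSectionVars false

namespace Crest.Agent.R186.W1

open Crest.Agent.R186.B281
open Crest.Agent.R186.W4a822 (LT xx OntoO OntoK SupA FMul lift_exact blk7)

variable {K : Type} [Field K]

/-! ### rows -/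

/-- the entries at `K₁(-1)` -/
def ext3 (y : Fin 2 → Fin 7 → Op K) : Q (Op K) := fun k => ![y k 3, y k 4]

/-- the entries at `K₂` -/
def ext4 (y : Fin 2 → Fin 7 → Op K) : Q (Op K) := fun k => ![y k 5, y k 6]

/-- rows supported at `K₁(-1)` -/
noncomputable def emb3 (u : Q (Op K)) : Fin 2 → Fin 7 → Op K := fun k => ![0, 0, 0, u k 0, u k 1, 0, 0]

/-- rows supported at `K₂` -/
noncomputable def emb4 (u : Q (Op K)) : Fin 2 → Fin 7 → Op K := fun k => ![0, 0, 0, 0, 0, u k 0, u k 1]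

/-- rows supported at `O(-2)` -/
noncomputable def emb2 (w : Op K) : Fin 7 → Op K := ![0, 0, w, 0, 0, 0, 0]

/-- rows supported at `O(0)` -/
noncomputable def emb0 (w : Op K) : Fin 7 → Op K := ![w, 0, 0, 0, 0, 0, 0]

theorem ext3_emb3 (u : Q (Op K)) : ext3 (emb3 u) = u := by
  funext k i
  fin_cases i <;> rfl

theorem ext4_emb4 (u : Q (Op K)) : ext4 (emb4 u) = u := by
  funext k i
  fin_cases i <;> rfl

theorem emb3_ext3 {z : Fin 2 → Fin 7 → Op K} (h : ∀ l j, blk7 j ≠ 3 → z l j = 0) :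
    emb3 (ext3 z) = z := by
  funext k j
  fin_cases j
  exacts [(h k 0 (by decide)).symm, (h k 1 (by decide)).symm, (h k 2 (by decide)).symm, rfl, rfl,
    (h k 5 (by decide)).symm, (h k 6 (by decide)).symm]

theorem emb4_ext4 {z : Fin 2 → Fin 7 → Op K} (h : ∀ l j, blk7 j ≠ 4 → z l j = 0) :
    emb4 (ext4 z) = z := by
  funext k j
  fin_cases j
  exacts [(h k 0 (by decide)).symm, (h k 1 (by decide)).symm, (h k 2 (by decide)).symm,
    (h k 3 (by decide)).symm, (h k 4 (by decide)).symm, rfl, rfl]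

theorem emb2_ext {z : Fin 7 → Op K} (h : ∀ j, blk7 j ≠ 2 → z j = 0) : emb2 (z 2) = z := by
  funext j
  fin_cases j
  exacts [(h 0 (by decide)).symm, (h 1 (by decide)).symm, rfl, (h 3 (by decide)).symm,
    (h 4 (by decide)).symm, (h 5 (by decide)).symm, (h 6 (by decide)).symm]

theorem emb0_ext {z : Fin 7 → Op K} (h : ∀ j, blk7 j ≠ 0 → z j = 0) : emb0 (z 0) = z := by
  funext j
  fin_cases j
  exacts [rfl, (h 1 (by decide)).symm, (h 2 (by decide)).symm, (h 3 (by decide)).symm,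
    (h 4 (by decide)).symm, (h 5 (by decide)).symm, (h 6 (by decide)).symm]

variable {g : K}

theorem zcc (k P : ℤ) : (0 : Op K) * X 0 + 0 * X 1 ∈ Fil g k P := by
  rw [zero_mul, zero_mul, add_zero]
  exact zero_mem _

theorem lat3 {c e : ℤ} {u : Q (Op K)} (hu : u ∈ L2 (Fil g) X c e) :
    LT g 1 (Fin 2) 3 c e (emb3 u) := fun k => by
  refine ⟨⟨zero_mem _, zero_mem _, zero_mem _, ⟨hu.1 k 0, hu.1 k 1, ?_⟩, zero_mem _, zero_mem _,
    zcc _ _⟩, fun j hj => ?_⟩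
  · have := hu.2 k
    rwa [show c - 2 = c - 1 - 1 by ring] at this
  · fin_cases j
    exacts [rfl, rfl, rfl, absurd rfl hj, absurd rfl hj, rfl, rfl]

theorem lat4 {c e : ℤ} {u : Q (Op K)} (hu : u ∈ L1 (Fil g) X c e) :
    LT g 1 (Fin 2) 4 c e (emb4 u) := fun k => by
  refine ⟨⟨zero_mem _, zero_mem _, zero_mem _, ⟨zero_mem _, zero_mem _, zcc _ _⟩, hu.1 k 0,
    hu.1 k 1, hu.2 k⟩, fun j hj => ?_⟩
  fin_cases j
  exacts [rfl, rfl, rfl, rfl, rfl, absurd rfl hj, absurd rfl hj]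

theorem lat2 {c e : ℤ} {w : Op K} (hw : w ∈ L3 (Fil g) c e) :
    LT g 1 Unit 2 c e (fun _ => emb2 w) := fun k => by
  refine ⟨⟨zero_mem _, zero_mem _, hw, ⟨zero_mem _, zero_mem _, zcc _ _⟩, zero_mem _,
    zero_mem _, zcc _ _⟩, fun j hj => ?_⟩
  fin_cases j
  exacts [rfl, rfl, absurd rfl hj, rfl, rfl, rfl, rfl]

theorem lat0 {c e : ℤ} {w : Op K} (hw : w ∈ L0 (Fil g) c e) :
    LT g 1 Unit 0 c e (fun _ => emb0 w) := fun k => by
  refine ⟨⟨hw, zero_mem _, zero_mem _, ⟨zero_mem _, zero_mem _, zcc _ _⟩, zero_mem _,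
    zero_mem _, zcc _ _⟩, fun j hj => ?_⟩
  fin_cases j
  exacts [absurd rfl hj, rfl, rfl, rfl, rfl, rfl, rfl]

theorem of_lat3 {c e : ℤ} {z : Fin 2 → Fin 7 → Op K} (h : LT g 1 (Fin 2) 3 c e z) :
    ext3 z ∈ L2 (Fil g) X c e := by
  refine ⟨fun k i => ?_, fun k => ?_⟩
  · obtain ⟨v0, v1, v2, ⟨v3, v4, v5⟩, v6⟩ := (h k).1
    fin_cases i
    exacts [v3, v4]
  · obtain ⟨v0, v1, v2, ⟨v3, v4, v5⟩, v6⟩ := (h k).1
    rwa [show c - 1 - 1 = c - 2 by ring] at v5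

theorem of_lat4 {c e : ℤ} {z : Fin 2 → Fin 7 → Op K} (h : LT g 1 (Fin 2) 4 c e z) :
    ext4 z ∈ L1 (Fil g) X c e := by
  refine ⟨fun k i => ?_, fun k => ?_⟩
  · obtain ⟨v0, v1, v2, v3, v6, v7, v8⟩ := (h k).1
    fin_cases i
    exacts [v6, v7]
  · obtain ⟨v0, v1, v2, v3, v6, v7, v8⟩ := (h k).1
    exact v8

theorem of_lat0 {c e : ℤ} {z : Unit → Fin 7 → Op K} (h : LT g 1 Unit 0 c e z) :
    z () 0 ∈ L0 (Fil g) c e := (h ()).1.1

theorem ext3_xx (z z' : Fin 2 → Fin 7 → Op K) :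
    ext3 (xx z z') = lm (X 1) (ext3 z) - lm (X 0) (ext3 z') := by
  funext k i
  fin_cases i <;> rfl

theorem ext4_xx (z z' : Fin 2 → Fin 7 → Op K) :
    ext4 (xx z z') = lm (X 1) (ext4 z) - lm (X 0) (ext4 z') := by
  funext k i
  fin_cases i <;> rfl

/-! ### the row maps -/

/-- `d3` on rows -/
noncomputable def f3 (g : K) (y : Unit → Fin 7 → Op K) : Fin 2 → Fin 7 → Op K :=
  emb3 (D3 K X (D g) (y () 2))

/-- `d2` on rows -/
noncomputable def f2 (g : K) (y : Fin 2 → Fin 7 → Op K) : Fin 2 → Fin 7 → Op K :=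
  emb4 (D2 g X (D g) (ext3 y))

/-- `d1` on rows -/
noncomputable def f1 (g : K) (y : Fin 2 → Fin 7 → Op K) : Unit → Fin 7 → Op K :=
  fun _ => emb0 (D1 K X (D g) (ext4 y))

section
variable (hg : Gen g)
include hg

theorem fmul : FMul g := fun hT hS => FD757.Fil_mul hg hT hS

theorem o3 (e : ℤ) : OntoO g 1 2 3 (f3 g) (fun z => D2 g X (D g) (ext3 z) = 0) e := by
  intro c _ z hz h0
  obtain ⟨w, hw, e1⟩ := E2 (pb hg) (of_lat3 hz) h0
  refine ⟨fun _ => emb2 w, lat2 hw, ?_⟩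
  show emb3 (D3 K X (D g) w) = z
  rw [e1]
  exact emb3_ext3 fun l j hj => (hz l).2 j hj

theorem k3 (e : ℤ) : OntoK g 1 2 3 (f3 g) (fun z => D2 g X (D g) (ext3 z) = 0) e := by
  intro a b hab z z' hz hz' hzz h0 h0'
  have ha : a = 2 := by omega
  subst ha
  have h1 := of_lat3 hzz
  rw [ext3_xx] at h1
  obtain ⟨y0, hy0, y1, hy1, hy, e1, e2⟩ := V2 (pb hg) (b := b) (e := e) (by omega) (of_lat3 hz)
    (of_lat3 hz') h1 h0 h0'
  refine ⟨fun _ => emb2 y0, fun _ => emb2 y1, lat2 hy0, lat2 hy1, ?_, ?_, ?_⟩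
  · have h2 := lat2 (g := g) hy
    have h3 : xx (fun _ : Unit => emb2 y0) (fun _ => emb2 y1) =
        fun _ => emb2 (X 1 * y0 - X 0 * y1) := by
      funext l j
      have hz0 : X 1 * (0 : Op K) - X 0 * 0 = 0 := by rw [mul_zero, mul_zero, sub_zero]
      fin_cases j
      exacts [hz0, hz0, rfl, hz0, hz0, hz0, hz0]
    rw [h3]
    exact h2
  · show emb3 (D3 K X (D g) y0) = z
    rw [e1]
    exact emb3_ext3 fun l j hj => (hz l).2 j hj
  · show emb3 (D3 K X (D g) y1) = z'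
    rw [e2]
    exact emb3_ext3 fun l j hj => (hz' l).2 j hj

theorem o2 {e : ℤ} (he : 0 ≤ e) (he1 : e ≤ 1) :
    OntoO g 1 3 4 (f2 g) (fun z => D1 K X (D g) (ext4 z) = 0) e := by
  intro c _ z hz h0
  obtain ⟨w, hw, e1⟩ := E1 (pb hg) he he1 (of_lat4 hz) h0
  refine ⟨emb3 w, lat3 hw, ?_⟩
  show emb4 (D2 g X (D g) (ext3 (emb3 w))) = z
  rw [ext3_emb3, e1]
  exact emb4_ext4 fun l j hj => (hz l).2 j hj

theorem xx3 (y0 y1 : Q (Op K)) : xx (emb3 y0) (emb3 y1) = emb3 (lm (X 1) y0 - lm (X 0) y1) := by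
  funext l j
  have hz0 : X 1 * (0 : Op K) - X 0 * 0 = 0 := by rw [mul_zero, mul_zero, sub_zero]
  fin_cases j
  exacts [hz0, hz0, hz0, rfl, rfl, hz0, hz0]

theorem xx4 (y0 y1 : Q (Op K)) : xx (emb4 y0) (emb4 y1) = emb4 (lm (X 1) y0 - lm (X 0) y1) := by
  funext l j
  have hz0 : X 1 * (0 : Op K) - X 0 * 0 = 0 := by rw [mul_zero, mul_zero, sub_zero]
  fin_cases j
  exacts [hz0, hz0, hz0, hz0, hz0, rfl, rfl]

theorem k2 {e : ℤ} (he : 0 ≤ e) (he1 : e ≤ 1) :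
    OntoK g 1 3 4 (f2 g) (fun z => D1 K X (D g) (ext4 z) = 0) e := by
  intro a b hab z z' hz hz' hzz h0 h0'
  have ha : a = 2 := by omega
  subst ha
  have h1 := of_lat4 hzz
  rw [ext4_xx] at h1
  obtain ⟨y0, hy0, y1, hy1, hy, e1, e2⟩ := V1 (pb hg) (b := b) (e := e) (by omega) he he1
    (of_lat4 hz) (of_lat4 hz') h1 h0 h0'
  refine ⟨emb3 y0, emb3 y1, lat3 hy0, lat3 hy1, ?_, ?_, ?_⟩
  · rw [xx3 hg]
    exact lat3 hy
  · show emb4 (D2 g X (D g) (ext3 (emb3 y0))) = z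
    rw [ext3_emb3, e1]
    exact emb4_ext4 fun l j hj => (hz l).2 j hj
  · show emb4 (D2 g X (D g) (ext3 (emb3 y1))) = z'
    rw [ext3_emb3, e2]
    exact emb4_ext4 fun l j hj => (hz' l).2 j hj

theorem o1 {e : ℤ} (he : 0 ≤ e) (he1 : e ≤ 1) :
    OntoO g 1 4 0 (f1 g) (fun z => e = 0 → res (z () 0) = 0) e := by
  intro c _ z hz h0
  have key : ∃ u ∈ L1 (Fil g) X c e, D1 K X (D g) u = z () 0 := by
    rcases he.lt_or_eq with h3 | h3
    · exact E0p (pb hg) (by omega) (of_lat0 hz)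
    · subst h3
      exact E00 (pb hg) (of_lat0 hz) (h0 rfl)
  obtain ⟨w, hw, e1⟩ := key
  refine ⟨emb4 w, lat4 hw, ?_⟩
  funext l
  show emb0 (D1 K X (D g) (ext4 (emb4 w))) = z ()
  rw [ext4_emb4, e1]
  exact emb0_ext fun j hj => (hz ()).2 j hj

theorem k1 {e : ℤ} (he : 0 ≤ e) (he1 : e ≤ 1) :
    OntoK g 1 4 0 (f1 g) (fun z => e = 0 → res (z () 0) = 0) e := by
  intro a b hab z z' hz hz' hzz h0 h0'
  have ha : a = 2 := by omega
  subst ha
  have h1 := of_lat0 hzz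
  obtain ⟨y0, hy0, y1, hy1, hy, e1, e2⟩ := V0 (pb hg) (b := b) (e := e) (by omega) (by omega) he
    he1 (of_lat0 hz) (of_lat0 hz') h1 h0 h0'
  refine ⟨emb4 y0, emb4 y1, lat4 hy0, lat4 hy1, ?_, ?_, ?_⟩
  · rw [xx4 hg]
    exact lat4 hy
  · funext l
    show emb0 (D1 K X (D g) (ext4 (emb4 y0))) = z ()
    rw [ext4_emb4, e1]
    exact emb0_ext fun j hj => (hz ()).2 j hj
  · funext l
    show emb0 (D1 K X (D g) (ext4 (emb4 y1))) = z' ()
    rw [ext4_emb4, e2]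
    exact emb0_ext fun j hj => (hz' ()).2 j hj

end

/-! ### the maps on rows -/

theorem mul_row (N M : Mat K) (i j : Fin 7) : (N * M) i j = N i 0 * M 0 j + N i 1 * M 1 j +
    N i 2 * M 2 j + N i 3 * M 3 j + N i 4 * M 4 j + N i 5 * M 5 j + N i 6 * M 6 j := by
  rw [Matrix.mul_apply, Fin.sum_univ_seven]

theorem mul_mat1 (N : Mat K) (a b : Op K) (i : Fin 7) :
    (N * mat1 a b) i 0 = N i 5 * a + N i 6 * b := by
  rw [mul_row]
  show N i 0 * 0 + N i 1 * 0 + N i 2 * 0 + N i 3 * 0 + N i 4 * 0 + N i 5 * a + N i 6 * b = _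
  simp only [mul_zero, zero_add]

theorem s5 (a b : Op K) : (Pi.single 5 a + Pi.single 6 b : Fin 7 → Op K) 5 = a := by
  rw [Pi.add_apply, Pi.single_eq_same, Pi.single_eq_of_ne (by decide), add_zero]

theorem s6 (a b : Op K) : (Pi.single 5 a + Pi.single 6 b : Fin 7 → Op K) 6 = b := by
  rw [Pi.add_apply, Pi.single_eq_same, Pi.single_eq_of_ne (by decide), zero_add]

theorem s3 (a b : Op K) : (Pi.single 3 a + Pi.single 4 b : Fin 7 → Op K) 3 = a := by
  rw [Pi.add_apply, Pi.single_eq_same, Pi.single_eq_of_ne (by decide), add_zero]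

theorem s4 (a b : Op K) : (Pi.single 3 a + Pi.single 4 b : Fin 7 → Op K) 4 = b := by
  rw [Pi.add_apply, Pi.single_eq_same, Pi.single_eq_of_ne (by decide), zero_add]

theorem mat2_z (a b c d : Op K) (i j : Fin 7) (h3 : i ≠ 3) (h4 : i ≠ 4) :
    mat2 a b c d i j = 0 := by
  fin_cases i
  exacts [rfl, rfl, rfl, absurd rfl h3, absurd rfl h4, rfl, rfl]

theorem mat2_35 (a b c d : Op K) : mat2 a b c d 3 5 = a := s5 a b
theorem mat2_36 (a b c d : Op K) : mat2 a b c d 3 6 = b := s6 a b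
theorem mat2_45 (a b c d : Op K) : mat2 a b c d 4 5 = c := s5 c d
theorem mat2_46 (a b c d : Op K) : mat2 a b c d 4 6 = d := s6 c d

theorem mat3_z (a b : Op K) (i j : Fin 7) (h2 : i ≠ 2) : mat3 a b i j = 0 := by
  fin_cases i
  exacts [rfl, rfl, absurd rfl h2, rfl, rfl, rfl, rfl]

theorem mat3_23 (a b : Op K) : mat3 a b 2 3 = a := s3 a b
theorem mat3_24 (a b : Op K) : mat3 a b 2 4 = b := s4 a b

theorem mul_two (N M : Mat K) (i j p q : Fin 7) (hpq : p ≠ q)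
    (h : ∀ l, l ≠ p → l ≠ q → M l j = 0) : (N * M) i j = N i p * M p j + N i q * M q j := by
  rw [Matrix.mul_apply, ← Finset.sum_subset (Finset.subset_univ ({p, q} : Finset (Fin 7))),
    Finset.sum_pair hpq]
  intro l _ hl
  rw [Finset.mem_insert, Finset.mem_singleton, not_or] at hl
  rw [h l hl.1 hl.2, mul_zero]

theorem mul_mat2_5 (N : Mat K) (a b c d : Op K) (i : Fin 7) :
    (N * mat2 a b c d) i 5 = N i 3 * a + N i 4 * c := by
  rw [mul_two N _ i 5 3 4 (by decide) (fun l h h' => mat2_z _ _ _ _ l 5 h h'), mat2_35, mat2_45]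

theorem mul_mat2_6 (N : Mat K) (a b c d : Op K) (i : Fin 7) :
    (N * mat2 a b c d) i 6 = N i 3 * b + N i 4 * d := by
  rw [mul_two N _ i 6 3 4 (by decide) (fun l h h' => mat2_z _ _ _ _ l 6 h h'), mat2_36, mat2_46]

theorem mul_one' (N M : Mat K) (i j p : Fin 7)
    (h : ∀ l, l ≠ p → M l j = 0) : (N * M) i j = N i p * M p j := by
  rw [Matrix.mul_apply, Finset.sum_eq_single p]
  · intro l _ hl
    rw [h l hl, mul_zero]
  · intro hp
    exact absurd (Finset.mem_univ p) hp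

theorem mul_mat3_3 (N : Mat K) (a b : Op K) (i : Fin 7) :
    (N * mat3 a b) i 3 = N i 2 * a := by
  rw [mul_one' N _ i 3 2 (fun l h => mat3_z _ _ l 3 h), mat3_23]

theorem mul_mat3_4 (N : Mat K) (a b : Op K) (i : Fin 7) :
    (N * mat3 a b) i 4 = N i 2 * b := by
  rw [mul_one' N _ i 4 2 (fun l h => mat3_z _ _ l 4 h), mat3_24]

/-- a matrix equation for `fst` and `snd` of right multiplication by `ofM M 0` -/
theorem fst_ofM (x : A g 1) {M : Mat K} (h : Pres g 1 0 M) (h' : Pres g 1 1 0) (i j : Fin 7) :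
    (x * ofM M 0 h h').1.fst i j = (x.1.fst * M) i j := rfl

theorem snd_ofM (x : A g 1) {M : Mat K} (h : Pres g 1 0 M) (h' : Pres g 1 1 0) (i j : Fin 7) :
    (x * ofM M 0 h h').1.snd i j = (x.1.snd * M) i j := by
  rw [snd_mulA, ofM_fst, ofM_snd, mul_zero, zero_add]

section
variable (hg : Gen g)
include hg

theorem r1 (N N' : Mat K) (i : Fin 7) :
    (N * mat1 (X 0 * D g 0 - 1) (X 1 * D g 0) : Mat K) i 0 +
      (N' * mat1 (X 0 * D g 1) (X 1 * D g 1 - 1) : Mat K) i 0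
      = D1 K X (D g) (ext4 ![N i, N' i]) := by
  rw [mul_mat1, mul_mat1, D1_apply]
  show N i 5 * (X 0 * D g 0 - 1) + N i 6 * (X 1 * D g 0) +
    (N' i 5 * (X 0 * D g 1) + N' i 6 * (X 1 * D g 1 - 1)) =
    (N i 5 * X 0 + N i 6 * X 1) * D g 0 - N i 5 + ((N' i 5 * X 0 + N' i 6 * X 1) * D g 1 - N' i 6)
  rw [mul_sub, mul_sub, mul_one, mul_one, add_mul, add_mul, mul_assoc, mul_assoc, mul_assoc,
    mul_assoc]
  abel

theorem r2_05 (N N' : Mat K) (i : Fin 7) :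
    (N * mat2 1 0 (D g 0 * X 1) (1 - D g 0 * X 0) : Mat K) i 5 +
      (N' * mat2 0 0 (g • (D g 1 * X 1)) (-(g • (D g 1 * X 0))) : Mat K) i 5
      = D2 g X (D g) (ext3 ![N i, N' i]) 0 0 := by
  rw [mul_mat2_5, mul_mat2_5, D2_00]
  show N i 3 * 1 + N i 4 * (D g 0 * X 1) + (N' i 3 * 0 + N' i 4 * (g • (D g 1 * X 1))) =
    N i 3 + N i 4 * D g 0 * X 1 + g • (N' i 4 * D g 1 * X 1)
  rw [mul_one, mul_zero, zero_add, mul_smul_comm, ← mul_assoc, ← mul_assoc]

theorem r2_06 (N N' : Mat K) (i : Fin 7) :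
    (N * mat2 1 0 (D g 0 * X 1) (1 - D g 0 * X 0) : Mat K) i 6 +
      (N' * mat2 0 0 (g • (D g 1 * X 1)) (-(g • (D g 1 * X 0))) : Mat K) i 6
      = D2 g X (D g) (ext3 ![N i, N' i]) 0 1 := by
  rw [mul_mat2_6, mul_mat2_6, D2_01]
  show N i 3 * 0 + N i 4 * (1 - D g 0 * X 0) + (N' i 3 * 0 + N' i 4 * (-(g • (D g 1 * X 0)))) =
    N i 4 + -(N i 4 * D g 0 * X 0) + g • -(N' i 4 * D g 1 * X 0)
  rw [mul_sub, mul_one, mul_zero, mul_zero, zero_add, zero_add, mul_neg, mul_smul_comm,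
    ← mul_assoc, ← mul_assoc, smul_neg, sub_eq_add_neg]

theorem r2_15 (N N' : Mat K) (i : Fin 7) :
    (N * mat2 (-(g • (D g 0 * X 1))) (g • (D g 0 * X 0)) 0 0 : Mat K) i 5 +
      (N' * mat2 (1 - D g 1 * X 1) (D g 1 * X 0) 0 1 : Mat K) i 5
      = D2 g X (D g) (ext3 ![N i, N' i]) 1 0 := by
  rw [mul_mat2_5, mul_mat2_5, D2_10]
  show N i 3 * (-(g • (D g 0 * X 1))) + N i 4 * 0 + (N' i 3 * (1 - D g 1 * X 1) + N' i 4 * 0) =
    N' i 3 - g • (N i 3 * D g 0 * X 1) - N' i 3 * D g 1 * X 1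
  rw [mul_sub, mul_one, mul_zero, mul_zero, add_zero, add_zero, mul_neg, mul_smul_comm,
    ← mul_assoc, ← mul_assoc]
  abel

theorem r2_16 (N N' : Mat K) (i : Fin 7) :
    (N * mat2 (-(g • (D g 0 * X 1))) (g • (D g 0 * X 0)) 0 0 : Mat K) i 6 +
      (N' * mat2 (1 - D g 1 * X 1) (D g 1 * X 0) 0 1 : Mat K) i 6
      = D2 g X (D g) (ext3 ![N i, N' i]) 1 1 := by
  rw [mul_mat2_6, mul_mat2_6, D2_11]
  show N i 3 * (g • (D g 0 * X 0)) + N i 4 * 0 + (N' i 3 * (D g 1 * X 0) + N' i 4 * 1) =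
    N' i 4 - g • -(N i 3 * D g 0 * X 0) - -(N' i 3 * D g 1 * X 0)
  rw [mul_one, mul_zero, add_zero, mul_smul_comm, ← mul_assoc, ← mul_assoc, smul_neg]
  abel

/-- rows of `d1 x` -/
theorem row_d1 (x : Fin 2 → Pv g 1 4) (i : Fin 7) :
    (d1 hg x : A g 1).1.fst i 0 = D1 K X (D g) (ext4 fun k => (x k : A g 1).1.fst i) ∧
      (d1 hg x : A g 1).1.snd i 0 = D1 K X (D g) (ext4 fun k => (x k : A g 1).1.snd i) := by
  constructor
  · have := r1 hg (x 0 : A g 1).1.fst (x 1 : A g 1).1.fst i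
    have e : (![(x 0 : A g 1).1.fst i, (x 1 : A g 1).1.fst i] : Fin 2 → Fin 7 → Op K) =
        fun k => (x k : A g 1).1.fst i := by
      funext k
      fin_cases k <;> rfl
    rw [e] at this
    exact this
  · have := r1 hg (x 0 : A g 1).1.snd (x 1 : A g 1).1.snd i
    have e : (![(x 0 : A g 1).1.snd i, (x 1 : A g 1).1.snd i] : Fin 2 → Fin 7 → Op K) =
        fun k => (x k : A g 1).1.snd i := by
      funext k
      fin_cases k <;> rfl
    rw [e] at this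
    rw [← this, ← snd_ofM (x 0 : A g 1) (p1_0 hg) (Pres.zero g 1 1),
      ← snd_ofM (x 1 : A g 1) (p1_1 hg) (Pres.zero g 1 1)]
    rfl

omit hg in
theorem vec_fst {v : Fin 5} (x : Fin 2 → Pv g 1 v) (i : Fin 7) :
    (![(x 0 : A g 1).1.fst i, (x 1 : A g 1).1.fst i] : Fin 2 → Fin 7 → Op K) =
        fun k => (x k : A g 1).1.fst i := by
  funext k
  fin_cases k <;> rfl

omit hg in
theorem vec_snd {v : Fin 5} (x : Fin 2 → Pv g 1 v) (i : Fin 7) :
    (![(x 0 : A g 1).1.snd i, (x 1 : A g 1).1.snd i] : Fin 2 → Fin 7 → Op K) =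
        fun k => (x k : A g 1).1.snd i := by
  funext k
  fin_cases k <;> rfl

/-- rows of `d2 x`, `fst` -/
theorem row_d2 (x : Fin 2 → Pv g 1 3) (i : Fin 7) :
    (fun l => (d2 hg x l : A g 1).1.fst i) = f2 g (fun k => (x k : A g 1).1.fst i) := by
  rw [← vec_fst x i]
  have h : ∀ l j, blk7 j ≠ 4 → (d2 hg x l : A g 1).1.fst i j = 0 := fun l j hj =>
    (mem_Pv.1 (d2 hg x l).2 i j hj).1
  have z : ∀ l j, blk7 j ≠ 4 → f2 g (![(x 0 : A g 1).1.fst i, (x 1 : A g 1).1.fst i]) l j = 0 := by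
    intro l j hj
    fin_cases j
    exacts [rfl, rfl, rfl, rfl, rfl, absurd rfl hj, absurd rfl hj]
  funext l j
  by_cases hj : blk7 j = 4
  · have hj' : j = 5 ∨ j = 6 := by
      fin_cases j
      all_goals first | exact Or.inl rfl | exact Or.inr rfl | exact absurd hj (by decide)
    rcases hj' with rfl | rfl
    · fin_cases l
      · exact r2_05 hg (x 0 : A g 1).1.fst (x 1 : A g 1).1.fst i
      · exact r2_15 hg (x 0 : A g 1).1.fst (x 1 : A g 1).1.fst i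
    · fin_cases l
      · exact r2_06 hg (x 0 : A g 1).1.fst (x 1 : A g 1).1.fst i
      · exact r2_16 hg (x 0 : A g 1).1.fst (x 1 : A g 1).1.fst i
  · rw [h l j hj, z l j hj]

/-- the `snd` part of `d2 x` -/
theorem snd_d2 (x : Fin 2 → Pv g 1 3) (i j : Fin 7) :
    (d2 hg x 0 : A g 1).1.snd i j =
      ((x 0 : A g 1).1.snd * mat2 1 0 (D g 0 * X 1) (1 - D g 0 * X 0) : Mat K) i j +
      ((x 1 : A g 1).1.snd * mat2 0 0 (g • (D g 1 * X 1)) (-(g • (D g 1 * X 0))) : Mat K) i j ∧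
    (d2 hg x 1 : A g 1).1.snd i j =
      ((x 0 : A g 1).1.snd * mat2 (-(g • (D g 0 * X 1))) (g • (D g 0 * X 0)) 0 0 : Mat K) i j +
      ((x 1 : A g 1).1.snd * mat2 (1 - D g 1 * X 1) (D g 1 * X 0) 0 1 : Mat K) i j := by
  constructor
  · rw [← snd_ofM (x 0 : A g 1) (p2_00 hg) (Pres.zero g 1 1),
      ← snd_ofM (x 1 : A g 1) (p2_10 hg) (Pres.zero g 1 1)]
    rfl
  · rw [← snd_ofM (x 0 : A g 1) (p2_01 hg) (Pres.zero g 1 1),
      ← snd_ofM (x 1 : A g 1) (p2_11 hg) (Pres.zero g 1 1)]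
    rfl

/-- rows of `d2 x`, `snd` -/
theorem row_d2' (x : Fin 2 → Pv g 1 3) (i : Fin 7) :
    (fun l => (d2 hg x l : A g 1).1.snd i) = f2 g (fun k => (x k : A g 1).1.snd i) := by
  rw [← vec_snd x i]
  have h : ∀ l j, blk7 j ≠ 4 → (d2 hg x l : A g 1).1.snd i j = 0 := fun l j hj =>
    (mem_Pv.1 (d2 hg x l).2 i j hj).2
  have z : ∀ l j, blk7 j ≠ 4 → f2 g (![(x 0 : A g 1).1.snd i, (x 1 : A g 1).1.snd i]) l j = 0 := by
    intro l j hj
    fin_cases j
    exacts [rfl, rfl, rfl, rfl, rfl, absurd rfl hj, absurd rfl hj]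
  funext l j
  by_cases hj : blk7 j = 4
  · have hj' : j = 5 ∨ j = 6 := by
      fin_cases j
      all_goals first | exact Or.inl rfl | exact Or.inr rfl | exact absurd hj (by decide)
    rcases hj' with rfl | rfl
    · fin_cases l
      · exact (snd_d2 hg x i 5).1.trans (r2_05 hg (x 0 : A g 1).1.snd (x 1 : A g 1).1.snd i)
      · exact (snd_d2 hg x i 5).2.trans (r2_15 hg (x 0 : A g 1).1.snd (x 1 : A g 1).1.snd i)
    · fin_cases l
      · exact (snd_d2 hg x i 6).1.trans (r2_06 hg (x 0 : A g 1).1.snd (x 1 : A g 1).1.snd i)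
      · exact (snd_d2 hg x i 6).2.trans (r2_16 hg (x 0 : A g 1).1.snd (x 1 : A g 1).1.snd i)
  · rw [h l j hj, z l j hj]

omit hg in
theorem r3_3 (N : Mat K) (i : Fin 7) :
    (N * mat3 (-(D g 1 * X 1)) (D g 1 * X 0) : Mat K) i 3 = D3 K X (D g) (N i 2) 0 0 ∧
    (N * mat3 (-(D g 1 * X 1)) (D g 1 * X 0) : Mat K) i 4 = D3 K X (D g) (N i 2) 0 1 ∧
    (N * mat3 (D g 0 * X 1) (-(D g 0 * X 0)) : Mat K) i 3 = D3 K X (D g) (N i 2) 1 0 ∧
    (N * mat3 (D g 0 * X 1) (-(D g 0 * X 0)) : Mat K) i 4 = D3 K X (D g) (N i 2) 1 1 := by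
  rw [mul_mat3_3, mul_mat3_3, mul_mat3_4, mul_mat3_4, D3_00, D3_01, D3_10, D3_11]
  refine ⟨?_, ?_, ?_, ?_⟩
  · rw [mul_neg, mul_assoc]
  · rw [neg_neg, mul_assoc]
  · rw [mul_assoc]
  · rw [mul_neg, mul_assoc]

theorem snd_d3 (w : Pv g 1 2) (i j : Fin 7) :
    (d3 hg w 0 : A g 1).1.snd i j =
      ((w : A g 1).1.snd * mat3 (-(D g 1 * X 1)) (D g 1 * X 0) : Mat K) i j ∧
    (d3 hg w 1 : A g 1).1.snd i j =
      ((w : A g 1).1.snd * mat3 (D g 0 * X 1) (-(D g 0 * X 0)) : Mat K) i j := by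
  constructor
  · rw [← snd_ofM (w : A g 1) (p3_0 hg) (Pres.zero g 1 1)]
    rfl
  · rw [← snd_ofM (w : A g 1) (p3_1 hg) (Pres.zero g 1 1)]
    rfl

/-- rows of `d3 w` -/
theorem row_d3 (w : Pv g 1 2) (i : Fin 7) :
    (fun l => (d3 hg w l : A g 1).1.fst i) = f3 g (fun _ => (w : A g 1).1.fst i) ∧
    (fun l => (d3 hg w l : A g 1).1.snd i) = f3 g (fun _ => (w : A g 1).1.snd i) := by
  have h : ∀ l j, blk7 j ≠ 3 → (d3 hg w l : A g 1).1.fst i j = 0 ∧
      (d3 hg w l : A g 1).1.snd i j = 0 := fun l j hj => mem_Pv.1 (d3 hg w l).2 i j hj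
  have z : ∀ (r : Unit → Fin 7 → Op K) l j, blk7 j ≠ 3 → f3 g r l j = 0 := by
    intro r l j hj
    fin_cases j
    exacts [rfl, rfl, rfl, absurd rfl hj, absurd rfl hj, rfl, rfl]
  have hb : ∀ j : Fin 7, blk7 j = 3 → j = 3 ∨ j = 4 := by
    intro j hj
    fin_cases j
    all_goals first | exact Or.inl rfl | exact Or.inr rfl | exact absurd hj (by decide)
  obtain ⟨a1, a2, a3, a4⟩ := r3_3 (g := g) (w : A g 1).1.fst i
  obtain ⟨b1, b2, b3, b4⟩ := r3_3 (g := g) (w : A g 1).1.snd i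
  constructor
  · funext l j
    by_cases hj : blk7 j = 3
    · rcases hb j hj with rfl | rfl
      · fin_cases l
        · exact a1
        · exact a3
      · fin_cases l
        · exact a2
        · exact a4
    · rw [(h l j hj).1, z _ l j hj]
  · funext l j
    by_cases hj : blk7 j = 3
    · rcases hb j hj with rfl | rfl
      · fin_cases l
        · exact (snd_d3 hg w i 3).1.trans b1
        · exact (snd_d3 hg w i 3).2.trans b3
      · fin_cases l
        · exact (snd_d3 hg w i 4).1.trans b2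
        · exact (snd_d3 hg w i 4).2.trans b4
    · rw [(h l j hj).2, z _ l j hj]

/-! ### the theorems -/

omit hg in
theorem ext3_zero : ext3 (fun _ => (0 : Fin 7 → Op K)) = 0 := by
  funext k i
  fin_cases i <;> rfl

omit hg in
theorem ext4_zero : ext4 (fun _ => (0 : Fin 7 → Op K)) = 0 := by
  funext k i
  fin_cases i <;> rfl

/-- **injectivity** -/
theorem h3 : Function.Injective (d3 hg) := by
  rw [injective_iff_map_eq_zero]
  intro w hw
  have h0 : ∀ i, D3 K X (D g) ((w : A g 1).1.fst i 2) = 0 ∧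
      D3 K X (D g) ((w : A g 1).1.snd i 2) = 0 := fun i => by
    obtain ⟨e1, e2⟩ := row_d3 hg w i
    rw [hw] at e1 e2
    have e1' := congrArg ext3 e1
    have e2' := congrArg ext3 e2
    rw [f3, ext3_emb3] at e1' e2'
    exact ⟨e1'.symm.trans ext3_zero, e2'.symm.trans ext3_zero⟩
  have hb : ∀ j : Fin 7, blk7 j = 2 → j = 2 := by
    intro j hj
    fin_cases j
    all_goals first | rfl | exact absurd hj (by decide)
  refine Subtype.ext (A_ext (fun i j => ?_) (fun i j => ?_))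
  · by_cases hj : blk7 j = 2
    · rw [hb j hj]
      obtain ⟨k, hk⟩ := (w : A g 1).2.1.entry i 2
      exact D3_inj (pb hg) (k := k + 2) (mem_L3.2 (by rwa [add_sub_cancel_right])) (h0 i).1
    · exact (mem_Pv.1 w.2 i j hj).1
  · by_cases hj : blk7 j = 2
    · rw [hb j hj]
      obtain ⟨k, hk⟩ := (w : A g 1).2.2.entry i 2
      exact D3_inj (pb hg) (k := k + 2) (mem_L3.2 (by rwa [add_sub_cancel_right])) (h0 i).2
    · exact (mem_Pv.1 w.2 i j hj).2

theorem f2_f3 (y : Unit → Fin 7 → Op K) : f2 g (f3 g y) = fun _ => 0 := by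
  show emb4 (D2 g X (D g) (ext3 (emb3 (D3 K X (D g) (y () 2))))) = _
  rw [ext3_emb3, D2_D3 (pb hg)]
  funext l j
  fin_cases j <;> rfl

theorem f1_f2 (y : Fin 2 → Fin 7 → Op K) : D1 K X (D g) (ext4 (f2 g y)) = 0 := by
  show D1 K X (D g) (ext4 (emb4 (D2 g X (D g) (ext3 y)))) = _
  rw [ext4_emb4, D1_D2 (pb hg)]

omit hg in
theorem pv_zero {v : Fin 5} {x : Pv g 1 v} (h : ∀ i, (x : A g 1).1.fst i = 0)
    (h' : ∀ i, (x : A g 1).1.snd i = 0) : x = 0 :=
  Subtype.ext (A_ext (fun i j => congrFun (h i) j) (fun i j => congrFun (h' i) j))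

omit hg in
theorem pv_ext {v : Fin 5} {x y : Pv g 1 v} (h : ∀ i, (x : A g 1).1.fst i = (y : A g 1).1.fst i)
    (h' : ∀ i, (x : A g 1).1.snd i = (y : A g 1).1.snd i) : x = y :=
  Subtype.ext (A_ext (fun i j => congrFun (h i) j) (fun i j => congrFun (h' i) j))

theorem d2_d3 (w : Pv g 1 2) : d2 hg (d3 hg w) = 0 := by
  funext l
  refine pv_zero (fun i => ?_) (fun i => ?_)
  · exact congrFun ((row_d2 hg (d3 hg w) i).trans ((congrArg (f2 g) (row_d3 hg w i).1).trans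
      (f2_f3 hg _))) l
  · exact congrFun ((row_d2' hg (d3 hg w) i).trans ((congrArg (f2 g) (row_d3 hg w i).2).trans
      (f2_f3 hg _))) l

omit hg in
theorem b0 (j : Fin 7) (hj : blk7 j = 0) : j = 0 := by
  fin_cases j
  all_goals first | rfl | exact absurd hj (by decide)

omit hg in
/-- an element of `Pv 0` is determined by column `0` -/
theorem pv0_ext {x y : Pv g 1 0} (h : ∀ i, (x : A g 1).1.fst i 0 = (y : A g 1).1.fst i 0)
    (h' : ∀ i, (x : A g 1).1.snd i 0 = (y : A g 1).1.snd i 0) : x = y := by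
  refine Subtype.ext (A_ext (fun i j => ?_) (fun i j => ?_))
  · by_cases hj : blk7 j = 0
    · rw [b0 j hj]
      exact h i
    · exact (mem_Pv.1 x.2 i j hj).1.trans (mem_Pv.1 y.2 i j hj).1.symm
  · by_cases hj : blk7 j = 0
    · rw [b0 j hj]
      exact h' i
    · exact (mem_Pv.1 x.2 i j hj).2.trans (mem_Pv.1 y.2 i j hj).2.symm

theorem d1_d2 (w : Fin 2 → Pv g 1 3) : d1 hg (d2 hg w) = 0 := by
  refine pv0_ext (fun i => ?_) (fun i => ?_)
  · exact (row_d1 hg (d2 hg w) i).1.trans ((congrArg (fun r => D1 K X (D g) (ext4 r))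
      (row_d2 hg w i)).trans (f1_f2 hg _))
  · exact (row_d1 hg (d2 hg w) i).2.trans ((congrArg (fun r => D1 K X (D g) (ext4 r))
      (row_d2' hg w i)).trans (f1_f2 hg _))

theorem ex32 (y : Fin 2 → Pv g 1 3) (hy : d2 hg y = 0) : ∃ w, d3 hg w = y := by
  have h0 : ∀ i, D2 g X (D g) (ext3 fun l => (y l : A g 1).1.fst i) = 0 ∧
      D2 g X (D g) (ext3 fun l => (y l : A g 1).1.snd i) = 0 := fun i => by
    have e1 := congrArg ext4 (row_d2 hg y i)
    have e2 := congrArg ext4 (row_d2' hg y i)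
    rw [f2, ext4_emb4, hy] at e1 e2
    exact ⟨e1.symm.trans ext4_zero, e2.symm.trans ext4_zero⟩
  obtain ⟨Y, hs, e1, e2⟩ := lift_exact (kgen hg) (fmul hg) (f3 g) _ _ (o3 hg 0) (k3 hg 0)
    (o3 hg 1) (k3 hg 1) (fun l => (y l : A g 1)) (fun l i j hj => mem_Pv.1 (y l).2 i j hj)
    (fun i => (h0 i).1) (fun i => (h0 i).2)
  refine ⟨⟨Y (), mem_Pv.2 fun i j hj => hs () i j hj⟩, ?_⟩
  funext l
  refine pv_ext (fun i => ?_) (fun i => ?_)
  · exact congrFun ((row_d3 hg ⟨Y (), mem_Pv.2 fun i j hj => hs () i j hj⟩ i).1.trans (e1 i)) l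
  · exact congrFun ((row_d3 hg ⟨Y (), mem_Pv.2 fun i j hj => hs () i j hj⟩ i).2.trans (e2 i)) l

theorem ex21 (y : Fin 2 → Pv g 1 4) (hy : d1 hg y = 0) : ∃ w, d2 hg w = y := by
  have h0 : ∀ i, D1 K X (D g) (ext4 fun l => (y l : A g 1).1.fst i) = 0 ∧
      D1 K X (D g) (ext4 fun l => (y l : A g 1).1.snd i) = 0 := fun i => by
    obtain ⟨e1, e2⟩ := row_d1 hg y i
    rw [hy] at e1 e2
    exact ⟨e1.symm, e2.symm⟩
  obtain ⟨Y, hs, e1, e2⟩ := lift_exact (kgen hg) (fmul hg) (f2 g) _ _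
    (o2 hg (e := 0) (by omega) (by omega)) (k2 hg (by omega) (by omega))
    (o2 hg (e := 1) (by omega) (by omega)) (k2 hg (by omega) (by omega))
    (fun l => (y l : A g 1)) (fun l i j hj => mem_Pv.1 (y l).2 i j hj)
    (fun i => (h0 i).1) (fun i => (h0 i).2)
  refine ⟨fun l => ⟨Y l, mem_Pv.2 fun i j hj => hs l i j hj⟩, ?_⟩
  funext l
  refine pv_ext (fun i => ?_) (fun i => ?_)
  · exact congrFun ((row_d2 hg (fun l => ⟨Y l, mem_Pv.2 fun i j hj => hs l i j hj⟩) i).trans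
      (e1 i)) l
  · exact congrFun ((row_d2' hg (fun l => ⟨Y l, mem_Pv.2 fun i j hj => hs l i j hj⟩) i).trans
      (e2 i)) l

/-- **exactness at `C2`** -/
theorem e32 : Function.Exact (d3 hg) (d2 hg) := fun y => by
  constructor
  · exact fun hy => ex32 hg y hy
  · rintro ⟨w, rfl⟩
    exact d2_d3 hg w

/-- **exactness at `C1`** -/
theorem e21 : Function.Exact (d2 hg) (d1 hg) := fun y => by
  constructor
  · exact fun hy => ex21 hg y hy
  · rintro ⟨w, rfl⟩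
    exact d1_d2 hg w

/-! ### the augmentation -/

theorem D1_eq (u : Q (Op K)) : D1 K X (D g) u = g • (u 0 0 * D g 0 * X 0) + u 0 1 * D g 0 * X 1 +
    (u 1 0 * D g 1 * X 0 + g • (u 1 1 * D g 1 * X 1)) := by
  rw [D1_apply, add_mul, add_mul, mul_assoc (u 0 0), mul_assoc (u 0 1), mul_assoc (u 1 0),
    mul_assoc (u 1 1), X_D_self hg 0, X_D_self hg 1, X_D g (show (1 : Fin 2) ≠ 0 by decide),
    X_D g (show (0 : Fin 2) ≠ 1 by decide), mul_add, mul_add, mul_one, mul_one, mul_smul_comm,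
    mul_smul_comm, ← mul_assoc, ← mul_assoc, ← mul_assoc, ← mul_assoc]
  abel

theorem res_D1 {u : Q (Op K)} (hu : ∀ k i, ∃ j P : ℤ, u k i ∈ Fil g j P) :
    res (D1 K X (D g) u) = 0 := by
  have key : ∀ k i (a b : Fin 2), res (u k i * D g a * X b) = 0 := fun k i a b => by
    obtain ⟨j, P, h⟩ := hu k i
    exact res_mulX b (FD757.mul_D_mem a h)
  rw [D1_eq hg, res_add, res_add, res_add, res_smul, res_smul, key, key, key, key]
  simp only [mul_zero, add_zero]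

theorem ε_d1 (x : Fin 2 → Pv g 1 4) : ε g (d1 hg x) = 0 := by
  funext i
  rw [ε_apply]
  have h1 := (row_d1 hg x i).1
  refine (congrArg res h1).trans (res_D1 hg fun k j => ?_)
  fin_cases j
  · obtain ⟨l, hl⟩ := (x k : A g 1).2.1.entry i 5
    exact ⟨l, _, hl⟩
  · obtain ⟨l, hl⟩ := (x k : A g 1).2.1.entry i 6
    exact ⟨l, _, hl⟩

theorem ex10 (y : Pv g 1 0) (hy : ε g y = 0) : ∃ w, d1 hg w = y := by
  have h0 : ∀ i, (0 : ℤ) = 0 → res ((y : A g 1).1.fst i 0) = 0 := fun i _ => congrFun hy i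
  obtain ⟨Y, hs, e1, e2⟩ := lift_exact (kgen hg) (fmul hg) (f1 g) _ _
    (o1 hg (e := 0) (by omega) (by omega)) (k1 hg (by omega) (by omega))
    (o1 hg (e := 1) (by omega) (by omega)) (k1 hg (by omega) (by omega))
    (fun _ => (y : A g 1)) (fun l i j hj => mem_Pv.1 y.2 i j hj)
    (fun i => h0 i) (fun i h => absurd h (by norm_num))
  refine ⟨fun l => ⟨Y l, mem_Pv.2 fun i j hj => hs l i j hj⟩, ?_⟩
  refine pv0_ext (fun i => ?_) (fun i => ?_)
  · exact (row_d1 hg (fun l => ⟨Y l, mem_Pv.2 fun i j hj => hs l i j hj⟩) i).1.trans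
      (congrFun (congrFun (e1 i) ()) 0)
  · exact (row_d1 hg (fun l => ⟨Y l, mem_Pv.2 fun i j hj => hs l i j hj⟩) i).2.trans
      (congrFun (congrFun (e2 i) ()) 0)

/-- **exactness at `C0`** -/
theorem e10 : Function.Exact (d1 hg) (ε g) := fun y => by
  constructor
  · exact fun hy => ex10 hg y hy
  · rintro ⟨w, rfl⟩
    exact ε_d1 hg w

omit hg in
/-- scalars in column `0` -/
noncomputable def matC (w : Fin 7 → K) : Mat K := fun i => Pi.single 0 (w i • (1 : Op K))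

theorem presC (w : Fin 7 → K) : Pres g 1 0 (matC w) := by
  have h1 : ∀ (c : K) {k : ℤ}, 0 ≤ k → c • (1 : Op K) ∈ Fil g k 0 := fun c k hk =>
    Submodule.smul_mem _ _ (one_mem_Fil g hk)
  have h2 : ∀ i j : Fin 7, (fun l => X 1 * matC w i l - X 0 * matC w j l) =
      (Pi.single 0 (X 1 * (w i • (1 : Op K)) - X 0 * (w j • (1 : Op K))) : Fin 7 → Op K) := by
    intro i j
    funext l
    by_cases hl : l = 0
    · subst hl
      rfl
    · rw [Pi.single_eq_of_ne hl]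
      show X 1 * (Pi.single 0 (w i • (1 : Op K)) : Fin 7 → Op K) l -
        X 0 * (Pi.single 0 (w j • (1 : Op K)) : Fin 7 → Op K) l = 0
      rw [Pi.single_eq_of_ne hl, Pi.single_eq_of_ne hl, mul_zero, mul_zero, sub_zero]
  have h3 : ∀ (i : Fin 2) (c : K) {k : ℤ}, 0 ≤ k → X i * (c • (1 : Op K)) ∈ Fil g k (1 + 0) :=
    fun i c k hk => by
      have := FD757.X_mul_mem i (h1 c hk)
      rwa [zero_add] at this
  rw [LatK881.Pres_iff hg]
  refine ⟨LatK881.single0 (h1 _ (by omega)), LatK881.single0 (h1 _ (by omega)),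
    LatK881.single0 (h1 _ (by omega)), LatK881.single0 (h1 _ (by omega)),
    LatK881.single0 (h1 _ (by omega)), ?_, LatK881.single0 (h1 _ (by omega)),
    LatK881.single0 (h1 _ (by omega)), ?_⟩
  · rw [h2]
    exact LatK881.single0 (sub_mem (h3 _ _ (by omega)) (h3 _ _ (by omega)))
  · rw [h2]
    exact LatK881.single0 (sub_mem (h3 _ _ (by omega)) (h3 _ _ (by omega)))

/-- **surjectivity of the augmentation** -/
theorem hε : Function.Surjective (ε g) := by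
  intro w
  refine ⟨⟨ofM (matC w) 0 (presC hg w) (Pres.zero g 1 1), mem_Pv.2 fun i j hj =>
    ⟨Pi.single_eq_of_ne (fun h => hj (by rw [h]; rfl)) _, rfl⟩⟩, ?_⟩
  funext i
  show res ((Pi.single 0 (w i • (1 : Op K)) : Fin 7 → Op K) 0) = w i
  rw [Pi.single_eq_same, res_smul, res_one, mul_one]

end

end Crest.Agent.R186.W1
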