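import Crest.Agent.R186.SideM_136
import Crest.Agent.R186.LinkE_328
import Crest.Agent.R186.AntiT_870
import Crest.Agent.R186.Simp_763
import Crest.Agent.R186.W0B_822
import Crest.Agent.R186.W0eps_881
import Crest.Agent.R186.W1_952
import Crest.Agent.R186.Par_667

/-!
Row 186, S0281 (helper136): the joint.  From the two nullities (`E0 (A g s) V (A g s)`, `s = 0, 1`)
to `C0281 K` and `C0281 k0`.
-/

set_option autoImplicit false
set_option linter.unusedSectionVars false

universe w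

namespace Crest.Agent.R186.Fin136

open B281 B281M LinkB328 LinkC328 ExtRes700

variable {K : Type} [Field K] {g : K}

/-- the inverse of a parameter -/
theorem gen_inv (hg : Gen g) : Gen g⁻¹ := by
  refine ⟨inv_ne_zero hg.1, fun n hn h => hg.2 n hn ?_⟩
  rw [inv_pow] at h
  rw [← inv_inv (g ^ n), h, inv_one]

/-- the two-sided base -/
noncomputable def two (hg : Gen g)
    (null0 : ∀ j, E0 (A g 0) (V g 0 0) (A g 0) j)
    (null1 : ∀ j, E0 (A g⁻¹ 1) (V g⁻¹ 1 0) (A g⁻¹ 1) j) : Two K (A g 0) (A g⁻¹ 1) where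
  S := sideM0 hg null0 (W0B822.h3 hg) (W0B822.e32 hg) (W0B822.e21 hg) (B281.W0eps881.e10 hg)
    (B281.W0eps881.heps g)
  S' := sideM1 (gen_inv hg) null1 (W1.h3 (gen_inv hg)) (W1.e32 (gen_inv hg)) (W1.e21 (gen_inv hg))
    (W1.e10 (gen_inv hg)) (W1.hε (gen_inv hg))
  τ := Anti870.tau hg (by norm_num)
  eV := Anti870.eV hg _
  eW := Anti870.eW hg _

/-- **S0281 over `K`** from the two nullities -/
theorem c0281 (hg : Gen g)
    (null0 : ∀ j, E0 (A g 0) (V g 0 0) (A g 0) j)
    (null1 : ∀ j, E0 (A g⁻¹ 1) (V g⁻¹ 1 0) (A g⁻¹ 1) j) : Spine700.C0281.{w} K :=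
  LinkE328.c0281_two (two hg null0 null1) (n := 5) (by norm_num) (Simp763.simples0 g)

/-- **S0281** from the two nullities over all fields -/
theorem c0281_k0
    (null0 : ∀ (g : Spine700.k0), Gen g → ∀ j, E0 (A g 0) (V g 0 0) (A g 0) j)
    (null1 : ∀ (g : Spine700.k0), Gen g → ∀ j, E0 (A g 1) (V g 1 0) (A g 1) j) :
    Spine700.C0281.{w} Spine700.k0 :=
  c0281 (g := Par667.g0) Par667.gen0 (null0 _ Par667.gen0) (null1 _ (gen_inv Par667.gen0))

end Crest.Agent.R186.Fin136
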