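import Crest.Agent.R186.Defs281_128
import Crest.Agent.R186.Inst_823
import Crest.Agent.R186.Spine_700

/-!
Row 186, S0281, leaf B281.A1 (helper581): the algebra `A g s` of the concrete base
(`Defs281_128`): finite dimensional, idempotents `eps v`, the characters `Q`, and the kernel of
`Q` is nil: `simples : Spine700.Simples K (A g s) 5`.
-/

set_option autoImplicit false

open Matrix

namespace Crest.Agent.R186.NB581

open B281

variable {K : Type} [Field K]

/-! ### the pieces `Fil` of small order -/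

theorem Fil_neg {g : K} {k P : ℤ} (hk : k < 0) {T : Op K} (hT : T ∈ Fil g k P) : T = 0 := by
  have h : Fil g k P = ⊥ := by
    rw [Fil, Submodule.span_eq_bot]
    rintro T ⟨a, b, h1, _, _⟩
    exfalso
    omega
  rw [h] at hT
  exact (Submodule.mem_bot K).1 hT

theorem Fil_00 {g : K} {k : ℤ} (hk : k ≤ 0) {T : Op K} (hT : T ∈ Fil g k 0) :
    ∃ c : K, T = c • (1 : Op K) := by
  induction hT using Submodule.span_induction with
  | mem x hx =>
    obtain ⟨⟨a1, a2⟩, ⟨b1, b2⟩, h1, h2, rfl⟩ := hx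
    simp only at h1 h2
    obtain rfl : b1 = 0 := by omega
    obtain rfl : b2 = 0 := by omega
    obtain rfl : a1 = 0 := by omega
    obtain rfl : a2 = 0 := by omega
    exact ⟨1, by simp [mon]⟩
  | zero => exact ⟨0, by simp⟩
  | add x y _ _ hx hy =>
    obtain ⟨c, rfl⟩ := hx
    obtain ⟨d, rfl⟩ := hy
    exact ⟨c + d, by rw [add_smul]⟩
  | smul a x _ hx =>
    obtain ⟨c, rfl⟩ := hx
    exact ⟨a * c, by rw [mul_smul]⟩

theorem Fil_01 {g : K} {k : ℤ} (hk : k ≤ 0) {T : Op K} (hT : T ∈ Fil g k 1) :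
    ∃ c d : K, T = c • (X 0 : Op K) + d • (X 1 : Op K) := by
  induction hT using Submodule.span_induction with
  | mem x hx =>
    obtain ⟨⟨a1, a2⟩, ⟨b1, b2⟩, h1, h2, rfl⟩ := hx
    simp only at h1 h2
    obtain rfl : b1 = 0 := by omega
    obtain rfl : b2 = 0 := by omega
    rcases Nat.eq_zero_or_pos a1 with rfl | ha
    · obtain rfl : a2 = 1 := by omega
      exact ⟨0, 1, by simp [mon]⟩
    · obtain rfl : a1 = 1 := by omega
      obtain rfl : a2 = 0 := by omega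
      exact ⟨1, 0, by simp [mon]⟩
  | zero => exact ⟨0, 0, by simp⟩
  | add x y _ _ hx hy =>
    obtain ⟨c, d, rfl⟩ := hx
    obtain ⟨c', d', rfl⟩ := hy
    exact ⟨c + c', d + d', by rw [add_smul, add_smul]; abel⟩
  | smul a x _ hx =>
    obtain ⟨c, d, rfl⟩ := hx
    exact ⟨a * c, a * d, by rw [mul_smul, mul_smul, smul_add]⟩

/-! ### inverses of `X` -/

/-- the inverse of `X i` -/
noncomputable def Y (i : Fin 2) : Op K := Finsupp.lmapDomain K K (fun m => m - ev i)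

theorem Y_single (i : Fin 2) (m : ℤ × ℤ) (a : K) :
    Y i (Finsupp.single m a) = Finsupp.single (m - ev i) a := by
  simp [Y]

theorem X_Y (i : Fin 2) : (X i : Op K) * Y i = 1 := by
  apply op_ext
  intro m
  simp [Module.End.mul_apply, X_single, Y_single]

theorem Y_X (i : Fin 2) : (Y i : Op K) * X i = 1 := by
  apply op_ext
  intro m
  simp [Module.End.mul_apply, X_single, Y_single]

theorem X_Y_comm (i j : Fin 2) : (X i : Op K) * Y j = Y j * X i := by
  apply op_ext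
  intro m
  simp only [Module.End.mul_apply, X_single, Y_single]
  congr 1
  abel

theorem X_cancel_right {i : Fin 2} {S T : Op K} (h : S * X i = T * X i) : S = T := by
  have := congrArg (fun Z => Z * (Y i : Op K)) h
  simpa [mul_assoc, X_Y] using this

theorem X_cancel_left {i : Fin 2} {S T : Op K} (h : X i * S = X i * T) : S = T := by
  have := congrArg (fun Z => (Y i : Op K) * Z) h
  simpa [← mul_assoc, Y_X] using this

/-- right Koszul, over the Laurent operators -/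
theorem kos {a b : Op K} (h : a * X 0 + b * X 1 = 0) :
    ∃ u : Op K, a = u * X 1 ∧ b + u * X 0 = 0 := by
  refine ⟨a * Y 1, ?_, ?_⟩
  · rw [mul_assoc, Y_X, mul_one]
  · apply X_cancel_right (i := 1)
    rw [add_mul, mul_assoc, mul_assoc, X_comm 0 1, ← mul_assoc (Y 1 : Op K), Y_X,
      one_mul, zero_mul, add_comm]
    exact h

/-! ### supports -/

/-- Laurent polynomials with nonnegative `i`-th exponents -/
noncomputable def half (i : Fin 2) : Submodule K (Lau K) :=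
  Finsupp.supported K K {m | 0 ≤ co i m}

/-- homogeneous Laurent polynomials -/
noncomputable def hom (n : ℤ) : Submodule K (Lau K) :=
  Finsupp.supported K K {m | m.1 + m.2 = n}

theorem X_half (i j : Fin 2) {f : Lau K} (hf : f ∈ half (K := K) i) : X j f ∈ half (K := K) i := by
  rw [half, Finsupp.supported_eq_span_single] at hf
  induction hf using Submodule.span_induction with
  | mem x hx =>
    obtain ⟨m, hm, rfl⟩ := hx
    simp only [Set.mem_setOf_eq] at hm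
    rw [X_single]
    refine Finsupp.single_mem_supported K _ ?_
    fin_cases i <;> fin_cases j <;> simp [ev, co] at hm ⊢ <;> omega
  | zero => rw [map_zero]; exact zero_mem _
  | add x y _ _ hx hy => rw [map_add]; exact add_mem hx hy
  | smul a x _ hx => rw [map_smul]; exact Submodule.smul_mem _ _ hx

theorem D_half (g : K) (i j : Fin 2) {f : Lau K} (hf : f ∈ half (K := K) i) :
    D g j f ∈ half (K := K) i := by
  rw [half, Finsupp.supported_eq_span_single] at hf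
  induction hf using Submodule.span_induction with
  | mem x hx =>
    obtain ⟨m, hm, rfl⟩ := hx
    simp only [Set.mem_setOf_eq] at hm
    rw [D_single]
    by_cases h0 : co j m = 0
    · rw [h0, cq_zero, zero_mul, Finsupp.single_zero]
      exact zero_mem _
    · refine Finsupp.single_mem_supported K _ ?_
      fin_cases i <;> fin_cases j <;> simp [ev, co] at h0 hm ⊢ <;> omega
  | zero => rw [map_zero]; exact zero_mem _
  | add x y _ _ hx hy => rw [map_add]; exact add_mem hx hy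
  | smul a x _ hx => rw [map_smul]; exact Submodule.smul_mem _ _ hx

theorem X_hom (j : Fin 2) {n : ℤ} {f : Lau K} (hf : f ∈ hom (K := K) n) :
    X j f ∈ hom (K := K) (n + 1) := by
  rw [hom, Finsupp.supported_eq_span_single] at hf
  induction hf using Submodule.span_induction with
  | mem x hx =>
    obtain ⟨m, hm, rfl⟩ := hx
    simp only [Set.mem_setOf_eq] at hm
    rw [X_single]
    refine Finsupp.single_mem_supported K _ ?_
    fin_cases j <;> simp [ev] <;> omega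
  | zero => rw [map_zero]; exact zero_mem _
  | add x y _ _ hx hy => rw [map_add]; exact add_mem hx hy
  | smul a x _ hx => rw [map_smul]; exact Submodule.smul_mem _ _ hx

theorem D_hom (g : K) (j : Fin 2) {n : ℤ} {f : Lau K} (hf : f ∈ hom (K := K) n) :
    D g j f ∈ hom (K := K) (n - 1) := by
  rw [hom, Finsupp.supported_eq_span_single] at hf
  induction hf using Submodule.span_induction with
  | mem x hx =>
    obtain ⟨m, hm, rfl⟩ := hx
    simp only [Set.mem_setOf_eq] at hm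
    rw [D_single]
    refine Finsupp.single_mem_supported K _ ?_
    fin_cases j <;> simp [ev] <;> omega
  | zero => rw [map_zero]; exact zero_mem _
  | add x y _ _ hx hy => rw [map_add]; exact add_mem hx hy
  | smul a x _ hx => rw [map_smul]; exact Submodule.smul_mem _ _ hx

theorem Fil_half {g : K} {k P : ℤ} {T : Op K} (hT : T ∈ Fil g k P) (i : Fin 2) {f : Lau K}
    (hf : f ∈ half (K := K) i) : T f ∈ half (K := K) i := by
  have hX : ∀ (j : Fin 2) (r : ℕ) (f : Lau K), f ∈ half (K := K) i →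
      ((X j : Op K) ^ r) f ∈ half (K := K) i := by
    intro j r
    induction r with
    | zero => intro f hf; simpa using hf
    | succ r ih => intro f hf; rw [pow_succ, Module.End.mul_apply]; exact ih _ (X_half i j hf)
  have hD : ∀ (j : Fin 2) (r : ℕ) (f : Lau K), f ∈ half (K := K) i →
      ((D g j : Op K) ^ r) f ∈ half (K := K) i := by
    intro j r
    induction r with
    | zero => intro f hf; simpa using hf
    | succ r ih => intro f hf; rw [pow_succ, Module.End.mul_apply]; exact ih _ (D_half g i j hf)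
  induction hT using Submodule.span_induction with
  | mem x hx =>
    obtain ⟨a, b, _, _, rfl⟩ := hx
    unfold mon
    simp only [Module.End.mul_apply]
    exact hX _ _ _ (hX _ _ _ (hD _ _ _ (hD _ _ _ hf)))
  | zero => exact zero_mem _
  | add x y _ _ hx hy => exact add_mem hx hy
  | smul a x _ hx => exact Submodule.smul_mem _ a hx

theorem Fil_hom {g : K} {k P : ℤ} {T : Op K} (hT : T ∈ Fil g k P) {n : ℤ} {f : Lau K}
    (hf : f ∈ hom (K := K) n) : T f ∈ hom (K := K) (n + P) := by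
  have hX : ∀ (j : Fin 2) (r : ℕ) (n : ℤ) (f : Lau K), f ∈ hom (K := K) n →
      ((X j : Op K) ^ r) f ∈ hom (K := K) (n + r) := by
    intro j r
    induction r with
    | zero => intro n f hf; simpa using hf
    | succ r ih =>
      intro n f hf
      rw [pow_succ, Module.End.mul_apply]
      have := ih _ _ (X_hom j hf)
      rwa [show n + 1 + (r : ℤ) = n + ((r + 1 : ℕ) : ℤ) by push_cast; ring] at this
  have hD : ∀ (j : Fin 2) (r : ℕ) (n : ℤ) (f : Lau K), f ∈ hom (K := K) n →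
      ((D g j : Op K) ^ r) f ∈ hom (K := K) (n - r) := by
    intro j r
    induction r with
    | zero => intro n f hf; simpa using hf
    | succ r ih =>
      intro n f hf
      rw [pow_succ, Module.End.mul_apply]
      have := ih _ _ (D_hom g j hf)
      rwa [show n - 1 - (r : ℤ) = n - ((r + 1 : ℕ) : ℤ) by push_cast; ring] at this
  induction hT using Submodule.span_induction with
  | mem x hx =>
    obtain ⟨a, b, _, h2, rfl⟩ := hx
    unfold mon
    simp only [Module.End.mul_apply]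
    have := hX 0 a.1 _ _ (hX 1 a.2 _ _ (hD 0 b.1 _ _ (hD 1 b.2 _ _ hf)))
    rwa [show n - (b.2 : ℤ) - b.1 + a.2 + a.1 = n + P by rw [← h2]; ring] at this
  | zero => exact zero_mem _
  | add x y _ _ hx hy => exact add_mem hx hy
  | smul a x _ hx => exact Submodule.smul_mem _ a hx

/-- an operator `u` with `u X₁`, `u X₀` of degree `0` kills `1` -/
theorem van {g : K} {k l : ℤ} {T T' u : Op K} (hT : T ∈ Fil g k 0) (hT' : T' ∈ Fil g l 0)
    (h : u * X 1 = T) (h' : u * X 0 = T') : u (Finsupp.single (0, 0) 1) = 0 := by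
  have e1 : u (Finsupp.single (0, 0) 1) = T (Finsupp.single (0, -1) 1) := by
    rw [← h, Module.End.mul_apply, X_single]
    simp [ev]
  have e2 : u (Finsupp.single (0, 0) 1) = T' (Finsupp.single (-1, 0) 1) := by
    rw [← h', Module.End.mul_apply, X_single]
    simp [ev]
  have m1 : u (Finsupp.single (0, 0) 1) ∈ half (K := K) 0 := by
    rw [e1]
    exact Fil_half hT 0 (Finsupp.single_mem_supported K _ (by simp [co]))
  have m2 : u (Finsupp.single (0, 0) 1) ∈ half (K := K) 1 := by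
    rw [e2]
    exact Fil_half hT' 1 (Finsupp.single_mem_supported K _ (by simp [co]))
  have m3 : u (Finsupp.single (0, 0) 1) ∈ hom (K := K) (-1) := by
    rw [e1]
    have := Fil_hom hT (n := -1) (f := Finsupp.single (0, -1) 1)
      (Finsupp.single_mem_supported K _ (by simp))
    simpa using this
  rw [half, Finsupp.mem_supported] at m1 m2
  rw [hom, Finsupp.mem_supported] at m3
  rw [← Finsupp.support_eq_empty, Finset.eq_empty_iff_forall_notMem]
  intro m hm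
  have h1 := m1 hm
  have h2 := m2 hm
  have h3 := m3 hm
  simp [co] at h1 h2 h3
  omega

/-! ### the scalar of an operator -/

/-- the constant term of `T 1` -/
noncomputable def rho : Op K →ₗ[K] K where
  toFun T := (T (Finsupp.single (0, 0) 1)) (0, 0)
  map_add' S T := by simp
  map_smul' c T := by simp

theorem rho_apply (T : Op K) : rho T = (T (Finsupp.single (0, 0) 1)) (0, 0) := rfl

theorem rho_one : rho (1 : Op K) = 1 := by simp [rho_apply]

theorem rho_smul_one (c : K) : rho (c • (1 : Op K)) = c := by simp [rho_one]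

theorem X_app (i : Fin 2) (f : Lau K) (m : ℤ × ℤ) : (X i f) (m + ev i) = f m := by
  have h : Function.Injective (fun m : ℤ × ℤ => m + ev i) := fun a b h => by simpa using h
  show Finsupp.mapDomain (fun m => m + ev i) f (m + ev i) = f m
  exact Finsupp.mapDomain_apply h f m

theorem X_ne {i : Fin 2} {c : K} (h : c • (X i : Op K) = 0) : c = 0 := by
  have := congrArg (fun T : Op K => (T (Finsupp.single (0, 0) 1)) (0 + ev i)) h
  simp only [LinearMap.smul_apply, Finsupp.smul_apply, LinearMap.zero_apply,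
    Finsupp.zero_apply] at this
  rw [X_app] at this
  rw [show ((0 : ℤ × ℤ)) = (0, 0) from rfl, Finsupp.single_eq_same, smul_eq_mul, mul_one] at this
  exact this

theorem X_lin {c d : K} (h : c • (X 0 : Op K) + d • (X 1 : Op K) = 0) : c = 0 ∧ d = 0 := by
  have h1 := congrArg (fun T : Op K => (T (Finsupp.single (0, 0) 1)) (1, 0)) h
  have h2 := congrArg (fun T : Op K => (T (Finsupp.single (0, 0) 1)) (0, 1)) h
  simp [X_single, ev] at h1 h2
  exact ⟨h1, h2⟩

section ring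

variable {R : Type*} [Ring R] [Algebra K R]

theorem r1 (x0 x1 a b a' b' : R) : x1 * (a * x0 + b * x1) - x0 * (a' * x0 + b' * x1) =
    (x1 * a - x0 * a') * x0 + (x1 * b - x0 * b') * x1 := by
  noncomm_ring

theorem r2 (x0 x1 a b : R) (γ : K) (h : a * x0 + b * x1 = γ • x0) :
    (a - γ • (1 : R)) * x0 + b * x1 = 0 := by
  rw [sub_mul, smul_mul_assoc, one_mul, sub_add_eq_add_sub, h, sub_self]

theorem r3 (x0 x1 a b : R) (γ : K) (h : a * x0 + b * x1 = γ • x1) :
    a * x0 + (b - γ • (1 : R)) * x1 = 0 := by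
  rw [sub_mul, smul_mul_assoc, one_mul, ← add_sub_assoc, h, sub_self]

theorem r4 (x0 x1 a u u' : R) (β γ : K) (h : a - γ • (1 : R) = u * x1)
    (e : x1 * a - x0 * (u' * x1) = β • x1) :
    (γ • (1 : R) + x1 * u - x0 * u' - β • (1 : R)) * x1 = 0 := by
  have h5 : a = γ • 1 + u * x1 := by rw [← h]; abel
  rw [h5] at e
  have : (γ • (1 : R) + x1 * u - x0 * u' - β • (1 : R)) * x1 =
      x1 * (γ • 1 + u * x1) - x0 * (u' * x1) - β • x1 := by
    simp only [sub_mul, add_mul, smul_mul_assoc, one_mul, mul_add, mul_smul_comm, mul_one,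
      mul_assoc]
  rw [this, e, sub_self]

theorem r5 (x0 x1 : R) (hx : x0 * x1 = x1 * x0) (β : K) :
    (β • x1) * x0 + ((-β) • x0) * x1 = 0 := by
  rw [smul_mul_assoc, smul_mul_assoc, hx, neg_smul, add_neg_cancel]

theorem r7 (a b : R) : a - b = a + (-1 : K) • b := by
  rw [neg_one_smul, sub_eq_add_neg]

theorem r6 (b c : R) (h : b + c = 0) : c = (-1 : K) • b := by
  rw [neg_one_smul]
  exact eq_neg_of_add_eq_zero_right h

end ring

theorem Fil_sub {g : K} {k P : ℤ} {a b : Op K} (ha : a ∈ Fil g k P) (hb : b ∈ Fil g k P) :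
    a - b ∈ Fil g k P := by
  rw [show a - b = a + (-1 : K) • b from r7 (R := Op K) a b]
  exact add_mem ha (Submodule.smul_mem _ _ hb)

/-- the main computation: a pair of rows `(a,b)`, `(a',b')` -/
theorem cc {g : K} {k : ℤ} (hk : 0 ≤ k) {a b a' b' : Op K} (ha : a ∈ Fil g k 0)
    (hb : b ∈ Fil g k 0) (ha' : a' ∈ Fil g k 0) (hb' : b' ∈ Fil g k 0)
    (hc : a * X 0 + b * X 1 ∈ Fil g 0 1) (hc' : a' * X 0 + b' * X 1 ∈ Fil g 0 1)
    (hz : X 1 * a - X 0 * a' ∈ Fil g 0 1) (hw : X 1 * b - X 0 * b' ∈ Fil g 0 1)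
    (hzw : (X 1 * a - X 0 * a') * X 0 + (X 1 * b - X 0 * b') * X 1 = 0) :
    X 1 * a - X 0 * a' = rho a • X 1 ∧ X 1 * b - X 0 * b' = (-rho a) • X 0 ∧
      a * X 0 + b * X 1 = rho a • X 0 ∧ a' * X 0 + b' * X 1 = rho a • X 1 := by
  have h1 : (1 : Op K) ∈ Fil g k 0 := one_mem_Fil g hk
  obtain ⟨α, β, e1⟩ := Fil_01 le_rfl hz
  obtain ⟨α', β', e2⟩ := Fil_01 le_rfl hw
  rw [e1, e2] at hzw
  -- coefficients
  have c1 := congrArg (fun T : Op K => (T (Finsupp.single (0, 0) 1)) (2, 0)) hzw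
  have c2 := congrArg (fun T : Op K => (T (Finsupp.single (0, 0) 1)) (1, 1)) hzw
  have c3 := congrArg (fun T : Op K => (T (Finsupp.single (0, 0) 1)) (0, 2)) hzw
  simp [add_mul, Module.End.mul_apply, X_single, ev] at c1 c2 c3
  subst c1 c3
  rw [zero_smul, zero_add] at e1
  rw [zero_smul, add_zero] at e2
  have e3 : α' = -β := eq_neg_of_add_eq_zero_right c2
  subst e3
  -- the scalar is `rho a`
  have hβ : β = rho a := by
    have h := congrArg (fun T : Op K => (T (Finsupp.single (0, 0) 1)) ((0, 0) + ev 1)) e1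
    simp only [LinearMap.sub_apply, Finsupp.sub_apply, Module.End.mul_apply, LinearMap.smul_apply,
      Finsupp.smul_apply] at h
    rw [X_app, X_app] at h
    have h2 : (X 0 (a' (Finsupp.single (0, 0) 1))) ((0, 0) + ev 1) = 0 := by
      have h3 : a' (Finsupp.single (0, 0) 1) ∈ half (K := K) 0 :=
        Fil_half ha' 0 (Finsupp.single_mem_supported K _ (by simp [co]))
      have h4 : ((0, 0) + ev 1 : ℤ × ℤ) = (-1, 1) + ev 0 := by simp [ev]
      rw [h4, X_app]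
      by_contra h5
      have := (Finsupp.mem_supported K _).1 h3 (Finsupp.mem_support_iff.2 h5)
      simp [co] at this
    rw [h2, sub_zero] at h
    rw [rho_apply, h]
    simp
  subst hβ
  set β := rho a with hβ
  refine ⟨e1, e2, ?_⟩
  obtain ⟨γ, δ, f1⟩ := Fil_01 le_rfl hc
  obtain ⟨γ', δ', f2⟩ := Fil_01 le_rfl hc'
  have g1 : X 1 * (a * X 0 + b * X 1) - X 0 * (a' * X 0 + b' * X 1) = 0 := by
    have : X 1 * (a * X 0 + b * X 1) - X 0 * (a' * X 0 + b' * X 1) =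
        (X 1 * a - X 0 * a') * X 0 + (X 1 * b - X 0 * b') * X 1 :=
      r1 (R := Op K) (X 0) (X 1) a b a' b'
    rw [this, e1, e2]
    exact r5 (R := Op K) (X 0) (X 1) (X_comm 0 1) β
  rw [f1, f2] at g1
  have c1 := congrArg (fun T : Op K => (T (Finsupp.single (0, 0) 1)) (2, 0)) g1
  have c2 := congrArg (fun T : Op K => (T (Finsupp.single (0, 0) 1)) (1, 1)) g1
  have c3 := congrArg (fun T : Op K => (T (Finsupp.single (0, 0) 1)) (0, 2)) g1
  simp [Module.End.mul_apply, X_single, ev] at c1 c2 c3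
  subst c1 c3
  rw [zero_smul, add_zero] at f1
  rw [zero_smul, zero_add] at f2
  have e3 : γ = δ' := by
    rw [sub_eq_zero] at c2; exact c2
  subst e3
  -- Koszul
  have k1 : (a - γ • (1 : Op K)) * X 0 + b * X 1 = 0 :=
    r2 (R := Op K) (X 0) (X 1) a b γ f1
  have k2 : a' * X 0 + (b' - γ • (1 : Op K)) * X 1 = 0 :=
    r3 (R := Op K) (X 0) (X 1) a' b' γ f2
  obtain ⟨u, u1, u2⟩ := kos k1
  obtain ⟨u', u1', u2'⟩ := kos k2
  have v1 : u (Finsupp.single (0, 0) 1) = 0 :=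
    van (T' := (-1 : K) • b) (Fil_sub ha (Submodule.smul_mem _ γ h1))
      (Submodule.smul_mem _ _ hb) u1.symm (r6 (R := Op K) b (u * X 0) u2)
  have v2 : u' (Finsupp.single (0, 0) 1) = 0 :=
    van (T' := (-1 : K) • (b' - γ • (1 : Op K))) ha' (Submodule.smul_mem _ _
      (Fil_sub hb' (Submodule.smul_mem _ γ h1))) u1'.symm
      (r6 (R := Op K) (b' - γ • (1 : Op K)) (u' * X 0) u2')
  have e4 : γ = β := by
    rw [u1'] at e1
    have h6 : (γ • (1 : Op K) + X 1 * u - X 0 * u' - β • (1 : Op K)) * X 1 = 0 :=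
      r4 (R := Op K) (X 0) (X 1) a u u' β γ u1 e1
    have h7 : γ • (1 : Op K) + X 1 * u - X 0 * u' - β • (1 : Op K) = 0 := by
      apply X_cancel_right (i := 1)
      rw [h6, zero_mul]
    have h8 := congrArg (fun T : Op K => (T (Finsupp.single (0, 0) 1)) (0, 0)) h7
    simp [Module.End.mul_apply, v1, v2] at h8
    rwa [sub_eq_zero] at h8
  rw [f1, f2, e4]
  exact ⟨rfl, rfl⟩

/-! ### test rows -/

theorem row_mem {g : K} {s k P : ℤ} {v : Fin 7 → Op K} : v ∈ Lat g s k P ↔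
    (v 0 ∈ Fil g k P ∧ v 1 ∈ Fil g (k - 1) P ∧ v 2 ∈ Fil g (k - 2) P ∧
    (v 3 ∈ Fil g (k - s) P ∧ v 4 ∈ Fil g (k - s) P ∧
      v 3 * X 0 + v 4 * X 1 ∈ Fil g (k - s - 1) (P + 1)) ∧
    (v 5 ∈ Fil g k P ∧ v 6 ∈ Fil g k P ∧ v 5 * X 0 + v 6 * X 1 ∈ Fil g (k - 2) (P + 1))) :=
  Iff.rfl

/-- the row `e_i` -/
theorem e_mem (g : K) (s k : ℤ) (i : Fin 7) (h0 : i = 0 → 0 ≤ k) (h1 : i = 1 → 1 ≤ k)
    (h2 : i = 2 → 2 ≤ k) (h3 : i = 3 → s + 1 ≤ k) (h4 : i = 4 → s + 1 ≤ k) (h5 : i = 5 → 2 ≤ k)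
    (h6 : i = 6 → 2 ≤ k) : (Pi.single i 1 : Fin 7 → Op K) ∈ Lat g s k 0 := by
  rw [row_mem]
  fin_cases i
  all_goals
    simp at h0 h1 h2 h3 h4 h5 h6 ⊢
  · exact one_mem_Fil g h0
  · exact one_mem_Fil g (by omega)
  · exact one_mem_Fil g (by omega)
  · exact ⟨one_mem_Fil g (by omega), X_mem_Fil g 0 (by omega)⟩
  · exact ⟨one_mem_Fil g (by omega), X_mem_Fil g 1 (by omega)⟩
  · exact ⟨one_mem_Fil g (by omega), X_mem_Fil g 0 (by omega)⟩
  · exact ⟨one_mem_Fil g (by omega), X_mem_Fil g 1 (by omega)⟩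

variable (K) in
/-- the syzygy row of `K₁` -/
noncomputable def s3 : Fin 7 → Op K := ![0, 0, 0, X 1, -X 0, 0, 0]

variable (K) in
/-- the syzygy row of `K₂` -/
noncomputable def s5 : Fin 7 → Op K := ![0, 0, 0, 0, 0, X 1, -X 0]

theorem syz0 : (X 1 : Op K) * X 0 + -X 0 * X 1 = 0 := by
  rw [X_comm 1 0, neg_mul, add_neg_cancel]

theorem s3_mem (g : K) {s k : ℤ} (hk : s ≤ k) : s3 K ∈ Lat g s k 1 := by
  rw [row_mem]
  refine ⟨zero_mem _, zero_mem _, zero_mem _, ⟨X_mem_Fil g 1 (by omega),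
    neg_mem (X_mem_Fil g 0 (by omega)), ?_⟩, zero_mem _, zero_mem _, ?_⟩
  · show (X 1 : Op K) * X 0 + -X 0 * X 1 ∈ _
    rw [syz0]
    exact zero_mem _
  · show (0 : Op K) * X 0 + 0 * X 1 ∈ _
    rw [zero_mul, zero_mul, add_zero]
    exact zero_mem _

theorem s5_mem (g : K) {s k : ℤ} (hk : 0 ≤ k) : s5 K ∈ Lat g s k 1 := by
  rw [row_mem]
  refine ⟨zero_mem _, zero_mem _, zero_mem _, ⟨zero_mem _, zero_mem _, ?_⟩,
    X_mem_Fil g 1 (by omega), neg_mem (X_mem_Fil g 0 (by omega)), ?_⟩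
  · show (0 : Op K) * X 0 + 0 * X 1 ∈ _
    rw [zero_mul, zero_mul, add_zero]
    exact zero_mem _
  · show (X 1 : Op K) * X 0 + -X 0 * X 1 ∈ _
    rw [syz0]
    exact zero_mem _

theorem e_vec (M : Mat K) (i : Fin 7) : (Pi.single i 1 : Fin 7 → Op K) ᵥ* M = M i := by
  rw [Matrix.single_one_vecMul]
  rfl

theorem s3_vec (M : Mat K) : s3 K ᵥ* M = fun j => X 1 * M 3 j - X 0 * M 4 j := by
  funext j
  simp only [Matrix.vecMul, dotProduct, Fin.sum_univ_seven, s3]
  simp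
  abel

theorem s5_vec (M : Mat K) : s5 K ᵥ* M = fun j => X 1 * M 5 j - X 0 * M 6 j := by
  funext j
  simp only [Matrix.vecMul, dotProduct, Fin.sum_univ_seven, s5]
  simp
  abel

/-- vanishing constants -/
theorem cst {α β : K} (h : (α • (1 : Op K)) * X 0 + (β • (1 : Op K)) * X 1 = 0) :
    α = 0 ∧ β = 0 := by
  rw [smul_mul_assoc, smul_mul_assoc, one_mul, one_mul] at h
  exact X_lin h

/-- the structure of the rows of a `P`-degree zero matrix -/
structure Str (s : ℤ) (M : Mat K) : Prop where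
  r00 : M 0 0 = rho (M 0 0) • (1 : Op K)
  r0 : ∀ j, j ≠ 0 → M 0 j = 0
  r11 : M 1 1 = rho (M 1 1) • (1 : Op K)
  r12 : M 1 2 = 0
  r1c : M 1 5 * X 0 + M 1 6 * X 1 = 0
  r1s : s = 1 → M 1 3 = 0 ∧ M 1 4 = 0
  r22 : M 2 2 = rho (M 2 2) • (1 : Op K)
  r32 : M 3 2 = 0
  r42 : M 4 2 = 0
  z33 : X 1 * M 3 3 - X 0 * M 4 3 = rho (M 3 3) • X 1
  z34 : X 1 * M 3 4 - X 0 * M 4 4 = (-rho (M 3 3)) • X 0
  c3 : M 3 3 * X 0 + M 3 4 * X 1 = rho (M 3 3) • X 0
  c4 : M 4 3 * X 0 + M 4 4 * X 1 = rho (M 3 3) • X 1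
  r31 : s = 0 → M 3 1 = 0 ∧ M 4 1 = 0
  c35 : s = 0 → M 3 5 * X 0 + M 3 6 * X 1 = 0 ∧ M 4 5 * X 0 + M 4 6 * X 1 = 0
  z35 : s = 0 → X 1 * M 3 5 - X 0 * M 4 5 = 0 ∧ X 1 * M 3 6 - X 0 * M 4 6 = 0
  zc35 : s = 1 → (X 1 * M 3 5 - X 0 * M 4 5) * X 0 + (X 1 * M 3 6 - X 0 * M 4 6) * X 1 = 0
  r52 : M 5 2 = 0
  r62 : M 6 2 = 0
  z51 : X 1 * M 5 1 - X 0 * M 6 1 = 0
  z55 : X 1 * M 5 5 - X 0 * M 6 5 = rho (M 5 5) • X 1
  z56 : X 1 * M 5 6 - X 0 * M 6 6 = (-rho (M 5 5)) • X 0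
  c5 : M 5 5 * X 0 + M 5 6 * X 1 = rho (M 5 5) • X 0
  c6 : M 6 5 * X 0 + M 6 6 * X 1 = rho (M 5 5) • X 1
  zc53 : s = 0 → (X 1 * M 5 3 - X 0 * M 6 3) * X 0 + (X 1 * M 5 4 - X 0 * M 6 4) * X 1 = 0
  z53 : s = 1 → X 1 * M 5 3 - X 0 * M 6 3 = 0 ∧ X 1 * M 5 4 - X 0 * M 6 4 = 0
  c53 : s = 1 → M 5 3 * X 0 + M 5 4 * X 1 = 0 ∧ M 6 3 * X 0 + M 6 4 * X 1 = 0

theorem Fil_z {g : K} {k P : ℤ} (hk : k < 0) {T : Op K} (hT : T ∈ Fil g k P) : T = 0 :=
  Fil_neg hk hT

theorem scal {g : K} {k P : ℤ} (hk : k ≤ 0) (hP : P = 0) {T : Op K} (hT : T ∈ Fil g k P) :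
    T = rho T • (1 : Op K) := by
  subst hP
  obtain ⟨c, rfl⟩ := Fil_00 hk hT
  rw [rho_smul_one]

/-- two constants with a vanishing combination -/
theorem two_cst {g : K} {k l P Q : ℤ} (hk : k ≤ 0) (hP : P = 0) (hl : l < 0) {a b : Op K}
    (ha : a ∈ Fil g k P) (hb : b ∈ Fil g k P) (h : a * X 0 + b * X 1 ∈ Fil g l Q) :
    a = 0 ∧ b = 0 := by
  have ha' := scal hk hP ha
  have hb' := scal hk hP hb
  have h0 := Fil_neg hl h
  rw [ha', hb'] at h0
  obtain ⟨h1, h2⟩ := cst h0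
  rw [ha', hb', h1, h2, zero_smul]
  exact ⟨rfl, rfl⟩

/-- two constants with a vanishing syzygy -/
theorem two_cst' {g : K} {k l P Q : ℤ} (hk : k ≤ 0) (hP : P = 0) (hl : l < 0) {a b : Op K}
    (ha : a ∈ Fil g k P) (hb : b ∈ Fil g k P) (h : X 1 * a - X 0 * b ∈ Fil g l Q) :
    a = 0 ∧ b = 0 := by
  have ha' := scal hk hP ha
  have hb' := scal hk hP hb
  have h0 := Fil_neg hl h
  rw [ha', hb', mul_smul_comm, mul_smul_comm, mul_one, mul_one, sub_eq_add_neg, ← neg_smul,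
    add_comm] at h0
  obtain ⟨h1, h2⟩ := X_lin h0
  rw [ha', hb', h2, neg_eq_zero.1 h1, zero_smul]
  exact ⟨rfl, rfl⟩

theorem str {g : K} {s : ℤ} (hs : s = 0 ∨ s = 1) {M : Mat K} (hM : Pres g s 0 M) : Str s M := by
  have hs0 : 0 ≤ s := by omega
  have hs1 : s ≤ 1 := by omega
  have H0 := hM 0 0 _ (e_mem g s 0 0 (by simp) (by simp) (by simp) (by simp) (by simp) (by simp)
    (by simp))
  have H1 := hM 1 0 _ (e_mem g s 1 1 (by simp) (by simp) (by simp) (by simp) (by simp) (by simp)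
    (by simp))
  have H2 := hM 2 0 _ (e_mem g s 2 2 (by simp) (by simp) (by simp) (by simp) (by simp) (by simp)
    (by simp))
  have H3 := hM (s + 1) 0 _ (e_mem g s (s + 1) 3 (by simp) (by simp) (by simp) (by simp) (by simp)
    (by simp) (by simp))
  have H4 := hM (s + 1) 0 _ (e_mem g s (s + 1) 4 (by simp) (by simp) (by simp) (by simp) (by simp)
    (by simp) (by simp))
  have H5 := hM 2 0 _ (e_mem g s 2 5 (by simp) (by simp) (by simp) (by simp) (by simp) (by simp)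
    (by simp))
  have H6 := hM 2 0 _ (e_mem g s 2 6 (by simp) (by simp) (by simp) (by simp) (by simp) (by simp)
    (by simp))
  have Z3 := hM s 1 _ (s3_mem g le_rfl)
  have Z5 := hM 0 1 _ (s5_mem g (s := s) le_rfl)
  rw [e_vec, row_mem] at H0 H1 H2 H3 H4 H5 H6
  rw [s3_vec, row_mem] at Z3
  rw [s5_vec, row_mem] at Z5
  simp only [add_zero, zero_add] at H0 H1 H2 H3 H4 H5 H6 Z3 Z5
  obtain ⟨a00, a01, a02, ⟨a03, a04, a0c⟩, a05, a06, a0d⟩ := H0
  obtain ⟨a10, a11, a12, ⟨a13, a14, a1c⟩, a15, a16, a1d⟩ := H1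
  obtain ⟨a20, a21, a22, ⟨a23, a24, a2c⟩, a25, a26, a2d⟩ := H2
  obtain ⟨a30, a31, a32, ⟨a33, a34, a3c⟩, a35, a36, a3d⟩ := H3
  obtain ⟨a40, a41, a42, ⟨a43, a44, a4c⟩, a45, a46, a4d⟩ := H4
  obtain ⟨a50, a51, a52, ⟨a53, a54, a5c⟩, a55, a56, a5d⟩ := H5
  obtain ⟨a60, a61, a62, ⟨a63, a64, a6c⟩, a65, a66, a6d⟩ := H6
  obtain ⟨z30, z31, z32, ⟨z33, z34, z3c⟩, z35, z36, z3d⟩ := Z3
  obtain ⟨z50, z51, z52, ⟨z53, z54, z5c⟩, z55, z56, z5d⟩ := Z5
  have m : ∀ {k l P Q : ℤ} {T : Op K}, T ∈ Fil g k P → k ≤ l → P = Q → T ∈ Fil g l Q := by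
    intro k l P Q T h h1 h2
    subst h2
    exact Fil_mono g h1 h
  -- the two diagonal blocks
  have C3 := cc (g := g) (k := 1) (by norm_num) (m a33 (by omega) rfl) (m a34 (by omega) rfl)
    (m a43 (by omega) rfl) (m a44 (by omega) rfl) (m a3c (by omega) rfl) (m a4c (by omega) rfl)
    (m z33 (by omega) rfl) (m z34 (by omega) rfl) (Fil_z (by omega) z3c)
  have C5 := cc (g := g) (k := 2) (by norm_num) (m a55 (by omega) rfl) (m a56 (by omega) rfl)
    (m a65 (by omega) rfl) (m a66 (by omega) rfl) (m a5d (by omega) rfl) (m a6d (by omega) rfl)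
    (m z55 (by omega) rfl) (m z56 (by omega) rfl) (Fil_z (by omega) z5d)
  have B0 := two_cst (by omega) rfl (by omega) a03 a04 a0c
  have B0' := two_cst (by omega) rfl (by omega) a05 a06 a0d
  have B1 : s = 1 → M 1 3 = 0 ∧ M 1 4 = 0 := fun h =>
    two_cst (by omega) rfl (by omega) a13 a14 a1c
  have B31 : s = 0 → M 3 1 = 0 ∧ M 4 1 = 0 := fun h =>
    two_cst' (by omega) rfl (by omega) a31 a41 z31
  have B32 : M 3 2 = 0 ∧ M 4 2 = 0 := by
    rcases hs with rfl | rfl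
    · exact ⟨Fil_z (by omega) a32, Fil_z (by omega) a42⟩
    · exact two_cst' (by omega) rfl (by omega) a32 a42 z32
  have B52 : M 5 2 = 0 ∧ M 6 2 = 0 := two_cst' (by omega) rfl (by omega) a52 a62 z52
  refine
    { r00 := scal (by omega) rfl a00
      r0 := ?_
      r11 := scal (by omega) rfl a11
      r12 := Fil_z (by omega) a12
      r1c := Fil_z (by omega) a1d
      r1s := B1
      r22 := scal (by omega) rfl a22
      r32 := B32.1
      r42 := B32.2
      z33 := C3.1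
      z34 := C3.2.1
      c3 := C3.2.2.1
      c4 := C3.2.2.2
      r31 := B31
      c35 := fun h => ⟨Fil_z (by omega) a3d, Fil_z (by omega) a4d⟩
      z35 := ?_
      zc35 := fun h => Fil_z (by omega) z3d
      r52 := B52.1
      r62 := B52.2
      z51 := Fil_z (by omega) z51
      z55 := C5.1
      z56 := C5.2.1
      c5 := C5.2.2.1
      c6 := C5.2.2.2
      zc53 := fun h => Fil_z (by omega) z5c
      z53 := fun h => ⟨Fil_z (by omega) z53, Fil_z (by omega) z54⟩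
      c53 := ?_ }
  · intro j hj
    fin_cases j
    · exact absurd rfl hj
    · exact Fil_z (by omega) a01
    · exact Fil_z (by omega) a02
    · exact B0.1
    · exact B0.2
    · exact B0'.1
    · exact B0'.2
  · intro h
    have C := cc (g := g) (k := 1) (by norm_num) (m a35 (by omega) rfl) (m a36 (by omega) rfl)
      (m a45 (by omega) rfl) (m a46 (by omega) rfl) (m a3d (by omega) rfl) (m a4d (by omega) rfl)
      (m z35 (by omega) rfl) (m z36 (by omega) rfl) (Fil_z (by omega) z3d)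
    have h0 : rho (M 3 5) = 0 := by
      apply X_ne (i := 0)
      rw [← C.2.2.1]
      exact Fil_z (by omega) a3d
    rw [C.1, C.2.1, h0, neg_zero, zero_smul, zero_smul]
    exact ⟨rfl, rfl⟩
  · intro h
    have C := cc (g := g) (k := 1) (by norm_num) (m a53 (by omega) rfl) (m a54 (by omega) rfl)
      (m a63 (by omega) rfl) (m a64 (by omega) rfl) (m a5c (by omega) rfl) (m a6c (by omega) rfl)
      (m z53 (by omega) rfl) (m z54 (by omega) rfl) (Fil_z (by omega) z5c)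
    have h0 : rho (M 5 3) = 0 := by
      apply X_ne (i := 1)
      rw [← C.1]
      exact Fil_z (by omega) z53
    rw [C.2.2.1, C.2.2.2, h0, zero_smul, zero_smul]
    exact ⟨rfl, rfl⟩

/-! ### the flag -/

/-- the radical part: all five scalars vanish -/
structure Rd (M : Mat K) : Prop where
  k0 : rho (M 0 0) = 0
  k1 : rho (M 1 1) = 0
  k2 : rho (M 2 2) = 0
  k3 : rho (M 3 3) = 0
  k5 : rho (M 5 5) = 0

theorem col (M : Mat K) (v : Fin 7 → Op K) (j : Fin 7) : (v ᵥ* M) j =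
    v 0 * M 0 j + v 1 * M 1 j + v 2 * M 2 j + (v 3 * M 3 j + v 4 * M 4 j) +
      (v 5 * M 5 j + v 6 * M 6 j) := by
  simp only [Matrix.vecMul, dotProduct, Fin.sum_univ_seven]
  abel

theorem colc (M : Mat K) (v : Fin 7 → Op K) (a b : Fin 7) :
    (v ᵥ* M) a * X 0 + (v ᵥ* M) b * X 1 =
    v 0 * (M 0 a * X 0 + M 0 b * X 1) + v 1 * (M 1 a * X 0 + M 1 b * X 1) +
    v 2 * (M 2 a * X 0 + M 2 b * X 1) + (v 3 * (M 3 a * X 0 + M 3 b * X 1) +
    v 4 * (M 4 a * X 0 + M 4 b * X 1)) + (v 5 * (M 5 a * X 0 + M 5 b * X 1) +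
    v 6 * (M 6 a * X 0 + M 6 b * X 1)) := by
  rw [col, col]
  simp only [add_mul, mul_add, mul_assoc]
  abel

theorem pair {p q u : Op K} (h1 : p = u * X 1) (h2 : q + u * X 0 = 0) (a b : Op K) :
    p * a + q * b = u * (X 1 * a - X 0 * b) := by
  have h3 : q = -(u * X 0) := eq_neg_of_add_eq_zero_left h2
  rw [h1, h3, mul_sub, neg_mul, mul_assoc, mul_assoc, sub_eq_add_neg]

theorem zc (a b a' b' : Op K) : X 1 * (a * X 0 + b * X 1) - X 0 * (a' * X 0 + b' * X 1) =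
    (X 1 * a - X 0 * a') * X 0 + (X 1 * b - X 0 * b') * X 1 :=
  r1 (R := Op K) _ _ _ _ _ _

section step

variable {s : ℤ} {M : Mat K} (S : Str s M) (R : Rd M) {v : Fin 7 → Op K}
include S R

theorem row0z (j : Fin 7) : M 0 j = 0 := by
  by_cases h : j = 0
  · subst h
    rw [S.r00, R.k0, zero_smul]
  · exact S.r0 j h

theorem A1 : (v ᵥ* M) 2 = 0 := by
  rw [col, row0z S R, S.r12, S.r22, R.k2, S.r32, S.r42, S.r52, S.r62]
  simp

theorem A2 (hs : s = 0) (h2 : v 2 = 0) : (v ᵥ* M) 5 * X 0 + (v ᵥ* M) 6 * X 1 = 0 := by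
  rw [colc, row0z S R, row0z S R, S.r1c, h2, (S.c35 hs).1, (S.c35 hs).2, S.c5, S.c6, R.k5]
  simp

theorem A3 (hs : s = 0) (h2 : v 2 = 0) (hc : v 5 * X 0 + v 6 * X 1 = 0) : (v ᵥ* M) 1 = 0 := by
  obtain ⟨u, u1, u2⟩ := kos hc
  rw [col, row0z S R, S.r11, R.k1, h2, (S.r31 hs).1, (S.r31 hs).2, pair u1 u2, S.z51]
  simp

theorem A4 (hs : s = 0) (h2 : v 2 = 0) (hc : v 5 * X 0 + v 6 * X 1 = 0) (h1 : v 1 = 0) :
    (v ᵥ* M) 3 * X 0 + (v ᵥ* M) 4 * X 1 = 0 := by
  obtain ⟨u, u1, u2⟩ := kos hc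
  rw [colc, row0z S R, row0z S R, h1, h2, S.c3, S.c4, R.k3, pair u1 u2, zc,
    S.zc53 hs]
  simp

theorem A5 (hs : s = 0) (h2 : v 2 = 0) (hc : v 5 * X 0 + v 6 * X 1 = 0) (h1 : v 1 = 0)
    (hc' : v 3 * X 0 + v 4 * X 1 = 0) : (v ᵥ* M) 5 = 0 ∧ (v ᵥ* M) 6 = 0 := by
  obtain ⟨u, u1, u2⟩ := kos hc
  obtain ⟨w, w1, w2⟩ := kos hc'
  constructor
  · rw [col, row0z S R, h1, h2, pair u1 u2, S.z55, R.k5, pair w1 w2, (S.z35 hs).1]
    simp
  · rw [col, row0z S R, h1, h2, pair u1 u2, S.z56, R.k5, pair w1 w2, (S.z35 hs).2]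
    simp

theorem A6 (h2 : v 2 = 0) (h1 : v 1 = 0)
    (hc' : v 3 * X 0 + v 4 * X 1 = 0) (h5 : v 5 = 0) (h6 : v 6 = 0) :
    (v ᵥ* M) 3 = 0 ∧ (v ᵥ* M) 4 = 0 := by
  obtain ⟨w, w1, w2⟩ := kos hc'
  constructor
  · rw [col, row0z S R, h1, h2, h5, h6, pair w1 w2, S.z33, R.k3]
    simp
  · rw [col, row0z S R, h1, h2, h5, h6, pair w1 w2, S.z34, R.k3]
    simp

theorem A7 (h1 : v 1 = 0) (h2 : v 2 = 0) (h3 : v 3 = 0) (h4 : v 4 = 0) (h5 : v 5 = 0)
    (h6 : v 6 = 0) : v ᵥ* M = 0 := by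
  funext j
  rw [col, row0z S R, h1, h2, h3, h4, h5, h6]
  simp

theorem B2 (hs : s = 1) (h2 : v 2 = 0) : (v ᵥ* M) 3 * X 0 + (v ᵥ* M) 4 * X 1 = 0 := by
  rw [colc, row0z S R, row0z S R, (S.r1s hs).1, (S.r1s hs).2, h2, S.c3, S.c4, R.k3,
    (S.c53 hs).1, (S.c53 hs).2]
  simp

theorem B3 (hs : s = 1) (h2 : v 2 = 0) (hc : v 3 * X 0 + v 4 * X 1 = 0) :
    (v ᵥ* M) 5 * X 0 + (v ᵥ* M) 6 * X 1 = 0 := by
  obtain ⟨w, w1, w2⟩ := kos hc
  rw [colc, row0z S R, row0z S R, S.r1c, h2, S.c5, S.c6, R.k5, pair w1 w2, zc, S.zc35 hs]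
  simp

theorem B4 (hs : s = 1) (h2 : v 2 = 0) (hc : v 3 * X 0 + v 4 * X 1 = 0)
    (hc' : v 5 * X 0 + v 6 * X 1 = 0) : (v ᵥ* M) 3 = 0 ∧ (v ᵥ* M) 4 = 0 := by
  obtain ⟨w, w1, w2⟩ := kos hc
  obtain ⟨u, u1, u2⟩ := kos hc'
  constructor
  · rw [col, row0z S R, (S.r1s hs).1, h2, pair u1 u2, (S.z53 hs).1,
      pair w1 w2, S.z33, R.k3]
    simp
  · rw [col, row0z S R, (S.r1s hs).2, h2, pair u1 u2, (S.z53 hs).2,
      pair w1 w2, S.z34, R.k3]
    simp

theorem B5 (h2 : v 2 = 0) (hc' : v 5 * X 0 + v 6 * X 1 = 0) (h3 : v 3 = 0)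
    (h4 : v 4 = 0) : (v ᵥ* M) 1 = 0 := by
  obtain ⟨u, u1, u2⟩ := kos hc'
  rw [col, row0z S R, S.r11, R.k1, h2, h3, h4, pair u1 u2, S.z51]
  simp

theorem B6 (h2 : v 2 = 0) (hc' : v 5 * X 0 + v 6 * X 1 = 0) (h3 : v 3 = 0)
    (h4 : v 4 = 0) (h1 : v 1 = 0) : (v ᵥ* M) 5 = 0 ∧ (v ᵥ* M) 6 = 0 := by
  obtain ⟨u, u1, u2⟩ := kos hc'
  constructor
  · rw [col, row0z S R, h1, h2, h3, h4, pair u1 u2, S.z55, R.k5]
    simp
  · rw [col, row0z S R, h1, h2, h3, h4, pair u1 u2, S.z56, R.k5]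
    simp

end step

theorem nil0 {s : ℤ} {M : Mat K} (S : Str s M) (R : Rd M) (hs : s = 0) (v : Fin 7 → Op K) :
    v ᵥ* M ᵥ* M ᵥ* M ᵥ* M ᵥ* M ᵥ* M ᵥ* M = 0 := by
  have a : ∀ v : Fin 7 → Op K, (v ᵥ* M) 2 = 0 := fun v => A1 S R
  have b : ∀ v : Fin 7 → Op K, v 2 = 0 → _ := fun v => A2 S R hs (v := v)
  have c : ∀ v : Fin 7 → Op K, v 2 = 0 → _ → _ := fun v => A3 S R hs (v := v)
  have d : ∀ v : Fin 7 → Op K, v 2 = 0 → _ → _ → _ := fun v => A4 S R hs (v := v)
  have e : ∀ v : Fin 7 → Op K, v 2 = 0 → _ → _ → _ → _ := fun v => A5 S R hs (v := v)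
  have b2 := b _ (a v)
  have b3 := b _ (a (v ᵥ* M))
  have b4 := b _ (a (v ᵥ* M ᵥ* M))
  have b5 := b _ (a (v ᵥ* M ᵥ* M ᵥ* M))
  have c3 := c _ (a _) b2
  have c4 := c _ (a _) b3
  have c5 := c _ (a _) b4
  have c6 := c _ (a _) b5
  have d4 := d _ (a _) b3 c3
  have d5 := d _ (a _) b4 c4
  have e5 := e _ (a _) b4 c4 d4
  have e6 := e _ (a _) b5 c5 d5
  have f6 := A6 S R (a _) c5 d5 e5.1 e5.2
  exact A7 S R c6 (a _) f6.1 f6.2 e6.1 e6.2

theorem nil1 {s : ℤ} {M : Mat K} (S : Str s M) (R : Rd M) (hs : s = 1) (v : Fin 7 → Op K) :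
    v ᵥ* M ᵥ* M ᵥ* M ᵥ* M ᵥ* M ᵥ* M ᵥ* M = 0 := by
  have a : ∀ v : Fin 7 → Op K, (v ᵥ* M) 2 = 0 := fun v => A1 S R
  have b : ∀ v : Fin 7 → Op K, v 2 = 0 → _ := fun v => B2 S R hs (v := v)
  have c : ∀ v : Fin 7 → Op K, v 2 = 0 → _ → _ := fun v => B3 S R hs (v := v)
  have d : ∀ v : Fin 7 → Op K, v 2 = 0 → _ → _ → _ := fun v => B4 S R hs (v := v)
  have b2 := b _ (a v)
  have b3 := b _ (a (v ᵥ* M))
  have b4 := b _ (a (v ᵥ* M ᵥ* M))
  have b5 := b _ (a (v ᵥ* M ᵥ* M ᵥ* M))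
  have c3 := c _ (a _) b2
  have c4 := c _ (a _) b3
  have c5 := c _ (a _) b4
  have d4 := d _ (a _) b3 c3
  have d5 := d _ (a _) b4 c4
  have d6 := d _ (a _) b5 c5
  have e5 := B5 S R (a _) c4 d4.1 d4.2
  have e6 := B5 S R (a _) c5 d5.1 d5.2
  have f6 := B6 S R (a _) c5 d5.1 d5.2 e5
  exact A7 S R e6 (a _) d6.1 d6.2 f6.1 f6.2

theorem p7 {R : Type*} [Monoid R] (a : R) : a ^ 7 = a * a * a * a * a * a * a := by
  simp only [pow_succ, pow_zero, one_mul]

theorem pow7 {s : ℤ} (hs : s = 0 ∨ s = 1) {M : Mat K} (S : Str s M) (R : Rd M) : M ^ 7 = 0 := by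
  have h : ∀ v : Fin 7 → Op K, v ᵥ* M ^ 7 = 0 := by
    intro v
    rw [p7 M, ← Matrix.vecMul_vecMul, ← Matrix.vecMul_vecMul, ← Matrix.vecMul_vecMul,
      ← Matrix.vecMul_vecMul, ← Matrix.vecMul_vecMul, ← Matrix.vecMul_vecMul]
    rcases hs with h | h
    · exact nil0 S R h v
    · exact nil1 S R h v
  funext i
  have := h (Pi.single i 1)
  rwa [e_vec] at this

theorem mul_row (M N : Mat K) (i : Fin 7) : (M * N) i = M i ᵥ* N := by
  funext j
  rw [Matrix.mul_apply]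
  rfl

/-- products of radical elements are radical -/
theorem Rd.mul {s : ℤ} (hs : s = 0 ∨ s = 1) {M N : Mat K} (S : Str s M) (R : Rd M) (S' : Str s N)
    (R' : Rd N) (T : Str s (M * N)) : Rd (M * N) := by
  have w2 : (s3 K ᵥ* M) 2 = 0 := by rw [s3_vec]; simp [S.r32, S.r42]
  have w3 : (s3 K ᵥ* M) 3 = 0 := by rw [s3_vec]; simp only [S.z33, R.k3, zero_smul]
  have w4 : (s3 K ᵥ* M) 4 = 0 := by rw [s3_vec]; simp only [S.z34, R.k3, neg_zero, zero_smul]
  have u1 : (s5 K ᵥ* M) 1 = 0 := by rw [s5_vec]; exact S.z51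
  have u2 : (s5 K ᵥ* M) 2 = 0 := by rw [s5_vec]; simp [S.r52, S.r62]
  have u5 : (s5 K ᵥ* M) 5 = 0 := by rw [s5_vec]; simp only [S.z55, R.k5, zero_smul]
  have u6 : (s5 K ᵥ* M) 6 = 0 := by rw [s5_vec]; simp only [S.z56, R.k5, neg_zero, zero_smul]
  refine ⟨?_, ?_, ?_, ?_, ?_⟩
  · rw [mul_row, A7 S' R']
    · simp
    all_goals exact row0z S R _
  · rw [mul_row]
    rcases hs with h | h
    · rw [A3 S' R' h S.r12 S.r1c, map_zero]
    · rw [B5 S' R' S.r12 S.r1c (S.r1s h).1 (S.r1s h).2, map_zero]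
  · rw [mul_row, A1 S' R', map_zero]
  · apply X_ne (i := 1)
    rw [← T.z33]
    have : X 1 * (M * N) 3 3 - X 0 * (M * N) 4 3 = (s3 K ᵥ* (M * N)) 3 := by rw [s3_vec]
    rw [this, ← Matrix.vecMul_vecMul]
    rcases hs with h | h
    · rw [A7 S' R' _ w2 w3 w4]
      · rfl
      · rw [s3_vec]; exact (S.z35 h).1
      · rw [s3_vec]; exact (S.z35 h).2
      · rw [s3_vec]; simp [(S.r31 h).1, (S.r31 h).2]
    · refine (B4 S' R' h w2 ?_ ?_).1
      · rw [w3, w4]; simp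
      · rw [s3_vec]; exact S.zc35 h
  · apply X_ne (i := 1)
    rw [← T.z55]
    have : X 1 * (M * N) 5 5 - X 0 * (M * N) 6 5 = (s5 K ᵥ* (M * N)) 5 := by rw [s5_vec]
    rw [this, ← Matrix.vecMul_vecMul]
    rcases hs with h | h
    · refine (A5 S' R' h u2 ?_ u1 ?_).1
      · rw [u5, u6]; simp
      · rw [s5_vec]; exact S.zc53 h
    · rw [A7 S' R' u1 u2 _ _ u5 u6]
      · rfl
      · rw [s5_vec]; exact (S.z53 h).1
      · rw [s5_vec]; exact (S.z53 h).2

/-! ### diagonal elements and idempotents -/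

/-- the vertex of a position -/
def blk : Fin 7 → Fin 5 := ![0, 1, 2, 3, 3, 4, 4]

/-- the first position of a vertex -/
def pos : Fin 5 → Fin 7 := ![0, 1, 2, 3, 5]

theorem blk_pos (v : Fin 5) : blk (pos v) = v := by fin_cases v <;> rfl

/-- diagonal matrices of constants -/
noncomputable def dg (c : Fin 5 → K) : Mat K := Matrix.diagonal fun i => c (blk i) • (1 : Op K)

theorem vec_dg (c : Fin 5 → K) (v : Fin 7 → Op K) (j : Fin 7) :
    (v ᵥ* dg c) j = c (blk j) • v j := by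
  rw [dg, Matrix.vecMul_diagonal, mul_smul_comm, mul_one]

theorem dg_mul (c d : Fin 5 → K) : dg c * dg d = dg (K := K) (c * d) := by
  rw [dg, dg, dg, Matrix.diagonal_mul_diagonal]
  congr 1
  funext i
  rw [smul_mul_assoc, one_mul, smul_smul]
  rfl

theorem dg_pres (g : K) (s : ℤ) (c : Fin 5 → K) : Pres g s 0 (dg c) := by
  intro k P v hv
  rw [add_zero]
  rw [row_mem] at hv ⊢
  obtain ⟨v0, v1, v2, ⟨v3, v4, v5⟩, v6, v7, v8⟩ := hv
  simp only [vec_dg]
  refine ⟨Submodule.smul_mem _ _ v0, Submodule.smul_mem _ _ v1, Submodule.smul_mem _ _ v2,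
    ⟨Submodule.smul_mem _ _ v3, Submodule.smul_mem _ _ v4, ?_⟩,
    Submodule.smul_mem _ _ v6, Submodule.smul_mem _ _ v7, ?_⟩
  · have := Submodule.smul_mem _ (c 3) v5
    rw [smul_add, ← smul_mul_assoc, ← smul_mul_assoc] at this
    exact this
  · have := Submodule.smul_mem _ (c 4) v8
    rw [smul_add, ← smul_mul_assoc, ← smul_mul_assoc] at this
    exact this

theorem dg_ii (c : Fin 5 → K) (v : Fin 5) : dg c (pos v) (pos v) = c v • (1 : Op K) := by
  rw [dg, Matrix.diagonal_apply_eq, blk_pos]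

/-- the diagonal element of `A g s` -/
noncomputable def di (g : K) (s : ℤ) (c : Fin 5 → K) : A g s :=
  ⟨TrivSqZeroExt.inl (dg c), by
    refine ⟨?_, ?_⟩
    · rw [TrivSqZeroExt.fst_inl]; exact dg_pres g s c
    · rw [TrivSqZeroExt.snd_inl]; exact Pres.zero g s 1⟩

theorem di_fst (g : K) (s : ℤ) (c : Fin 5 → K) : (di g s c).1.fst = dg c := rfl
theorem di_snd (g : K) (s : ℤ) (c : Fin 5 → K) : (di g s c).1.snd = 0 := rfl

theorem di_mul (g : K) (s : ℤ) (c d : Fin 5 → K) : di g s c * di g s d = di g s (c * d) := by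
  apply Subtype.ext
  show TrivSqZeroExt.inl (dg c) * TrivSqZeroExt.inl (dg d) = TrivSqZeroExt.inl (dg (c * d))
  rw [TrivSqZeroExt.inl_mul_inl, dg_mul]

theorem di_one (g : K) (s : ℤ) : di g s 1 = 1 := by
  apply Subtype.ext
  show TrivSqZeroExt.inl (dg 1) = 1
  have : dg (K := K) 1 = 1 := by
    rw [dg]
    simp
  rw [this]
  rfl

theorem di_add (g : K) (s : ℤ) (c d : Fin 5 → K) : di g s (c + d) = di g s c + di g s d := by
  apply Subtype.ext
  show TrivSqZeroExt.inl (dg (c + d)) = TrivSqZeroExt.inl (dg c) + TrivSqZeroExt.inl (dg d)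
  rw [← TrivSqZeroExt.inl_add]
  congr 1
  rw [dg, dg, dg, Matrix.diagonal_add]
  congr 1
  funext i
  rw [← add_smul]
  rfl

theorem di_zero (g : K) (s : ℤ) : di g s 0 = 0 := by
  apply Subtype.ext
  show TrivSqZeroExt.inl (dg 0) = 0
  have : dg (K := K) 0 = 0 := by
    rw [dg]
    simp
  rw [this]
  rfl

/-- the idempotents -/
noncomputable def eps (g : K) (s : ℤ) (v : Fin 5) : A g s := di g s (Pi.single v 1)

theorem eps_mul_self (g : K) (s : ℤ) (v : Fin 5) : eps g s v * eps g s v = eps g s v := by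
  rw [eps, di_mul]
  congr 1
  rw [← Pi.single_mul, mul_one]

theorem eps_mul_ne (g : K) (s : ℤ) {v w : Fin 5} (h : v ≠ w) : eps g s v * eps g s w = 0 := by
  rw [eps, eps, di_mul, ← di_zero g s]
  congr 1
  funext i
  by_cases hi : i = v
  · subst hi
    simp [h]
  · simp [hi]

theorem eps_sum (g : K) (s : ℤ) : ∑ v, eps g s v = 1 := by
  rw [← di_one, Fin.sum_univ_five]
  simp only [eps, ← di_add]
  congr 1
  funext i
  fin_cases i <;> simp

/-! ### the characters -/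

/-- the five scalars -/
noncomputable def q (g : K) (s : ℤ) : A g s →ₗ[K] (Fin 5 → K) where
  toFun x := fun v => rho (x.1.fst (pos v) (pos v))
  map_add' x y := by
    funext v
    show rho ((x.1.fst + y.1.fst) (pos v) (pos v)) = _
    rw [Matrix.add_apply, map_add]
    rfl
  map_smul' c x := by
    funext v
    show rho ((c • x.1.fst) (pos v) (pos v)) = _
    rw [Matrix.smul_apply, map_smul]
    rfl

theorem q_apply (g : K) (s : ℤ) (x : A g s) (v : Fin 5) :
    q g s x v = rho (x.1.fst (pos v) (pos v)) := rfl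

theorem q_di (g : K) (s : ℤ) (c : Fin 5 → K) : q g s (di g s c) = c := by
  funext v
  rw [q_apply, di_fst, dg_ii, rho_smul_one]

theorem Rd_of {g : K} {s : ℤ} {x : A g s} (h : q g s x = 0) : Rd x.1.fst :=
  ⟨congrFun h 0, congrFun h 1, congrFun h 2, congrFun h 3, congrFun h 4⟩

theorem of_Rd {g : K} {s : ℤ} {x : A g s} (h : Rd x.1.fst) : q g s x = 0 := by
  funext v
  fin_cases v
  exacts [h.k0, h.k1, h.k2, h.k3, h.k5]

theorem q_mul_rad {g : K} {s : ℤ} (hs : s = 0 ∨ s = 1) {x y : A g s} (hx : q g s x = 0)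
    (hy : q g s y = 0) : q g s (x * y) = 0 := by
  apply of_Rd
  have e : (x * y).1.fst = x.1.fst * y.1.fst := rfl
  rw [e]
  have h3 := str hs (x * y).2.1
  rw [e] at h3
  exact (Rd_of hx).mul hs (str hs x.2.1) (str hs y.2.1) (Rd_of hy) h3

theorem q_di_mul {g : K} {s : ℤ} (c : Fin 5 → K) (x : A g s) :
    q g s (di g s c * x) = c * q g s x := by
  funext v
  rw [q_apply]
  have e : (di g s c * x).1.fst = dg c * x.1.fst := rfl
  rw [e, dg, Matrix.diagonal_mul, blk_pos, smul_mul_assoc, one_mul, map_smul]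
  rfl

theorem q_mul_di {g : K} {s : ℤ} (c : Fin 5 → K) (x : A g s) :
    q g s (x * di g s c) = q g s x * c := by
  funext v
  rw [q_apply]
  have e : (x * di g s c).1.fst = x.1.fst * dg c := rfl
  rw [e, dg, Matrix.mul_diagonal, blk_pos, mul_smul_comm, mul_one, map_smul, smul_eq_mul,
    mul_comm]
  rfl

theorem q_mul {g : K} {s : ℤ} (hs : s = 0 ∨ s = 1) (x y : A g s) :
    q g s (x * y) = q g s x * q g s y := by
  have hx : q g s (x - di g s (q g s x)) = 0 := by rw [map_sub, q_di, sub_self]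
  have hy : q g s (y - di g s (q g s y)) = 0 := by rw [map_sub, q_di, sub_self]
  have h := q_mul_rad hs hx hy
  have e : (x - di g s (q g s x)) * (y - di g s (q g s y)) =
      x * y - di g s (q g s x) * y - x * di g s (q g s y) +
        di g s (q g s x) * di g s (q g s y) := by
    rw [sub_mul, mul_sub, mul_sub]
    abel
  rw [e, map_add, map_sub, map_sub, q_di_mul, q_mul_di, q_di_mul, q_di] at h
  have h2 : q g s (x * y) - q g s x * q g s y = 0 := by
    rw [← h]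
    abel
  exact sub_eq_zero.1 h2

/-- the algebra homomorphism to `K⁵` -/
noncomputable def Q (g : K) {s : ℤ} (hs : s = 0 ∨ s = 1) : A g s →ₐ[K] (Fin 5 → K) :=
  AlgHom.ofLinearMap (q g s) (by rw [← di_one, q_di]) (q_mul hs)

theorem Q_apply {g : K} {s : ℤ} (hs : s = 0 ∨ s = 1) (x : A g s) : Q g hs x = q g s x := rfl

theorem Q_surj {g : K} {s : ℤ} (hs : s = 0 ∨ s = 1) : Function.Surjective (Q g hs) :=
  fun c => ⟨di g s c, q_di g s c⟩

theorem sq_zero {y : DualNumber (Mat K)} (h : y.fst = 0) : y * y = 0 := by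
  apply TrivSqZeroExt.ext
  · rw [TrivSqZeroExt.fst_mul, h, mul_zero]
    rfl
  · rw [TrivSqZeroExt.snd_mul, h]
    simp

theorem Q_nil {g : K} {s : ℤ} (hs : s = 0 ∨ s = 1) (x : A g s) (h : Q g hs x = 0) :
    IsNilpotent x := by
  refine ⟨14, ?_⟩
  apply Subtype.ext
  have h1 : (x.1 ^ 7).fst = 0 := by
    rw [TrivSqZeroExt.fst_pow]
    exact pow7 hs (str hs x.2.1) (Rd_of h)
  have h2 : (x.1 ^ 14 : DualNumber (Mat K)) = x.1 ^ 7 * x.1 ^ 7 := by rw [← pow_add]
  show (x.1 ^ 14 : DualNumber (Mat K)) = 0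
  rw [h2, sq_zero h1]

theorem simples (g : K) {s : ℤ} (hs : s = 0 ∨ s = 1) : Spine700.Simples K (A g s) 5 :=
  ⟨Q g hs, Q_surj hs, Q_nil hs⟩

/-! ### finite dimension -/

theorem Fil_finite (g : K) (k P : ℤ) : FiniteDimensional K (Fil g k P) := by
  have hfin : Set.Finite {T : Op K | ∃ a b : ℕ × ℕ, (b.1 : ℤ) + b.2 ≤ k ∧
      (a.1 : ℤ) + a.2 - (b.1 + b.2) = P ∧ T = mon g a b} := by
    have h1 : Set.Finite (Set.Iic ((k + P).toNat, (k + P).toNat) ×ˢ Set.Iic (k.toNat, k.toNat) :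
        Set ((ℕ × ℕ) × (ℕ × ℕ))) := (Set.finite_Iic _).prod (Set.finite_Iic _)
    refine (h1.image fun z => mon g z.1 z.2).subset ?_
    rintro T ⟨a, b, h2, h3, rfl⟩
    refine ⟨(a, b), ⟨?_, ?_⟩, rfl⟩
    · exact Prod.mk_le_mk.2 ⟨by omega, by omega⟩
    · exact Prod.mk_le_mk.2 ⟨by omega, by omega⟩
  exact FiniteDimensional.span_of_finite K hfin

/-- entries have order at most two -/
theorem entry_mem {g : K} {s : ℤ} (hs : s = 0 ∨ s = 1) {e : ℤ} {M : Mat K} (hM : Pres g s e M)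
    (i j : Fin 7) : M i j ∈ Fil g 2 e := by
  have h := hM 2 0 _ (e_mem g s 2 i (by intro; norm_num) (by intro; norm_num)
    (by intro; norm_num) (by intro; omega) (by intro; omega) (by intro; norm_num)
    (by intro; norm_num))
  rw [e_vec, row_mem, zero_add] at h
  obtain ⟨v0, v1, v2, ⟨v3, v4, _⟩, v6, v7, _⟩ := h
  fin_cases j
  exacts [v0, Fil_mono g (by omega) v1, Fil_mono g (by omega) v2, Fil_mono g (by omega) v3,
    Fil_mono g (by omega) v4, v6, v7]

theorem finiteDimensional (g : K) {s : ℤ} (hs : s = 0 ∨ s = 1) : FiniteDimensional K (A g s) := by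
  have := Fil_finite g 2 0
  have := Fil_finite g 2 1
  let f : A g s →ₗ[K] (Fin 7 → Fin 7 → Fil g 2 0) × (Fin 7 → Fin 7 → Fil g 2 1) :=
    { toFun := fun x => (fun i j => ⟨x.1.fst i j, entry_mem hs x.2.1 i j⟩,
        fun i j => ⟨x.1.snd i j, entry_mem hs x.2.2 i j⟩)
      map_add' := fun x y => rfl
      map_smul' := fun c x => rfl }
  refine FiniteDimensional.of_injective f ?_
  intro x y h
  apply Subtype.ext
  apply TrivSqZeroExt.ext
  · funext i j
    exact congrArg (fun z : (Fin 7 → Fin 7 → Fil g 2 0) × (Fin 7 → Fin 7 → Fil g 2 1) =>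
      ((z.1 i j : Fil g 2 0) : Op K)) h
  · funext i j
    exact congrArg (fun z : (Fin 7 → Fin 7 → Fil g 2 0) × (Fin 7 → Fin 7 → Fil g 2 1) =>
      ((z.2 i j : Fil g 2 1) : Op K)) h

instance fd0 (g : K) : FiniteDimensional K (A g 0) := finiteDimensional g (Or.inl rfl)
instance fd1 (g : K) : FiniteDimensional K (A g 1) := finiteDimensional g (Or.inr rfl)

end Crest.Agent.R186.NB581
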