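import Crest.Agent.R186.Coind_328
import Crest.Agent.R186.Dual_700

/-!
Row 186, S0281 (helper328): transport of `Ext` along a ring isomorphism, and the twisted dual
`Dt τ X' = Dl K X'` of a left `A'`-module along `τ : A → A'ᵐᵒᵖ`.
-/

set_option autoImplicit false
set_option linter.style.haveILetI false
set_option linter.unusedSectionVars false

universe u v

open CategoryTheory CategoryTheory.Abelian MulOpposite

namespace Crest.Agent.R186.Trans328

open ExtRes700 Coind328 Dual700

section iso

variable {R S : Type u} [Ring R] [Ring S] [Module R S] [IsScalarTower R S S]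

/-- `S ≃ R` as `R`-modules -/
noncomputable def selfEquiv (hb : Function.Bijective (fun r : R => r • (1 : S))) : R ≃ₗ[R] S :=
  LinearEquiv.ofBijective
    { toFun := fun r => r • (1 : S)
      map_add' := fun a b => add_smul a b 1
      map_smul' := fun a b => by
        rw [smul_eq_mul, mul_smul, RingHom.id_apply] } hb

variable {Y : Type u} [AddCommGroup Y] [Module S Y] [Module R Y] [IsScalarTower R S Y]

/-- `Hom_R(S, Y) = Y` -/
noncomputable def coEquiv (hb : Function.Bijective (fun r : R => r • (1 : S))) :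
    Co R S Y ≃ₗ[S] Y := by
  let f : Y →ₗ[S] Co R S Y := Co.up (LinearMap.id : Y →ₗ[R] Y)
  have hf : Function.Bijective f := by
    constructor
    · intro x y h
      have h1 := LinearMap.congr_fun (congrArg Co.ev h) 1
      change (LinearMap.id : Y →ₗ[R] Y) ((1 : S) • x) = (LinearMap.id : Y →ₗ[R] Y) ((1 : S) • y)
        at h1
      rw [one_smul, one_smul] at h1
      exact h1
    · intro φ
      refine ⟨φ.ev 1, ?_⟩
      apply Co.ext
      intro s
      obtain ⟨r, rfl⟩ := hb.2 s
      rw [Co.ev_up, LinearMap.id_apply]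
      change (r • (1 : S)) • φ.ev 1 = φ.ev (r • (1 : S))
      rw [smul_assoc, one_smul, map_smul]
  exact (LinearEquiv.ofBijective f hf).symm

/-- **`Ext` along a ring isomorphism** (as a bijective scalar action). -/
theorem e0_iff (hb : Function.Bijective (fun r : R => r • (1 : S)))
    (X : Type u) [AddCommGroup X] [Module S X] [Module R X] [IsScalarTower R S X] (i : ℕ) :
    E0 S X Y i ↔ E0 R X Y i := by
  have hp : ∀ j, 0 < j → E0 R S Y j := by
    intro j hj
    obtain ⟨k, rfl⟩ := Nat.exists_eq_add_of_le' hj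
    exact iso_left (selfEquiv hb) (k + 1) (proj (R := R) (X := R) k)
  have h1 := ext_co (A := R) (G := S) i Y hp X
  rw [← h1]
  constructor
  · intro h
    exact iso_right (coEquiv hb).symm i h
  · intro h
    exact iso_right (coEquiv hb) i h

end iso

/-! ### restriction along a ring isomorphism -/

section tau

variable {A B : Type u} [Ring A] [Ring B]

/-- restriction of scalars along `σ` -/
def Rs (_σ : A ≃+* B) (X : Type u) : Type u := X

variable (σ : A ≃+* B) {X Y Z : Type u} [AddCommGroup X] [Module B X] [AddCommGroup Y] [Module B Y]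
  [AddCommGroup Z] [Module B Z]

instance : AddCommGroup (Rs σ X) := inferInstanceAs (AddCommGroup X)

instance : Module A (Rs σ X) := Module.compHom X σ.toRingHom

/-- the identity -/
def toRs (x : X) : Rs σ X := x

/-- the identity -/
def unRs (x : Rs σ X) : X := x

theorem Rs.smul_def (a : A) (x : X) : a • toRs σ x = toRs σ (σ a • x) := rfl

/-- restriction of a linear map -/
def Rs.map (f : X →ₗ[B] Y) : Rs σ X →ₗ[A] Rs σ Y where
  toFun x := f x
  map_add' x y := map_add f x y
  map_smul' a x := LinearMap.map_smul f (σ a) (show X from x)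

@[simp] theorem Rs.map_apply (f : X →ₗ[B] Y) (x : Rs σ X) : Rs.map σ f x = f x := rfl

/-- a map of restrictions is a restriction -/
def Rs.unmap (f : Rs σ X →ₗ[A] Rs σ Y) : X →ₗ[B] Y where
  toFun x := f x
  map_add' x y := map_add f x y
  map_smul' b x := by
    have h1 := LinearMap.map_smul f (σ.symm b) x
    have h2 : ∀ z : X, (σ.symm b) • toRs σ z = toRs σ (b • z) := by
      intro z
      rw [Rs.smul_def, σ.apply_symm_apply]
    have h3 : ∀ z : Y, (σ.symm b) • toRs σ z = toRs σ (b • z) := by
      intro z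
      rw [Rs.smul_def, σ.apply_symm_apply]
    exact ((congrArg f (h2 x)).symm.trans h1).trans (h3 (f x))

theorem Rs.map_unmap (f : Rs σ X →ₗ[A] Rs σ Y) : Rs.map σ (Rs.unmap σ f) = f := rfl

theorem Rs.unmap_map (f : X →ₗ[B] Y) : Rs.unmap σ (Rs.map σ f) = f := rfl

theorem Rs.map_exact {f : X →ₗ[B] Y} {g : Y →ₗ[B] Z} (h : Function.Exact f g) :
    Function.Exact (Rs.map σ f) (Rs.map σ g) := h

/-- **`Ext` along a ring isomorphism.** -/
theorem e0_rs (i : ℕ) : E0 A (Rs σ X) (Rs σ Y) i ↔ E0 B X Y i := by
  letI mB : Module A B := Module.compHom B σ.toRingHom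
  letI mX : Module A X := Module.compHom X σ.toRingHom
  letI mY : Module A Y := Module.compHom Y σ.toRingHom
  haveI tB : IsScalarTower A B B := ⟨fun a x y => by
    change (σ a * x) * y = σ a * (x * y)
    rw [mul_assoc]⟩
  haveI tX : IsScalarTower A B X := ⟨fun a x y => by
    change (σ a * x) • y = σ a • (x • y)
    rw [mul_smul]⟩
  haveI tY : IsScalarTower A B Y := ⟨fun a x y => by
    change (σ a * x) • y = σ a • (x • y)
    rw [mul_smul]⟩
  have hb : Function.Bijective (fun r : A => r • (1 : B)) := by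
    have h1 : (fun r : A => r • (1 : B)) = σ := by
      funext r
      change σ r * 1 = σ r
      rw [mul_one]
    rw [h1]
    exact σ.bijective
  have h := e0_iff (R := A) (S := B) (Y := Y) hb X i
  exact h.symm

end tau

/-! ### the twisted dual -/

section dual

variable (K : Type u) [Field K] {A A' : Type u} [Ring A] [Algebra K A] [Ring A'] [Algebra K A']
  (τ : A ≃+* A'ᵐᵒᵖ)

/-- the twisted dual -/
abbrev Dt (X : Type u) [AddCommGroup X] [Module K X] : Type u := Rs τ (Dl K X)

variable {X Y Z : Type u} [AddCommGroup X] [Module K X] [Module A' X] [IsScalarTower K A' X]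
  [AddCommGroup Y] [Module K Y] [Module A' Y] [IsScalarTower K A' Y]
  [AddCommGroup Z] [Module K Z] [Module A' Z] [IsScalarTower K A' Z]

/-- the twisted dual of a map -/
noncomputable def dt (f : X →ₗ[A'] Y) : Dt K τ Y →ₗ[A] Dt K τ X := Rs.map τ (dm K f)

theorem dt_apply (f : X →ₗ[A'] Y) (φ : Dt K τ Y) (x : X) :
    (show Dl K X from dt K τ f φ) x = (show Dl K Y from φ) (f x) := rfl

theorem dt_surj {f : X →ₗ[A'] Y} (hf : Function.Injective f) : Function.Surjective (dt K τ f) :=
  dm_surj hf

theorem dt_inj {f : X →ₗ[A'] Y} (hf : Function.Surjective f) : Function.Injective (dt K τ f) :=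
  dm_inj hf

theorem dt_exact {f : X →ₗ[A'] Y} {g : Y →ₗ[A'] Z} (h : Function.Exact f g) :
    Function.Exact (dt K τ g) (dt K τ f) :=
  dm_exact h

theorem dt_comp (f : X →ₗ[A'] Y) (g : Y →ₗ[A'] Z) :
    dt K τ (g ∘ₗ f) = dt K τ f ∘ₗ dt K τ g := rfl

/-- **`Ext_A(Dt Y, Dt X) = Ext_{A'}(X, Y)`.** -/
theorem e0_dt [IsNoetherianRing A'] [Module.Finite A' X] [FiniteDimensional K Y] (i : ℕ) :
    E0 A (Dt K τ Y) (Dt K τ X) i ↔ E0 A' X Y i := by
  rw [e0_rs τ i]
  exact (dual_iff X Y i).symm

/-- every map of twisted duals is a twisted dual -/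
theorem dt_full [FiniteDimensional K Y] (F : Dt K τ Y →ₗ[A] Dt K τ X) :
    ∃ f : X →ₗ[A'] Y, dt K τ f = F := by
  obtain ⟨f, hf⟩ := dm_surjective (Rs.unmap τ F)
  refine ⟨f, ?_⟩
  change Rs.map τ (dm K f) = F
  rw [hf, Rs.map_unmap]

end dual

end Crest.Agent.R186.Trans328
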