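import Crest.Agent.R186.LinkA_328
import Crest.Agent.R186.Trans_328

/-!
Row 186, S0281, block LINK (helper328): the interface base → link.

* `Side K A` : one side of the base over a finite-dimensional `K`-algebra `A`;
* its output: `Y`, `lam : P3 → Y`, `Y1`, and the vanishing of `Ext(V, Y)`, `Ext(Y, W)`,
  `Ext(V, Y1)`, `Ext(Y1, W)`.
-/

set_option autoImplicit false
set_option linter.unusedSectionVars false
set_option linter.style.haveILetI false

universe u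

open CategoryTheory CategoryTheory.Abelian

namespace Crest.Agent.R186.LinkB328

open ExtRes700 LinkA328 Trans328 Dual700

/-- one side of the base -/
structure Side (K : Type u) [Field K] (A : Type u) [Ring A] [Algebra K A] where
  V : Type u
  W : Type u
  P0 : Type u
  P1 : Type u
  P2 : Type u
  P3 : Type u
  [gV : AddCommGroup V]
  [kV : Module K V]
  [mV : Module A V]
  [sV : IsScalarTower K A V]
  [fV : FiniteDimensional K V]
  [nV : Nontrivial V]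
  [gW : AddCommGroup W]
  [kW : Module K W]
  [mW : Module A W]
  [sW : IsScalarTower K A W]
  [fW : FiniteDimensional K W]
  [nW : Nontrivial W]
  [g0 : AddCommGroup P0]
  [k0 : Module K P0]
  [m0 : Module A P0]
  [s0 : IsScalarTower K A P0]
  [f0 : Module.Finite A P0]
  [p0 : Module.Projective A P0]
  [g1 : AddCommGroup P1]
  [k1 : Module K P1]
  [m1 : Module A P1]
  [s1 : IsScalarTower K A P1]
  [f1 : Module.Finite A P1]
  [p1 : Module.Projective A P1]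
  [g2 : AddCommGroup P2]
  [k2 : Module K P2]
  [m2 : Module A P2]
  [s2 : IsScalarTower K A P2]
  [f2 : Module.Finite A P2]
  [p2 : Module.Projective A P2]
  [g3 : AddCommGroup P3]
  [k3 : Module K P3]
  [m3 : Module A P3]
  [s3 : IsScalarTower K A P3]
  [f3 : Module.Finite A P3]
  [p3 : Module.Projective A P3]
  /-- nullness of `V` -/
  null : ∀ j, E0 A V A j
  /-- the resolution of `W` -/
  d3 : P3 →ₗ[A] P2
  d2 : P2 →ₗ[A] P1
  d1 : P1 →ₗ[A] P0
  ε : P0 →ₗ[A] W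
  h3 : Function.Injective d3
  e32 : Function.Exact d3 d2
  e21 : Function.Exact d2 d1
  e10 : Function.Exact d1 ε
  hε : Function.Surjective ε
  /-- right multiplications by `h²` and `a` -/
  h : P3 →ₗ[A] P0
  a : P3 →ₗ[A] P0
  t : P2 →ₗ[A] P0
  ta : t ∘ₗ d3 = a
  hh : Function.Injective h
  ah : ∀ x y, a x = h y → x = 0
  /-- `Hom(P0, W) = K ε` -/
  one : ∀ φ : P0 →ₗ[A] W, ∃ c : K, ∀ x, φ x = c • ε x
  /-- `Hom(P0, W) ≃ Hom(P3, W)` -/
  hi : ∀ φ : P0 →ₗ[A] W, φ ∘ₗ h = 0 → φ = 0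
  hs : ∀ φ : P3 →ₗ[A] W, ∃ ψ : P0 →ₗ[A] W, ψ ∘ₗ h = φ
  /-- `Hom(P1, W) ≃ Hom(P2, W)` -/
  mi : ∀ φ : P1 →ₗ[A] W, φ ∘ₗ d2 = 0 → φ = 0
  ms : ∀ φ : P2 →ₗ[A] W, ∃ ψ : P1 →ₗ[A] W, ψ ∘ₗ d2 = φ

attribute [instance] Side.gV Side.kV Side.mV Side.sV Side.fV Side.nV Side.gW Side.kW Side.mW
  Side.sW Side.fW Side.nW Side.g0 Side.k0 Side.m0 Side.s0 Side.f0 Side.p0 Side.g1 Side.k1 Side.m1
  Side.s1 Side.f1 Side.p1 Side.g2 Side.k2 Side.m2 Side.s2 Side.f2 Side.p2 Side.g3 Side.k3 Side.m3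
  Side.s3 Side.f3 Side.p3

/-- `Ext^j(V, P) = 0` for finite projective `P` from `Ext^j(V, A) = 0` -/
theorem null_proj {A : Type u} [Ring A] {V : Type u} [AddCommGroup V] [Module A V]
    (null : ∀ j, E0 A V A j) (P : Type u) [AddCommGroup P] [Module A P] [Module.Finite A P]
    [Module.Projective A P] (j : ℕ) : E0 A V P j := by
  obtain ⟨n, f, hf⟩ := Module.Finite.exists_fin' A P
  obtain ⟨s, hs⟩ := Module.projective_lifting_property f LinearMap.id hf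
  exact retract_right s f hs j (pi_right j n (null j))

namespace Side

variable {K : Type u} [Field K] {A : Type u} [Ring A] [Algebra K A] (S : Side K A)

/-- `Y = P0 / h P3` -/
abbrev Y : Type u := S.P0 ⧸ LinearMap.range S.h

/-- `P0 → Y` -/
def yp : S.P0 →ₗ[A] S.Y := (LinearMap.range S.h).mkQ

theorem yp_surj : Function.Surjective S.yp := Submodule.mkQ_surjective _

theorem yp_exact : Function.Exact S.h S.yp := by
  intro x
  change (Submodule.Quotient.mk x : S.Y) = 0 ↔ _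
  rw [Submodule.Quotient.mk_eq_zero]
  rfl

/-- `P3 → Y` -/
def lam : S.P3 →ₗ[A] S.Y := S.yp ∘ₗ S.a

theorem lam_inj : Function.Injective S.lam := by
  rw [injective_iff_map_eq_zero]
  intro x hx
  obtain ⟨y, hy⟩ := (S.yp_exact (S.a x)).1 hx
  exact S.ah x y hy.symm

/-- `P2 → Y` -/
def tY : S.P2 →ₗ[A] S.Y := S.yp ∘ₗ S.t

theorem tY_d3 : S.tY ∘ₗ S.d3 = S.lam := by
  rw [tY, lam, LinearMap.comp_assoc, S.ta]

theorem tY_inj : Function.Injective (S.tY ∘ₗ S.d3) := by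
  rw [S.tY_d3]
  exact S.lam_inj

/-- `Y₁` -/
abbrev Y1 : Type u := YY S.d2 S.tY

theorem VP (P : Type u) [AddCommGroup P] [Module A P] [Module.Finite A P]
    [Module.Projective A P] (j : ℕ) : E0 A S.V P j := null_proj S.null P j

theorem VY (j : ℕ) : E0 A S.V S.Y j :=
  cright_of S.h S.yp S.hh S.yp_surj S.yp_exact (S.VP S.P3) (S.VP S.P0) j

theorem pW (P : Type u) [AddCommGroup P] [Module A P] [Module.Projective A P] (j : ℕ)
    (hj : 0 < j) : E0 A P S.W j := by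
  obtain ⟨i, rfl⟩ := Nat.exists_eq_add_of_le' hj
  exact proj i

theorem YW (j : ℕ) : E0 A S.Y S.W j :=
  coker_right S.h S.yp S.hh S.yp_surj S.yp_exact (S.pW S.P0) (S.pW S.P3) S.hi S.hs j

theorem VY1 (j : ℕ) : E0 A S.V S.Y1 j :=
  yy_left S.d3 S.d2 S.tY S.e32 S.tY_inj (S.VP S.P1) (S.VP S.P2) S.VY j

theorem Y1W (j : ℕ) : E0 A S.Y1 S.W j :=
  yy_right S.d3 S.d2 S.tY S.e32 S.tY_inj (S.pW S.P1) (S.pW S.P2) S.YW S.mi S.ms j

/-- every map `P3 → W` is a multiple of `ε ∘ h` -/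
theorem one3 (φ : S.P3 →ₗ[A] S.W) : ∃ c : K, ∀ x, φ x = c • S.ε (S.h x) := by
  obtain ⟨ψ, rfl⟩ := S.hs φ
  obtain ⟨c, hc⟩ := S.one ψ
  exact ⟨c, fun x => hc (S.h x)⟩

theorem eps_h_ne : S.ε ∘ₗ S.h ≠ 0 := by
  intro h0
  have h1 := S.hi S.ε h0
  obtain ⟨w, hw⟩ := exists_ne (0 : S.W)
  obtain ⟨x, rfl⟩ := S.hε w
  exact hw (LinearMap.congr_fun h1 x)

/-- `Y → Y₁` -/
def yaY : S.Y →ₗ[A] S.Y1 := ya S.d2 S.tY

/-- the kernel of `Y → Y₁` is `λ P3` -/
theorem yaY_ker (y : S.Y) : S.yaY y = 0 ↔ ∃ x, S.lam x = y := by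
  have h1 := ya_ker S.d3 S.d2 S.tY S.e32 y
  have h2 : ∀ x, S.tY (S.d3 x) = S.lam x := fun x => LinearMap.congr_fun S.tY_d3 x
  simp only [h2] at h1
  exact h1

/-- `Y₁ → P₀` -/
def ybY : S.Y1 →ₗ[A] S.P0 := yb S.d2 S.d1 S.tY S.e21

theorem ybY_exact : Function.Exact S.yaY S.ybY := yb_exact S.d2 S.d1 S.tY S.e21

theorem eY_exact : Function.Exact S.ybY S.ε := ye_exact S.d2 S.d1 S.ε S.tY S.e21 S.e10

end Side

end Crest.Agent.R186.LinkB328
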