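import Crest.Agent.R186.Defs281_128

/-!
Row 186, S0281, leaf B281.A2 (helper807, second of helper755): the modules `V g s n`, `E g s n` of
`Defs281_128` over `K`: coordinates, finite dimension, dimensions, non-triviality.
-/

set_option autoImplicit false

open Matrix

namespace Crest.Agent.R186.VEf807

open Crest.Agent.R186.B281

variable {K : Type} [Field K]

/-! ### `K[x₀,x₁]_n` -/

/-- the exponents of degree `n` -/
def ex (n : ℤ) : Set (ℤ × ℤ) := {m | 0 ≤ m.1 ∧ 0 ≤ m.2 ∧ m.1 + m.2 = n}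

/-- exponents of degree `n` and `Fin (n + 1)` (first exponent) -/
def exEquiv (n : ℕ) : ex n ≃ Fin (n + 1) where
  toFun m := ⟨m.1.1.toNat, by obtain ⟨h1, h2, h3⟩ := m.2; omega⟩
  invFun i := ⟨((i : ℕ), (n : ℤ) - (i : ℕ)), by
    have := i.2
    exact ⟨by simp, by show (0 : ℤ) ≤ (n : ℤ) - (i : ℕ); omega,
      by show ((i : ℕ) : ℤ) + ((n : ℤ) - (i : ℕ)) = n; omega⟩⟩
  left_inv m := by
    obtain ⟨⟨a, b⟩, h1, h2, h3⟩ := m
    apply Subtype.ext
    simp only [Prod.mk.injEq] at *
    constructor <;> omega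
  right_inv i := by
    apply Fin.ext
    simp

instance ex_finite (n : ℤ) : Finite (ex n) := by
  by_cases hn : 0 ≤ n
  · obtain ⟨k, rfl⟩ := Int.eq_ofNat_of_zero_le hn
    exact Finite.of_equiv _ (exEquiv k).symm
  · refine @Finite.of_subsingleton _ ⟨fun a _ => ?_⟩
    obtain ⟨m, h1, h2, h3⟩ := a
    exact absurd (show 0 ≤ n by omega) hn

theorem Pol_neg {n : ℤ} (hn : n < 0) : Pol K n = ⊥ := by
  rw [Pol, Finsupp.supported_eq_span_single]
  rw [Submodule.span_eq_bot]
  rintro _ ⟨m, ⟨h1, h2, h3⟩, rfl⟩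
  omega

/-- coordinates on `K[x₀,x₁]_n` -/
noncomputable def polE (n : ℤ) : Pol K n ≃ₗ[K] (ex n →₀ K) :=
  Finsupp.supportedEquivFinsupp (ex n)

instance Pol_finite (n : ℤ) : Module.Finite K (Pol K n) :=
  Module.Finite.equiv (polE n).symm

/-- coordinates on `K[x₀,x₁]_n`, `n` natural -/
noncomputable def polF (n : ℕ) : Pol K n ≃ₗ[K] (Fin (n + 1) → K) :=
  (polE (n : ℤ)).trans ((Finsupp.domLCongr (exEquiv n)).trans (Finsupp.linearEquivFunOnFinite K K _))

theorem polF_apply (n : ℕ) (f : Pol K n) (i : Fin (n + 1)) :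
    polF n f i = (f : Lau K) ((i : ℕ), (n : ℤ) - (i : ℕ)) := rfl

theorem Pol_finrank (n : ℕ) : Module.finrank K (Pol K n) = n + 1 := by
  rw [(polF n).finrank_eq, Module.finrank_fin_fun]

instance Pol_nontrivial (n : ℕ) : Nontrivial (Pol K (n : ℤ)) := by
  have h : 0 < Module.finrank K (Pol K (n : ℤ)) := by rw [Pol_finrank]; omega
  exact Module.nontrivial_of_finrank_pos h

/-! ### `V` and `E` as `K`-modules -/

variable (g : K) (s n : ℤ)

instance bigTower : IsScalarTower K (A g s) (Big K) :=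
  ⟨fun c x p => smul_assoc c (x : DualNumber (Mat K)) p⟩

noncomputable instance VA : Module (A g s) (V g s n) := Submodule.module (V g s n)

noncomputable instance EA : Module (A g s) (E g s n) := Submodule.module (E g s n)

noncomputable instance VS : SMul (A g s) (V g s n) := (VA g s n).toSMul

noncomputable instance ES : SMul (A g s) (E g s n) := (EA g s n).toSMul

noncomputable instance VK : Module K (V g s n) := Submodule.module' (V g s n)

noncomputable instance EK : Module K (E g s n) := Submodule.module' (E g s n)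

instance VT : IsScalarTower K (A g s) (V g s n) :=
  ⟨fun c x p => Subtype.ext (smul_assoc c x (p : Big K))⟩

instance ET : IsScalarTower K (A g s) (E g s n) :=
  ⟨fun c x p => Subtype.ext (smul_assoc c x (p : Big K))⟩

/-- coordinates of `V` -/
noncomputable def VE : V g s n ≃ₗ[K] (Fin 7 → Pol K n) where
  toFun p i := ⟨p.1.2 i, p.2.2 i⟩
  invFun v := ⟨((0 : Fin 7 → Lau K), fun i => (v i : Lau K)), rfl, fun i => (v i).2⟩
  map_add' _ _ := rfl
  map_smul' _ _ := rfl
  left_inv p := by
    apply Subtype.ext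
    obtain ⟨p, h1, h2⟩ := p
    exact Prod.ext h1.symm rfl
  right_inv _ := rfl

/-- coordinates of `E` -/
noncomputable def EE : E g s n ≃ₗ[K] (Fin 7 → Pol K n) × (Fin 7 → Pol K (n + 1)) where
  toFun p := (fun i => ⟨p.1.1 i, p.2.1 i⟩, fun i => ⟨p.1.2 i, p.2.2 i⟩)
  invFun v := ⟨((fun i => (v.1 i : Lau K)), fun i => (v.2 i : Lau K)), fun i => (v.1 i).2,
    fun i => (v.2 i).2⟩
  map_add' _ _ := rfl
  map_smul' _ _ := rfl
  left_inv _ := rfl
  right_inv _ := rfl

instance V_finite : Module.Finite K (V g s n) := Module.Finite.equiv (VE g s n).symm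

instance E_finite : Module.Finite K (E g s n) := Module.Finite.equiv (EE g s n).symm

theorem V_finrank (n : ℕ) : Module.finrank K (V g s n) = 7 * (n + 1) := by
  have : Module.Free K (Pol K (n : ℤ)) := Module.Free.of_equiv (polF n).symm
  rw [(VE g s n).finrank_eq, Module.finrank_pi_fintype K]
  simp [Pol_finrank]

instance V_nontrivial (n : ℕ) : Nontrivial (V g s (n : ℤ)) :=
  (VE g s (n : ℤ)).toEquiv.nontrivial

theorem V_neg {n : ℤ} (hn : n < 0) (p : V g s n) : p = 0 := by
  apply (VE g s n).injective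
  funext i
  have h : ((VE g s n p i : Pol K n) : Lau K) ∈ (⊥ : Submodule K (Lau K)) := by
    rw [← Pol_neg (K := K) hn]; exact (VE g s n p i).2
  exact Subtype.ext ((Submodule.mem_bot K).1 h)

end Crest.Agent.R186.VEf807
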