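import Crest.Agent.R186.DM1_136
import Crest.Agent.R186.LinkB_328
import Crest.Agent.R186.VE_755
import Crest.Agent.R186.VEf_807

/-!
Row 186, S0281 (helper136): the two sides of the base as functions of the six facts proved by
others (`null`, `h3`, `e32`, `e21`, `e10`, `hε`); everything else is leaf B281.M.
-/

set_option autoImplicit false
set_option linter.unusedSectionVars false

namespace Crest.Agent.R186.B281M

open B281 LinkB328 ExtRes700

variable {K : Type} [Field K] {g : K}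

/-- the side `s = 0` -/
noncomputable def sideM0 (hg : Gen g)
    (null : ∀ j, E0 (A g 0) (V g 0 0) (A g 0) j)
    (h3 : Function.Injective (W0.d3 hg))
    (e32 : Function.Exact (W0.d3 hg) (W0.d2 hg))
    (e21 : Function.Exact (W0.d2 hg) (W0.d1 hg))
    (e10 : Function.Exact (W0.d1 hg) (W0.eps0 g 0))
    (hε : Function.Surjective (W0.eps0 g 0)) : Side K (A g 0) where
  V := V g 0 0
  W := W g 0
  P0 := Pv g 0 0
  P1 := Fin 2 → Pv g 0 3
  P2 := Fin 2 → Fin 2 → Pv g 0 1
  P3 := Pv g 0 2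
  null := null
  d3 := W0.d3 hg
  d2 := W0.d2 hg
  d1 := W0.d1 hg
  ε := W0.eps0 g 0
  h3 := h3
  e32 := e32
  e21 := e21
  e10 := e10
  hε := hε
  h := hmap g 0
  a := amap hg 0
  t := t0 hg
  ta := ta0 hg
  hh := hmap_inj g 0
  ah := ah hg (by norm_num)
  one := fone g 0
  hi := fhi g 0
  hs := fhs g 0
  mi := fmi0 hg
  ms := fms0 hg

/-- the side `s = 1` -/
noncomputable def sideM1 (hg : Gen g)
    (null : ∀ j, E0 (A g 1) (V g 1 0) (A g 1) j)
    (h3 : Function.Injective (W1.d3 hg))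
    (e32 : Function.Exact (W1.d3 hg) (W1.d2 hg))
    (e21 : Function.Exact (W1.d2 hg) (W1.d1 hg))
    (e10 : Function.Exact (W1.d1 hg) (W1.ε g))
    (hε : Function.Surjective (W1.ε g)) : Side K (A g 1) where
  V := V g 1 0
  W := W g 1
  P0 := Pv g 1 0
  P1 := Fin 2 → Pv g 1 4
  P2 := Fin 2 → Pv g 1 3
  P3 := Pv g 1 2
  null := null
  d3 := W1.d3 hg
  d2 := W1.d2 hg
  d1 := W1.d1 hg
  ε := W1.ε g
  h3 := h3
  e32 := e32
  e21 := e21
  e10 := e10
  hε := hε
  h := hmap g 1
  a := amap hg 1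
  t := t1 hg
  ta := ta1 hg
  hh := hmap_inj g 1
  ah := ah hg (by norm_num)
  one := fone1 g
  hi := fhi g 1
  hs := fhs g 1
  mi := fmi1 hg
  ms := fms1 hg

end Crest.Agent.R186.B281M
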