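import Crest.Agent.R186.LinkE_328
import Crest.Agent.R186.AntiT_870
import Crest.Agent.R186.NB_581
import Crest.Agent.R186.SideM_136
import Crest.Agent.R186.W1_952
import Crest.Agent.R186.W0eps_881
import Crest.Agent.R186.W0B_822
import Crest.Agent.R186.Par_667

/-!
Row 186, S0281 (helper713): THE ASSEMBLY of the base.

* `two` = the two sides over `A g 0` and `A g⁻¹ 1` (136's `sideM0`, `sideM1`, 870's `tau`, `eV`,
  `eW`), from the nullness of `V g 0 0`, `V g⁻¹ 1 0` and the exactness of the resolutions of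
  `W g 0` (93 / 822 / 881) and `W g⁻¹ 1` (952);
* `c0281_of` = `Spine700.C0281 K` (328's `c0281_two`, 581's `simples`).
-/

set_option autoImplicit false
set_option linter.unusedSectionVars false

namespace Crest.Agent.R186.Fin713

open B281 ExtRes700 LinkB328 LinkC328

universe w

variable {K : Type} [Field K] {g : K}

/-- the two sides -/
noncomputable def two (hg : Gen g)
    (null0 : ∀ j, E0 (A g 0) (V g 0 0) (A g 0) j)
    (null1 : ∀ j, E0 (A g⁻¹ 1) (V g⁻¹ 1 0) (A g⁻¹ 1) j) : Two K (A g 0) (A g⁻¹ 1) where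
  S := B281M.sideM0 hg null0 (W0B822.h3 hg) (W0B822.e32 hg) (W0B822.e21 hg) (W0eps881.e10 hg)
    (W0eps881.heps g)
  S' := B281M.sideM1 hg.inv null1 (W1.h3 hg.inv) (W1.e32 hg.inv) (W1.e21 hg.inv)
    (W1.e10 hg.inv) (W1.hε hg.inv)
  τ := Anti870.tau hg (by norm_num)
  eV := Anti870.eV hg (by norm_num)
  eW := Anti870.eW hg (by norm_num)

/-- the end -/
theorem c0281_of (hg : Gen g)
    (null0 : ∀ j, E0 (A g 0) (V g 0 0) (A g 0) j)
    (null1 : ∀ j, E0 (A g⁻¹ 1) (V g⁻¹ 1 0) (A g⁻¹ 1) j) : Spine700.C0281.{w} K :=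
  LinkE328.c0281_two (two hg null0 null1) (by norm_num) (NB581.simples g (Or.inl rfl))

/-- over the ground field of the statement -/
theorem c0281_k0
    (null0 : ∀ {g : Spine700.k0} (_ : Gen g), ∀ j, E0 (A g 0) (V g 0 0) (A g 0) j)
    (null1 : ∀ {g : Spine700.k0} (_ : Gen g), ∀ j, E0 (A g 1) (V g 1 0) (A g 1) j) :
    Spine700.C0281.{w} Spine700.k0 :=
  c0281_of Par667.gen0 (null0 Par667.gen0) (null1 Par667.gen0.inv)

end Crest.Agent.R186.Fin713
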