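import Crest.Agent.R186.LCT_369

/-!
# Row 186, S0281 base (helper369): the dictionary of a pair of families (`Q1, Q2, Q3`)
-/

set_option autoImplicit false

namespace Crest.Agent.R186.LC369

namespace Pr

variable {K : Type*} [Field K] {g : K} {U : Type*} [AddCommGroup U] [Module K U] (R : Pr K g U)

/-- the quotient map -/
def pr (k P : ℤ) : R.L k P →ₗ[K] R.N k P := Submodule.mkQ _

theorem pr_cl {k P : ℤ} {u : U} (hu : u ∈ R.L k P) : R.pr k P ⟨u, hu⟩ = R.cl k P u hu := rfl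

theorem xb_cl {k P : ℤ} {hDS : R.DS (k + 2)} {hXS : R.XS (k + 2) P} (i : Fin 2) {u : U}
    (hu : u ∈ R.L (k + 1) (P - 1)) (h : R.x i u ∈ R.L (k + 1) P) :
    (R.toSq k P hDS hXS).xb i (R.cl (k + 1) (P - 1) u hu) = R.cl (k + 1) P (R.x i u) h := rfl

theorem xd_cl {k P : ℤ} {hDS : R.DS (k + 2)} {hXS : R.XS (k + 2) P} (i : Fin 2) {u : U}
    (hu : u ∈ R.L (k + 2) (P - 1)) (h : R.x i u ∈ R.L (k + 2) P) :
    (R.toSq k P hDS hXS).xd i (R.cl (k + 2) (P - 1) u hu) = R.cl (k + 2) P (R.x i u) h := rfl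

theorem xL1 {k P : ℤ} (i : Fin 2) {u : U} (hu : u ∈ R.L k (P - 1)) : R.x i u ∈ R.L k P := by
  have := R.xL i _ _ _ hu
  rwa [sub_add_cancel] at this

/-- the dictionary of a pair of families, at the bidegree `(k, P)` -/
def toDict (k P : ℤ) (hDS : R.DS (k + 2)) (hXS : R.XS (k + 2) P) (hX1 : R.LX k (k + 1) P)
    (hX2 : R.LX k (k + 2) P) : Dict (R.toSq k P hDS hXS) U where
  x := R.x
  d := R.d
  xx := R.xx
  xd0 := R.xd0
  xd1 := R.xd1
  L0 := R.L k P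
  L1 := R.L (k + 1) P
  L2 := R.L (k + 2) P
  Lp := R.L k (P + 1)
  p0 := R.pr k P
  p1 := R.pr (k + 1) P
  p2 := R.pr (k + 2) P
  pp := R.pr k (P + 1)
  h01 u hu := R.le _ _ _ (R.h _ _ _ hu)
  h12 u hu := by
    have := R.le _ _ _ (R.h _ _ _ hu)
    rwa [show k + 1 + 1 = k + 2 by ring] at this
  k01 u hu := by rw [pr_cl, cl_zero_iff]; exact R.h _ _ _ hu
  k12 u hu := by
    rw [pr_cl, cl_zero_iff]
    have := R.h _ _ _ hu
    rwa [show k + 1 + 1 = k + 2 by ring] at this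
  xm i u hu := R.xL _ _ _ _ hu
  px i u hu := rfl
  dm i u hu := by
    have := R.dL i _ _ _ hu
    rwa [add_sub_cancel_right] at this
  pd i u hu := rfl
  xdm0 j i u hu := by
    have := R.xL j _ _ _ (R.dL i _ _ _ hu)
    rwa [sub_add_cancel] at this
  pxd0 j i u hu := rfl
  xdm1 j i u hu := by
    have := R.xL j _ _ _ (R.dL i _ _ _ hu)
    rwa [sub_add_cancel, show k + 1 + 1 = k + 2 by ring] at this
  pxd1 j i u hu := rfl
  k1 u v hu hv h := by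
    obtain ⟨w, hw, h1, h2⟩ := R.XK (k + 1) P u v hu hv (R.h _ _ _ h)
    refine ⟨R.cl _ _ w hw, ?_, ?_⟩
    · rw [pr_cl, R.xb_cl 0 hw (R.xL1 0 hw), cl_eq_iff]
      exact h1
    · rw [pr_cl, R.xb_cl 1 hw (R.xL1 1 hw), cl_eq_iff]
      exact h2
  k2 u v hu hv h := by
    have h' := R.h _ _ _ (R.le _ _ _ (R.h _ _ _ h))
    rw [show k + 1 + 1 = k + 2 by ring] at h'
    obtain ⟨w, hw, h1, h2⟩ := R.XK (k + 2) P u v hu hv h'
    refine ⟨R.cl _ _ w hw, ?_, ?_⟩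
    · rw [pr_cl, R.xd_cl 0 hw (R.xL1 0 hw), cl_eq_iff]
      exact h1
    · rw [pr_cl, R.xd_cl 1 hw (R.xL1 1 hw), cl_eq_iff]
      exact h2
  xbi z h := by
    obtain ⟨u, hu, rfl⟩ := R.cl_surj z
    rw [R.xb_cl 1 hu (R.xL1 1 hu), cl_zero_iff] at h
    rw [cl_zero_iff]
    refine R.XI _ _ _ hu ?_
    rwa [sub_add_cancel]
  s0 := Submodule.mkQ_surjective _
  s1 := Submodule.mkQ_surjective _
  l1 z m := by
    obtain ⟨w, hw, rfl⟩ := R.cl_surj z
    obtain ⟨μ, hμ, rfl⟩ := R.cl_surj m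
    obtain ⟨u, hu, v, hv, h⟩ := hX1 μ hμ
    have e1 : ∀ i, R.x i w ∈ R.L (k + 1) P := fun i => by
      have := R.xL i _ _ _ hw
      rwa [sub_add_cancel] at this
    have e2 : R.x 1 (R.x 0 w + u) - R.x 0 (R.x 1 w + v) = R.x 1 u - R.x 0 v := by
      rw [map_add, map_add, R.xx]; abel
    have e3 : R.x 1 u - R.x 0 v ∈ R.L k (P + 1) := by
      have := sub_mem hμ (R.le _ _ _ h)
      rwa [sub_sub_cancel] at this
    refine ⟨R.x 0 w + u, R.x 1 w + v, add_mem (e1 0) (R.le _ _ _ hu), add_mem (e1 1) (R.le _ _ _ hv),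
      by rw [e2]; exact e3, ?_, ?_, ?_⟩
    · rw [pr_cl, R.xb_cl 0 hw (e1 0), cl_eq_iff, add_sub_cancel_left]
      exact hu
    · rw [pr_cl, R.xb_cl 1 hw (e1 1), cl_eq_iff, add_sub_cancel_left]
      exact hv
    · rw [pr_cl, cl_eq_iff, e2, ← neg_mem_iff, neg_sub]
      exact h
  l2 z m := by
    obtain ⟨w, hw, rfl⟩ := R.cl_surj z
    obtain ⟨μ, hμ, rfl⟩ := R.cl_surj m
    obtain ⟨u, hu, v, hv, h⟩ := hX2 μ hμ
    have e1 : ∀ i, R.x i w ∈ R.L (k + 2) P := fun i => by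
      have := R.xL i _ _ _ hw
      rwa [sub_add_cancel] at this
    have e2 : R.x 1 (R.x 0 w + u) - R.x 0 (R.x 1 w + v) = R.x 1 u - R.x 0 v := by
      rw [map_add, map_add, R.xx]; abel
    have e3 : R.x 1 u - R.x 0 v ∈ R.L k (P + 1) := by
      have := sub_mem hμ (R.le _ _ _ h)
      rwa [sub_sub_cancel] at this
    refine ⟨R.x 0 w + u, R.x 1 w + v, add_mem (e1 0) (R.le _ _ _ hu), add_mem (e1 1) (R.le _ _ _ hv),
      by rw [e2]; exact e3, ?_, ?_, ?_⟩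
    · rw [pr_cl, R.xd_cl 0 hw (e1 0), cl_eq_iff, add_sub_cancel_left]
      exact hu
    · rw [pr_cl, R.xd_cl 1 hw (e1 1), cl_eq_iff, add_sub_cancel_left]
      exact hv
    · rw [pr_cl, cl_eq_iff, e2, ← neg_mem_iff, neg_sub]
      exact h

end Pr

end Crest.Agent.R186.LC369
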