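import Crest.Agent.R186.RowPr_461
import Crest.Agent.R186.LCD_369

/-!
# Row 186, S0281 base, LCQ s = 0 (helper461): the dictionary of `Q4 = K₁-rows / K₂-rows`

`q4 hg hP : Dict ((filPr hg).toSq (-1) (P+1) ..) (Fin 2 → Op K)`, symbols of `a x₀ + b x₁`.
-/

set_option autoImplicit false

namespace Crest.Agent.R186.B281.Sym461

open LC369

variable {K : Type} [Field K] {g : K}

/-- `a x₀ + b x₁` -/
noncomputable def cf (v : Fin 2 → Op K) : Op K := v 0 * X 0 + v 1 * X 1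

section ring

variable {K : Type*} [Field K] {R : Type*} [Ring R] [Algebra K R]

theorem cf_add' (a b a' b' x y : R) :
    (a + a') * x + (b + b') * y = (a * x + b * y) + (a' * x + b' * y) := by
  rw [add_mul, add_mul]; abel

theorem cf_sub' (a b a' b' x y : R) :
    (a - a') * x + (b - b') * y = (a * x + b * y) - (a' * x + b' * y) := by
  rw [sub_mul, sub_mul]; abel

theorem cf_smul' (t : K) (a b x y : R) :
    (t • a) * x + (t • b) * y = t • (a * x + b * y) := by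
  rw [smul_mul_assoc, smul_mul_assoc, smul_add]

end ring

theorem cf_add (v w : Fin 2 → Op K) : cf (v + w) = cf v + cf w := cf_add' _ _ _ _ _ _

theorem cf_sub (v w : Fin 2 → Op K) : cf (v - w) = cf v - cf w := cf_sub' _ _ _ _ _ _

theorem cf_smul (t : K) (v : Fin 2 → Op K) : cf (t • v) = t • cf v := cf_smul' t _ _ _ _

theorem cf_lp (T : Op K) (v : Fin 2 → Op K) : cf (lp T v) = T * cf v := c_left T _ _ _ _

theorem cf_kap (e : Op K) : cf (kap e) = 0 := kap_c e (X 0) (X 1) (X_comm 0 1)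

theorem cf_mem {k P k' P' : ℤ} (hk : k' = k - 1) (hP : P' = P + 1) {v : Fin 2 → Op K}
    (hv : v ∈ Rw g k P) : cf v ∈ Fil g k' P' := by
  subst hk hP
  exact hv.2.2

theorem cf_memL (hg : Gen g) {k P k' P' : ℤ} (hk : k' = k - 1) (hP : P' = P + 1)
    {v : Fin 2 → Op K} (hv : v ∈ Rw g k P) : cf v ∈ (filPr hg).L k' P' := cf_mem hk hP hv

/-- the symbol of `a x₀ + b x₁` -/
noncomputable def pc (hg : Gen g) (k P k' P' : ℤ) (hk : k' = k - 1) (hP : P' = P + 1) :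
    Rw g k P →ₗ[K] (filPr hg).N k' P' where
  toFun v := (filPr hg).cl k' P' (cf v.1) (cf_memL hg hk hP v.2)
  map_add' v w := by
    refine Eq.trans ?_ (Pr.cl_add _ _ _).symm
    refine (Pr.cl_eq_iff _ _ _).2 ?_
    have h : cf (v + w).1 - (cf v.1 + cf w.1) = 0 := by
      rw [show (v + w).1 = v.1 + w.1 from rfl, cf_add, sub_self]
    rw [h]
    exact zero_mem _
  map_smul' t v := by
    rw [RingHom.id_apply]
    refine Eq.trans ?_ (Pr.cl_smul _ t _).symm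
    refine (Pr.cl_eq_iff _ _ _).2 ?_
    have h : cf (t • v).1 - t • cf v.1 = 0 := by
      rw [show (t • v).1 = t • v.1 from rfl, cf_smul, sub_self]
    rw [h]
    exact zero_mem _

theorem pc_apply (hg : Gen g) (k P k' P' : ℤ) (hk : k' = k - 1) (hP : P' = P + 1)
    (v : Fin 2 → Op K) (hv : v ∈ Rw g k P) :
    pc hg k P k' P' hk hP ⟨v, hv⟩ = (filPr hg).cl k' P' (cf v) (cf_memL hg hk hP hv) := rfl

theorem pc_eq (hg : Gen g) {k P k' P' : ℤ} {hk : k' = k - 1} {hP : P' = P + 1}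
    {v : Fin 2 → Op K} {hv : v ∈ Rw g k P} {c : Op K} (hc : c ∈ (filPr hg).L k' P')
    (h : cf v - c ∈ (filPr hg).L' k' P') :
    pc hg k P k' P' hk hP ⟨v, hv⟩ = (filPr hg).cl k' P' c hc :=
  (Pr.cl_eq_iff _ _ _).2 h

theorem pc_eq' (hg : Gen g) {k P k' P' : ℤ} {hk : k' = k - 1} {hP : P' = P + 1}
    {v : Fin 2 → Op K} {hv : v ∈ Rw g k P} {c : Op K} (hc : c ∈ (filPr hg).L k' P')
    (h : cf v = c) : pc hg k P k' P' hk hP ⟨v, hv⟩ = (filPr hg).cl k' P' c hc := by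
  refine pc_eq hg hc ?_
  rw [h, sub_self]
  exact zero_mem _

theorem pc_zero (hg : Gen g) {k P k' P' : ℤ} {hk : k' = k - 1} {hP : P' = P + 1}
    {v : Fin 2 → Op K} {hv : v ∈ Rw g k P} :
    pc hg k P k' P' hk hP ⟨v, hv⟩ = 0 ↔ cf v ∈ Fil g (k' - 1) P' :=
  Pr.cl_zero_iff _ _

theorem Rw_mono (hg : Gen g) {k l : ℤ} (h : k ≤ l) {P : ℤ} {v : Fin 2 → Op K}
    (hv : v ∈ Rw g k P) : v ∈ Rw g l P :=
  ⟨Fil_mono hg h _ hv.1, Fil_mono hg h _ hv.2.1, Fil_mono hg (by omega) _ hv.2.2⟩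

theorem Fp_mono (hg : Gen g) {k l : ℤ} (h : k ≤ l) {P : ℤ} {v : Fin 2 → Op K}
    (hv : v ∈ Fp g k P) : v ∈ Fp g l P := by
  rw [mem_Fp] at hv ⊢
  exact ⟨Fil_mono hg h _ hv.1, Fil_mono hg h _ hv.2⟩

/-- every `c ∈ Fil k (P+1)`, `P ≥ 0`, is `cf` of a pair in `Fil k P` -/
theorem cf_surj (hg : Gen g) {k P : ℤ} (hP : 0 ≤ P) {c : Op K} (hc : c ∈ Fil g k (P + 1)) :
    ∃ v ∈ Fp g k P, cf v = c := by
  obtain ⟨a, ha, b, hb, h⟩ := LK693.X1r hg (by omega : 1 ≤ P + 1) hc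
  rw [add_sub_cancel_right] at ha hb
  exact ⟨![a, b], mem_Fp.2 ⟨ha, hb⟩, h.symm⟩

theorem Fp_Rw (hg : Gen g) {k P : ℤ} {v : Fin 2 → Op K} (hv : v ∈ Fp g k P) :
    v ∈ Rw g (k + 1) P := by
  refine Rw_le hg ?_
  rwa [add_sub_cancel_right]

/-- a pair of `Fil k P` with `cf v ∈ Fil (k-1) (P+1)` is a row -/
theorem Rw_of (g : K) {k P : ℤ} {v : Fin 2 → Op K} (hv : v ∈ Fp g k P)
    (h : cf v ∈ Fil g (k - 1) (P + 1)) : v ∈ Rw g k P := by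
  rw [mem_Fp] at hv
  exact ⟨hv.1, hv.2, h⟩

theorem cf_zero_gen (hg : Gen g) {k P : ℤ} {v : Fin 2 → Op K} (hv : v ∈ Fp g k P)
    (h : cf v = 0) : ∃ e ∈ Fil g k (P - 1), v = kap e := by
  rw [mem_Fp] at hv
  obtain ⟨e, he, h1, h2⟩ := LK693.X2r hg hv.1 hv.2 h
  refine ⟨e, he, funext (Fin.forall_fin_two.2 ⟨h1, h2⟩)⟩

/-- the pairs giving `x₀ z`, `x₁ z` -/
theorem lift_z (hg : Gen g) {k P : ℤ} (hP : 0 ≤ P) {z : Op K} (hz : z ∈ Fil g k P) :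
    ∃ u ∈ Fp g k P, ∃ v ∈ Fp g k P, cf u = X 0 * z ∧ cf v = X 1 * z ∧
      lp (X 1) u - lp (X 0) v ∈ Fp g k (P + 1) ∧ cf (lp (X 1) u - lp (X 0) v) = 0 := by
  obtain ⟨u, hu, h1⟩ := cf_surj hg hP (X_mem hg 0 hz)
  obtain ⟨v, hv, h2⟩ := cf_surj hg hP (X_mem hg 1 hz)
  refine ⟨u, hu, v, hv, h1, h2, sub_mem (Fp_X hg 1 hu) (Fp_X hg 0 hv), ?_⟩
  rw [cf_sub, cf_lp, cf_lp, h1, h2, ← mul_assoc, ← mul_assoc, X_comm 0 1, sub_self]

/-- the pairs giving `m` -/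
theorem lift_m (hg : Gen g) {k P : ℤ} (hP : 0 ≤ P) {m : Op K} (hm : m ∈ Fil g k (P + 1 + 1)) :
    ∃ u ∈ Fp g k P, ∃ v ∈ Fp g k P, cf u ∈ Fil g k (P + 1) ∧ cf v ∈ Fil g k (P + 1) ∧
      lp (X 1) u - lp (X 0) v ∈ Fp g k (P + 1) ∧ cf (lp (X 1) u - lp (X 0) v) = m := by
  obtain ⟨m0, h0, m1, h1, rfl⟩ := XS' hg (by omega : 1 ≤ P + 1 + 1) hm
  rw [add_sub_cancel_right] at h0 h1
  obtain ⟨u, hu, e1⟩ := cf_surj hg hP h1
  obtain ⟨v, hv, e2⟩ := cf_surj hg hP (neg_mem h0)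
  refine ⟨u, hu, v, hv, by rw [e1]; exact h1, by rw [e2]; exact neg_mem h0,
    sub_mem (Fp_X hg 1 hu) (Fp_X hg 0 hv), ?_⟩
  rw [cf_sub, cf_lp, cf_lp, e1, e2, mul_neg, sub_neg_eq_add, add_comm]

theorem kap_sub (a b : Op K) : kap (a - b) = kap a - kap b := by
  have h := kap_lin a 1 0 b 0
  have h1 : lp (1 : Op K) (kap b) - lp (0 : Op K) (kap 0) = kap b := by
    funext j
    show (1 : Op K) * kap b j - 0 * kap 0 j = kap b j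
    rw [one_mul, zero_mul, sub_zero]
  rwa [h1, one_mul, zero_mul, sub_zero] at h

/-- the pairs giving `x₀ z`, `x₁ z`, one level up, corrected by the syzygies -/
theorem lift_z2 (hg : Gen g) {k P : ℤ} (hP : 0 ≤ P) (hk : P + k ≠ 0 ∨ k < 0) {z : Op K}
    (hz : z ∈ Fil g k P) :
    ∃ u ∈ Rw g (k + 1) P, ∃ v ∈ Rw g (k + 1) P, cf u = X 0 * z ∧ cf v = X 1 * z ∧
      lp (X 1) u - lp (X 0) v ∈ Fp g (k - 1) (P + 1) ∧ cf (lp (X 1) u - lp (X 0) v) = 0 := by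
  obtain ⟨u, hu, v, hv, h1, h2, h3, h4⟩ := lift_z hg hP hz
  obtain ⟨e, he, h5⟩ := cf_zero_gen hg h3 h4
  rw [add_sub_cancel_right] at he
  obtain ⟨e0, he0, e1, he1, h6⟩ := filPr_XS hg hk e he
  have hk0 := Rw_mono hg (by omega : k ≤ k + 1) (kap_mem hg he0)
  have hk1 := Rw_mono hg (by omega : k ≤ k + 1) (kap_mem hg he1)
  refine ⟨u + kap e1, add_mem (Fp_Rw hg hu) hk1, v + kap e0, add_mem (Fp_Rw hg hv) hk0,
    ?_, ?_, ?_, ?_⟩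
  · rw [cf_add, cf_kap, add_zero, h1]
  · rw [cf_add, cf_kap, add_zero, h2]
  · have h7 := kap_Fp hg h6
    have h8 : kap (e - ((filPr hg).x 0 e0 - (filPr hg).x 1 e1)) =
      kap e - (lp (X 0) (kap e0) - lp (X 1) (kap e1)) := kap_lin e (X 0) (X 1) e0 e1
    rw [h8, ← h5] at h7
    convert h7 using 1
    rw [map_add, map_add]
    abel
  · rw [cf_sub, cf_lp, cf_lp, cf_add, cf_add, cf_kap, cf_kap, add_zero, add_zero, h1, h2,
      ← mul_assoc, ← mul_assoc, X_comm 0 1, sub_self]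

section ring

variable {R : Type*} [Ring R]

theorem sub_aux {a b c : R} (h : a = c) : a + b - c = b := by
  rw [h, add_sub_cancel_left]

end ring

theorem lp_split (u u' v v' : Fin 2 → Op K) : lp (X 1) (u + u') - lp (X 0) (v + v') =
    (lp (X 1) u - lp (X 0) v) + (lp (X 1) u' - lp (X 0) v') := by
  rw [map_add, map_add]; abel

theorem Fp_Rw' (hg : Gen g) {k l P : ℤ} (h : k + 1 ≤ l) {v : Fin 2 → Op K} (hv : v ∈ Fp g k P) :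
    v ∈ Rw g l P := Rw_mono hg h (Fp_Rw hg hv)

theorem el1 (hg : Gen g) {P : ℤ} (hP : 0 ≤ P) {z m : Op K} (hz : z ∈ Fil g 0 P)
    (hm : m ∈ Fil g (-1) (P + 1 + 1)) : ∃ u ∈ Rw g 1 P, ∃ v ∈ Rw g 1 P,
      lp (X 1) u - lp (X 0) v ∈ Rw g 0 (P + 1) ∧ cf u - X 0 * z ∈ Fil g (-1) (P + 1) ∧
        cf v - X 1 * z ∈ Fil g (-1) (P + 1) ∧ cf (lp (X 1) u - lp (X 0) v) = m := by
  obtain ⟨u, hu, v, hv, e0, e1, e2, e3⟩ := lift_z hg hP hz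
  obtain ⟨u', hu', v', hv', c0, c1, c2, c3⟩ := lift_m hg hP hm
  have h2 : lp (X 1) u - lp (X 0) v ∈ Rw g 0 (P + 1) :=
    Rw_of g e2 (by rw [e3]; exact zero_mem _)
  have h3 : lp (X 1) u' - lp (X 0) v' ∈ Rw g 0 (P + 1) := Fp_Rw' hg (by norm_num) c2
  have hu1 : u ∈ Rw g 1 P := Fp_Rw' hg (by norm_num) hu
  have hv1 : v ∈ Rw g 1 P := Fp_Rw' hg (by norm_num) hv
  have hu2 : u' ∈ Rw g 1 P := Fp_Rw' hg (by norm_num) hu'
  have hv2 : v' ∈ Rw g 1 P := Fp_Rw' hg (by norm_num) hv'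
  have h4 : cf (u + u') - X 0 * z = cf u' := by rw [cf_add]; exact sub_aux e0
  have h5 : cf (v + v') - X 1 * z = cf v' := by rw [cf_add]; exact sub_aux e1
  refine ⟨u + u', add_mem hu1 hu2, v + v', add_mem hv1 hv2, ?_, ?_, ?_, ?_⟩
  · rw [lp_split]
    exact add_mem h2 h3
  · rw [h4]
    exact c0
  · rw [h5]
    exact c1
  · rw [lp_split, cf_add, e3, c3, zero_add]

theorem el2 (hg : Gen g) {P : ℤ} (hP : 0 ≤ P) {z m : Op K} (hz : z ∈ Fil g 1 P)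
    (hm : m ∈ Fil g (-1) (P + 1 + 1)) : ∃ u ∈ Rw g 2 P, ∃ v ∈ Rw g 2 P,
      lp (X 1) u - lp (X 0) v ∈ Rw g 0 (P + 1) ∧ cf u - X 0 * z ∈ Fil g 0 (P + 1) ∧
        cf v - X 1 * z ∈ Fil g 0 (P + 1) ∧ cf (lp (X 1) u - lp (X 0) v) = m := by
  obtain ⟨u, hu, v, hv, e0, e1, e2, e3⟩ := lift_z2 hg hP (Or.inl (by omega)) hz
  obtain ⟨u', hu', v', hv', c0, c1, c2, c3⟩ := lift_m hg hP hm
  have e2' : lp (X 1) u - lp (X 0) v ∈ Fp g 0 (P + 1) := Fp_mono hg (by norm_num) e2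
  have h2 : lp (X 1) u - lp (X 0) v ∈ Rw g 0 (P + 1) :=
    Rw_of g e2' (by rw [e3]; exact zero_mem _)
  have h3 : lp (X 1) u' - lp (X 0) v' ∈ Rw g 0 (P + 1) := Fp_Rw' hg (by norm_num) c2
  have hu1 : u ∈ Rw g 2 P := Rw_mono hg (by norm_num) hu
  have hv1 : v ∈ Rw g 2 P := Rw_mono hg (by norm_num) hv
  have hu2 : u' ∈ Rw g 2 P := Fp_Rw' hg (by norm_num) hu'
  have hv2 : v' ∈ Rw g 2 P := Fp_Rw' hg (by norm_num) hv'
  have h4 : cf (u + u') - X 0 * z = cf u' := by rw [cf_add]; exact sub_aux e0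
  have h5 : cf (v + v') - X 1 * z = cf v' := by rw [cf_add]; exact sub_aux e1
  refine ⟨u + u', add_mem hu1 hu2, v + v', add_mem hv1 hv2, ?_, ?_, ?_, ?_⟩
  · rw [lp_split]
    exact add_mem h2 h3
  · rw [h4]
    exact Fil_mono hg (by norm_num) _ c0
  · rw [h5]
    exact Fil_mono hg (by norm_num) _ c1
  · rw [lp_split, cf_add, e3, c3, zero_add]

/-- **the dictionary of `Q4`** -/
noncomputable def q4 (hg : Gen g) {P : ℤ} (hP : 0 ≤ P) :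
    Dict ((filPr hg).toSq (-1) (P + 1) (filPr_DS hg (by norm_num))
      (filPr_XS hg (Or.inl (by omega)))) (Fin 2 → Op K) where
  x i := lp (X i)
  d i := lp (D g i)
  xx u := (rowPr hg).xx u
  xd0 i u := (rowPr hg).xd0 i u
  xd1 i j u h := (rowPr hg).xd1 i j u h
  L0 := Rw g 0 P
  L1 := Rw g 1 P
  L2 := Rw g 2 P
  Lp := Rw g 0 (P + 1)
  p0 := pc hg 0 P _ _ (by norm_num) rfl
  p1 := pc hg 1 P _ _ (by norm_num) rfl
  p2 := pc hg 2 P _ _ (by norm_num) rfl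
  pp := pc hg 0 (P + 1) _ _ (by norm_num) rfl
  h01 u hu := Rw_mono hg (by norm_num) hu
  h12 u hu := Rw_mono hg (by norm_num) hu
  k01 u hu := (pc_zero hg).2 (cf_mem (by norm_num) rfl hu)
  k12 u hu := (pc_zero hg).2 (cf_mem (by norm_num) rfl hu)
  xm i u hu := Rw_X hg i hu
  px i u hu := pc_eq' hg _ (cf_lp _ _)
  dm i u hu := by
    have := Rw_D hg i hu
    rwa [add_sub_cancel_right] at this
  pd i u hu := pc_eq' hg _ (cf_lp _ _)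
  xdm0 j i u hu := by
    have := Rw_X hg j (Rw_D hg i hu)
    rwa [sub_add_cancel] at this
  pxd0 j i u hu := pc_eq' hg _ (by rw [cf_lp, cf_lp]; rfl)
  xdm1 j i u hu := by
    have := Rw_X hg j (Rw_D hg i hu)
    rwa [sub_add_cancel] at this
  pxd1 j i u hu := pc_eq' hg _ (by rw [cf_lp, cf_lp]; rfl)
  k1 u v hu hv h := by
    have h0 := cf_mem (k' := 0) (P' := P + 1) (by norm_num) rfl hu
    have h1 := cf_mem (k' := 0) (P' := P + 1) (by norm_num) rfl hv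
    have h2 := cf_mem (k' := 0 - 1) (P' := P + 1 + 1) rfl rfl h
    rw [cf_sub, cf_lp, cf_lp] at h2
    obtain ⟨w, hw, e0, e1⟩ := XK hg h0 h1 h2
    exact ⟨(filPr hg).cl _ _ w hw, pc_eq hg _ e0, pc_eq hg _ e1⟩
  k2 u v hu hv h := by
    have h0 := cf_mem (k' := 1) (P' := P + 1) (by norm_num) rfl hu
    have h1 := cf_mem (k' := 1) (P' := P + 1) (by norm_num) rfl hv
    have h2 := cf_mem (k' := 0 - 1) (P' := P + 1 + 1) rfl rfl h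
    rw [cf_sub, cf_lp, cf_lp] at h2
    obtain ⟨w, hw, e0, e1⟩ := XK hg h0 h1 (Fil_mono hg (by norm_num) _ h2)
    exact ⟨(filPr hg).cl _ _ w hw, pc_eq hg _ e0, pc_eq hg _ e1⟩
  xbi z h := by
    obtain ⟨u, hu, rfl⟩ := (filPr hg).cl_surj z
    have h1 := (Pr.cl_zero_iff _ _).1 h
    refine (Pr.cl_zero_iff _ _).2 ?_
    have h2 : X 1 * u ∈ Fil g (-1 + 1 - 1) (P + 1 - 1 + 1) := by
      rw [sub_add_cancel]
      exact h1
    exact XI hg 1 hu h2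
  s0 := by
    intro z
    obtain ⟨c, hc, rfl⟩ := (filPr hg).cl_surj z
    obtain ⟨v, hv, h⟩ := cf_surj hg hP hc
    exact ⟨⟨v, Rw_mono hg (by norm_num) (Fp_Rw hg hv)⟩, pc_eq' hg _ h⟩
  s1 := by
    intro z
    obtain ⟨c, hc, rfl⟩ := (filPr hg).cl_surj z
    obtain ⟨v, hv, h⟩ := cf_surj hg hP hc
    exact ⟨⟨v, Rw_mono hg (by norm_num) (Fp_Rw hg hv)⟩, pc_eq' hg _ h⟩
  l1 z m := by
    obtain ⟨z, hz, rfl⟩ := (filPr hg).cl_surj z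
    obtain ⟨m, hm, rfl⟩ := (filPr hg).cl_surj m
    have hz' : z ∈ Fil g 0 P := by
      have : P + 1 - 1 = P := by ring
      rw [this] at hz
      exact hz
    obtain ⟨u, hu, v, hv, h, e0, e1, e2⟩ := el1 hg hP hz' hm
    exact ⟨u, v, hu, hv, h, pc_eq hg _ e0, pc_eq hg _ e1, pc_eq' hg _ e2⟩
  l2 z m := by
    obtain ⟨z, hz, rfl⟩ := (filPr hg).cl_surj z
    obtain ⟨m, hm, rfl⟩ := (filPr hg).cl_surj m
    have hz' : z ∈ Fil g 1 P := by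
      have : P + 1 - 1 = P := by ring
      rw [this] at hz
      exact hz
    obtain ⟨u, hu, v, hv, h, e0, e1, e2⟩ := el2 hg hP hz' hm
    exact ⟨u, v, hu, hv, h, pc_eq hg _ e0, pc_eq hg _ e1, pc_eq' hg _ e2⟩

section mem

variable (hg : Gen g) {P : ℤ} (hP : 0 ≤ P)

theorem q4_x (i : Fin 2) (v : Fin 2 → Op K) (j : Fin 2) : (q4 hg hP).x i v j = X i * v j := rfl
theorem q4_d (i : Fin 2) (v : Fin 2 → Op K) (j : Fin 2) : (q4 hg hP).d i v j = D g i * v j := rfl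
theorem q4_L0 : (q4 hg hP).L0 = Rw g 0 P := rfl
theorem q4_L1 : (q4 hg hP).L1 = Rw g 1 P := rfl
theorem q4_L2 : (q4 hg hP).L2 = Rw g 2 P := rfl
theorem q4_Lp : (q4 hg hP).Lp = Rw g 0 (P + 1) := rfl

theorem q4_M0 {v : Fin 2 → Op K} : v ∈ (q4 hg hP).M0 ↔
    v ∈ Rw g 0 P ∧ v 0 * X 0 + v 1 * X 1 ∈ Fil g (-2) (P + 1) := by
  rw [Dict.mem_M0]
  have key : ∀ h : v ∈ Rw g 0 P, (q4 hg hP).p0 ⟨v, h⟩ = 0 ↔ cf v ∈ Fil g (-1 - 1) (P + 1) :=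
    fun h => Pr.cl_zero_iff (filPr hg) (cf_memL hg (k' := -1) (by norm_num) rfl h)
  exact ⟨fun ⟨h, h0⟩ => ⟨h, (key h).1 h0⟩, fun ⟨h, h0⟩ => ⟨h, (key h).2 h0⟩⟩

theorem q4_M1 {v : Fin 2 → Op K} : v ∈ (q4 hg hP).M1 ↔
    v ∈ Rw g 1 P ∧ v 0 * X 0 + v 1 * X 1 ∈ Fil g (-1) (P + 1) := by
  rw [Dict.mem_M1]
  have key : ∀ h : v ∈ Rw g 1 P, (q4 hg hP).p1 ⟨v, h⟩ = 0 ↔ cf v ∈ Fil g (-1 + 1 - 1) (P + 1) :=
    fun h => Pr.cl_zero_iff (filPr hg) (cf_memL hg (k' := -1 + 1) (by norm_num) rfl h)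
  exact ⟨fun ⟨h, h0⟩ => ⟨h, (key h).1 h0⟩, fun ⟨h, h0⟩ => ⟨h, (key h).2 h0⟩⟩

theorem q4_M2 {v : Fin 2 → Op K} : v ∈ (q4 hg hP).M2 ↔
    v ∈ Rw g 2 P ∧ v 0 * X 0 + v 1 * X 1 ∈ Fil g 0 (P + 1) := by
  rw [Dict.mem_M2]
  have key : ∀ h : v ∈ Rw g 2 P, (q4 hg hP).p2 ⟨v, h⟩ = 0 ↔ cf v ∈ Fil g (-1 + 2 - 1) (P + 1) :=
    fun h => Pr.cl_zero_iff (filPr hg) (cf_memL hg (k' := -1 + 2) (by norm_num) rfl h)
  exact ⟨fun ⟨h, h0⟩ => ⟨h, (key h).1 h0⟩, fun ⟨h, h0⟩ => ⟨h, (key h).2 h0⟩⟩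

theorem q4_Mp {v : Fin 2 → Op K} : v ∈ (q4 hg hP).Mp ↔
    v ∈ Rw g 0 (P + 1) ∧ v 0 * X 0 + v 1 * X 1 ∈ Fil g (-2) (P + 1 + 1) := by
  rw [Dict.mem_Mp]
  have key : ∀ h : v ∈ Rw g 0 (P + 1), (q4 hg hP).pp ⟨v, h⟩ = 0 ↔
      cf v ∈ Fil g (-1 - 1) (P + 1 + 1) :=
    fun h => Pr.cl_zero_iff (filPr hg) (cf_memL hg (k' := -1) (by norm_num) rfl h)
  exact ⟨fun ⟨h, h0⟩ => ⟨h, (key h).1 h0⟩, fun ⟨h, h0⟩ => ⟨h, (key h).2 h0⟩⟩

end mem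

end Crest.Agent.R186.B281.Sym461
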