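import Crest.Agent.R186.LCE_369
import Crest.Agent.R186.DevW_147
import Crest.Agent.R186.KRT_823
import Crest.Agent.R186.LCI4_461

/-!
# Row 186, S0281 base (helper369): LCQ0 : `Ext (E g 0 n, Q_j) = 0` for the four quotients, `s = 0`
-/

set_option autoImplicit false
set_option linter.unusedSectionVars false

namespace Crest.Agent.R186.LC369

open Crest.Agent.R186.B281 Crest.Agent.R186.B281.KR ExtRes700 Crest.Agent.R186.B281.Dev147

variable {K : Type} [Field K] {g : K}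

section join

variable {N00 N01 N02 N10 N11 N12 N22 : Type*}
    [AddCommGroup N00] [Module K N00] [AddCommGroup N01] [Module K N01]
    [AddCommGroup N02] [Module K N02] [AddCommGroup N10] [Module K N10]
    [AddCommGroup N11] [Module K N11] [AddCommGroup N12] [Module K N12]
    [AddCommGroup N22] [Module K N22]
    {N00' N01' N02' N10' N11' N12' N22' : Type*}
    [AddCommGroup N00'] [Module K N00'] [AddCommGroup N01'] [Module K N01']
    [AddCommGroup N02'] [Module K N02'] [AddCommGroup N10'] [Module K N10']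
    [AddCommGroup N11'] [Module K N11'] [AddCommGroup N12'] [Module K N12']
    [AddCommGroup N22'] [Module K N22']
    {S0 : Sq K g N00 N01 N02 N10 N11 N12 N22} {S1 : Sq K g N00' N01' N02' N10' N11' N12' N22'}
    {F : Fam g} {F' : F.Sub} {T0 : Dict S0 F.N} {T1 : Dict S1 F.N}
    {Y : Type} [AddCommGroup Y] [Module (A g 0) Y] {π : F.W 0 →ₗ[A g 0] Y}

theorem good0 (hg : Gen g) (n : ℕ) : Good 0 (G0 hg n) := good_pi (good_TV hg 0 0) _
theorem good1 (hg : Gen g) (n : ℕ) : Good 0 (G1 hg n) := good_pi (good_pi (good_TV hg 0 3) _) _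
theorem good2 (hg : Gen g) (n : ℕ) : Good 0 (G2 hg n) :=
  good_prod (good_pi (good_TV hg 0 4) _) (good_pi (good_pi (good_TV hg 0 1) _) _)
theorem good3 (hg : Gen g) (n : ℕ) : Good 0 (G3 hg n) := good_pi (good_TV hg 0 2) _

theorem lcq_of (hg : Gen g) (M0 : Mt T0 F' 0) (M1 : Mt T1 F' 1) (hπ : IsQuo F F' 0 π) (n q : ℕ) :
    E0 (A g 0) (E g 0 n) Y q := by
  refine NullChain538.MRes.ext_all (R := KRT823.mresW0 hg n) (Y := Y) ?_ ?_ ?_ ?_ q
  · exact H0_of hπ (good0 hg n) (good1 hg n) (g1 hg n) (by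
      rintro e (rfl | rfl) Φ h h'
      · exact ex0 hg M0 n Φ h h'
      · exact ex0 hg M1 n Φ h h')
  · exact H1_of hπ (good1 hg n) (good2 hg n) (g1 hg n) (g2 hg n) (by
      rintro e (rfl | rfl) Φ h h'
      · exact ex1 hg M0 n Φ h h'
      · exact ex1 hg M1 n Φ h h')
  · exact H1_of hπ (good2 hg n) (good3 hg n) (g2 hg n) (g3 hg n) (by
      rintro e (rfl | rfl) Φ h h'
      · exact ex2 hg M0 n Φ h h'
      · exact ex2 hg M1 n Φ h h')
  · exact H3_of hπ (good3 hg n) (g3 hg n) (by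
      rintro e (rfl | rfl) Φ h
      · exact ex3 hg M0 n Φ h
      · exact ex3 hg M1 n Φ h)

end join

section inst

/-- the elements of symbol `0` of `toDict` -/
theorem toDict_m {U : Type*} [AddCommGroup U] [Module K U] (R : Pr K g U) (k P : ℤ) (u : U) :
    u ∈ (LinearMap.ker (R.pr k P)).map (R.L k P).subtype ↔ u ∈ R.L' k P := by
  rw [Submodule.mem_map]
  constructor
  · rintro ⟨⟨w, hw⟩, h1, rfl⟩
    rw [LinearMap.mem_ker, Pr.pr_cl, Pr.cl_zero_iff] at h1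
    exact h1
  · intro h
    refine ⟨⟨u, R.le _ _ _ h⟩, ?_, rfl⟩
    rw [LinearMap.mem_ker, Pr.pr_cl, Pr.cl_zero_iff]
    exact h

theorem mt_of_pr {F : Fam g} {F' : F.Sub} (R : Pr K g F.N) (k P : ℤ) (hDS : R.DS (k + 2))
    (hXS : R.XS (k + 2) P) (hX1 : R.LX k (k + 1) P) (hX2 : R.LX k (k + 2) P)
    (hx : ∀ i u, R.x i u = (X i : Op K) • u) (hd : ∀ i u, R.d i u = D g i • u)
    (hL : ∀ a a' b u, a' = a + k → (u ∈ R.L a' b ↔ u ∈ F.L a b))
    (hL' : ∀ a a' b u, a' = a + k → (u ∈ R.L' a' b ↔ u ∈ F'.L a b)) :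
    Mt (R.toDict k P hDS hXS hX1 hX2) F' P where
  x := hx
  d := hd
  l0 u := hL 0 k P u (by ring)
  l1 u := hL 1 (k + 1) P u (by ring)
  l2 u := hL 2 (k + 2) P u (by ring)
  lp u := hL 0 k (P + 1) u (by ring)
  m0 u := (toDict_m R k P u).trans (hL' 0 k P u (by ring))
  m1 u := (toDict_m R (k + 1) P u).trans (hL' 1 (k + 1) P u (by ring))
  m2 u := (toDict_m R (k + 2) P u).trans (hL' 2 (k + 2) P u (by ring))
  mp u := (toDict_m R k (P + 1) u).trans (hL' 0 k (P + 1) u (by ring))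

variable (hg : Gen g)

/-- `Q_1` -/
theorem q1E (n q : ℕ) : E0 (A g 0) (E g 0 n) (QT0 hg 0) q := by
  have key : ∀ (P : ℤ) (hP : 0 ≤ P), Mt (F := TO hg (1 : ℕ))
      ((Sym461.filPr hg).toDict (-1) P (Sym461.filPr_DS hg (by norm_num))
        (Sym461.filPr_XS hg (Or.inl (by omega))) (Sym461.filPr_LX hg (by norm_num) (Or.inr (by norm_num)))
        (Sym461.filPr_LX hg (by norm_num) (Or.inr (by norm_num))))
      (subO hg (1 : ℕ) (2 : ℕ) (by norm_num)) P := by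
    intro P hP
    refine mt_of_pr (F := TO hg (1 : ℕ)) (Sym461.filPr hg) (-1) P _ _ _ _ (fun i u => rfl)
      (fun i u => rfl) ?_ ?_
    · intro a a' b u h
      subst h
      exact Iff.rfl
    · intro a a' b u h
      subst h
      show u ∈ Fil g (a + -1 - 1) b ↔ u ∈ Fil g (a - ((2 : ℕ) : ℤ)) b
      rw [show a + -1 - 1 = a - ((2 : ℕ) : ℤ) by push_cast; ring]
  exact lcq_of hg (key 0 le_rfl) (key 1 zero_le_one) (isQuo0 hg 0) n q

/-- `Q_2` -/
theorem q2E (n q : ℕ) : E0 (A g 0) (E g 0 n) (QT0 hg 1) q := by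
  have key : ∀ (P : ℤ) (hP : 0 ≤ P), Mt (F := TO hg (0 : ℕ))
      ((Sym461.filPr hg).toDict 0 P (Sym461.filPr_DS hg (by norm_num))
        (Sym461.filPr_XS hg (Or.inl (by omega))) (Sym461.filPr_LX hg (by norm_num) (Or.inl (by omega)))
        (Sym461.filPr_LX hg (by norm_num) (Or.inl (by omega))))
      (subO hg (0 : ℕ) (1 : ℕ) (by norm_num)) P := by
    intro P hP
    refine mt_of_pr (F := TO hg (0 : ℕ)) (Sym461.filPr hg) 0 P _ _ _ _ (fun i u => rfl)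
      (fun i u => rfl) ?_ ?_
    · intro a a' b u h
      subst h
      show u ∈ Fil g (a + 0) b ↔ u ∈ Fil g (a - ((0 : ℕ) : ℤ)) b
      rw [show a + 0 = a - ((0 : ℕ) : ℤ) by push_cast; ring]
    · intro a a' b u h
      subst h
      show u ∈ Fil g (a + 0 - 1) b ↔ u ∈ Fil g (a - ((1 : ℕ) : ℤ)) b
      rw [show a + 0 - 1 = a - ((1 : ℕ) : ℤ) by push_cast; ring]
  exact lcq_of hg (key 0 le_rfl) (key 1 zero_le_one) (isQuo0 hg 1) n q

/-- `Q_3` -/
theorem q3E (n q : ℕ) : E0 (A g 0) (E g 0 n) (QT0 hg 2) q := by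
  have key : ∀ (P : ℤ) (hP : 0 ≤ P), Mt (F := TK hg 0 (0 + 1))
      ((Sym461.rowPr hg).toDict 0 P (Sym461.rowPr_DS hg (by norm_num))
        (Sym461.rowPr_XS hg (Or.inl (by omega))) (Sym461.rowPr_LX hg (by norm_num) (Or.inl (by omega)))
        (Sym461.rowPr_LX hg (by norm_num) (Or.inl (by omega))))
      (subP hg 0 (0 + 1) (by norm_num)) P := by
    intro P hP
    refine mt_of_pr (F := TK hg 0 (0 + 1)) (Sym461.rowPr hg) 0 P _ _ _ _ (fun i u => rfl)
      (fun i u => rfl) ?_ ?_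
    · intro a a' b u h
      have e : a' = a := by omega
      subst e
      show (u 0 ∈ Fil g a' b ∧ u 1 ∈ Fil g a' b ∧ u 0 * X 0 + u 1 * X 1 ∈ Fil g (a' - 1) (b + 1)) ↔
        (u 0 ∈ Fil g (a' - 0) b ∧ u 1 ∈ Fil g (a' - 0) b ∧
          u 0 * X 0 + u 1 * X 1 ∈ Fil g (a' - (0 + 1)) (b + 1))
      rw [sub_zero, zero_add]
    · intro a a' b u h
      have e : a' = a := by omega
      subst e
      show (u ∈ Sym461.Fp g (a' - 1) b) ↔ (u 0 ∈ Fil g (a' - (0 + 1)) b ∧ u 1 ∈ Fil g (a' - (0 + 1)) b)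
      rw [zero_add]
      exact Sym461.mem_Fp
  exact lcq_of hg (key 0 le_rfl) (key 1 zero_le_one) (isQuo0 hg 2) n q

/-- `Q_4` -/
theorem q4E (n q : ℕ) : E0 (A g 0) (E g 0 n) (QT0 hg 3) q := by
  have hRw : ∀ (a b : ℤ) (u : Fin 2 → Op K), u ∈ Sym461.Rw g a b ↔
      u ∈ (TK hg 0 (0 + 1)).L a b := by
    intro a b u
    show (u 0 ∈ Fil g a b ∧ u 1 ∈ Fil g a b ∧ u 0 * X 0 + u 1 * X 1 ∈ Fil g (a - 1) (b + 1)) ↔
        (u 0 ∈ Fil g (a - 0) b ∧ u 1 ∈ Fil g (a - 0) b ∧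
          u 0 * X 0 + u 1 * X 1 ∈ Fil g (a - (0 + 1)) (b + 1))
    rw [sub_zero, zero_add]
  have hM : ∀ (a b : ℤ) (u : Fin 2 → Op K),
      (u ∈ Sym461.Rw g a b ∧ u 0 * X 0 + u 1 * X 1 ∈ Fil g (a - 2) (b + 1)) ↔
      u ∈ (subK hg 0 (0 + 1) 0 2 (by norm_num) (by norm_num)).L a b := by
    intro a b u
    show ((u 0 ∈ Fil g a b ∧ u 1 ∈ Fil g a b ∧ u 0 * X 0 + u 1 * X 1 ∈ Fil g (a - 1) (b + 1)) ∧
        u 0 * X 0 + u 1 * X 1 ∈ Fil g (a - 2) (b + 1)) ↔
        (u 0 ∈ Fil g (a - 0) b ∧ u 1 ∈ Fil g (a - 0) b ∧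
          u 0 * X 0 + u 1 * X 1 ∈ Fil g (a - 2) (b + 1))
    rw [sub_zero]
    constructor
    · rintro ⟨⟨h1, h2, _⟩, h3⟩
      exact ⟨h1, h2, h3⟩
    · rintro ⟨h1, h2, h3⟩
      exact ⟨⟨h1, h2, Fil_mono g (by omega) h3⟩, h3⟩
  have key : ∀ (P : ℤ) (hP : 0 ≤ P), Mt (F := TK hg 0 (0 + 1)) (Sym461.q4 hg hP)
      (subK hg 0 (0 + 1) 0 2 (by norm_num) (by norm_num)) P := by
    intro P hP
    exact
    { x := fun i u => rfl
      d := fun i u => rfl
      l0 := fun u => hRw 0 P u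
      l1 := fun u => hRw 1 P u
      l2 := fun u => hRw 2 P u
      lp := fun u => hRw 0 (P + 1) u
      m0 := fun u => (Sym461.q4_M0 hg hP).trans (hM 0 P u)
      m1 := fun u => (Sym461.q4_M1 hg hP).trans (hM 1 P u)
      m2 := fun u => (Sym461.q4_M2 hg hP).trans (hM 2 P u)
      mp := fun u => (Sym461.q4_Mp hg hP).trans (hM 0 (P + 1) u) }
  exact lcq_of hg (key 0 le_rfl) (key 1 zero_le_one) (isQuo0 hg 3) n q

/-- all four quotients -/
theorem hQ0 (j : Fin 4) (n q : ℕ) : E0 (A g 0) (E g 0 n) (QT0 hg j) q := by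
  match j with
  | 0 => exact q1E hg n q
  | 1 => exact q2E hg n q
  | 2 => exact q3E hg n q
  | 3 => exact q4E hg n q

end inst

end Crest.Agent.R186.LC369
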