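import Crest.Agent.R186.Null0_341
import Crest.Agent.R186.DevW_147

/-!
Row 186 (S0281), helper341, leaf B281.N0: `null0` from `Ext (E g 0 n, QT0 j) = 0`.
-/

set_option autoImplicit false
set_option linter.unusedSectionVars false

namespace Crest.Agent.R186.B281

namespace N341

open NullChain538 ExtRes700

variable {K : Type} [Field K] {g : K}

theorem null0_of_hQ (hg : Gen g)
    (hQ : ∀ (j : Fin 4) (n : ℕ) (q : ℕ), E0 (A g 0) (E g 0 n) (Dev147.QT0 hg j) q) (q : ℕ) :
    E0 (A g 0) (V g 0 0) (A g 0) q :=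
  null0_of hg (Dev147.QT0 hg) hQ (fun X _ _ q h1 h2 => Dev147.dev0 hg X q h1 h2) 0
    (Dev147.π1 hg 0) (Dev147.ρπ hg 0) (Dev147.π1_surj hg 0) q

end N341

end Crest.Agent.R186.B281
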