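import Mathlib

/-!
Row 186 (S0281), helper371: the filtered form of `Hom (K'(n), w(L) / w(L'))` exact, `s = 1`.

One left module `U` with `x_i, d_i : U →ₗ[K] U`, `x_i d_i = 1 + g d_i x_i`, the rest commutes, two
families `L' ≤ L` (level `k`, `P`-degree `P`).  Index `j` = exponent of `x1`.
Maps = 525's `s = 1` formulas.
-/

set_option autoImplicit false

namespace Crest.Agent.R186.LCF1_371

variable {K U : Type*} [Field K] [AddCommGroup U] [Module K U]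

/-- the facts on the pair `L' ≤ L` -/
structure Pair (g : K) (x d : Fin 2 → U →ₗ[K] U) (L L' : ℤ → ℤ → Submodule K U) : Prop where
  g0 : g ≠ 0
  xx : ∀ u, x 0 (x 1 u) = x 1 (x 0 u)
  dd : ∀ u, d 0 (d 1 u) = d 1 (d 0 u)
  x0d1 : ∀ u, x 0 (d 1 u) = d 1 (x 0 u)
  x1d0 : ∀ u, x 1 (d 0 u) = d 0 (x 1 u)
  xd : ∀ i u, x i (d i u) = u + g • d i (x i u)
  le : ∀ k P, L' k P ≤ L k P
  up : ∀ k k' P, k' = k + 1 → L k P ≤ L' k' P
  mx : ∀ i k P P', P' = P + 1 → ∀ u ∈ L k P, x i u ∈ L k P'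
  mx' : ∀ i k P P', P' = P + 1 → ∀ u ∈ L' k P, x i u ∈ L' k P'
  md : ∀ i k P k' P', k' = k + 1 → P' = P - 1 → ∀ u ∈ L k P, d i u ∈ L k' P'
  md' : ∀ i k P k' P', k' = k + 1 → P' = P - 1 → ∀ u ∈ L' k P, d i u ∈ L' k' P'
  xi : ∀ k P P', P' = P + 1 → ∀ u ∈ L k P, x 0 u ∈ L' k P' → u ∈ L' k P
  xk : ∀ k P P' P'', P' = P + 1 → P'' = P - 1 → ∀ u ∈ L k P, ∀ v ∈ L k P,
    x 1 u - x 0 v ∈ L' k P' → ∃ w ∈ L k P'', u - x 0 w ∈ L' k P ∧ v - x 1 w ∈ L' k P
  di : ∀ k P k' P', k' = k + 1 → P' = P - 1 → ∀ u ∈ L k P, d 0 u ∈ L' k' P' → u ∈ L' k P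
  dk : ∀ k P k' P' k'' P'', k' = k + 1 → P' = P - 1 → k'' = k - 1 → P'' = P + 1 →
    ∀ u ∈ L k P, ∀ v ∈ L k P, d 0 u - d 1 v ∈ L' k' P' →
      ∃ w ∈ L k'' P'', u - d 1 w ∈ L' k P ∧ v - d 0 w ∈ L' k P

/-- the onto facts at `P`-degree `e` -/
structure Onto (x d : Fin 2 → U →ₗ[K] U) (L L' : ℤ → ℤ → Submodule K U) (e : ℤ) : Prop where
  ds : ∀ P P', (P = e - 1 ∨ P = e) → P' = P + 1 → ∀ u ∈ L 2 P, ∃ v ∈ L 1 P', ∃ w ∈ L 1 P',
    u - (d 0 v + d 1 w) ∈ L' 2 P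
  xs : ∀ u ∈ L 0 (e + 2), ∃ v ∈ L 0 (e + 1), ∃ w ∈ L 0 (e + 1),
    u - (x 0 v + x 1 w) ∈ L' 0 (e + 2)
  lx0 : ∀ u ∈ L 0 (e + 1), ∃ v ∈ L' 2 e, ∃ w ∈ L' 2 e, u - (x 1 v - x 0 w) ∈ L' 0 (e + 1)
  lx1 : ∀ u ∈ L 1 (e + 1), ∃ v ∈ L' 2 e, ∃ w ∈ L' 2 e, u - (x 1 v - x 0 w) ∈ L' 1 (e + 1)

section maps

variable (g : K) (x d : Fin 2 → U →ₗ[K] U) (c : ℕ → K) (n : ℕ)

/-- `δ⁰`: the `K2`-slot (`j < n`) -/
def y0' (φ : ℕ → U) (j : ℕ) : U := (c (n - j))⁻¹ • x 0 (d 0 (φ j)) - φ j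
def y1' (φ : ℕ → U) (j : ℕ) : U := (c (n - j))⁻¹ • x 1 (d 0 (φ j)) - φ (j + 1)
/-- `δ⁰`: the `O1`-slots (`j ≤ n + 1`) -/
def w0' (φ : ℕ → U) (j : ℕ) : U :=
  if j = n + 1 then x 1 (d 0 (φ n)) else g⁻¹ • (x 0 (d 0 (φ j)) - c (n - j) • φ j)
def w1' (φ : ℕ → U) (j : ℕ) : U :=
  if j = n + 1 then g⁻¹ • (x 1 (d 1 (φ n)) - c n • φ n) else x 0 (d 1 (φ j)) - c j • φ (j - 1)

/-- `δ¹`: the `K1'`-slots (`j ≤ n`); `y0, y1` are `0` from `n` on -/
def Y00' (y0 w0 w1 : ℕ → U) (j : ℕ) : U :=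
  -(c (n - j) • y0 j) + g • w0 j +
    (if j = n then (c (n + 1))⁻¹ • x 0 (d 0 (w1 (n + 1)) - d 1 (w0 (n + 1))) else 0)
def Y01' (y0 y1 w0 w1 : ℕ → U) (j : ℕ) : U :=
  -(c (n - j) • y1 j) - d 0 (x 1 (y0 j) - x 0 (y1 j)) + w0 (j + 1) +
    (if j = n then (c (n + 1))⁻¹ • x 1 (d 0 (w1 (n + 1)) - d 1 (w0 (n + 1))) else 0)
def Y10' (y0 w0 w1 : ℕ → U) (j : ℕ) : U :=
  -(c j • y0 (j - 1)) + w1 j + (c (n + 1 - j))⁻¹ • x 0 (d 1 (w0 j) - d 0 (w1 j))
def Y11' (y0 y1 w0 w1 : ℕ → U) (j : ℕ) : U :=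
  -(c j • y1 (j - 1)) - g • d 1 (x 1 (y0 j) - x 0 (y1 j)) + g • w1 (j + 1) +
    (c (n + 1 - j))⁻¹ • x 1 (d 1 (w0 j) - d 0 (w1 j))

/-- `δ²` (`j ≤ n`) -/
def t' (Y00 Y01 Y10 Y11 : ℕ → U) (j : ℕ) : U :=
  d 1 (x 1 (Y00 j) - x 0 (Y01 j)) - d 0 (x 1 (Y10 j) - x 0 (Y11 j)) - c (j + 1) • Y00 j
    + c j • Y01 (j - 1) + c (n - j) • Y10 (j + 1) - c (n + 1 - j) • Y11 j

end maps

variable {g : K} {x d : Fin 2 → U →ₗ[K] U} {L L' : ℤ → ℤ → Submodule K U} {c : ℕ → K} {n : ℕ}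
  {e : ℤ}

theorem F0 (F : Pair g x d L L') (φ : ℕ → U) (hφ : ∀ j ≤ n, φ j ∈ L 0 e)
    (h : ∀ j ≤ n, w0' g x d c n φ j ∈ L' 1 e) : ∀ j ≤ n, φ j ∈ L' 0 e := by
  intro j hj
  have h1 := h j hj
  rw [w0', if_neg (by omega)] at h1
  have h2 := (L' 1 e).smul_mem g h1
  rw [smul_smul, mul_inv_cancel₀ F.g0, one_smul] at h2
  have h3 : x 0 (d 0 (φ j)) ∈ L' 1 e := by
    have := (L' 1 e).add_mem h2 ((L' 1 e).smul_mem (c (n - j)) (F.up 0 1 e (by norm_num) (hφ j hj)))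
    rwa [sub_add_cancel] at this
  have h4 := F.xi 1 (e - 1) e (by ring) _ (F.md 0 0 e 1 (e - 1) (by norm_num) rfl _ (hφ j hj)) h3
  exact F.di 0 e 1 (e - 1) (by norm_num) rfl _ (hφ j hj) h4

theorem cyc (F : Pair g x d L L') {y0 y1 : U} (h0 : y0 ∈ L 2 e) (h1 : y1 ∈ L 2 e) {k : ℤ}
    (hk : k = 0 ∨ k = 1) (hm : x 1 y0 - x 0 y1 ∈ L k (e + 1)) :
    ∃ z ∈ L 2 (e - 1), y0 - x 0 z ∈ L' 2 e ∧ y1 - x 1 z ∈ L' 2 e := by
  refine F.xk 2 e (e + 1) (e - 1) rfl rfl _ h0 _ h1 ?_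
  rcases hk with rfl | rfl
  · exact F.up 1 2 _ (by norm_num) (F.le _ _ (F.up 0 1 _ (by norm_num) hm))
  · exact F.up 1 2 _ (by norm_num) hm

theorem F1 (F : Pair g x d L L') (hc0 : c 0 = 0) (hc : ∀ a, a ≤ n → c (a + 1) ≠ 0)
    (y0 y1 w0 w1 : ℕ → U) (hz : ∀ j, n ≤ j → y0 j = 0 ∧ y1 j = 0)
    (hy : ∀ j, y0 j ∈ L 2 e ∧ y1 j ∈ L 2 e ∧ x 1 (y0 j) - x 0 (y1 j) ∈ L 0 (e + 1))
    (hw : ∀ j ≤ n + 1, w0 j ∈ L 1 e ∧ w1 j ∈ L 1 e)
    (h00 : ∀ j ≤ n, Y00' g x d c n y0 w0 w1 j ∈ L' 2 e)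
    (hM0 : ∀ j ≤ n, x 1 (Y00' g x d c n y0 w0 w1 j) - x 0 (Y01' x d c n y0 y1 w0 w1 j) ∈
      L' 1 (e + 1))
    (h10 : ∀ j ≤ n, Y10' x d c n y0 w0 w1 j ∈ L' 2 e) :
    ∃ φ : ℕ → U, (∀ j ≤ n, φ j ∈ L 0 e) ∧
      (∀ j < n, y0 j - y0' x d c n φ j ∈ L' 2 e ∧ y1 j - y1' x d c n φ j ∈ L' 2 e ∧
        (x 1 (y0 j) - x 0 (y1 j)) - (x 1 (y0' x d c n φ j) - x 0 (y1' x d c n φ j)) ∈
          L' 0 (e + 1)) ∧
      (∀ j ≤ n + 1, w0 j - w0' g x d c n φ j ∈ L' 1 e ∧ w1 j - w1' g x d c n φ j ∈ L' 1 e) := by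
  -- step 1
  have hw' : ∀ j ≤ n + 1, w0 j ∈ L' 2 e ∧ w1 j ∈ L' 2 e := fun j hj =>
    ⟨F.up 1 2 e (by norm_num) (hw j hj).1, F.up 1 2 e (by norm_num) (hw j hj).2⟩
  have hy' : ∀ j, y0 j ∈ L' 2 e ∧ y1 j ∈ L' 2 e := by
    intro j
    rcases Nat.lt_or_ge j n with hj | hj
    · obtain ⟨z, hz1, hz2, hz3⟩ := cyc F (hy j).1 (hy j).2.1 (Or.inl rfl) (hy j).2.2
      have h1 := h00 j hj.le
      rw [Y00', if_neg (by omega), add_zero] at h1
      have hcj : c (n - j) ≠ 0 := by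
        have := hc (n - j - 1) (by omega)
        rwa [show n - j - 1 + 1 = n - j by omega] at this
      have h2 : y0 j ∈ L' 2 e := by
        have h3 := (L' 2 e).sub_mem ((L' 2 e).smul_mem g (hw' j (by omega)).1) h1
        have h4 : g • w0 j - (-(c (n - j) • y0 j) + g • w0 j) = c (n - j) • y0 j := by abel
        rw [h4] at h3
        have h5 := (L' 2 e).smul_mem (c (n - j))⁻¹ h3
        rwa [smul_smul, inv_mul_cancel₀ hcj, one_smul] at h5
      have h6 : x 0 z ∈ L' 2 e := by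
        have := (L' 2 e).sub_mem h2 hz2
        rwa [sub_sub_cancel] at this
      have h7 := F.xi 2 (e - 1) e (by ring) z hz1 h6
      have h8 := F.mx' 1 2 (e - 1) e (by ring) z h7
      refine ⟨h2, ?_⟩
      have := (L' 2 e).add_mem hz3 h8
      rwa [sub_add_cancel] at this
    · rw [(hz j hj).1, (hz j hj).2]
      exact ⟨Submodule.zero_mem _, Submodule.zero_mem _⟩
  -- step 2
  have hω : ∀ j ≤ n + 1, d 0 (w1 j) - d 1 (w0 j) ∈ L' 2 (e - 1) := by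
    intro j hj
    have hmem : d 0 (w1 j) - d 1 (w0 j) ∈ L 2 (e - 1) :=
      Submodule.sub_mem _ (F.md 0 1 e 2 (e - 1) (by norm_num) rfl _ (hw j hj).2)
        (F.md 1 1 e 2 (e - 1) (by norm_num) rfl _ (hw j hj).1)
    refine F.xi 2 (e - 1) e (by ring) _ hmem ?_
    rcases Nat.lt_or_ge n j with hj' | hj'
    · obtain rfl : j = n + 1 := by omega
      have h1 := h00 n le_rfl
      rw [Y00', if_pos rfl, Nat.sub_self, hc0, zero_smul, neg_zero, zero_add] at h1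
      have h2 := (L' 2 e).sub_mem h1 ((L' 2 e).smul_mem g (hw' n (by omega)).1)
      rw [add_sub_cancel_left] at h2
      have h5 := (L' 2 e).smul_mem (c (n + 1)) h2
      rwa [smul_smul, mul_inv_cancel₀ (hc n le_rfl), one_smul] at h5
    · have h1 := h10 j hj'
      rw [Y10'] at h1
      have h2 := (L' 2 e).sub_mem ((L' 2 e).add_mem
        ((L' 2 e).neg_mem ((L' 2 e).smul_mem (c j) (hy' (j - 1)).1)) (hw' j hj).2) h1
      have hcj : c (n + 1 - j) ≠ 0 := by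
        have := hc (n - j) (by omega)
        rwa [show n - j + 1 = n + 1 - j by omega] at this
      have h5 := (L' 2 e).smul_mem (c (n + 1 - j)) h2
      have h6 : c (n + 1 - j) • (-(c j • y0 (j - 1)) + w1 j - (-(c j • y0 (j - 1)) + w1 j +
          (c (n + 1 - j))⁻¹ • x 0 (d 1 (w0 j) - d 0 (w1 j)))) =
          x 0 (d 0 (w1 j) - d 1 (w0 j)) := by
        have : (-(c j • y0 (j - 1)) + w1 j - (-(c j • y0 (j - 1)) + w1 j +
          (c (n + 1 - j))⁻¹ • x 0 (d 1 (w0 j) - d 0 (w1 j)))) =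
          (c (n + 1 - j))⁻¹ • (- x 0 (d 1 (w0 j) - d 0 (w1 j))) := by
          rw [smul_neg]; abel
        rw [this, smul_smul, mul_inv_cancel₀ hcj, one_smul, ← map_neg, neg_sub]
      rwa [h6] at h5
  -- step 3
  have hθ : ∀ j ≤ n + 1, ∃ t ∈ L 0 (e + 1), w1 j - d 1 t ∈ L' 1 e ∧ w0 j - d 0 t ∈ L' 1 e :=
    fun j hj => F.dk 1 e 2 (e - 1) 0 (e + 1) (by norm_num) rfl (by norm_num) rfl _ (hw j hj).2 _
      (hw j hj).1 (hω j hj)
  choose! θ hθ0 hθ1 hθ2 using hθ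
  -- step 4
  set m : ℕ → U := fun j => x 1 (y0 j) - x 0 (y1 j) with hm
  have hm0 : ∀ j, m j ∈ L 0 (e + 1) := fun j => (hy j).2.2
  have hup : ∀ u ∈ L 0 (e + 1), u ∈ L' 1 (e + 1) := fun u hu => F.up 0 1 _ (by norm_num) hu
  have key : ∀ j ≤ n, x 1 (θ j) - x 0 (θ (j + 1) - m j) ∈ L' 0 (e + 2) := by
    intro j hj
    have hmem : x 1 (θ j) - x 0 (θ (j + 1) - m j) ∈ L 0 (e + 2) :=
      Submodule.sub_mem _ (F.mx 1 0 (e + 1) (e + 2) (by ring) _ (hθ0 j (by omega)))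
        (F.mx 0 0 (e + 1) (e + 2) (by ring) _ (Submodule.sub_mem _ (hθ0 (j + 1) (by omega))
          (hm0 j)))
    refine F.di 0 (e + 2) 1 (e + 1) (by norm_num) (by ring) _ hmem ?_
    have h1 := hM0 j hj
    have e1 : x 1 (Y00' g x d c n y0 w0 w1 j) - x 0 (Y01' x d c n y0 y1 w0 w1 j) =
        -(c (n - j) • m j) + x 0 (d 0 (m j)) + g • x 1 (w0 j) - x 0 (w0 (j + 1)) := by
      simp only [Y00', Y01', hm]
      split_ifs
      · simp only [map_add, map_sub, map_neg, map_smul, F.xx]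
        module
      · simp only [map_add, map_sub, map_neg, map_smul, map_zero]
        module
    rw [e1, F.xd] at h1
    have r1 := F.mx' 1 1 e (e + 1) rfl _ (hθ2 j (by omega))
    have r2 := F.mx' 0 1 e (e + 1) rfl _ (hθ2 (j + 1) (by omega))
    have t1 := hup _ (hθ0 (j + 1) (by omega))
    have t2 := hup _ (hm0 j)
    have h2 : g • d 0 (x 1 (θ j) - x 0 (θ (j + 1) - m j)) ∈ L' 1 (e + 1) := by
      have e2 : g • d 0 (x 1 (θ j) - x 0 (θ (j + 1) - m j)) =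
          (-(c (n - j) • m j) + (m j + g • d 0 (x 0 (m j))) + g • x 1 (w0 j) - x 0 (w0 (j + 1)))
          + c (n - j) • m j - m j - g • x 1 (w0 j - d 0 (θ j))
          + x 0 (w0 (j + 1) - d 0 (θ (j + 1))) + θ (j + 1) := by
        simp only [map_sub, F.x1d0, F.xd]
        module
      rw [e2]
      exact Submodule.add_mem _ (Submodule.add_mem _ (Submodule.sub_mem _ (Submodule.sub_mem _
        (Submodule.add_mem _ h1 (Submodule.smul_mem _ _ t2)) t2) (Submodule.smul_mem _ _ r1)) r2) t1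
    have h3 := (L' 1 (e + 1)).smul_mem g⁻¹ h2
    rwa [smul_smul, inv_mul_cancel₀ F.g0, one_smul] at h3
  -- step 5
  have hφ : ∀ j ≤ n, ∃ w ∈ L 0 e, θ j - x 0 w ∈ L' 0 (e + 1) ∧
      θ (j + 1) - m j - x 1 w ∈ L' 0 (e + 1) := fun j hj =>
    F.xk 0 (e + 1) (e + 2) e (by ring) (by ring) _ (hθ0 j (by omega)) _
      (Submodule.sub_mem _ (hθ0 (j + 1) (by omega)) (hm0 j)) (key j hj)
  choose! φ p0 p1 p2 using hφ
  have hφ' : ∀ j ≤ n, φ j ∈ L' 1 e := fun j hj => F.up 0 1 _ (by norm_num) (p0 j hj)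
  have hxd : ∀ i l, ∀ j ≤ n, x i (d l (φ j)) ∈ L' 2 e := fun i l j hj =>
    F.up 1 2 e (by norm_num) (F.mx i 1 (e - 1) e (by ring) _
      (F.md l 0 e 1 (e - 1) (by norm_num) rfl _ (p0 j hj)))
  refine ⟨φ, p0, ?_, ?_⟩
  · intro j hj
    refine ⟨?_, ?_, ?_⟩
    · exact Submodule.sub_mem _ (hy' j).1 (Submodule.sub_mem _ (Submodule.smul_mem _ _
        (hxd 0 0 j (by omega))) (F.up 1 2 e (by norm_num) (F.le _ _ (hφ' j (by omega)))))
    · exact Submodule.sub_mem _ (hy' j).2 (Submodule.sub_mem _ (Submodule.smul_mem _ _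
        (hxd 1 0 j (by omega))) (F.up 1 2 e (by norm_num) (F.le _ _ (hφ' (j + 1) (by omega)))))
    · have e3 : (x 1 (y0 j) - x 0 (y1 j)) - (x 1 (y0' x d c n φ j) - x 0 (y1' x d c n φ j)) =
          (θ (j + 1) - x 0 (φ (j + 1))) - (θ (j + 1) - m j - x 1 (φ j)) := by
        simp only [y0', y1', hm, map_sub, map_smul, F.xx]
        module
      rw [e3]
      exact Submodule.sub_mem _ (p1 (j + 1) (by omega)) (p2 j (by omega))
  · intro j hj
    rcases Nat.lt_or_ge n j with hj' | hj'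
    · obtain rfl : j = n + 1 := by omega
      have hmn : m n = 0 := by simp [hm, (hz n le_rfl).1, (hz n le_rfl).2]
      have q1 := p2 n le_rfl
      rw [hmn, sub_zero] at q1
      constructor
      · rw [w0', if_pos rfl]
        have e4 : w0 (n + 1) - x 1 (d 0 (φ n)) = (w0 (n + 1) - d 0 (θ (n + 1))) +
            d 0 (θ (n + 1) - x 1 (φ n)) := by
          rw [map_sub, F.x1d0]; abel
        rw [e4]
        exact Submodule.add_mem _ (hθ2 _ le_rfl) (F.md' 0 0 (e + 1) 1 e (by norm_num) (by ring) _ q1)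
      · rw [w1', if_pos rfl]
        have e4 : w1 (n + 1) - g⁻¹ • (x 1 (d 1 (φ n)) - c n • φ n) =
            (w1 (n + 1) - d 1 (θ (n + 1))) + d 1 (θ (n + 1) - x 1 (φ n))
            + (g⁻¹ * c n - g⁻¹) • φ n := by
          have h9 : g⁻¹ • (x 1 (d 1 (φ n)) - c n • φ n) =
              d 1 (x 1 (φ n)) - (g⁻¹ * c n - g⁻¹) • φ n := by
            rw [F.xd, smul_sub, smul_add, smul_smul, smul_smul, inv_mul_cancel₀ F.g0]
            module
          rw [h9, map_sub]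
          module
        rw [e4]
        exact Submodule.add_mem _ (Submodule.add_mem _ (hθ1 _ le_rfl)
          (F.md' 1 0 (e + 1) 1 e (by norm_num) (by ring) _ q1)) (Submodule.smul_mem _ _
            (hφ' n le_rfl))
    · constructor
      · rw [w0', if_neg (by omega)]
        have e4 : w0 j - g⁻¹ • (x 0 (d 0 (φ j)) - c (n - j) • φ j) =
            (w0 j - d 0 (θ j)) + d 0 (θ j - x 0 (φ j))
            + (g⁻¹ * c (n - j) - g⁻¹) • φ j := by
          have h9 : g⁻¹ • (x 0 (d 0 (φ j)) - c (n - j) • φ j) =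
              d 0 (x 0 (φ j)) - (g⁻¹ * c (n - j) - g⁻¹) • φ j := by
            rw [F.xd, smul_sub, smul_add, smul_smul, smul_smul, inv_mul_cancel₀ F.g0]
            module
          rw [h9, map_sub]
          module
        rw [e4]
        exact Submodule.add_mem _ (Submodule.add_mem _ (hθ2 _ hj)
          (F.md' 0 0 (e + 1) 1 e (by norm_num) (by ring) _ (p1 j hj'))) (Submodule.smul_mem _ _
            (hφ' j hj'))
      · rw [w1', if_neg (by omega)]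
        have e4 : w1 j - (x 0 (d 1 (φ j)) - c j • φ (j - 1)) =
            (w1 j - d 1 (θ j)) + d 1 (θ j - x 0 (φ j)) + c j • φ (j - 1) := by
          rw [map_sub, F.x0d1]; abel
        rw [e4]
        exact Submodule.add_mem _ (Submodule.add_mem _ (hθ1 _ hj)
          (F.md' 1 0 (e + 1) 1 e (by norm_num) (by ring) _ (p1 j hj'))) (Submodule.smul_mem _ _
            (hφ' (j - 1) (by omega)))

/-- level `2`, degree `e`, modulo `L'`: the two `K1'`-pairs of a coboundary -/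
theorem F2 (F : Pair g x d L L') (O : Onto x d L L' e) (hc0 : c 0 = 0)
    (hc : ∀ a, a ≤ n → c (a + 1) ≠ 0) (Y00 Y01 Y10 Y11 : ℕ → U)
    (hY0 : ∀ j ≤ n, Y00 j ∈ L 2 e ∧ Y01 j ∈ L 2 e ∧ x 1 (Y00 j) - x 0 (Y01 j) ∈ L 1 (e + 1))
    (hY1 : ∀ j ≤ n, Y10 j ∈ L 2 e ∧ Y11 j ∈ L 2 e ∧ x 1 (Y10 j) - x 0 (Y11 j) ∈ L 1 (e + 1))
    (ht : ∀ j ≤ n, t' x d c n Y00 Y01 Y10 Y11 j ∈ L' 2 e) :
    ∃ y0 y1 w0 w1 : ℕ → U, (∀ j, n ≤ j → y0 j = 0 ∧ y1 j = 0) ∧
      (∀ j, y0 j ∈ L 2 e ∧ y1 j ∈ L 2 e ∧ x 1 (y0 j) - x 0 (y1 j) ∈ L 0 (e + 1)) ∧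
      (∀ j ≤ n + 1, w0 j ∈ L 1 e ∧ w1 j ∈ L 1 e) ∧
      (∀ j ≤ n, Y00 j - Y00' g x d c n y0 w0 w1 j ∈ L' 2 e ∧
        Y01 j - Y01' x d c n y0 y1 w0 w1 j ∈ L' 2 e ∧
        x 1 (Y00 j - Y00' g x d c n y0 w0 w1 j) - x 0 (Y01 j - Y01' x d c n y0 y1 w0 w1 j) ∈
          L' 1 (e + 1)) ∧
      (∀ j ≤ n, Y10 j - Y10' x d c n y0 w0 w1 j ∈ L' 2 e ∧
        Y11 j - Y11' g x d c n y0 y1 w0 w1 j ∈ L' 2 e ∧
        x 1 (Y10 j - Y10' x d c n y0 w0 w1 j) - x 0 (Y11 j - Y11' g x d c n y0 y1 w0 w1 j) ∈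
          L' 1 (e + 1)) := by
  -- step 1
  have hz0 : ∀ j ≤ n, ∃ z ∈ L 2 (e - 1), Y00 j - x 0 z ∈ L' 2 e ∧ Y01 j - x 1 z ∈ L' 2 e :=
    fun j hj => cyc F (hY0 j hj).1 (hY0 j hj).2.1 (Or.inr rfl) (hY0 j hj).2.2
  have hz1 : ∀ j ≤ n, ∃ z ∈ L 2 (e - 1), Y10 j - x 0 z ∈ L' 2 e ∧ Y11 j - x 1 z ∈ L' 2 e :=
    fun j hj => cyc F (hY1 j hj).1 (hY1 j hj).2.1 (Or.inr rfl) (hY1 j hj).2.2
  choose! Z0 a0 a1 a2 using hz0
  choose! Z1 b0 b1 b2 using hz1
  have hcn : ∀ j ≤ n, c (n + 1 - j) ≠ 0 := by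
    intro j hj
    have := hc (n - j) (by omega)
    rwa [show n - j + 1 = n + 1 - j by omega] at this
  -- step 2
  let z : ℕ → U := fun j => if j < n then -((c (n - j))⁻¹ • Z0 j) else 0
  let ω : ℕ → U := fun j => (if j = 0 then 0 else c j • Z0 (j - 1)) -
    (if j ≤ n then c (n + 1 - j) • Z1 j else 0)
  have hωm : ∀ j ≤ n + 1, ω j ∈ L 2 (e - 1) := by
    intro j hj
    refine Submodule.sub_mem _ ?_ ?_
    · split_ifs with h
      · exact Submodule.zero_mem _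
      · exact Submodule.smul_mem _ _ (a0 (j - 1) (by omega))
    · split_ifs with h
      · exact Submodule.smul_mem _ _ (b0 j h)
      · exact Submodule.zero_mem _
  have hw : ∀ j ≤ n + 1, ∃ p : U × U, p.1 ∈ L 1 e ∧ p.2 ∈ L 1 e ∧
      (d 0 p.2 - d 1 p.1) - ω j ∈ L' 2 (e - 1) := by
    intro j hj
    obtain ⟨v, hv, w, hw, h⟩ := O.ds (e - 1) e (Or.inl rfl) (by ring) _ (hωm j hj)
    refine ⟨(-w, v), Submodule.neg_mem _ hw, hv, ?_⟩
    have := (L' 2 (e - 1)).neg_mem h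
    have e1 : -(ω j - (d 0 v + d 1 w)) = (d 0 v - d 1 (-w)) - ω j := by
      rw [map_neg]; abel
    rwa [e1] at this
  choose! p p1 p2 p3 using hw
  -- step 3
  let R0 : ℕ → U := fun j => (x 1 (Y00 j) - x 0 (Y01 j)) - (g • x 1 (p j).1 - x 0 (p (j + 1)).1)
  let R1 : ℕ → U := fun j => (x 1 (Y10 j) - x 0 (Y11 j)) - (x 1 (p j).2 - g • x 0 (p (j + 1)).2)
  have hR0 : ∀ j ≤ n, R0 j ∈ L 1 (e + 1) := fun j hj =>
    Submodule.sub_mem _ (hY0 j hj).2.2 (Submodule.sub_mem _ (Submodule.smul_mem _ _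
      (F.mx 1 1 e _ rfl _ (p1 j (by omega)))) (F.mx 0 1 e _ rfl _ (p1 (j + 1) (by omega))))
  have hR1 : ∀ j ≤ n, R1 j ∈ L 1 (e + 1) := fun j hj =>
    Submodule.sub_mem _ (hY1 j hj).2.2 (Submodule.sub_mem _ (F.mx 1 1 e _ rfl _
      (p2 j (by omega))) (Submodule.smul_mem _ _ (F.mx 0 1 e _ rfl _ (p2 (j + 1) (by omega)))))
  have hp' : ∀ j ≤ n + 1, (p j).1 ∈ L' 2 e ∧ (p j).2 ∈ L' 2 e := fun j hj =>
    ⟨F.up 1 2 e (by norm_num) (p1 j hj), F.up 1 2 e (by norm_num) (p2 j hj)⟩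
  have hdR : ∀ j ≤ n, d 0 (R1 j) - d 1 (R0 j) ∈ L' 2 e := by
    intro j hj
    have h1 := ht j hj
    -- the `Z`-part
    have h2 : -(c (j + 1) • Y00 j) + c j • Y01 (j - 1) + c (n - j) • Y10 (j + 1)
        - c (n + 1 - j) • Y11 j - (x 1 (ω j) - x 0 (ω (j + 1))) ∈ L' 2 e := by
      have q1 := a1 j hj
      have q4 := b2 j hj
      have e1 : -(c (j + 1) • Y00 j) + c j • Y01 (j - 1) + c (n - j) • Y10 (j + 1)
        - c (n + 1 - j) • Y11 j - (x 1 (ω j) - x 0 (ω (j + 1))) =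
        -(c (j + 1) • (Y00 j - x 0 (Z0 j))) - c (n + 1 - j) • (Y11 j - x 1 (Z1 j))
        + (c j • Y01 (j - 1) - (if j = 0 then 0 else c j • x 1 (Z0 (j - 1))))
        + (c (n - j) • Y10 (j + 1) - (if j + 1 ≤ n then c (n - j) • x 0 (Z1 (j + 1)) else 0)) := by
        simp only [ω, if_pos hj, Nat.succ_ne_zero, if_false, Nat.add_sub_cancel,
          show n + 1 - (j + 1) = n - j by omega]
        split_ifs <;> simp only [map_sub, map_smul, map_zero] <;> module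
      rw [e1]
      refine Submodule.add_mem _ (Submodule.add_mem _ (Submodule.sub_mem _ (Submodule.neg_mem _
        (Submodule.smul_mem _ _ q1)) (Submodule.smul_mem _ _ q4)) ?_) ?_
      · split_ifs with h
        · subst h
          rw [hc0, zero_smul, sub_zero]
          exact Submodule.zero_mem _
        · rw [← smul_sub]
          exact Submodule.smul_mem _ _ (a2 (j - 1) (by omega))
      · split_ifs with h
        · rw [← smul_sub]
          exact Submodule.smul_mem _ _ (b1 (j + 1) h)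
        · rw [show n - j = 0 by omega, hc0, zero_smul, sub_zero]
          exact Submodule.zero_mem _
    have r1 := F.mx' 1 2 (e - 1) e (by ring) _ (p3 j (by omega))
    have r2 := F.mx' 0 2 (e - 1) e (by ring) _ (p3 (j + 1) (by omega))
    have e2 : d 0 (R1 j) - d 1 (R0 j) = -(t' x d c n Y00 Y01 Y10 Y11 j)
        + (-(c (j + 1) • Y00 j) + c j • Y01 (j - 1) + c (n - j) • Y10 (j + 1)
        - c (n + 1 - j) • Y11 j - (x 1 (ω j) - x 0 (ω (j + 1))))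
        - (x 1 ((d 0 (p j).2 - d 1 (p j).1) - ω j)
          - x 0 ((d 0 (p (j + 1)).2 - d 1 (p (j + 1)).1) - ω (j + 1)))
        - (p j).1 - (p (j + 1)).2 := by
      simp only [t', R0, R1, map_sub, map_smul, F.x0d1, F.x1d0, F.xd]
      module
    rw [e2]
    exact Submodule.sub_mem _ (Submodule.sub_mem _ (Submodule.sub_mem _ (Submodule.add_mem _
      (Submodule.neg_mem _ h1) h2) (Submodule.sub_mem _ r1 r2)) (hp' j (by omega)).1)
      (hp' (j + 1) (by omega)).2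
  -- step 4
  have hμ : ∀ j ≤ n, ∃ t ∈ L 0 (e + 2), R1 j - d 1 t ∈ L' 1 (e + 1) ∧ R0 j - d 0 t ∈ L' 1 (e + 1) :=
    fun j hj => F.dk 1 (e + 1) 2 e 0 (e + 2) (by norm_num) (by ring) (by norm_num) (by ring) _
      (hR1 j hj) _ (hR0 j hj) (hdR j hj)
  choose! μ m0 m1 m2 using hμ
  -- step 5
  have hs : ∀ j ≤ n, ∃ r : U × U, r.1 ∈ L 0 (e + 1) ∧ r.2 ∈ L 0 (e + 1) ∧
      μ j - g • (x 0 r.1 + x 1 r.2) ∈ L' 0 (e + 2) := by
    intro j hj
    obtain ⟨v, hv, w, hw, h⟩ := O.xs _ (Submodule.smul_mem _ g⁻¹ (m0 j hj))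
    refine ⟨(v, w), hv, hw, ?_⟩
    have := (L' 0 (e + 2)).smul_mem g h
    rwa [smul_sub, smul_smul, mul_inv_cancel₀ F.g0, one_smul] at this
  choose! r r1 r2 r3 using hs
  let θ : ℕ → U := fun j => if j ≤ n then (r j).2 else -(r n).1
  have hθ : ∀ j ≤ n + 1, θ j ∈ L 0 (e + 1) := by
    intro j hj
    simp only [θ]
    split_ifs with h
    · exact r2 j h
    · exact Submodule.neg_mem _ (r1 n le_rfl)
  let m : ℕ → U := fun j => if j < n then (r j).1 + θ (j + 1) else 0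
  have hm : ∀ j, m j ∈ L 0 (e + 1) := by
    intro j
    simp only [m]
    split_ifs with h
    · exact Submodule.add_mem _ (r1 j h.le) (hθ (j + 1) (by omega))
    · exact Submodule.zero_mem _
  have hμm : ∀ j ≤ n, μ j - g • (x 0 (m j) + x 1 (θ j) - x 0 (θ (j + 1))) ∈ L' 0 (e + 2) := by
    intro j hj
    have e1 : x 0 (m j) + x 1 (θ j) - x 0 (θ (j + 1)) = x 0 (r j).1 + x 1 (r j).2 := by
      rcases Nat.lt_or_ge j n with h | h
      · have h1 : m j = (r j).1 + θ (j + 1) := if_pos h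
        have h2 : θ j = (r j).2 := if_pos hj
        rw [h1, h2, map_add]; abel
      · obtain rfl : j = n := by omega
        have h1 : m j = 0 := if_neg (by omega)
        have h2 : θ j = (r j).2 := if_pos le_rfl
        have h3 : θ (j + 1) = -(r j).1 := if_neg (by omega)
        rw [h1, h2, h3, map_zero, map_neg]; abel
    rw [e1]
    exact r3 j hj
  -- step 6
  have hη : ∀ j, ∃ q : U × U, q.1 ∈ L' 2 e ∧ q.2 ∈ L' 2 e ∧
      m j - (x 1 q.1 - x 0 q.2) ∈ L' 0 (e + 1) := by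
    intro j
    obtain ⟨v, hv, w, hw, h⟩ := O.lx0 _ (hm j)
    exact ⟨(v, w), hv, hw, h⟩
  choose q q1 q2 q3 using hη
  have hzm : ∀ j, z j ∈ L 2 (e - 1) := by
    intro j
    simp only [z]
    split_ifs with h
    · exact Submodule.neg_mem _ (Submodule.smul_mem _ _ (a0 j h.le))
    · exact Submodule.zero_mem _
  let y0 : ℕ → U := fun j => if j < n then x 0 (z j) + (q j).1 else 0
  let y1 : ℕ → U := fun j => if j < n then x 1 (z j) + (q j).2 else 0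
  let w0 : ℕ → U := fun j => (p j).1 + d 0 (θ j)
  let w1 : ℕ → U := fun j => (p j).2 + d 1 (θ j)
  have hmy : ∀ j, m j - (x 1 (y0 j) - x 0 (y1 j)) ∈ L' 0 (e + 1) := by
    intro j
    simp only [y0, y1]
    split_ifs with h
    · have e1 : m j - (x 1 (x 0 (z j) + (q j).1) - x 0 (x 1 (z j) + (q j).2)) =
          m j - (x 1 (q j).1 - x 0 (q j).2) := by
        rw [map_add, map_add, F.xx]; abel
      rw [e1]
      exact q3 j
    · have h1 : m j = 0 := if_neg h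
      rw [h1]
      simp
  have hω' : ∀ j ≤ n + 1, (d 0 (w1 j) - d 1 (w0 j)) - ω j ∈ L' 2 (e - 1) := by
    intro j hj
    have e1 : (d 0 (w1 j) - d 1 (w0 j)) - ω j = (d 0 (p j).2 - d 1 (p j).1) - ω j := by
      simp only [w0, w1, map_add, F.dd]; abel
    rw [e1]
    exact p3 j hj
  have hdθ : ∀ i, ∀ j ≤ n + 1, d i (θ j) ∈ L 1 e := fun i j hj =>
    F.md i 0 (e + 1) 1 e (by norm_num) (by ring) _ (hθ j hj)
  have hw0 : ∀ j ≤ n + 1, w0 j ∈ L 1 e := fun j hj => Submodule.add_mem _ (p1 j hj) (hdθ 0 j hj)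
  have hw1 : ∀ j ≤ n + 1, w1 j ∈ L 1 e := fun j hj => Submodule.add_mem _ (p2 j hj) (hdθ 1 j hj)
  have hup2 : ∀ u ∈ L 1 e, u ∈ L' 2 e := fun u hu => F.up 1 2 e (by norm_num) hu
  have hup1 : ∀ u ∈ L 0 (e + 1), u ∈ L' 1 (e + 1) := fun u hu => F.up 0 1 _ (by norm_num) hu
  -- `y` modulo `L'` is `x z`
  have hy0 : ∀ j, y0 j - x 0 (z j) ∈ L' 2 e := by
    intro j
    simp only [y0]
    split_ifs with h
    · rw [add_sub_cancel_left]; exact q1 j
    · have : z j = 0 := if_neg h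
      rw [this, map_zero, sub_zero]; exact Submodule.zero_mem _
  have hy1 : ∀ j, y1 j - x 1 (z j) ∈ L' 2 e := by
    intro j
    simp only [y1]
    split_ifs with h
    · rw [add_sub_cancel_left]; exact q2 j
    · have : z j = 0 := if_neg h
      rw [this, map_zero, sub_zero]; exact Submodule.zero_mem _
  have hmy' : ∀ j, x 1 (y0 j) - x 0 (y1 j) ∈ L 0 (e + 1) := by
    intro j
    have := Submodule.sub_mem _ (hm j) (F.le _ _ (hmy j))
    rwa [sub_sub_cancel] at this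
  -- the level-one remainder
  have hrem : ∀ i, ∀ j ≤ n, d i (μ j) - g • d i (x 0 (x 1 (y0 j) - x 0 (y1 j)) + x 1 (θ j)
      - x 0 (θ (j + 1))) ∈ L' 1 (e + 1) := by
    intro i j hj
    have h1 := F.mx' 0 0 (e + 1) (e + 2) (by ring) _ (hmy j)
    have h2 := Submodule.add_mem _ (hμm j hj) ((L' 0 (e + 2)).smul_mem g h1)
    have h3 := F.md' i 0 (e + 2) 1 (e + 1) (by norm_num) (by ring) _ h2
    have e1 : d i (μ j) - g • d i (x 0 (x 1 (y0 j) - x 0 (y1 j)) + x 1 (θ j) - x 0 (θ (j + 1))) =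
        d i (μ j - g • (x 0 (m j) + x 1 (θ j) - x 0 (θ (j + 1))) +
          g • x 0 (m j - (x 1 (y0 j) - x 0 (y1 j)))) := by
      simp only [map_add, map_sub, map_smul]
      module
    rw [e1]
    exact h3
  refine ⟨y0, y1, w0, w1, ?_, ?_, fun j hj => ⟨hw0 j hj, hw1 j hj⟩, ?_, ?_⟩
  · intro j hj
    exact ⟨if_neg (by omega), if_neg (by omega)⟩
  · intro j
    refine ⟨?_, ?_, hmy' j⟩
    · have := Submodule.add_mem _ (F.le _ _ (hy0 j)) (F.mx 0 2 (e - 1) e (by ring) _ (hzm j))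
      rwa [sub_add_cancel] at this
    · have := Submodule.add_mem _ (F.le _ _ (hy1 j)) (F.mx 1 2 (e - 1) e (by ring) _ (hzm j))
      rwa [sub_add_cancel] at this
  · intro j hj
    have hzZ : -(c (n - j) • z j) + (if j = n then (c (n + 1))⁻¹ • ω (n + 1) else 0) = Z0 j := by
      rcases Nat.lt_or_ge j n with h | h
      · have h1 : z j = -((c (n - j))⁻¹ • Z0 j) := if_pos h
        have h2 : c (n - j) ≠ 0 := by
          have := hc (n - j - 1) (by omega)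
          rwa [show n - j - 1 + 1 = n - j by omega] at this
        rw [if_neg (by omega), h1, smul_neg, neg_neg, smul_smul, mul_inv_cancel₀ h2, one_smul,
          add_zero]
      · obtain rfl : j = n := by omega
        rw [if_pos rfl, Nat.sub_self, hc0, zero_smul, neg_zero, zero_add]
        simp only [ω, Nat.succ_ne_zero, if_false, Nat.add_sub_cancel]
        rw [if_neg (by omega), sub_zero, smul_smul, inv_mul_cancel₀ (hc j le_rfl), one_smul]
    refine ⟨?_, ?_, ?_⟩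
    · have h1 := hy0 j
      have e1 : Y00 j - Y00' g x d c n y0 w0 w1 j = (Y00 j - x 0 (Z0 j)) +
          c (n - j) • (y0 j - x 0 (z j)) - g • w0 j
          - (if j = n then (c (n + 1))⁻¹ • x 0 ((d 0 (w1 (n + 1)) - d 1 (w0 (n + 1)))
            - ω (n + 1)) else 0) := by
        conv_lhs => rw [← sub_add_cancel (Y00 j) (x 0 (Z0 j))]
        rw [Y00']
        nth_rewrite 2 [← hzZ]
        split_ifs <;> simp only [map_add, map_sub, map_smul, map_neg, map_zero] <;> module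
      rw [e1]
      refine Submodule.sub_mem _ (Submodule.sub_mem _ (Submodule.add_mem _ (a1 j hj)
        (Submodule.smul_mem _ _ h1)) (Submodule.smul_mem _ _ (hup2 _ (hw0 j (by omega))))) ?_
      split_ifs
      · exact Submodule.smul_mem _ _ (F.mx' 0 2 (e - 1) e (by ring) _ (hω' _ le_rfl))
      · exact Submodule.zero_mem _
    · have h1 := hy1 j
      have e1 : Y01 j - Y01' x d c n y0 y1 w0 w1 j = (Y01 j - x 1 (Z0 j)) +
          c (n - j) • (y1 j - x 1 (z j)) + d 0 (x 1 (y0 j) - x 0 (y1 j)) - w0 (j + 1)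
          - (if j = n then (c (n + 1))⁻¹ • x 1 ((d 0 (w1 (n + 1)) - d 1 (w0 (n + 1)))
            - ω (n + 1)) else 0) := by
        conv_lhs => rw [← sub_add_cancel (Y01 j) (x 1 (Z0 j))]
        rw [Y01']
        nth_rewrite 2 [← hzZ]
        split_ifs <;> simp only [map_add, map_sub, map_smul, map_neg, map_zero] <;> module
      rw [e1]
      refine Submodule.sub_mem _ (Submodule.sub_mem _ (Submodule.add_mem _ (Submodule.add_mem _
        (a2 j hj) (Submodule.smul_mem _ _ h1)) (hup2 _ (F.md 0 0 (e + 1) 1 e (by norm_num)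
          (by ring) _ (hmy' j)))) (hup2 _ (hw0 (j + 1) (by omega)))) ?_
      split_ifs
      · exact Submodule.smul_mem _ _ (F.mx' 1 2 (e - 1) e (by ring) _ (hω' _ le_rfl))
      · exact Submodule.zero_mem _
    · have e1 : x 1 (Y00 j - Y00' g x d c n y0 w0 w1 j) -
          x 0 (Y01 j - Y01' x d c n y0 y1 w0 w1 j) =
          (R0 j - d 0 (μ j)) + (d 0 (μ j) - g • d 0 (x 0 (x 1 (y0 j) - x 0 (y1 j)) + x 1 (θ j)
          - x 0 (θ (j + 1)))) + θ (j + 1) + (c (n - j) - 1) • (x 1 (y0 j) - x 0 (y1 j)) := by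
        simp only [Y00', Y01']
        generalize d 0 (w1 (n + 1)) - d 1 (w0 (n + 1)) = D
        simp only [R0, w0]
        split_ifs
        · simp only [map_add, map_sub, map_smul, map_neg, F.xx, F.xd, F.x1d0]
          module
        · simp only [map_add, map_sub, map_smul, map_neg, F.xx, F.xd, F.x1d0, map_zero]
          module
      rw [e1]
      exact Submodule.add_mem _ (Submodule.add_mem _ (Submodule.add_mem _ (m2 j hj)
        (hrem 0 j hj)) (hup1 _ (hθ _ (by omega)))) (Submodule.smul_mem _ _ (hup1 _ (hmy' j)))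
  · intro j hj
    have hzZ : -((if j = 0 then 0 else c j • z (j - 1))) + -((c (n + 1 - j))⁻¹ • ω j) = Z1 j := by
      have h2 := hcn j hj
      simp only [ω, if_pos hj]
      rcases j with _ | j
      · simp only [if_true, neg_zero, zero_add, zero_sub, smul_neg, neg_neg]
        rw [smul_smul, inv_mul_cancel₀ h2, one_smul]
      · have h1 : z j = -((c (n - j))⁻¹ • Z0 j) := if_pos (by omega)
        have e2 : n + 1 - (j + 1) = n - j := by omega
        rw [e2] at h2 ⊢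
        simp only [Nat.succ_ne_zero, if_false, Nat.add_sub_cancel]
        rw [h1, smul_sub, smul_smul _ _ (Z1 (j + 1)), inv_mul_cancel₀ h2]
        module
    have hyy : ∀ i, (c j • (if i = 0 then y0 (j - 1) else y1 (j - 1))) =
        (if j = 0 then 0 else c j • (if i = 0 then y0 (j - 1) else y1 (j - 1))) := by
      intro i
      by_cases h : j = 0
      · subst h; rw [hc0, zero_smul, if_pos rfl]
      · rw [if_neg h]
    have hyy0 := hyy 0
    have hyy1 := hyy 1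
    simp only [if_true, Nat.one_ne_zero, if_false] at hyy0 hyy1
    have k0 : (if j = 0 then 0 else c j • y0 (j - 1)) - (if j = 0 then 0 else c j • x 0 (z (j - 1)))
        ∈ L' 2 e := by
      split_ifs with h
      · rw [sub_zero]; exact Submodule.zero_mem _
      · rw [← smul_sub]; exact Submodule.smul_mem _ _ (hy0 _)
    have k1 : (if j = 0 then 0 else c j • y1 (j - 1)) - (if j = 0 then 0 else c j • x 1 (z (j - 1)))
        ∈ L' 2 e := by
      split_ifs with h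
      · rw [sub_zero]; exact Submodule.zero_mem _
      · rw [← smul_sub]; exact Submodule.smul_mem _ _ (hy1 _)
    refine ⟨?_, ?_, ?_⟩
    · have e1 : Y10 j - Y10' x d c n y0 w0 w1 j = (Y10 j - x 0 (Z1 j)) +
          ((if j = 0 then 0 else c j • y0 (j - 1)) -
            (if j = 0 then 0 else c j • x 0 (z (j - 1)))) - w1 j
          + (c (n + 1 - j))⁻¹ • x 0 ((d 0 (w1 j) - d 1 (w0 j)) - ω j) := by
        conv_lhs => rw [← sub_add_cancel (Y10 j) (x 0 (Z1 j))]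
        rw [Y10', hyy0]
        nth_rewrite 2 [← hzZ]
        split_ifs <;> simp only [map_add, map_sub, map_smul, map_neg, map_zero] <;> module
      rw [e1]
      exact Submodule.add_mem _ (Submodule.sub_mem _ (Submodule.add_mem _ (b1 j hj) k0)
        (hup2 _ (hw1 j (by omega)))) (Submodule.smul_mem _ _ (F.mx' 0 2 (e - 1) e (by ring) _
          (hω' j (by omega))))
    · have e1 : Y11 j - Y11' g x d c n y0 y1 w0 w1 j = (Y11 j - x 1 (Z1 j)) +
          ((if j = 0 then 0 else c j • y1 (j - 1)) -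
            (if j = 0 then 0 else c j • x 1 (z (j - 1)))) - g • w1 (j + 1)
          + g • d 1 (x 1 (y0 j) - x 0 (y1 j))
          + (c (n + 1 - j))⁻¹ • x 1 ((d 0 (w1 j) - d 1 (w0 j)) - ω j) := by
        conv_lhs => rw [← sub_add_cancel (Y11 j) (x 1 (Z1 j))]
        rw [Y11', hyy1]
        nth_rewrite 2 [← hzZ]
        split_ifs <;> simp only [map_add, map_sub, map_smul, map_neg, map_zero] <;> module
      rw [e1]
      exact Submodule.add_mem _ (Submodule.add_mem _ (Submodule.sub_mem _ (Submodule.add_mem _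
        (b2 j hj) k1) (Submodule.smul_mem _ _ (hup2 _ (hw1 (j + 1) (by omega)))))
        (Submodule.smul_mem _ _ (hup2 _ (F.md 1 0 (e + 1) 1 e (by norm_num) (by ring) _
          (hmy' j))))) (Submodule.smul_mem _ _ (F.mx' 1 2 (e - 1) e (by ring) _
          (hω' j (by omega))))
    · have e1 : x 1 (Y10 j - Y10' x d c n y0 w0 w1 j) -
          x 0 (Y11 j - Y11' g x d c n y0 y1 w0 w1 j) =
          (R1 j - d 1 (μ j)) + (d 1 (μ j) - g • d 1 (x 0 (x 1 (y0 j) - x 0 (y1 j)) + x 1 (θ j)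
          - x 0 (θ (j + 1)))) - θ j + c j • (x 1 (y0 (j - 1)) - x 0 (y1 (j - 1))) := by
        simp only [Y10', Y11', R1, w1]
        simp only [map_add, map_sub, map_smul, map_neg, F.xx, F.xd, F.x0d1]
        module
      rw [e1]
      exact Submodule.add_mem _ (Submodule.sub_mem _ (Submodule.add_mem _ (m1 j hj)
        (hrem 1 j hj)) (hup1 _ (hθ _ (by omega)))) (Submodule.smul_mem _ _ (hup1 _ (hmy' _)))

theorem F3 (F : Pair g x d L L') (O : Onto x d L L' e) (t : ℕ → U) (ht : ∀ j, t j ∈ L 2 e) :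
    ∃ Y00 Y01 Y10 Y11 : ℕ → U,
      (∀ j, Y00 j ∈ L 2 e ∧ Y01 j ∈ L 2 e ∧ x 1 (Y00 j) - x 0 (Y01 j) ∈ L 1 (e + 1)) ∧
      (∀ j, Y10 j ∈ L 2 e ∧ Y11 j ∈ L 2 e ∧ x 1 (Y10 j) - x 0 (Y11 j) ∈ L 1 (e + 1)) ∧
      (∀ j, t j - t' x d c n Y00 Y01 Y10 Y11 j ∈ L' 2 e) := by
  have h1 : ∀ j, ∃ p : U × U, p.1 ∈ L 1 (e + 1) ∧ p.2 ∈ L 1 (e + 1) ∧
      t j - (d 1 p.1 - d 0 p.2) ∈ L' 2 e := by
    intro j
    obtain ⟨v, hv, w, hw, h⟩ := O.ds e (e + 1) (Or.inr rfl) rfl _ (ht j)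
    refine ⟨(w, -v), hw, Submodule.neg_mem _ hv, ?_⟩
    have e1 : d 1 w - d 0 (-v) = d 0 v + d 1 w := by rw [map_neg]; abel
    rw [e1]
    exact h
  choose p p1 p2 p3 using h1
  have h2 : ∀ u ∈ L 1 (e + 1), ∃ q : U × U, q.1 ∈ L' 2 e ∧ q.2 ∈ L' 2 e ∧
      u - (x 1 q.1 - x 0 q.2) ∈ L' 1 (e + 1) := by
    intro u hu
    obtain ⟨v, hv, w, hw, h⟩ := O.lx1 u hu
    exact ⟨(v, w), hv, hw, h⟩
  choose! q q1 q2 q3 using h2
  have hm : ∀ u ∈ L 1 (e + 1), x 1 (q u).1 - x 0 (q u).2 ∈ L 1 (e + 1) := by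
    intro u hu
    have := Submodule.sub_mem _ hu (F.le _ _ (q3 u hu))
    rwa [sub_sub_cancel] at this
  refine ⟨fun j => (q (p j).1).1, fun j => (q (p j).1).2, fun j => (q (p j).2).1,
    fun j => (q (p j).2).2, ?_, ?_, ?_⟩
  · intro j
    exact ⟨F.le _ _ (q1 _ (p1 j)), F.le _ _ (q2 _ (p1 j)), hm _ (p1 j)⟩
  · intro j
    exact ⟨F.le _ _ (q1 _ (p2 j)), F.le _ _ (q2 _ (p2 j)), hm _ (p2 j)⟩
  · intro j
    have r1 := F.md' 1 1 (e + 1) 2 e (by norm_num) (by ring) _ (q3 _ (p1 j))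
    have r2 := F.md' 0 1 (e + 1) 2 e (by norm_num) (by ring) _ (q3 _ (p2 j))
    have e1 : t j - t' x d c n (fun j => (q (p j).1).1) (fun j => (q (p j).1).2)
        (fun j => (q (p j).2).1) (fun j => (q (p j).2).2) j =
        (t j - (d 1 (p j).1 - d 0 (p j).2)) +
        d 1 ((p j).1 - (x 1 (q (p j).1).1 - x 0 (q (p j).1).2)) -
        d 0 ((p j).2 - (x 1 (q (p j).2).1 - x 0 (q (p j).2).2)) +
        c (j + 1) • (q (p j).1).1 - c j • (q (p (j - 1)).1).2 - c (n - j) • (q (p (j + 1)).2).1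
        + c (n + 1 - j) • (q (p j).2).2 := by
      simp only [t', map_sub]
      module
    rw [e1]
    exact Submodule.add_mem _ (Submodule.sub_mem _ (Submodule.sub_mem _ (Submodule.add_mem _
      (Submodule.sub_mem _ (Submodule.add_mem _ (p3 j) r1) r2) (Submodule.smul_mem _ _
        (q1 _ (p1 j)))) (Submodule.smul_mem _ _ (q2 _ (p1 _)))) (Submodule.smul_mem _ _
        (q1 _ (p2 _)))) (Submodule.smul_mem _ _ (q2 _ (p2 j)))

end Crest.Agent.R186.LCF1_371
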