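import Crest.Agent.R186.FlI_442
import Crest.Agent.R186.LCF1_371

/-!
# Row 186, S0281 base, LCQ `s = 1` (helper442): instances of 371's `Pair` and `Onto`

For every `b`: `L k P = F (k - b) P`, `L' k P = F (k - b - 1) P`; literal on 128's `Fil`:
`pairQ1 ontoQ1` (`Fil g (k-1) P`, `Fil g (k-2) P`), `pairQ2 ontoQ2` (`Fil g k P`, `Fil g (k-1) P`).
-/

set_option autoImplicit false

namespace Crest.Agent.R186.LCI1_442

open Crest.Agent.R186.LCF442 Crest.Agent.R186.LCF1_371

section generic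

variable {K M : Type*} [Field K] [AddCommGroup M] [Module K M]

theorem pairOf (S : Fl K M) (b : ℤ) (s s' : ℤ → ℤ) (hs : ∀ k, s k = k - b)
    (hs' : ∀ k, s' k = k - b - 1) :
    Pair S.g S.X S.D (fun k P => S.F (s k) P) (fun k P => S.F (s' k) P) where
  g0 := S.g0
  xx := S.rx
  dd := S.rd
  x0d1 := S.r01
  x1d0 := S.r10
  xd i u := by
    fin_cases i
    · exact S.r0 u
    · exact S.r1 u
  le k P := S.mono (by rw [hs, hs']; omega)
  up k k' P h := S.mono (by rw [hs, hs', h]; omega)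
  mx i k P P' h u hu := S.Xm i h hu
  mx' i k P P' h u hu := S.Xm i h hu
  md i k P k' P' hk hP u hu := S.Dm i (by rw [hs, hs, hk]; ring) hP hu
  md' i k P k' P' hk hP u hu := S.Dm i (by rw [hs', hs', hk]; ring) hP hu
  xi k P P' h u hu hx := S.xinj (l := s' k) (by rw [hs, hs']) h hu hx
  xk k P P' P'' h h'' u hu v hv hx := by
    have h1 : S.X 0 v - S.X 1 u ∈ S.F (s' k) P' := by
      rw [← neg_sub]
      exact Submodule.neg_mem _ hx
    obtain ⟨w, hw, h2, h3⟩ := S.kx (l := s' k) (by rw [hs, hs']) h h'' hv hu h1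
    exact ⟨w, hw, h3, h2⟩
  di k P k' P' hk hP u hu hx := by
    have h1 : s' k' = s k := by rw [hs, hs', hk]; ring
    have h2 : S.D 0 u ∈ S.F (s k) P' := by rw [← h1]; exact hx
    exact S.dinj (by rw [hs, hs']) hP hu h2
  dk k P k' P' k'' P'' hk hP hk'' hP'' u hu v hv hx := by
    have h1 : s' k' = s k := by rw [hs, hs', hk]; ring
    have h2 : S.D 0 u - S.D 1 v ∈ S.F (s k) P' := by rw [← h1]; exact hx
    have h3 : s k'' = s' k := by rw [hs, hs', hk'']; ring
    obtain ⟨w, hw, h4, h5⟩ := S.kd (l := s' k) (by rw [hs, hs']) hP hP'' hu hv h2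
    refine ⟨w, ?_, h4, h5⟩
    show w ∈ S.F (s k'') P''
    rw [h3]
    exact hw

theorem ontoOf (S : Fl K M) (b : ℤ) (s s' : ℤ → ℤ) (hs : ∀ k, s k = k - b)
    (hs' : ∀ k, s' k = k - b - 1) (hb0 : 0 ≤ b) (hb1 : b ≤ 1) {e : ℤ} (he : 0 ≤ e) :
    Onto S.X S.D (fun k P => S.F (s k) P) (fun k P => S.F (s' k) P) e where
  ds P P' _ hP' u hu := by
    have h1 : s 1 = s' 2 := by rw [hs, hs']; ring
    obtain ⟨v, hv, w, hw, h2⟩ := S.sd (l := s' 2) (by rw [hs, hs']) hP' (by rw [hs]; omega) hu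
    refine ⟨v, ?_, w, ?_, ?_⟩
    · show v ∈ S.F (s 1) P'
      rw [h1]; exact hv
    · show w ∈ S.F (s 1) P'
      rw [h1]; exact hw
    · rw [← sub_sub]; exact h2
  xs u hu := by
    obtain ⟨v, hv, w, hw, h2⟩ := S.sx (l := s' 0) (R := e + 1) (by rw [hs, hs']) (by ring)
      (by rw [hs]; omega) hu
    refine ⟨v, hv, w, hw, ?_⟩
    rw [← sub_sub]; exact h2
  lx0 u hu := by
    obtain ⟨v, hv, w, hw, h2⟩ := S.sx (l := s' 0) (R := e) (by rw [hs, hs']) (by ring)
      (by rw [hs]; omega) hu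
    have h3 : S.F (s 0) e ≤ S.F (s' 2) e := S.mono (by rw [hs, hs']; omega)
    refine ⟨w, h3 hw, -v, Submodule.neg_mem _ (h3 hv), ?_⟩
    have h4 : u - (S.X 1 w - S.X 0 (-v)) = u - S.X 0 v - S.X 1 w := by
      rw [map_neg]; abel
    rw [h4]
    exact h2
  lx1 u hu := by
    obtain ⟨v, hv, w, hw, h2⟩ := S.sx (l := s' 1) (R := e) (by rw [hs, hs']) (by ring)
      (by rw [hs]; omega) hu
    have h3 : S.F (s 1) e ≤ S.F (s' 2) e := S.mono (by rw [hs, hs']; omega)
    refine ⟨w, h3 hw, -v, Submodule.neg_mem _ (h3 hv), ?_⟩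
    have h4 : u - (S.X 1 w - S.X 0 (-v)) = u - S.X 0 v - S.X 1 w := by
      rw [map_neg]; abel
    rw [h4]
    exact h2

end generic

open Crest.Agent.R186.B281

variable {K : Type} [Field K] {g : K}

theorem fl_X (hg : Gen g) : (fl hg).X = fun i => LinearMap.mulLeft K (X i) := by
  funext i
  fin_cases i <;> rfl

theorem fl_D (hg : Gen g) : (fl hg).D = fun i => LinearMap.mulLeft K (D g i) := by
  funext i
  fin_cases i <;> rfl

/-- `Q1` at `s = 1`: `L k P = Fil g (k-1) P`, `L' k P = Fil g (k-2) P` -/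
theorem pairQ1 (hg : Gen g) : Pair (U := Op K) g (fun i => LinearMap.mulLeft K (X i))
    (fun i => LinearMap.mulLeft K (D g i)) (fun k P => Fil g (k - 1) P)
    (fun k P => Fil g (k - 2) P) := by
  have h := pairOf (fl hg) 1 (fun k => k - 1) (fun k => k - 2) (fun k => rfl) (fun k => by ring)
  simp only [fl_F, fl_X, fl_D, fl_g] at h
  exact h

theorem ontoQ1 (hg : Gen g) {e : ℤ} (he : 0 ≤ e) :
    Onto (U := Op K) (fun i => LinearMap.mulLeft K (X i))
    (fun i => LinearMap.mulLeft K (D g i)) (fun k P => Fil g (k - 1) P)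
    (fun k P => Fil g (k - 2) P) e := by
  have h := ontoOf (fl hg) 1 (fun k => k - 1) (fun k => k - 2) (fun k => rfl) (fun k => by ring)
    (by norm_num) (by norm_num) he
  simp only [fl_F, fl_X, fl_D] at h
  exact h

/-- `Q2` at `s = 1`: `L k P = Fil g k P`, `L' k P = Fil g (k-1) P` -/
theorem pairQ2 (hg : Gen g) : Pair (U := Op K) g (fun i => LinearMap.mulLeft K (X i))
    (fun i => LinearMap.mulLeft K (D g i)) (fun k P => Fil g k P)
    (fun k P => Fil g (k - 1) P) := by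
  have h := pairOf (fl hg) 0 (fun k => k) (fun k => k - 1) (fun k => by ring) (fun k => by ring)
  simp only [fl_F, fl_X, fl_D, fl_g] at h
  exact h

theorem ontoQ2 (hg : Gen g) {e : ℤ} (he : 0 ≤ e) :
    Onto (U := Op K) (fun i => LinearMap.mulLeft K (X i))
    (fun i => LinearMap.mulLeft K (D g i)) (fun k P => Fil g k P)
    (fun k P => Fil g (k - 1) P) e := by
  have h := ontoOf (fl hg) 0 (fun k => k) (fun k => k - 1) (fun k => by ring) (fun k => by ring)
    le_rfl (by norm_num) he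
  simp only [fl_F, fl_X, fl_D] at h
  exact h

end Crest.Agent.R186.LCI1_442
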