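import Crest.Agent.R186.RowPr_461
import Crest.Agent.R186.LCF1_371
import Crest.Agent.R186.FilPBW_633

/-!
# Row 186, S0281 base, LCQ `s = 1` (helper633): the ROW pairs `Q3`, `Q4` on `Fin 2 → Op K`

* `Q3` : `L k P = {v | v i ∈ Fil (k-1) P, v 0 X 0 + v 1 X 1 ∈ Fil (k-2) (P+1)}` (the `K₁(-1)`-rows),
  `L' k P = (Fil (k-2) P)²`;
* `Q4` : `L k P = {v | v i ∈ Fil k P, v 0 X 0 + v 1 X 1 ∈ Fil (k-2) (P+1)}` (the `K₂`-rows),
  `L' k P =` the `K₁(-1)`-rows.

`pairQ3, ontoQ3, pairQ4, ontoQ4` = 371's `Pair`, `Onto` for every literal form of the maps and of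
the families.
-/

set_option autoImplicit false

namespace Crest.Agent.R186.LCI1_633

open B281 B281.Sym461 LCF1_371

variable {K : Type} [Field K] {g : K}

/-! ### casts -/

theorem cF {k k' P P' : ℤ} (h : k = k') (h' : P = P') {u : Op K} (hu : u ∈ Fil g k P) :
    u ∈ Fil g k' P' := by subst h h'; exact hu

theorem cR {k k' P P' : ℤ} (h : k = k') (h' : P = P') {u : Fin 2 → Op K} (hu : u ∈ Rw g k P) :
    u ∈ Rw g k' P' := by subst h h'; exact hu

theorem cP {k k' P P' : ℤ} (h : k = k') (h' : P = P') {u : Fin 2 → Op K} (hu : u ∈ Fp g k P) :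
    u ∈ Fp g k' P' := by subst h h'; exact hu

/-! ### `Q3` -/

/-- the `K₁(-1)`-rows -/
noncomputable def L3 (g : K) (k P : ℤ) : Submodule K (Fin 2 → Op K) := Rw g (k - 1) P

/-- `(Fil (k-2))²` -/
noncomputable def M3 (g : K) (k P : ℤ) : Submodule K (Fin 2 → Op K) := Fp g (k - 1 - 1) P

theorem mem_L3 {k P : ℤ} {v : Fin 2 → Op K} : v ∈ L3 g k P ↔ v 0 ∈ Fil g (k - 1) P ∧
    v 1 ∈ Fil g (k - 1) P ∧ v 0 * X 0 + v 1 * X 1 ∈ Fil g (k - 2) (P + 1) := by
  rw [L3, mem_Rw, show k - 1 - 1 = k - 2 by ring]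

theorem mem_M3 {k P : ℤ} {v : Fin 2 → Op K} : v ∈ M3 g k P ↔ v 0 ∈ Fil g (k - 2) P ∧
    v 1 ∈ Fil g (k - 2) P := by
  rw [M3, mem_Fp, show k - 1 - 1 = k - 2 by ring]

theorem pair3 (hg : Gen g) : Pair (U := Fin 2 → Op K) g (fun i => lp (X i)) (fun i => lp (D g i))
    (L3 g) (M3 g) where
  g0 := hg.1
  xx u := (rowPr hg).xx u
  dd u := funext fun j => by
    show D g 0 * (D g 1 * u j) = D g 1 * (D g 0 * u j)
    rw [← mul_assoc, ← mul_assoc, D_comm g 0 1]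
  x0d1 u := (rowPr hg).xd1 0 1 u (by decide)
  x1d0 u := (rowPr hg).xd1 1 0 u (by decide)
  xd i u := (rowPr hg).xd0 i u
  le k P u hu := (rowPr hg).le (k - 1) P u hu
  up := by
    rintro k _ P rfl u hu
    exact cP (by ring) rfl ((rowPr hg).h (k - 1) P u hu)
  mx := by
    rintro i k P _ rfl u hu
    exact (rowPr hg).xL i (k - 1) P u hu
  mx' := by
    rintro i k P _ rfl u hu
    exact (rowPr hg).xL' i (k - 1) P u hu
  md := by
    rintro i k P _ _ rfl rfl u hu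
    exact cR (by ring) rfl ((rowPr hg).dL i (k - 1) P u hu)
  md' := by
    rintro i k P _ _ rfl rfl u hu
    exact cP (by ring) rfl ((rowPr hg).dL' i (k - 1) P u hu)
  xi := by
    rintro k P _ rfl u hu h
    exact mem_Fp.2 ⟨XI hg 0 hu.1 (mem_Fp.1 h).1, XI hg 0 hu.2.1 (mem_Fp.1 h).2⟩
  xk := by
    rintro k P _ _ rfl rfl u hu v hv h
    exact (rowPr hg).XK (k - 1) P u v hu hv h
  di := by
    rintro k P _ _ rfl rfl u hu h
    exact (rowPr hg).DI (k - 1) P u hu (cP (by ring) rfl h)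
  dk := by
    rintro k P _ _ _ _ rfl rfl rfl rfl u hu v hv h
    obtain ⟨w, hw, h1, h2⟩ := (rowPr hg).DK (k - 1) P u v hu hv (cP (by ring) rfl h)
    exact ⟨w, hw, h1, h2⟩

theorem onto3 (hg : Gen g) {e : ℤ} (he : 0 ≤ e) : Onto (U := Fin 2 → Op K) (fun i => lp (X i))
    (fun i => lp (D g i)) (L3 g) (M3 g) e where
  ds := by
    rintro P _ _ rfl u hu
    obtain ⟨v, hv, w, hw, h⟩ := rowPr_DS hg (k := 1) (by norm_num) P u (cR (by norm_num) rfl hu)
    refine ⟨v, cR (by norm_num) rfl hv, -w, Submodule.neg_mem _ (cR (by norm_num) rfl hw), ?_⟩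
    have h2 := cP (k' := 2 - 1 - 1) (by norm_num) (rfl : P = P) h
    rw [map_neg, ← sub_eq_add_neg]
    exact h2
  xs := by
    intro u hu
    have hu' : u = 0 := by
      funext j
      fin_cases j
      · exact Fil_neg hg (by norm_num) hu.1
      · exact Fil_neg hg (by norm_num) hu.2.1
    subst hu'
    exact ⟨0, Submodule.zero_mem _, 0, Submodule.zero_mem _, by
      rw [map_zero, map_zero, add_zero, sub_zero]; exact Submodule.zero_mem _⟩
  lx0 := by
    intro u hu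
    have hu' : u = 0 := by
      funext j
      fin_cases j
      · exact Fil_neg hg (by norm_num) hu.1
      · exact Fil_neg hg (by norm_num) hu.2.1
    subst hu'
    exact ⟨0, Submodule.zero_mem _, 0, Submodule.zero_mem _, by
      rw [map_zero, map_zero, sub_zero, sub_zero]; exact Submodule.zero_mem _⟩
  lx1 := by
    intro u hu
    obtain ⟨v, hv, w, hw, h⟩ := rowPr_LX hg (b := 0) (k := 1) (P := e) (by norm_num)
      (Or.inl (by omega)) u (cR (by norm_num) rfl hu)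
    exact ⟨v, cP (by norm_num) rfl hv, w, cP (by norm_num) rfl hw, cP (by norm_num) rfl h⟩

/-! ### `Q4` -/

/-- the `K₂`-rows -/
noncomputable def L4 (g : K) (k P : ℤ) : Submodule K (Fin 2 → Op K) where
  carrier := {v | v 0 ∈ Fil g k P ∧ v 1 ∈ Fil g k P ∧ v 0 * X 0 + v 1 * X 1 ∈ Fil g (k - 2) (P + 1)}
  zero_mem' := ⟨zero_mem _, zero_mem _, by
    show (0 : Op K) * X 0 + 0 * X 1 ∈ _
    rw [zero_mul, zero_mul, add_zero]
    exact zero_mem _⟩
  add_mem' := fun {v w} hv hw => ⟨add_mem hv.1 hw.1, add_mem hv.2.1 hw.2.1, by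
    have := add_mem hv.2.2 hw.2.2
    show (v 0 + w 0) * X 0 + (v 1 + w 1) * X 1 ∈ _
    convert this using 1
    rw [add_mul, add_mul]
    abel⟩
  smul_mem' := fun t v hv => ⟨Submodule.smul_mem _ t hv.1, Submodule.smul_mem _ t hv.2.1, by
    have := Submodule.smul_mem _ t hv.2.2
    show (t • v 0) * X 0 + (t • v 1) * X 1 ∈ _
    convert this using 1
    rw [smul_mul_assoc, smul_mul_assoc, smul_add]⟩

theorem mem_L4 {k P : ℤ} {v : Fin 2 → Op K} : v ∈ L4 g k P ↔ v 0 ∈ Fil g k P ∧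
    v 1 ∈ Fil g k P ∧ v 0 * X 0 + v 1 * X 1 ∈ Fil g (k - 2) (P + 1) := Iff.rfl

/-- membership in `L'` for elements of `L` only concerns the entries -/
theorem L3_of_L4 {k P : ℤ} {v : Fin 2 → Op K} (h : v ∈ L4 g k P) (h0 : v 0 ∈ Fil g (k - 1) P)
    (h1 : v 1 ∈ Fil g (k - 1) P) : v ∈ L3 g k P := mem_L3.2 ⟨h0, h1, h.2.2⟩

theorem kap_mem4 (hg : Gen g) {k P : ℤ} {e : Op K} (he : e ∈ Fil g k (P - 1)) :
    kap e ∈ L4 g k P := by
  have h0 := mulX_mem hg 0 he
  have h1 := mulX_mem hg 1 he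
  rw [sub_add_cancel] at h0 h1
  refine ⟨h1, neg_mem h0, ?_⟩
  rw [kap_zero', kap_one', kap_c e (X 0) (X 1) (X_comm 0 1)]
  exact zero_mem _

theorem kap_gen4 (hg : Gen g) {k P : ℤ} {u : Fin 2 → Op K} (hu : u ∈ L4 g k P) :
    ∃ e ∈ Fil g k (P - 1), u - kap e ∈ Fp g (k - 2) P := by
  obtain ⟨a, ha, b, hb, e, he, h1, h2⟩ := kgen hg 2 k P (u 0) (u 1) hu.1 hu.2.1 (by
    have := hu.2.2
    push_cast
    exact this)
  push_cast at ha hb
  refine ⟨e, he, ?_⟩
  rw [mem_Fp, Pi.sub_apply, Pi.sub_apply, kap_zero', kap_one', h1, h2]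
  constructor
  · have h3 : a + e * X 1 - e * X 1 = a := by abel
    rw [h3]; exact ha
  · have h3 : b - e * X 0 - -(e * X 0) = b := by abel
    rw [h3]; exact hb

theorem X4 (hg : Gen g) (i : Fin 2) {k P : ℤ} {u : Fin 2 → Op K} (hu : u ∈ L4 g k P) :
    lp (X i) u ∈ L4 g k (P + 1) := by
  rw [mem_L4] at hu ⊢
  refine ⟨X_mem hg i hu.1, X_mem hg i hu.2.1, ?_⟩
  rw [lp_apply, lp_apply, c_left]
  exact X_mem hg i hu.2.2

theorem D4 (hg : Gen g) (i : Fin 2) {k P : ℤ} {u : Fin 2 → Op K} (hu : u ∈ L4 g k P) :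
    lp (D g i) u ∈ L4 g (k + 1) (P - 1) := by
  rw [mem_L4] at hu ⊢
  refine ⟨D_mem hg i hu.1, D_mem hg i hu.2.1, ?_⟩
  rw [lp_apply, lp_apply, c_left]
  exact cF (by ring) (by ring) (D_mem hg i hu.2.2)

theorem L3_le (hg : Gen g) {k P : ℤ} {u : Fin 2 → Op K} (hu : u ∈ L3 g k P) : u ∈ L4 g k P := by
  rw [mem_L3] at hu
  exact ⟨Fil_mono hg (by omega) P hu.1, Fil_mono hg (by omega) P hu.2.1, hu.2.2⟩

/-- right multiplication by `x_i` is strict -/
theorem XRs (hg : Gen g) (i : Fin 2) {k P l Q : ℤ} {e : Op K} (he : e ∈ Fil g l Q)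
    (h : e * X i ∈ Fil g k (P + 1)) : e ∈ Fil g k P :=
  cF rfl (by ring) (FilPBW633.strict_XR hg i he h)

theorem Fp_mono (hg : Gen g) {k l : ℤ} (h : k ≤ l) {P : ℤ} {u : Fin 2 → Op K}
    (hu : u ∈ Fp g k P) : u ∈ Fp g l P :=
  mem_Fp.2 ⟨Fil_mono hg h P (mem_Fp.1 hu).1, Fil_mono hg h P (mem_Fp.1 hu).2⟩

section ring

variable {R : Type*} [Ring R]

theorem r1 (s t e f y : R) : s * (e * y) - t * (f * y) = (s * e - t * f) * y := by noncomm_ring

end ring

theorem kap_sub (s t e f : Op K) :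
    lp s (kap e) - lp t (kap f) = kap (s * e - t * f) := by
  have h := kap_lin 0 s t e f
  have h0 : kap (0 : Op K) = 0 := by
    funext j
    fin_cases j
    · show (0 : Op K) * X 1 = 0
      rw [zero_mul]
    · show -((0 : Op K) * X 0) = 0
      rw [zero_mul, neg_zero]
  have h1 : kap (0 - (s * e - t * f)) = - kap (s * e - t * f) := by
    funext j
    fin_cases j
    · show (0 - (s * e - t * f)) * X 1 = -((s * e - t * f) * X 1)
      rw [zero_sub, neg_mul]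
    · show -((0 - (s * e - t * f)) * X 0) = - -((s * e - t * f) * X 0)
      rw [zero_sub, neg_mul]
  rw [h0, h1, zero_sub] at h
  exact (neg_injective h).symm

theorem kap_sub1 (e s a : Op K) : kap e - lp s (kap a) = kap (e - s * a) := by
  have h := kap_lin e s 0 a 0
  have h0 : lp (0 : Op K) (kap (0 : Op K)) = 0 := by
    funext j
    show (0 : Op K) * _ = 0
    rw [zero_mul]
  rw [h0, sub_zero, mul_zero, sub_zero] at h
  exact h.symm

theorem pair4 (hg : Gen g) : Pair (U := Fin 2 → Op K) g (fun i => lp (X i)) (fun i => lp (D g i))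
    (L4 g) (L3 g) where
  g0 := hg.1
  xx u := (rowPr hg).xx u
  dd u := (pair3 hg).dd u
  x0d1 u := (rowPr hg).xd1 0 1 u (by decide)
  x1d0 u := (rowPr hg).xd1 1 0 u (by decide)
  xd i u := (rowPr hg).xd0 i u
  le k P u hu := L3_le hg hu
  up := by
    rintro k _ P rfl u hu
    refine mem_L3.2 ⟨cF (by ring) rfl hu.1, cF (by ring) rfl hu.2.1, ?_⟩
    exact Fil_mono hg (by omega) _ hu.2.2
  mx := by
    rintro i k P _ rfl u hu
    exact X4 hg i hu
  mx' := (pair3 hg).mx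
  md := by
    rintro i k P _ _ rfl rfl u hu
    exact D4 hg i hu
  md' := (pair3 hg).md
  xi := by
    rintro k P _ rfl u hu h
    rw [mem_L3] at h
    exact L3_of_L4 hu (XI hg 0 hu.1 h.1) (XI hg 0 hu.2.1 h.2.1)
  xk := by
    rintro k P _ _ rfl rfl u hu v hv h
    obtain ⟨e, he, he'⟩ := kap_gen4 hg hu
    obtain ⟨f, hf, hf'⟩ := kap_gen4 hg hv
    rw [mem_L3] at h
    -- the symbol
    have h1 : X 1 * e - X 0 * f ∈ Fil g (k - 1) P := by
      have he0 := X_mem hg 1 (mem_Fp.1 he').1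
      have hf0 := X_mem hg 0 (mem_Fp.1 hf').1
      have h2 : X 1 * (u - kap e) 0 - X 0 * (v - kap f) 0 ∈ Fil g (k - 1) (P + 1) :=
        Fil_mono hg (by omega) _ (sub_mem he0 hf0)
      have h3 := sub_mem h.1 h2
      have h4 : lp (X 1) u 0 - lp (X 0) v 0 - (X 1 * (u - kap e) 0 - X 0 * (v - kap f) 0) =
          (X 1 * e - X 0 * f) * X 1 := by
        rw [← r1]
        show X 1 * u 0 - X 0 * v 0 - (X 1 * (u 0 - e * X 1) - X 0 * (v 0 - f * X 1)) = _
        rw [mul_sub, mul_sub]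
        abel
      have h5 : (X 1 * e - X 0 * f) * X 1 ∈ Fil g (k - 1) (P + 1) := by
        rw [← h4]; exact h3
      exact XRs hg 1 (l := k) (Q := P) (sub_mem (cF rfl (by ring) (X_mem hg 1 he))
        (cF rfl (by ring) (X_mem hg 0 hf))) h5
    obtain ⟨w, hw, hw1, hw2⟩ := XK hg he hf (cF rfl (by ring) h1)
    have hk : kap w ∈ L4 g k (P - 1) := kap_mem4 hg hw
    have aux : ∀ (u : Fin 2 → Op K) (e : Op K) (i : Fin 2), u ∈ L4 g k P →
        u - kap e ∈ Fp g (k - 2) P → e - X i * w ∈ Fil g (k - 1) (P - 1) →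
        u - lp (X i) (kap w) ∈ L3 g k P := by
      intro u e i hu he' hw1
      have h6 : u - lp (X i) (kap w) ∈ L4 g k P :=
        Submodule.sub_mem _ hu (by
          have := X4 hg i hk
          rwa [sub_add_cancel] at this)
      have h7 : u - lp (X i) (kap w) = (u - kap e) + kap (e - X i * w) := by
        rw [← kap_sub1]; abel
      have h8 : (u - kap e) + kap (e - X i * w) ∈ Fp g (k - 1) P :=
        Submodule.add_mem _ (Fp_mono hg (by omega) he') (cP rfl (by ring) (kap_Fp hg hw1))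
      rw [← h7, mem_Fp] at h8
      exact L3_of_L4 h6 h8.1 h8.2
    exact ⟨kap w, hk, aux u e 0 hu he' hw1, aux v f 1 hv hf' hw2⟩
  di := by
    rintro k P _ _ rfl rfl u hu h
    rw [mem_L3, add_sub_cancel_right] at h
    have h0 : D g 0 * u 0 ∈ Fil g (k - 1 + 1) (P - 1) := cF (by ring) rfl h.1
    have h1 : D g 0 * u 1 ∈ Fil g (k - 1 + 1) (P - 1) := cF (by ring) rfl h.2.1
    exact L3_of_L4 hu (DI hg 0 hu.1 h0) (DI hg 0 hu.2.1 h1)
  dk := by
    rintro k P _ _ _ _ rfl rfl rfl rfl u hu v hv h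
    obtain ⟨e, he, he'⟩ := kap_gen4 hg hu
    obtain ⟨f, hf, hf'⟩ := kap_gen4 hg hv
    rw [mem_L3, add_sub_cancel_right] at h
    have h1 : D g 0 * e - D g 1 * f ∈ Fil g k (P - 1 - 1) := by
      have he0 := D_mem hg 0 (mem_Fp.1 he').1
      have hf0 := D_mem hg 1 (mem_Fp.1 hf').1
      have h2 : D g 0 * (u - kap e) 0 - D g 1 * (v - kap f) 0 ∈ Fil g k (P - 1) :=
        Fil_mono hg (by omega) _ (sub_mem he0 hf0)
      have h3 := sub_mem h.1 h2
      have h4 : lp (D g 0) u 0 - lp (D g 1) v 0 -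
          (D g 0 * (u - kap e) 0 - D g 1 * (v - kap f) 0) = (D g 0 * e - D g 1 * f) * X 1 := by
        rw [← r1]
        show D g 0 * u 0 - D g 1 * v 0 - (D g 0 * (u 0 - e * X 1) - D g 1 * (v 0 - f * X 1)) = _
        rw [mul_sub, mul_sub]
        abel
      have h5 : (D g 0 * e - D g 1 * f) * X 1 ∈ Fil g k (P - 1 - 1 + 1) := by
        rw [← h4]; exact cF rfl (by ring) h3
      exact XRs hg 1 (l := k + 1) (Q := P - 1 - 1) (sub_mem (D_mem hg 0 he) (D_mem hg 1 hf)) h5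
    obtain ⟨w, hw, hw1, hw2⟩ := DK hg he hf h1
    have hw' : w ∈ Fil g (k - 1) (P + 1 - 1) := cF rfl (by ring) hw
    have hk : kap w ∈ L4 g (k - 1) (P + 1) := kap_mem4 hg hw'
    have aux : ∀ (u : Fin 2 → Op K) (e : Op K) (i : Fin 2), u ∈ L4 g k P →
        u - kap e ∈ Fp g (k - 2) P → e - D g i * w ∈ Fil g (k - 1) (P - 1) →
        u - lp (D g i) (kap w) ∈ L3 g k P := by
      intro u e i hu he' hw1
      have h6 : u - lp (D g i) (kap w) ∈ L4 g k P :=
        Submodule.sub_mem _ hu (by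
          have := D4 hg i hk
          rwa [sub_add_cancel, add_sub_cancel_right] at this)
      have h7 : u - lp (D g i) (kap w) = (u - kap e) + kap (e - D g i * w) := by
        rw [← kap_sub1]; abel
      have h8 : (u - kap e) + kap (e - D g i * w) ∈ Fp g (k - 1) P :=
        Submodule.add_mem _ (Fp_mono hg (by omega) he') (cP rfl (by ring) (kap_Fp hg hw1))
      rw [← h7, mem_Fp] at h8
      exact L3_of_L4 h6 h8.1 h8.2
    exact ⟨kap w, hk, aux u e 1 hu he' hw1, aux v f 0 hv hf' hw2⟩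

/-! ### the onto facts for `Q4` -/

/-- polynomials commute with `x_i` -/
theorem comm0 {P : ℤ} {T : Op K} (hT : T ∈ Fil g 0 P) (i : Fin 2) : T * X i = X i * T := by
  induction hT using Submodule.span_induction with
  | mem x hx =>
    obtain ⟨a, b, h1, _, rfl⟩ := hx
    have hb : b = (0, 0) := by
      ext
      · show b.1 = 0
        omega
      · show b.2 = 0
        omega
    subst hb
    have h0 : Commute (X 0 : Op K) (X i) := X_comm 0 i
    have h2 : Commute (X 1 : Op K) (X i) := X_comm 1 i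
    show X 0 ^ a.1 * X 1 ^ a.2 * D g 0 ^ 0 * D g 1 ^ 0 * X i = _
    rw [pow_zero, pow_zero, mul_one, mul_one]
    exact ((h0.pow_left a.1).mul_left (h2.pow_left a.2)).eq
  | zero => rw [zero_mul, mul_zero]
  | add x y _ _ hx hy => rw [add_mul, mul_add, hx, hy]
  | smul a x _ hx => rw [smul_mul_assoc, mul_smul_comm, hx]

/-- `(e, 0)` -/
noncomputable def ia (e : Op K) : Fin 2 → Op K := ![e, 0]
/-- `(0, e)` -/
noncomputable def ib (e : Op K) : Fin 2 → Op K := ![0, e]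

theorem ia_mem (hg : Gen g) {P : ℤ} {e : Op K} (he : e ∈ Fil g 0 P) : ia e ∈ L3 g 2 P := by
  refine mem_L3.2 ⟨Fil_mono hg (by norm_num) P he, zero_mem _, ?_⟩
  show e * X 0 + 0 * X 1 ∈ _
  rw [zero_mul, add_zero]
  exact cF (by norm_num) rfl (mulX_mem hg 0 he)

theorem ib_mem (hg : Gen g) {P : ℤ} {e : Op K} (he : e ∈ Fil g 0 P) : ib e ∈ L3 g 2 P := by
  refine mem_L3.2 ⟨zero_mem _, Fil_mono hg (by norm_num) P he, ?_⟩
  show 0 * X 0 + e * X 1 ∈ _
  rw [zero_mul, zero_add]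
  exact cF (by norm_num) rfl (mulX_mem hg 1 he)

theorem kap_ab {P : ℤ} {e : Op K} (he : e ∈ Fil g 0 P) :
    kap e = lp (X 1) (ia e) - lp (X 0) (ib e) := by
  funext j
  fin_cases j
  · show e * X 1 = X 1 * e - X 0 * 0
    rw [mul_zero, sub_zero, comm0 he]
  · show -(e * X 0) = X 1 * 0 - X 0 * e
    rw [mul_zero, zero_sub, comm0 he]

theorem kap_add (a b : Op K) : kap (a + b) = kap a + kap b := by
  funext j
  fin_cases j
  · show (a + b) * X 1 = a * X 1 + b * X 1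
    rw [add_mul]
  · show -((a + b) * X 0) = -(a * X 0) + -(b * X 0)
    rw [add_mul, neg_add]

theorem kap_mul (s a : Op K) : kap (s * a) = lp s (kap a) := by
  funext j
  fin_cases j
  · show s * a * X 1 = s * (a * X 1)
    rw [mul_assoc]
  · show -(s * a * X 0) = s * -(a * X 0)
    rw [mul_neg, mul_assoc]

theorem Fp_neg (hg : Gen g) {k P : ℤ} (hk : k < 0) {u : Fin 2 → Op K} (hu : u ∈ Fp g k P) :
    u = 0 := by
  funext j
  fin_cases j
  · exact Fil_neg hg hk (mem_Fp.1 hu).1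
  · exact Fil_neg hg hk (mem_Fp.1 hu).2

theorem onto4 (hg : Gen g) {e : ℤ} (he : 0 ≤ e) : Onto (U := Fin 2 → Op K) (fun i => lp (X i))
    (fun i => lp (D g i)) (L4 g) (L3 g) e where
  ds := by
    rintro P _ _ rfl u hu
    obtain ⟨f, hf, hf'⟩ := kap_gen4 hg hu
    obtain ⟨a, ha, b, hb, h⟩ := DSn hg (k := 2) (by norm_num) hf
    have ha' : kap a ∈ L4 g 1 (P + 1) := kap_mem4 hg (cF (by norm_num) (by ring) ha)
    have hb' : kap b ∈ L4 g 1 (P + 1) := kap_mem4 hg (cF (by norm_num) (by ring) hb)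
    refine ⟨kap a, ha', kap b, hb', ?_⟩
    have e1 : u - (lp (D g 0) (kap a) + lp (D g 1) (kap b)) =
        (u - kap f) + kap (f - (D g 0 * a + D g 1 * b)) := by
      have e2 : kap f = kap (f - (D g 0 * a + D g 1 * b)) + (kap (D g 0 * a) + kap (D g 1 * b)) := by
        rw [← kap_add, ← kap_add, sub_add_cancel]
      rw [kap_mul, kap_mul] at e2
      rw [e2]; abel
    have h6 : u - (lp (D g 0) (kap a) + lp (D g 1) (kap b)) ∈ L4 g 2 P := by
      refine Submodule.sub_mem _ hu (Submodule.add_mem _ ?_ ?_)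
      · have := D4 hg 0 ha'
        rwa [add_sub_cancel_right] at this
      · have := D4 hg 1 hb'
        rwa [add_sub_cancel_right] at this
    have h8 : (u - kap f) + kap (f - (D g 0 * a + D g 1 * b)) ∈ Fp g (2 - 1) P :=
      Submodule.add_mem _ (Fp_mono hg (by norm_num) hf') (cP rfl (by ring) (kap_Fp hg h))
    show u - (lp (D g 0) (kap a) + lp (D g 1) (kap b)) ∈ L3 g 2 P
    rw [← e1, mem_Fp] at h8
    exact L3_of_L4 h6 h8.1 h8.2
  xs := by
    intro u hu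
    obtain ⟨f, hf, hf'⟩ := kap_gen4 hg hu
    have h0 : u = kap f := by
      have := Fp_neg hg (by norm_num) hf'
      rwa [sub_eq_zero] at this
    obtain ⟨a, ha, b, hb, h⟩ := FilPBW633.X1L hg (by omega) hf
    refine ⟨kap a, kap_mem4 hg (cF rfl (by ring) ha), kap b, kap_mem4 hg (cF rfl (by ring) hb), ?_⟩
    show u - (lp (X 0) (kap a) + lp (X 1) (kap b)) ∈ _
    rw [h0, h, kap_add, kap_mul, kap_mul, sub_self]
    exact Submodule.zero_mem _
  lx0 := by
    intro u hu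
    obtain ⟨f, hf, hf'⟩ := kap_gen4 hg hu
    have h0 : u = kap f := by
      have := Fp_neg hg (by norm_num) hf'
      rwa [sub_eq_zero] at this
    rw [add_sub_cancel_right] at hf
    refine ⟨ia f, ia_mem hg hf, ib f, ib_mem hg hf, ?_⟩
    show u - (lp (X 1) (ia f) - lp (X 0) (ib f)) ∈ _
    rw [h0, kap_ab hf, sub_self]
    exact Submodule.zero_mem _
  lx1 := by
    intro u hu
    obtain ⟨f, hf, hf'⟩ := kap_gen4 hg hu
    have h0 : u = kap f := by
      have := Fp_neg hg (by norm_num) hf'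
      rwa [sub_eq_zero] at this
    rw [add_sub_cancel_right] at hf
    obtain ⟨a, ha, b, hb, h⟩ := XSn hg (k := 1) (P := e) (Or.inl (by omega)) hf
    have hr : f - (X 0 * a + X 1 * b) ∈ Fil g 0 e := cF (by norm_num) rfl h
    set r := f - (X 0 * a + X 1 * b) with hrd
    have ka : kap a ∈ L3 g 2 e := cR (by norm_num) rfl (kap_mem hg (k := 1) ha)
    have kb : kap b ∈ L3 g 2 e := cR (by norm_num) rfl (kap_mem hg (k := 1) hb)
    refine ⟨kap b + ia r, Submodule.add_mem _ kb (ia_mem hg hr), -(kap a) + ib r,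
      Submodule.add_mem _ (Submodule.neg_mem _ ka) (ib_mem hg hr), ?_⟩
    show u - (lp (X 1) (kap b + ia r) - lp (X 0) (-(kap a) + ib r)) ∈ _
    have e1 : kap f = (kap (X 0 * a) + kap (X 1 * b)) + kap r := by
      rw [← kap_add, ← kap_add, hrd, add_comm, sub_add_cancel]
    rw [kap_mul, kap_mul, kap_ab hr] at e1
    have e2 : u - (lp (X 1) (kap b + ia r) - lp (X 0) (-(kap a) + ib r)) = 0 := by
      rw [h0, e1, map_add, map_add, map_neg]; abel
    rw [e2]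
    exact Submodule.zero_mem _

/-! ### every literal form -/

variable {x d : Fin 2 → (Fin 2 → Op K) →ₗ[K] (Fin 2 → Op K)}
  {L L' : ℤ → ℤ → Submodule K (Fin 2 → Op K)}

theorem x_eq (hx : ∀ i u j, x i u j = X i * u j) : x = fun i => Sym461.lp (X i : Op K) := by
  funext i
  refine LinearMap.ext fun u => funext fun j => ?_
  rw [hx, lp_apply]

theorem d_eq (hd : ∀ i u j, d i u j = D g i * u j) : d = fun i => Sym461.lp (D g i : Op K) := by
  funext i
  refine LinearMap.ext fun u => funext fun j => ?_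
  rw [hd, lp_apply]

theorem L3_eq (hL : ∀ k P v, v ∈ L k P ↔ v 0 ∈ Fil g (k - 1) P ∧ v 1 ∈ Fil g (k - 1) P ∧
    v 0 * X 0 + v 1 * X 1 ∈ Fil g (k - 2) (P + 1)) : L = L3 g := by
  funext k P
  ext v
  rw [hL, mem_L3]

theorem M3_eq (hL : ∀ k P v, v ∈ L' k P ↔ v 0 ∈ Fil g (k - 2) P ∧ v 1 ∈ Fil g (k - 2) P) :
    L' = M3 g := by
  funext k P
  ext v
  rw [hL, mem_M3]

theorem L4_eq (hL : ∀ k P v, v ∈ L k P ↔ v 0 ∈ Fil g k P ∧ v 1 ∈ Fil g k P ∧
    v 0 * X 0 + v 1 * X 1 ∈ Fil g (k - 2) (P + 1)) : L = L4 g := by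
  funext k P
  ext v
  rw [hL, mem_L4]

/-- `Q3` (`s = 1`) -/
theorem pairQ3 (hg : Gen g) (hx : ∀ i u j, x i u j = X i * u j)
    (hd : ∀ i u j, d i u j = D g i * u j)
    (hL : ∀ k P v, v ∈ L k P ↔ v 0 ∈ Fil g (k - 1) P ∧ v 1 ∈ Fil g (k - 1) P ∧
      v 0 * X 0 + v 1 * X 1 ∈ Fil g (k - 2) (P + 1))
    (hL' : ∀ k P v, v ∈ L' k P ↔ v 0 ∈ Fil g (k - 2) P ∧ v 1 ∈ Fil g (k - 2) P) :
    Pair (U := Fin 2 → Op K) g x d L L' := by
  rw [x_eq hx, d_eq hd, L3_eq hL, M3_eq hL']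
  exact pair3 hg

theorem ontoQ3 (hg : Gen g) (hx : ∀ i u j, x i u j = X i * u j)
    (hd : ∀ i u j, d i u j = D g i * u j)
    (hL : ∀ k P v, v ∈ L k P ↔ v 0 ∈ Fil g (k - 1) P ∧ v 1 ∈ Fil g (k - 1) P ∧
      v 0 * X 0 + v 1 * X 1 ∈ Fil g (k - 2) (P + 1))
    (hL' : ∀ k P v, v ∈ L' k P ↔ v 0 ∈ Fil g (k - 2) P ∧ v 1 ∈ Fil g (k - 2) P)
    {e : ℤ} (he : 0 ≤ e) : Onto (U := Fin 2 → Op K) x d L L' e := by
  rw [x_eq hx, d_eq hd, L3_eq hL, M3_eq hL']
  exact onto3 hg he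

/-- `Q4` (`s = 1`) -/
theorem pairQ4 (hg : Gen g) (hx : ∀ i u j, x i u j = X i * u j)
    (hd : ∀ i u j, d i u j = D g i * u j)
    (hL : ∀ k P v, v ∈ L k P ↔ v 0 ∈ Fil g k P ∧ v 1 ∈ Fil g k P ∧
      v 0 * X 0 + v 1 * X 1 ∈ Fil g (k - 2) (P + 1))
    (hL' : ∀ k P v, v ∈ L' k P ↔ v 0 ∈ Fil g (k - 1) P ∧ v 1 ∈ Fil g (k - 1) P ∧
      v 0 * X 0 + v 1 * X 1 ∈ Fil g (k - 2) (P + 1)) :
    Pair (U := Fin 2 → Op K) g x d L L' := by
  rw [x_eq hx, d_eq hd, L4_eq hL, L3_eq hL']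
  exact pair4 hg

theorem ontoQ4 (hg : Gen g) (hx : ∀ i u j, x i u j = X i * u j)
    (hd : ∀ i u j, d i u j = D g i * u j)
    (hL : ∀ k P v, v ∈ L k P ↔ v 0 ∈ Fil g k P ∧ v 1 ∈ Fil g k P ∧
      v 0 * X 0 + v 1 * X 1 ∈ Fil g (k - 2) (P + 1))
    (hL' : ∀ k P v, v ∈ L' k P ↔ v 0 ∈ Fil g (k - 1) P ∧ v 1 ∈ Fil g (k - 1) P ∧
      v 0 * X 0 + v 1 * X 1 ∈ Fil g (k - 2) (P + 1))
    {e : ℤ} (he : 0 ≤ e) : Onto (U := Fin 2 → Op K) x d L L' e := by
  rw [x_eq hx, d_eq hd, L4_eq hL, L3_eq hL']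
  exact onto4 hg he

end Crest.Agent.R186.LCI1_633
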