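import Crest.Agent.R186.LCJ_229
import Crest.Agent.R186.KRT_823
import Crest.Agent.R186.LCI1_442
import Crest.Agent.R186.LCI1_633
import Crest.Agent.R186.DevW_147

/-!
Row 186, S0281 base (helper229): **LCQ1**: `Ext (E g 1 n, Q) = 0` in all degrees for the four
torsion quotients `Q = QT1 hg j` of `DevW_147`.
-/

set_option autoImplicit false
set_option linter.unusedSectionVars false

noncomputable section

namespace Crest.Agent.R186.B281

open FamX823 LCF1_371 ExtRes700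
open TrE442 (lx ld)

variable {K : Type} [Field K] {g : K}

/-- all `Ext` of `E g 1 n` into `W(L)/W(L')` vanish -/
theorem lcq1 (hg : Gen g) {F : Fam g} {F' : F.Sub} (hP : Pair (U := F.N) g lx (ld g) F.L F'.L)
    (hO : ∀ e : ℤ, e = 0 ∨ e = 1 → Onto (U := F.N) lx (ld g) F.L F'.L e)
    {Y : Type} [AddCommGroup Y] [Module (A g 1) Y] {π : F.W 1 →ₗ[A g 1] Y} (hπ : IsQuo F F' 1 π)
    (n : ℕ) (q : ℕ) : E0 (A g 1) (E g 1 n) Y q := by
  have g0 : Good 1 (KR.H0 hg n) := good_S0 hg n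
  have g1 : Good 1 (KR.H1 hg n) := good_S1 hg n
  have g2 : Good 1 (KR.H2 hg n) := good_S2 hg n
  have g3 : Good 1 (KR.H3 hg n) := good_S3 hg n
  refine (KRT823.mresW1 hg n).ext_all ?_ ?_ ?_ ?_ q
  · intro f hf
    exact H0_of hπ g0 g1 (KR.h1 hg n) (fun e he Φ k1 k2 => ex0 hg hP Φ k1 k2) f hf
  · intro f hf
    exact H1_of hπ g1 g2 (KR.h1 hg n) (KR.h2 hg n)
      (fun e he Φ k1 k2 => ex1 hg hP Φ k1 k2) f hf
  · intro f hf
    exact H1_of hπ g2 g3 (KR.h2 hg n) (KR.h3 hg n)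
      (fun e he Φ k1 k2 => ex2 hg hP (hO e he) Φ k1 k2) f hf
  · intro f
    exact H3_of hπ g3 (KR.h3 hg n) (fun e he Φ k1 => ex3 hg hP (hO e he) Φ k1) f

/-! ### the four pairs -/

theorem lx_mul : (lx : Fin 2 → Op K →ₗ[K] Op K) = fun i => LinearMap.mulLeft K (X i) := by
  funext i
  apply LinearMap.ext
  intro u
  rfl

theorem ld_mul : (ld g : Fin 2 → Op K →ₗ[K] Op K) = fun i => LinearMap.mulLeft K (D g i) := by
  funext i
  apply LinearMap.ext
  intro u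
  rfl

theorem castFil (g : K) (a : ℤ) (b : ℕ) (h : a = b) :
    (fun k P : ℤ => Fil g (k - (b : ℤ)) P) = fun k P => Fil g (k - a) P := by
  rw [h]

theorem pairF1_0 (hg : Gen g) : Pair (U := Op K) g lx (ld g)
    (fun k P => Fil g (k - ((1 : ℕ) : ℤ)) P) (fun k P => Fil g (k - ((2 : ℕ) : ℤ)) P) := by
  rw [lx_mul, ld_mul, castFil g 1 1 (by norm_num), castFil g 2 2 (by norm_num)]
  exact LCI1_442.pairQ1 hg

theorem ontoF1_0 (hg : Gen g) {e : ℤ} (he : 0 ≤ e) : Onto (U := Op K) lx (ld g)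
    (fun k P => Fil g (k - ((1 : ℕ) : ℤ)) P) (fun k P => Fil g (k - ((2 : ℕ) : ℤ)) P) e := by
  rw [lx_mul, ld_mul, castFil g 1 1 (by norm_num), castFil g 2 2 (by norm_num)]
  exact LCI1_442.ontoQ1 hg he

theorem pairF1_1 (hg : Gen g) : Pair (U := Op K) g lx (ld g)
    (fun k P => Fil g (k - ((0 : ℕ) : ℤ)) P) (fun k P => Fil g (k - ((1 : ℕ) : ℤ)) P) := by
  rw [lx_mul, ld_mul, castFil g 0 0 (by norm_num), castFil g 1 1 (by norm_num)]
  have h := LCI1_442.pairQ2 hg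
  have e : (fun k P : ℤ => Fil g (k - 0) P) = fun k P => Fil g k P := by
    funext k P
    rw [sub_zero]
  rw [e]
  exact h

theorem ontoF1_1 (hg : Gen g) {e : ℤ} (he : 0 ≤ e) : Onto (U := Op K) lx (ld g)
    (fun k P => Fil g (k - ((0 : ℕ) : ℤ)) P) (fun k P => Fil g (k - ((1 : ℕ) : ℤ)) P) e := by
  rw [lx_mul, ld_mul, castFil g 0 0 (by norm_num), castFil g 1 1 (by norm_num)]
  have h := LCI1_442.ontoQ2 hg he
  have e : (fun k P : ℤ => Fil g (k - 0) P) = fun k P => Fil g k P := by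
    funext k P
    rw [sub_zero]
  rw [e]
  exact h

theorem nn {e : ℤ} (he : e = 0 ∨ e = 1) : 0 ≤ e := by omega

/-- **LCQ1** -/
theorem hQ1 (hg : Gen g) (j : Fin 4) (n : ℕ) (q : ℕ) :
    E0 (A g 1) (E g 1 n) (Dev147.QT1 hg j) q := by
  match j with
  | 0 =>
    exact lcq1 hg (F := TO hg (1 : ℕ))
      (F' := Dev147.subO hg (1 : ℕ) (2 : ℕ) (by norm_num)) (pairF1_0 hg)
      (fun e he => ontoF1_0 hg (nn he))
      (Dev147.isQuo1 hg 0) n q
  | 1 =>
    exact lcq1 hg (F := TO hg (0 : ℕ))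
      (F' := Dev147.subO hg (0 : ℕ) (1 : ℕ) (by norm_num)) (pairF1_1 hg)
      (fun e he => ontoF1_1 hg (nn he))
      (Dev147.isQuo1 hg 1) n q
  | 2 =>
    refine lcq1 hg (F := TK hg 1 (1 + 1)) (F' := Dev147.subP hg 1 (1 + 1) (by norm_num)) ?_ ?_
      (Dev147.isQuo1 hg 2) n q
    · refine LCI1_633.pairQ3 hg (fun _ _ _ => rfl) (fun _ _ _ => rfl) (fun k P v => ?_)
        (fun k P v => ?_)
      · exact Iff.rfl
      · exact Iff.rfl
    · intro e he
      refine LCI1_633.ontoQ3 hg (fun _ _ _ => rfl) (fun _ _ _ => rfl) (fun k P v => ?_)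
        (fun k P v => ?_) (nn he)
      · exact Iff.rfl
      · exact Iff.rfl
  | 3 =>
    refine lcq1 hg (F := TK hg 0 2)
      (F' := Dev147.subK hg 0 2 1 (1 + 1) (by norm_num) (by norm_num)) ?_ ?_
      (Dev147.isQuo1 hg 3) n q
    · refine LCI1_633.pairQ4 hg (fun _ _ _ => rfl) (fun _ _ _ => rfl) (fun k P v => ?_)
        (fun k P v => ?_)
      · show v 0 ∈ Fil g (k - 0) P ∧ v 1 ∈ Fil g (k - 0) P ∧ _ ↔ _
        rw [sub_zero]
      · exact Iff.rfl
    · intro e he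
      refine LCI1_633.ontoQ4 hg (fun _ _ _ => rfl) (fun _ _ _ => rfl) (fun k P v => ?_)
        (fun k P v => ?_) (nn he)
      · show v 0 ∈ Fil g (k - 0) P ∧ v 1 ∈ Fil g (k - 0) P ∧ _ ↔ _
        rw [sub_zero]
      · exact Iff.rfl

end Crest.Agent.R186.B281
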