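import Crest.Agent.R186.Null1_275
import Crest.Agent.R186.LCQ1_229

/-!
Row 186 (S0281), helper275, leaf B281.N1: **nullness, `s = 1`**.
-/

set_option autoImplicit false

namespace Crest.Agent.R186.B281

/-- **`Ext_A^q (V 0, A) = 0`, `s = 1`** -/
theorem null1 {K : Type} [Field K] {g : K} (hg : Gen g) :
    ∀ j, ExtRes700.E0 (A g 1) (V g 1 0) (A g 1) j := fun j =>
  Null275.null1_lcq hg (hQ1 hg) j

end Crest.Agent.R186.B281
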