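import Crest.Agent.R186.Fin281_713
import Crest.Agent.R186.Null0F_341
import Crest.Agent.R186.LCQ_369
import Crest.Agent.R186.Null1F_275

/-!
Row 186, S0281 (helper713): the end.
-/

set_option autoImplicit false

namespace Crest.Agent.R186.Fin713

open B281 ExtRes700

universe w

/-- nullness, `s = 0` (341, 369, 147) -/
theorem nul0 {K : Type} [Field K] {g : K} (hg : Gen g) :
    ∀ j, E0 (A g 0) (V g 0 0) (A g 0) j :=
  B281.N341.null0_of_hQ hg (LC369.hQ0 hg)

/-- **the base of S0281 over any field with a generic parameter** -/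
theorem c0281_gen {K : Type} [Field K] {g : K} (hg : Gen g) : Spine700.C0281.{w} K :=
  c0281_of hg (nul0 hg) (B281.null1 hg.inv)

/-- **S0281** -/
theorem c0281 : Spine700.C0281.{w} Spine700.k0 := c0281_gen Par667.gen0

end Crest.Agent.R186.Fin713
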