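import Mathlib
import Crest.Agent.R186.Inst_823

/-!
Row 186, S0281, leaf B281.A1 (helper162): the base algebra `A g s` is finite-dimensional, and its
five vertex idempotents.
-/

set_option autoImplicit false

open Matrix

namespace Crest.Agent.R186.B281

variable {K : Type} [Field K]

/-! ### finiteness of the pieces -/

theorem Fil_set_finite (g : K) (k P : ℤ) :
    {T : Op K | ∃ a b : ℕ × ℕ, (b.1 : ℤ) + b.2 ≤ k ∧
      (a.1 : ℤ) + a.2 - (b.1 + b.2) = P ∧ T = mon g a b}.Finite := by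
  let N : ℕ := (|k| + |P| + 1).toNat
  have hN : (N : ℤ) = |k| + |P| + 1 := Int.toNat_of_nonneg (by positivity)
  refine Set.Finite.subset
    ((((Finset.range N ×ˢ Finset.range N) ×ˢ (Finset.range N ×ˢ Finset.range N) :
      Finset ((ℕ × ℕ) × (ℕ × ℕ))).finite_toSet).image
      (fun p : (ℕ × ℕ) × (ℕ × ℕ) => mon g p.1 p.2)) ?_
  rintro T ⟨a, b, h1, h2, rfl⟩
  have hk := le_abs_self k
  have hP := le_abs_self P
  refine ⟨(a, b), ?_, rfl⟩
  simp only [Finset.coe_product, Set.mem_prod, Finset.coe_range, Set.mem_Iio]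
  have hk' := abs_nonneg k
  have hP' := abs_nonneg P
  refine ⟨⟨?_, ?_⟩, ?_, ?_⟩ <;> zify <;> rw [hN] <;> omega

instance Fil_fd (g : K) (k P : ℤ) : Module.Finite K (Fil g k P) :=
  Module.Finite.span_of_finite K (Fil_set_finite g k P)

/-- every entry of a row of the lattice lies in a common filtration piece -/
theorem Lat_entry {g : K} {s k P : ℤ} {v : Fin 7 → Op K} (hv : v ∈ Lat g s k P) (j : Fin 7) :
    v j ∈ Fil g (|k| + |s|) P := by
  obtain ⟨v0, v1, v2, ⟨v3, v4, -⟩, v6, v7, -⟩ := hv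
  have hk := le_abs_self k
  have hs := abs_nonneg s
  have hs' := neg_abs_le s
  fin_cases j
  exacts [Fil_mono g (by omega) v0, Fil_mono g (by omega) v1, Fil_mono g (by omega) v2,
    Fil_mono g (by omega) v3, Fil_mono g (by omega) v4, Fil_mono g (by omega) v6,
    Fil_mono g (by omega) v7]

instance Lat_fd (g : K) (s k P : ℤ) : Module.Finite K (Lat g s k P) := by
  let f : Lat g s k P →ₗ[K] (Fin 7 → Fil g (|k| + |s|) P) :=
    LinearMap.pi fun j => ((LinearMap.proj j).comp (Lat g s k P).subtype).codRestrict _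
      (fun v => Lat_entry v.2 j)
  refine Module.Finite.of_injective f ?_
  intro v w h
  apply Subtype.ext
  funext j
  exact congrArg Subtype.val (congrFun h j)

/-- the standard rows, with an explicit order -/
theorem std_mem' (g : K) (s : ℤ) (i : Fin 7) :
    (Pi.single i 1 : Fin 7 → Op K) ∈ Lat g s (s ⊔ 0 + 2) 0 := by
  have h1 : ∀ k : ℤ, 0 ≤ k → (1 : Op K) ∈ Fil g k 0 := fun k hk => one_mem_Fil g hk
  have h2 : ∀ (i : Fin 2) (k : ℤ), 0 ≤ k → (X i : Op K) ∈ Fil g k (0 + 1) :=
    fun i k hk => X_mem_Fil g i hk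
  have h3 : (0 : ℤ) ≤ s ⊔ 0 := le_max_right _ _
  have h4 : s ≤ s ⊔ 0 := le_max_left _ _
  have hv : ∀ j : Fin 7, (Pi.single i 1 : Fin 7 → Op K) j = if j = i then 1 else 0 := fun j => by
    rw [Pi.single_apply]
  have e1 : ∀ (j : Fin 7) (k : ℤ), 0 ≤ k → (Pi.single i 1 : Fin 7 → Op K) j ∈ Fil g k 0 := by
    intro j k hk
    rw [hv]
    split_ifs
    · exact h1 k hk
    · exact zero_mem _
  have e2 : ∀ (j : Fin 7) (l : Fin 2) (k : ℤ), 0 ≤ k →
      (Pi.single i 1 : Fin 7 → Op K) j * X l ∈ Fil g k (0 + 1) := by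
    intro j l k hk
    rw [hv]
    split_ifs
    · rw [one_mul]; exact h2 l k hk
    · rw [zero_mul]; exact zero_mem _
  exact ⟨e1 _ _ (by omega), e1 _ _ (by omega), e1 _ _ (by omega),
    ⟨e1 _ _ (by omega), e1 _ _ (by omega), add_mem (e2 _ _ _ (by omega)) (e2 _ _ _ (by omega))⟩,
    e1 _ _ (by omega), e1 _ _ (by omega), add_mem (e2 _ _ _ (by omega)) (e2 _ _ _ (by omega))⟩

/-- rows of a matrix preserving the lattices are rows of the lattices -/
theorem Pres.row_mem {g : K} {s e : ℤ} {M : Mat K} (hM : Pres g s e M) (i : Fin 7) :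
    (fun j => M i j) ∈ Lat g s (s ⊔ 0 + 2) e := by
  have h := hM _ 0 _ (std_mem' g s i)
  rwa [Matrix.single_one_vecMul, zero_add] at h

theorem Pres.entry_mem {g : K} {s e : ℤ} {M : Mat K} (hM : Pres g s e M) (i j : Fin 7) :
    M i j ∈ Fil g (|s ⊔ 0 + 2| + |s|) e := Lat_entry (hM.row_mem i) j

/-- the base algebra is finite-dimensional -/
instance A_fd (g : K) (s : ℤ) : Module.Finite K (A g s) := by
  let m : ℤ := |s ⊔ 0 + 2| + |s|
  let f : A g s →ₗ[K] ((Fin 7 → Fin 7 → Fil g m 0) × (Fin 7 → Fin 7 → Fil g m 1)) :=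
    { toFun := fun x => (fun i j => ⟨x.1.fst i j, x.2.1.entry_mem i j⟩,
        fun i j => ⟨x.1.snd i j, x.2.2.entry_mem i j⟩)
      map_add' := fun x y => rfl
      map_smul' := fun c x => rfl }
  refine Module.Finite.of_injective f ?_
  intro x y h
  apply Subtype.ext
  refine TrivSqZeroExt.ext ?_ ?_
  · ext1 i j
    exact congrArg Subtype.val (congrFun (congrFun (congrArg Prod.fst h) i) j)
  · ext1 i j
    exact congrArg Subtype.val (congrFun (congrFun (congrArg Prod.snd h) i) j)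

example (g : K) (s : ℤ) : FiniteDimensional K (A g s) := inferInstance

instance A_noeth (g : K) (s : ℤ) : IsNoetherianRing (A g s) :=
  isNoetherian_of_tower K (inferInstance : IsNoetherian K (A g s))

/-! ### the idempotents -/

/-- the vertex of a row position: `0,1,2 | 3,3 | 4,4` -/
def blk : Fin 7 → Fin 5 := ![0, 1, 2, 3, 3, 4, 4]

/-- the diagonal idempotent matrix of the vertex `v` -/
noncomputable def idp (K : Type) [Field K] (v : Fin 5) : Mat K :=
  Matrix.diagonal fun j => if blk j = v then 1 else 0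

theorem vecMul_idp (v : Fin 5) (r : Fin 7 → Op K) :
    r ᵥ* idp K v = fun j => if blk j = v then r j else 0 := by
  funext j
  rw [idp, Matrix.vecMul_diagonal]
  split_ifs <;> simp

theorem Pres_idp (g : K) (s : ℤ) (v : Fin 5) : Pres g s 0 (idp K v) := by
  intro k P r hr
  rw [vecMul_idp, add_zero]
  obtain ⟨v0, v1, v2, ⟨v3, v4, v5⟩, v6, v7, v8⟩ := hr
  fin_cases v <;> refine ⟨?_, ?_, ?_, ⟨?_, ?_, ?_⟩, ?_, ?_, ?_⟩ <;>
    simp [blk, v0, v1, v2, v3, v4, v5, v6, v7, v8]

theorem idp_mul (v w : Fin 5) : idp K v * idp K w = if v = w then idp K v else 0 := by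
  rw [idp, idp, Matrix.diagonal_mul_diagonal]
  split_ifs with h
  · subst h
    congr 1
    funext j
    split_ifs <;> simp
  · rw [← Matrix.diagonal_zero]
    congr 1
    funext j
    by_cases h1 : blk j = v
    · have h2 : blk j ≠ w := fun h2 => h (h1.symm.trans h2)
      rw [if_pos h1, if_neg h2, mul_zero]
    · rw [if_neg h1, zero_mul]

theorem sum_idp : ∑ v : Fin 5, idp K v = 1 := by
  ext1 i j
  rw [Matrix.sum_apply]
  by_cases hij : i = j
  · subst hij
    simp only [idp, Matrix.diagonal_apply_eq, Matrix.one_apply_eq]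
    rw [Finset.sum_ite_eq]
    simp
  · rw [Matrix.one_apply_ne hij]
    exact Finset.sum_eq_zero fun v _ => Matrix.diagonal_apply_ne _ hij

/-- the vertex idempotents of `A g s` -/
noncomputable def eps (g : K) (s : ℤ) (v : Fin 5) : A g s :=
  ⟨TrivSqZeroExt.inl (idp K v), Pres_idp g s v, Pres.zero g s 1⟩

@[simp] theorem eps_fst (g : K) (s : ℤ) (v : Fin 5) : (eps g s v).1.fst = idp K v := rfl

@[simp] theorem eps_snd (g : K) (s : ℤ) (v : Fin 5) : (eps g s v).1.snd = 0 := rfl

theorem eps_mul (g : K) (s : ℤ) (v w : Fin 5) :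
    eps g s v * eps g s w = if v = w then eps g s v else 0 := by
  apply Subtype.ext
  show (TrivSqZeroExt.inl (idp K v) : DualNumber (Mat K)) * TrivSqZeroExt.inl (idp K w) = _
  rw [← TrivSqZeroExt.inl_mul, idp_mul]
  split_ifs
  · rfl
  · exact TrivSqZeroExt.inl_zero _

theorem eps_idem (g : K) (s : ℤ) (v : Fin 5) : eps g s v * eps g s v = eps g s v := by
  rw [eps_mul, if_pos rfl]

theorem eps_orth (g : K) (s : ℤ) {v w : Fin 5} (h : v ≠ w) : eps g s v * eps g s w = 0 := by
  rw [eps_mul, if_neg h]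

theorem sum_eps (g : K) (s : ℤ) : ∑ v : Fin 5, eps g s v = 1 := by
  apply Subtype.ext
  rw [AddSubmonoidClass.coe_finsetSum]
  show ∑ v : Fin 5, (TrivSqZeroExt.inl (idp K v) : DualNumber (Mat K)) = 1
  rw [← TrivSqZeroExt.inl_one, ← sum_idp]
  exact (map_sum (TrivSqZeroExt.inlHom (Mat K) (Mat K)) _ _).symm

/-- action of the idempotents on pairs of columns -/
theorem eps_smul_fst (g : K) (s : ℤ) (v : Fin 5) (p : Big K) (i : Fin 7) :
    (((eps g s v).1 : DualNumber (Mat K)) • p).1 i = if blk i = v then p.1 i else 0 := by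
  rw [big_smul_fst, eps_fst]
  simp only [act, idp]
  rw [Finset.sum_eq_single i]
  · rw [Matrix.diagonal_apply_eq]
    split_ifs <;> simp
  · intro j _ hj
    rw [Matrix.diagonal_apply_ne _ (Ne.symm hj)]
    rfl
  · intro h
    exact absurd (Finset.mem_univ i) h

theorem eps_smul_snd (g : K) (s : ℤ) (v : Fin 5) (p : Big K) (i : Fin 7) :
    (((eps g s v).1 : DualNumber (Mat K)) • p).2 i = if blk i = v then p.2 i else 0 := by
  rw [big_smul_snd, eps_fst, eps_snd, zero_act, add_zero]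
  simp only [act, idp]
  rw [Finset.sum_eq_single i]
  · rw [Matrix.diagonal_apply_eq]
    split_ifs <;> simp
  · intro j _ hj
    rw [Matrix.diagonal_apply_ne _ (Ne.symm hj)]
    rfl
  · intro h
    exact absurd (Finset.mem_univ i) h

end Crest.Agent.R186.B281
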