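import Crest.Agent.R186.ParK0_365
import Crest.Agent.R186.Spine_700

/-!
Row 186, half (A), FINAL JOINT (helper365): from a null pair over `k0` for the parameters
`ParK0365.par0` to the `AR` datum consumed by `Spine700.s0280, s0282, s0283, s0284, s0285`.
-/

set_option autoImplicit false

namespace Crest.Agent.R186.FinA365

open Crest.Agent.R186.DefsQ830

/-- if every parameter system gives a null pair, there is an `AR` datum over the ground field -/
theorem ar_k0 (h : ∀ _ : Par (FractionRing (MvPolynomial (Fin 3) (ZMod 2))),
    Nonempty (Spine700.Null.{0, 0} (FractionRing (MvPolynomial (Fin 3) (ZMod 2))))) :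
    Nonempty (Close700.AR.{0, 0} Spine700.k0) :=
  Spine700.ar_of_null (h ParK0365.par0')

end Crest.Agent.R186.FinA365
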