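import Crest.Agent.R186.SideM_136
import Crest.Agent.R186.W1_952
import Crest.Agent.R186.W0B_822
import Crest.Agent.R186.W0eps_881
import Crest.Agent.R186.AntiT_870
import Crest.Agent.R186.LinkE_328
import Crest.Agent.R186.Simp_763
import Crest.Agent.R186.Par_667
import Crest.Agent.R186.FinA_162

/-!
Row 186, S0281 (helper952): THE JOINT CHECKED: everything of S0281 except the two nullness facts
`null0`, `null1` (`Ext^j_A(V, A) = 0` for `s = 0, 1`).
-/

set_option autoImplicit false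

open Crest.Agent.R186 Crest.Agent.R186.B281 Crest.Agent.R186.ExtRes700

namespace Crest.Agent.R186.FinChk952
variable {K : Type} [Field K] {g : K}

noncomputable def two (hg : Gen g) (n0 : ∀ j, E0 (A g 0) (V g 0 0) (A g 0) j)
    (n1 : ∀ j, E0 (A g⁻¹ 1) (V g⁻¹ 1 0) (A g⁻¹ 1) j) : LinkC328.Two K (A g 0) (A g⁻¹ 1) where
  S := B281M.sideM0 hg n0 (W0B822.h3 hg) (W0B822.e32 hg) (W0B822.e21 hg) (B281.W0eps881.e10 hg)
    (B281.W0eps881.heps g)
  S' := B281M.sideM1 hg.inv n1 (W1.h3 hg.inv) (W1.e32 hg.inv) (W1.e21 hg.inv) (W1.e10 hg.inv)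
    (W1.hε hg.inv)
  τ := Anti870.tau hg (by norm_num)
  eV := Anti870.eV hg (by norm_num)
  eW := Anti870.eW hg (by norm_num)


universe u

theorem c0281 (hg : Gen g) (n0 : ∀ j, E0 (A g 0) (V g 0 0) (A g 0) j)
    (n1 : ∀ j, E0 (A g⁻¹ 1) (V g⁻¹ 1 0) (A g⁻¹ 1) j) : Spine700.C0281.{u} K :=
  LinkE328.c0281_two (two hg n0 n1) (n := 5) (by norm_num) (Simp763.simples0 g)

theorem final (null0 : ∀ {K : Type} [Field K] {g : K} (_ : Gen g), ∀ j, E0 (A g 0) (V g 0 0) (A g 0) j)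
    (null1 : ∀ {K : Type} [Field K] {g : K} (_ : Gen g), ∀ j, E0 (A g 1) (V g 1 0) (A g 1) j) :
    Spine700.C0281.{u} Spine700.k0 :=
  c0281 Par667.gen0 (null0 Par667.gen0) (null1 (Gen.inv Par667.gen0))

end Crest.Agent.R186.FinChk952
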