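import Crest.Agent.R186.LCF1_442
import Crest.Agent.R186.FilPBW_633

/-!
# Row 186, S0281 base, block LC, `s = 1` (helper442): the literal instance of `LCF442.Fl`

`flW` : any ring with 633's `QW` and PBW; `fl hg : Fl K (Op K)`, `F = Fil g`, `X i`, `D i` = LEFT
multiplication by 128's operators.
-/

set_option autoImplicit false

namespace Crest.Agent.R186.LCF442

open Crest.Agent.R186.PBWD633 Crest.Agent.R186.PBWD633.QW

section generic

variable {K : Type*} [Field K] {g : K} {R : Type*} [Ring R] [Algebra K R] {W : QW g R}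

/-- leading terms: a positive `x`-exponent can be pulled out on the left -/
theorem sxW {k P : ℤ} (hP : P + k ≠ 0 ∨ k < 0) {m : R} (hm : m ∈ W.F k P) :
    ∃ u ∈ W.F k (P - 1), ∃ v ∈ W.F k (P - 1), m - W.x0 * u - W.x1 * v ∈ W.F (k - 1) P := by
  rw [QW.mem_F] at hm
  obtain ⟨a, ha, b, hb, e, he, h1⟩ := shift_surj (φ := _) (ψ := _) lx0 lx1 (B := S k (P - 1))
    (C := S k (P - 1)) (E := S (k - 1) P) (A := S k P) (by
      rintro ⟨a0, a1, b0, b1⟩ ⟨h1, h2⟩
      simp only [od, dg] at h1 h2
      rcases le_or_gt ((b0 : ℤ) + b1) (k - 1) with h5 | h5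
      · exact Or.inr (Or.inr ⟨h5, h2⟩)
      rcases Nat.eq_zero_or_pos a0 with h3 | h3
      · refine Or.inr (Or.inl ⟨(a0, a1 - 1, b0, b1), ⟨?_, ?_⟩, ?_⟩)
        · simp only [od]; omega
        · simp only [dg]; omega
        · show (a0, a1 - 1 + 1, b0, b1) = (a0, a1, b0, b1)
          rw [Nat.sub_add_cancel (by omega)]
      · refine Or.inl ⟨(a0 - 1, a1, b0, b1), ⟨?_, ?_⟩, ?_⟩
        · simp only [od]; omega
        · simp only [dg]; omega
        · show (a0 - 1 + 1, a1, b0, b1) = (a0, a1, b0, b1)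
          rw [Nat.sub_add_cancel (by omega)]) hm
  rw [← QW.mem_F] at ha hb he
  refine ⟨a, ha, b, hb, ?_⟩
  have h2 : m - W.x0 * a - W.x1 * b = e := by
    rw [h1]
    simp only [LinearMap.mulLeft_apply]
    abel
  rw [h2]
  exact he

/-- a ring with PBW as a filtered left module over itself -/
noncomputable def flW (W : QW g R) (h : W.PBW) (hg : g ≠ 0) : Fl K R where
  g := g
  g0 := hg
  X i := LinearMap.mulLeft K (if i = 0 then W.x0 else W.x1)
  D i := LinearMap.mulLeft K (if i = 0 then W.d0 else W.d1)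
  F := W.F
  r0 m := by
    simp only [LinearMap.mulLeft_apply, if_true]
    rw [← mul_assoc, W.h00, add_mul, one_mul, smul_mul_assoc, mul_assoc]
  r1 m := by
    simp only [LinearMap.mulLeft_apply, one_ne_zero, if_false]
    rw [← mul_assoc, W.h11, add_mul, one_mul, smul_mul_assoc, mul_assoc]
  r01 m := by
    simp only [LinearMap.mulLeft_apply, one_ne_zero, if_false, if_true]
    rw [← mul_assoc, W.h01, mul_assoc]
  r10 m := by
    simp only [LinearMap.mulLeft_apply, one_ne_zero, if_false, if_true]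
    rw [← mul_assoc, W.h10, mul_assoc]
  rx m := by
    simp only [LinearMap.mulLeft_apply, one_ne_zero, if_false, if_true]
    rw [← mul_assoc, W.hx, mul_assoc]
  rd m := by
    simp only [LinearMap.mulLeft_apply, one_ne_zero, if_false, if_true]
    rw [← mul_assoc, W.hd, mul_assoc]
  mono {k l P} hkl := W.F_mono hkl P
  Xm i k P Q m hQ hm := by
    subst hQ
    have h1 : (if i = 0 then W.x0 else W.x1) ∈ W.F 0 1 := by
      split_ifs
      · exact W.x0_mem
      · exact W.x1_mem
    have := W.F_mul hg h1 hm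
    rwa [zero_add, add_comm] at this
  Dm i k l P Q m hl hQ hm := by
    subst hl hQ
    have h1 : (if i = 0 then W.d0 else W.d1) ∈ W.F 1 (-1) := by
      split_ifs
      · exact W.d0_mem
      · exact W.d1_mem
    have := W.F_mul hg h1 hm
    rwa [show 1 + k = k + 1 by ring, show -1 + P = P - 1 by ring] at this
  xinj {k l P Q m} hl hQ hm h1 := by
    subst hQ
    have := QW.strict_x0L h hg hm h1
    rwa [add_sub_cancel_right] at this
  dinj {k l P Q m} hl hQ hm h1 := by
    subst hQ hl
    have := QW.strict_d0L h hg hm h1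
    rwa [sub_add_cancel] at this
  kx {k l P Q R' u v} hl hQ hR hu hv h0 := by
    subst hQ hR
    simp only [LinearMap.mulLeft_apply, one_ne_zero, if_false, if_true] at h0 ⊢
    rw [sub_eq_add_neg, ← mul_neg] at h0
    obtain ⟨a, ha, b, hb, h1⟩ := QW.X3L h hg hu (Submodule.neg_mem _ hv) h0
    rw [add_sub_cancel_right] at ha hb
    have hlk : W.F l P ≤ W.F k P := W.F_mono (by omega) P
    have h2 : W.x0 * (u - a) + W.x1 * (-v - b) = 0 := by
      rw [mul_sub, mul_sub, sub_add_sub_comm, h1, sub_self]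
    obtain ⟨e, he, h3, h4⟩ := QW.X2L h hg (Submodule.sub_mem _ hu (hlk ha))
      (Submodule.sub_mem _ (Submodule.neg_mem _ hv) (hlk hb)) h2
    refine ⟨e, he, ?_, ?_⟩
    · rw [← h3, sub_sub_cancel]
      exact ha
    · have h5 : v - W.x0 * e = -b := by
        rw [sub_eq_add_neg, ← h4]
        abel
      rw [h5]
      exact Submodule.neg_mem _ hb
  kd {k l P Q R' u v} hl hQ hR hu hv h0 := by
    subst hQ hR hl
    simp only [LinearMap.mulLeft_apply, one_ne_zero, if_false, if_true] at h0 ⊢
    rw [sub_eq_add_neg (W.d0 * u), ← mul_neg] at h0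
    obtain ⟨a, ha, b, hb, h1⟩ := QW.D3L h hg hu (Submodule.neg_mem _ hv) h0
    rw [sub_add_cancel] at ha hb
    have hlk : W.F (k - 1) P ≤ W.F k P := W.F_mono (by omega) P
    have h2 : W.d0 * (u - a) + W.d1 * (-v - b) = 0 := by
      rw [mul_sub, mul_sub, sub_add_sub_comm, h1, sub_self]
    obtain ⟨e, he, h3, h4⟩ := QW.D2L h hg (Submodule.sub_mem _ hu (hlk ha))
      (Submodule.sub_mem _ (Submodule.neg_mem _ hv) (hlk hb)) h2
    refine ⟨e, he, ?_, ?_⟩
    · rw [← h3, sub_sub_cancel]
      exact ha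
    · have h5 : v - W.d0 * e = -b := by
        rw [sub_eq_add_neg, ← h4]
        abel
      rw [h5]
      exact Submodule.neg_mem _ hb
  sx {k l P R' m} hl hR hP hm := by
    subst hl hR
    simp only [LinearMap.mulLeft_apply, one_ne_zero, if_false, if_true]
    exact sxW hP hm
  sd {k l P R' m} hl hR hk hm := by
    subst hl hR
    simp only [LinearMap.mulLeft_apply, one_ne_zero, if_false, if_true]
    rcases lt_or_ge k 0 with h0 | h0
    · refine ⟨0, Submodule.zero_mem _, 0, Submodule.zero_mem _, ?_⟩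
      rw [W.F_neg h0] at hm
      rw [(Submodule.mem_bot K).1 hm, mul_zero, mul_zero, sub_zero, sub_zero]
      exact Submodule.zero_mem _
    · obtain ⟨a, ha, b, hb, p, hp, h1⟩ := QW.D1L hg hm
      refine ⟨a, ha, b, hb, ?_⟩
      have h2 : m - W.d0 * a - W.d1 * b = p := by
        rw [h1]
        abel
      rw [h2]
      exact W.F_mono (by omega) P hp

end generic

open Crest.Agent.R186.B281 Crest.Agent.R186.FilPBW633

variable {K : Type} [Field K] {g : K}

/-- THE INSTANCE: 128's operators as a filtered left module -/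
noncomputable def fl (hg : Gen g) : Fl K (Op K) := flW (W0 hg) (PBW0 hg) hg.1

theorem fl_F (hg : Gen g) (k P : ℤ) : (fl hg).F k P = Fil g k P := (Fil_eq_F hg k P).symm
theorem fl_X0 (hg : Gen g) (m : Op K) : (fl hg).X 0 m = X 0 * m := rfl
theorem fl_X1 (hg : Gen g) (m : Op K) : (fl hg).X 1 m = X 1 * m := rfl
theorem fl_D0 (hg : Gen g) (m : Op K) : (fl hg).D 0 m = D g 0 * m := rfl
theorem fl_D1 (hg : Gen g) (m : Op K) : (fl hg).D 1 m = D g 1 * m := rfl
theorem fl_g (hg : Gen g) : (fl hg).g = g := rfl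

end Crest.Agent.R186.LCF442
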