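import Crest.Agent.R186.HatA_827

/-!
Row 186 (helper492): elementary derived tensor products without tensor products.
`Cx` = graded differential `K`-modules of characteristic two (homological degrees),
`Ix` = a locally finite index set of cells, `Tw` = the twisted direct sum
`ι →₀ P`, `D (σ, p) = (σ, d p) + Σ_τ (τ, t σ τ p)`.
All functors of the closing (`P ⊗ X`, `Y ⊗ P`) are instances of `Tw`.
-/

set_option autoImplicit false
set_option linter.unusedSectionVars false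

namespace Crest.Agent.R186.Frame492

/-- a graded differential module, `x + x = 0` -/
structure Cx (K : Type) [Field K] where
  P : Type
  [grp : AddCommGroup P]
  [mod : Module K P]
  two : ∀ x : P, x + x = 0
  gr : ℤ → Submodule K P
  d : P →ₗ[K] P
  d_d : ∀ x, d (d x) = 0
  d_mem : ∀ {k : ℤ} {x : P}, x ∈ gr k → d x ∈ gr (k - 1)

attribute [instance] Cx.grp Cx.mod

variable {K : Type} [Field K]

/-- exactness in degree `k` -/
def Cx.Z (X : Cx K) (k : ℤ) : Prop :=
  ∀ x ∈ X.gr k, X.d x = 0 → ∃ y ∈ X.gr (k + 1), X.d y = x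

/-- chain maps -/
structure Mor (X Y : Cx K) where
  f : X.P →ₗ[K] Y.P
  mem : ∀ {k : ℤ} {x : X.P}, x ∈ X.gr k → f x ∈ Y.gr k
  comm : ∀ x, f (X.d x) = Y.d (f x)

/-- the cone `P ⊕ P'`, `(x, x') ↦ (d x, f x + d x')`, `x` of degree `k - 1` -/
def cone {X Y : Cx K} (g : Mor X Y) : Cx K where
  P := X.P × Y.P
  two x := Prod.ext (X.two _) (Y.two _)
  gr k := (X.gr (k - 1)).prod (Y.gr k)
  d := LinearMap.prod (X.d ∘ₗ LinearMap.fst K _ _)
    (g.f ∘ₗ LinearMap.fst K _ _ + Y.d ∘ₗ LinearMap.snd K _ _)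
  d_d x := by
    refine Prod.ext ?_ ?_
    · simp [X.d_d]
    · simp [g.comm, Y.d_d, Y.two]
  d_mem {k x} hx := by
    obtain ⟨h1, h2⟩ := hx
    refine ⟨X.d_mem h1, ?_⟩
    exact (Y.gr _).add_mem (g.mem h1) (Y.d_mem h2)

/-- quasi-isomorphism (in all degrees) -/
def QI {X Y : Cx K} (g : Mor X Y) : Prop := ∀ k, (cone g).Z k

/-- a short exact sequence of complexes, degreewise -/
structure SES (X Y W : Cx K) where
  i : Mor X Y
  p : Mor Y W
  pi : ∀ x, p.f (i.f x) = 0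
  inj : ∀ x, i.f x = 0 → x = 0
  ker : ∀ (k : ℤ) (y : Y.P), y ∈ Y.gr k → p.f y = 0 → ∃ x ∈ X.gr k, i.f x = y
  surj : ∀ (k : ℤ) (w : W.P), w ∈ W.gr k → ∃ y ∈ Y.gr k, p.f y = w

namespace SES

variable {X Y W : Cx K} (S : SES X Y W)

include S

theorem mid {k : ℤ} (hX : X.Z k) (hW : W.Z k) : Y.Z k := by
  intro y hy h
  obtain ⟨w, hw, e⟩ := hW (S.p.f y) (S.p.mem hy) (by rw [← S.p.comm, h, map_zero])
  obtain ⟨y', hy', e'⟩ := S.surj _ w hw
  obtain ⟨x, hx, ex⟩ := S.ker k (y - Y.d y') ((Y.gr k).sub_mem hy (by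
    have := Y.d_mem hy'
    rwa [show k + 1 - 1 = k by ring] at this)) (by
    rw [map_sub, S.p.comm, e', e, sub_self])
  obtain ⟨x', hx', ex'⟩ := hX x hx (S.inj _ (by
    rw [S.i.comm, ex, map_sub, h, Y.d_d, sub_zero]))
  refine ⟨y' + S.i.f x', (Y.gr _).add_mem hy' (S.i.mem hx'), ?_⟩
  rw [map_add, ← S.i.comm, ex', ex]
  abel

theorem right {k : ℤ} (hY : Y.Z k) (hX : X.Z (k - 1)) : W.Z k := by
  intro w hw h
  obtain ⟨y, hy, e⟩ := S.surj k w hw
  obtain ⟨x, hx, ex⟩ := S.ker (k - 1) (Y.d y) (Y.d_mem hy) (by rw [S.p.comm, e, h])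
  obtain ⟨x', hx', ex'⟩ := hX x hx (S.inj _ (by rw [S.i.comm, ex, Y.d_d]))
  rw [show k - 1 + 1 = k by ring] at hx'
  obtain ⟨y', hy', e'⟩ := hY (y - S.i.f x') ((Y.gr k).sub_mem hy (S.i.mem hx')) (by
    rw [map_sub, ← S.i.comm, ex', ex, sub_self])
  refine ⟨S.p.f y', S.p.mem hy', ?_⟩
  rw [← S.p.comm, e', map_sub, S.pi, sub_zero, e]

theorem left {k : ℤ} (hY : Y.Z k) (hW : W.Z (k + 1)) : X.Z k := by
  intro x hx h
  obtain ⟨y, hy, e⟩ := hY (S.i.f x) (S.i.mem hx) (by rw [← S.i.comm, h, map_zero])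
  obtain ⟨w, hw, e'⟩ := hW (S.p.f y) (S.p.mem hy) (by rw [← S.p.comm, e, S.pi])
  obtain ⟨y', hy', ey'⟩ := S.surj _ w hw
  obtain ⟨x', hx', ex'⟩ := S.ker (k + 1) (y - Y.d y') ((Y.gr _).sub_mem hy (by
    have := Y.d_mem hy'
    rwa [show k + 1 + 1 - 1 = k + 1 by ring] at this)) (by
    rw [map_sub, S.p.comm, ey', e', sub_self])
  refine ⟨x', hx', ?_⟩
  have : S.i.f (X.d x' - x) = 0 := by
    rw [map_sub, S.i.comm, ex', map_sub, Y.d_d, sub_zero, e, sub_self]
  exact sub_eq_zero.1 (S.inj _ this)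

end SES

/-- the three implications of a cone -/
theorem cone_mid {X Y : Cx K} (g : Mor X Y) {k : ℤ} (hX : X.Z (k - 1)) (hY : Y.Z k) :
    (cone g).Z k := by
  rintro ⟨x, y⟩ ⟨hx, hy⟩ h
  have h1 : X.d x = 0 := congrArg Prod.fst h
  have h2 : g.f x + Y.d y = 0 := congrArg Prod.snd h
  obtain ⟨x', hx', e⟩ := hX x hx h1
  rw [show k - 1 + 1 = k by ring] at hx'
  obtain ⟨y', hy', e'⟩ := hY (y + g.f x') ((Y.gr k).add_mem hy (g.mem hx')) (by
    rw [map_add, ← g.comm, e, add_comm, h2])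
  refine ⟨(x', y'), ⟨by rwa [show k + 1 - 1 = k by ring], hy'⟩, Prod.ext e ?_⟩
  change g.f x' + Y.d y' = y
  rw [e', add_comm, add_assoc, Y.two, add_zero]

theorem cone_right {X Y : Cx K} (g : Mor X Y) {k : ℤ} (hc : (cone g).Z k) (hX : X.Z k) :
    Y.Z k := by
  intro y hy h
  obtain ⟨⟨x', y'⟩, ⟨hx', hy'⟩, e⟩ := hc (0, y) ⟨Submodule.zero_mem _, hy⟩
    (Prod.ext (map_zero X.d) (by change g.f 0 + Y.d y = 0; rw [map_zero, h, add_zero]))
  have h1 : X.d x' = 0 := congrArg Prod.fst e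
  have h2 : g.f x' + Y.d y' = y := congrArg Prod.snd e
  rw [show k + 1 - 1 = k by ring] at hx'
  obtain ⟨x'', hx'', e''⟩ := hX x' hx' h1
  refine ⟨g.f x'' + Y.d 0 + y', (Y.gr _).add_mem ((Y.gr _).add_mem (g.mem hx'') (by simp)) hy', ?_⟩
  rw [map_zero, add_zero, map_add, ← g.comm, e'', h2]

theorem cone_left {X Y : Cx K} (g : Mor X Y) {k : ℤ} (hc : (cone g).Z (k + 1)) (hY : Y.Z k) :
    X.Z k := by
  intro x hx h
  obtain ⟨y', hy', e'⟩ := hY (g.f x) (g.mem hx) (by rw [← g.comm, h, map_zero])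
  obtain ⟨⟨x'', y''⟩, ⟨hx'', hy''⟩, e⟩ := hc (x, y')
    ⟨by rwa [show k + 1 - 1 = k by ring], hy'⟩
    (Prod.ext h (by change g.f x + Y.d y' = 0; rw [e', Y.two]))
  refine ⟨x'', ?_, congrArg Prod.fst e⟩
  rwa [show k + 1 + 1 - 1 = k + 1 by ring] at hx''

theorem QI.right {X Y : Cx K} {g : Mor X Y} (h : QI g) {k : ℤ} (hX : X.Z k) : Y.Z k :=
  cone_right g (h k) hX

theorem QI.left {X Y : Cx K} {g : Mor X Y} (h : QI g) {k : ℤ} (hY : Y.Z k) : X.Z k :=
  cone_left g (h (k + 1)) hY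

theorem QI.iff {X Y : Cx K} {g : Mor X Y} (h : QI g) (k : ℤ) : X.Z k ↔ Y.Z k :=
  ⟨h.right, h.left⟩

/-! ### cells -/

/-- a locally finite index set of cells -/
structure Ix where
  ι : Type
  s : ι → ℕ
  F : ℕ → Finset ι
  mem_F : ∀ m σ, σ ∈ F m ↔ s σ ≤ m

/-- a twisting matrix of operators `t σ τ` (from the cell `σ` to the cell `τ`), with idempotents
`e σ` which only enter in the graded pieces -/
structure TwD (I : Ix) (P : Cx K) where
  t : I.ι → I.ι → P.P →ₗ[K] P.P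
  e : I.ι → P.P →ₗ[K] P.P
  low : ∀ σ τ x, I.s σ ≤ I.s τ → t σ τ x = 0
  t_mem : ∀ σ τ {k : ℤ} {x : P.P}, x ∈ P.gr k → t σ τ x ∈ P.gr (k + I.s σ - I.s τ - 1)
  mc : ∀ σ τ x, P.d (t σ τ x) + t σ τ (P.d x) + ∑ ρ ∈ I.F (I.s σ), t ρ τ (t σ ρ x) = 0
  e_e : ∀ σ x, e σ (e σ x) = e σ x
  e_mem : ∀ σ {k : ℤ} {x : P.P}, x ∈ P.gr k → e σ x ∈ P.gr k
  e_d : ∀ σ x, e σ (P.d x) = P.d (e σ x)
  e_t : ∀ σ τ x, e τ (t σ τ x) = t σ τ x

variable {I : Ix} {P : Cx K}

namespace TwD

variable (T : TwD I P)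

open Finsupp in
/-- the differential on singles -/
noncomputable def D : (I.ι →₀ P.P) →ₗ[K] (I.ι →₀ P.P) :=
  lsum K (fun σ => lsingle σ ∘ₗ P.d + ∑ τ ∈ I.F (I.s σ), lsingle τ ∘ₗ T.t σ τ)

theorem D_single (σ : I.ι) (p : P.P) : T.D (Finsupp.single σ p) =
    Finsupp.single σ (P.d p) + ∑ τ ∈ I.F (I.s σ), Finsupp.single τ (T.t σ τ p) := by
  simp [D]

theorem D_apply (x : I.ι →₀ P.P) (τ : I.ι) :
    T.D x τ = P.d (x τ) + x.sum fun σ p => T.t σ τ p := by
  classical
  induction x using Finsupp.induction_linear with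
  | zero => simp
  | add x y hx hy =>
    rw [map_add, Finsupp.add_apply, hx, hy, Finsupp.add_apply, map_add,
      Finsupp.sum_add_index' (by simp) (by simp)]
    abel
  | single σ p =>
    rw [D_single, Finsupp.sum_single_index (by simp)]
    rw [Finsupp.add_apply, Finsupp.finsetSum_apply]
    congr 1
    · by_cases h : σ = τ
      · subst h; simp
      · simp [Finsupp.single_eq_of_ne' h]
    · by_cases h : τ ∈ I.F (I.s σ)
      · rw [Finset.sum_eq_single τ]
        · simp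
        · intro ρ _ hρ
          simp [Finsupp.single_eq_of_ne' hρ]
        · exact fun h' => absurd h h'
      · rw [Finset.sum_eq_zero]
        · rw [I.mem_F, not_le] at h
          exact (T.low σ τ p h.le).symm
        · intro ρ hρ
          have : ρ ≠ τ := fun e => h (e ▸ hρ)
          simp [Finsupp.single_eq_of_ne' this]

theorem D_D (x : I.ι →₀ P.P) : T.D (T.D x) = 0 := by
  classical
  induction x using Finsupp.induction_linear with
  | zero => simp
  | add x y hx hy => rw [map_add, map_add, hx, hy, add_zero]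
  | single σ p =>
    rw [D_single, map_add, D_single, P.d_d, map_sum]
    have h1 : ∀ τ ∈ I.F (I.s σ), T.D (Finsupp.single τ (T.t σ τ p)) =
        Finsupp.single τ (P.d (T.t σ τ p)) +
          ∑ ρ ∈ I.F (I.s σ), Finsupp.single ρ (T.t τ ρ (T.t σ τ p)) := by
      intro τ hτ
      rw [D_single]
      congr 1
      refine Finset.sum_subset ?_ ?_
      · intro ρ hρ
        rw [I.mem_F] at *
        omega
      · intro ρ _ hρ
        rw [I.mem_F, not_le] at hρ
        rw [T.low τ ρ _ hρ.le, Finsupp.single_zero]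
    rw [Finset.sum_congr rfl h1, Finset.sum_add_distrib, Finset.sum_comm, Finsupp.single_zero,
      zero_add, ← Finset.sum_add_distrib, ← Finset.sum_add_distrib]
    refine Finset.sum_eq_zero fun τ _ => ?_
    have h2 := T.mc σ τ p
    rw [← Finsupp.single_finsetSum, ← Finsupp.single_add, ← Finsupp.single_add,
      ← add_assoc, add_comm (T.t σ τ (P.d p)), h2, Finsupp.single_zero]

/-- the graded pieces -/
def gr (m : ℤ) : Submodule K (I.ι →₀ P.P) where
  carrier := {x | ∀ σ, x σ ∈ P.gr (m - I.s σ) ∧ T.e σ (x σ) = x σ}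
  zero_mem' _ := ⟨Submodule.zero_mem _, map_zero _⟩
  add_mem' hx hy σ := ⟨Submodule.add_mem _ (hx σ).1 (hy σ).1, by
    rw [Finsupp.add_apply, map_add, (hx σ).2, (hy σ).2]⟩
  smul_mem' a _ hx σ := ⟨Submodule.smul_mem _ a (hx σ).1, by
    rw [Finsupp.smul_apply, map_smul, (hx σ).2]⟩

theorem D_mem {m : ℤ} {x : I.ι →₀ P.P} (hx : x ∈ T.gr m) : T.D x ∈ T.gr (m - 1) := by
  intro τ
  rw [D_apply]
  refine ⟨Submodule.add_mem _ ?_ (Submodule.sum_mem _ fun σ _ => ?_), ?_⟩
  · have := P.d_mem (hx τ).1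
    rwa [show m - I.s τ - 1 = m - 1 - I.s τ by ring] at this
  · have := T.t_mem σ τ (hx σ).1
    rwa [show m - I.s σ + I.s σ - I.s τ - 1 = m - 1 - I.s τ by ring] at this
  · rw [map_add, T.e_d, (hx τ).2, Finsupp.sum, map_sum]
    congr 1
    exact Finset.sum_congr rfl fun σ _ => T.e_t σ τ _

/-- **the twisted direct sum** -/
noncomputable def Tw : Cx K where
  P := I.ι →₀ P.P
  two x := by ext σ; exact P.two _
  gr := T.gr
  d := T.D
  d_d := T.D_D
  d_mem := T.D_mem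

theorem mem_gr {m : ℤ} {x : I.ι →₀ P.P} :
    x ∈ T.gr m ↔ ∀ σ, x σ ∈ P.gr (m - I.s σ) ∧ T.e σ (x σ) = x σ :=
  Iff.rfl

/-- above the top of the support there is no twist -/
theorem D_top {n : ℕ} {x : I.ι →₀ P.P} (hx : ∀ σ, n < I.s σ → x σ = 0) {τ : I.ι}
    (h : n ≤ I.s τ) : T.D x τ = P.d (x τ) := by
  rw [D_apply, Finsupp.sum, Finset.sum_eq_zero, add_zero]
  intro σ hσ
  by_cases h' : n < I.s σ
  · rw [hx σ h', map_zero]
  · exact T.low _ _ _ (by omega)

/-- **(B1)** acyclic up to degree `m` -/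
theorem tw_Z {m : ℤ} (hP : ∀ k ≤ m, P.Z k) : T.Tw.Z m := by
  classical
  have key : ∀ n : ℕ, ∀ x : I.ι →₀ P.P, x ∈ T.gr m → T.D x = 0 →
      (∀ σ, n ≤ I.s σ → x σ = 0) →
      ∃ y ∈ T.gr (m + 1), T.D y = x := by
    intro n
    induction n with
    | zero =>
      intro x _ _ h
      have : x = 0 := Finsupp.ext fun σ => h σ (Nat.zero_le _)
      exact ⟨0, Submodule.zero_mem _, by rw [map_zero, this]⟩
    | succ n ih =>
      intro x hx hd h
      have h1 : ∀ σ, I.s σ = n → P.d (x σ) = 0 := by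
        intro σ hσ
        rw [← T.D_top (n := n) (fun τ hτ => h τ hτ) hσ.ge]
        exact DFunLike.congr_fun hd σ
      have h2 : ∀ σ, ∃ z : P.P, (z ∈ P.gr (m + 1 - I.s σ) ∧ T.e σ z = z) ∧
          (I.s σ = n → P.d z = x σ) ∧ (x σ = 0 → z = 0) ∧ (I.s σ ≠ n → z = 0) := by
        intro σ
        by_cases hσ : I.s σ = n
        · by_cases h0 : x σ = 0
          · exact ⟨0, ⟨Submodule.zero_mem _, map_zero _⟩, fun _ => by rw [map_zero, h0],
              fun _ => rfl, fun _ => rfl⟩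
          · obtain ⟨z, hz, e⟩ := hP (m - I.s σ) (by omega) (x σ) (hx σ).1 (h1 σ hσ)
            refine ⟨T.e σ z, ⟨?_, T.e_e σ z⟩, fun _ => ?_, fun h => absurd h h0,
              fun h => absurd hσ h⟩
            · rw [show m - I.s σ + 1 = m + 1 - I.s σ by ring] at hz
              exact T.e_mem σ hz
            · rw [← T.e_d, e, (hx σ).2]
        · exact ⟨0, ⟨Submodule.zero_mem _, map_zero _⟩, fun h => absurd h hσ, fun _ => rfl,
            fun _ => rfl⟩
      choose z hz hz1 hz2 hz3 using h2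
      let y : I.ι →₀ P.P := Finsupp.onFinset x.support z fun σ hσ => by
        rw [Finsupp.mem_support_iff]
        exact fun h => hσ (hz2 σ h)
      have hy : ∀ σ, y σ = z σ := fun σ => rfl
      have hy' : y ∈ T.gr (m + 1) := fun σ => hz σ
      obtain ⟨w, hw, e⟩ := ih (x - T.D y) (Submodule.sub_mem _ hx (by
        have := T.D_mem hy'
        rwa [show m + 1 - 1 = m by ring] at this)) (by
        rw [map_sub, hd, T.D_D, sub_zero]) (by
        intro σ hσ
        rw [Finsupp.sub_apply]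
        change x σ - T.D y σ = 0
        rw [T.D_top (n := n) (fun τ hτ => hz3 τ (by omega)) hσ]
        by_cases hs : I.s σ = n
        · rw [hy, hz1 σ hs, sub_self]
        · rw [hy, hz3 σ hs, map_zero, h σ (by omega), sub_zero])
      exact ⟨w + y, Submodule.add_mem _ hw hy', by rw [map_add, e]; abel⟩
  intro x hx hd
  obtain ⟨n, hn⟩ : ∃ n : ℕ, ∀ σ, n ≤ I.s σ → (show I.ι →₀ P.P from x) σ = 0 := by
    refine ⟨Finset.sup (Finsupp.support (show I.ι →₀ P.P from x)) I.s + 1, fun σ hσ => ?_⟩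
    by_contra h
    have := Finset.le_sup (f := I.s) (Finsupp.mem_support_iff.2 h)
    exact Nat.not_succ_le_self _ (hσ.trans this)
  exact key n x hx hd hn

end TwD

/-! ### functoriality -/

variable {P' P'' : Cx K}

/-- intertwining maps -/
structure Comp (T : TwD I P) (T' : TwD I P') (g : Mor P P') : Prop where
  t : ∀ σ τ x, g.f (T.t σ τ x) = T'.t σ τ (g.f x)
  e : ∀ σ x, g.f (T.e σ x) = T'.e σ (g.f x)

theorem mapRange_D {T : TwD I P} {T' : TwD I P'} {g : Mor P P'} (h : Comp T T' g)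
    (x : I.ι →₀ P.P) :
    Finsupp.mapRange.linearMap g.f (T.D x) = T'.D (Finsupp.mapRange.linearMap g.f x) := by
  classical
  induction x using Finsupp.induction_linear with
  | zero => simp
  | add x y hx hy => rw [map_add, map_add, hx, hy, map_add, map_add]
  | single σ p =>
    rw [TwD.D_single, map_add, map_sum]
    simp only [Finsupp.mapRange.linearMap_apply, Finsupp.mapRange_single]
    rw [TwD.D_single, g.comm]
    congr 1
    exact Finset.sum_congr rfl fun τ _ => by rw [h.t]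

/-- the induced map of twisted sums -/
noncomputable def twMap {T : TwD I P} {T' : TwD I P'} {g : Mor P P'} (h : Comp T T' g) :
    Mor T.Tw T'.Tw where
  f := Finsupp.mapRange.linearMap g.f
  mem {k x} hx σ := ⟨g.mem (hx σ).1, by
    have := h.e σ ((show I.ι →₀ P.P from x) σ)
    rw [(hx σ).2] at this
    exact this.symm⟩
  comm := mapRange_D h

theorem twMap_apply {T : TwD I P} {T' : TwD I P'} {g : Mor P P'} (h : Comp T T' g)
    (x : I.ι →₀ P.P) (σ : I.ι) : (show I.ι →₀ P'.P from (twMap h).f x) σ = g.f (x σ) := rfl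

/-- the twisting matrix on a cone -/
def coneT {T : TwD I P} {T' : TwD I P'} {g : Mor P P'} (h : Comp T T' g) : TwD I (cone g) where
  t σ τ := show P.P × P'.P →ₗ[K] P.P × P'.P from LinearMap.prodMap (T.t σ τ) (T'.t σ τ)
  e σ := show P.P × P'.P →ₗ[K] P.P × P'.P from LinearMap.prodMap (T.e σ) (T'.e σ)
  low σ τ x hs := Prod.ext (T.low σ τ _ hs) (T'.low σ τ _ hs)
  e_e σ x := Prod.ext (T.e_e σ _) (T'.e_e σ _)
  e_mem σ {k x} hx := ⟨T.e_mem σ hx.1, T'.e_mem σ hx.2⟩
  e_d σ x := Prod.ext (T.e_d σ _) (by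
    change T'.e σ (g.f x.1 + P'.d x.2) = g.f (T.e σ x.1) + P'.d (T'.e σ x.2)
    rw [map_add, h.e, T'.e_d])
  e_t σ τ x := Prod.ext (T.e_t σ τ _) (T'.e_t σ τ _)
  t_mem σ τ {k x} hx := by
    refine ⟨?_, T'.t_mem σ τ hx.2⟩
    have := T.t_mem σ τ hx.1
    rwa [show k - 1 + I.s σ - I.s τ - 1 = k + I.s σ - I.s τ - 1 - 1 by ring] at this
  mc σ τ x := by
    have e1 : (∑ ρ ∈ I.F (I.s σ), ((T.t ρ τ (T.t σ ρ x.1), T'.t ρ τ (T'.t σ ρ x.2)) : P.P × P'.P))
        = (∑ ρ ∈ I.F (I.s σ), T.t ρ τ (T.t σ ρ x.1),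
          ∑ ρ ∈ I.F (I.s σ), T'.t ρ τ (T'.t σ ρ x.2)) := by
      refine Prod.ext ?_ ?_
      · rw [Prod.fst_sum]
      · rw [Prod.snd_sum]
    have h1 := T.mc σ τ x.1
    have h2 := T'.mc σ τ x.2
    have h3 := h.t σ τ x.1
    have h4 := P'.two (T'.t σ τ (g.f x.1))
    change (P.d (T.t σ τ x.1) + T.t σ τ (P.d x.1),
      (g.f (T.t σ τ x.1) + P'.d (T'.t σ τ x.2)) + T'.t σ τ (g.f x.1 + P'.d x.2)) +
      (∑ ρ ∈ I.F (I.s σ), ((T.t ρ τ (T.t σ ρ x.1), T'.t ρ τ (T'.t σ ρ x.2)) : P.P × P'.P)) =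
      ((0, 0) : P.P × P'.P)
    rw [e1]
    refine Prod.ext h1 ?_
    change (g.f (T.t σ τ x.1) + P'.d (T'.t σ τ x.2)) + T'.t σ τ (g.f x.1 + P'.d x.2) +
      ∑ ρ ∈ I.F (I.s σ), T'.t ρ τ (T'.t σ ρ x.2) = 0
    rw [h3, map_add]
    calc _ = (T'.t σ τ (g.f x.1) + T'.t σ τ (g.f x.1)) + (P'.d (T'.t σ τ x.2) +
        T'.t σ τ (P'.d x.2) + ∑ ρ ∈ I.F (I.s σ), T'.t ρ τ (T'.t σ ρ x.2)) := by abel
      _ = 0 := by rw [h4, h2, add_zero]

/-! ### modules -/

open Hat827

/-- left dg modules -/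
structure LM (A : DGA K) extends Cx K where
  [act : Module A.C P]
  [tower : IsScalarTower K A.C P]
  smul_mem : ∀ {k l : ℤ} {a : A.C} {x : P}, a ∈ A.G k → x ∈ gr l → a • x ∈ gr (k + l)
  leib : ∀ (a : A.C) (x : P), d (a • x) = A.D a • x + a • d x

attribute [instance] LM.act LM.tower

/-- right dg modules: `x · b = op b • x` -/
structure RM (B : DGA K) extends Cx K where
  [ract : Module B.Cᵐᵒᵖ P]
  [rtower : IsScalarTower K B.Cᵐᵒᵖ P]
  rsmul_mem : ∀ {k l : ℤ} {b : B.C} {x : P}, b ∈ B.G k → x ∈ gr l →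
    MulOpposite.op b • x ∈ gr (k + l)
  rleib : ∀ (b : B.C) (x : P),
    d (MulOpposite.op b • x) = MulOpposite.op (B.D b) • x + MulOpposite.op b • d x

attribute [instance] RM.ract RM.rtower

/-- dg bimodules -/
structure BM (A B : DGA K) extends LM A, RM B where
  [bcomm : SMulCommClass A.C B.Cᵐᵒᵖ P]

attribute [instance] BM.ract BM.rtower BM.bcomm

instance {A B : DGA K} (P : BM A B) : SMulCommClass B.Cᵐᵒᵖ A.C P.P := SMulCommClass.symm _ _ _

/-- left cells: `X = ⊕ A e_σ`, `d e_σ = Σ_τ c σ τ e_τ` (the fields of `Hat827.Cells`) -/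
structure LC (A : DGA K) extends Ix where
  e : ι → A.C
  e_mem : ∀ σ, e σ ∈ A.G 0
  e_idem : ∀ σ, e σ * e σ = e σ
  c : ι → ι → A.C
  c_mem : ∀ σ τ, c σ τ ∈ A.G ((s σ : ℤ) - s τ - 1)
  c_left : ∀ σ τ, e σ * c σ τ = c σ τ
  c_right : ∀ σ τ, c σ τ * e τ = c σ τ
  mc : ∀ σ τ, A.D (c σ τ) + ∑ ρ ∈ F (s σ), c σ ρ * c ρ τ = 0

/-- right cells: `Y = ⊕ e_σ A`, `d e_σ = Σ_τ e_τ c τ σ` -/
structure RC (A : DGA K) extends Ix where
  e : ι → A.C
  e_mem : ∀ σ, e σ ∈ A.G 0
  e_idem : ∀ σ, e σ * e σ = e σ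
  c : ι → ι → A.C
  c_mem : ∀ τ σ, c τ σ ∈ A.G ((s σ : ℤ) - s τ - 1)
  c_left : ∀ τ σ, e τ * c τ σ = c τ σ
  c_right : ∀ τ σ, c τ σ * e σ = c τ σ
  mc : ∀ τ σ, A.D (c τ σ) + ∑ ρ ∈ F (s σ), c τ ρ * c ρ σ = 0

section

variable {A B : DGA K}

theorem D_zero_deg {a : A.C} (h : a ∈ A.G 0) : A.D a = 0 := DGA.D_neg h (by omega)

/-- `Y ⊗_A N` as a twist: `t σ τ n = c τ σ • n` -/
def twL (Y : RC A) (N : LM A) : TwD Y.toIx N.toCx where
  t σ τ := Algebra.lsmul K K N.P (Y.c τ σ)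
  e σ := Algebra.lsmul K K N.P (Y.e σ)
  low σ τ x h := by
    change Y.c τ σ • x = 0
    rw [DGA.neg (Y.c_mem τ σ) (by have : (Y.s σ : ℤ) ≤ Y.s τ := by exact_mod_cast h
                                  omega), zero_smul]
  t_mem σ τ {k x} hx := by
    have := N.smul_mem (Y.c_mem τ σ) hx
    rwa [show (Y.s σ : ℤ) - Y.s τ - 1 + k = k + Y.s σ - Y.s τ - 1 by ring] at this
  mc σ τ x := by
    change N.d (Y.c τ σ • x) + Y.c τ σ • N.d x +
      ∑ ρ ∈ Y.F (Y.s σ), Y.c τ ρ • (Y.c ρ σ • x) = 0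
    have h := congrArg (fun z => z • x) (Y.mc τ σ)
    simp only [add_smul, Finset.sum_smul, zero_smul, mul_smul] at h
    rw [N.leib, add_assoc (A.D (Y.c τ σ) • x), N.two, add_zero, h]
  e_e σ x := by
    change Y.e σ • (Y.e σ • x) = Y.e σ • x
    rw [← mul_smul, Y.e_idem]
  e_mem σ {k x} hx := by
    have := N.smul_mem (Y.e_mem σ) hx
    rwa [zero_add] at this
  e_d σ x := by
    change Y.e σ • N.d x = N.d (Y.e σ • x)
    rw [N.leib, D_zero_deg (Y.e_mem σ), zero_smul, zero_add]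
  e_t σ τ x := by
    change Y.e τ • (Y.c τ σ • x) = Y.c τ σ • x
    rw [← mul_smul, Y.c_left]

/-- `G ⊗_A X` as a twist: `t σ τ g = g · c σ τ` -/
def twR (G : RM A) (X : LC A) : TwD X.toIx G.toCx where
  t σ τ := Algebra.lsmul K K G.P (MulOpposite.op (X.c σ τ))
  e σ := Algebra.lsmul K K G.P (MulOpposite.op (X.e σ))
  low σ τ x h := by
    change MulOpposite.op (X.c σ τ) • x = 0
    rw [DGA.neg (X.c_mem σ τ) (by have : (X.s σ : ℤ) ≤ X.s τ := by exact_mod_cast h
                                  omega), MulOpposite.op_zero, zero_smul]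
  t_mem σ τ {k x} hx := by
    have := G.rsmul_mem (X.c_mem σ τ) hx
    rwa [show (X.s σ : ℤ) - X.s τ - 1 + k = k + X.s σ - X.s τ - 1 by ring] at this
  mc σ τ x := by
    change G.d (MulOpposite.op (X.c σ τ) • x) + MulOpposite.op (X.c σ τ) • G.d x +
      ∑ ρ ∈ X.F (X.s σ), MulOpposite.op (X.c ρ τ) • (MulOpposite.op (X.c σ ρ) • x) = 0
    have h := congrArg (fun z => MulOpposite.op z • x) (X.mc σ τ)
    simp only [MulOpposite.op_add, Finset.op_sum, add_smul, Finset.sum_smul, MulOpposite.op_zero,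
      zero_smul, MulOpposite.op_mul, mul_smul] at h
    rw [G.rleib, add_assoc (MulOpposite.op (A.D (X.c σ τ)) • x), G.two, add_zero, h]
  e_e σ x := by
    change MulOpposite.op (X.e σ) • (MulOpposite.op (X.e σ) • x) = MulOpposite.op (X.e σ) • x
    rw [← mul_smul, ← MulOpposite.op_mul, X.e_idem]
  e_mem σ {k x} hx := by
    have := G.rsmul_mem (X.e_mem σ) hx
    rwa [zero_add] at this
  e_d σ x := by
    change MulOpposite.op (X.e σ) • G.d x = G.d (MulOpposite.op (X.e σ) • x)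
    rw [G.rleib, D_zero_deg (X.e_mem σ), MulOpposite.op_zero, zero_smul, zero_add]
  e_t σ τ x := by
    change MulOpposite.op (X.e τ) • (MulOpposite.op (X.c σ τ) • x) = MulOpposite.op (X.c σ τ) • x
    rw [← mul_smul, ← MulOpposite.op_mul, X.c_right]

/-- `Y ⊗_A N` -/
noncomputable def tY (Y : RC A) (N : LM A) : Cx K := (twL Y N).Tw

/-- `G ⊗_A X` -/
noncomputable def tG (G : RM A) (X : LC A) : Cx K := (twR G X).Tw

/-- `P ⊗_B X`, a left `A`-module (pointwise action) -/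
noncomputable def tP (P : BM A B) (X : LC B) : LM A :=
  { (twR P.toRM X).Tw with
    act := (inferInstance : Module A.C (X.ι →₀ P.P))
    tower := (inferInstance : IsScalarTower K A.C (X.ι →₀ P.P))
    smul_mem := by
      intro k l a x ha hx σ
      refine ⟨?_, ?_⟩
      · have := P.smul_mem ha (hx σ).1
        rwa [show k + (l - (X.s σ : ℤ)) = k + l - X.s σ by ring] at this
      · have h : MulOpposite.op (X.e σ) • ((show X.ι →₀ P.P from x) σ) =
            (show X.ι →₀ P.P from x) σ := (hx σ).2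
        change MulOpposite.op (X.e σ) • (a • (show X.ι →₀ P.P from x) σ) =
          a • (show X.ι →₀ P.P from x) σ
        rw [← smul_comm, h]
    leib := by
      intro a x
      change (twR P.toRM X).D (a • (show X.ι →₀ P.P from x)) =
        A.D a • (show X.ι →₀ P.P from x) + a • (twR P.toRM X).D (show X.ι →₀ P.P from x)
      generalize (show X.ι →₀ P.P from x) = y
      induction y using Finsupp.induction_linear with
      | zero => simp
      | add x y hx hy => rw [smul_add, map_add, hx, hy, smul_add, map_add, smul_add]; abel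
      | single σ p =>
        rw [Finsupp.smul_single, TwD.D_single, TwD.D_single, Finsupp.smul_single, P.leib, smul_add,
          Finset.smul_sum, Finsupp.smul_single, Finsupp.single_add, add_assoc]
        congr 2
        refine Finset.sum_congr rfl fun τ _ => ?_
        rw [Finsupp.smul_single]
        congr 1
        exact (smul_comm a (MulOpposite.op (X.c σ τ)) p).symm }

/-- `Y ⊗_A P`, a right `B`-module (pointwise action) -/
noncomputable def tQ (Y : RC A) (P : BM A B) : RM B :=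
  { (twL Y P.toLM).Tw with
    ract := (inferInstance : Module B.Cᵐᵒᵖ (Y.ι →₀ P.P))
    rtower := (inferInstance : IsScalarTower K B.Cᵐᵒᵖ (Y.ι →₀ P.P))
    rsmul_mem := by
      intro k l b x hb hx σ
      refine ⟨?_, ?_⟩
      · have := P.rsmul_mem hb (hx σ).1
        rwa [show k + (l - (Y.s σ : ℤ)) = k + l - Y.s σ by ring] at this
      · have h : Y.e σ • ((show Y.ι →₀ P.P from x) σ) = (show Y.ι →₀ P.P from x) σ := (hx σ).2
        change Y.e σ • (MulOpposite.op b • (show Y.ι →₀ P.P from x) σ) =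
          MulOpposite.op b • (show Y.ι →₀ P.P from x) σ
        rw [smul_comm, h]
    rleib := by
      intro b x
      change (twL Y P.toLM).D (MulOpposite.op b • (show Y.ι →₀ P.P from x)) =
        MulOpposite.op (B.D b) • (show Y.ι →₀ P.P from x) +
          MulOpposite.op b • (twL Y P.toLM).D (show Y.ι →₀ P.P from x)
      generalize (show Y.ι →₀ P.P from x) = y
      induction y using Finsupp.induction_linear with
      | zero => simp
      | add x y hx hy => rw [smul_add, map_add, hx, hy, smul_add, map_add, smul_add]; abel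
      | single σ p =>
        rw [Finsupp.smul_single, TwD.D_single, TwD.D_single, Finsupp.smul_single, P.rleib, smul_add,
          Finset.smul_sum, Finsupp.smul_single, Finsupp.single_add, add_assoc]
        congr 2
        refine Finset.sum_congr rfl fun τ _ => ?_
        rw [Finsupp.smul_single]
        congr 1
        change Y.c τ σ • (MulOpposite.op b • p) = MulOpposite.op b • (Y.c τ σ • p)
        rw [smul_comm] }

end

/-! ### Fubini -/

section

variable {A B : DGA K}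

/-- `(Y ⊗_A P) ⊗_B X` and `Y ⊗_A (P ⊗_B X)` -/
noncomputable def swapE (α β M : Type) [AddCommGroup M] [Module K M] :
    (α →₀ (β →₀ M)) ≃ₗ[K] (β →₀ (α →₀ M)) :=
  (Finsupp.curryLinearEquiv K).symm ≪≫ₗ Finsupp.domLCongr (Equiv.prodComm α β) ≪≫ₗ
    Finsupp.curryLinearEquiv K

theorem swapE_single {α β M : Type} [AddCommGroup M] [Module K M] (a : α) (b : β) (m : M) :
    swapE (K := K) α β M (Finsupp.single a (Finsupp.single b m)) =
      Finsupp.single b (Finsupp.single a m) := by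
  simp [swapE]

end

end Crest.Agent.R186.Frame492
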