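import Crest.Agent.R186.Frame_515
import Crest.Agent.R186.Frame_492

/-!
Row 186, half (A) (helper226): the bridge between the two frames `Frame515` and `Frame492`.
-/

set_option autoImplicit false
set_option linter.style.haveILetI false
set_option linter.unusedSectionVars false

open MulOpposite

namespace Crest.Agent.R186.FrBr226

open Hat827

variable {K : Type} [Field K] {A B : DGA K}

/-! ### complexes -/

/-- from 492 to 515 -/
def toGC (X : Frame492.Cx K) : Frame515.GC K where
  X := X.P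
  gr := X.gr
  d := X.d
  d_mem := X.d_mem
  d_d := X.d_d

/-- from 515 to 492 -/
def toCx (X : Frame515.GC K) (two : ∀ x : X.X, x + x = 0) : Frame492.Cx K where
  P := X.X
  two := two
  gr := X.gr
  d := X.d
  d_mem := X.d_mem
  d_d := X.d_d

theorem ac_iff (X : Frame492.Cx K) : Frame515.Ac (toGC X) ↔ ∀ k, X.Z k := Iff.rfl

theorem ac_iff' (X : Frame515.GC K) (two : ∀ x : X.X, x + x = 0) :
    Frame515.Ac X ↔ ∀ k, (toCx X two).Z k := Iff.rfl

/-- chain maps -/
def toGCHom {X Y : Frame492.Cx K} (f : Frame492.Mor X Y) : Frame515.GCHom (toGC X) (toGC Y) where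
  f := f.f
  f_mem := f.mem
  f_d := f.comm

/-- chain maps -/
def toMor {X Y : Frame515.GC K} (f : Frame515.GCHom X Y) (hX : ∀ x : X.X, x + x = 0)
    (hY : ∀ x : Y.X, x + x = 0) : Frame492.Mor (toCx X hX) (toCx Y hY) where
  f := f.f
  mem := f.f_mem
  comm := f.f_d

/-- **the two notions of quasi-isomorphism agree** -/
theorem qi_iff {X Y : Frame492.Cx K} (f : Frame492.Mor X Y) :
    Frame515.QI (toGCHom f) ↔ Frame492.QI f := by
  constructor
  · rintro ⟨hs, hi⟩ k ⟨x, y⟩ ⟨hx, hy⟩ hd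
    have h1 : X.d x = 0 := congrArg Prod.fst hd
    have h2 : f.f x + Y.d y = 0 := congrArg Prod.snd hd
    have h3 : f.f x = Y.d y := by
      rw [← add_zero (f.f x), ← Y.two (Y.d y), ← add_assoc, h2, zero_add]
    obtain ⟨w, hw, hxw⟩ := hi (k - 1) x hx h1 ⟨y, by
      rw [show k - 1 + 1 = k by ring]; exact hy, h3⟩
    change X.P at w
    change w ∈ X.gr (k - 1 + 1) at hw
    change x = X.d w at hxw
    rw [show k - 1 + 1 = k by ring] at hw
    obtain ⟨v, hv, hdv, z, hz, hyz⟩ := hs k (y + f.f w) (Submodule.add_mem _ hy (f.mem hw)) (by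
      change Y.d (y + f.f w) = 0
      rw [map_add, ← f.comm, ← hxw, h3, Y.two])
    change X.P at v
    change v ∈ X.gr k at hv
    change X.d v = 0 at hdv
    change Y.P at z
    change z ∈ Y.gr (k + 1) at hz
    change y + f.f w = f.f v + Y.d z at hyz
    refine ⟨(w + v, z), ⟨?_, hz⟩, Prod.ext ?_ ?_⟩
    · change w + v ∈ X.gr (k + 1 - 1)
      rw [add_sub_cancel_right]
      exact Submodule.add_mem _ hw hv
    · change X.d (w + v) = x
      rw [map_add, hdv, add_zero, hxw]
    · change f.f (w + v) + Y.d z = y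
      rw [map_add, add_assoc, ← hyz, add_comm y, ← add_assoc, Y.two, zero_add]
  · intro h
    constructor
    · intro k y hy hd
      change Y.P at y
      change y ∈ Y.gr k at hy
      change Y.d y = 0 at hd
      obtain ⟨⟨x, z⟩, ⟨hx, hz⟩, he⟩ := h k (0, y) ⟨Submodule.zero_mem _, hy⟩
        (Prod.ext (map_zero X.d) (by change f.f 0 + Y.d y = 0; rw [map_zero, hd, add_zero]))
      have h1 : X.d x = 0 := congrArg Prod.fst he
      have h2 : f.f x + Y.d z = y := congrArg Prod.snd he
      rw [show k + 1 - 1 = k by ring] at hx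
      exact ⟨x, hx, h1, z, hz, h2.symm⟩
    · rintro k x hx hd ⟨z, hz, hxz⟩
      change X.P at x
      change Y.P at z
      change f.f x = Y.d z at hxz
      obtain ⟨⟨w, v⟩, ⟨hw, hv⟩, he⟩ := h (k + 1) (x, z)
        ⟨by rw [show k + 1 - 1 = k by ring]; exact hx, hz⟩
        (Prod.ext hd (by change f.f x + Y.d z = 0; rw [hxz, Y.two]))
      have h1 : X.d w = x := congrArg Prod.fst he
      refine ⟨w, ?_, h1.symm⟩
      rwa [show k + 1 + 1 - 1 = k + 1 by ring] at hw

theorem qi_iff' {X Y : Frame515.GC K} (f : Frame515.GCHom X Y) (hX : ∀ x : X.X, x + x = 0)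
    (hY : ∀ x : Y.X, x + x = 0) : Frame515.QI f ↔ Frame492.QI (toMor f hX hY) :=
  qi_iff (toMor f hX hY)

/-! ### modules -/

theorem two_left {X : Type} [AddCommGroup X] [Module A.C X] (x : X) : x + x = 0 := by
  have h : x = (1 : A.C) • x := (one_smul _ _).symm
  rw [h, ← add_smul, A.two, zero_smul]

theorem two_right {X : Type} [AddCommGroup X] [Module A.Cᵐᵒᵖ X] (x : X) : x + x = 0 := by
  have h : x = op (1 : A.C) • x := by rw [op_one, one_smul]
  rw [h, ← add_smul, ← op_add, A.two, op_zero, zero_smul]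

/-- left modules -/
def lm5 (N : Frame492.LM A) : Frame515.LM A where
  toGC := toGC N.toCx
  act := N.act
  tower := N.tower
  smul_mem := N.smul_mem
  leib := N.leib

/-- left modules -/
def lm4 (N : Frame515.LM A) : Frame492.LM A where
  toCx := toCx N.toGC (two_left (A := A))
  act := N.act
  tower := N.tower
  smul_mem := N.smul_mem
  leib := N.leib

/-- right modules -/
def rm5 (N : Frame492.RM A) : Frame515.RM A where
  toGC := toGC N.toCx
  act := N.ract
  tower := N.rtower
  smul_mem := N.rsmul_mem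
  leib := N.rleib

/-- right modules -/
def rm4 (N : Frame515.RM A) : Frame492.RM A where
  toCx := toCx N.toGC (two_right (A := A))
  ract := N.act
  rtower := N.tower
  rsmul_mem := N.smul_mem
  rleib := N.leib

/-- bimodules -/
def bm5 (P : Frame492.BM A B) : Frame515.BM A B where
  toGC := toGC P.toCx
  actL := P.act
  towerL := P.tower
  actR := P.ract
  towerR := P.rtower
  comm := P.bcomm
  smul_mem := P.smul_mem
  leib := P.leib
  smul_memR := P.rsmul_mem
  leibR := P.rleib

/-- bimodules -/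
def bm4 (P : Frame515.BM A B) : Frame492.BM A B where
  toLM := lm4 P.toLM
  ract := P.actR
  rtower := P.towerR
  rsmul_mem := P.smul_memR
  rleib := P.leibR
  bcomm := P.comm

theorem lm4_lm5 (N : Frame492.LM A) : lm4 (lm5 N) = N := rfl
theorem lm5_lm4 (N : Frame515.LM A) : lm5 (lm4 N) = N := rfl
theorem rm4_rm5 (N : Frame492.RM A) : rm4 (rm5 N) = N := rfl
theorem rm5_rm4 (N : Frame515.RM A) : rm5 (rm4 N) = N := rfl
theorem bm4_bm5 (N : Frame492.BM A B) : bm4 (bm5 N) = N := rfl
theorem bm5_bm4 (N : Frame515.BM A B) : bm5 (bm4 N) = N := rfl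
theorem bm5_toLM (P : Frame492.BM A B) : (bm5 P).toLM = lm5 P.toLM := rfl
theorem bm5_toRM (P : Frame492.BM A B) : (bm5 P).toRM = rm5 P.toRM := rfl
theorem bm4_toLM (P : Frame515.BM A B) : (bm4 P).toLM = lm4 P.toLM := rfl
theorem bm4_toRM (P : Frame515.BM A B) : (bm4 P).toRM = rm4 P.toRM := rfl

/-! ### cells -/

/-- left cells -/
def lc5 (X : Frame492.LC A) : Frame515.LCells A where
  ι := X.ι
  s := X.s
  F := X.F
  mem_F := X.mem_F
  e := X.e
  e_mem := X.e_mem
  e_idem := X.e_idem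
  c := X.c
  c_mem := X.c_mem
  c_left := X.c_left
  c_right := X.c_right
  mc := X.mc

/-- left cells -/
def lc4 (X : Frame515.LCells A) : Frame492.LC A where
  ι := X.ι
  s := X.s
  F := X.F
  mem_F := X.mem_F
  e := X.e
  e_mem := X.e_mem
  e_idem := X.e_idem
  c := X.c
  c_mem := X.c_mem
  c_left := X.c_left
  c_right := X.c_right
  mc := X.mc

/-- right cells -/
def rc5 (X : Frame492.RC A) : Frame515.RCells A where
  ι := X.ι
  s := X.s
  F := X.F
  mem_F := X.mem_F
  e := X.e
  e_mem := X.e_mem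
  e_idem := X.e_idem
  c := X.c
  c_mem := X.c_mem
  c_left := X.c_left
  c_right := X.c_right
  mc := X.mc

/-- right cells -/
def rc4 (X : Frame515.RCells A) : Frame492.RC A where
  ι := X.ι
  s := X.s
  F := X.F
  mem_F := X.mem_F
  e := X.e
  e_mem := X.e_mem
  e_idem := X.e_idem
  c := X.c
  c_mem := X.c_mem
  c_left := X.c_left
  c_right := X.c_right
  mc := X.mc

theorem lc4_lc5 (X : Frame492.LC A) : lc4 (lc5 X) = X := rfl
theorem lc5_lc4 (X : Frame515.LCells A) : lc5 (lc4 X) = X := rfl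
theorem rc4_rc5 (X : Frame492.RC A) : rc4 (rc5 X) = X := rfl
theorem rc5_rc4 (X : Frame515.RCells A) : rc5 (rc4 X) = X := rfl

/-! ### tensor products -/

theorem gc_ext {X Y : Frame515.GC K} (h : X = Y) : Frame515.Ac X ↔ Frame515.Ac Y := by rw [h]

theorem tG_d (G : Frame492.RM A) (X : Frame492.LC A) :
    (Frame515.tG (rm5 G) (lc5 X)).d = (Frame492.tG G X).d := by
  refine Finsupp.lhom_ext fun σ x => ?_
  exact (Frame515.Tw.dd_single (Frame515.twG (rm5 G) (lc5 X)) σ x).trans
    (Frame492.TwD.D_single (Frame492.twR G X) σ x).symm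

theorem tY_d (Y : Frame492.RC A) (N : Frame492.LM A) :
    (Frame515.tY (rc5 Y) (lm5 N)).d = (Frame492.tY Y N).d := by
  refine Finsupp.lhom_ext fun σ x => ?_
  exact (Frame515.Tw.dd_single (Frame515.twY (rc5 Y) (lm5 N)) σ x).trans
    (Frame492.TwD.D_single (Frame492.twL Y N) σ x).symm

/-- **`G ⊗ X` is the same in both frames** -/
theorem tG_eq (G : Frame492.RM A) (X : Frame492.LC A) :
    Frame515.tG (rm5 G) (lc5 X) = toGC (Frame492.tG G X) := by
  have h := tG_d G X
  change Frame515.GC.mk _ _ _ _ _ = Frame515.GC.mk _ _ _ _ _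
  congr 1

/-- **`Y ⊗ N` is the same in both frames** -/
theorem tY_eq (Y : Frame492.RC A) (N : Frame492.LM A) :
    Frame515.tY (rc5 Y) (lm5 N) = toGC (Frame492.tY Y N) := by
  have h := tY_d Y N
  change Frame515.GC.mk _ _ _ _ _ = Frame515.GC.mk _ _ _ _ _
  congr 1

theorem tG_ac_iff (G : Frame492.RM A) (X : Frame492.LC A) :
    Frame515.Ac (Frame515.tG (rm5 G) (lc5 X)) ↔ ∀ k, (Frame492.tG G X).Z k := by
  rw [tG_eq]
  exact Iff.rfl

theorem tG_ac_iff' (G : Frame515.RM A) (X : Frame515.LCells A) :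
    Frame515.Ac (Frame515.tG G X) ↔ ∀ k, (Frame492.tG (rm4 G) (lc4 X)).Z k :=
  tG_ac_iff (rm4 G) (lc4 X)

theorem tY_ac_iff (Y : Frame492.RC A) (N : Frame492.LM A) :
    Frame515.Ac (Frame515.tY (rc5 Y) (lm5 N)) ↔ ∀ k, (Frame492.tY Y N).Z k := by
  rw [tY_eq]
  exact Iff.rfl

theorem tY_ac_iff' (Y : Frame515.RCells A) (N : Frame515.LM A) :
    Frame515.Ac (Frame515.tY Y N) ↔ ∀ k, (Frame492.tY (rc4 Y) (lm4 N)).Z k :=
  tY_ac_iff (rc4 Y) (lm4 N)

end Crest.Agent.R186.FrBr226
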