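import Crest.Agent.R186.Frame_492

/-!
Row 186 (helper492): functoriality of the two-sided cell framework.
-/

set_option autoImplicit false
set_option linter.unusedSectionVars false

namespace Crest.Agent.R186.Frame492

open Hat827

variable {K : Type} [Field K]

/-- exactness passes to retracts -/
theorem Z_of_retract {X Y : Cx K} (φ : Mor X Y) (ψ : Mor Y X) (h : ∀ x, ψ.f (φ.f x) = x) {k : ℤ}
    (hY : Y.Z k) : X.Z k := by
  intro x hx hd
  obtain ⟨y, hy, e⟩ := hY (φ.f x) (φ.mem hx) (by rw [← φ.comm, hd, map_zero])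
  exact ⟨ψ.f y, ψ.mem hy, by rw [← ψ.comm, e, h]⟩

/-- composition -/
def Mor.comp {X Y W : Cx K} (g : Mor Y W) (f : Mor X Y) : Mor X W where
  f := g.f ∘ₗ f.f
  mem hx := g.mem (f.mem hx)
  comm x := by
    change g.f (f.f (X.d x)) = W.d (g.f (f.f x))
    rw [f.comm, g.comm]

/-- identity -/
def Mor.id (X : Cx K) : Mor X X where
  f := LinearMap.id
  mem hx := hx
  comm _ := rfl

section tw

variable {I : Ix} {P P' P'' : Cx K}

/-- **twisted sums preserve quasi-isomorphisms** -/
theorem twMap_QI {T : TwD I P} {T' : TwD I P'} {g : Mor P P'} (h : Comp T T' g) (hg : QI g) :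
    QI (twMap h) := by
  intro k
  let T2 := coneT h
  have hZ : T2.Tw.Z k := T2.tw_Z fun j _ => hg j
  let f1 : (cone g).P →ₗ[K] P.P :=
    { toFun := fun p => p.1, map_add' := fun _ _ => rfl, map_smul' := fun _ _ => rfl }
  let f2 : (cone g).P →ₗ[K] P'.P :=
    { toFun := fun p => p.2, map_add' := fun _ _ => rfl, map_smul' := fun _ _ => rfl }
  let i1 : P.P →ₗ[K] (cone g).P :=
    { toFun := fun p => (p, 0)
      map_add' := fun _ _ => Prod.ext rfl (add_zero (0 : P'.P)).symm
      map_smul' := fun _ _ => Prod.ext rfl (smul_zero _).symm }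
  let i2 : P'.P →ₗ[K] (cone g).P :=
    { toFun := fun p => (0, p)
      map_add' := fun _ _ => Prod.ext (add_zero (0 : P.P)).symm rfl
      map_smul' := fun _ _ => Prod.ext (smul_zero _).symm rfl }
  let a : (I.ι →₀ P.P) × (I.ι →₀ P'.P) →ₗ[K] (I.ι →₀ (cone g).P) :=
    Finsupp.mapRange.linearMap i1 ∘ₗ LinearMap.fst K _ _ +
      Finsupp.mapRange.linearMap i2 ∘ₗ LinearMap.snd K _ _
  let b : (I.ι →₀ (cone g).P) →ₗ[K] (I.ι →₀ P.P) × (I.ι →₀ P'.P) :=
    LinearMap.prod (Finsupp.mapRange.linearMap f1) (Finsupp.mapRange.linearMap f2)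
  have ha : ∀ x σ, a x σ = (x.1 σ, x.2 σ) := by
    intro x σ
    change i1 (x.1 σ) + i2 (x.2 σ) = _
    exact Prod.ext (add_zero (x.1 σ)) (zero_add (x.2 σ))
  have hb : ∀ x, b x = (Finsupp.mapRange.linearMap f1 x, Finsupp.mapRange.linearMap f2 x) :=
    fun _ => rfl
  have hab : ∀ x, b (a x) = x := by
    intro x
    refine Prod.ext ?_ ?_
    · ext σ; change (a x σ).1 = _; rw [ha]
    · ext σ; change (a x σ).2 = _; rw [ha]
  have hba : ∀ x, a (b x) = x := by
    intro x
    refine Finsupp.ext fun σ => ?_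
    rw [ha]; rfl
  have hb1 : ∀ x, Finsupp.mapRange.linearMap f1 (T2.D x) =
      T.D (Finsupp.mapRange.linearMap f1 x) := by
    intro x
    induction x using Finsupp.induction_linear with
    | zero => simp
    | add x y hx hy => rw [map_add, map_add, hx, hy, map_add, map_add]
    | single σ p =>
      rw [TwD.D_single, map_add, map_sum]
      simp only [Finsupp.mapRange.linearMap_apply, Finsupp.mapRange_single]
      rw [TwD.D_single]
      rfl
  have hb2 : ∀ x, Finsupp.mapRange.linearMap f2 (T2.D x) =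
      Finsupp.mapRange.linearMap g.f (Finsupp.mapRange.linearMap f1 x) +
        T'.D (Finsupp.mapRange.linearMap f2 x) := by
    intro x
    induction x using Finsupp.induction_linear with
    | zero => simp
    | add x y hx hy =>
      rw [map_add, map_add, hx, hy, map_add, map_add, map_add, map_add]
      abel
    | single σ p =>
      rw [TwD.D_single, map_add, map_sum]
      simp only [Finsupp.mapRange.linearMap_apply, Finsupp.mapRange_single]
      rw [TwD.D_single, ← add_assoc, ← Finsupp.single_add]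
      rfl
  refine Z_of_retract (Y := T2.Tw) ⟨a, ?_, ?_⟩ ⟨b, ?_, ?_⟩ hab hZ
  · rintro j ⟨x, y⟩ ⟨hx, hy⟩ σ
    have e : a (x, y) σ = _ := ha (x, y) σ
    refine ⟨?_, ?_⟩
    · change a (x, y) σ ∈ _
      rw [e]
      refine ⟨?_, (hy σ).1⟩
      have := (hx σ).1
      rwa [show j - 1 - (I.s σ : ℤ) = j - I.s σ - 1 by ring] at this
    · change T2.e σ (a (x, y) σ) = a (x, y) σ
      rw [e]
      exact Prod.ext (hx σ).2 (hy σ).2
  · intro x
    change a ((cone (twMap h)).d x) = T2.D (a x)
    rw [← hba (T2.D (a x))]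
    congr 1
    have e1 : Finsupp.mapRange.linearMap f1 (a x) = x.1 := congrArg Prod.fst (hab x)
    have e2 : Finsupp.mapRange.linearMap f2 (a x) = x.2 := congrArg Prod.snd (hab x)
    refine Prod.ext ?_ ?_
    · change T.D x.1 = Finsupp.mapRange.linearMap f1 (T2.D (a x))
      rw [hb1, e1]
    · change Finsupp.mapRange.linearMap g.f x.1 + T'.D x.2 =
        Finsupp.mapRange.linearMap f2 (T2.D (a x))
      rw [hb2, e1, e2]
  · intro j x hx
    refine ⟨fun σ => ?_, fun σ => ?_⟩
    · refine ⟨?_, congrArg Prod.fst (hx σ).2⟩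
      have := (hx σ).1.1
      rwa [show j - (I.s σ : ℤ) - 1 = j - 1 - I.s σ by ring] at this
    · exact ⟨(hx σ).1.2, congrArg Prod.snd (hx σ).2⟩
  · intro x
    exact Prod.ext (hb1 x) (hb2 x)

/-- **twisted sums preserve short exact sequences** -/
noncomputable def twSES {T : TwD I P} {T' : TwD I P'} {T'' : TwD I P''} (S : SES P P' P'')
    (hi : Comp T T' S.i) (hp : Comp T' T'' S.p) : SES T.Tw T'.Tw T''.Tw where
  i := twMap hi
  p := twMap hp
  pi x := by
    refine Finsupp.ext fun σ => ?_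
    exact S.pi _
  inj x h := by
    refine Finsupp.ext fun σ => S.inj _ ?_
    exact DFunLike.congr_fun (F := I.ι →₀ P'.P) h σ
  ker k y hy h := by
    have h1 : ∀ σ, S.p.f ((show I.ι →₀ P'.P from y) σ) = 0 := fun σ =>
      DFunLike.congr_fun (F := I.ι →₀ P''.P) h σ
    have h2 : ∀ σ, ∃ z : P.P, (z ∈ P.gr (k - I.s σ) ∧ T.e σ z = z) ∧
        S.i.f z = (show I.ι →₀ P'.P from y) σ := by
      intro σ
      obtain ⟨z, hz, e⟩ := S.ker _ _ (hy σ).1 (h1 σ)
      exact ⟨T.e σ z, ⟨T.e_mem σ hz, T.e_e σ z⟩, by rw [hi.e, e]; exact (hy σ).2⟩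
    choose z hz e using h2
    refine ⟨(Finsupp.onFinset (Finsupp.support (show I.ι →₀ P'.P from y)) z fun σ hσ => ?_ :
      I.ι →₀ P.P), fun σ => hz σ, ?_⟩
    · rw [Finsupp.mem_support_iff]
      intro h0
      exact hσ (S.inj _ (by rw [e, h0]))
    · refine Finsupp.ext fun σ => ?_
      exact e σ
  surj k w hw := by
    classical
    have h2 : ∀ σ, ∃ z : P'.P, (z ∈ P'.gr (k - I.s σ) ∧ T'.e σ z = z) ∧
        S.p.f z = (show I.ι →₀ P''.P from w) σ ∧
        ((show I.ι →₀ P''.P from w) σ = 0 → z = 0) := by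
      intro σ
      by_cases h0 : (show I.ι →₀ P''.P from w) σ = 0
      · exact ⟨0, ⟨Submodule.zero_mem _, map_zero _⟩, by rw [map_zero, h0], fun _ => rfl⟩
      · obtain ⟨z, hz, e⟩ := S.surj _ _ (hw σ).1
        exact ⟨T'.e σ z, ⟨T'.e_mem σ hz, T'.e_e σ z⟩, by rw [hp.e, e]; exact (hw σ).2,
          fun h => absurd h h0⟩
    choose z hz e h0 using h2
    refine ⟨(Finsupp.onFinset (Finsupp.support (show I.ι →₀ P''.P from w)) z fun σ hσ => ?_ :
      I.ι →₀ P'.P), fun σ => hz σ, ?_⟩
    · rw [Finsupp.mem_support_iff]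
      intro h1
      exact hσ (h0 σ h1)
    · refine Finsupp.ext fun σ => ?_
      exact e σ

end tw

/-! ### module morphisms -/

/-- maps of left dg modules -/
structure LHom {A : DGA K} (N N' : LM A) extends Mor N.toCx N'.toCx where
  map_smul : ∀ (a : A.C) (x : N.P), f (a • x) = a • f x

/-- maps of right dg modules -/
structure RHom {A : DGA K} (G G' : RM A) extends Mor G.toCx G'.toCx where
  map_rsmul : ∀ (a : A.C) (x : G.P), f (MulOpposite.op a • x) = MulOpposite.op a • f x

/-- maps of dg bimodules -/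
structure BHom {A B : DGA K} (P P' : BM A B) extends Mor P.toCx P'.toCx where
  map_smul : ∀ (a : A.C) (x : P.P), f (a • x) = a • f x
  map_rsmul : ∀ (b : B.C) (x : P.P), f (MulOpposite.op b • x) = MulOpposite.op b • f x

section

variable {A B : DGA K}

/-- forget the right action -/
def BHom.toL {P P' : BM A B} (f : BHom P P') : LHom P.toLM P'.toLM :=
  { f.toMor with map_smul := f.map_smul }

/-- forget the left action -/
def BHom.toR {P P' : BM A B} (f : BHom P P') : RHom P.toRM P'.toRM :=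
  { f.toMor with map_rsmul := f.map_rsmul }

theorem compL (Y : RC A) {N N' : LM A} (f : LHom N N') : Comp (twL Y N) (twL Y N') f.toMor :=
  ⟨fun _ _ _ => f.map_smul _ _, fun _ _ => f.map_smul _ _⟩

theorem compR {G G' : RM A} (f : RHom G G') (X : LC A) : Comp (twR G X) (twR G' X) f.toMor :=
  ⟨fun _ _ _ => f.map_rsmul _ _, fun _ _ => f.map_rsmul _ _⟩

/-- `Y ⊗ f` -/
noncomputable def tYmap (Y : RC A) {N N' : LM A} (f : LHom N N') : Mor (tY Y N) (tY Y N') :=
  twMap (compL Y f)

/-- `f ⊗ X` -/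
noncomputable def tGmap {G G' : RM A} (f : RHom G G') (X : LC A) : Mor (tG G X) (tG G' X) :=
  twMap (compR f X)

theorem tY_Z (Y : RC A) (N : LM A) {m : ℤ} (h : ∀ k ≤ m, N.Z k) : (tY Y N).Z m :=
  (twL Y N).tw_Z h

theorem tG_Z (G : RM A) (X : LC A) {m : ℤ} (h : ∀ k ≤ m, G.Z k) : (tG G X).Z m :=
  (twR G X).tw_Z h

theorem tY_QI (Y : RC A) {N N' : LM A} (f : LHom N N') (h : QI f.toMor) : QI (tYmap Y f) :=
  twMap_QI _ h

theorem tG_QI {G G' : RM A} (f : RHom G G') (X : LC A) (h : QI f.toMor) : QI (tGmap f X) :=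
  twMap_QI _ h

/-- short exact sequences of left modules -/
noncomputable def tY_SES (Y : RC A) {N N' N'' : LM A} (f : LHom N N') (g : LHom N' N'')
    (S : SES N.toCx N'.toCx N''.toCx) (hf : S.i = f.toMor) (hg : S.p = g.toMor) :
    SES (tY Y N) (tY Y N') (tY Y N'') :=
  twSES S (hf ▸ compL Y f) (hg ▸ compL Y g)

/-- short exact sequences of right modules -/
noncomputable def tG_SES {G G' G'' : RM A} (f : RHom G G') (g : RHom G' G'')
    (S : SES G.toCx G'.toCx G''.toCx) (hf : S.i = f.toMor) (hg : S.p = g.toMor) (X : LC A) :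
    SES (tG G X) (tG G' X) (tG G'' X) :=
  twSES S (hf ▸ compR f X) (hg ▸ compR g X)

/-- `f ⊗ X` as a map of left modules -/
noncomputable def tPmap {P P' : BM A B} (f : BHom P P') (X : LC B) : LHom (tP P X) (tP P' X) :=
  { (tGmap f.toR X : Mor (tG P.toRM X) (tG P'.toRM X)) with
    map_smul := fun a x => by
      refine Finsupp.ext fun σ => ?_
      exact f.map_smul a _ }

/-- `Y ⊗ f` as a map of right modules -/
noncomputable def tQmap (Y : RC A) {P P' : BM A B} (f : BHom P P') : RHom (tQ Y P) (tQ Y P') :=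
  { (tYmap Y f.toL : Mor (tY Y P.toLM) (tY Y P'.toLM)) with
    map_rsmul := fun b x => by
      refine Finsupp.ext fun σ => ?_
      exact f.map_rsmul b _ }

theorem tP_QI {P P' : BM A B} (f : BHom P P') (X : LC B) (h : QI f.toMor) :
    QI (tPmap f X).toMor := tG_QI f.toR X h

theorem tQ_QI (Y : RC A) {P P' : BM A B} (f : BHom P P') (h : QI f.toMor) :
    QI (tQmap Y f).toMor := tY_QI Y f.toL h

end

end Crest.Agent.R186.Frame492
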