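import Crest.Agent.R186.Frame_515
import Crest.Agent.R186.CellsDG_830

/-!
Row 186 (helper830): resolutions by cells on `Frame_515`, left and right: structures `LR`, `RR`
(cone exact, elementwise), existence, and the quasi-isomorphisms `A ⊗ X → N`, `Y ⊗ A → G`.
-/

set_option autoImplicit false
set_option linter.style.haveILetI false
set_option linter.unusedSectionVars false

open MulOpposite

namespace Crest.Agent.R186.FrameRes830

open Hat827 Hat827.DGA Frame515

variable {K : Type} [Field K]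

/-! ### regular modules -/

/-- the dg algebra as a graded complex -/
def regC (A : DGA K) : GC K where
  X := A.C
  gr := A.G
  d := A.D
  d_mem := A.D_mem
  d_d := A.D_D

/-- the regular left module -/
def regL (A : DGA K) : LM A where
  toGC := regC A
  act := inferInstanceAs (Module A.C A.C)
  tower := inferInstanceAs (IsScalarTower K A.C A.C)
  smul_mem ha hx := A.mul_mem ha hx
  leib a x := A.D_mul a x

/-- the regular right module -/
def regR (A : DGA K) : RM A where
  toGC := regC A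
  act := inferInstanceAs (Module A.Cᵐᵒᵖ A.C)
  tower := inferInstanceAs (IsScalarTower K A.Cᵐᵒᵖ A.C)
  smul_mem {k l a x} ha hx := by
    have h : (show A.C from x) * a ∈ A.G (l + k) := A.mul_mem hx ha
    rw [add_comm] at h
    exact h
  leib a x := by
    have h := A.D_mul (show A.C from x) a
    rw [add_comm] at h
    exact h

/-- the regular bimodule -/
def regB (A : DGA K) : BM A A where
  toGC := regC A
  actL := inferInstanceAs (Module A.C A.C)
  towerL := inferInstanceAs (IsScalarTower K A.C A.C)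
  actR := inferInstanceAs (Module A.Cᵐᵒᵖ A.C)
  towerR := inferInstanceAs (IsScalarTower K A.Cᵐᵒᵖ A.C)
  comm := inferInstanceAs (SMulCommClass A.C A.Cᵐᵒᵖ A.C)
  smul_mem ha hx := A.mul_mem ha hx
  leib a x := A.D_mul a x
  smul_memR := (regR A).smul_mem
  leibR := (regR A).leib

theorem regB_toLM (A : DGA K) : (regB A).toLM = regL A := rfl

theorem regB_toRM (A : DGA K) : (regB A).toRM = regR A := rfl

/-! ### resolutions -/

/-- left cells with an augmentation whose cone is exact -/
structure LR {A : DGA K} (X : LCells A) (N : LM A) where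
  v : X.ι → N.X
  v_mem : ∀ σ, v σ ∈ N.gr (X.s σ)
  v_e : ∀ σ, X.e σ • v σ = v σ
  v_d : ∀ σ, N.d (v σ) = ∑ τ ∈ X.F (X.s σ), X.c σ τ • v τ
  ex : ∀ (n : ℕ) (x : X.ι → A.C) (w : N.X), (∀ σ, x σ ∈ A.G ((n : ℤ) - 1 - X.s σ)) →
    (∀ σ, x σ * X.e σ = x σ) → w ∈ N.gr n →
    (∀ τ, A.D (x τ) + ∑ σ ∈ X.F n, x σ * X.c σ τ = 0) → ∑ σ ∈ X.F n, x σ • v σ = N.d w →
    ∃ y : X.ι → A.C, (∀ σ, y σ ∈ A.G ((n : ℤ) - X.s σ)) ∧ (∀ σ, y σ * X.e σ = y σ) ∧
      (∀ τ, A.D (y τ) + ∑ σ ∈ X.F n, y σ * X.c σ τ = x τ) ∧ ∑ σ ∈ X.F n, y σ • v σ = w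

/-- right cells with an augmentation whose cone is exact -/
structure RR {A : DGA K} (Y : RCells A) (G : RM A) where
  v : Y.ι → G.X
  v_mem : ∀ σ, v σ ∈ G.gr (Y.s σ)
  v_e : ∀ σ, op (Y.e σ) • v σ = v σ
  v_d : ∀ σ, G.d (v σ) = ∑ τ ∈ Y.F (Y.s σ), op (Y.c τ σ) • v τ
  ex : ∀ (n : ℕ) (x : Y.ι → A.C) (w : G.X), (∀ σ, x σ ∈ A.G ((n : ℤ) - 1 - Y.s σ)) →
    (∀ σ, Y.e σ * x σ = x σ) → w ∈ G.gr n →
    (∀ τ, A.D (x τ) + ∑ σ ∈ Y.F n, Y.c τ σ * x σ = 0) →
    ∑ σ ∈ Y.F n, op (x σ) • v σ = G.d w →
    ∃ y : Y.ι → A.C, (∀ σ, y σ ∈ A.G ((n : ℤ) - Y.s σ)) ∧ (∀ σ, Y.e σ * y σ = y σ) ∧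
      (∀ τ, A.D (y τ) + ∑ σ ∈ Y.F n, Y.c τ σ * y σ = x τ) ∧ ∑ σ ∈ Y.F n, op (y σ) • v σ = w

/-! ### existence -/

section exist

variable {A : DGA K}

/-- a left module of the frame as a module of `CellsDG_830` -/
def toL (N : LM A) : CellsDG830.LM A where
  Y := N.X
  gr := N.gr
  smul_mem := N.smul_mem
  d := N.d
  d_smul := N.leib
  dd := N.d_d
  d_mem := N.d_mem

/-- a right module of the frame as a left module over the opposite dg algebra -/
def toR (G : RM A) : CellsDG830.LM (CellsDG830.op A) where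
  Y := G.X
  modC := G.act
  tower := G.tower
  gr := G.gr
  smul_mem {k l a y} ha hy := G.smul_mem (a := MulOpposite.unop a) ha hy
  d := G.d
  d_smul a y := G.leib (MulOpposite.unop a) y
  dd := G.d_d
  d_mem := G.d_mem

/-- **existence of left cells** -/
theorem exists_LR (N : LM A) (fin : ∀ k, Module.Finite K (N.gr k)) :
    ∃ X : LCells A, Nonempty (LR X N) := by
  haveI : ∀ k : ℤ, Module.Finite K ((toL N).gr k) := fin
  let R := CellsDG830.resolution (toL N)
  refine ⟨{ ι := R.ι, s := R.s, F := R.F, mem_F := R.mem_F, e := fun _ => 1,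
            e_mem := fun _ => A.one_mem, e_idem := fun _ => one_mul _, c := R.c,
            c_mem := R.c_mem, c_left := fun _ _ => one_mul _, c_right := fun _ _ => mul_one _,
            mc := R.mc }, ⟨?_⟩⟩
  exact
    { v := R.v
      v_mem := R.v_mem
      v_e := fun σ => one_smul A.C (show N.X from R.v σ)
      v_d := R.v_d
      ex := by
        intro n x w hx _ hw hD hv
        obtain ⟨y, hy, h1, h2⟩ := R.ex n x w hx hw hD hv
        exact ⟨y, hy, fun σ => mul_one _, h1, h2⟩ }

/-- **existence of right cells** -/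
theorem exists_RR (G : RM A) (fin : ∀ k, Module.Finite K (G.gr k)) :
    ∃ Y : RCells A, Nonempty (RR Y G) := by
  haveI : ∀ k : ℤ, Module.Finite K ((toR G).gr k) := fin
  let R := CellsDG830.resolution (toR G)
  refine ⟨{ ι := R.ι, s := R.s, F := R.F, mem_F := R.mem_F, e := fun _ => 1,
            e_mem := fun _ => A.one_mem, e_idem := fun _ => one_mul _,
            c := fun τ σ => MulOpposite.unop (R.c σ τ),
            c_mem := fun τ σ => R.c_mem σ τ, c_left := fun _ _ => one_mul _,
            c_right := fun _ _ => mul_one _,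
            mc := ?_ }, ⟨?_⟩⟩
  · intro τ σ
    have h : A.D (MulOpposite.unop (R.c σ τ)) +
        MulOpposite.unop (∑ ρ ∈ R.F (R.s σ), R.c σ ρ * R.c ρ τ) = 0 :=
      congrArg MulOpposite.unop (R.mc σ τ)
    have h2 : MulOpposite.unop (∑ ρ ∈ R.F (R.s σ), R.c σ ρ * R.c ρ τ) =
        ∑ ρ ∈ R.F (R.s σ), MulOpposite.unop (R.c ρ τ) * MulOpposite.unop (R.c σ ρ) :=
      map_sum (MulOpposite.opAddEquiv (α := A.C)).symm (fun ρ => R.c σ ρ * R.c ρ τ) _
    rw [h2] at h
    exact h
  · exact
      { v := R.v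
        v_mem := R.v_mem
        v_e := fun σ => one_smul A.Cᵐᵒᵖ (show G.X from R.v σ)
        v_d := R.v_d
        ex := by
          intro n x w hx _ hw hD hv
          have hD' : ∀ τ, (CellsDG830.op A).D (MulOpposite.op (x τ)) +
              ∑ σ ∈ R.F n, (show (CellsDG830.op A).C from MulOpposite.op (x σ)) * R.c σ τ = 0 := by
            intro τ
            have h2 : ∑ σ ∈ R.F n, (show (CellsDG830.op A).C from MulOpposite.op (x σ)) * R.c σ τ =
                MulOpposite.op (∑ σ ∈ R.F n, MulOpposite.unop (R.c σ τ) * x σ) :=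
              (map_sum (MulOpposite.opAddEquiv (α := A.C))
                (fun σ => MulOpposite.unop (R.c σ τ) * x σ) _).symm
            rw [h2]
            exact congrArg MulOpposite.op (hD τ)
          obtain ⟨y, hy, h1, h2⟩ := R.ex n (fun σ => MulOpposite.op (x σ)) w hx hw hD' hv
          refine ⟨fun σ => MulOpposite.unop (y σ), hy, fun σ => one_mul _, fun τ => ?_, h2⟩
          have h : A.D (MulOpposite.unop (y τ)) +
              MulOpposite.unop (∑ σ ∈ R.F n, y σ * R.c σ τ) = x τ :=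
            congrArg MulOpposite.unop (h1 τ)
          have h3 : MulOpposite.unop (∑ σ ∈ R.F n, y σ * R.c σ τ) =
              ∑ σ ∈ R.F n, MulOpposite.unop (R.c σ τ) * MulOpposite.unop (y σ) :=
            map_sum (MulOpposite.opAddEquiv (α := A.C)).symm (fun σ => y σ * R.c σ τ) _
          rw [h3] at h
          exact h }

end exist

/-! ### the augmentations are quasi-isomorphisms -/

section aug

variable {A : DGA K}

/-- a homogeneous family of elements of `A` has finite support -/
noncomputable def fam {ι : Type} (s : ι → ℕ) (F : ℕ → Finset ι) (hF : ∀ m σ, σ ∈ F m ↔ s σ ≤ m)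
    (n : ℕ) (y : ι → A.C) (hy : ∀ σ, y σ ∈ A.G ((n : ℤ) - s σ)) : ι →₀ A.C :=
  Finsupp.onFinset (F n) y fun σ h => (hF n σ).2 (by
    by_contra hc
    exact h (neg (hy σ) (by omega)))

theorem supp {ι : Type} {s : ι → ℕ} {F : ℕ → Finset ι} (hF : ∀ m σ, σ ∈ F m ↔ s σ ≤ m)
    {k : ℤ} {n : ℕ} (hk : k ≤ n) {x : ι →₀ A.C} (hx : ∀ σ, x σ ∈ A.G (k - s σ)) :
    x.support ⊆ F n := by
  intro σ h
  rw [Finsupp.mem_support_iff] at h
  refine (hF n σ).2 ?_
  by_contra hc
  exact h (neg (hx σ) (by omega))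

/-- scalar multiples of a vector, left -/
def lv (N : LM A) (v : N.X) : A.C →ₗ[K] N.X where
  toFun a := a • v
  map_add' a b := add_smul a b v
  map_smul' r a := smul_assoc r a v

/-- scalar multiples of a vector, right -/
def rv (G : RM A) (v : G.X) : A.C →ₗ[K] G.X where
  toFun a := op a • v
  map_add' a b := by rw [op_add, add_smul]
  map_smul' r a := by rw [op_smul, smul_assoc, RingHom.id_apply]

/-- the augmentation as a linear map -/
noncomputable def LR.lin {X : LCells A} {N : LM A} (r : LR X N) : (X.ι →₀ A.C) →ₗ[K] N.X :=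
  Finsupp.lsum K fun σ => lv N (r.v σ)

theorem LR.lin_single {X : LCells A} {N : LM A} (r : LR X N) (σ : X.ι) (a : A.C) :
    r.lin (Finsupp.single σ a) = a • r.v σ := by
  rw [LR.lin, Finsupp.lsum_single]; rfl

theorem LR.lin_d {X : LCells A} {N : LM A} (r : LR X N) (x : X.ι →₀ A.C) :
    r.lin ((twG (regR A) X).dd x) = N.d (r.lin x) := by
  induction x using Finsupp.induction_linear with
  | zero => rw [map_zero, map_zero]; exact (congrArg r.lin (map_zero _)).trans (map_zero _)
  | add f g hf hg =>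
    refine (congrArg r.lin ((twG (regR A) X).dd.map_add f g)).trans ?_
    refine (r.lin.map_add _ _).trans ?_
    rw [hf, hg, map_add, map_add]
  | single σ a =>
    have h : (twG (regR A) X).dd (Finsupp.single σ a) =
        (Finsupp.single σ (A.D a) + ∑ τ ∈ X.F (X.s σ), Finsupp.single τ (a * X.c σ τ) :
          X.ι →₀ A.C) := (twG (regR A) X).dd_single σ a
    refine (congrArg r.lin h).trans ?_
    rw [map_add, map_sum, r.lin_single, r.lin_single, N.leib, r.v_d, Finset.smul_sum]
    congr 1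
    refine Finset.sum_congr rfl fun τ _ => ?_
    rw [r.lin_single, mul_smul]

/-- the augmentation `A ⊗ X → N` -/
noncomputable def LR.aug {X : LCells A} {N : LM A} (r : LR X N) :
    GCHom (tG (regR A) X) N.toGC where
  f := r.lin
  f_mem {k x} hx := by
    show (show X.ι →₀ A.C from x).sum (fun σ a => lv N (r.v σ) a) ∈ N.gr k
    refine Submodule.sum_mem _ fun σ _ => ?_
    have := N.smul_mem (hx σ).1 (r.v_mem σ)
    rwa [show k - ((twG (regR A) X).s σ : ℤ) + X.s σ = k by
      show k - (X.s σ : ℤ) + X.s σ = k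
      ring] at this
  f_d x := r.lin_d x

theorem LR.aug_apply {X : LCells A} {N : LM A} (r : LR X N) (x : X.ι →₀ A.C) (S : Finset X.ι)
    (hS : x.support ⊆ S) : r.aug.f x = ∑ σ ∈ S, x σ • r.v σ :=
  Finsupp.sum_of_support_subset x hS (fun σ a => lv N (r.v σ) a) fun σ _ => map_zero _

/-- **`A ⊗ X → N` is a quasi-isomorphism** -/
theorem LR.qi {X : LCells A} {N : LM A} (r : LR X N) (lo : ∀ k : ℤ, k < 0 → N.gr k = ⊥) :
    QI r.aug where
  surj := by
    intro k y hy hd
    by_cases hk : k < 0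
    · rw [lo k hk] at hy
      refine ⟨0, Submodule.zero_mem _, map_zero _, 0, Submodule.zero_mem _, ?_⟩
      rw [(Submodule.mem_bot K).1 hy, map_zero, map_zero, add_zero]
    · obtain ⟨n, rfl⟩ := Int.eq_ofNat_of_zero_le (by omega : 0 ≤ k)
      obtain ⟨z, hz, hze, hzd, hzv⟩ := r.ex n (fun _ => 0) y (fun _ => Submodule.zero_mem _)
        (fun _ => zero_mul _) hy (fun τ => by simp) (by rw [hd]; simp)
      have hs := (fun σ h => (Finsupp.support_onFinset_subset
        (s := X.F n) (f := z) (hf := fun σ h => (X.mem_F n σ).2 (by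
          by_contra hc
          exact h (neg (hz σ) (by omega)))) h) :
        (fam X.s X.F X.mem_F n z hz).support ⊆ X.F n)
      refine ⟨fam X.s X.F X.mem_F n z hz, fun σ => ⟨hz σ, hze σ⟩, ?_, 0, Submodule.zero_mem _, ?_⟩
      · refine Finsupp.ext fun τ => ?_
        refine ((twG (regR A) X).dd_apply' _ (X.F n) hs τ).trans ?_
        exact hzd τ
      · rw [map_zero, add_zero]
        exact hzv.symm.trans (r.aug_apply _ (X.F n) hs).symm
  inj := by
    rintro k x hx hd ⟨z, hz, hxz⟩
    have hx' : ∀ σ, (show X.ι →₀ A.C from x) σ ∈ A.G (k - X.s σ) := fun σ => (hx σ).1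
    by_cases hk : k < 0
    · refine ⟨0, Submodule.zero_mem _, ?_⟩
      have : (show X.ι →₀ A.C from x) = 0 := Finsupp.ext fun σ => neg (hx' σ) (by omega)
      refine Eq.trans this ?_
      exact (map_zero _).symm
    · obtain ⟨n, rfl⟩ := Int.eq_ofNat_of_zero_le (by omega : 0 ≤ k)
      have hs : (show X.ι →₀ A.C from x).support ⊆ X.F (n + 1) :=
        supp X.mem_F (by push_cast; omega) hx'
      obtain ⟨y, hy, hye, hyd, _⟩ := r.ex (n + 1) (show X.ι →₀ A.C from x) z
        (fun σ => by
          have := hx' σ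
          rwa [show ((n + 1 : ℕ) : ℤ) - 1 - X.s σ = (n : ℤ) - X.s σ by push_cast; ring])
        (fun σ => (hx σ).2) (by exact_mod_cast hz)
        (fun τ => by
          have hd' : (twG (regR A) X).dd x = 0 := hd
          exact ((twG (regR A) X).dd_apply' _ (X.F (n + 1)) hs τ).symm.trans
            (DFunLike.congr_fun hd' τ))
        ((r.aug_apply _ (X.F (n + 1)) hs).symm.trans hxz)
      have hsy := (fun σ h => (Finsupp.support_onFinset_subset
        (s := X.F (n + 1)) (f := y) (hf := fun σ h => (X.mem_F (n + 1) σ).2 (by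
          by_contra hc
          exact h (neg (hy σ) (by omega)))) h) :
        (fam X.s X.F X.mem_F (n + 1) y hy).support ⊆ X.F (n + 1))
      refine ⟨fam X.s X.F X.mem_F (n + 1) y hy, fun σ => ⟨?_, hye σ⟩, ?_⟩
      · have := hy σ
        push_cast at this
        exact this
      · refine Finsupp.ext fun τ => ?_
        refine Eq.trans ?_ ((twG (regR A) X).dd_apply' _ (X.F (n + 1)) hsy τ).symm
        exact (hyd τ).symm

/-- the augmentation as a linear map -/
noncomputable def RR.lin {Y : RCells A} {G : RM A} (r : RR Y G) : (Y.ι →₀ A.C) →ₗ[K] G.X :=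
  Finsupp.lsum K fun σ => rv G (r.v σ)

theorem RR.lin_single {Y : RCells A} {G : RM A} (r : RR Y G) (σ : Y.ι) (a : A.C) :
    r.lin (Finsupp.single σ a) = op a • r.v σ := by
  rw [RR.lin, Finsupp.lsum_single]; rfl

theorem RR.lin_d {Y : RCells A} {G : RM A} (r : RR Y G) (x : Y.ι →₀ A.C) :
    r.lin ((twY Y (regL A)).dd x) = G.d (r.lin x) := by
  induction x using Finsupp.induction_linear with
  | zero => rw [map_zero, map_zero]; exact (congrArg r.lin (map_zero _)).trans (map_zero _)
  | add f g hf hg =>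
    refine (congrArg r.lin ((twY Y (regL A)).dd.map_add f g)).trans ?_
    refine (r.lin.map_add _ _).trans ?_
    rw [hf, hg, map_add, map_add]
  | single σ a =>
    have h : (twY Y (regL A)).dd (Finsupp.single σ a) =
        (Finsupp.single σ (A.D a) + ∑ τ ∈ Y.F (Y.s σ), Finsupp.single τ (Y.c τ σ * a) :
          Y.ι →₀ A.C) := (twY Y (regL A)).dd_single σ a
    refine (congrArg r.lin h).trans ?_
    rw [map_add, map_sum, r.lin_single, r.lin_single, G.leib, r.v_d, Finset.smul_sum]
    congr 1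
    refine Finset.sum_congr rfl fun τ _ => ?_
    rw [r.lin_single, op_mul, mul_smul]

/-- the augmentation `Y ⊗ A → G` -/
noncomputable def RR.aug {Y : RCells A} {G : RM A} (r : RR Y G) :
    GCHom (tY Y (regL A)) G.toGC where
  f := r.lin
  f_mem {k x} hx := by
    show (show Y.ι →₀ A.C from x).sum (fun σ a => rv G (r.v σ) a) ∈ G.gr k
    refine Submodule.sum_mem _ fun σ _ => ?_
    have := G.smul_mem (hx σ).1 (r.v_mem σ)
    rwa [show k - ((twY Y (regL A)).s σ : ℤ) + Y.s σ = k by
      show k - (Y.s σ : ℤ) + Y.s σ = k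
      ring] at this
  f_d x := r.lin_d x

theorem RR.aug_apply {Y : RCells A} {G : RM A} (r : RR Y G) (x : Y.ι →₀ A.C) (S : Finset Y.ι)
    (hS : x.support ⊆ S) : r.aug.f x = ∑ σ ∈ S, op (x σ) • r.v σ :=
  Finsupp.sum_of_support_subset x hS (fun σ a => rv G (r.v σ) a) fun σ _ => map_zero _

/-- **`Y ⊗ A → G` is a quasi-isomorphism** -/
theorem RR.qi {Y : RCells A} {G : RM A} (r : RR Y G) (lo : ∀ k : ℤ, k < 0 → G.gr k = ⊥) :
    QI r.aug where
  surj := by
    intro k y hy hd
    by_cases hk : k < 0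
    · rw [lo k hk] at hy
      refine ⟨0, Submodule.zero_mem _, map_zero _, 0, Submodule.zero_mem _, ?_⟩
      rw [(Submodule.mem_bot K).1 hy, map_zero, map_zero, add_zero]
    · obtain ⟨n, rfl⟩ := Int.eq_ofNat_of_zero_le (by omega : 0 ≤ k)
      obtain ⟨z, hz, hze, hzd, hzv⟩ := r.ex n (fun _ => 0) y (fun _ => Submodule.zero_mem _)
        (fun _ => mul_zero _) hy (fun τ => by simp) (by rw [hd]; simp)
      have hs := (fun σ h => (Finsupp.support_onFinset_subset
        (s := Y.F n) (f := z) (hf := fun σ h => (Y.mem_F n σ).2 (by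
          by_contra hc
          exact h (neg (hz σ) (by omega)))) h) :
        (fam Y.s Y.F Y.mem_F n z hz).support ⊆ Y.F n)
      refine ⟨fam Y.s Y.F Y.mem_F n z hz, fun σ => ⟨hz σ, hze σ⟩, ?_, 0, Submodule.zero_mem _, ?_⟩
      · refine Finsupp.ext fun τ => ?_
        refine ((twY Y (regL A)).dd_apply' _ (Y.F n) hs τ).trans ?_
        exact hzd τ
      · rw [map_zero, add_zero]
        exact hzv.symm.trans (r.aug_apply _ (Y.F n) hs).symm
  inj := by
    rintro k x hx hd ⟨z, hz, hxz⟩
    have hx' : ∀ σ, (show Y.ι →₀ A.C from x) σ ∈ A.G (k - Y.s σ) := fun σ => (hx σ).1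
    by_cases hk : k < 0
    · refine ⟨0, Submodule.zero_mem _, ?_⟩
      have : (show Y.ι →₀ A.C from x) = 0 := Finsupp.ext fun σ => neg (hx' σ) (by omega)
      refine Eq.trans this ?_
      exact (map_zero _).symm
    · obtain ⟨n, rfl⟩ := Int.eq_ofNat_of_zero_le (by omega : 0 ≤ k)
      have hs : (show Y.ι →₀ A.C from x).support ⊆ Y.F (n + 1) :=
        supp Y.mem_F (by push_cast; omega) hx'
      obtain ⟨y, hy, hye, hyd, _⟩ := r.ex (n + 1) (show Y.ι →₀ A.C from x) z
        (fun σ => by
          have := hx' σ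
          rwa [show ((n + 1 : ℕ) : ℤ) - 1 - Y.s σ = (n : ℤ) - Y.s σ by push_cast; ring])
        (fun σ => (hx σ).2) (by exact_mod_cast hz)
        (fun τ => by
          have hd' : (twY Y (regL A)).dd x = 0 := hd
          exact ((twY Y (regL A)).dd_apply' _ (Y.F (n + 1)) hs τ).symm.trans
            (DFunLike.congr_fun hd' τ))
        ((r.aug_apply _ (Y.F (n + 1)) hs).symm.trans hxz)
      have hsy := (fun σ h => (Finsupp.support_onFinset_subset
        (s := Y.F (n + 1)) (f := y) (hf := fun σ h => (Y.mem_F (n + 1) σ).2 (by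
          by_contra hc
          exact h (neg (hy σ) (by omega)))) h) :
        (fam Y.s Y.F Y.mem_F (n + 1) y hy).support ⊆ Y.F (n + 1))
      refine ⟨fam Y.s Y.F Y.mem_F (n + 1) y hy, fun σ => ⟨?_, hye σ⟩, ?_⟩
      · have := hy σ
        push_cast at this
        exact this
      · refine Finsupp.ext fun τ => ?_
        refine Eq.trans ?_ ((twY Y (regL A)).dd_apply' _ (Y.F (n + 1)) hsy τ).symm
        exact (hyd τ).symm

end aug

end Crest.Agent.R186.FrameRes830
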