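import Crest.Agent.R186.Glue2_255
import Crest.Agent.R186.KVc_186
import Crest.Agent.R186.VEnd_701
import Crest.Agent.R186.C2f_354

/-!
Row 186 (A), helper255: side conditions for the concrete objects.

* `NB π : LM (WR π).dga`, `NG π s hs : LM (wG π s hs).dga` : the module `V_{-1}`.
* `deg0_Vlm`, finiteness, `Nontrivial`, `evV`.
* `hP`, `hI` : `Γ → L''`, `L'' → Γ`;  `tG_NG`, `ExAt` for the dual of `NG`.
* `XB π : Pre (WR π).dga (NB π).X` (354's `X''`), `resXB`.
-/

set_option autoImplicit false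
set_option linter.style.haveILetI false
set_option linter.unusedSectionVars false

open MulOpposite

noncomputable section

namespace Crest.Agent.R186.Glue255

open Hat827 Hat827.DGA Frame515 Res255 SemiFree515 FinV988 Win810 DefsQ830 SM890 WL221 KH186
open KHc186

variable {K : Type} [Field K]

section gen

variable {w : WD K} (M : WMod w)

theorem deg0_Vlm : Deg0 (Vlm M) where
  top := fun (x : M.VM) => by
    have h : x ∈ (gr0 (K := K) M.VM 0) := mem_gr0.2 fun h => absurd rfl h
    exact h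
  bot := fun {k} {x} hx hk => by
    have h : (show M.VM from x) ∈ (gr0 (K := K) M.VM k) := hx
    exact mem_gr0.1 h hk

instance finVlm : Module.Finite K (Vlm M).X := inferInstanceAs (Module.Finite K M.VM)

theorem smul_zero_of (a : w.Win) (h : ∀ i j, M.rho (a.1 i j) = 0) (v : M.VM) : a • v = 0 := by
  apply M.vext
  intro i
  rw [WMod.smul_apply]
  refine Finset.sum_eq_zero fun j _ => ?_
  rw [h, LinearMap.zero_apply]

end gen

variable (π : Par K) (s : ℕ) (hs : 5 ≤ s)

/-- `V_{-1}` over `Γ`, window form -/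
abbrev MG : WMod (wG π s hs) := VX π s hs (hr π) (-1)
/-- `V_{-1}` over `Γ` -/
abbrev NG : LM (wG π s hs).dga := Vlm (MG π s hs)
/-- `V_{-1}` over `L''` -/
abbrev NB : LM (WR π).dga := Vlm (VR π (-1))

theorem two_le' {s : ℕ} (hs : 5 ≤ s) : 2 ≤ s := le_trans (by norm_num) hs

/-- `Γ → L''` -/
abbrev hP : Hm (wG π s hs).dga (WR π).dga := HmP π s (two_le' hs)
/-- `L'' → Γ` -/
abbrev hI : Hm (WR π).dga (wG π s hs).dga := HmI π s (two_le' hs)

theorem deg0_NB : Deg0 (NB π) := deg0_Vlm _
theorem deg0_NG : Deg0 (NG π s hs) := deg0_Vlm _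

instance ntNB : Nontrivial (NB π).X :=
  ⟨⟨(VEnd701.u π 0 : VEnd701.VM π), 0, VEnd701.u_ne 0⟩⟩
instance ntNG : Nontrivial (NG π s hs).X := ntNB π

/-- the smul of `Γ` on `V` is through `L''` -/
theorem NG_smul (a : (wG π s hs).dga.C) (v : (NB π).X) :
    (show (NB π).X from a • (show (NG π s hs).X from v)) = (hP π s hs).f a • v := rfl

/-- **`V` over `Γ` is the restriction of `V` over `L''`** -/
theorem NG_eq : NG π s hs = resL (hP π s hs) (NB π) := rfl

/-- **`ev` kills `V`** -/
theorem evV (y : (CEr π s hs).toIn.Y) (z : (CEr π s hs).toIn.Z) (v : (NG π s hs).X) :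
    (CEr π s hs).toIn.ev y z • v = 0 :=
  smul_zero_of (MG π s hs) (CE.evK (E := CEr π s hs) y z) (fun _ _ => map_zero (hr π).rho) v

/-- 354's `X''` -/
abbrev XB : Pre (WR π).dga (NB π).X := C2f354.pre π

/-- `X''` resolves `V` over `L''` -/
abbrev resXB : LRes (lpre (XB π)) (NB π) := lresN (NB π) (deg0_NB π) (XB π)

/-- cells of `V` over `Γ` -/
abbrev XG : Pre (wG π s hs).dga (NG π s hs).X := preN (NG π s hs)

/-- they resolve `V` over `Γ` -/
abbrev resXG : LRes (lpre (XG π s hs)) (NG π s hs) := lresN _ (deg0_NG π s hs) (XG π s hs)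

end Crest.Agent.R186.Glue255
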