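import Crest.Agent.R186.QB_735
import Crest.Agent.R186.WinR_810

/-!
# Row 186, half (A), leaf QB (helper735): the window layer

`TwD A B` : the abstract form of the `(A, B)`-bimodule `A ⊗ Q^*` (matrix `a q q' : B → A` of the right
action, `th q q' ∈ A` the twisting part of the differential).
`twR π : TwD (WR π).dga (WR π).dga`, killing the `W`-letters.
-/

set_option autoImplicit false

namespace Crest.Agent.R186.VQ735

open Crest.Agent.R186.DefsQ830 Crest.Agent.R186.Cells221 Crest.Agent.R186.Der580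
open Crest.Agent.R186.Hat827 Crest.Agent.R186.Win810
open Crest.Agent.R186.Loc261 (Lt li sc Q_ind wt Qc Qg prj)
open TensorProduct

variable {K : Type} [Field K]

/-- right action and differential of a bimodule `A ⊗ (coalgebra)` over `(A, B)`, in a basis -/
structure TwD (A B : DGA K) where
  β : Type
  [dec : DecidableEq β]
  qd : β → ℕ
  ln : β → ℕ
  ln_le : ∀ q, ln q ≤ qd q
  F : ℕ → Finset β
  mem_F : ∀ m q, q ∈ F m ↔ qd q ≤ m
  e : β
  ln_e : ∀ q, ln q = 0 ↔ q = e
  a : β → β → (B.C →ₗ[K] A.C)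
  th : β → β → A.C
  a_one : ∀ q q', a q q' 1 = if q = q' then 1 else 0
  a_mem : ∀ {k : ℤ} {x : B.C}, x ∈ B.G k → ∀ q q', a q q' x ∈ A.G (k + qd q - qd q')
  a_mul : ∀ (n : ℕ) (q q'' : β) (x y : B.C), qd q + B.N ≤ n →
    a q q'' (x * y) = ∑ q' ∈ F n, a q q' x * a q' q'' y
  a_lt : ∀ {q q' : β} (x : B.C), ln q' < ln q → a q q' x = 0
  a_ne : ∀ {q q' : β} (x : B.C), ln q' = ln q → q ≠ q' → a q q' x = 0
  th_mem : ∀ q q', th q q' ∈ A.G ((qd q : ℤ) - qd q' - 1)
  th_ne : ∀ {q q' : β}, ln q ≠ ln q' + 1 → th q q' = 0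
  th_D : ∀ q q', A.D (th q q') = 0
  th_th : ∀ (n : ℕ) (q q'' : β), qd q ≤ n → ∑ q' ∈ F n, th q q' * th q' q'' = 0
  a_D : ∀ (n : ℕ) (q q' : β) (x : B.C), qd q + B.N ≤ n →
    A.D (a q q' x) + ∑ q'' ∈ F n, (th q q'' * a q'' q' x + a q q'' x * th q'' q') = a q q' (B.D x)

attribute [instance] TwD.dec

/-! ### the basis element of content zero -/

variable (π : Par K)

instance : Nontrivial (Q π) := by
  let f : Q π →ₐ[K] K := Loc261.lft (lp π) (fun _ => (0 : K)) (by simp)
  refine ⟨⟨1, 0, fun h => ?_⟩⟩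
  have h2 := congrArg f h
  rw [map_one, map_zero] at h2
  exact one_ne_zero h2

theorem Qc_zero : Qc (lp π) 0 = Submodule.span K {1} := by
  apply le_antisymm
  · apply Loc261.Qc_le
    intro w hw
    have : w = [] := by simpa using hw
    subst this
    rw [Loc261.wp_nil]
    exact Submodule.subset_span rfl
  · rw [Submodule.span_le, Set.singleton_subset_iff]
    exact Loc261.wp_mem (lp π) []

theorem finrank_Qc_zero : Module.finrank K (Qc (lp π) 0) = 1 := by
  rw [Qc_zero]
  exact finrank_span_singleton one_ne_zero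

/-- the basis element of content zero -/
noncomputable def eo : Bt π := ⟨0, ⟨0, by rw [finrank_Qc_zero]; exact Nat.one_pos⟩⟩

theorem ln_eo (q : Bt π) : ln q = 0 ↔ q = eo π := by
  constructor
  · intro h
    obtain ⟨m, i⟩ := q
    have hm : m = 0 := Multiset.card_eq_zero.1 h
    subst hm
    unfold eo
    congr 1
    apply Fin.ext
    have h1 := i.2
    have h2 := finrank_Qc_zero π
    show (i : ℕ) = 0
    omega
  · rintro rfl
    rfl

/-! ### from the level of `S` to the window (generic) -/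

/-- twist data on a tri-graded differential algebra -/
structure TwS (w : WD K) where
  β : Type
  [dec : DecidableEq β]
  qd : β → ℕ
  ln : β → ℕ
  ln_le : ∀ q, ln q ≤ qd q
  F : ℕ → Finset β
  mem_F : ∀ m q, q ∈ F m ↔ qd q ≤ m
  e : β
  ln_e : ∀ q, ln q = 0 ↔ q = e
  a : β → β → (w.S →ₗ[K] w.S)
  t : β → β → w.S
  a_one : ∀ q q', a q q' 1 = if q = q' then 1 else 0
  a_q : ∀ {i j : w.Ob} {C : ℤ} {x : w.S}, x ∈ w.q i j C → ∀ q q', a q q' x ∈ w.q i j (C + qd q - qd q')
  a_mul : ∀ (n : ℕ) (q q'' : β) {i l : w.Ob} (x y : w.S), x ∈ w.E i l → qd q + w.N ≤ n →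
    a q q'' (x * y) = ∑ q' ∈ F n, a q q' x * a q' q'' y
  a_lt : ∀ {q q' : β} (x : w.S), ln q' < ln q → a q q' x = 0
  a_ne : ∀ {q q' : β} (x : w.S), ln q' = ln q → q ≠ q' → a q q' x = 0
  t_q : ∀ q q' (i : w.Ob), t q q' ∈ w.q i i ((qd q : ℤ) - qd q' - 1)
  t_ne : ∀ {q q' : β}, ln q ≠ ln q' + 1 → t q q' = 0
  t_D : ∀ q q', w.D (t q q') = 0
  t_t : ∀ (n : ℕ) (q q'' : β), qd q ≤ n → ∑ q' ∈ F n, t q q' * t q' q'' = 0
  a_D : ∀ (n : ℕ) (q q' : β) {i l : w.Ob} (x : w.S), x ∈ w.E i l → qd q + w.N ≤ n →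
    w.D (a q q' x) + ∑ q'' ∈ F n, (t q q'' * a q'' q' x + a q q'' x * t q'' q') = a q q' (w.D x)

attribute [instance] TwS.dec

namespace TwS

variable {w : WD K} (T : TwS w)

theorem a_E {i j : w.Ob} {x : w.S} (hx : x ∈ w.E i j) (q q' : T.β) : T.a q q' x ∈ w.E i j := by
  have : w.E i j ≤ (w.E i j).comap (T.a q q') :=
    iSup_le fun C => fun x hx => WD.q_le _ _ _ (T.a_q hx q q')
  exact this hx

/-- right action on the window -/
def aW (q q' : T.β) : w.Win →ₗ[K] w.Win where
  toFun m := ⟨Matrix.of fun i j => T.a q q' (m.1 i j), fun i j => T.a_E (m.2 i j) q q'⟩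
  map_add' a b := by
    apply Subtype.ext
    ext i j
    exact map_add (T.a q q') _ _
  map_smul' r a := by
    apply Subtype.ext
    ext i j
    exact map_smul (T.a q q') _ _

theorem aW_apply (q q' : T.β) (m : w.Win) (i j : w.Ob) :
    (T.aW q q' m).1 i j = T.a q q' (m.1 i j) := rfl

/-- the twisting part of the differential on the window -/
def thW (q q' : T.β) : w.Win :=
  ⟨Matrix.diagonal fun _ => T.t q q', fun i j => by
    rw [Matrix.diagonal_apply]
    split_ifs with h
    · subst h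
      exact WD.q_le _ _ _ (T.t_q q q' i)
    · exact Submodule.zero_mem _⟩

theorem thW_apply (q q' : T.β) (i j : w.Ob) :
    (T.thW q q').1 i j = if i = j then T.t q q' else 0 := by
  show Matrix.diagonal (fun _ => T.t q q') i j = _
  rw [Matrix.diagonal_apply]

theorem thW_mul (q q' : T.β) (m : w.Win) (i j : w.Ob) :
    (T.thW q q' * m).1 i j = T.t q q' * m.1 i j := by
  show ((T.thW q q').1 * m.1) i j = _
  exact Matrix.diagonal_mul _ _ _ _

theorem mul_thW (q q' : T.β) (m : w.Win) (i j : w.Ob) :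
    (m * T.thW q q').1 i j = m.1 i j * T.t q q' := by
  show (m.1 * (T.thW q q').1) i j = _
  exact Matrix.mul_diagonal _ _ _ _

theorem wsum {κ : Type} (s : Finset κ) (f : κ → w.Win) (i j : w.Ob) :
    (∑ k ∈ s, f k).1 i j = ∑ k ∈ s, (f k).1 i j := by
  classical
  induction s using Finset.induction_on with
  | empty => rfl
  | insert a s ha ih =>
    rw [Finset.sum_insert ha, Finset.sum_insert ha, ← ih]
    rfl

theorem wmul (x y : w.Win) (i j : w.Ob) : (x * y).1 i j = ∑ l, x.1 i l * y.1 l j := by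
  show (x.1 * y.1) i j = _
  exact Matrix.mul_apply

theorem wadd (x y : w.Win) (i j : w.Ob) : (x + y).1 i j = x.1 i j + y.1 i j := rfl

theorem one_W (q q' : T.β) : T.aW q q' (1 : w.Win) = if q = q' then 1 else 0 := by
  apply Subtype.ext
  ext i j
  rw [aW_apply]
  have e : (1 : w.Win).1 i j = if i = j then 1 else 0 := Matrix.one_apply
  rw [e]
  by_cases hij : i = j
  · rw [if_pos hij, T.a_one]
    split_ifs with h
    · rw [e, if_pos hij]
    · rfl
  · rw [if_neg hij, map_zero]
    split_ifs with h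
    · rw [e, if_neg hij]
    · rfl

theorem mul_W (n : ℕ) (q q'' : T.β) (x y : w.Win) (hn : T.qd q + w.N ≤ n) :
    T.aW q q'' (x * y) = ∑ q' ∈ T.F n, T.aW q q' x * T.aW q' q'' y := by
  apply Subtype.ext
  ext i j
  rw [aW_apply, wmul, map_sum, wsum]
  simp only [wmul, aW_apply]
  rw [Finset.sum_comm]
  exact Finset.sum_congr rfl fun l _ => T.a_mul n q q'' _ _ (x.2 i l) hn

theorem tt_W (n : ℕ) (q q'' : T.β) (hn : T.qd q ≤ n) :
    ∑ q' ∈ T.F n, T.thW q q' * T.thW q' q'' = 0 := by
  apply Subtype.ext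
  ext i j
  rw [wsum]
  simp only [thW_mul, thW_apply]
  by_cases hij : i = j
  · simp only [if_pos hij]
    exact T.t_t n q q'' hn
  · simp only [if_neg hij, mul_zero, Finset.sum_const_zero]
    rfl

theorem aD_W (n : ℕ) (q q' : T.β) (x : w.Win) (hn : T.qd q + w.N ≤ n) :
    w.DW (T.aW q q' x) + ∑ q'' ∈ T.F n, (T.thW q q'' * T.aW q'' q' x + T.aW q q'' x * T.thW q'' q')
      = T.aW q q' (w.DW x) := by
  apply Subtype.ext
  ext i j
  rw [wadd, wsum]
  simp only [wadd, thW_mul, mul_thW, aW_apply, WD.DW_apply]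
  exact T.a_D n q q' _ (x.2 i j) hn

/-- the window version -/
def toD : TwD w.dga w.dga where
  β := T.β
  qd := T.qd
  ln := T.ln
  ln_le := T.ln_le
  F := T.F
  mem_F := T.mem_F
  e := T.e
  ln_e := T.ln_e
  a := T.aW
  th := T.thW
  a_one := T.one_W
  a_mem := by
    intro k x hx q q' i j
    exact T.a_q (hx i j) q q'
  a_mul n q q'' x y hn := T.mul_W n q q'' x y hn
  a_lt := by
    intro q q' x h
    apply Subtype.ext
    ext i j
    exact T.a_lt _ h
  a_ne := by
    intro q q' x h h'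
    apply Subtype.ext
    ext i j
    exact T.a_ne _ h h'
  th_mem q q' := by
    intro i j
    rw [thW_apply]
    split_ifs with h
    · subst h
      exact T.t_q q q' i
    · exact Submodule.zero_mem _
  th_ne := by
    intro q q' h
    apply Subtype.ext
    ext i j
    rw [thW_apply, T.t_ne h, ite_self]
    rfl
  th_D q q' := by
    apply Subtype.ext
    ext i j
    show w.D ((T.thW q q').1 i j) = 0
    rw [thW_apply]
    split_ifs
    · exact T.t_D q q'
    · exact map_zero _
  th_th n q q'' hn := T.tt_W n q q'' hn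
  a_D n q q' x hn := T.aD_W n q q' x hn

end TwS

/-! ### the instance -/

theorem pz_eq_pcZ (P A C : ℤ) : pz π P A C = pcZ π P A C := by
  by_cases h : 0 ≤ A ∧ 0 ≤ C
  · obtain ⟨A, rfl⟩ := Int.eq_ofNat_of_zero_le h.1
    obtain ⟨C, rfl⟩ := Int.eq_ofNat_of_zero_le h.2
    rw [pcZ_nat]
    exact pz_eq_pc π P A C
  · rw [pcZ_neg π (by omega)]
    by_cases hA : A < 0
    · exact pz_negA π hA
    · exact pz_neg π (by omega)

/-- matrix of the right action on `R''` -/
noncomputable def aR (q q' : Bt π) : R π →ₗ[K] R π := (cA π q q').comp (Dl π).toLinearMap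

theorem aR_apply (q q' : Bt π) (r : R π) : aR π q q' r = cA π q q' (Dl π r) := rfl

theorem aR_pcZ {P A C : ℤ} {x : R π} (hx : x ∈ pcZ π P A C) (q q' : Bt π) :
    aR π q q' x ∈ pcZ π P A (C + qd q - qd q') := by
  rw [← pz_eq_pcZ] at hx
  have h2 := cA_pz π (Dl_G2 π hx) q q'
  rw [pz_eq_pcZ] at h2
  exact h2

theorem E_LC {i j : (WR π).Ob} {x : R π} (hx : x ∈ (WR π).E i j) (q : Bt π) {n : ℕ}
    (hn : qd q + 8 ≤ n) : Dl π x ∈ LC π q (Bq π n) := by
  have h0 := hx
  rw [WD.E_eq] at h0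
  have : (⨆ C : Fin ((WR π).N + 1), (WR π).q i j (C : ℕ)) ≤
      ((LC π q (Bq π n)).comap (Dl π).toLinearMap : Submodule K (R π)) := by
    refine iSup_le fun C => fun x hx => ?_
    have h : x ∈ pz π ((WR π).P i - (WR π).P j) ((WR π).A i - (WR π).A j) ((C : ℕ) : ℤ) := by
      rw [pz_eq_pcZ]; exact hx
    refine G2_LC π (Dl_G2 π h) q _ fun q' hq' => ?_
    rw [mem_Bq]
    have hC : (C : ℕ) < 8 + 1 := C.2
    omega
  exact this h0

theorem th_LC (q : Bt π) {n : ℕ} (hn : qd q ≤ n) : th π ∈ LC π q (Bq π n) := by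
  refine G2_LC π (th_G2 π) q _ fun q' hq' => ?_
  rw [mem_Bq]
  omega

theorem aR_one (q q' : Bt π) : aR π q q' 1 = if q = q' then 1 else 0 := by
  rw [aR_apply, map_one]
  show cA π q q' ((1 : R π) ⊗ₜ[K] (1 : Module.End K (Q π))) = _
  rw [cA_tmul, coef_one]
  split_ifs <;> simp

theorem aR_mul (n : ℕ) (q q'' : Bt π) {i l : (WR π).Ob} (x y : R π) (hx : x ∈ (WR π).E i l)
    (hn : qd q + 8 ≤ n) : aR π q q'' (x * y) = ∑ q' ∈ Bq π n, aR π q q' x * aR π q' q'' y := by
  rw [aR_apply, map_mul]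
  exact cA_mul_left π q q'' _ (E_LC π hx q hn) (Dl π y)

/-- **the twist data of `R''`** -/
noncomputable def twS : TwS (WR π) where
  β := Bt π
  qd := qd
  ln := ln
  ln_le := ln_le π
  F := Bq π
  mem_F m q := mem_Bq π
  e := eo π
  ln_e := ln_eo π
  a := aR π
  t q q' := cA π q q' (th π)
  a_one := aR_one π
  a_q := by
    intro i j C x hx q q'
    exact aR_pcZ π hx q q'
  a_mul := by
    intro n q q'' i l x y hx hn
    exact aR_mul π n q q'' x y hx hn
  a_lt x h := cA_Dl_lt π _ h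
  a_ne x h h' := cA_Dl_ne π _ h h'
  t_q q q' i := by
    have h := cA_pz π (th_G2 π) q q'
    rw [pz_eq_pcZ] at h
    show cA π q q' (th π) ∈ pcZ π ((i.1.val : ℤ) - i.1.val) ((i.2.val : ℤ) - i.2.val) _
    rw [sub_self, sub_self, show (qd q : ℤ) - qd q' - 1 = -1 + qd q - qd q' by ring]
    exact h
  t_ne h := cA_th_ne π h
  t_D q q' := by
    show Der580.D π (cA π q q' (th π)) = 0
    rw [← cA_DA, DA_th, map_zero]
  t_t n q q'' hn := by
    have h := cA_mul_left π q q'' _ (th_LC π q hn) (th π)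
    rw [th_th, map_zero] at h
    exact h.symm
  a_D := by
    intro n q q' i l x hx hn
    have h1 := cA_mul_left π q q' _ (th_LC π q (n := n) (le_trans (Nat.le_add_right _ _) hn)) (Dl π x)
    have h2 := cA_mul_left π q q' _ (E_LC π hx q (n := n) hn) (th π)
    have h3 := congrArg (cA π q q') (Dl_D π x)
    rw [map_add, map_add, cA_DA, h1, h2, ← Finset.sum_add_distrib] at h3
    exact h3

/-- **the twist data of `R''` in the window** -/
noncomputable def twR : TwD (WR π).dga (WR π).dga := (twS π).toD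

/-! ### descent along a surjection -/

/-- twist data descend along a surjection of dg algebras whose kernel is killed by all `a q q'` -/
noncomputable def TwD.desc {A B B' : DGA K} (T : TwD A B) (p : B.C →ₐ[K] B'.C)
    (hG : ∀ k, ∀ y ∈ B'.G k, ∃ x ∈ B.G k, p x = y) (hs : Function.Surjective p)
    (hD : ∀ x, p (B.D x) = B'.D (p x)) (hN : B'.N = B.N)
    (hk : ∀ q q' x, p x = 0 → T.a q q' x = 0) : TwD A B' :=
  have key : ∀ q q' x y, p x = p y → T.a q q' x = T.a q q' y := fun q q' x y h => by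
    have h1 : p (x - y) = 0 := by rw [map_sub, h, sub_self]
    have h2 := hk q q' _ h1
    rw [map_sub, sub_eq_zero] at h2
    exact h2
  have sp : ∀ y, p (Function.surjInv hs y) = y := Function.surjInv_eq hs
  { β := T.β
    qd := T.qd
    ln := T.ln
    ln_le := T.ln_le
    F := T.F
    mem_F := T.mem_F
    e := T.e
    ln_e := T.ln_e
    a := fun q q' =>
      { toFun := fun y => T.a q q' (Function.surjInv hs y)
        map_add' := fun y z => by
          rw [← map_add]
          apply key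
          rw [sp, map_add, sp, sp]
        map_smul' := fun c y => by
          rw [RingHom.id_apply, ← map_smul]
          apply key
          rw [sp, map_smul, sp] }
    th := T.th
    a_one := fun q q' => by
      show T.a q q' _ = _
      rw [← T.a_one, key q q' _ 1]
      rw [sp, map_one]
    a_mem := fun {k y} hy q q' => by
      obtain ⟨x, hx, hxy⟩ := hG k y hy
      show T.a q q' _ ∈ _
      rw [key q q' _ x (by rw [sp, hxy])]
      exact T.a_mem hx q q'
    a_mul := fun n q q'' x y hn => by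
      show T.a q q'' _ = ∑ q' ∈ T.F n, T.a q q' _ * T.a q' q'' _
      rw [← T.a_mul n q q'' _ _ (by rw [← hN]; exact hn)]
      apply key
      rw [sp, map_mul, sp, sp]
    a_lt := fun x h => T.a_lt _ h
    a_ne := fun x h h' => T.a_ne _ h h'
    th_mem := T.th_mem
    th_ne := T.th_ne
    th_D := T.th_D
    th_th := T.th_th
    a_D := fun n q q' x hn => by
      show A.D (T.a q q' _) + ∑ q'' ∈ T.F n, (T.th q q'' * T.a q'' q' _ + T.a q q'' _ * T.th q'' q')
        = T.a q q' _
      rw [T.a_D n q q' _ (by rw [← hN]; exact hn)]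
      apply key
      rw [hD, sp, sp] }

theorem TwD.desc_a {A B B' : DGA K} (T : TwD A B) (p : B.C →ₐ[K] B'.C)
    (hG : ∀ k, ∀ y ∈ B'.G k, ∃ x ∈ B.G k, p x = y) (hs : Function.Surjective p)
    (hD : ∀ x, p (B.D x) = B'.D (p x)) (hN : B'.N = B.N)
    (hk : ∀ q q' x, p x = 0 → T.a q q' x = 0) (q q' : T.β) (x : B.C) :
    (T.desc p hG hs hD hN hk).a q q' (p x) = T.a q q' x := by
  show T.a q q' _ = _
  have h1 : p (Function.surjInv hs (p x) - x) = 0 := by
    rw [map_sub, Function.surjInv_eq hs, sub_self]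
  have h2 := hk q q' _ h1
  rw [map_sub, sub_eq_zero] at h2
  exact h2

/-! ### left cells -/

/-- cells over `B` give cells over `A`: the attaching elements of `Q ⊗_B X` -/
def TwD.cq {A B : DGA K} (T : TwD A B) {ι : Type} [DecidableEq ι] (c : ι → ι → B.C)
    (σ τ : T.β × ι) : A.C :=
  T.a σ.1 τ.1 (c σ.2 τ.2) + if σ.2 = τ.2 then T.th σ.1 τ.1 else 0

end Crest.Agent.R186.VQ735
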