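import Crest.Agent.R186.C2h_667
import Crest.Agent.R186.TwD_735
import Crest.Agent.R186.WL_221

/-!
# Row 186, half (A) (helper667): C2a at window level

`HAw` : acyclicity of `ker (L'' ⊗ Q^* → L)` for the window algebra `(WR π).dga`, entrywise from
`C2a667.HA`, in the form of the field `HA` of 84's `QBi`.
-/

set_option autoImplicit false

noncomputable section

namespace Crest.Agent.R186.C2a667

open Crest.Agent.R186.DefsQ830
open Crest.Agent.R186.Win810
open Crest.Agent.R186.C2b44 (kill)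
open Crest.Agent.R186.WL221 (prW prW_apply prL prL_eq_zero)
open Crest.Agent.R186.VQ735 (pz Bt Bq mem_Bq cA th twS twR eo ln_eo pz_eq_pcZ)

variable {K : Type} [Field K] (π : Par K)

/-- entries -/
def ent (m : (WR π).Win) (i j : (WR π).Ob) : R π := m.1 i j

/-- **C2a at window level** (any finite set of indices containing the relevant ones) -/
theorem HAw' {n : ℤ} (B : Finset (Bt π)) (hB : ∀ b : Bt π, (VQ735.qd b : ℤ) ≤ n + 1 → b ∈ B)
    (k : Bt π → (WR π).Win) (hk : ∀ q, k q ∈ (WR π).G (n - VQ735.qd q))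
    (hc : ∀ q', (WR π).DW (k q') + ∑ q ∈ B, k q * (twS π).thW q q' = 0)
    (he : prW π (k (eo π)) = 0) :
    ∃ y : Bt π → (WR π).Win, (∀ q, y q ∈ (WR π).G (n + 1 - VQ735.qd q)) ∧
      prW π (y (eo π)) = 0 ∧
      ∀ q', k q' = (WR π).DW (y q') + ∑ q ∈ B, y q * (twS π).thW q q' := by
  have hmul : ∀ (x : Bt π → (WR π).Win) (q' : Bt π) (i j : (WR π).Ob),
      ((WR π).DW (x q') + ∑ q ∈ B, x q * (twS π).thW q q').1 i j =
        (Der580.D π (ent π (x q') i j) + ∑ q ∈ B, ent π (x q) i j * cA π q q' (th π) : R π) := by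
    intro x q' i j
    rw [VQ735.TwS.wadd, VQ735.TwS.wsum, WD.DW_apply]
    congr 1
    exact Finset.sum_congr rfl fun q _ => (twS π).mul_thW q q' (x q) i j
  have key : ∀ i j : (WR π).Ob, ∃ y : Bt π → R π,
      (∀ b, y b ∈ pz π ((WR π).P i - (WR π).P j) ((WR π).A i - (WR π).A j) (n + 1 - VQ735.qd b)) ∧
      (∀ b : Bt π, b.1 = 0 → kill π (y b) = 0) ∧
      ∀ b', ent π (k b') i j = Der580.D π (y b') + ∑ b ∈ B, y b * cA π b b' (th π) := by
    intro i j
    refine HA π B hB (fun q => ent π (k q) i j) ?_ ?_ ?_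
    · intro q
      rw [pz_eq_pcZ]
      exact hk q i j
    · intro q'
      have h := congrArg (fun m : (WR π).Win => m.1 i j) (hc q')
      rw [← hmul k q' i j]
      exact h
    · intro b hb
      have hbe : b = eo π := (ln_eo π b).1 (by unfold VQ735.ln; rw [hb]; rfl)
      subst hbe
      have h := congrArg (fun m : (WL221.WL π).Win => m.1 i j) he
      exact prL_eq_zero.1 h
  choose y hy hy0 hyk using key
  have hyc : ∀ (q : Bt π) (i j : (WR π).Ob), y i j q ∈ (WR π).q i j (n + 1 - VQ735.qd q) := by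
    intro q i j
    have h := hy i j q
    rw [pz_eq_pcZ] at h
    exact h
  let Y : Bt π → (WR π).Win := fun q =>
    ⟨Matrix.of fun i j => y i j q, fun i j => WD.q_le i j _ (hyc q i j)⟩
  refine ⟨Y, fun q i j => hyc q i j, ?_, ?_⟩
  · apply Subtype.ext
    ext i j : 2
    exact prL_eq_zero.2 (hy0 i j (eo π) rfl)
  · intro q'
    apply Subtype.ext
    ext i j : 2
    exact (hyk i j q').trans (hmul Y q' i j).symm

/-- **C2a at window level**, `n : ℕ`, with 735's finite sets `Bq` -/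
theorem HAw {n : ℕ} (k : Bt π → (WR π).Win) (hk : ∀ q, k q ∈ (WR π).G ((n : ℤ) - VQ735.qd q))
    (hc : ∀ q', (WR π).DW (k q') + ∑ q ∈ Bq π n, k q * (twS π).thW q q' = 0)
    (he : prW π (k (eo π)) = 0) :
    ∃ y : Bt π → (WR π).Win, (∀ q, y q ∈ (WR π).G ((n : ℤ) + 1 - VQ735.qd q)) ∧
      prW π (y (eo π)) = 0 ∧
      ∀ q', k q' = (WR π).DW (y q') + ∑ q ∈ Bq π (n + 1), y q * (twS π).thW q q' := by
  refine HAw' π (Bq π (n + 1)) (fun b hb => (mem_Bq π).2 (by omega)) k hk ?_ he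
  intro q'
  rw [← hc q']
  congr 1
  symm
  refine Finset.sum_subset (fun b hb => (mem_Bq π).2 (by have := (mem_Bq π).1 hb; omega)) ?_
  intro b hb hb'
  have h1 : ¬ VQ735.qd b ≤ n := fun h => hb' ((mem_Bq π).2 h)
  have h2 : k b = 0 := by
    apply Subtype.ext
    ext i j : 2
    have h := hk b i j
    rw [show (WR π).q i j ((n : ℤ) - VQ735.qd b) = ⊥ from (WR π).neg i j _ (by omega)] at h
    exact (Submodule.mem_bot K).1 h
  rw [h2, zero_mul]

/-- the same for the window differential algebra and the twist data `twR` -/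
theorem HAwD {n : ℕ} (k : (twR π).β → (WR π).dga.C)
    (hk : ∀ q, k q ∈ (WR π).dga.G ((n : ℤ) - (twR π).qd q))
    (hc : ∀ q', (WR π).dga.D (k q') + ∑ q ∈ (twR π).F n, k q * (twR π).th q q' = 0)
    (he : prW π (k (twR π).e) = 0) :
    ∃ y : (twR π).β → (WR π).dga.C, (∀ q, y q ∈ (WR π).dga.G ((n : ℤ) + 1 - (twR π).qd q)) ∧
      prW π (y (twR π).e) = 0 ∧
      ∀ q', k q' = (WR π).dga.D (y q') + ∑ q ∈ (twR π).F (n + 1), y q * (twR π).th q q' :=
  HAw π k hk hc he

end Crest.Agent.R186.C2a667
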