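import Crest.Agent.R186.HBz_362
import Crest.Agent.R186.KHevB_302
import Crest.Agent.R186.ConeHyp_462

/-!
Row 186 (A), (H) (helper362): the field `H` of 384's `HIn` from the acyclicity of `H ⊗ X`.
-/

set_option autoImplicit false
set_option linter.style.haveILetI false
set_option linter.unusedSectionVars false
set_option linter.unusedSimpArgs false

namespace Crest.Agent.R186.HB362

open Hat827 Win810 KHev302 Frame515 MulOpposite Adapt186 Zig498 ConeHyp462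

variable {K : Type} [Field K]

/-- the left cells of `PCells` -/
def lcP {A : DGA K} (X : PCells A) : LCells A where
  ι := X.ι
  s := X.s
  F := X.F
  mem_F := X.mem_F
  e := X.e
  e_mem := X.e_mem
  e_idem := X.e_idem
  c := X.c
  c_mem := X.c_mem
  c_left := X.c_left
  c_right := X.c_right
  mc := X.mc

variable {w : WD K} {E : CE w}

/-- **the field `HIn.H` of 384, abstractly in a system of left cells** -/
theorem hin_cells (X : LCells w.dga) (h : Ac (tG (HM E) X)) (m : ℕ) (y : X.ι → E.H)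
    (hy : ∀ σ, y σ ∈ E.gH.G ((m : ℤ) - X.s σ)) (he : ∀ σ, CE.RH (X.e σ) (y σ) = y σ)
    (hd : ∀ τ, CE.dH (y τ) + ∑ σ ∈ X.F m, CE.RH (X.c σ τ) (y σ) = 0) :
    ∃ z : X.ι → E.H, (∀ σ, z σ ∈ E.gH.G ((m : ℤ) + 1 - X.s σ)) ∧
      (∀ σ, CE.RH (X.e σ) (z σ) = z σ) ∧
      ∀ τ, y τ = CE.dH (z τ) + ∑ σ ∈ X.F (m + 1), CE.RH (X.c σ τ) (z σ) := by
  classical
  have hneg : ∀ (k : ℤ), k < 0 → ∀ η : E.H, η ∈ E.gH.G k → η = 0 := by
    intro k hk η hη
    rw [← E.gH.total η]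
    refine Finset.sum_eq_zero fun j _ => ?_
    rw [← E.gH.mem_G.1 hη]
    exact E.gH.pr_ne _ _ _ (by omega)
  have hy0 : ∀ σ, σ ∉ X.F m → y σ = 0 := fun σ hσ => by
    have h1 := (not_congr (X.mem_F m σ)).1 hσ
    exact hneg _ (by omega) _ (hy σ)
  let u : X.ι →₀ E.H := Finsupp.onFinset (X.F m) y fun σ hσ => by
    by_contra hc
    exact hσ (hy0 σ hc)
  have hu : ∀ σ, u σ = y σ := fun σ => rfl
  have hug : u ∈ (tG (HM E) X).gr (m : ℤ) := fun σ => ⟨hy σ, he σ⟩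
  have hud : dHX E X u = 0 := by
    ext τ : 1
    rw [dHX_apply' u (X.F m) Finsupp.support_onFinset_subset]
    exact hd τ
  obtain ⟨v, hv, hdv⟩ := h m u hug hud
  have hv' : ∀ σ, v σ ∈ E.gH.G ((m : ℤ) + 1 - X.s σ) ∧ CE.RH (X.e σ) (v σ) = v σ := hv
  have hdv' : dHX E X v = u := hdv
  refine ⟨v, fun σ => (hv' σ).1, fun σ => (hv' σ).2, fun τ => ?_⟩
  have hs : (show X.ι →₀ E.H from v).support ⊆ X.F (m + 1) := by
    intro σ hσ
    by_contra hc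
    have h1 := (not_congr (X.mem_F (m + 1) σ)).1 hc
    exact (Finsupp.mem_support_iff.1 hσ) (hneg _ (by omega) _ (hv' σ).1)
  have h2 := DFunLike.congr_fun hdv' τ
  rw [dHX_apply' v (X.F (m + 1)) hs] at h2
  exact h2.symm

/-- **the field `HIn.H` of 384, literally** -/
theorem hin_H (X : PCells w.dga) (h : Ac (tG (HM E) (lcP X))) :
    ∀ (m : ℕ) (y : X.ι → E.toIn.Z), (∀ σ, y σ ∈ E.toIn.gs.G ((m : ℤ) - X.s σ)) →
    (∀ σ, E.toIn.Rr (X.e σ) (y σ) = y σ) →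
    (∀ τ, E.toIn.dZ (y τ) + ∑ σ ∈ X.F m, E.toIn.Rr (X.c σ τ) (y σ) = 0) →
    ∃ z : X.ι → E.toIn.Z, (∀ σ, z σ ∈ E.toIn.gs.G ((m : ℤ) + 1 - X.s σ)) ∧
      (∀ σ, E.toIn.Rr (X.e σ) (z σ) = z σ) ∧
      ∀ τ, y τ = E.toIn.dZ (z τ) + ∑ σ ∈ X.F (m + 1), E.toIn.Rr (X.c σ τ) (z σ) :=
  fun m y hy he hd => hin_cells (lcP X) h m y hy he hd

end Crest.Agent.R186.HB362
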