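import Crest.Agent.R186.DSq4_384
import Crest.Agent.R186.EndF_448
import Crest.Agent.R186.SqI_186

/-!
Row 186 (A), leaf hD (helper186): `HD` of helper448's `EndF_448` from the two quasi-isomorphisms
`Y ⊗ Γ → D(Γ)` (`f1`) and `Y ⊗ KK → D(H)` (`bβ`).
-/

set_option autoImplicit false
set_option linter.style.haveILetI false
set_option linter.unusedSectionVars false

noncomputable section

open MulOpposite

namespace Crest.Agent.R186.HD186

open Hat827 Hat827.DGA Frame515 TB143 Res255 Adapt186 ConeHyp462 FinV988 FinD988 DSq384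

variable {K : Type} [Field K]

/-! ### from `T` to `gD` -/

section gen

variable {A : DGA K} {I : In A} {X : PCells A}

/-- helper384's lift -/
def ktOf (kt : X.ι → I.Y) (hk : ∀ σ, kt σ ∈ I.gr.G (X.s σ))
    (he : ∀ σ, I.L (X.e σ) (kt σ) = kt σ) (hd : KtD I X kt) : Kt I (lc X) where
  kt := kt
  deg := hk
  e := he
  d := hd

theorem gx_iff (n m : ℤ) (x : X.ι →₀ (A.C →ₗ[K] K)) :
    x ∈ (tG (DL (sL A) n) (lc X)).gr (m - n) ↔ x ∈ (tG (DR (selfL A)) (lpc X)).gr m := by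
  constructor
  · intro h σ
    refine ⟨fun l z hz hl => (h σ).1 l z hz ?_, (h σ).2⟩
    have hl' : l ≠ -(m - (X.s σ : ℤ)) := hl
    change l ≠ -(m - n - (X.s σ : ℤ) + n)
    omega
  · intro h σ
    refine ⟨fun l z hz hl => (h σ).1 l z hz ?_, (h σ).2⟩
    have hl' : l ≠ -(m - n - (X.s σ : ℤ) + n) := hl
    change l ≠ -(m - (X.s σ : ℤ))
    omega

theorem gz_iff (n m : ℤ) (φ : I.Z →ₗ[K] K) :
    φ ∈ (DH I n).gr (m - n) ↔ φ ∈ (DZc I).gr m := by
  constructor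
  · intro h l z hz hl
    exact h l z hz (by omega)
  · intro h l z hz hl
    exact h l z hz (by omega)

/-- `T` is `gD` -/
theorem gD_qi (kt : X.ι → I.Y) (hk : ∀ σ, kt σ ∈ I.gr.G (X.s σ))
    (he : ∀ σ, I.L (X.e σ) (kt σ) = kt σ) (hd : KtD I X kt) {n : ℤ}
    (h : QI (T (ktOf kt hk he hd) n)) : QI (gD I X kt hk hd) := by
  refine ⟨fun m y hy hdy => ?_, fun m x hx hdx ⟨z, hz, e⟩ => ?_⟩
  · obtain ⟨x, hx, hdx, z, hz, e⟩ := h.surj (m - n) y ((gz_iff n m y).2 hy) hdy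
    refine ⟨x, (gx_iff n m x).1 hx, hdx, z, (gz_iff n (m + 1) z).1 ?_, e⟩
    exact gr_cast hz (by ring)
  · obtain ⟨w, hw, e'⟩ := h.inj (m - n) x ((gx_iff n m x).2 hx) hdx
      ⟨z, gr_cast ((gz_iff n (m + 1) z).2 hz) (by ring), e⟩
    refine ⟨w, (gx_iff n (m + 1) w).1 ?_, e'⟩
    exact gr_cast hw (by ring)

end gen

/-! ### on the concrete objects -/

open Win810 DefsQ830 SM890 KH186 SemiFree515 EndA448 EndV448 EndB448 EndF448 KHc186 SqI186

variable {π : Par K} {s : ℕ} {hs : 5 ≤ s}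

/-- the augmentation of the sixteen cells, onto `VG` -/
def aL (π : Par K) (s : ℕ) (hs : 5 ≤ s) : (KKl (IG π s hs)).X →ₗ[K] (VG π s hs).X :=
  (kresC π s hs).aug

theorem aL_ne {k : ℤ} {x : (KKl (IG π s hs)).X} (hx : x ∈ (KKl (IG π s hs)).gr k) (hk : k ≠ 0) :
    aL π s hs x = 0 := (kresC π s hs).aug_deg hk hx

theorem aL_d (x : (KKl (IG π s hs)).X) : aL π s hs ((KKl (IG π s hs)).d x) = 0 :=
  (kresC π s hs).aug_d x

theorem aL_L (g : (Gam π s hs).C) (x : (IG π s hs).Y) :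
    aL π s hs ((IG π s hs).L g x) = g • aL π s hs x := (kresC π s hs).aug_L g x

theorem aL_onto (v : (VG π s hs).X) : ∃ y ∈ (IG π s hs).gr.G 0, aL π s hs y = v :=
  (kresC π s hs).aug_surj v

theorem aL_ex (n : ℤ) (y : (IG π s hs).Y) (hy : y ∈ (IG π s hs).gr.G n)
    (hd : (IG π s hs).dY y = 0) (h : n = 0 → aL π s hs y = 0) :
    ∃ y' ∈ (IG π s hs).gr.G (n + 1), y = (IG π s hs).dY y' := (kresC π s hs).aug_ex hy hd h

/-- the augmentation as a morphism -/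
def aG (π : Par K) (s : ℕ) (hs : 5 ≤ s) : GCHom (KKl (IG π s hs)).toGC (VG π s hs).toGC where
  f := aL π s hs
  f_mem {k x} hx := by
    by_cases hk : k = 0
    · subst hk
      exact (deg0_VG π s hs).top _
    · rw [aL_ne hx hk]
      exact Submodule.zero_mem _
  f_d x := (aL_d x).trans ((deg0_VG π s hs).d _).symm

theorem aG_qi (π : Par K) (s : ℕ) (hs : 5 ≤ s) : QI (aG π s hs) :=
  aug_qi (VG π s hs) (fun _ hj _ hv => (deg0_VG π s hs).bot hv hj) (deg0_VG π s hs).d (aG π s hs)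
    aL_onto (fun n _ y hy hd h => aL_ex n y hy hd h) fun _ hj _ hy => KX378.G_neg hj hy

/-- **`HD` from the two quasi-isomorphisms** -/
theorem HD_of (hV : PV π s hs) {Y : RCells (WR π).dga} {n : ℤ} (V : VF Y (SG π s hs).M.toLM n)
    (h1 : QI (Sq.f1 V).toGCHom) (h3 : QI (V.pm ((SG π s hs).bβ (IG π s hs)))) : HD hV := by
  intro kt hk hd he hv
  have e : QI (gKH (ktOf kt hk he hd)) :=
    gKH_qi _ (RX π s hs) rfl (aG π s hs) (aG_qi π s hs) aL_L hv
  exact gD_qi kt hk he hd (n := n) (Sq.T_qi (S := SG π s hs) _ V h1 (f2_qi _ (SG π s hs) e) h3)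

/-- **`HD` from the leaves** (c), (d), (f) -/
theorem HD_of3 (hV : PV π s hs) {Y : RCells (WR π).dga} {n : ℤ} (V : VF Y (SG π s hs).M.toLM n)
    (h0 : QI (V.pm (SG π s hs).b0)) (h1 : QI (V.pm (SG π s hs).b1))
    (h3 : QI (V.pm ((SG π s hs).bβ (IG π s hs)))) : HD hV :=
  HD_of hV V (Sq.f1_qi V h0 h1) h3

/-- **`HD` from a resolution of `D(M)`** and (d), (f) -/
theorem HD_ofR (hV : PV π s hs) {Y : RCells (WR π).dga}
    (R : RRes Y (Dual560.LMd (SG π s hs).M.toLM))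
    (h1 : QI ((VF.ofAug R.toRAug).pm (SG π s hs).b1))
    (h3 : QI ((VF.ofAug R.toRAug).pm ((SG π s hs).bβ (IG π s hs)))) : HD hV :=
  HD_of3 hV _ (b0_qi (SG π s hs) R) h1 h3

end Crest.Agent.R186.HD186
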