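import Crest.Agent.R186.KX_378
import Crest.Agent.R186.Glue_255
import Crest.Agent.R186.AcIff_492

/-!
Row 186 (A), leaf A.D, the part (kt) of the square (helper378): `kt : X → Y` is a quasi-isomorphism,
in the frame form `ktRes : LRes (lpc X) (yL I)` (`v = kt`, `lo = 0`).
-/

set_option autoImplicit false
set_option linter.style.haveILetI false
set_option linter.unusedSectionVars false

open MulOpposite

namespace Crest.Agent.R186.KX378

open Hat827 Hat827.DGA Frame515 Res255 ConeHyp462 Adapt186 FinV988 AcIff492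

variable {K : Type} [Field K] {A : DGA K}

/-- the left action of `Y` -/
noncomputable abbrev yAct (I : In A) : Module A.C I.Y where
  smul a y := I.L a y
  one_smul y := I.L_one y
  mul_smul a b y := I.L_mul a b y
  smul_zero a := map_zero _
  smul_add a := map_add _
  add_smul a b y := by
    change I.L (a + b) y = _
    rw [map_add]
    rfl
  zero_smul y := by
    change I.L 0 y = 0
    rw [map_zero]
    rfl

/-- `Y` as a left dg module -/
noncomputable def yL (I : In A) : LM A :=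
  letI i1 : Module A.C I.Y := yAct I
  { X := I.Y
    gr := I.gr.G
    d := I.dY
    d_mem := fun h => I.dY_deg h
    d_d := I.dYY
    act := i1
    tower := ⟨fun r a y => by
      change I.L (r • a) y = r • I.L a y
      rw [map_smul]
      rfl⟩
    smul_mem := fun {k l a y} ha hy => by
      have := I.L_deg ha hy
      rwa [add_comm] at this
    leib := fun a y => dY_L a y }

theorem yL_smul (I : In A) (a : A.C) (y : I.Y) :
    (show I.Y from a • (show (yL I).X from y)) = I.L a y := rfl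

section kt

variable (I : In A) (X : LCells A) {N : LM A} (h0 : Deg0 N) (R : LRes X N) (hlo : R.lo = 0)
  (b : I.Y →ₗ[K] N.X)
  (b_L : ∀ g ∈ A.G 0, ∀ y ∈ I.gr.G 0, b (I.L g y) = g • b y)
  (b_ne : ∀ k : ℤ, k ≠ 0 → ∀ y ∈ I.gr.G k, b y = 0)
  (b_d : ∀ y ∈ I.gr.G 1, b (I.dY y) = 0)
  (b_ex : ∀ n : ℤ, 0 ≤ n → ∀ y ∈ I.gr.G n, I.dY y = 0 → (n = 0 → b y = 0) →
    ∃ y' ∈ I.gr.G (n + 1), y = I.dY y')
  (kt : X.ι → I.Y) (kt_deg : ∀ σ, kt σ ∈ I.gr.G (X.s σ))
  (kt_e : ∀ σ, I.L (X.e σ) (kt σ) = kt σ)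
  (kt_d : ∀ σ, I.dY (kt σ) + ∑ τ ∈ X.F (X.s σ), I.L (X.c σ τ) (kt τ) = 0)
  (kt_b : ∀ σ, b (kt σ) = R.v σ)

/-- `kt` as augmentation -/
noncomputable def ktAug : LAug X (yL I) where
  lo := 0
  v := kt
  v_mem σ := by
    change kt σ ∈ I.gr.G (0 + (X.s σ : ℤ))
    rw [zero_add]
    exact kt_deg σ
  v_e σ := kt_e σ
  v_d σ := eq_of_add (I := I) (kt_d σ)

include h0 hlo b_L b_ne kt_deg kt_b in
/-- the two augmentations agree on homogeneous elements -/
theorem b_aug {m : ℤ} {x : X.ι →₀ A.C} (hx : x ∈ (tG (selfR A) X).gr m) :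
    b (show I.Y from augL X (yL I) kt x) = augL X N R.v x := by
  have hA : augL X (yL I) kt x = x.sum fun σ g => (show (yL I).X from I.L g (kt σ)) :=
    augL_apply X (yL I) kt x
  have hB : augL X N R.v x = x.sum fun σ g => g • R.v σ := augL_apply X N R.v x
  rw [hA, hB, Finsupp.sum, Finsupp.sum]
  refine (map_sum b _ _).trans (Finset.sum_congr rfl fun σ _ => ?_)
  have h1 : x σ ∈ A.G (m - X.s σ) := (hx σ).1
  have h2 : R.v σ ∈ N.gr (X.s σ) := by
    have := R.v_mem σ
    rwa [hlo, zero_add] at this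
  change b (I.L (x σ) (kt σ)) = x σ • R.v σ
  by_cases hs : X.s σ = 0
  · by_cases hm : m = 0
    · subst hm
      rw [hs] at h1
      have h3 := kt_deg σ
      rw [hs] at h3
      rw [b_L _ (by simpa using h1) _ h3, kt_b]
    · rw [b_ne m hm _ (by
        have h3 := I.L_deg h1 (kt_deg σ)
        rwa [show (X.s σ : ℤ) + (m - X.s σ) = m by ring] at h3)]
      have h4 := N.smul_mem h1 h2
      exact (h0.bot h4 (by omega)).symm
  · rw [h0.bot h2 (by exact_mod_cast hs), smul_zero]
    by_cases hm : m = 0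
    · subst hm
      rw [neg h1 (by omega), map_zero, LinearMap.zero_apply, map_zero]
    · exact b_ne m hm _ (by
        have h3 := I.L_deg h1 (kt_deg σ)
        rwa [show (X.s σ : ℤ) + (m - X.s σ) = m by ring] at h3)

/-- **`kt` is a quasi-isomorphism** -/
noncomputable def ktRes : LRes X (yL I) where
  toLAug := ktAug I X kt kt_deg kt_e kt_d
  ex := by
    intro k x (n : I.Y) hx hd hn he
    have hn' : n ∈ I.gr.G k := by
      have : n ∈ I.gr.G (0 + k) := hn
      rwa [zero_add] at this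
    let ax : I.Y := augL X (yL I) kt x
    have hk : ax + I.dY n = 0 := he
    have hbn : b n ∈ N.gr (R.lo + k) := by
      rw [hlo, zero_add]
      by_cases h : k = 0
      · rw [h]
        exact h0.top _
      · rw [b_ne k h n hn']
        exact Submodule.zero_mem _
    have hb1 : b (I.dY n) = 0 := by
      by_cases h : k = 1
      · exact b_d n (h ▸ hn')
      · exact b_ne (k - 1) (by omega) _ (I.dY_deg hn')
    have hb2 : augL X N R.v x + N.d (b n) = 0 := by
      rw [h0.d, add_zero, ← b_aug I X h0 R hlo b b_L b_ne kt kt_deg kt_b hx]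
      have h1 := congrArg b hk
      rw [map_add, map_zero, hb1, add_zero] at h1
      exact h1
    obtain ⟨y, hy, n1, hn1, e1, e2⟩ := R.ex k x (b n) hx hd hbn hb2
    rw [h0.d, add_zero] at e2
    let ay : I.Y := augL X (yL I) kt y
    have hkm : ay ∈ I.gr.G k := by
      have := augL_mem (ktAug I X kt kt_deg kt_e kt_d) hy
      have h2 : ay ∈ I.gr.G (0 + k) := this
      rwa [zero_add] at h2
    have hkd : I.dY ay = ax := by
      have h3 := augL_d (ktAug I X kt kt_deg kt_e kt_d) y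
      have h4 : augL X (yL I) kt x = (yL I).d (augL X (yL I) kt y) := by
        rw [← e1]
        exact h3
      exact h4.symm
    have hzG : ay + n ∈ I.gr.G k := Submodule.add_mem _ hkm hn'
    have hzd : I.dY (ay + n) = 0 := by
      rw [map_add, hkd]
      exact hk
    have hzb : b (ay + n) = 0 := by
      have h5 : b ay = augL X N R.v y := b_aug I X h0 R hlo b b_L b_ne kt kt_deg kt_b hy
      rw [map_add, h5, e2]
      exact two_L N _
    have hz' : ∃ y' ∈ I.gr.G (k + 1), ay + n = I.dY y' := by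
      rcases lt_or_ge k 0 with h | h
      · exact ⟨0, Submodule.zero_mem _, by rw [map_zero]; exact G_neg h hzG⟩
      · exact b_ex k h _ hzG hzd fun _ => hzb
    obtain ⟨y', hy', hzy⟩ := hz'
    refine ⟨y, hy, y', ?_, e1, ?_⟩
    · change y' ∈ I.gr.G (0 + k + 1)
      rwa [zero_add]
    · change n = ay + I.dY y'
      rw [← hzy, ← add_assoc, two, zero_add]

end kt

section pc

variable {I : In A} {N : LM A} [Module.Finite K N.X] [Nontrivial N.X] (h0 : Deg0 N)
  (Xp : SemiFree515.Pre A N.X) (hT : ∀ k : ℤ, 1 ≤ k → ExAt (tG (DR N) (lpre Xp)) k)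
  (U : Aug I (pcells N h0 Xp hT)) (kt : (pcells N h0 Xp hT).ι → I.Y)
  (k1 : ∀ σ, kt σ ∈ I.gr.G ((pcells N h0 Xp hT).s σ))
  (k2 : ∀ σ, I.L ((pcells N h0 Xp hT).e σ) (kt σ) = kt σ)
  (k3 : ∀ σ, I.dY (kt σ) + ∑ τ ∈ (pcells N h0 Xp hT).F ((pcells N h0 Xp hT).s σ),
    I.L ((pcells N h0 Xp hT).c σ τ) (kt τ) = 0)
  (k5 : ∀ σ, U.a (kt σ) = (pcells N h0 Xp hT).v σ)

/-- **(kt) on 988's `pcells`** -/
noncomputable def ktResP : LRes (lpc (pcells N h0 Xp hT)) (yL I) :=
  ktRes I (lpc (pcells N h0 Xp hT)) h0 (Glue255.lresN N h0 Xp) rfl U.a U.a_L U.a_ne U.a_d U.ex kt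
    k1 k2 k3 k5

theorem ktResP_lo : (ktResP h0 Xp hT U kt k1 k2 k3 k5).lo = 0 := rfl

theorem ktResP_v (σ : (pcells N h0 Xp hT).ι) :
    (ktResP h0 Xp hT U kt k1 k2 k3 k5).v σ = kt σ := rfl

include k1 k2 k3 k5 in
/-- **(kt) in 492's form** -/
theorem kt_ce (k : ℤ) : CE (tG (selfR A) (lpc (pcells N h0 Xp hT))) (yL I).toGC 0 k
    (augL (lpc (pcells N h0 Xp hT)) (yL I) kt) :=
  fun x n h1 h2 h3 h4 => (ktResP h0 Xp hT U kt k1 k2 k3 k5).ex k x n h1 h2 h3 h4

end pc

/-- `kt` on a cell -/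
theorem ktm_single (I : In A) (X : LCells A) (kt : X.ι → I.Y) (σ : X.ι) (a : A.C) :
    (show I.Y from augL X (yL I) kt (Finsupp.single σ a)) = I.L a (kt σ) :=
  augL_single X (yL I) kt σ a

end Crest.Agent.R186.KX378
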