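import Crest.Agent.R186.SqM_988
import Crest.Agent.R186.SqF_124
import Crest.Agent.R186.KtB_378
import Crest.Agent.R186.EndF_448
import Crest.Agent.R186.C2fin_468
import Crest.Agent.R186.C1Q_611

/-!
Row 186 (A), leaf A.D (helper988): `EndF448.HD` from (c1) in 611's form and (c3) in 468's form
(the road of 124's `qi_gD`, 378's `ktResP` and `SqS988.rresA`).
-/

set_option autoImplicit false
set_option linter.style.haveILetI false
set_option linter.unusedSectionVars false

noncomputable section

open MulOpposite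

namespace Crest.Agent.R186.HD988

open Hat827 Hat827.DGA Win810 Frame515 Res255 AcIff492 FinV988 FinD988 SM890 DefsQ830 Adapt186
open SqS988 SqF124 EndF448 EndB448 EndV448 ConeHyp462

variable {K : Type} [Field K]

section be

variable {B : DGA K} {M : BM B B} {Y : RCells B}

/-- 611's map is `be` -/
theorem evD_eq (R : RAug Y (DR M.toLM)) :
    C1P611.evD (Z := selfL B) (C1Q611.paOf M R) = be R := by
  refine Finsupp.lhom_ext fun σ m => ?_
  refine DR_ext fun (b : B.C) => ?_
  exact (C1Q611.evD_single M R σ m b).trans (be_single R σ m b).symm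

end be

/-- 378's `yL` is 124's -/
def lres {A : DGA K} (I : In A) {X : LCells A} (R : LRes X (KX378.yL I)) : LRes X (SqF124.yL I) where
  lo := R.lo
  v := R.v
  v_mem := R.v_mem
  v_e := R.v_e
  v_d := R.v_d
  ex := R.ex

variable {π : Par K} {s : ℕ} {hs : 5 ≤ s}

/-- **`HD` from (c1) and (c3)** -/
theorem HD_of (hV : PV π s hs) {Y : RCells (WR π).dga} (R : RRes Y (DM π s (KHc302.two_le hs)))
    (c1 : C1Q611.C1 π s (KHc302.two_le hs) R)
    (c3 : ∀ k, CE (tY (pushR (HmI π s (KHc302.two_le hs)) Y)
      (SqF124.yL (KHc302.CEr π s hs).toIn)) (DZc (KHc302.CEr π s hs).toIn) R.lo k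
      (c2m (KHc302.CEr π s hs).toIn (C2fin468.vG (hs := hs) R))) : HD hV := by
  intro kt hk hd he ha
  have c1' : ∀ k, CE (tY Y (MW π s (KHc302.two_le hs)).toLM) (DR (selfL (WR π).dga)).toGC R.lo k
      (be R.toRAug) := by
    intro k
    rw [← evD_eq]
    exact c1 k
  exact qi_gD (I := IG π s hs) (X := PG hV)
    (rresA (splM π s (KHc302.two_le hs)) R c1')
    (lres _ (KX378.ktResP (deg0_VG π s hs) (XG π s hs) hV (UG hV) kt hk he hd ha)) rfl c3 hk hd

end Crest.Agent.R186.HD988
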