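import Crest.Agent.R186.HD_186
import Crest.Agent.R186.DSq5_384
import Crest.Agent.R186.C2fin_468

/-!
Row 186 (A), leaf hD (helper186): `HD` of helper448's `EndF_448` from helper611's `C1` and
helper468's data `C2D`.
-/

set_option autoImplicit false
set_option linter.style.haveILetI false
set_option linter.unusedSectionVars false

noncomputable section

open MulOpposite

namespace Crest.Agent.R186.HD186

open Hat827 Hat827.DGA Frame515 TB143 Res255 Adapt186 ConeHyp462 FinV988 FinD988 DSq384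
open Win810 DefsQ830 SM890 KH186 SemiFree515 EndA448 EndV448 EndB448 EndF448 KHc186 SqI186

variable {K : Type} [Field K] {π : Par K} {s : ℕ} {hs : 5 ≤ s}

/-- **`HD` from a resolution of `D(M)`** (dual `DR`) and (d), (f) -/
theorem HD_ofDR (hV : PV π s hs) {Y : RCells (WR π).dga} (R : RRes Y (DR (SG π s hs).M.toLM))
    (h1 : QI ((VF.ofDR R.toRAug).pm (SG π s hs).b1))
    (h3 : QI ((VF.ofDR R.toRAug).pm ((SG π s hs).bβ (IG π s hs)))) : HD hV :=
  HD_of3 hV _ (b0R_qi (SG π s hs) R) h1 h3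

/-- **(d)** from helper611's `C1` -/
theorem h1_of {Y : RCells (WR π).dga} (R : RRes Y (DM π s (KHc302.two_le hs)))
    (hc : C1Q611.C1 π s (KHc302.two_le hs) R) :
    QI ((VF.ofDR (M := (SG π s hs).M.toLM) R.toRAug).pm (SG π s hs).b1) :=
  b1_qi_of (SG π s hs) (show RAug Y (DR (SG π s hs).M.toLM) from R.toRAug) hc

variable {S : FWI226.WEl (WR π).dga} (hS : S.pi = C2W655.piW π) (T : C2fin468.Inp π s hs S)
  (hev : ∀ (x : (KHc302.CEr π s hs).toIn.Y) (z : (KHc302.CEr π s hs).toIn.Z),
      T.ev x z = sndW (bdM π s (KHc302.two_le hs)) ((KHc302.CEr π s hs).toIn.ev x z))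

include hS hev in
/-- **(f)** from helper468's `C2D` -/
theorem h3_of {Y : RCells (WR π).dga} (R : RRes Y (DM π s (KHc302.two_le hs))) :
    QI ((VF.ofDR (M := (SG π s hs).M.toLM) R.toRAug).pm ((SG π s hs).bβ (IG π s hs))) := by
  refine bβ_qi_of' (SG π s hs) (I := IG π s hs)
    (show RAug Y (DR (SG π s hs).M.toLM) from R.toRAug) (C2s468.pmap T R) ?_
    (C2fin468.c3 hS T R)
  intro κ y z
  refine (C2s468.pmap_single T R κ y z).trans ?_
  rw [hev]
  rfl

include hS hev in
/-- **`HD` from (c1) and the `C2D` data** -/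
theorem HD_of_C1 (hV : PV π s hs) {Y : RCells (WR π).dga}
    (R : RRes Y (DM π s (KHc302.two_le hs))) (hc : C1Q611.C1 π s (KHc302.two_le hs) R) : HD hV :=
  HD_ofDR hV (show RRes Y (DR (SG π s hs).M.toLM) from R) (h1_of R hc) (h3_of hS T hev R)

end Crest.Agent.R186.HD186
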