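import Crest.Agent.R186.HD_384
import Crest.Agent.R186.C1Z_154
import Crest.Agent.R186.C2T_371

/-!
Row 186, half (A) (helper371): `HD` from helper328's Koszul data alone.
-/

set_option autoImplicit false
set_option linter.style.haveILetI false
set_option linter.unusedSectionVars false

noncomputable section

open MulOpposite

namespace Crest.Agent.R186.HDf371

open Hat827 Win810 Frame515 Res255 DefsQ830 SM890 KH186 FinD384 ConeHyp462 Adapt186
open FinV988 SemiFree515 EndA448 EndV448 FinD988 EndB448 EndP448 EndF448 TB143 DSq384 SqI186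

variable {K : Type} [Field K] (π : Par K) (s : ℕ) (hs : 5 ≤ s)

/-- **(iii)** in helper384's form -/
theorem h3 {Y : RCells (WR π).dga} (R : RRes Y (DM π s (KHc302.two_le hs))) :
    QI ((VF.ofDR R.toRAug).pm ((SG π s hs).bβ (IG π s hs))) :=
  bβ_qi_of' (S := SG π s hs) (I := IG π s hs) R.toRAug (C2s468.pmap (C2T371.c2d π s hs) R)
    (fun κ y z => C2s468.pmap_single (C2T371.c2d π s hs) R κ y z)
    (fun k => C2T371.c3 π s hs R k)

variable {π s hs}

/-- **(D) from (c1)** -/
theorem hD2_of_c1 (c1 : ∀ {Y : RCells (WR π).dga} (R : RRes Y (DM π s (KHc302.two_le hs))),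
    C1Q611.C1 π s (KHc302.two_le hs) R) (hV : PV π s hs) : HD2 hV := by
  obtain ⟨Y, R, _, _⟩ := exists_resDM π s (KHc302.two_le hs)
  exact HD384.HD2_of hV R (c1 R) (h3 π s hs R)

/-- **(D) from the Koszul data** -/
theorem hD2_of_kz (Z : C1b328.Kz (WL221.WL π).dga (tLW π s)) (hV : PV π s hs) : HD2 hV :=
  hD2_of_c1 (fun R => C1Z154.c1_of_kz π s (KHc302.two_le hs) Z R) hV

/-- **the null pair** from (H), the rigidity input and the Koszul data -/
theorem null_kz (hM : HM π s hs) (hH : PH π s hs) (Z : C1b328.Kz (WL221.WL π).dga (tLW π s)) :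
    Nonempty (Spine700.Null.{0, 0} K) :=
  null_F2 hM hH (hD2_of_kz Z)

end Crest.Agent.R186.HDf371
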