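import Crest.Agent.R186.HDf_186
import Crest.Agent.R186.C2T_371
import Crest.Agent.R186.C1Z_154

/-!
Row 186 (A), leaf hD (helper186): `HD` of helper448's `EndF_448` from (c1), and from helper328's
Koszul data on `tL`.
-/

set_option autoImplicit false
set_option linter.style.haveILetI false
set_option linter.unusedSectionVars false

noncomputable section

open MulOpposite

namespace Crest.Agent.R186.HD186

open Hat827 Hat827.DGA Frame515 Res255 FinV988
open Win810 DefsQ830 SM890 WL221 EndB448 EndF448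

variable {K : Type} [Field K] {π : Par K} {s : ℕ} {hs : 5 ≤ s}

/-- **`HD` from (c1)** -/
theorem HD_of_c1 (hc : ∀ (Y : RCells (WR π).dga) (R : RRes Y (DM π s (KHc302.two_le hs))),
    R.lo = -(8 + (s : ℤ)) → (∀ σ, Y.e σ = 1) → C1Q611.C1 π s (KHc302.two_le hs) R)
    (hV : PV π s hs) : HD hV := by
  obtain ⟨Y, R, h1, h2⟩ := exists_resDM π s (KHc302.two_le hs)
  exact HD_of_C1 rfl (C2T371.c2d π s hs) (fun _ _ => rfl) hV R (hc Y R h1 h2)

/-- **`HD` from the Koszul data on `tL`** -/
theorem HD_of_kz (Z : C1b328.Kz (WL π).dga (tLW π s)) (hV : PV π s hs) : HD hV :=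
  HD_of_c1 (fun _ R _ _ => C1Z154.c1_of_kz π s (KHc302.two_le hs) Z R) hV

end Crest.Agent.R186.HD186
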