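import Crest.Agent.R186.C1c_328
import Crest.Agent.R186.HDz_186

/-!
Row 186 (A) (helper328): HD, no hypothesis but `PV`.
-/

set_option autoImplicit false

namespace Crest.Agent.R186.HDk328

variable {K : Type} [Field K] (π : DefsQ830.Par K) (s : ℕ) (hs : 5 ≤ s)

theorem hd (hV : EndB448.PV π s hs) : EndF448.HD hV := HD186.HD_of_kz (C1c328.kz π s) hV

end Crest.Agent.R186.HDk328
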