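import Crest.Agent.R186.JTR_322
import Crest.Agent.R186.FamB_654
import Crest.Agent.R186.KHc_302
import Crest.Agent.R186.CEc_683

/-!
Row 186 (A) (helper322), joint (TR) → (H), concrete part: `CEr π s hs` satisfies the hypotheses of
`JTR322.qi` for `J = ker (S → R')`, and the chain maps `thH` of 654's `XDHT` are
quasi-isomorphisms.
-/

set_option autoImplicit false
set_option linter.style.haveILetI false
set_option linter.unusedSectionVars false
set_option linter.unusedSimpArgs false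
set_option linter.unusedVariables false

open MulOpposite

namespace Crest.Agent.R186.JTR322

open Hat827 Hat827.DGA Frame515 Win810 KHev302 HB362 TR810 FamU654

variable {K : Type} [Field K]

section gen

variable {w : WD K} {E : CE w} {X : LCells w.dga}

theorem th_d (E : CE w) (θ : Th w) : E.DB (E.p θ.t) = 0 := by
  rw [← E.p_D, θ.D0, map_zero]

/-- `QI (LUh b)` only depends on `b` -/
theorem qi_congr {p a p' a' : ℤ} {b b' : E.B} (h : b = b') (hb : b ∈ E.pb (p' - p) (a' - a) 0)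
    (hd : E.DB b = 0) (hb' : b' ∈ E.pb (p' - p) (a' - a) 0) (hd' : E.DB b' = 0)
    (H : QI (LUh E X b hb hd)) : QI (LUh E X b' hb' hd') := by
  subst h
  exact H

/-- **(TR) ⇒ the chain map `θ = t + l h` of 654's family is a quasi-isomorphism** -/
theorem thQI {g : K} (T : XDHT (rowSys E X) g)
    (hsur : ∀ {P A C : ℤ} {b : E.B}, b ∈ E.pb P A C → ∃ s ∈ w.pc P A C, E.p s = b)
    {J : Submodule K w.S} (hJ : ∀ s, s ∈ J ↔ E.p s = 0) (l : K) (p : ℤ) (a : ℕ) (θ : Th w)
    (hθ : E.p θ.t = T.t + l • T.h) (H : ∀ n, AcQ (Yc θ p a X) ⊤ (TF X J) n) :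
    QI (T.thH l p a) :=
  qi_congr (a' := ((a + 1 : ℕ) : ℤ)) hθ (th_pb E θ p a) (th_d E θ) (T.mth l p a) (T.th_D l)
    (qi hsur hJ θ p a H (th_pb E θ p a) (th_d E θ))

end gen

/-! ### the concrete closing data -/

open DefsQ830 SM890 WL221 C2b44 Cells221

variable (π : Par K) (s : ℕ) (hs : 5 ≤ s)

/-- the concrete `CE` in 302's form -/
noncomputable abbrev Ec : CE (KHc302.WG π s (KHc302.two_le hs)) := CEc683.ev (KHc302.CEr π s hs)

/-- `ker (S → R')` -/
noncomputable def JW : Submodule K (KHc302.WG π s (KHc302.two_le hs)).S :=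
  LinearMap.ker (KHc302.pW π s (KHc302.two_le hs)).toLinearMap

theorem mem_JW (x : (KHc302.WG π s (KHc302.two_le hs)).S) :
    x ∈ JW π s hs ↔ (Ec π s hs).p x = 0 := Iff.rfl

/-- `x ∈ JW ↔ the first component lies in `J`` -/
theorem mem_JW_iff (x : (KHc302.WG π s (KHc302.two_le hs)).S) :
    x ∈ JW π s hs ↔ kill π (KHc302.fR π s (KHc302.two_le hs) x) = 0 := by
  rw [mem_JW]
  change prL π (KHc302.fR π s (KHc302.two_le hs) x) = 0 ↔ _
  exact prL_eq_zero

theorem hsur {P A C : ℤ} {b : (Ec π s hs).B} (hb : b ∈ (Ec π s hs).pb P A C) :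
    ∃ x ∈ (KHc302.WG π s (KHc302.two_le hs)).pc P A C, (Ec π s hs).p x = b := by
  refine ⟨(bdM π s (KHc302.two_le hs)).inl (b : RL π).1, (bdM π s _).inl_mem hb, ?_⟩
  change prL π (KHc302.fR π s (KHc302.two_le hs) ((bdM π s (KHc302.two_le hs)).inl (b : RL π).1)) = b
  exact prL_inL b

variable {π s hs}

/-- **the final form for the concrete data** -/
theorem thQIc {X : LCells (KHc302.WG π s (KHc302.two_le hs)).dga} {g : K}
    (T : XDHT (rowSys (Ec π s hs) X) g) (l : K) (p : ℤ) (a : ℕ)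
    (θ : Th (KHc302.WG π s (KHc302.two_le hs)))
    (hθ : (Ec π s hs).p θ.t = T.t + l • T.h)
    (H : ∀ n, AcQ (Yc θ p a X) ⊤ (TF X (JW π s hs)) n) : QI (T.thH l p a) :=
  thQI T (fun h => hsur π s hs h) (mem_JW π s hs) l p a θ hθ H

/-- any position, any degree-zero cycle `b = p θ` -/
theorem qic {X : LCells (KHc302.WG π s (KHc302.two_le hs)).dga}
    (θ : Th (KHc302.WG π s (KHc302.two_le hs))) (p a : ℤ)
    (H : ∀ n, AcQ (Yc θ p a X) ⊤ (TF X (JW π s hs)) n) :
    QI (LUh (Ec π s hs) X ((Ec π s hs).p θ.t) (th_pb _ θ p a) (th_d _ θ)) :=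
  qi (fun h => hsur π s hs h) (mem_JW π s hs) θ p a H _ _

end Crest.Agent.R186.JTR322
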