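import Crest.Agent.R186.Cells1_221

/-!
Row 186, half (A), short road (helper306): the relations of `Ex306.Fam` as identities in `R π`:
`x, d, h, t` (exact ones) and `t d_j = g d_j t` up to the boundary `D z`.
-/

set_option autoImplicit false

namespace Crest.Agent.R186.Rel306

open Crest.Agent.R186.VOp220 Crest.Agent.R186.DefsQ830 Crest.Agent.R186.Vmod220
open Crest.Agent.R186.Der580 Crest.Agent.R186.Cells221
open Crest.Agent.R186.DefsQ830.Gen

variable {K : Type} [Field K] (π : Par K)

/-- `t` through `d x` (field `ht0`) -/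
theorem ht0 : tR π = X π h + (π.g - 1) • (X π (d 0) * X π (x 0) + X π (d 1) * X π (x 1)) := rfl

/-- `g² t` through `x d` (field `ht1`) -/
theorem ht1 : π.g ^ 2 • tR π =
    X π h + (π.g - 1) • (X π (x 0) * X π (d 0) + π.g • (X π (x 1) * X π (d 1))) := by
  rw [ht0, r_x0d0, r_x1d1]
  generalize X π h = u
  generalize X π (d 0) * X π (x 0) = v
  generalize X π (d 1) * X π (x 1) = w
  match_scalars <;> ring

/-- `x_j t = g t x_j` (field `xt`) -/
theorem xt (j : Fin 2) : X π (x j) * tR π = π.g • (tR π * X π (x j)) := by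
  have two := π.two
  have cp : CharP K 2 := CharTwo.of_one_ne_zero_of_two_eq_zero one_ne_zero two
  revert j
  fin2 <;> (simp only [tR]; idR)

/-- `x_j h = h x_j` (field `xh`) -/
theorem xh (j : Fin 2) : X π (x j) * X π h = X π h * X π (x j) := r_h_x π j

/-- `d_j h = h d_j` (field `hd`) -/
theorem dh (j : Fin 2) : X π (d j) * X π h = X π h * X π (d j) := r_h_d π j

/-- `h` commutes with `t` -/
theorem th : tR π * X π h = X π h * tR π := by
  have two := π.two
  have cp : CharP K 2 := CharTwo.of_one_ne_zero_of_two_eq_zero one_ne_zero two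
  simp only [tR]; idR

/-- `t d_0 + g d_0 t` is a boundary (field `td`) -/
theorem td0 : tR π * X π (d 0) + π.g • (X π (d 0) * tR π) =
    ((π.g - 1) * (π.c 1)⁻¹) • D π (X π (z 1)) := by
  have two := π.two
  have cp : CharP K 2 := CharTwo.of_one_ne_zero_of_two_eq_zero one_ne_zero two
  have g0 := π.g0
  rw [D_X]
  simp only [tR, dGen, rF, map_mul, map_add, map_smul, mk_L]
  idR

/-- `t d_1 + g d_1 t` is a boundary (field `td`) -/
theorem td1 : tR π * X π (d 1) + π.g • (X π (d 1) * tR π) =
    ((π.g - 1) * (π.c 0)⁻¹) • D π (X π (z 0)) := by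
  have two := π.two
  have cp : CharP K 2 := CharTwo.of_one_ne_zero_of_two_eq_zero one_ne_zero two
  have g0 := π.g0
  rw [D_X]
  simp only [tR, dGen, rF, map_mul, map_add, map_smul, mk_L]
  idR

/-! the four products `d_i x_j` through `x_k d_l` (the forms `n i j` of `Ex_306`) -/

theorem n00 : X π (d 0) * X π (x 0) = π.g⁻¹ • (X π (x 0) * X π (d 0) + X π h) := by
  have two := π.two
  have cp : CharP K 2 := CharTwo.of_one_ne_zero_of_two_eq_zero one_ne_zero two
  have g0 := π.g0
  idR

theorem n10 : X π (d 1) * X π (x 0) = π.g⁻¹ • (X π (x 0) * X π (d 1)) := by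
  have two := π.two
  have cp : CharP K 2 := CharTwo.of_one_ne_zero_of_two_eq_zero one_ne_zero two
  have g0 := π.g0
  idR

theorem n01 : X π (d 0) * X π (x 1) = X π (x 1) * X π (d 0) := (r_x1d0 π).symm

theorem n11 : X π (d 1) * X π (x 1) = π.g⁻¹ • (X π (x 1) * X π (d 1) + X π h +
    (π.g - 1) • (π.g⁻¹ • (X π (x 0) * X π (d 0) + X π h))) := by
  have two := π.two
  have cp : CharP K 2 := CharTwo.of_one_ne_zero_of_two_eq_zero one_ne_zero two
  have g0 := π.g0
  idR

end Crest.Agent.R186.Rel306
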