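import Crest.Agent.R186.HH_498
import Crest.Agent.R186.Cells1_221
import Crest.Agent.R186.Ex_306

/-!
Row 186 (A), short road (helper380): from 306's four lemmas to the exactness of the sixteen cells with
values in homology (the input of `TF.ac_of_H`).

`Q4` = exactness of `A → B0 × B1 → C0 × C1 → D` (injective at `A`, onto `D`); `Q4.of_fam` = EXl of
`Ex_306`, `Q4.scale` = rescaled operators (second half of the cells: `e, gj, gc`).
`ex16` = the sixteen cells, `ac16` = the twisted complex is acyclic.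
-/

set_option autoImplicit false
set_option linter.unusedSectionVars false
set_option linter.unusedTactic false
set_option linter.unusedSimpArgs false

namespace Crest.Agent.R186.ZZH380

open Cells221 Zig498 Ex306
open Crest.Agent.R186.PBW128 (E)

section quad

variable {A B0 B1 C0 C1 D : Type} [AddCommGroup A] [AddCommGroup B0] [AddCommGroup B1]
  [AddCommGroup C0] [AddCommGroup C1] [AddCommGroup D]

/-- exactness of `A → B0 × B1 → C0 × C1 → D → 0`, injective at `A` -/
structure Q4 (a0 : A → B0) (a1 : A → B1) (b00 : B0 → C0) (b01 : B1 → C0) (b10 : B0 → C1)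
    (b11 : B1 → C1) (c0 : C0 → D) (c1 : C1 → D) : Prop where
  l0 : ∀ y, a0 y = 0 → a1 y = 0 → y = 0
  l1 : ∀ p0 p1, b00 p0 + b01 p1 = 0 → b10 p0 + b11 p1 = 0 → ∃ f, a0 f = p0 ∧ a1 f = p1
  l2 : ∀ z0 z1, c0 z0 + c1 z1 = 0 → ∃ p0 p1, b00 p0 + b01 p1 = z0 ∧ b10 p0 + b11 p1 = z1
  l3 : ∀ w, ∃ z0 z1, c0 z0 + c1 z1 = w

theorem Q4.congr {a0 a0' : A → B0} {a1 a1' : A → B1} {b00 b00' : B0 → C0} {b01 b01' : B1 → C0}
    {b10 b10' : B0 → C1} {b11 b11' : B1 → C1} {c0 c0' : C0 → D} {c1 c1' : C1 → D}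
    (q : Q4 a0 a1 b00 b01 b10 b11 c0 c1) (h0 : ∀ y, a0' y = a0 y) (h1 : ∀ y, a1' y = a1 y)
    (h00 : ∀ y, b00' y = b00 y) (h01 : ∀ y, b01' y = b01 y) (h10 : ∀ y, b10' y = b10 y)
    (h11 : ∀ y, b11' y = b11 y) (k0 : ∀ y, c0' y = c0 y) (k1 : ∀ y, c1' y = c1 y) :
    Q4 a0' a1' b00' b01' b10' b11' c0' c1' := by
  obtain rfl := funext h0
  obtain rfl := funext h1
  obtain rfl := funext h00
  obtain rfl := funext h01
  obtain rfl := funext h10
  obtain rfl := funext h11
  obtain rfl := funext k0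
  obtain rfl := funext k1
  exact q

variable {K : Type} [Field K] [Module K A] [Module K B0] [Module K B1] [Module K C0] [Module K C1]
  [Module K D]

/-- rescaling -/
theorem Q4.scale {a0 : A → B0} {a1 : A → B1} {b00 : B0 → C0} {b01 : B1 → C0}
    {b10 : B0 → C1} {b11 : B1 → C1} {c0 : C0 → D} {c1 : C1 → D}
    (q : Q4 a0 a1 b00 b01 b10 b11 c0 c1)
    (hb00 : ∀ (r : K) y, b00 (r • y) = r • b00 y) (hb01 : ∀ (r : K) y, b01 (r • y) = r • b01 y)
    (hb10 : ∀ (r : K) y, b10 (r • y) = r • b10 y) (hb11 : ∀ (r : K) y, b11 (r • y) = r • b11 y)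
    (hc0 : ∀ (r : K) y, c0 (r • y) = r • c0 y) (hc1 : ∀ (r : K) y, c1 (r • y) = r • c1 y)
    {β0 β1 γ0 γ1 δ : K} (hβ0 : β0 ≠ 0) (hβ1 : β1 ≠ 0) (hγ0 : γ0 ≠ 0) (hγ1 : γ1 ≠ 0) (hδ : δ ≠ 0) :
    Q4 (fun y => β0 • a0 y) (fun y => β1 • a1 y) (fun y => (γ0 * β0⁻¹) • b00 y)
      (fun y => (γ0 * β1⁻¹) • b01 y) (fun y => (γ1 * β0⁻¹) • b10 y)
      (fun y => (γ1 * β1⁻¹) • b11 y) (fun y => (δ * γ0⁻¹) • c0 y) (fun y => (δ * γ1⁻¹) • c1 y) where
  l0 y h0 h1 := q.l0 y ((smul_eq_zero.mp h0).resolve_left hβ0) ((smul_eq_zero.mp h1).resolve_left hβ1)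
  l1 p0 p1 h0 h1 := by
    obtain ⟨f, e0, e1⟩ := q.l1 (β0⁻¹ • p0) (β1⁻¹ • p1)
      (by
        rw [hb00, hb01]
        have : γ0 • (β0⁻¹ • b00 p0 + β1⁻¹ • b01 p1) = 0 := by
          rw [smul_add, smul_smul, smul_smul]; exact h0
        exact (smul_eq_zero.mp this).resolve_left hγ0)
      (by
        rw [hb10, hb11]
        have : γ1 • (β0⁻¹ • b10 p0 + β1⁻¹ • b11 p1) = 0 := by
          rw [smul_add, smul_smul, smul_smul]; exact h1
        exact (smul_eq_zero.mp this).resolve_left hγ1)
    refine ⟨f, ?_, ?_⟩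
    · change β0 • a0 f = p0
      rw [e0, smul_smul, mul_inv_cancel₀ hβ0, one_smul]
    · change β1 • a1 f = p1
      rw [e1, smul_smul, mul_inv_cancel₀ hβ1, one_smul]
  l2 z0 z1 h := by
    obtain ⟨p0, p1, e0, e1⟩ := q.l2 (γ0⁻¹ • z0) (γ1⁻¹ • z1) (by
      rw [hc0, hc1]
      have : δ • (γ0⁻¹ • c0 z0 + γ1⁻¹ • c1 z1) = 0 := by
        rw [smul_add, smul_smul, smul_smul]; exact h
      exact (smul_eq_zero.mp this).resolve_left hδ)
    refine ⟨β0 • p0, β1 • p1, ?_, ?_⟩
    · change (γ0 * β0⁻¹) • b00 (β0 • p0) + (γ0 * β1⁻¹) • b01 (β1 • p1) = z0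
      rw [hb00, hb01, smul_smul, smul_smul, inv_mul_cancel_right₀ hβ0, inv_mul_cancel_right₀ hβ1,
        ← smul_add, e0, smul_smul, mul_inv_cancel₀ hγ0, one_smul]
    · change (γ1 * β0⁻¹) • b10 (β0 • p0) + (γ1 * β1⁻¹) • b11 (β1 • p1) = z1
      rw [hb10, hb11, smul_smul, smul_smul, inv_mul_cancel_right₀ hβ0, inv_mul_cancel_right₀ hβ1,
        ← smul_add, e1, smul_smul, mul_inv_cancel₀ hγ1, one_smul]
  l3 w := by
    obtain ⟨z0, z1, e⟩ := q.l3 (δ⁻¹ • w)
    refine ⟨γ0 • z0, γ1 • z1, ?_⟩
    change (δ * γ0⁻¹) • c0 (γ0 • z0) + (δ * γ1⁻¹) • c1 (γ1 • z1) = w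
    rw [hc0, hc1, smul_smul, smul_smul, inv_mul_cancel_right₀ hγ0, inv_mul_cancel_right₀ hγ1,
      ← smul_add, e, smul_smul, mul_inv_cancel₀ hδ, one_smul]

end quad

/-! ### 306's EXl -/

section fam

variable {K : Type} [Field K] {g : K} (Y : Fam K g)

theorem m_smul (j i : Fin 2) (a : ℕ) (r : K) (y : Y.Y0 a) : Y.m j i a (r • y) = r • Y.m j i a y := by
  unfold Fam.m
  split_ifs <;> simp only [map_smul, smul_add, smul_comm r]

/-- EXl at the Adams position `a`: theta_0 bijective on `Y1 a`, `Y1 (a+1)`; theta_(-1) bijective on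
`Y0 (a+1)`, injective on `Y0 (a+2)` is replaced by the hypotheses of 306's lemmas -/
theorem Q4.of_fam (hg : g ≠ 0) (hg1 : g ≠ 1) (two : (2 : K) = 0) (a : ℕ)
    (i1 : ∀ y, Y.th1 (g ^ 2)⁻¹ a y = 0 → y = 0) (s1 : ∀ y, ∃ z, Y.th1 (g ^ 2)⁻¹ a z = y)
    (i1' : ∀ y, Y.th1 (g ^ 2)⁻¹ (a + 1) y = 0 → y = 0)
    (s1' : ∀ y, ∃ z, Y.th1 (g ^ 2)⁻¹ (a + 1) z = y)
    (i0 : ∀ y, Y.th0 g⁻¹ (a + 1) y = 0 → y = 0) (s0 : ∀ y, ∃ z, Y.th0 g⁻¹ (a + 1) z = y) :
    Q4 (Y.d 0 a) (Y.d 1 a) (Y.m 0 1 (a + 1)) (fun y => g • Y.m 0 0 (a + 1) y)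
      (Y.m 1 1 (a + 1)) (fun y => g • Y.m 1 0 (a + 1) y) (Y.x 1 (a + 2)) (Y.x 0 (a + 2)) where
  l0 y h0 h1 := Y.l0 hg hg1 two a i1 y h0 h1
  l1 p0 p1 h0 h1 := Y.l1 hg hg1 two a s1 i0 p0 p1 h0 h1
  l2 z0 z1 h := Y.l2 hg hg1 two (a + 1) s0 i1' z0 z1 h
  l3 w := Y.l3 hg hg1 two (a + 1) s1' w

/-- the second half of the cells: `f → e → gj → gc` with the scalars of 221's table -/
theorem Q4.of_fam' (hg : g ≠ 0) (hg1 : g ≠ 1) (two : (2 : K) = 0) (a : ℕ)
    (i1 : ∀ y, Y.th1 (g ^ 2)⁻¹ a y = 0 → y = 0) (s1 : ∀ y, ∃ z, Y.th1 (g ^ 2)⁻¹ a z = y)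
    (i1' : ∀ y, Y.th1 (g ^ 2)⁻¹ (a + 1) y = 0 → y = 0)
    (s1' : ∀ y, ∃ z, Y.th1 (g ^ 2)⁻¹ (a + 1) z = y)
    (i0 : ∀ y, Y.th0 g⁻¹ (a + 1) y = 0 → y = 0) (s0 : ∀ y, ∃ z, Y.th0 g⁻¹ (a + 1) z = y) :
    Q4 (fun y => g ^ 2 • Y.d 0 a y) (fun y => g • Y.d 1 a y)
      (fun y => ((g ^ 2)⁻¹ * g) • Y.m 0 1 (a + 1) y)
      (fun y => ((g ^ 2)⁻¹ * g ^ 3) • Y.m 0 0 (a + 1) y)
      (fun y => (g⁻¹ * g) • Y.m 1 1 (a + 1) y)
      (fun y => (g⁻¹ * g ^ 3) • Y.m 1 0 (a + 1) y)
      (fun y => g⁻¹ • Y.x 1 (a + 2) y) (fun y => (g ^ 2)⁻¹ • Y.x 0 (a + 2) y) := by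
  have h := (Q4.of_fam Y hg hg1 two a i1 s1 i1' s1' i0 s0).scale (K := K)
    (m_smul Y 0 1 (a + 1)) (fun r y => by rw [m_smul, smul_comm]) (m_smul Y 1 1 (a + 1))
    (fun r y => by rw [m_smul, smul_comm]) (fun r y => map_smul _ r y) (fun r y => map_smul _ r y)
    (β0 := g ^ 2) (β1 := g) (γ0 := g) (γ1 := g ^ 2) (δ := 1) (pow_ne_zero 2 hg) hg hg
    (pow_ne_zero 2 hg) one_ne_zero
  refine h.congr (fun _ => rfl) (fun _ => rfl) (fun y => ?_) (fun y => ?_) (fun y => ?_)
    (fun y => ?_) (fun y => ?_) (fun y => ?_)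
  · rw [mul_comm]
  · change _ = (g * g⁻¹) • g • _
    rw [smul_smul]
    congr 1
    field_simp
  · congr 1
    field_simp
  · change _ = (g ^ 2 * g⁻¹) • g • _
    rw [smul_smul]
    congr 1
    field_simp
  · congr 1
    rw [one_mul]
  · congr 1
    rw [one_mul]

end fam

/-! ### the sixteen cells -/

section cells

variable {K : Type} [Field K] {Yc : Cell → Type} [∀ c, AddCommGroup (Yc c)] [∀ c, Module K (Yc c)]

/-- the entries of 221's table between adjacent levels -/
def tab : Cell → Cell → Bool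
  | some (.d _), none => true
  | some (.z _), some (.d _) => true
  | some .zc, some (.z _) => true
  | some .zc, some .f => true
  | some (.e _), some .f => true
  | some (.gj _), some (.e _) => true
  | some .gc, some (.gj _) => true
  | some (.v i), some (.u j) => if i = j then true else false
  | _, _ => false

/-- sum over the cells -/
theorem sumC {M : Type*} [AddCommMonoid M] (F : Cell → M) : ∑ l, F l =
    F none + (F (some (.d 0)) + F (some (.d 1)) + F (some .f) + F (some (.z 0)) + F (some (.z 1)) +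
      F (some .zc) + F (some (.u 0)) + F (some (.u 1)) + F (some (.e 0)) + F (some (.e 1)) +
      F (some (.gj 0)) + F (some (.gj 1)) + F (some .gc) + F (some (.v 0)) + F (some (.v 1))) := by
  rw [Fintype.sum_option, sumE]

theorem forall_cell {P : Cell → Prop} (h : P none) (h1 : P (some (.d 0))) (h2 : P (some (.d 1)))
    (h3 : P (some .f)) (h4 : P (some (.z 0))) (h5 : P (some (.z 1))) (h6 : P (some .zc))
    (h7 : P (some (.u 0))) (h8 : P (some (.u 1))) (h9 : P (some (.e 0))) (h10 : P (some (.e 1)))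
    (h11 : P (some (.gj 0))) (h12 : P (some (.gj 1))) (h13 : P (some .gc)) (h14 : P (some (.v 0)))
    (h15 : P (some (.v 1))) : ∀ l, P l := by
  intro l
  rcases l with _ | l
  · exact h
  cases l with
  | d j => rcases f2 j with rfl | rfl <;> assumption
  | f => exact h3
  | z j => rcases f2 j with rfl | rfl <;> assumption
  | zc => exact h6
  | u j => rcases f2 j with rfl | rfl <;> assumption
  | e j => rcases f2 j with rfl | rfl <;> assumption
  | gj j => rcases f2 j with rfl | rfl <;> assumption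
  | gc => exact h13
  | v j => rcases f2 j with rfl | rfl <;> assumption

theorem sum_single (t : ∀ l l' : Cell, Yc l' →ₗ[K] Yc l) (l c : Cell) (y : Yc c) :
    ∑ l', t l l' ((Pi.single c y : ∀ l, Yc l) l') = t l c y := by
  rw [Finset.sum_eq_single c, Pi.single_eq_same]
  · intro b _ hb
    rw [Pi.single_eq_of_ne hb, map_zero]
  · intro h
    exact absurd (Finset.mem_univ _) h

/-- the sum -/
noncomputable def tS (t : ∀ l l' : Cell, Yc l' →ₗ[K] Yc l) (l : Cell) :
    (∀ l, Yc l) →ₗ[K] Yc l where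
  toFun ω := ∑ l', t l l' (ω l')
  map_add' x y := by
    simp only [Pi.add_apply, map_add, Finset.sum_add_distrib]
  map_smul' r x := by
    simp only [Pi.smul_apply, map_smul, RingHom.id_apply, Finset.smul_sum]

theorem tS_apply (t : ∀ l l' : Cell, Yc l' →ₗ[K] Yc l) (l : Cell) (ω : ∀ l, Yc l) :
    tS t l ω = ∑ l', t l l' (ω l') := rfl

theorem tS_single (t : ∀ l l' : Cell, Yc l' →ₗ[K] Yc l) (l c : Cell) (y : Yc c) :
    tS t l (Pi.single c y) = t l c y := sum_single t l c y

/-- **the sixteen cells are exact** (`t l l'` = the adjacent coefficients on homology) -/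
theorem ex16 (t : ∀ l l' : Cell, Yc l' →ₗ[K] Yc l)
    (hz : ∀ l l' : Cell, cdeg l = cdeg l' + 1 → tab l l' = false → t l l' = 0)
    (q1 : Q4 (t (some (.d 0)) none) (t (some (.d 1)) none)
      (t (some (.z 0)) (some (.d 0))) (t (some (.z 0)) (some (.d 1)))
      (t (some (.z 1)) (some (.d 0))) (t (some (.z 1)) (some (.d 1)))
      (t (some .zc) (some (.z 0))) (t (some .zc) (some (.z 1))))
    (q2 : Q4 (t (some (.e 0)) (some .f)) (t (some (.e 1)) (some .f))
      (t (some (.gj 0)) (some (.e 0))) (t (some (.gj 0)) (some (.e 1)))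
      (t (some (.gj 1)) (some (.e 0))) (t (some (.gj 1)) (some (.e 1)))
      (t (some .gc) (some (.gj 0))) (t (some .gc) (some (.gj 1))))
    (b0 : Function.Bijective (t (some (.v 0)) (some (.u 0))))
    (b1 : Function.Bijective (t (some (.v 1)) (some (.u 1))))
    (m : ℤ) (ζ : ∀ l, Yc l) (h0 : ∀ l, (cdeg l : ℤ) ≠ m → ζ l = 0)
    (h1 : ∀ l, (cdeg l : ℤ) = m + 1 → ∑ l', t l l' (ζ l') = 0) :
    ∃ ω : ∀ l, Yc l, (∀ l, (cdeg l : ℤ) + 1 ≠ m → ω l = 0) ∧
      ∀ l, (cdeg l : ℤ) = m → ζ l = ∑ l', t l l' (ω l') := by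
  have hz' : ∀ l l' : Cell, cdeg l = cdeg l' + 1 → tab l l' = false → ∀ y, t l l' y = 0 :=
    fun l l' h h' y => by rw [hz l l' h h', LinearMap.zero_apply]
  have sing : ∀ (c l : Cell) (y : Yc c), (cdeg c : ℤ) + 1 = m → (cdeg l : ℤ) + 1 ≠ m →
      (Pi.single c y : ∀ l, Yc l) l = 0 := by
    intro c l y hc hl
    refine Pi.single_eq_of_ne ?_ y
    rintro rfl
    exact hl hc
  by_cases hm : m < 0 ∨ 5 < m
  · refine ⟨0, fun _ _ => rfl, fun l hl => ?_⟩
    exfalso
    have h5 : ∀ l : Cell, cdeg l ≤ 5 := by decide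
    have := h5 l
    rcases hm with hm | hm <;> omega
  push Not at hm
  obtain ⟨hm0, hm5⟩ := hm
  have hm' : m = 0 ∨ m = 1 ∨ m = 2 ∨ m = 3 ∨ m = 4 ∨ m = 5 := by omega
  rcases hm' with rfl | rfl | rfl | rfl | rfl | rfl
  · -- level 0
    have z : ∀ l, l ≠ none → ζ l = 0 := fun l hl => h0 l (by
      revert hl; revert l; decide)
    have e0 := h1 (some (.d 0)) rfl
    have e1 := h1 (some (.d 1)) rfl
    rw [Finset.sum_eq_single none (fun b _ hb => by rw [z b hb, map_zero]) (fun h =>
      absurd (Finset.mem_univ _) h)] at e0 e1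
    have := q1.l0 _ e0 e1
    refine ⟨0, fun _ _ => rfl, fun l hl => ?_⟩
    have hl' : l = none := by
      revert hl; revert l; decide
    subst hl'
    rw [this]
    simp only [Pi.zero_apply, map_zero, Finset.sum_const_zero]
  · -- level 1
    have z : ∀ l : Cell, cdeg l ≠ 1 → ζ l = 0 := fun l hl => h0 l (fun h => hl (by exact_mod_cast h))
    have ex : ∀ l, ∑ l', t l l' (ζ l') = t l (some (.d 0)) (ζ (some (.d 0))) + t l (some (.d 1)) (ζ (some (.d 1))) := by
      intro l
      rw [sumC, z none (by decide), z (some .f) (by decide), z (some (.z 0)) (by decide), z (some (.z 1)) (by decide), z (some .zc) (by decide), z (some (.u 0)) (by decide), z (some (.u 1)) (by decide), z (some (.e 0)) (by decide), z (some (.e 1)) (by decide), z (some (.gj 0)) (by decide), z (some (.gj 1)) (by decide), z (some .gc) (by decide), z (some (.v 0)) (by decide), z (some (.v 1)) (by decide)]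
      simp only [map_zero, zero_add, add_zero]
    have e0 := h1 (some (.z 0)) rfl
    have e1 := h1 (some (.z 1)) rfl
    rw [ex] at e0 e1
    obtain ⟨f, hf0, hf1⟩ := q1.l1 _ _ e0 e1
    refine ⟨Pi.single none f, ?_, forall_cell ?_ ?_ ?_ ?_ ?_ ?_ ?_ ?_ ?_ ?_ ?_ ?_ ?_ ?_ ?_ ?_⟩
    · intro l hl
      exact sing none l _ rfl hl
    · intro h; exact absurd h (by decide)
    · intro _
      rw [sum_single, hf0]
    · intro _
      rw [sum_single, hf1]
    · intro h; exact absurd h (by decide)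
    · intro h; exact absurd h (by decide)
    · intro h; exact absurd h (by decide)
    · intro h; exact absurd h (by decide)
    · intro h; exact absurd h (by decide)
    · intro h; exact absurd h (by decide)
    · intro h; exact absurd h (by decide)
    · intro h; exact absurd h (by decide)
    · intro h; exact absurd h (by decide)
    · intro h; exact absurd h (by decide)
    · intro h; exact absurd h (by decide)
    · intro h; exact absurd h (by decide)
    · intro h; exact absurd h (by decide)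
  · -- level 2
    have z : ∀ l : Cell, cdeg l ≠ 2 → ζ l = 0 := fun l hl => h0 l (fun h => hl (by exact_mod_cast h))
    have ex : ∀ l, ∑ l', t l l' (ζ l') = t l (some .f) (ζ (some .f)) + t l (some (.z 0)) (ζ (some (.z 0))) +
        t l (some (.z 1)) (ζ (some (.z 1))) + t l (some (.u 0)) (ζ (some (.u 0))) := by
      intro l
      rw [sumC, z none (by decide), z (some (.d 0)) (by decide), z (some (.d 1)) (by decide), z (some .zc) (by decide), z (some (.u 1)) (by decide), z (some (.e 0)) (by decide), z (some (.e 1)) (by decide), z (some (.gj 0)) (by decide), z (some (.gj 1)) (by decide), z (some .gc) (by decide), z (some (.v 0)) (by decide), z (some (.v 1)) (by decide)]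
      simp only [map_zero, zero_add, add_zero]
    have e0 := h1 (some (.e 0)) rfl
    have e1 := h1 (some (.e 1)) rfl
    have e2 := h1 (some .zc) rfl
    have e3 := h1 (some (.v 0)) rfl
    rw [ex, hz' (some (.e 0)) (some (.z 0)) rfl rfl, hz' (some (.e 0)) (some (.z 1)) rfl rfl,
      hz' (some (.e 0)) (some (.u 0)) rfl rfl, add_zero, add_zero, add_zero] at e0
    rw [ex, hz' (some (.e 1)) (some (.z 0)) rfl rfl, hz' (some (.e 1)) (some (.z 1)) rfl rfl,
      hz' (some (.e 1)) (some (.u 0)) rfl rfl, add_zero, add_zero, add_zero] at e1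
    have hf : ζ (some .f) = 0 := q2.l0 _ e0 e1
    rw [ex, hf, map_zero, zero_add, hz' (some .zc) (some (.u 0)) rfl rfl, add_zero] at e2
    rw [ex, hf, map_zero, zero_add, hz' (some (.v 0)) (some (.z 0)) rfl rfl,
      hz' (some (.v 0)) (some (.z 1)) rfl rfl, zero_add, zero_add] at e3
    have hu : ζ (some (.u 0)) = 0 := b0.1 (by rw [e3, map_zero])
    obtain ⟨p0, p1, hp0, hp1⟩ := q1.l2 _ _ e2
    refine ⟨Pi.single (some (.d 0)) p0 + Pi.single (some (.d 1)) p1, ?_, forall_cell ?_ ?_ ?_ ?_ ?_ ?_ ?_ ?_ ?_ ?_ ?_ ?_ ?_ ?_ ?_ ?_⟩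
    · intro l hl
      simp only [Pi.add_apply, sing (some (.d 0)) l _ rfl hl, sing (some (.d 1)) l _ rfl hl, add_zero]
    · intro h; exact absurd h (by decide)
    · intro h; exact absurd h (by decide)
    · intro h; exact absurd h (by decide)
    · intro _
      rw [← tS_apply, map_add, tS_single, tS_single, hz' (some .f) (some (.d 0)) rfl rfl,
        hz' (some .f) (some (.d 1)) rfl rfl, add_zero, hf]
    · intro _
      rw [← tS_apply, map_add, tS_single, tS_single, hp0]
    · intro _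
      rw [← tS_apply, map_add, tS_single, tS_single, hp1]
    · intro h; exact absurd h (by decide)
    · intro _
      rw [← tS_apply, map_add, tS_single, tS_single, hz' (some (.u 0)) (some (.d 0)) rfl rfl,
        hz' (some (.u 0)) (some (.d 1)) rfl rfl, add_zero, hu]
    · intro h; exact absurd h (by decide)
    · intro h; exact absurd h (by decide)
    · intro h; exact absurd h (by decide)
    · intro h; exact absurd h (by decide)
    · intro h; exact absurd h (by decide)
    · intro h; exact absurd h (by decide)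
    · intro h; exact absurd h (by decide)
    · intro h; exact absurd h (by decide)
  · -- level 3
    have z : ∀ l : Cell, cdeg l ≠ 3 → ζ l = 0 := fun l hl => h0 l (fun h => hl (by exact_mod_cast h))
    have ex : ∀ l, ∑ l', t l l' (ζ l') = t l (some .zc) (ζ (some .zc)) + t l (some (.u 1)) (ζ (some (.u 1))) +
        t l (some (.e 0)) (ζ (some (.e 0))) + t l (some (.e 1)) (ζ (some (.e 1))) +
        t l (some (.v 0)) (ζ (some (.v 0))) := by
      intro l
      rw [sumC, z none (by decide), z (some (.d 0)) (by decide), z (some (.d 1)) (by decide), z (some .f) (by decide), z (some (.z 0)) (by decide), z (some (.z 1)) (by decide), z (some (.u 0)) (by decide), z (some (.gj 0)) (by decide), z (some (.gj 1)) (by decide), z (some .gc) (by decide), z (some (.v 1)) (by decide)]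
      simp only [map_zero, zero_add, add_zero]
    have e0 := h1 (some (.gj 0)) rfl
    have e1 := h1 (some (.gj 1)) rfl
    have e3 := h1 (some (.v 1)) rfl
    rw [ex, hz' (some (.gj 0)) (some .zc) rfl rfl, hz' (some (.gj 0)) (some (.u 1)) rfl rfl,
      hz' (some (.gj 0)) (some (.v 0)) rfl rfl, zero_add, zero_add, add_zero] at e0
    rw [ex, hz' (some (.gj 1)) (some .zc) rfl rfl, hz' (some (.gj 1)) (some (.u 1)) rfl rfl,
      hz' (some (.gj 1)) (some (.v 0)) rfl rfl, zero_add, zero_add, add_zero] at e1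
    rw [ex, hz' (some (.v 1)) (some .zc) rfl rfl, hz' (some (.v 1)) (some (.e 0)) rfl rfl,
      hz' (some (.v 1)) (some (.e 1)) rfl rfl, hz' (some (.v 1)) (some (.v 0)) rfl rfl,
      zero_add, add_zero, add_zero, add_zero] at e3
    have hu : ζ (some (.u 1)) = 0 := b1.1 (by rw [e3, map_zero])
    obtain ⟨f, hf0, hf1⟩ := q2.l1 _ _ e0 e1
    obtain ⟨w0, w1, hw⟩ := q1.l3 (ζ (some .zc) - t (some .zc) (some .f) f)
    obtain ⟨w, hv⟩ := b0.2 (ζ (some (.v 0)))
    refine ⟨Pi.single (some .f) f + Pi.single (some (.z 0)) w0 + Pi.single (some (.z 1)) w1 +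
      Pi.single (some (.u 0)) w, ?_, forall_cell ?_ ?_ ?_ ?_ ?_ ?_ ?_ ?_ ?_ ?_ ?_ ?_ ?_ ?_ ?_ ?_⟩
    · intro l hl
      simp only [Pi.add_apply, sing (some .f) l _ rfl hl, sing (some (.z 0)) l _ rfl hl, sing (some (.z 1)) l _ rfl hl, sing (some (.u 0)) l _ rfl hl, add_zero]
    · intro h; exact absurd h (by decide)
    · intro h; exact absurd h (by decide)
    · intro h; exact absurd h (by decide)
    · intro h; exact absurd h (by decide)
    · intro h; exact absurd h (by decide)
    · intro h; exact absurd h (by decide)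
    · intro _
      rw [← tS_apply, map_add, map_add, map_add, tS_single, tS_single, tS_single, tS_single,
        hz' (some .zc) (some (.u 0)) rfl rfl, add_zero, add_assoc, hw]
      abel
    · intro h; exact absurd h (by decide)
    · intro _
      rw [← tS_apply, map_add, map_add, map_add, tS_single, tS_single, tS_single, tS_single,
        hz' (some (.u 1)) (some .f) rfl rfl, hz' (some (.u 1)) (some (.z 0)) rfl rfl,
        hz' (some (.u 1)) (some (.z 1)) rfl rfl, hz' (some (.u 1)) (some (.u 0)) rfl rfl, add_zero,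
        add_zero, add_zero, hu]
    · intro _
      rw [← tS_apply, map_add, map_add, map_add, tS_single, tS_single, tS_single, tS_single,
        hz' (some (.e 0)) (some (.z 0)) rfl rfl,
        hz' (some (.e 0)) (some (.z 1)) rfl rfl, hz' (some (.e 0)) (some (.u 0)) rfl rfl, add_zero,
        add_zero, add_zero, hf0]
    · intro _
      rw [← tS_apply, map_add, map_add, map_add, tS_single, tS_single, tS_single, tS_single,
        hz' (some (.e 1)) (some (.z 0)) rfl rfl,
        hz' (some (.e 1)) (some (.z 1)) rfl rfl, hz' (some (.e 1)) (some (.u 0)) rfl rfl, add_zero,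
        add_zero, add_zero, hf1]
    · intro h; exact absurd h (by decide)
    · intro h; exact absurd h (by decide)
    · intro h; exact absurd h (by decide)
    · intro _
      rw [← tS_apply, map_add, map_add, map_add, tS_single, tS_single, tS_single, tS_single,
        hz' (some (.v 0)) (some .f) rfl rfl, hz' (some (.v 0)) (some (.z 0)) rfl rfl,
        hz' (some (.v 0)) (some (.z 1)) rfl rfl, zero_add, zero_add, zero_add, hv]
    · intro h; exact absurd h (by decide)
  · -- level 4
    have z : ∀ l : Cell, cdeg l ≠ 4 → ζ l = 0 := fun l hl => h0 l (fun h => hl (by exact_mod_cast h))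
    have ex : ∀ l, ∑ l', t l l' (ζ l') = t l (some (.gj 0)) (ζ (some (.gj 0))) + t l (some (.gj 1)) (ζ (some (.gj 1))) +
        t l (some (.v 1)) (ζ (some (.v 1))) := by
      intro l
      rw [sumC, z none (by decide), z (some (.d 0)) (by decide), z (some (.d 1)) (by decide), z (some .f) (by decide), z (some (.z 0)) (by decide), z (some (.z 1)) (by decide), z (some .zc) (by decide), z (some (.u 0)) (by decide), z (some (.u 1)) (by decide), z (some (.e 0)) (by decide), z (some (.e 1)) (by decide), z (some .gc) (by decide), z (some (.v 0)) (by decide)]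
      simp only [map_zero, zero_add, add_zero]
    have e0 := h1 (some .gc) rfl
    rw [ex, hz' (some .gc) (some (.v 1)) rfl rfl, add_zero] at e0
    obtain ⟨p0, p1, hp0, hp1⟩ := q2.l2 _ _ e0
    obtain ⟨w, hv⟩ := b1.2 (ζ (some (.v 1)))
    refine ⟨Pi.single (some (.e 0)) p0 + Pi.single (some (.e 1)) p1 + Pi.single (some (.u 1)) w, ?_, forall_cell ?_ ?_ ?_ ?_ ?_ ?_ ?_ ?_ ?_ ?_ ?_ ?_ ?_ ?_ ?_ ?_⟩
    · intro l hl
      simp only [Pi.add_apply, sing (some (.e 0)) l _ rfl hl, sing (some (.e 1)) l _ rfl hl, sing (some (.u 1)) l _ rfl hl, add_zero]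
    · intro h; exact absurd h (by decide)
    · intro h; exact absurd h (by decide)
    · intro h; exact absurd h (by decide)
    · intro h; exact absurd h (by decide)
    · intro h; exact absurd h (by decide)
    · intro h; exact absurd h (by decide)
    · intro h; exact absurd h (by decide)
    · intro h; exact absurd h (by decide)
    · intro h; exact absurd h (by decide)
    · intro h; exact absurd h (by decide)
    · intro h; exact absurd h (by decide)
    · intro _
      rw [← tS_apply, map_add, map_add, tS_single, tS_single, tS_single,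
        hz' (some (.gj 0)) (some (.u 1)) rfl rfl, add_zero, hp0]
    · intro _
      rw [← tS_apply, map_add, map_add, tS_single, tS_single, tS_single,
        hz' (some (.gj 1)) (some (.u 1)) rfl rfl, add_zero, hp1]
    · intro h; exact absurd h (by decide)
    · intro h; exact absurd h (by decide)
    · intro _
      rw [← tS_apply, map_add, map_add, tS_single, tS_single, tS_single,
        hz' (some (.v 1)) (some (.e 0)) rfl rfl, hz' (some (.v 1)) (some (.e 1)) rfl rfl, zero_add,
        zero_add, hv]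
  · -- level 5
    obtain ⟨w0, w1, hw⟩ := q2.l3 (ζ (some .gc))
    refine ⟨Pi.single (some (.gj 0)) w0 + Pi.single (some (.gj 1)) w1, ?_, forall_cell ?_ ?_ ?_ ?_ ?_ ?_ ?_ ?_ ?_ ?_ ?_ ?_ ?_ ?_ ?_ ?_⟩
    · intro l hl
      simp only [Pi.add_apply, sing (some (.gj 0)) l _ rfl hl, sing (some (.gj 1)) l _ rfl hl, add_zero]
    · intro h; exact absurd h (by decide)
    · intro h; exact absurd h (by decide)
    · intro h; exact absurd h (by decide)
    · intro h; exact absurd h (by decide)
    · intro h; exact absurd h (by decide)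
    · intro h; exact absurd h (by decide)
    · intro h; exact absurd h (by decide)
    · intro h; exact absurd h (by decide)
    · intro h; exact absurd h (by decide)
    · intro h; exact absurd h (by decide)
    · intro h; exact absurd h (by decide)
    · intro h; exact absurd h (by decide)
    · intro h; exact absurd h (by decide)
    · intro _
      rw [← tS_apply, map_add, tS_single, tS_single, hw]
    · intro h; exact absurd h (by decide)
    · intro h; exact absurd h (by decide)

end cells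

end Crest.Agent.R186.ZZH380
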