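import Crest.Agent.R186.KHc_302
import Crest.Agent.R186.CEbr_247
import Crest.Agent.R186.FamT_462
import Crest.Agent.R186.FamB_654
import Crest.Agent.R186.Rel_306
import Crest.Agent.R186.ZZH_380

/-!
Row 186 (A), short road of helper306, leaf (H) (helper654): the concrete letters
`x_j, d_j, h, t, z_j` of `R'` as 462's structure `Lt` over `E := ev (CEr π s hs)`; the adapter
`Lt → XDHT`; the table of the sixteen cells in these letters.
-/

set_option autoImplicit false
set_option linter.style.haveILetI false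

noncomputable section

namespace Crest.Agent.R186.LtR654

open DefsQ830 PBW128 Win810 SM890 WL221 C2b44 Cells221 KHc302 HL462
open DefsQ830.Gen

/-- 462's letters as letters of the row system -/
def xdht {K : Type} [Field K] {w : WD K} {E : KHev302.CE w} {g : K} (L : HL462.Lt E g)
    (X : Frame515.LCells w.dga) : FamU654.XDHT (FamU654.rowSys E X) g where
  x := L.x
  d := L.d
  s := L.z
  h := L.h
  t := L.t
  x_mem := L.x_mem
  d_mem := L.d_mem
  s_mem := L.z_mem
  h_mem := L.h_mem
  t_mem := L.t_mem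
  x_D := L.Dx
  d_D := L.Dd
  h_D := L.Dh
  t_D := L.Dt
  ht0 := L.ht0
  ht1 := L.ht1
  xt := L.xt
  td := L.td
  xh := L.xh
  hd := L.hd

variable {K : Type} [Field K] (π : Par K)

theorem x_pcZ (j : Fin 2) : X π (x j) ∈ pcZ π 1 0 0 := by
  have h := PBW128.X_mem_pc π (x j)
  rw [← pcZ_nat] at h
  exact h

theorem d_pcZ (j : Fin 2) : X π (d j) ∈ pcZ π (-1) 1 0 := by
  have h := PBW128.X_mem_pc π (d j)
  rw [← pcZ_nat] at h
  exact h

theorem h_pcZ : X π h ∈ pcZ π 0 1 0 := by
  have h := PBW128.X_mem_pc π .h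
  rw [← pcZ_nat] at h
  exact h

theorem z_pcZ (j : Fin 2) : X π (z j) ∈ pcZ π (-1) 2 1 := by
  have h := PBW128.X_mem_pc π (z j)
  rw [← pcZ_nat] at h
  exact h

theorem tR_pcZ : tR π ∈ pcZ π 0 1 0 := by
  have h := Cells221.tR_mem π
  rw [← pcZ_nat] at h
  exact h

/-! ### the letters of `R'` -/

def xL (j : Fin 2) : RL π := prL π (X π (x j))
def dL (j : Fin 2) : RL π := prL π (X π (d j))
def hL : RL π := prL π (X π h)
def tL : RL π := prL π (tR π)
def zL (j : Fin 2) : RL π := prL π (X π (z j))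

/-- `t d_j + g d_j t = D (zc j)` -/
def zcL (j : Fin 2) : RL π :=
  if j = 0 then ((π.g - 1) * (π.c 1)⁻¹) • zL π 1 else ((π.g - 1) * (π.c 0)⁻¹) • zL π 0

theorem DX (a : DefsQ830.Gen) (ha : dGen π a = 0) : WL221.DL π (prL π (X π a)) = 0 := by
  rw [DL_prL, Der580.D_X, ha, map_zero, map_zero]

theorem zcL_mem (j : Fin 2) : zcL π j ∈ pcL π (-1) 2 1 := by
  unfold zcL
  split_ifs
  · exact Submodule.smul_mem _ _ (prL_mem (z_pcZ π 1))
  · exact Submodule.smul_mem _ _ (prL_mem (z_pcZ π 0))

theorem add_two {a b c : RL π} (h : a + b = c) : a = b + c := by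
  rw [← h, ← add_assoc, add_comm b a, add_assoc, RL_two, add_zero]

theorem td_L (j : Fin 2) : tL π * dL π j = π.g • (dL π j * tL π) + WL221.DL π (zcL π j) := by
  rcases f2 j with rfl | rfl
  · have h := congrArg (prL π) (Rel306.td0 π)
    simp only [map_add, map_mul, map_smul] at h
    rw [← DL_prL] at h
    have e : WL221.DL π (zcL π 0) = ((π.g - 1) * (π.c 1)⁻¹) • WL221.DL π (zL π 1) := by
      rw [← map_smul]; rfl
    rw [e]
    exact add_two π h
  · have h := congrArg (prL π) (Rel306.td1 π)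
    simp only [map_add, map_mul, map_smul] at h
    rw [← DL_prL] at h
    have e : WL221.DL π (zcL π 1) = ((π.g - 1) * (π.c 0)⁻¹) • WL221.DL π (zL π 0) := by
      rw [← map_smul]; rfl
    rw [e]
    exact add_two π h

theorem ht0_L : tL π = hL π + (π.g - 1) • (dL π 0 * xL π 0 + dL π 1 * xL π 1) := by
  have h := congrArg (prL π) (Rel306.ht0 π)
  simp only [map_add, map_mul, map_smul] at h
  exact h

theorem ht1_L : π.g ^ 2 • tL π =
    hL π + (π.g - 1) • (xL π 0 * dL π 0 + π.g • (xL π 1 * dL π 1)) := by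
  have h := congrArg (prL π) (Rel306.ht1 π)
  simp only [map_add, map_mul, map_smul] at h
  exact h

theorem xt_L (j : Fin 2) : xL π j * tL π = π.g • (tL π * xL π j) := by
  have h := congrArg (prL π) (Rel306.xt π j)
  simp only [map_mul, map_smul] at h
  exact h

theorem xh_L (j : Fin 2) : xL π j * hL π = hL π * xL π j := by
  have h := congrArg (prL π) (Rel306.xh π j)
  simp only [map_mul] at h
  exact h

theorem hd_L (j : Fin 2) : hL π * dL π j = dL π j * hL π := by
  have h := congrArg (prL π) (Rel306.dh π j)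
  simp only [map_mul] at h
  exact h.symm

theorem DtL : WL221.DL π (tL π) = 0 := by
  change WL221.DL π (prL π (tR π)) = 0
  rw [DL_prL, D_tR, map_zero]

variable (s : ℕ) (hs : 5 ≤ s)

/-- the concrete closing data, 302's first form -/
abbrev Er : KHev302.CE (WG π s (two_le hs)) := CEbr247.ev (CEr π s hs)

/-- **the concrete letters** -/
def lt : HL462.Lt (Er π s hs) π.g where
  x := xL π
  d := dL π
  h := hL π
  t := tL π
  z := zcL π
  x_mem j := prL_mem (x_pcZ π j)
  d_mem j := prL_mem (d_pcZ π j)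
  h_mem := prL_mem (h_pcZ π)
  t_mem := prL_mem (tR_pcZ π)
  z_mem := zcL_mem π
  Dx _ := DX π _ rfl
  Dd _ := DX π _ rfl
  Dh := DX π _ rfl
  Dt := DtL π
  ht0 := ht0_L π
  ht1 := ht1_L π
  xt := xt_L π
  td := td_L π
  xh := xh_L π
  hd := hd_L π

/-! ### the table of the sixteen cells -/

section table

theorem cc_dn (j : Fin 2) : cL π (some (.d j)) none = dL π j := rfl

theorem cc_zd0 (j : Fin 2) : cL π (some (.z j)) (some (.d 0)) = xL π j * dL π 1 :=
  map_mul (prL π) _ _

theorem cc_zd1 (j : Fin 2) : cL π (some (.z j)) (some (.d 1)) = π.g • (xL π j * dL π 0) := by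
  change prL π (π.g • (X π (x j) * X π (d 0))) = _
  rw [map_smul, map_mul]
  rfl

theorem cc_cz0 : cL π (some .zc) (some (.z 0)) = xL π 1 := rfl

theorem cc_cz1 : cL π (some .zc) (some (.z 1)) = xL π 0 := rfl

theorem cc_cf : cL π (some .zc) (some .f) = hL π := rfl

theorem cc_ef (j : Fin 2) : cL π (some (.e j)) (some .f) = π.c j • dL π j :=
  map_smul (prL π) _ _

theorem cc_ge0 (j : Fin 2) : cL π (some (.gj j)) (some (.e 0)) =
    ((π.c j)⁻¹ * π.g) • (xL π j * dL π 1) := by
  change prL π (((π.c j)⁻¹ * π.g) • (X π (x j) * X π (d 1))) = _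
  rw [map_smul, map_mul]
  rfl

theorem cc_ge1 (j : Fin 2) : cL π (some (.gj j)) (some (.e 1)) =
    ((π.c j)⁻¹ * π.g ^ 3) • (xL π j * dL π 0) := by
  change prL π (((π.c j)⁻¹ * π.g ^ 3) • (X π (x j) * X π (d 0))) = _
  rw [map_smul, map_mul]
  rfl

theorem cc_gg0 : cL π (some .gc) (some (.gj 0)) = (π.c 1)⁻¹ • xL π 1 :=
  map_smul (prL π) _ _

theorem cc_gg1 : cL π (some .gc) (some (.gj 1)) = (π.c 0)⁻¹ • xL π 0 :=
  map_smul (prL π) _ _

theorem cc_vu (i : Fin 2) : cL π (some (.v i)) (some (.u i)) = tL π + (π.g ^ 2)⁻¹ • hL π := by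
  change prL π (if i = i then tR π + (π.g ^ 2)⁻¹ • X π h else 0) = _
  rw [if_pos rfl, map_add, map_smul]
  rfl

/-- the other entries between adjacent levels vanish -/
theorem cc_zero (l l' : Cell) (h1 : cdeg l = cdeg l' + 1) (h2 : ZZH380.tab l l' = false) :
    cL π l l' = 0 := by
  have key : C2b44.c0 π l l' = 0 := by
    rcases l with _ | l
    · rfl
    rcases l' with _ | l'
    · exfalso
      cases l <;> simp [ZZH380.tab, cdeg] at h1 h2 <;> omega
    · cases l <;> cases l' <;> first
        | rfl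
        | (exfalso; simp [ZZH380.tab] at h2; done)
        | (exfalso; simp only [cdeg] at h1; omega)
        | skip
      all_goals
        rename_i i j
        have h3 : ¬ (i = j) := fun h => by
          subst h
          simp [ZZH380.tab] at h2
        have h4 : ¬ (j = i) := fun h => h3 h.symm
        simp [C2b44.c0, cf, h4]
  change prL π (C2b44.c0 π l l') = 0
  rw [key, map_zero]

end table

end Crest.Agent.R186.LtR654
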