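import Crest.Agent.R186.ThK_763
import Crest.Agent.R186.WLM_982

/-!
# Row 186, half (A), short road (helper763): the INSTANCE of 810's `TRD` on
`w = (bdM π s hs).ext`, `S = R'' ⊕ M`.

`Fl i = (W-level i + 1 of R'') ⊕ (socle level i - 2 of M)`; `Fl 0 = J ⊕ M`, `Fl 5 = ⊥`; the steps are
generated by `wq q` (level `i + 1`) and by `o_q` (socle level `i - 2`).
-/

set_option autoImplicit false

noncomputable section

namespace Crest.Agent.R186.TRDj763

open Crest.Agent.R186.DefsQ830 Crest.Agent.R186.DefsQ830.Gen Crest.Agent.R186.PBW128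
open Crest.Agent.R186.Win810 Crest.Agent.R186.SM890 Crest.Agent.R186.TR810
open Crest.Agent.R186.C2b362 (pz J)
open Crest.Agent.R186.C2b44 (kill kill_h kill_x)
open Crest.Agent.R186.ThK763 Crest.Agent.R186.WLF296 Crest.Agent.R186.WLM982

variable {K : Type} [Field K] (π : Par K)

/-! ### `WLF296.Fl` is a left ideal -/

/-- left multiplication by an element of `R'` which `q`-commutes with `W` -/
theorem lq_left' {a : R π} (ha : kill π a = a) (c : Wb → K)
    (hc : ∀ q, a * wq π q = c q • (wq π q * a)) (q : Wb) (r : R π) :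
    lq π q (a * r) = c q • (a * lq π q r) := by
  have e : a * r = ∑ q, wq π q * (c q • (a * lq π q r)) := by
    conv_lhs => rw [sum_lq π r]
    rw [Finset.mul_sum]
    refine Finset.sum_congr rfl fun q _ => ?_
    rw [← mul_assoc, hc, smul_mul_assoc, mul_assoc, mul_smul_comm]
  rw [e, lq_sum π _ (fun q => by rw [map_smul, map_mul, ha, kill_lq])]

/-- an element which `q`-commutes with the letters `q`-commutes with `wq` -/
theorem comm_wq {a : R π} (c : Y → K) (hc : ∀ b : Y, a * X π b.toGen = c b • (X π b.toGen * a)) (q : Wb) :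
    ∃ c' : K, a * wq π q = c' • (wq π q * a) := by
  cases q with
  | one => exact ⟨1, by rw [wq_one, mul_one, one_mul, one_smul]⟩
  | y s => exact ⟨c (.y s), by rw [wq_y]; exact hc (.y s)⟩
  | yb s => exact ⟨c (.yb s), by rw [wq_yb]; exact hc (.yb s)⟩
  | pi =>
    refine ⟨c (.y 0) * c (.y 1), ?_⟩
    have h0 : a * X π (.y 0) = c (.y 0) • (X π (.y 0) * a) := hc (.y 0)
    have h1 : a * X π (.y 1) = c (.y 1) • (X π (.y 1) * a) := hc (.y 1)
    rw [wq_pi, ← mul_assoc, h0, smul_mul_assoc, mul_assoc, h1, mul_smul_comm, smul_smul, mul_assoc]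

theorem Fl_gen {a : R π} (ha : kill π a = a) (c : Y → K)
    (hc : ∀ b : Y, a * X π b.toGen = c b • (X π b.toGen * a)) {n : ℕ} {r : R π} (hr : r ∈ Fl π n) :
    a * r ∈ Fl π n := by
  have h := comm_wq π c hc
  choose c' hc' using h
  intro q hq
  rw [lq_left' π ha c' hc', hr q hq, mul_zero, smul_zero]

theorem lev_le (q : Wb) : lev q ≤ 2 := by cases q <;> simp [lev]

theorem Fl_Y (a : Y) {n : ℕ} {r : R π} (hr : r ∈ Fl π n) : X π a.toGen * r ∈ Fl π (n + 1) := by
  have e : X π a.toGen * r = ∑ q, (wq π (yw a) * wq π q) * lq π q r := by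
    conv_lhs => rw [sum_lq π r]
    rw [Finset.mul_sum]
    refine Finset.sum_congr rfl fun q _ => ?_
    rw [wq_yw, mul_assoc]
  rw [e]
  refine Submodule.sum_mem _ fun q _ => ?_
  by_cases h : lev q < n
  · rw [hr q h, mul_zero]; exact Submodule.zero_mem _
  · obtain ⟨c, q', h1, h2⟩ := wq_mul π (yw a) q
    rw [h1, smul_mul_assoc]
    rcases h2 with h2 | h2
    · rw [h2, zero_smul]; exact Submodule.zero_mem _
    · refine Submodule.smul_mem _ _ (Fl_anti ?_ (wq_mem_Fl q' _))
      have : lev (yw a) = 1 := by cases a <;> rfl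
      omega

/-- **the `W`-filtration of `R''` is stable under left multiplication** -/
theorem Fl_left {n : ℕ} (a : R π) : ∀ {r : R π}, r ∈ Fl π n → a * r ∈ Fl π n := by
  refine PBW128.R_ind π (P := fun a => ∀ {r : R π}, r ∈ Fl π n → a * r ∈ Fl π n) ?_ ?_ ?_ ?_ a
  · intro c r hr
    rw [Algebra.algebraMap_eq_smul_one, smul_mul_assoc, one_mul]
    exact Submodule.smul_mem _ _ hr
  · intro g r hr
    have hE : ∀ l : E, X π l.toGen * r ∈ Fl π n := by
      intro l
      refine Fl_gen π (by cases l <;> simp [E.toGen]) (fun b => (chi π b l)⁻¹) (fun b => ?_) hr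
      rw [rYE, smul_smul, inv_mul_cancel₀ (chi_ne π b l), one_smul]
    cases g with
    | y s => exact Fl_anti (Nat.le_succ n) (Fl_Y π (.y s) hr)
    | yb s => exact Fl_anti (Nat.le_succ n) (Fl_Y π (.yb s) hr)
    | h => exact Fl_h hr
    | x c =>
      intro q hq
      rw [lq_x, hr q hq, mul_zero, smul_zero]
    | d j => exact hE (.d j)
    | f => exact hE .f
    | z j => exact hE (.z j)
    | zc => exact hE .zc
    | u t => exact hE (.u t)
    | e j => exact hE (.e j)
    | gj j => exact hE (.gj j)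
    | gc => exact hE .gc
    | v j => exact hE (.v j)
  · intro a b ha hb r hr
    rw [mul_assoc]
    exact ha (hb hr)
  · intro a b ha hb r hr
    rw [add_mul]
    exact Submodule.add_mem _ (ha hr) (hb hr)

/-! ### generation and uniqueness of a step -/

/-- generation, `R''` -/
theorem Fl_step {n : ℕ} {r : R π} (hr : r ∈ Fl π n) :
    r - ∑ q : {q : Wb // lev q = n}, wq π q.1 * lq π q.1 r ∈ Fl π (n + 1) := by
  intro q' hq'
  rw [map_sub, map_sum, sub_eq_zero]
  by_cases h : lev q' = n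
  · rw [Finset.sum_eq_single (⟨q', h⟩ : {q : Wb // lev q = n})]
    · rw [lq_wq_mul π q' q' _ le_rfl, if_pos rfl, kill_lq]
    · rintro ⟨q, hq⟩ _ hne
      rw [lq_wq_mul π q q' _ (by rw [h, hq]), if_neg]
      rintro rfl
      exact hne rfl
    · intro h0; exact absurd (Finset.mem_univ _) h0
  · have h1 : lev q' < n := by omega
    rw [hr q' h1]
    symm
    refine Finset.sum_eq_zero ?_
    rintro ⟨q, hq⟩ _
    rw [lq_wq_mul π q q' _ (by rw [hq]; omega), if_neg]
    rintro rfl
    exact h hq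

/-- uniqueness, `R''` -/
theorem Fl_uniq {n : ℕ} (a : {q : Wb // lev q = n} → R π)
    (h : ∑ q : {q : Wb // lev q = n}, wq π q.1 * a q ∈ Fl π (n + 1))
    (q : {q : Wb // lev q = n}) : kill π (a q) = 0 := by
  have h1 := h q.1 (by rw [q.2]; omega)
  rw [map_sum, Finset.sum_eq_single q] at h1
  · rwa [lq_wq_mul π _ _ _ le_rfl, if_pos rfl] at h1
  · intro q' _ hne
    rw [lq_wq_mul π _ _ _ (by rw [q.2, q'.2]), if_neg]
    intro h2
    exact hne (Subtype.ext h2.symm)
  · intro h0; exact absurd (Finset.mem_univ _) h0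

/-- generation, `M` -/
theorem FM_step {n i : ℕ} (hi : n + 2 = i) {m : MM π} (hm : m ∈ FM π n) :
    m - ∑ q : {q : Wb // levM q + 2 = i}, ro π q.1 (lM π q.1 m) ∈ FM π (n + 1) := by
  intro q' hq'
  rw [map_sub, map_sum, sub_eq_zero]
  by_cases h : levM q' = n
  · rw [Finset.sum_eq_single (⟨q', by omega⟩ : {q : Wb // levM q + 2 = i})]
    · rw [lM_ro π q' q' _ le_rfl, if_pos rfl, kill_lM]
    · rintro ⟨q, hq⟩ _ hne
      rw [lM_ro π q q' _ (by omega), if_neg]
      rintro rfl
      exact hne rfl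
    · intro h0; exact absurd (Finset.mem_univ _) h0
  · have h1 : levM q' < n := by omega
    rw [hm q' h1]
    symm
    refine Finset.sum_eq_zero ?_
    rintro ⟨q, hq⟩ _
    rw [lM_ro π q q' _ (by omega), if_neg]
    rintro rfl
    omega

/-- uniqueness, `M` -/
theorem FM_uniq {i : ℕ} (a : {q : Wb // levM q + 2 = i} → R π)
    (h : ∑ q : {q : Wb // levM q + 2 = i}, ro π q.1 (a q) ∈ FM π (i - 1))
    (q : {q : Wb // levM q + 2 = i}) : kill π (a q) = 0 := by
  have hq0 := q.2
  have h1 := h q.1 (by omega)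
  rw [map_sum, Finset.sum_eq_single q] at h1
  · rwa [lM_ro π _ _ _ le_rfl, if_pos rfl] at h1
  · intro q' _ hne
    have hq1 := q'.2
    rw [lM_ro π _ _ _ (by omega), if_neg]
    intro h2
    exact hne (Subtype.ext h2.symm)
  · intro h0; exact absurd (Finset.mem_univ _) h0

/-! ### the extension -/

variable (s : ℕ) (hs : 2 ≤ s)

/-- second component -/
def se : (wS π s hs).S →ₗ[K] MM π where
  toFun z := z.2
  map_add' _ _ := rfl
  map_smul' _ _ := rfl

theorem ext_fs {a b : (wS π s hs).S} (h1 : fi π s hs a = fi π s hs b) (h2 : se π s hs a = se π s hs b) :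
    a = b := Prod.ext h1 h2

theorem se_mul (a b : (wS π s hs).S) :
    se π s hs (a * b) = fi π s hs a • se π s hs b + MulOpposite.op (fi π s hs b) • se π s hs a := rfl

theorem se_il (r : R π) : se π s hs (il π s hs r) = 0 := rfl

theorem se_ir (m : MM π) : se π s hs (ir π s hs m) = m := rfl

theorem se_D (z : (wS π s hs).S) : se π s hs ((wS π s hs).D z) = dMM π (se π s hs z) := rfl

theorem se_mem {P A C : ℤ} {z : (wS π s hs).S} (h : z ∈ (wS π s hs).pc P A C) :
    se π s hs z ∈ pcM π s P A C := h.2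

theorem ir_pc {P A C : ℤ} {m : MM π} (h : m ∈ pcM π s P A C) : ir π s hs m ∈ (wS π s hs).pc P A C :=
  ⟨Submodule.zero_mem _, h⟩

theorem se_il_mul (r : R π) (z : (wS π s hs).S) : se π s hs (il π s hs r * z) = r • se π s hs z := by
  rw [se_mul, se_il, smul_zero, add_zero, fi_il]

theorem se_ir_mul (m : MM π) (z : (wS π s hs).S) :
    se π s hs (ir π s hs m * z) = MulOpposite.op (fi π s hs z) • m := by
  rw [se_mul, se_ir, fi_ir, zero_smul, zero_add]

theorem fi_ir_mul (m : MM π) (z : (wS π s hs).S) : fi π s hs (ir π s hs m * z) = 0 := by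
  rw [fi_mul, fi_ir, zero_mul]

/-- the filtration of `J ⊕ M` -/
def FS (i : ℕ) : Submodule K (wS π s hs).S :=
  (Fl π (i + 1)).comap (fi π s hs) ⊓ (FM π (i - 2)).comap (se π s hs)

variable {π s hs}

theorem mem_FS {i : ℕ} {z : (wS π s hs).S} :
    z ∈ FS π s hs i ↔ fi π s hs z ∈ Fl π (i + 1) ∧ se π s hs z ∈ FM π (i - 2) := Iff.rfl

theorem mem_FS_zero {z : (wS π s hs).S} : z ∈ FS π s hs 0 ↔ fi π s hs z ∈ J π := by
  rw [mem_FS, ← mem_Fl_one]
  exact ⟨fun h => h.1, fun h => ⟨h, mem_FM_zero _⟩⟩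

theorem fi_zero_of {i : ℕ} (hi : 2 ≤ i) {z : (wS π s hs).S} (hz : fi π s hs z ∈ Fl π (i + 1)) :
    fi π s hs z = 0 := Fl_three (Fl_anti (by omega) hz)

theorem FS_l (i : ℕ) (a : (wS π s hs).S) {z : (wS π s hs).S} (hz : z ∈ FS π s hs i) :
    a * z ∈ FS π s hs i := by
  rw [mem_FS] at hz ⊢
  refine ⟨?_, ?_⟩
  · rw [fi_mul]
    exact Fl_left π _ hz.1
  · rw [se_mul]
    refine Submodule.add_mem _ (FM_left π _ hz.2) ?_
    rcases Nat.lt_or_ge i 2 with h | h
    · rw [show i - 2 = 0 by omega]; exact mem_FM_zero _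
    · rw [fi_zero_of h hz.1, MulOpposite.op_zero, zero_smul]
      exact Submodule.zero_mem _

theorem FS_r (i : ℕ) (a : (wS π s hs).S) {z : (wS π s hs).S} (hz : z ∈ FS π s hs i) :
    z * a ∈ FS π s hs i := by
  rw [mem_FS] at hz ⊢
  refine ⟨?_, ?_⟩
  · rw [fi_mul]
    exact Fl_mul hz.1 _
  · rw [se_mul]
    refine Submodule.add_mem _ ?_ (FM_right hz.2 _)
    rcases Nat.lt_or_ge i 2 with h | h
    · rw [show i - 2 = 0 by omega]; exact mem_FM_zero _
    · rw [fi_zero_of h hz.1, zero_smul]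
      exact Submodule.zero_mem _

theorem FS_D (i : ℕ) {z : (wS π s hs).S} (hz : z ∈ FS π s hs i) : (wS π s hs).D z ∈ FS π s hs i :=
  ⟨Fl_D hz.1, FM_D hz.2⟩

variable (π s hs)

/-- index set of a step -/
abbrev Ka (i : ℕ) : Type := {q : Wb // lev q = i + 1} ⊕ {q : Wb // levM q + 2 = i}

/-- generators of a step -/
def uu (i : ℕ) : Ka i → (wS π s hs).S
  | .inl q => il π s hs (wq π q.1)
  | .inr q => ir π s hs (oM π q.1 1)

/-- inner degree -/
def uP (i : ℕ) : Ka i → ℤ
  | .inl _ => 0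
  | .inr _ => 1

/-- cohomological degree -/
def uC (i : ℕ) : Ka i → ℕ
  | .inl q => wC q.1.word
  | .inr q => s - wC q.1.word

theorem oM_one_eq (q : Wb) : oM π q 1 = ro π q 1 :=
  (congrArg (oM π q) (map_one (tau π (Tq π q)))).symm

theorem op_oM (q : Wb) (r : R π) : MulOpposite.op r • oM π q 1 = ro π q r := (ro_eq π q r).symm

theorem uu_mem (i : ℕ) (k : Ka i) : uu π s hs i k ∈ (wS π s hs).pc (-uP i k) 0 (uC s i k) := by
  cases k with
  | inl q =>
    refine il_pc π s hs ?_
    change wq π q.1 ∈ pcZ π (-0) 0 (wC q.1.word : ℤ)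
    have h := nf_mem_pc π (0, 0, 0, [], q.1)
    rw [← pcZ_nat] at h
    have e : nf π (0, 0, 0, [], q.1) = wq π q.1 := by simp [nf, we, wd]
    rw [e] at h
    simpa [dPx, dAx, dCx] using h
  | inr q =>
    refine ir_pc π s hs ?_
    change oM π q.1 1 ∈ pcM π s (-1) 0 ((s - wC q.1.word : ℕ) : ℤ)
    have h2 := wC_word_le q.1
    refine mem_pcM π s q.1 (C' := 0) ?_ (by push_cast [Nat.cast_sub (h2.trans hs)]; ring)
    exact (WR π).one_mem

theorem fi_sum {i : ℕ} (z : Ka i → (wS π s hs).S) :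
    fi π s hs (∑ k, uu π s hs i k * z k) =
      ∑ q : {q : Wb // lev q = i + 1}, wq π q.1 * fi π s hs (z (.inl q)) := by
  rw [map_sum, Fintype.sum_sum_type]
  have h : ∑ q : {q : Wb // levM q + 2 = i}, fi π s hs (uu π s hs i (.inr q) * z (.inr q)) = 0 :=
    Finset.sum_eq_zero fun q _ => fi_ir_mul π s hs _ _
  rw [h, add_zero]
  rfl

theorem se_sum {i : ℕ} (z : Ka i → (wS π s hs).S) :
    se π s hs (∑ k, uu π s hs i k * z k) =
      ∑ q : {q : Wb // lev q = i + 1}, wq π q.1 • se π s hs (z (.inl q)) +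
      ∑ q : {q : Wb // levM q + 2 = i}, ro π q.1 (fi π s hs (z (.inr q))) := by
  rw [map_sum, Fintype.sum_sum_type]
  congr 1
  · exact Finset.sum_congr rfl fun q _ => se_il_mul π s hs _ _
  · refine Finset.sum_congr rfl fun q _ => ?_
    exact (se_ir_mul π s hs _ _).trans (op_oM π _ _)

theorem uu_J (i : ℕ) (k : Ka i) {z : (wS π s hs).S} (hz : z ∈ FS π s hs 0) :
    uu π s hs i k * z ∈ FS π s hs (i + 1) := by
  have hz' : kill π (fi π s hs z) = 0 := by
    rw [← lq_one]
    exact hz.1 .one (by simp [lev])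
  cases k with
  | inl q =>
    have hq := lev_le q.1
    have hq' := q.2
    rw [mem_FS]
    refine ⟨?_, ?_⟩
    · change fi π s hs (il π s hs (wq π q.1) * z) ∈ Fl π (i + 1 + 1)
      rw [fi_mul, fi_il]
      intro q' h'
      rw [lq_wq_mul π q.1 q' _ (by omega)]
      split_ifs
      · exact hz'
      · rfl
    · rw [show i + 1 - 2 = 0 by omega]
      exact mem_FM_zero _
  | inr q =>
    have hq' := q.2
    rw [mem_FS]
    refine ⟨?_, ?_⟩
    · change fi π s hs (ir π s hs (oM π q.1 1) * z) ∈ Fl π (i + 1 + 1)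
      rw [fi_ir_mul]
      exact Submodule.zero_mem _
    · change se π s hs (ir π s hs (oM π q.1 1) * z) ∈ FM π (i + 1 - 2)
      rw [se_ir_mul, op_oM]
      intro q2 h'
      rw [lM_ro π q.1 q2 _ (by omega)]
      split_ifs
      · exact hz'
      · rfl

theorem uu_F (i : ℕ) (k : Ka i) : uu π s hs i k ∈ FS π s hs i := by
  cases k with
  | inl q =>
    have hq := lev_le q.1
    have hq' := q.2
    rw [mem_FS]
    refine ⟨?_, ?_⟩
    · change wq π q.1 ∈ Fl π (i + 1)
      have := wq_mem_Fl (π := π) q.1 1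
      rw [mul_one, hq'] at this
      exact this
    · rw [show i - 2 = 0 by omega]
      exact mem_FM_zero _
  | inr q =>
    have hq' := q.2
    rw [mem_FS]
    refine ⟨Submodule.zero_mem (Fl π (i + 1)), ?_⟩
    change oM π q.1 1 ∈ FM π (i - 2)
    rw [oM_one_eq, show i - 2 = levM q.1 by omega]
    exact ro_mem_FM _ _

theorem D_one : Der580.D π 1 = 0 := by
  have := WLF296.D_wq (π := π) .one
  rwa [wq_one] at this

theorem uu_D (i : ℕ) (k : Ka i) : (wS π s hs).D (uu π s hs i k) = 0 := by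
  cases k with
  | inl q =>
    change (wS π s hs).D (il π s hs (wq π q.1)) = 0
    rw [il_D, WLF296.D_wq, il_zero]
  | inr q =>
    apply ext_fs
    · change Der580.D π 0 = 0
      exact map_zero _
    · change dMM π (oM π q.1 1) = 0
      rw [dMM_oM, D_one, map_zero]

/-! ### the instance -/

variable {π s hs}

theorem gen (i : ℕ) {P A C : ℤ} {z : (wS π s hs).S} (hz : z ∈ FS π s hs i)
    (hp : z ∈ (wS π s hs).pc P A C) :
    ∃ y : Ka i → (wS π s hs).S, (∀ k, y k ∈ (wS π s hs).pc (P + uP i k) A (C - uC s i k)) ∧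
      z - ∑ k, uu π s hs i k * y k ∈ FS π s hs (i + 1) := by
  rw [mem_FS] at hz
  have h1 : fi π s hs z ∈ pz π P A C := by
    rw [← KOS296.pcZ_eq_pz]
    exact fi_mem π s hs hp
  refine ⟨fun k => match k with
    | .inl q => il π s hs (lq π q.1 (fi π s hs z))
    | .inr q => il π s hs (lM π q.1 (se π s hs z)), ?_, ?_⟩
  · intro k
    cases k with
    | inl q =>
      refine il_pc π s hs ?_
      have h2 := lq_mem π h1 q.1
      rw [← KOS296.pcZ_eq_pz] at h2
      change _ ∈ pcZ π (P + 0) A (C - (wC q.1.word : ℤ))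
      rwa [add_zero]
    | inr q =>
      refine il_pc π s hs ?_
      have h2 := lM_mem π s (se_mem π s hs hp) q.1
      rw [← KOS296.pcZ_eq_pz] at h2
      change _ ∈ pcZ π (P + 1) A (C - ((s - wC q.1.word : ℕ) : ℤ))
      have h3 := wC_word_le q.1
      rwa [show C - ((s - wC q.1.word : ℕ) : ℤ) = C - s + wC q.1.word by
        rw [Nat.cast_sub (h3.trans hs)]; ring]
  · rw [mem_FS, map_sub, map_sub, fi_sum, se_sum]
    refine ⟨Fl_step π hz.1, ?_⟩
    have e1 : ∑ q : {q : Wb // lev q = i + 1},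
        wq π q.1 • se π s hs (il π s hs (lq π q.1 (fi π s hs z))) = 0 :=
      Finset.sum_eq_zero fun q _ => by rw [se_il, smul_zero]
    change se π s hs z - (∑ q : {q : Wb // lev q = i + 1},
        wq π q.1 • se π s hs (il π s hs (lq π q.1 (fi π s hs z))) +
      ∑ q : {q : Wb // levM q + 2 = i}, ro π q.1 (lM π q.1 (se π s hs z))) ∈ FM π (i + 1 - 2)
    rw [e1, zero_add]
    rcases Nat.lt_or_ge i 2 with h | h
    · rw [show i + 1 - 2 = 0 by omega]; exact mem_FM_zero _
    · have := FM_step π (n := i - 2) (i := i) (by omega) hz.2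
      rwa [show i - 2 + 1 = i + 1 - 2 by omega] at this

theorem uniq (i : ℕ) (y : Ka i → (wS π s hs).S)
    (h : ∑ k, uu π s hs i k * y k ∈ FS π s hs (i + 1)) (k : Ka i) : y k ∈ FS π s hs 0 := by
  rw [mem_FS, fi_sum, se_sum] at h
  rw [mem_FS_zero, KOS296.mem_J_iff_kill]
  cases k with
  | inl q => exact Fl_uniq π (fun q => fi π s hs (y (.inl q))) h.1 q
  | inr q =>
    have hq := q.2
    have e1 : ∑ q : {q : Wb // lev q = i + 1}, wq π q.1 • se π s hs (y (.inl q)) = 0 :=
      Finset.sum_eq_zero fun q _ => by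
        have h1 := q.2
        have h2 := lev_le q.1
        omega
    rw [e1, zero_add] at h
    exact FM_uniq π (fun q => fi π s hs (y (.inr q)))
      (by rw [show i - 1 = i + 1 - 2 by omega]; exact h.2) q

theorem pc_neg {P A C : ℤ} (hC : C < 0) : (wS π s hs).pc P A C = ⊥ := by
  rw [eq_bot_iff]
  intro z hz
  have h1 : fi π s hs z = 0 := by
    have h := fi_mem π s hs hz
    rw [pcZ_neg π (Or.inr hC)] at h
    exact (Submodule.mem_bot K).1 h
  have h2 : se π s hs z = 0 := by
    have h := se_mem π s hs hz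
    rw [pcM_bot π s (fun q => pcZ_neg π (Or.inr (by have := wC_word_le q; omega)))] at h
    exact (Submodule.mem_bot K).1 h
  rw [Submodule.mem_bot]
  exact ext_fs _ _ _ h1 h2

variable (π s hs)

/-- **the instance of 810's hypotheses** -/
def trd : TRD (wS π s hs) where
  lo := 0
  neg := pc_neg
  r := 5
  Fl := FS π s hs
  Fr := by
    rw [eq_bot_iff]
    intro z hz
    rw [mem_FS] at hz
    rw [Submodule.mem_bot]
    exact ext_fs _ _ _ (Fl_three (Fl_anti (by norm_num) hz.1)) (FM_three hz.2)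
  anti i z hz := ⟨Fl_anti (Nat.le_succ _) hz.1, FM_anti (by omega) hz.2⟩
  Fl_l i a _ hz := FS_l i a hz
  Fl_r i a _ hz := FS_r i a hz
  Fl_D i _ hz := FS_D i hz
  κ := Ka
  fκ i := inferInstance
  u := uu π s hs
  uP := uP
  uP01 i k := by
    cases k with
    | inl _ => exact Or.inl rfl
    | inr _ => exact Or.inr rfl
  uC := uC s
  u_mem := uu_mem π s hs
  u_F := uu_F π s hs
  u_J i k _ hz := uu_J π s hs i k hz
  u_D i k := by
    rw [uu_D]
    exact Submodule.zero_mem _
  gen i _ _ _ _ _ hz hp := gen i hz hp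
  uniq i _ _ _ y _ _ h := uniq i y h
  T0 := Tk π s hs (-2)
  T1 := Tk π s hs (-1)
  T2 := Tk π s hs 0
  T01 _ h := Tk_mono (by norm_num) h
  T12 _ h := Tk_mono (by norm_num) h
  u_th θ hθ i k := by
    have e : θ.t * uu π s hs i k = uu π s hs i k * θ.t := by
      cases k with
      | inl q => exact th_wq hθ q.1
      | inr q => exact th_oM hθ q.1
    rw [e, sub_self]
    exact Submodule.zero_mem _
  x := xS π s hs
  x_mem := xS_mem π s hs
  x_D := xS_D π s hs
  kk := kS π s hs
  kk_mem := kS_mem π s hs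
  kk_D := kS_D π s hs
  x_kk := by
    rw [sum_xk]
    exact Submodule.zero_mem _
  T2x θ hθ := by
    obtain ⟨θ', h1, h2, θ'', h3, h4⟩ := T2x hθ
    refine ⟨θ', h1, fun j => ?_, θ'', h3, fun j => ?_⟩
    · rw [h2]; exact Submodule.zero_mem _
    · rw [h4]; exact Submodule.zero_mem _
  x_gen {_ _ _ y} hP hy := by
    obtain ⟨z, h1, h2⟩ := x_gen hP hy
    refine ⟨z, h1, ?_⟩
    rw [mem_FS_zero, h2]
    exact (mem_Fl_one.1 (Submodule.zero_mem (Fl π 1)))
  x_ker z hz h := by
    obtain ⟨c, h1, h2⟩ := x_ker z hz (mem_FS_zero.1 h)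
    exact ⟨c, h1, fun j => mem_FS_zero.2 (h2 j)⟩
  x_inj h := mem_FS_zero.2 (x_inj (mem_FS_zero.1 h))

end Crest.Agent.R186.TRDj763
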