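import Crest.Agent.R186.TRx_461
import Crest.Agent.R186.TRDj_763
import Crest.Agent.R186.JTRc_322
import Crest.Agent.R186.LtR_654

/-!
Row 186 (A), helper461: output of (TR) on 448's cells `XL`: the chain maps `t + l h` of 654's
letters on the rows are quasi-isomorphisms.

* `q2` : row `2`, `l = (g ^ 2)⁻¹`  (`theta_0`);
* `q1` : row `1`, `l = g⁻¹`  (`theta_(-1)`);
* `q0` : row `0`, `l = 1`  (`theta_(-2)`).
-/

set_option autoImplicit false
set_option linter.style.haveILetI false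
set_option linter.unusedSectionVars false

open MulOpposite

noncomputable section

namespace Crest.Agent.R186.TRq461

open Hat827 Hat827.DGA Frame515 Res255 Win810 TR810 KHc302 TRj461
open Crest.Agent.R186.DefsQ830 Crest.Agent.R186.SM890 Crest.Agent.R186.WL221
open Crest.Agent.R186.Cells221 (tR)
open Crest.Agent.R186.ThK763 (wS Tk thE Tk_E theta)

variable {K : Type} [Field K] (π : Par K) (s : ℕ) (hs : 5 ≤ s)

/-- 654's letters on the rows over `X` -/
abbrev TL (X : LCells (WG π s (two_le hs)).dga) :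
    FamU654.XDHT (FamU654.rowSys (JTR322.Ec π s hs) X) π.g := LtR654.xdht (LtR654.lt π s hs) X

theorem Fl0 : (TRDj763.trd π s (two_le hs)).Fl 0 = JTR322.JW π s hs := by
  ext z
  rw [JTR322.mem_JW_iff]
  exact (TRDj763.mem_FS_zero).trans (KOS296.mem_J_iff_kill π)

theorem p_thE (e : ℤ) : (JTR322.Ec π s hs).p (thE π s (two_le hs) 1 e).t =
    LtR654.tL π + (π.g ^ (-e - 2)) • LtR654.hL π := by
  change prL π (((1 : K) • (bdM π s (two_le hs)).inl (theta π e) : (wS π s (two_le hs)).S)).1 = _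
  rw [one_smul]
  change prL π (tR π + π.g ^ (-e - 2) • X π .h) = _
  rw [map_add, map_smul]
  rfl

/-- row `2`, `theta_0` -/
theorem q2 {a : ℕ} (ha : a < 3) :
    QI ((TL π s hs (EndV448.XL π s hs)).thH (π.g ^ 2)⁻¹ 2 a) := by
  refine JTR322.thQIc (TL π s hs (EndV448.XL π s hs)) _ 2 a (thE π s (two_le hs) 1 0) ?_
    fun n => ?_
  · rw [p_thE]
    have : π.g ^ (-(0 : ℤ) - 2) = (π.g ^ 2)⁻¹ := by
      rw [neg_zero, zero_sub, zpow_neg]
      norm_cast
    rw [this]
    rfl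
  · rw [← Fl0]
    exact (trX (TRDj763.trd π s (two_le hs)) (fun _ h => h) ha).2.2 _
      (Tk_E le_rfl one_ne_zero) n

/-- row `1`, `theta_(-1)` -/
theorem q1 {a : ℕ} (ha : a < 3) :
    QI ((TL π s hs (EndV448.XL π s hs)).thH π.g⁻¹ 1 a) := by
  refine JTR322.thQIc (TL π s hs (EndV448.XL π s hs)) _ 1 a (thE π s (two_le hs) 1 (-1)) ?_
    fun n => ?_
  · rw [p_thE]
    have : π.g ^ (-(-1 : ℤ) - 2) = π.g⁻¹ := by
      rw [show (-(-1 : ℤ) - 2) = -1 by norm_num, zpow_neg_one]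
    rw [this]
    rfl
  · rw [← Fl0]
    exact (trX (TRDj763.trd π s (two_le hs)) (fun _ h => h) ha).2.1 _
      (Tk_E le_rfl one_ne_zero) n

/-- row `0`, `theta_(-2)` -/
theorem q0 {a : ℕ} (ha : a < 3) :
    QI ((TL π s hs (EndV448.XL π s hs)).thH 1 0 a) := by
  refine JTR322.thQIc (TL π s hs (EndV448.XL π s hs)) _ 0 a (thE π s (two_le hs) 1 (-2)) ?_
    fun n => ?_
  · rw [p_thE]
    have : π.g ^ (-(-2 : ℤ) - 2) = 1 := by
      rw [show (-(-2 : ℤ) - 2) = 0 by norm_num, zpow_zero]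
    rw [this]
    rfl
  · rw [← Fl0]
    exact (trX (TRDj763.trd π s (two_le hs)) (fun _ h => h) ha).1 _
      (Tk_E le_rfl one_ne_zero) n

end Crest.Agent.R186.TRq461
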