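import Crest.Agent.R186.ZZB_380
import Crest.Agent.R186.TRq_461
import Crest.Agent.R186.EndB_448

/-!
Row 186 (A), short road of helper306 (helper654): **(H)**, 448's Prop `PH`, from 461's
quasi-isomorphisms (TR) and 380's sixteen cells.
-/

set_option autoImplicit false
set_option linter.style.haveILetI false

noncomputable section

namespace Crest.Agent.R186.Hfin654

open DefsQ830 KHc302 HB362

variable {K : Type} [Field K] (π : Par K) (s : ℕ) (hs : 5 ≤ s)

theorem g_ne_one : π.g ≠ 1 := by
  have h := π.gn 1 one_pos
  rwa [pow_one] at h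

/-- **(H)** -/
theorem ph : EndB448.PH π s hs :=
  ZZB380.ac_Hrm π s hs _ (g_ne_one π) (fun _ ha => TRq461.q2 π s hs (by omega))
    (fun _ _ ha => TRq461.q1 π s hs (by omega))

end Crest.Agent.R186.Hfin654
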