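import Crest.Agent.R186.KzE_890
import Crest.Agent.R186.C1b_328

/-!
# Row 186, half (A) (helper457): `kz : C1b328.Kz (WL π).dga (tLW π s)` (on 890's entries)
-/

set_option autoImplicit false
set_option linter.style.haveILetI false
set_option linter.unusedSectionVars false

noncomputable section

open MulOpposite

namespace Crest.Agent.R186.Kz457

open Hat827 Win810 Win810.WD Frame515 WBM163 FinV988 Core890 SExt44 DefsQ830 WL221 GrP44 C2b44 SM890
open KzE890

variable {K : Type} [Field K] (π : Par K)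

/-- sparse matrices -/
def sp (a : (WL π).S) (p p' : Fin 2) (i j : Ob) : (WL π).S :=
  if i.1 = p ∧ j.1 = p' ∧ i.2 = j.2 then a else 0

theorem sp_mem {a : (WL π).S} {p p' : Fin 2} {e k : ℤ}
    (ha : a ∈ (WL π).pc ((p.val : ℤ) - (p'.val : ℤ) + e) 0 k) (i j : Ob) :
    sp π a p p' i j ∈ (WL π).pc ((WL π).P i - (WL π).P j + e) ((WL π).A i - (WL π).A j) k := by
  unfold sp
  split_ifs with h
  · obtain ⟨h1, h2, h3⟩ := h
    change a ∈ (WL π).pc ((i.1.val : ℤ) - (j.1.val : ℤ) + e) ((i.2.val : ℤ) - (j.2.val : ℤ)) k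
    rw [h1, h2, h3, sub_self]
    exact ha
  · exact Submodule.zero_mem _

theorem sum_r (f : Ob → (WL π).S) (a : (WL π).S) (p p' : Fin 2) (j : Ob) :
    ∑ t : Ob, f t * sp π a p p' t j = if j.1 = p' then f (p, j.2) * a else 0 := by
  rw [Finset.sum_eq_single ((p, j.2) : Ob)]
  · unfold sp
    by_cases h : j.1 = p'
    · rw [if_pos ⟨rfl, h, rfl⟩, if_pos h]
    · rw [if_neg (fun h' => h h'.2.1), if_neg h, mul_zero]
  · intro t _ ht
    unfold sp
    rw [if_neg, mul_zero]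
    rintro ⟨h1, _, h3⟩
    exact ht (Prod.ext h1 h3)
  · intro h
    exact absurd (Finset.mem_univ _) h

theorem sum_l (f : Ob → (WL π).S) (a : (WL π).S) (p p' : Fin 2) (i : Ob) :
    ∑ t : Ob, sp π a p p' i t * f t = if i.1 = p then a * f (p', i.2) else 0 := by
  rw [Finset.sum_eq_single ((p', i.2) : Ob)]
  · unfold sp
    by_cases h : i.1 = p
    · rw [if_pos ⟨h, rfl, rfl⟩, if_pos h]
    · rw [if_neg (fun h' => h h'.1), if_neg h, zero_mul]
  · intro t _ ht
    unfold sp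
    rw [if_neg, zero_mul]
    rintro ⟨_, h2, h3⟩
    exact ht (Prod.ext h2 h3.symm)
  · intro h
    exact absurd (Finset.mem_univ _) h

theorem en_mul (a b : (WL π).dga.C) (i j : Ob) :
    en π (a * b) i j = ∑ t : Ob, en π a i t * en π b t j := rfl
theorem en_add (a b : (WL π).dga.C) (i j : Ob) : en π (a + b) i j = en π a i j + en π b i j := rfl
theorem en_zero (i j : Ob) : en π 0 i j = 0 := rfl
theorem en_one (i j : Ob) : en π 1 i j = if i = j then 1 else 0 := Matrix.one_apply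
theorem et_add {s : ℕ} (a b : (tLW π s).X) (i j : Ob) :
    et π (a + b) i j = et π a i j + et π b i j := rfl
theorem et_zero {s : ℕ} (i j : Ob) : et π (0 : (tLW π s).X) i j = 0 := rfl

/-- idempotents -/
def E (p : Fin 2) : (WL π).dga.C := toW π (sp π 1 p p)

theorem E_h (p : Fin 2) (i j : Ob) :
    sp π 1 p p i j ∈ (WL π).pc ((WL π).P i - (WL π).P j) ((WL π).A i - (WL π).A j) 0 := by
  have h := sp_mem π (a := 1) (p := p) (p' := p) (e := 0) (k := 0) (by
    rw [sub_self, zero_add]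
    exact (WL π).one_mem) i j
  rwa [add_zero] at h

theorem en_E (p : Fin 2) (i j : Ob) : en π (E π p) i j = sp π 1 p p i j := toW_en π (E_h π p) i j

theorem E_mem (p : Fin 2) : E π p ∈ (WL π).dga.G 0 := toW_mem π (E_h π p)

theorem en_mE (z : (WL π).dga.C) (p : Fin 2) (i j : Ob) :
    en π (z * E π p) i j = if j.1 = p then en π z i j else 0 := by
  rw [en_mul]
  simp only [en_E]
  rw [sum_r]
  by_cases h : j.1 = p
  · rw [if_pos h, if_pos h, mul_one, ← h]
  · rw [if_neg h, if_neg h]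

theorem en_Em (z : (WL π).dga.C) (p : Fin 2) (i j : Ob) :
    en π (E π p * z) i j = if i.1 = p then en π z i j else 0 := by
  rw [en_mul]
  simp only [en_E]
  rw [sum_l]
  by_cases h : i.1 = p
  · rw [if_pos h, if_pos h, one_mul, ← h]
  · rw [if_neg h, if_neg h]

theorem et_opE {s : ℕ} (z : (tLW π s).X) (p : Fin 2) (i j : Ob) :
    et π (op (E π p) • z) i j = if j.1 = p then et π z i j else 0 := by
  rw [et_op]
  simp only [en_E]
  rw [sum_r]
  by_cases h : j.1 = p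
  · rw [if_pos h, if_pos h, mul_one, ← h]
  · rw [if_neg h, if_neg h]

theorem et_E {s : ℕ} (z : (tLW π s).X) (p : Fin 2) (i j : Ob) :
    et π (E π p • z) i j = if i.1 = p then et π z i j else 0 := by
  rw [et_smul]
  simp only [en_E]
  rw [sum_l]
  by_cases h : i.1 = p
  · rw [if_pos h, if_pos h, one_mul, ← h]
  · rw [if_neg h, if_neg h]

theorem colA {z : (WL π).dga.C} {p : Fin 2} : z * E π p = z ↔ ∀ i j : Ob, j.1 ≠ p → en π z i j = 0 := by
  constructor
  · intro h i j hj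
    have h1 := en_mE π z p i j
    rwa [h, if_neg hj] at h1
  · intro h
    refine en_ext π fun i j => ?_
    rw [en_mE]
    by_cases hj : j.1 = p
    · rw [if_pos hj]
    · rw [if_neg hj, h i j hj]

theorem rowA {z : (WL π).dga.C} {p : Fin 2} : E π p * z = z ↔ ∀ i j : Ob, i.1 ≠ p → en π z i j = 0 := by
  constructor
  · intro h i j hj
    have h1 := en_Em π z p i j
    rwa [h, if_neg hj] at h1
  · intro h
    refine en_ext π fun i j => ?_
    rw [en_Em]
    by_cases hj : i.1 = p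
    · rw [if_pos hj]
    · rw [if_neg hj, h i j hj]

theorem colT {s : ℕ} {z : (tLW π s).X} {p : Fin 2} :
    op (E π p) • z = z ↔ ∀ i j : Ob, j.1 ≠ p → et π z i j = 0 := by
  constructor
  · intro h i j hj
    have h1 := et_opE π z p i j
    rwa [h, if_neg hj] at h1
  · intro h
    refine et_ext π fun i j => ?_
    rw [et_opE]
    by_cases hj : j.1 = p
    · rw [if_pos hj]
    · rw [if_neg hj, h i j hj]

theorem rowT {s : ℕ} {z : (tLW π s).X} {p : Fin 2} :
    E π p • z = z ↔ ∀ i j : Ob, i.1 ≠ p → et π z i j = 0 := by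
  constructor
  · intro h i j hj
    have h1 := et_E π z p i j
    rwa [h, if_neg hj] at h1
  · intro h
    refine et_ext π fun i j => ?_
    rw [et_E]
    by_cases hj : i.1 = p
    · rw [if_pos hj]
    · rw [if_neg hj, h i j hj]

/-- letters in `L` -/
def xW (c : Fin 2) : (WL π).dga.C := toW π (sp π (xL π c) 1 0)

theorem xW_h (c : Fin 2) (i j : Ob) :
    sp π (xL π c) 1 0 i j ∈ (WL π).pc ((WL π).P i - (WL π).P j) ((WL π).A i - (WL π).A j) 0 := by
  have h := sp_mem π (a := xL π c) (p := 1) (p' := 0) (e := 0) (k := 0) (by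
    have := xL_mem π c
    simpa using this) i j
  rwa [add_zero] at h

theorem en_xW (c : Fin 2) (i j : Ob) : en π (xW π c) i j = sp π (xL π c) 1 0 i j :=
  toW_en π (xW_h π c) i j
theorem xW_mem (c : Fin 2) : xW π c ∈ (WL π).dga.G 0 := toW_mem π (xW_h π c)

variable (s : ℕ)

/-- letters in `tL` -/
def tW (c : Fin 2) : (tLW π s).X := toT π s (sp π (xL π c) 0 0)

theorem tW_h (c : Fin 2) (i j : Ob) : sp π (xL π c) 0 0 i j ∈
    (WL π).pc ((WL π).P i - (WL π).P j + 1) ((WL π).A i - (WL π).A j) ((s : ℤ) - s) := by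
  refine sp_mem π (a := xL π c) (p := 0) (p' := 0) (e := 1) (k := (s : ℤ) - s) ?_ i j
  have := xL_mem π c
  simpa using this

theorem et_tW (c : Fin 2) (i j : Ob) : et π (tW π s c) i j = sp π (xL π c) 0 0 i j :=
  et_toT π (tW_h π s c) i j
theorem tW_mem (c : Fin 2) : tW π s c ∈ (tLW π s).gr s := toT_mem π (tW_h π s c)

/-- the unit in `tL` -/
def uW : (tLW π s).X := toT π s (sp π 1 0 1)

theorem uW_h (i j : Ob) : sp π 1 0 1 i j ∈
    (WL π).pc ((WL π).P i - (WL π).P j + 1) ((WL π).A i - (WL π).A j) ((s : ℤ) - s) := by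
  refine sp_mem π (a := 1) (p := 0) (p' := 1) (e := 1) (k := (s : ℤ) - s) ?_ i j
  have := (WL π).one_mem
  simpa using this

theorem et_uW (i j : Ob) : et π (uW π s) i j = sp π 1 0 1 i j := et_toT π (uW_h π s) i j
theorem uW_mem : uW π s ∈ (tLW π s).gr s := toT_mem π (uW_h π s)

theorem D_one : (WL π).D 1 = 0 := by
  have h := (WL π).D_mul 1 1
  rw [mul_one, mul_one, one_mul] at h
  exact left_eq_add.1 h

/-! ### products -/

theorem en_mx (z : (WL π).dga.C) (c : Fin 2) (i j : Ob) :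
    en π (z * xW π c) i j = if j.1 = 0 then en π z i (1, j.2) * xL π c else 0 := by
  rw [en_mul]
  simp only [en_xW]
  rw [sum_r]

theorem et_xm (z : (tLW π s).X) (c : Fin 2) (i j : Ob) :
    et π (xW π c • z) i j = if i.1 = 1 then xL π c * et π z (0, i.2) j else 0 := by
  rw [et_smul]
  simp only [en_xW]
  rw [sum_l]

theorem et_mt (u : (WL π).dga.C) (c : Fin 2) (i j : Ob) :
    et π (u • tW π s c) i j = if j.1 = 0 then en π u i (0, j.2) * xL π c else 0 := by
  rw [et_smul]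
  simp only [et_tW]
  rw [sum_r]

theorem et_tm (r : (WL π).dga.C) (c : Fin 2) (i j : Ob) :
    et π (op r • tW π s c) i j = if i.1 = 0 then xL π c * en π r (0, i.2) j else 0 := by
  rw [et_op]
  simp only [et_tW]
  rw [sum_l]

theorem et_mu (u : (WL π).dga.C) (i j : Ob) :
    et π (u • uW π s) i j = if j.1 = 1 then en π u i (0, j.2) else 0 := by
  rw [et_smul]
  simp only [et_uW]
  rw [sum_r, mul_one]

theorem et_um (r : (WL π).dga.C) (i j : Ob) :
    et π (op r • uW π s) i j = if i.1 = 0 then en π r (1, i.2) j else 0 := by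
  rw [et_op]
  simp only [et_uW]
  rw [sum_l, one_mul]

theorem f2 (p : Fin 2) : p = 0 ∨ p = 1 := by omega

theorem E_E (p : Fin 2) : E π p * E π p = E π p := by
  rw [colA]
  intro i j hj
  rw [en_E, sp, if_neg]
  exact fun h => hj h.2.1

/-! ### the instance -/

/-- columns -/
def cm (p : Fin 2) (c : Ob → Fin 4 → (WL π).S) (i j : Ob) : (WL π).S :=
  if j.1 = p then c i j.2 else 0
/-- rows -/
def rm (p : Fin 2) (c : Fin 4 → Ob → (WL π).S) (i j : Ob) : (WL π).S :=
  if i.1 = p then c i.2 j else 0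

theorem cm_mem {p : Fin 2} {c : Ob → Fin 4 → (WL π).S} {e k : ℤ}
    (h : ∀ (i : Ob) (b : Fin 4), c i b ∈ (WL π).pc ((i.1.val : ℤ) - (p.val : ℤ) + e)
      ((i.2.val : ℤ) - (b.val : ℤ)) k) (i j : Ob) :
    cm π p c i j ∈ (WL π).pc ((WL π).P i - (WL π).P j + e) ((WL π).A i - (WL π).A j) k := by
  unfold cm
  split_ifs with hj
  · have := h i j.2
    rw [← hj] at this
    exact this
  · exact Submodule.zero_mem _

theorem rm_mem {p : Fin 2} {c : Fin 4 → Ob → (WL π).S} {e k : ℤ}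
    (h : ∀ (b : Fin 4) (j : Ob), c b j ∈ (WL π).pc ((p.val : ℤ) - (j.1.val : ℤ) + e)
      ((b.val : ℤ) - (j.2.val : ℤ)) k) (i j : Ob) :
    rm π p c i j ∈ (WL π).pc ((WL π).P i - (WL π).P j + e) ((WL π).A i - (WL π).A j) k := by
  unfold rm
  split_ifs with hj
  · have := h i.2 j
    rw [← hj] at this
    exact this
  · exact Submodule.zero_mem _

/-- element of `L` with given columns -/
theorem exA_c (p : Fin 2) (c : Ob → Fin 4 → (WL π).S) {k : ℤ}
    (h : ∀ (i : Ob) (b : Fin 4), c i b ∈ (WL π).pc ((i.1.val : ℤ) - (p.val : ℤ))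
      ((i.2.val : ℤ) - (b.val : ℤ)) k) :
    ∃ z ∈ (WL π).dga.G k, z * E π p = z ∧ ∀ i b, en π z i (p, b) = c i b := by
  have hm : ∀ i j : Ob, cm π p c i j ∈ (WL π).pc ((WL π).P i - (WL π).P j)
      ((WL π).A i - (WL π).A j) k := by
    intro i j
    have := cm_mem π (e := 0) (fun i b => by rw [add_zero]; exact h i b) i j
    rwa [add_zero] at this
  refine ⟨toW π (cm π p c), toW_mem π hm, (colA π).2 fun i j hj => ?_, fun i b => ?_⟩
  · rw [toW_en π hm, cm, if_neg hj]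
  · rw [toW_en π hm, cm, if_pos rfl]

/-- element of `L` with given rows -/
theorem exA_r (p : Fin 2) (c : Fin 4 → Ob → (WL π).S) {k : ℤ}
    (h : ∀ (b : Fin 4) (j : Ob), c b j ∈ (WL π).pc ((p.val : ℤ) - (j.1.val : ℤ))
      ((b.val : ℤ) - (j.2.val : ℤ)) k) :
    ∃ z ∈ (WL π).dga.G k, E π p * z = z ∧ ∀ b j, en π z (p, b) j = c b j := by
  have hm : ∀ i j : Ob, rm π p c i j ∈ (WL π).pc ((WL π).P i - (WL π).P j)
      ((WL π).A i - (WL π).A j) k := by
    intro i j
    have := rm_mem π (e := 0) (fun b j => by rw [add_zero]; exact h b j) i j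
    rwa [add_zero] at this
  refine ⟨toW π (rm π p c), toW_mem π hm, (rowA π).2 fun i j hj => ?_, fun b j => ?_⟩
  · rw [toW_en π hm, rm, if_neg hj]
  · rw [toW_en π hm, rm, if_pos rfl]

/-- element of `tL` with given rows -/
theorem exT_r (p : Fin 2) (c : Fin 4 → Ob → (WL π).S) {k : ℤ}
    (h : ∀ (b : Fin 4) (j : Ob), c b j ∈ (WL π).pc ((p.val : ℤ) - (j.1.val : ℤ) + 1)
      ((b.val : ℤ) - (j.2.val : ℤ)) (k - s)) :
    ∃ z ∈ (tLW π s).gr k, E π p • z = z ∧ ∀ b j, et π z (p, b) j = c b j := by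
  have hm : ∀ i j : Ob, rm π p c i j ∈ (WL π).pc ((WL π).P i - (WL π).P j + 1)
      ((WL π).A i - (WL π).A j) (k - s) := fun i j => rm_mem π (e := 1) h i j
  refine ⟨toT π s (rm π p c), toT_mem π hm, (rowT π).2 fun i j hj => ?_, fun b j => ?_⟩
  · rw [et_toT π hm, rm, if_neg hj]
  · rw [et_toT π hm, rm, if_pos rfl]

theorem gA {k : ℤ} {z : (WL π).dga.C} (hz : z ∈ (WL π).dga.G k) (i j : Ob) :
    en π z i j ∈ (WL π).pc ((i.1.val : ℤ) - (j.1.val : ℤ)) ((i.2.val : ℤ) - (j.2.val : ℤ)) k :=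
  (mem_G π).1 hz i j

theorem gT {k : ℤ} {z : (tLW π s).X} (hz : z ∈ (tLW π s).gr k) (i j : Ob) :
    et π z i j ∈ (WL π).pc ((i.1.val : ℤ) - (j.1.val : ℤ) + 1) ((i.2.val : ℤ) - (j.2.val : ℤ))
      (k - s) := (mem_gT π).1 hz i j

theorem n01 : ¬ ((0 : Fin 2) = 1) := by decide
theorem n10 : ¬ ((1 : Fin 2) = 0) := by decide

theorem cI {z : (WL π).dga.C} (hz : z * E π 1 = z) (h : z * xW π 1 = 0) : z = 0 := by
  refine en_ext π fun i j => ?_
  rcases f2 j.1 with hj | hj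
  · exact (colA π).1 hz i j (by rw [hj]; exact n01)
  · have h1 := en_mx π z 1 i (0, j.2)
    rw [h, if_pos rfl] at h1
    have h2 := rinj π 1 h1.symm
    rw [← hj] at h2
    exact h2

theorem cE {k : ℤ} {u0 u1 : (WL π).dga.C} (h1 : u1 ∈ (WL π).dga.G k)
    (e0 : u0 * E π 0 = u0) (e1 : u1 * E π 0 = u1)
    (h : u0 • tW π s 0 + u1 • tW π s 1 = 0) :
    ∃ z ∈ (WL π).dga.G k, z * E π 1 = z ∧ u0 = z * xW π 1 ∧ u1 = z * xW π 0 := by
  have key : ∀ (i : Ob) (b : Fin 4), ∃ c ∈ (WL π).pc ((i.1.val : ℤ) - ((1 : Fin 2).val : ℤ))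
      ((i.2.val : ℤ) - (b.val : ℤ)) k, en π u0 i (0, b) = c * xL π 1 ∧
        en π u1 i (0, b) = c * xL π 0 := by
    intro i b
    have h2 : en π u0 i (0, b) * xL π 0 + en π u1 i (0, b) * xL π 1 = 0 := by
      have h3 := congrArg (fun w => et π w i (0, b)) h
      change et π (u0 • tW π s 0 + u1 • tW π s 1) i (0, b) = 0 at h3
      rwa [et_add, et_mt, et_mt, if_pos rfl, if_pos rfl] at h3
    obtain ⟨c, hc, ha, hb⟩ := rker π (gA π h1 i (0, b)) h2
    refine ⟨c, ?_, ha, hb⟩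
    have e : (i.1.val : ℤ) - ((0 : Fin 2).val : ℤ) - 1 = (i.1.val : ℤ) - ((1 : Fin 2).val : ℤ) := by
      simp
    rw [← e]
    exact hc
  choose c hc ha hb using key
  obtain ⟨z, hz, ez, hv⟩ := exA_c π 1 c hc
  refine ⟨z, hz, ez, en_ext π fun i j => ?_, en_ext π fun i j => ?_⟩
  · rw [en_mx]
    rcases f2 j.1 with hj | hj
    · rw [if_pos hj, hv, ← ha, ← hj]
    · rw [if_neg (by rw [hj]; exact n10), (colA π).1 e0 i j (by rw [hj]; exact n10)]
  · rw [en_mx]
    rcases f2 j.1 with hj | hj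
    · rw [if_pos hj, hv, ← hb, ← hj]
    · rw [if_neg (by rw [hj]; exact n10), (colA π).1 e1 i j (by rw [hj]; exact n10)]

theorem cS {k : ℤ} {x : (tLW π s).X} (hx : x ∈ (tLW π s).gr (k + s)) (ex : op (E π 0) • x = x) :
    ∃ u0 ∈ (WL π).dga.G k, ∃ u1 ∈ (WL π).dga.G k, u0 * E π 0 = u0 ∧ u1 * E π 0 = u1 ∧
      x = u0 • tW π s 0 + u1 • tW π s 1 := by
  have key : ∀ (i : Ob) (b : Fin 4), ∃ a ∈ (WL π).pc ((i.1.val : ℤ) - ((0 : Fin 2).val : ℤ))
      ((i.2.val : ℤ) - (b.val : ℤ)) k, ∃ a' ∈ (WL π).pc ((i.1.val : ℤ) - ((0 : Fin 2).val : ℤ))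
      ((i.2.val : ℤ) - (b.val : ℤ)) k, et π x i (0, b) = a * xL π 0 + a' * xL π 1 := by
    intro i b
    have h0 := gT π s hx i (0, b)
    rw [add_sub_cancel_right] at h0
    obtain ⟨a, ha, a', ha', e⟩ := rsur π (by
      have := Int.natCast_nonneg i.1.val
      simp) h0
    rw [add_sub_cancel_right] at ha ha'
    exact ⟨a, ha, a', ha', e⟩
  choose a ha a' ha' e using key
  obtain ⟨u0, h0, e0, v0⟩ := exA_c π 0 a ha
  obtain ⟨u1, h1, e1, v1⟩ := exA_c π 0 a' ha'
  refine ⟨u0, h0, u1, h1, e0, e1, et_ext π fun i j => ?_⟩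
  rw [et_add, et_mt, et_mt]
  rcases f2 j.1 with hj | hj
  · rw [if_pos hj, if_pos hj, v0, v1, ← e, ← hj]
  · rw [if_neg (by rw [hj]; exact n10), if_neg (by rw [hj]; exact n10), add_zero,
      (colT π).1 ex i j (by rw [hj]; exact n10)]

theorem rI {r : (WL π).dga.C} (er : E π 0 * r = r) (h : op r • tW π s 0 = 0) : r = 0 := by
  refine en_ext π fun i j => ?_
  rcases f2 i.1 with hj | hj
  · have h1 := et_tm π s r 0 (0, i.2) j
    rw [h, if_pos rfl] at h1
    have h2 := linj π 0 h1.symm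
    rw [← hj] at h2
    exact h2
  · exact (rowA π).1 er i j (by rw [hj]; exact n10)

theorem rE {m : ℤ} {w0 w1 : (tLW π s).X} (h0 : w0 ∈ (tLW π s).gr m)
    (e0 : E π 0 • w0 = w0) (e1 : E π 0 • w1 = w1) (h : xW π 1 • w0 + xW π 0 • w1 = 0) :
    ∃ r ∈ (WL π).dga.G (m - s), E π 0 * r = r ∧ w0 = op r • tW π s 0 ∧ w1 = op r • tW π s 1 := by
  have key : ∀ (b : Fin 4) (j : Ob), ∃ c ∈ (WL π).pc (((0 : Fin 2).val : ℤ) - (j.1.val : ℤ))
      ((b.val : ℤ) - (j.2.val : ℤ)) (m - s), et π w0 (0, b) j = xL π 0 * c ∧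
        et π w1 (0, b) j = xL π 1 * c := by
    intro b j
    have h2 : xL π 1 * et π w0 (0, b) j + xL π 0 * et π w1 (0, b) j = 0 := by
      have h3 := congrArg (fun w => et π w (1, b) j) h
      change et π (xW π 1 • w0 + xW π 0 • w1) (1, b) j = 0 at h3
      rwa [et_add, et_xm, et_xm, if_pos rfl, if_pos rfl] at h3
    obtain ⟨c, hc, ha, hb⟩ := lker π (gT π s h0 (0, b) j) h2
    rw [add_sub_cancel_right] at hc
    exact ⟨c, hc, ha, hb⟩
  choose c hc ha hb using key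
  obtain ⟨r, hr, er, hv⟩ := exA_r π 0 c hc
  refine ⟨r, hr, er, et_ext π fun i j => ?_, et_ext π fun i j => ?_⟩
  · rw [et_tm]
    rcases f2 i.1 with hj | hj
    · rw [if_pos hj, hv, ← ha, ← hj]
    · rw [if_neg (by rw [hj]; exact n10), (rowT π).1 e0 i j (by rw [hj]; exact n10)]
  · rw [et_tm]
    rcases f2 i.1 with hj | hj
    · rw [if_pos hj, hv, ← hb, ← hj]
    · rw [if_neg (by rw [hj]; exact n10), (rowT π).1 e1 i j (by rw [hj]; exact n10)]

theorem rS {m : ℤ} {w : (tLW π s).X} (hw : w ∈ (tLW π s).gr m) (ew : E π 1 • w = w) :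
    ∃ w0 ∈ (tLW π s).gr m, ∃ w1 ∈ (tLW π s).gr m, E π 0 • w0 = w0 ∧ E π 0 • w1 = w1 ∧
      w = xW π 1 • w0 + xW π 0 • w1 := by
  have key : ∀ (b : Fin 4) (j : Ob), ∃ a ∈ (WL π).pc (((0 : Fin 2).val : ℤ) - (j.1.val : ℤ) + 1)
      ((b.val : ℤ) - (j.2.val : ℤ)) (m - s), ∃ a' ∈ (WL π).pc
      (((0 : Fin 2).val : ℤ) - (j.1.val : ℤ) + 1) ((b.val : ℤ) - (j.2.val : ℤ)) (m - s),
      et π w (1, b) j = xL π 1 * a + xL π 0 * a' := by
    intro b j
    have h0 := gT π s hw (1, b) j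
    obtain ⟨a, ha, a', ha', e⟩ := lsur π (by
      have := j.1.2
      simp
      omega) h0
    have e2 : (((1 : Fin 2).val : ℤ) - (j.1.val : ℤ) + 1 - 1) =
      (((0 : Fin 2).val : ℤ) - (j.1.val : ℤ) + 1) := by
      simp
      omega
    rw [e2] at ha ha'
    exact ⟨a, ha, a', ha', e⟩
  choose a ha a' ha' e using key
  obtain ⟨w0, h0, e0, v0⟩ := exT_r π s 0 a ha
  obtain ⟨w1, h1, e1, v1⟩ := exT_r π s 0 a' ha'
  refine ⟨w0, h0, w1, h1, e0, e1, et_ext π fun i j => ?_⟩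
  rw [et_add, et_xm, et_xm]
  rcases f2 i.1 with hj | hj
  · rw [if_neg (by rw [hj]; exact n01), if_neg (by rw [hj]; exact n01), add_zero,
      (rowT π).1 ew i j (by rw [hj]; exact n01)]
  · rw [if_pos hj, if_pos hj, v0, v1, ← e, ← hj]

theorem uX {k : ℤ} {x : (tLW π s).X} (hx : x ∈ (tLW π s).gr (k + s)) (ex : op (E π 1) • x = x) :
    ∃ u ∈ (WL π).dga.G k, u * E π 0 = u ∧ x = u • uW π s := by
  obtain ⟨u, hu, eu, hv⟩ := exA_c π 0 (fun i b => et π x i (1, b)) (k := k) (fun i b => by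
    have h0 := gT π s hx i (1, b)
    rw [add_sub_cancel_right] at h0
    have e2 : ((i.1.val : ℤ) - ((1 : Fin 2).val : ℤ) + 1) = (i.1.val : ℤ) - ((0 : Fin 2).val : ℤ) := by
      simp
    rw [e2] at h0
    exact h0)
  refine ⟨u, hu, eu, et_ext π fun i j => ?_⟩
  rw [et_mu]
  rcases f2 j.1 with hj | hj
  · rw [if_neg (by rw [hj]; exact n01), (colT π).1 ex i j (by rw [hj]; exact n01)]
  · rw [if_pos hj, hv, ← hj]

theorem uI {u : (WL π).dga.C} (eu : u * E π 0 = u) (h : u • uW π s = 0) : u = 0 := by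
  refine en_ext π fun i j => ?_
  rcases f2 j.1 with hj | hj
  · have h1 := et_mu π s u i (1, j.2)
    rw [h, if_pos rfl, ← hj] at h1
    exact h1.symm
  · exact (colA π).1 eu i j (by rw [hj]; exact n10)

theorem uW' {m : ℤ} {w : (tLW π s).X} (hw : w ∈ (tLW π s).gr m) (ew : E π 0 • w = w) :
    ∃ r ∈ (WL π).dga.G (m - s), E π 1 * r = r ∧ w = op r • uW π s := by
  obtain ⟨r, hr, er, hv⟩ := exA_r π 1 (fun b j => et π w (0, b) j) (k := m - s) (fun b j => by
    have h0 := gT π s hw (0, b) j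
    have e2 : (((0 : Fin 2).val : ℤ) - (j.1.val : ℤ) + 1) =
        ((1 : Fin 2).val : ℤ) - (j.1.val : ℤ) := by
      simp
      omega
    rw [e2] at h0
    exact h0)
  refine ⟨r, hr, er, et_ext π fun i j => ?_⟩
  rw [et_um]
  rcases f2 i.1 with hj | hj
  · rw [if_pos hj, hv, ← hj]
  · rw [if_neg (by rw [hj]; exact n10), (rowT π).1 ew i j (by rw [hj]; exact n10)]

theorem uJ {r : (WL π).dga.C} (er : E π 1 * r = r) (h : op r • uW π s = 0) : r = 0 := by
  refine en_ext π fun i j => ?_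
  rcases f2 i.1 with hj | hj
  · exact (rowA π).1 er i j (by rw [hj]; exact n01)
  · have h1 := et_um π s r (0, i.2) j
    rw [h, if_pos rfl, ← hj] at h1
    exact h1.symm

/-- **Koszul data of `tL`** -/
def kz : C1b328.Kz (WL π).dga (tLW π s) where
  s := s
  E0 := E π 0
  E1 := E π 1
  E0_mem := E_mem π 0
  E1_mem := E_mem π 1
  E00 := E_E π 0
  E11 := E_E π 1
  E_add := by
    refine en_ext π fun i j => ?_
    rw [en_add, en_E, en_E, en_one, sp, sp]
    by_cases h : i = j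
    · subst h
      rw [if_pos rfl]
      rcases f2 i.1 with hi | hi
      · rw [if_pos ⟨hi, hi, rfl⟩, if_neg (fun h => n01 (hi.symm.trans h.1)), add_zero]
      · rw [if_neg (fun h => n10 (hi.symm.trans h.1)), if_pos ⟨hi, hi, rfl⟩, zero_add]
    · rw [if_neg h, if_neg (fun h' => h (Prod.ext (h'.1.trans h'.2.1.symm) h'.2.2)),
        if_neg (fun h' => h (Prod.ext (h'.1.trans h'.2.1.symm) h'.2.2)), add_zero]
  X0 := xW π 0
  X1 := xW π 1
  X0_mem := xW_mem π 0
  X1_mem := xW_mem π 1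
  E1X0 := (rowA π).2 fun i j h => by rw [en_xW, sp, if_neg (fun h' => h h'.1)]
  E1X1 := (rowA π).2 fun i j h => by rw [en_xW, sp, if_neg (fun h' => h h'.1)]
  X0E0 := (colA π).2 fun i j h => by rw [en_xW, sp, if_neg (fun h' => h h'.2.1)]
  X1E0 := (colA π).2 fun i j h => by rw [en_xW, sp, if_neg (fun h' => h h'.2.1)]
  T0 := tW π s 0
  T1 := tW π s 1
  T0_mem := tW_mem π s 0
  T1_mem := tW_mem π s 1
  dT0 := et_ext π fun i j => by
    rw [et_d, et_tW, sp, et_zero]
    split_ifs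
    · exact xL_D π 0
    · exact map_zero _
  dT1 := et_ext π fun i j => by
    rw [et_d, et_tW, sp, et_zero]
    split_ifs
    · exact xL_D π 1
    · exact map_zero _
  E0T0 := (rowT π).2 fun i j h => by rw [et_tW, sp, if_neg (fun h' => h h'.1)]
  E0T1 := (rowT π).2 fun i j h => by rw [et_tW, sp, if_neg (fun h' => h h'.1)]
  T0E0 := (colT π).2 fun i j h => by rw [et_tW, sp, if_neg (fun h' => h h'.2.1)]
  T1E0 := (colT π).2 fun i j h => by rw [et_tW, sp, if_neg (fun h' => h h'.2.1)]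
  U := uW π s
  U_mem := uW_mem π s
  dU := et_ext π fun i j => by
    rw [et_d, et_uW, sp, et_zero]
    split_ifs
    · exact D_one π
    · exact map_zero _
  E0U := (rowT π).2 fun i j h => by rw [et_uW, sp, if_neg (fun h' => h h'.1)]
  UE1 := (colT π).2 fun i j h => by rw [et_uW, sp, if_neg (fun h' => h h'.2.1)]
  comm := et_ext π fun i j => by
    rw [et_add, et_xm, et_xm, et_tW, et_tW, et_zero]
    split_ifs with h
    · rw [sp, sp]
      split_ifs with h2
      · rw [xx]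
        exact (WL π).two _
      · rw [mul_zero, mul_zero, add_zero]
    · rw [add_zero]
  cI _ hz h := cI π hz h
  cE _ h1 e0 e1 h := cE π s h1 e0 e1 h
  cS hx ex := cS π s hx ex
  rI _ er h := rI π s er h
  rE h0 _ e0 e1 h := rE π s h0 e0 e1 h
  rS hw ew := rS π s hw ew
  uX hx ex := uX π s hx ex
  uI _ eu h := uI π s eu h
  uW hw ew := uW' π s hw ew
  uJ _ er h := uJ π s er h

end Crest.Agent.R186.Kz457
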