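import Crest.Agent.R186.HDf_371
import Crest.Agent.R186.HDz_186
import Crest.Agent.R186.Hfin_654
import Crest.Agent.R186.EndC_560
import Crest.Agent.R186.Kz_457

/-!
# Row 186, half (A) (helper457): `HD` with no hypothesis, and the null pair from `HM` alone
-/

set_option autoImplicit false

namespace Crest.Agent.R186.HDk457

open Crest.Agent.R186 DefsQ830 EndB448 EndF448

variable {K : Type} [Field K] {π : Par K} {s : ℕ} {hs : 5 ≤ s}

/-- **`HD`** -/
theorem hd (hV : PV π s hs) : HD hV := HD186.HD_of_kz (Kz457.kz π s) hV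

/-- **`HD2`** -/
theorem hd2 (hV : PV π s hs) : HD2 hV := HDf371.hD2_of_kz (Kz457.kz π s) hV

/-- **the null pair from `HM`** -/
theorem null_M (hM : HM π s hs) : Nonempty (Spine700.Null.{0, 0} K) :=
  null_F hM (Hfin654.ph π s hs) hd

/-- the open literals of `EndC_560` from `HM` -/
theorem open3 (hM : HM TopA226.par0 5 EndC560.h55) : EndC560.Open3 :=
  ⟨hM, Hfin654.ph _ _ _, hd⟩

/-- **the null pair over the ground field from `HM`** -/
theorem nullA (hM : HM TopA226.par0 5 EndC560.h55) :
    Nonempty (Spine700.Null.{0, 0} Spine700.k0) := EndC560.nullA (open3 hM)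

end Crest.Agent.R186.HDk457
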