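import Crest.Agent.R186.HD_384
import Crest.Agent.R186.C2jf_302

/-!
Row 186 (A), leaf A.FIN (helper384): (iii) in the form of the square from helper302's `c3`;
(D) from (c1) alone.
-/

set_option autoImplicit false
set_option linter.style.haveILetI false
set_option linter.unusedSectionVars false

noncomputable section

open MulOpposite

namespace Crest.Agent.R186.HD384

open Hat827 Win810 Frame515 Res255 DefsQ830 SM890 KH186 FinD384 ConeHyp462 Adapt186
open FinV988 SemiFree515 EndA448 EndV448 FinD988 EndB448 EndP448 EndF448 TB143 DSq384 SqI186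

variable {K : Type} [Field K] {π : Par K} {s : ℕ} {hs : 5 ≤ s}

theorem evC_eq (y : (IG π s hs).Y) (z : (IG π s hs).Z) :
    C2h302.evC π s hs y z = sndW (bdM π s (KHc302.two_le hs)) ((IG π s hs).ev y z) := by
  rfl

/-- (iii) in the form of the square -/
theorem h3 {Y : RCells (WR π).dga} (R : RRes Y (DM π s (KHc302.two_le hs))) :
    QI ((VF.ofDR R.toRAug).pm ((SG π s hs).bβ (IG π s hs))) := by
  refine bβ_qi_of' (SG π s hs) (I := IG π s hs) R.toRAug
    (C2s468.pmap (C2j302.TD π s hs) R) ?_ (C2j302.c3 π s hs R)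
  intro κ y z
  refine (C2j302.c3_single π s hs R κ y z).trans ?_
  exact congrArg (show (MW π s (KHc302.two_le hs)).toLM.X →ₗ[K] K from R.v κ) (evC_eq y z)

/-- **(D) from (c1)** -/
theorem HD2_c1 (hV : PV π s hs) {Y : RCells (WR π).dga} (R : RRes Y (DM π s (KHc302.two_le hs)))
    (c1 : C1Q611.C1 π s (KHc302.two_le hs) R) : HD2 hV := HD2_of hV R c1 (h3 R)

end Crest.Agent.R186.HD384
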