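import Crest.Agent.R186.KS_355
import Crest.Agent.R186.FamX2_823
import Crest.Agent.R186.B281P_128
import Crest.Agent.R186.VFam_671
import Crest.Agent.R186.NullChain_538

/-!
Row 186, S0281, base, leaf B281.K0 (helper355): the families `G i`, `H i` of the resolutions
`K(n)` (`s = 0`, `s = 1`) and their morphisms.
-/

set_option autoImplicit false
set_option linter.unusedSectionVars false
set_option linter.unusedVariables false

noncomputable section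

namespace Crest.Agent.R186.B281.KR

open KN FamX823

variable {K : Type} [Field K] {g : K}

/-! ### the families -/

/-- `K₀` -/
def G0 (hg : Gen g) (n : ℕ) : Fam g := pi (TV hg 0 0) (Fin (n + 1))
/-- `K₁`, `s = 0` -/
def G1 (hg : Gen g) (n : ℕ) : Fam g := pi (pi (TV hg 0 3) (Fin (n + 1))) (Fin 2)
/-- `K₂`, `s = 0` -/
def G2 (hg : Gen g) (n : ℕ) : Fam g :=
  prod (pi (TV hg 0 4) (Fin (n + 2))) (pi (pi (TV hg 0 1) (Fin n)) (Fin 2))
/-- `K₃` -/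
def G3 (hg : Gen g) (n : ℕ) : Fam g := pi (TV hg 0 2) (Fin (n + 1))

/-- `K₀`, `s = 1` -/
def H0 (hg : Gen g) (n : ℕ) : Fam g := pi (TV hg 1 0) (Fin (n + 1))
/-- `K₁`, `s = 1` -/
def H1 (hg : Gen g) (n : ℕ) : Fam g :=
  prod (pi (TV hg 1 4) (Fin n)) (pi (pi (TV hg 1 1) (Fin (n + 2))) (Fin 2))
/-- `K₂`, `s = 1` -/
def H2 (hg : Gen g) (n : ℕ) : Fam g := pi (pi (TV hg 1 3) (Fin (n + 1))) (Fin 2)
/-- `K₃`, `s = 1` -/
def H3 (hg : Gen g) (n : ℕ) : Fam g := pi (TV hg 1 2) (Fin (n + 1))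

section mem
variable (hg : Gen g) (n : ℕ) {k P : ℤ}

theorem mem_TV0 {s : ℤ} (u : Op K) : u ∈ (TV hg s 0).L k P ↔ u ∈ Fil g k P := by
  show u ∈ Fil g (k - ((0 : ℕ) : ℤ)) P ↔ _
  rw [Nat.cast_zero, sub_zero]

theorem mem_TV1 {s : ℤ} (u : Op K) : u ∈ (TV hg s 1).L k P ↔ u ∈ Fil g (k - 1) P := by
  show u ∈ Fil g (k - ((1 : ℕ) : ℤ)) P ↔ _
  rw [Nat.cast_one]

theorem mem_TV2 {s : ℤ} (u : Op K) : u ∈ (TV hg s 2).L k P ↔ u ∈ Fil g (k - 2) P := by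
  show u ∈ Fil g (k - ((2 : ℕ) : ℤ)) P ↔ _
  rw [Nat.cast_ofNat]

theorem mem_TV3_0 (v : Fin 2 → Op K) : v ∈ (TV hg 0 3).L k P ↔ RK g 0 1 k P v := Iff.rfl

theorem mem_TV3_1 (v : Fin 2 → Op K) : v ∈ (TV hg 1 3).L k P ↔ RK g 1 2 k P v := Iff.rfl

theorem mem_TV4 {s : ℤ} (v : Fin 2 → Op K) : v ∈ (TV hg s 4).L k P ↔ RK g 0 2 k P v := Iff.rfl

theorem mem_G0 (u : Fin (n + 1) → Op K) :
    u ∈ (G0 hg n).L k P ↔ ∀ j, u j ∈ Fil g k P :=
  (mem_pi (F := TV hg 0 0)).trans (forall_congr' fun j => mem_TV0 hg (u j))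

theorem mem_H0 (u : Fin (n + 1) → Op K) :
    u ∈ (H0 hg n).L k P ↔ ∀ j, u j ∈ Fil g k P :=
  (mem_pi (F := TV hg 1 0)).trans (forall_congr' fun j => mem_TV0 hg (u j))

theorem mem_G3 (u : Fin (n + 1) → Op K) :
    u ∈ (G3 hg n).L k P ↔ ∀ j, u j ∈ Fil g (k - 2) P :=
  (mem_pi (F := TV hg 0 2)).trans (forall_congr' fun j => mem_TV2 hg (u j))

theorem mem_H3 (u : Fin (n + 1) → Op K) :
    u ∈ (H3 hg n).L k P ↔ ∀ j, u j ∈ Fil g (k - 2) P :=
  (mem_pi (F := TV hg 1 2)).trans (forall_congr' fun j => mem_TV2 hg (u j))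

theorem mem_G1 (v : Fin 2 → Fin (n + 1) → Fin 2 → Op K) :
    v ∈ (G1 hg n).L k P ↔ ∀ e j, RK g 0 1 k P (v e j) :=
  (mem_pi (F := pi (TV hg 0 3) (Fin (n + 1)))).trans (forall_congr' fun e =>
    (mem_pi (F := TV hg 0 3)).trans (forall_congr' fun j => mem_TV3_0 hg (v e j)))

theorem mem_H2 (v : Fin 2 → Fin (n + 1) → Fin 2 → Op K) :
    v ∈ (H2 hg n).L k P ↔ ∀ e j, RK g 1 2 k P (v e j) :=
  (mem_pi (F := pi (TV hg 1 3) (Fin (n + 1)))).trans (forall_congr' fun e =>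
    (mem_pi (F := TV hg 1 3)).trans (forall_congr' fun j => mem_TV3_1 hg (v e j)))

theorem mem_G2 (p : (Fin (n + 2) → Fin 2 → Op K) × (Fin 2 → Fin n → Op K)) :
    p ∈ (G2 hg n).L k P ↔ (∀ j, RK g 0 2 k P (p.1 j)) ∧ ∀ e j, p.2 e j ∈ Fil g (k - 1) P :=
  (mem_prod (F := pi (TV hg 0 4) (Fin (n + 2))) (G := pi (pi (TV hg 0 1) (Fin n)) (Fin 2))).trans
    (and_congr ((mem_pi (F := TV hg 0 4)).trans (forall_congr' fun j => mem_TV4 hg (p.1 j)))
      ((mem_pi (F := pi (TV hg 0 1) (Fin n))).trans (forall_congr' fun e =>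
        (mem_pi (F := TV hg 0 1)).trans (forall_congr' fun j => mem_TV1 hg (p.2 e j)))))

theorem mem_H1 (p : (Fin n → Fin 2 → Op K) × (Fin 2 → Fin (n + 2) → Op K)) :
    p ∈ (H1 hg n).L k P ↔ (∀ j, RK g 0 2 k P (p.1 j)) ∧ ∀ e j, p.2 e j ∈ Fil g (k - 1) P :=
  (mem_prod (F := pi (TV hg 1 4) (Fin n)) (G := pi (pi (TV hg 1 1) (Fin (n + 2))) (Fin 2))).trans
    (and_congr ((mem_pi (F := TV hg 1 4)).trans (forall_congr' fun j => mem_TV4 hg (p.1 j)))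
      ((mem_pi (F := pi (TV hg 1 1) (Fin (n + 2)))).trans (forall_congr' fun e =>
        (mem_pi (F := TV hg 1 1)).trans (forall_congr' fun j => mem_TV1 hg (p.2 e j)))))

end mem

/-! ### the morphisms, `s = 0` -/

section s0
variable (hg : Gen g) (n : ℕ)

theorem EP_Vf {k P : ℤ} {u : Fin (n + 1) → Op K} (hu : ∀ j, u j ∈ Fil g k P) :
    EP K n u ∈ (Vf g n).L k P := by
  rcases le_or_gt 0 k with hk | hk
  · exact (mem_Vf_L (g := g) n hk P _).2 (EP_mem hu)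
  · have h0 : u = 0 := by
      funext j
      have := hu j
      rw [Fil_neg g hk, Submodule.mem_bot] at this
      exact this
    rw [h0, map_zero]
    exact zero_mem _

/-- the augmentation -/
def ge : (G0 hg n).Hom (Vf g n) where
  f := EP K n
  map {k P u} hu := EP_Vf n ((mem_G0 hg n u).1 hu)

/-- `K₁ → K₀` -/
def g1 : (G1 hg n).Hom (G0 hg n) where
  f := D1 g n
  map {k P v} hv := (mem_G0 hg n _).2 fun j =>
    d1f_mem (v := ez2 v) j fun e => ez_all RK.zero ((mem_G1 hg n v).1 hv e)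

/-- `K₂ → K₁` -/
def g2 : (G2 hg n).Hom (G1 hg n) where
  f := D2 g n
  map {k P p} hp := by
    obtain ⟨h1, h2⟩ := (mem_G2 hg n p).1 hp
    have h1' : ∀ j, RK g 0 2 k P (ez p.1 j) := ez_all RK.zero h1
    have h2' : ∀ e j, ez2 p.2 e j ∈ Fil g (k - 1) P := fun e => ez_all (zero_mem _) (h2 e)
    refine (mem_G1 hg n _).2 (Fin.forall_fin_two.2 ⟨fun j => ?_, fun j => ?_⟩)
    · exact (d2w0_mem hg j h1').add (d2h0_mem hg j h2')
    · exact (d2w1_mem hg j h1').add (d2h1_mem hg j h2')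

/-- `K₃ → K₂` -/
def g3 : (G3 hg n).Hom (G2 hg n) where
  f := D3 g n
  map {k P u} hu := by
    have hu' : ∀ j, ez u j ∈ Fil g (k - 2) P := ez_all (zero_mem _) ((mem_G3 hg n u).1 hu)
    refine (mem_G2 hg n _).2 ⟨fun j => d3w_mem hg j hu', Fin.forall_fin_two.2 ⟨fun j => ?_,
      fun j => ?_⟩⟩
    · exact d3h0_mem hg j hu'
    · exact d3h1_mem hg j hu'

end s0

/-! ### the morphisms, `s = 1` -/

section s1
variable (hg : Gen g) (n : ℕ)

/-- the augmentation -/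
def he : (H0 hg n).Hom (Vf g n) where
  f := EP K n
  map {k P u} hu := EP_Vf n ((mem_H0 hg n u).1 hu)

/-- `K₁ → K₀` -/
def h1 : (H1 hg n).Hom (H0 hg n) where
  f := E1 g n
  map {k P p} hp := by
    obtain ⟨h1, h2⟩ := (mem_H1 hg n p).1 hp
    have h1' : ∀ j, RK g 0 2 k P (ez p.1 j) := ez_all RK.zero h1
    have h2' : ∀ e j, ez2 p.2 e j ∈ Fil g (k - 1) P := fun e => ez_all (zero_mem _) (h2 e)
    exact (mem_H0 hg n _).2 fun j => add_mem (e1w_mem j h1') (e1q_mem hg j h2')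

/-- `K₂ → K₁` -/
def h2 : (H2 hg n).Hom (H1 hg n) where
  f := E2 g n
  map {k P v} hv := by
    have hv' : ∀ e j, RK g 1 2 k P (ez2 v e j) := fun e => ez_all RK.zero ((mem_H2 hg n v).1 hv e)
    refine (mem_H1 hg n _).2 ⟨fun j => e2w_mem hg j hv', Fin.forall_fin_two.2 ⟨fun j => ?_,
      fun j => ?_⟩⟩
    · exact e2q0_mem j hv'
    · exact e2q1_mem j hv'

/-- `K₃ → K₂` -/
def h3 : (H3 hg n).Hom (H2 hg n) where
  f := E3 g n
  map {k P u} hu := by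
    have hu' : ∀ j, ez u j ∈ Fil g (k - 2) P := ez_all (zero_mem _) ((mem_H3 hg n u).1 hu)
    refine (mem_H2 hg n _).2 (Fin.forall_fin_two.2 ⟨fun j => ?_, fun j => ?_⟩)
    · exact e3v0_mem hg j hu'
    · exact e3v1_mem hg j hu'

end s1

end Crest.Agent.R186.B281.KR
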