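import Crest.Agent.R186.LCE_229
import Crest.Agent.R186.KR_355

/-!
Row 186, S0281, base (helper862): the filtered condition `HF` (229) on 355's families `G i`, `H i`
in terms of tuples; the tuples of `G2`.
-/

set_option autoImplicit false
set_option linter.unusedSectionVars false
set_option linter.unusedVariables false

noncomputable section

namespace Crest.Agent.R186.B281.HFel862

open Crest.Agent.R186.FamX823 KR KN

variable {K : Type} [Field K] {g : K}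

section tuples

variable {N : Type} [AddCommGroup N] [Module (Op K) N]

/-- maps out of `K₂` of `K(n)` -/
def tG2 (n : ℕ) (U V p0 p1 : ℕ → N) :
    ((Fin (n + 2) → Fin 2 → Op K) × (Fin 2 → Fin n → Op K)) →ₗ[Op K] N :=
  tK (n + 2) U V ∘ₗ LinearMap.fst (Op K) _ _ +
    (tO n p0 ∘ₗ LinearMap.proj 0 ∘ₗ LinearMap.snd (Op K) _ _ +
      tO n p1 ∘ₗ LinearMap.proj 1 ∘ₗ LinearMap.snd (Op K) _ _)

theorem tG2_apply (n : ℕ) (U V p0 p1 : ℕ → N)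
    (p : (Fin (n + 2) → Fin 2 → Op K) × (Fin 2 → Fin n → Op K)) :
    tG2 n U V p0 p1 p = tK (n + 2) U V p.1 + (tO n p0 (p.2 0) + tO n p1 (p.2 1)) := rfl

/-- a map out of a product of two powers, by tuples -/
theorem exists_prod {a b : ℕ} (Φ : ((Fin a → Fin 2 → Op K) × (Fin 2 → Fin b → Op K)) →ₗ[Op K] N) :
    ∃ U V p0 p1 : ℕ → N, (∀ p, Φ p = tK a U V p.1 + (tO b p0 (p.2 0) + tO b p1 (p.2 1))) ∧
      (∀ j, a ≤ j → U j = 0 ∧ V j = 0) ∧ ∀ j, b ≤ j → p0 j = 0 ∧ p1 j = 0 := by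
  classical
  obtain ⟨y0, y1, h1, h2⟩ := exists_tK (Φ ∘ₗ LinearMap.inl (Op K) _ _)
  obtain ⟨w0, h3, h5⟩ := exists_tO (Φ ∘ₗ LinearMap.inr (Op K) _ _ ∘ₗ
    LinearMap.single (Op K) (fun _ : Fin 2 => Fin b → Op K) 0)
  obtain ⟨w1, h4, h6⟩ := exists_tO (Φ ∘ₗ LinearMap.inr (Op K) _ _ ∘ₗ
    LinearMap.single (Op K) (fun _ : Fin 2 => Fin b → Op K) 1)
  refine ⟨y0, y1, w0, w1, ?_, h2, fun j hj => ⟨h5 j hj, h6 j hj⟩⟩
  rintro ⟨w, q⟩
  have e1 := LinearMap.congr_fun h1 w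
  have e3 := LinearMap.congr_fun h3 (q 0)
  have e4 := LinearMap.congr_fun h4 (q 1)
  show _ = tK a y0 y1 w + (tO b w0 (q 0) + tO b w1 (q 1))
  rw [← e1, ← e3, ← e4]
  show Φ (w, q) = Φ (w, 0) + (Φ (0, Pi.single 0 (q 0)) + Φ (0, Pi.single 1 (q 1)))
  rw [← map_add, ← map_add]
  congr 1
  refine Prod.ext ?_ ?_
  · show w = w + (0 + 0)
    rw [add_zero, add_zero]
  · show q = 0 + (Pi.single 0 (q 0) + Pi.single 1 (q 1))
    rw [zero_add]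
    have := Finset.univ_sum_single q
    rw [Fin.sum_univ_two] at this
    exact this.symm

theorem exists_tG2 {n : ℕ}
    (Φ : ((Fin (n + 2) → Fin 2 → Op K) × (Fin 2 → Fin n → Op K)) →ₗ[Op K] N) :
    ∃ U V p0 p1 : ℕ → N, Φ = tG2 n U V p0 p1 ∧ (∀ j, n + 2 ≤ j → U j = 0 ∧ V j = 0) ∧
      ∀ j, n ≤ j → p0 j = 0 ∧ p1 j = 0 := by
  obtain ⟨U, V, p0, p1, h, h1, h2⟩ := exists_prod Φ
  exact ⟨U, V, p0, p1, LinearMap.ext h, h1, h2⟩

end tuples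

/-! ### the filtered condition -/

section filt

variable {U : Type} [AddCommGroup U] [Module K U] [Module (Op K) U]
  {L : ℤ → ℤ → Submodule K U}

/-- a power: componentwise -/
theorem hf_pi (F : Fam g) (e : ℤ) (Φ : (Fin 2 → F.N) →ₗ[Op K] U) :
    HF e (pi F (Fin 2)) L Φ ↔
      HF e F L (Φ ∘ₗ LinearMap.single (Op K) (fun _ : Fin 2 => F.N) 0) ∧
        HF e F L (Φ ∘ₗ LinearMap.single (Op K) (fun _ : Fin 2 => F.N) 1) := by
  constructor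
  · intro h
    have key : ∀ (i : Fin 2) (k P : ℤ) (n : F.N), n ∈ F.L k P →
        (Pi.single i n : Fin 2 → F.N) ∈ (pi F (Fin 2)).L k P := by
      intro i k P n hn
      refine mem_pi.2 fun j => ?_
      by_cases hj : j = i
      · subst hj
        rw [Pi.single_eq_same]
        exact hn
      · rw [Pi.single_eq_of_ne hj]
        exact zero_mem _
    exact ⟨fun k P n hn => h (key 0 k P n hn), fun k P n hn => h (key 1 k P n hn)⟩
  · rintro ⟨h0, h1⟩ k P x hx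
    have hx' : ∀ i, x i ∈ F.L k P := fun i => mem_pi.1 hx i
    have e1 : Φ x = Φ (Pi.single 0 (x 0)) + Φ (Pi.single 1 (x 1)) := by
      rw [← map_add]
      congr 1
      have := Finset.univ_sum_single x
      rw [Fin.sum_univ_two] at this
      exact this.symm
    have h2 := add_mem (h0 (hx' 0)) (h1 (hx' 1))
    exact e1 ▸ h2

/-- a product: componentwise -/
theorem hf_prod (F G : Fam g) (e : ℤ) (Φ : (F.N × G.N) →ₗ[Op K] U) :
    HF e (prod F G) L Φ ↔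
      HF e F L (Φ ∘ₗ LinearMap.inl (Op K) F.N G.N) ∧
        HF e G L (Φ ∘ₗ LinearMap.inr (Op K) F.N G.N) := by
  constructor
  · intro h
    refine ⟨fun k P n hn => ?_, fun k P n hn => ?_⟩
    · exact h (show ((n, 0) : F.N × G.N) ∈ (prod F G).L k P from ⟨hn, zero_mem _⟩)
    · exact h (show ((0, n) : F.N × G.N) ∈ (prod F G).L k P from ⟨zero_mem _, hn⟩)
  · rintro ⟨h0, h1⟩ k P x hx
    have e1 : Φ x = Φ (x.1, 0) + Φ (0, x.2) := by
      rw [← map_add]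
      congr 1
      refine Prod.ext ?_ ?_
      · show x.1 = x.1 + 0
        rw [add_zero]
      · show x.2 = 0 + x.2
        rw [zero_add]
    have h2 := add_mem (h0 hx.1) (h1 hx.2)
    exact e1 ▸ h2

/-- the element condition at a `K`-vertex -/
def KC (L : ℤ → ℤ → Submodule K U) (b a e : ℤ) (u v : U) : Prop :=
  u ∈ L b e ∧ v ∈ L b e ∧ (X 1 : Op K) • u - (X 0 : Op K) • v ∈ L a (e + 1)

variable (hg : Gen g) (hL : SM g L) (n : ℕ) (e : ℤ)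

include hL in
theorem hf_G0 (φ : ℕ → U) :
    HF e (KR.G0 hg n) L (tO (n + 1) φ) ↔ ∀ j < n + 1, φ j ∈ L 0 e :=
  HF_tO hg ((0 : ℕ) : ℤ) e hL (n + 1) φ

include hL in
theorem hf_H0 (φ : ℕ → U) :
    HF e (KR.H0 hg n) L (tO (n + 1) φ) ↔ ∀ j < n + 1, φ j ∈ L 0 e :=
  HF_tO hg ((0 : ℕ) : ℤ) e hL (n + 1) φ

include hL in
theorem hf_G3 (φ : ℕ → U) :
    HF e (KR.G3 hg n) L (tO (n + 1) φ) ↔ ∀ j < n + 1, φ j ∈ L 2 e :=
  HF_tO hg ((2 : ℕ) : ℤ) e hL (n + 1) φ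

include hL in
theorem hf_H3 (φ : ℕ → U) :
    HF e (KR.H3 hg n) L (tO (n + 1) φ) ↔ ∀ j < n + 1, φ j ∈ L 2 e :=
  HF_tO hg ((2 : ℕ) : ℤ) e hL (n + 1) φ

include hL in
theorem hf_K10 (m : ℕ) (u v : ℕ → U) :
    HF e (pi (TV hg 0 3) (Fin m)) L (tK m u v) ↔ ∀ j < m, KC L 1 0 e (u j) (v j) :=
  HF_tK hg 0 e 1 hL m u v

include hL in
theorem hf_K11 (m : ℕ) (u v : ℕ → U) :
    HF e (pi (TV hg 1 3) (Fin m)) L (tK m u v) ↔ ∀ j < m, KC L 2 1 e (u j) (v j) :=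
  HF_tK hg 1 e 1 hL m u v

include hL in
theorem hf_K2 (s : ℤ) (m : ℕ) (u v : ℕ → U) :
    HF e (pi (TV hg s 4) (Fin m)) L (tK m u v) ↔ ∀ j < m, KC L 2 0 e (u j) (v j) :=
  HF_tK hg 0 e 2 hL m u v

include hL in
theorem hf_O1 (s : ℤ) (m : ℕ) (φ : ℕ → U) :
    HF e (pi (TV hg s 1) (Fin m)) L (tO m φ) ↔ ∀ j < m, φ j ∈ L 1 e :=
  HF_tO hg ((1 : ℕ) : ℤ) e hL m φ

include hL in
theorem hf_G1 (u0 v0 u1 v1 : ℕ → U) :
    HF e (KR.G1 hg n) L (tP2 n u0 v0 u1 v1) ↔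
      (∀ j < n + 1, KC L 1 0 e (u0 j) (v0 j)) ∧ ∀ j < n + 1, KC L 1 0 e (u1 j) (v1 j) := by
  have e0 : tP2 n u0 v0 u1 v1 ∘ₗ LinearMap.single (Op K)
      (fun _ : Fin 2 => Fin (n + 1) → Fin 2 → Op K) 0 = tK (n + 1) u0 v0 := by
    refine LinearMap.ext fun w => ?_
    show tK (n + 1) u0 v0 w + tK (n + 1) u1 v1 0 = _
    rw [map_zero, add_zero]
  have e1 : tP2 n u0 v0 u1 v1 ∘ₗ LinearMap.single (Op K)
      (fun _ : Fin 2 => Fin (n + 1) → Fin 2 → Op K) 1 = tK (n + 1) u1 v1 := by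
    refine LinearMap.ext fun w => ?_
    show tK (n + 1) u0 v0 0 + tK (n + 1) u1 v1 w = _
    rw [map_zero, zero_add]
  refine (hf_pi (pi (TV hg 0 3) (Fin (n + 1))) e (tP2 n u0 v0 u1 v1)).trans ?_
  exact and_congr ((Eq.to_iff (congrArg _ e0)).trans (hf_K10 hg hL e (n + 1) u0 v0))
    ((Eq.to_iff (congrArg _ e1)).trans (hf_K10 hg hL e (n + 1) u1 v1))

include hL in
theorem hf_H2 (u0 v0 u1 v1 : ℕ → U) :
    HF e (KR.H2 hg n) L (tP2 n u0 v0 u1 v1) ↔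
      (∀ j < n + 1, KC L 2 1 e (u0 j) (v0 j)) ∧ ∀ j < n + 1, KC L 2 1 e (u1 j) (v1 j) := by
  have e0 : tP2 n u0 v0 u1 v1 ∘ₗ LinearMap.single (Op K)
      (fun _ : Fin 2 => Fin (n + 1) → Fin 2 → Op K) 0 = tK (n + 1) u0 v0 := by
    refine LinearMap.ext fun w => ?_
    show tK (n + 1) u0 v0 w + tK (n + 1) u1 v1 0 = _
    rw [map_zero, add_zero]
  have e1 : tP2 n u0 v0 u1 v1 ∘ₗ LinearMap.single (Op K)
      (fun _ : Fin 2 => Fin (n + 1) → Fin 2 → Op K) 1 = tK (n + 1) u1 v1 := by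
    refine LinearMap.ext fun w => ?_
    show tK (n + 1) u0 v0 0 + tK (n + 1) u1 v1 w = _
    rw [map_zero, zero_add]
  refine (hf_pi (pi (TV hg 1 3) (Fin (n + 1))) e (tP2 n u0 v0 u1 v1)).trans ?_
  exact and_congr ((Eq.to_iff (congrArg _ e0)).trans (hf_K11 hg hL e (n + 1) u0 v0))
    ((Eq.to_iff (congrArg _ e1)).trans (hf_K11 hg hL e (n + 1) u1 v1))

/-- the product of powers -/
theorem hf_KO (s : ℤ) (a b : ℕ) (Φ : ((Fin a → Fin 2 → Op K) × (Fin 2 → Fin b → Op K)) →ₗ[Op K] U)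
    (u v p0 p1 : ℕ → U) (hL : SM g L)
    (hΦ : ∀ p, Φ p = tK a u v p.1 + (tO b p0 (p.2 0) + tO b p1 (p.2 1))) :
    HF e (prod (pi (TV hg s 4) (Fin a)) (pi (pi (TV hg s 1) (Fin b)) (Fin 2))) L Φ ↔
      (∀ j < a, KC L 2 0 e (u j) (v j)) ∧ (∀ j < b, p0 j ∈ L 1 e) ∧ ∀ j < b, p1 j ∈ L 1 e := by
  have e0 : Φ ∘ₗ LinearMap.inl (Op K) (Fin a → Fin 2 → Op K) (Fin 2 → Fin b → Op K) =
      tK a u v := by
    refine LinearMap.ext fun w => ?_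
    show Φ (w, 0) = _
    rw [hΦ]
    show tK a u v w + (tO b p0 0 + tO b p1 0) = _
    rw [map_zero, map_zero, add_zero, add_zero]
  have e1 : (Φ ∘ₗ LinearMap.inr (Op K) (Fin a → Fin 2 → Op K) (Fin 2 → Fin b → Op K)) ∘ₗ
      LinearMap.single (Op K) (fun _ : Fin 2 => Fin b → Op K) 0 = tO b p0 := by
    refine LinearMap.ext fun w => ?_
    show Φ (0, Pi.single 0 w) = _
    rw [hΦ]
    show tK a u v 0 + (tO b p0 w + tO b p1 0) = _
    rw [map_zero, map_zero, add_zero, zero_add]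
  have e2 : (Φ ∘ₗ LinearMap.inr (Op K) (Fin a → Fin 2 → Op K) (Fin 2 → Fin b → Op K)) ∘ₗ
      LinearMap.single (Op K) (fun _ : Fin 2 => Fin b → Op K) 1 = tO b p1 := by
    refine LinearMap.ext fun w => ?_
    show Φ (0, Pi.single 1 w) = _
    rw [hΦ]
    show tK a u v 0 + (tO b p0 0 + tO b p1 w) = _
    rw [map_zero, map_zero, zero_add, zero_add]
  refine (hf_prod (pi (TV hg s 4) (Fin a)) (pi (pi (TV hg s 1) (Fin b)) (Fin 2)) e Φ).trans ?_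
  refine and_congr ((Eq.to_iff (congrArg _ e0)).trans (hf_K2 hg hL e s a u v)) ?_
  refine (hf_pi (pi (TV hg s 1) (Fin b)) e _).trans ?_
  exact and_congr ((Eq.to_iff (congrArg _ e1)).trans (hf_O1 hg hL e s b p0))
    ((Eq.to_iff (congrArg _ e2)).trans (hf_O1 hg hL e s b p1))

include hL in
theorem hf_G2 (u v p0 p1 : ℕ → U) :
    HF e (KR.G2 hg n) L (tG2 n u v p0 p1) ↔
      (∀ j < n + 2, KC L 2 0 e (u j) (v j)) ∧ (∀ j < n, p0 j ∈ L 1 e) ∧ ∀ j < n, p1 j ∈ L 1 e :=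
  hf_KO hg e 0 (n + 2) n _ u v p0 p1 hL fun p => rfl

include hL in
theorem hf_H1 (u v p0 p1 : ℕ → U) :
    HF e (KR.H1 hg n) L (tP1 n u v p0 p1) ↔
      (∀ j < n, KC L 2 0 e (u j) (v j)) ∧ (∀ j < n + 2, p0 j ∈ L 1 e) ∧
        ∀ j < n + 2, p1 j ∈ L 1 e :=
  hf_KO hg e 1 n (n + 2) _ u v p0 p1 hL fun p => rfl

end filt

end Crest.Agent.R186.B281.HFel862
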