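import Crest.Agent.R186.RW3_171
import Crest.Agent.R186.TB3_143

/-!
Row 186 (A), short road (helper171): `DV_{-2} ⊗ X` acyclic iff the total complex of the sixteen right
cells with values in the row complexes is.
-/

set_option autoImplicit false
set_option linter.style.haveILetI false
set_option linter.unusedSectionVars false

noncomputable section

namespace Crest.Agent.R186.RW171

open Crest.Agent.R186.DefsQ830 Win810 KHev302 Frame515 HB362 Hat827 TB143

variable {K : Type} [Field K]

/-- the augmentation as a morphism of right dg modules -/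
def Chr.avM {w : WD K} {E : CE w} {S : RS E} (T : Chr S) : RMHom (tot S) T.DV where
  toGCHom := T.avH
  smul a y := T.av_R a y

/-- `tot ⊗ X` and `DV ⊗ X` -/
theorem Chr.ac_iff {w : WD K} {E : CE w} {S : RS E} (T : Chr S) (X : LCells w.dga) :
    Ac (tG (tot S) X) ↔ Ac (tG T.DV X) :=
  tG_ac_iff X (f := T.avM) T.avQI

variable (π : Par K) (s : ℕ) (hs : 5 ≤ s)

/-- **`DV_{-2} ⊗ X` is acyclic iff the right cell complex is** -/
theorem dv2_ac (X : LCells (KHc186.wG π s hs).dga) :
    Ac (tG (tot (rsc π s hs)) X) ↔ Ac (tG (DV2 π s hs) X) :=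
  (chr π s hs).ac_iff X

end Crest.Agent.R186.RW171
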