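import Crest.Agent.R186.HP_143
import Crest.Agent.R186.V2c_510
import Crest.Agent.R186.RW4_171

/-!
Row 186 (A), leaf (V), helper143: 171's `DV_{-2}` is the module `P` of 510's window data of `Γ`.
-/

set_option autoImplicit false
set_option linter.style.haveILetI false
set_option linter.unusedSectionVars false
set_option linter.unusedSimpArgs false

noncomputable section

open MulOpposite

namespace Crest.Agent.R186.HM143

open Hat827 Win810 KHev302 Frame515 RW171 DefsQ830 DefsQ830.Gen HP143 V2c510 CR989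

variable {K : Type} [Field K] (π : Par K) (s : ℕ) (hs : 5 ≤ s)

theorem two_le' {s : ℕ} (hs : 5 ≤ s) : 2 ≤ s := le_trans (by norm_num) hs
theorem three_le {s : ℕ} (hs : 5 ≤ s) : 3 ≤ s := le_trans (by norm_num) hs

/-- 510's window data over `Γ` -/
abbrev WG : VT339.Wdat (KHc186.wG π s hs).dga := wdatG π s (two_le' hs) (three_le hs)

/-- the vertex `(0, b)` -/
abbrev vb (b : Fin 4) : (KHc186.wG π s hs).Ob := ob π 0 b

/-- the character on an entry of `L''` -/
theorem chi_ent (r : R π) : chL π (WL221.prL π r) = chi π r := by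
  rw [chL_apply, WL221.prL_val, chi_kill]

theorem xm_inl (a : (WR π).Win) (i j : (WR π).Ob) :
    (chr π s hs).xm ((SM890.HmI π s (two_le' hs)).f a) i j = chi π (a.1 i j) :=
  chi_ent π (a.1 i j)

theorem xe (b b' : Fin 4) (j : (WR π).Ob) :
    (chr π s hs).xm ((SM890.HmI π s (two_le' hs)).f (WD.e (w := WR π) (ob π 0 b))) (ob π 0 b') j =
      if b = b' ∧ j = ob π 0 b then 1 else 0 := by
  refine (xm_inl π s hs _ _ _).trans ?_
  have e := e_apply (w := WR π) (ob π 0 b) (ob π 0 b') j
  refine (congrArg (fun r : R π => chi π r) e).trans ?_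
  by_cases h : b = b' ∧ j = ob π 0 b
  · rw [if_pos h]
    obtain ⟨rfl, rfl⟩ := h
    exact (congrArg (fun r : R π => chi π r) (if_pos ⟨rfl, rfl⟩)).trans (chi_one π)
  · rw [if_neg h]
    refine (congrArg (fun r : R π => chi π r) (if_neg ?_)).trans (map_zero _)
    rintro ⟨h1, h2⟩
    exact h ⟨congrArg Prod.snd h1, h2.symm⟩

theorem xh (b b' : Fin 4) (j : (WR π).Ob) :
    (chr π s hs).xm ((SM890.HmI π s (two_le' hs)).f ((ltR π).hW b b')) (ob π 0 b) j =
      if j = ob π 0 b' then (if b' ≤ b then (1 : K) else 0) else 0 := by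
  refine (xm_inl π s hs _ _ _).trans ?_
  by_cases hb : b' ≤ b
  · refine (congrArg (fun r : R π => chi π r) ((ltR π).hW_apply b b' hb _ _)).trans ?_
    rw [if_pos hb]
    by_cases h : j = ob π 0 b'
    · rw [if_pos h]
      exact (congrArg (fun r : R π => chi π r) (if_pos ⟨rfl, h.symm⟩)).trans (chi_hpow π _)
    · rw [if_neg h]
      exact (congrArg (fun r : R π => chi π r) (if_neg fun h' => h h'.2.symm)).trans (map_zero _)
  · rw [(ltR π).hW_zero b b' hb, if_neg hb, ite_self]
    exact map_zero _

theorem xf (b : Fin 4) (j : (WR π).Ob) :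
    (chr π s hs).xm ((SM890.HmI π s (two_le' hs)).f (ltR π).fW) (ob π 0 b) j = 0 := by
  refine (xm_inl π s hs _ _ _).trans ?_
  refine (congrArg (fun r : R π => chi π r) (Matrix.diagonal_apply _ _ _)).trans ?_
  have h : (if ob π 0 b = j then (ltR π).row (ob π 0 b) else 0) = (0 : R π) := by
    have h0 : (ltR π).row (ob π 0 b) = (0 : R π) := if_neg ((ltR π).o_r1 b)
    by_cases hj : ob π 0 b = j
    · exact (if_pos hj).trans h0
    · exact if_neg hj
  exact (congrArg (fun r : R π => chi π r) h).trans (map_zero _)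

theorem xy (b : Fin 4) (j : (WR π).Ob) :
    (chr π s hs).xm ((SM890.HmI π s (two_le' hs)).f (ltR π).yW) (ob π 0 b) j = 0 := by
  refine (xm_inl π s hs _ _ _).trans ?_
  refine (congrArg (fun r : R π => chi π r) (Matrix.diagonal_apply _ _ _)).trans ?_
  have hy : chi π (X π (.y 0)) = 0 := by
    rw [← chi_kill, C2b44.kill_y, map_zero]
  by_cases hj : ob π 0 b = j
  · exact (congrArg (fun r : R π => chi π r) (if_pos hj)).trans hy
  · exact (congrArg (fun r : R π => chi π r) (if_neg hj)).trans (map_zero _)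

theorem ent : Ent (chr π s hs) (WG π s hs) (vb π s hs) where
  inj b b' h := congrArg Prod.snd h
  rng j := by
    obtain ⟨i, b⟩ := j
    change (((i : Fin 2) : ℕ) : ℤ) = -(0 : ℤ) ↔ _
    constructor
    · intro h
      refine ⟨b, ?_⟩
      have : i = 0 := by
        apply Fin.ext
        change (i : ℕ) = 0
        omega
      rw [this]
      rfl
    · rintro ⟨b', h⟩
      have : i = 0 := (congrArg Prod.fst h).symm
      rw [this]
      rfl
  he b j := by
    refine (xe π s hs b b j).trans ?_
    by_cases h : j = ob π 0 b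
    · exact (if_pos ⟨rfl, h⟩).trans (if_pos h).symm
    · exact (if_neg fun h' => h h'.2).trans (if_neg h).symm
  he' b b' hb j := (xe π s hs b b' j).trans (if_neg fun h' => hb h'.1)
  hH b b' j := xh π s hs b b' j
  hfs b j := xf π s hs b j
  hy b j := xy π s hs b j

/-- **`PB` for `DV_{-2}`** -/
def pb : VT339.PB (WG π s hs) (DV2 π s hs) := HP143.pb (chr π s hs) (ent π s hs)

theorem one : VT339.One (DV2 π s hs) := HP143.one (chr π s hs)

variable {π s hs}

/-- **`G ⊗ X` is acyclic** from `HB` and the right cell complex -/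
theorem ac_of {G : RM (KHc186.wG π s hs).dga} {X : LCells (KHc186.wG π s hs).dga}
    (hP : Ac (tG (tot (rsc π s hs)) X)) (hB : ∀ n, VT339.HB (WG π s hs) G n) : Ac (tG G X) :=
  VT339.ac_of_win (pb π s hs) (one π s hs) ((dv2_ac π s hs X).1 hP) hB

end Crest.Agent.R186.HM143
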