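import Crest.Agent.R186.RC_171
import Crest.Agent.R186.C2b_44

/-!
# Row 186 (A), short road, helper171: table of the right cells, `kill` form
-/

set_option autoImplicit false

namespace Crest.Agent.R186.Name171

open Crest.Agent.R186.VOp220 Crest.Agent.R186.DefsQ830 Crest.Agent.R186.Vmod220
open Crest.Agent.R186.Der580 Crest.Agent.R186.Cells221 Crest.Agent.R186.C2b44
open Crest.Agent.R186.PBW128 (E)

variable {K : Type} [Field K] (π : Par K)

theorem kill_rcf (l' l : E) : kill π (rcf π l' l) = rcf π l' l := by
  cases l <;> cases l' <;> simp only [rcf, map_zero] <;>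
    (try split_ifs) <;> simp [kill_tR]

theorem kill_ryc (l' l : E) : kill π (ryc π l' l) = 0 := by
  cases l <;> cases l' <;> simp only [ryc, map_zero] <;>
    (try split_ifs) <;> simp

theorem kill_rct (σ τ : Cell) : kill π (rct π σ τ) = rct π σ τ := by
  cases τ with
  | none =>
    have h : rct π σ none = 0 := by cases σ <;> rfl
    rw [h, map_zero]
  | some l =>
    cases σ with
    | none => exact kill_E π l
    | some l' => exact kill_rcf π l' l

/-- Maurer-Cartan after `kill` -/
theorem rct_mc_kill (σ τ : Cell) :
    kill π (D π (rct π σ τ)) + ∑ ρ, rct π σ ρ * rct π ρ τ = 0 := by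
  cases τ with
  | none =>
    have h : ∀ ρ : Cell, rct π ρ none = 0 := fun ρ => by cases ρ <;> rfl
    simp only [h, map_zero, mul_zero, Finset.sum_const_zero, add_zero]
  | some l =>
    have e : ∑ ρ, rct π σ ρ * rct π ρ (some l) = kill π (∑ ρ, rct π σ ρ * rct π ρ (some l)) := by
      rw [map_sum]
      refine Finset.sum_congr rfl fun ρ _ => ?_
      rw [map_mul, kill_rct, kill_rct]
    rw [e, ← map_add, Fintype.sum_option]
    cases σ with
    | none =>
      simp only [rct, zero_mul, zero_add]
      rw [D_rE, add_right_comm, add_self, zero_add]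
      exact kill_yp π l
    | some l' =>
      simp only [rct, zero_mul, zero_add]
      rw [rcf_rcf]
      exact kill_ryc π l' l

end Crest.Agent.R186.Name171
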