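import Crest.Agent.R186.RW1_171
import Crest.Agent.R186.RCk_171
import Crest.Agent.R186.CEbr_247
import Crest.Agent.R186.LtR_654

/-!
Row 186 (A), right cells (helper982, for helper625): the concrete system of right cells
`RSc π s hs : RW171.RS (Er π s hs)` over the rows of `R'` (171's table `rct`), and its table in
654's letters.
-/

set_option autoImplicit false
set_option linter.style.haveILetI false

noncomputable section

namespace Crest.Agent.R186.RS982

open DefsQ830 PBW128 Win810 SM890 WL221 Cells221 KHc302 LtR654
open C2b362 (cA)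

variable {K : Type} [Field K] (π : Par K)

/-- table of the right cells in `R'` -/
def rm (c c' : Cell) : RL π := prL π (Name171.rct π c c')

theorem pz_pcZ (P A C : ℤ) : C2b362.pz π P A C = pcZ π P A C := C2b362.pz_eq P A C

theorem rm_mem (c c' : Cell) : rm π c c' ∈ pcL π (-cP c - -cP c') ((3 - cA c) - (3 - cA c'))
    ((cdeg c' : ℤ) - cdeg c - 1) := by
  have h := Name171.rct_mem π c c'
  rw [pz_pcZ] at h
  have h' := prL_mem h
  have h1 : -cP c - -cP c' = cP c' - cP c := by ring
  have h2 : (3 - cA c) - (3 - cA c') = cA c' - cA c := by ring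
  rw [h1, h2]
  exact h'

theorem rm_mc (c c' : Cell) : WL221.DL π (rm π c c') + ∑ c'', rm π c c'' * rm π c'' c' = 0 := by
  have h := congrArg (prL π) (Name171.rct_mc_kill π c c')
  rw [map_zero, map_add, map_sum, prL_kill] at h
  rw [← h]
  congr 1
  · exact DL_prL _
  · exact Finset.sum_congr rfl fun c'' _ => (map_mul (prL π) _ _).symm

variable (s : ℕ) (hs : 5 ≤ s)

/-- **the right cells of `DV_{-2}`** -/
def RSc : RW171.RS (Er π s hs) where
  κ := Cell
  p c := -cP c
  a c := 3 - cA c
  r c := cdeg c
  m := rm π
  m_mem := rm_mem π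
  mc := rm_mc π

/-! ### the table in 654's letters -/

section table

theorem rm_nd (j : Fin 2) : rm π none (some (.d j)) = dL π j := rfl

theorem rm_d1z (j : Fin 2) : rm π (some (.d 1)) (some (.z j)) = π.c j • (dL π 0 * xL π j) := by
  change prL π (π.c j • (X π (.d 0) * X π (.x j))) = _
  rw [map_smul, map_mul]
  rfl

theorem rm_d0z (j : Fin 2) : rm π (some (.d 0)) (some (.z j)) =
    (π.c j * π.g) • (dL π 1 * xL π j) := by
  change prL π ((π.c j * π.g) • (X π (.d 1) * X π (.x j))) = _
  rw [map_smul, map_mul]
  rfl

theorem rm_z1zc : rm π (some (.z 1)) (some .zc) = π.c 0 • xL π 0 := by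
  change prL π (π.c 0 • X π (.x 0)) = _
  rw [map_smul]
  rfl

theorem rm_z0zc : rm π (some (.z 0)) (some .zc) = π.c 1 • xL π 1 := by
  change prL π (π.c 1 • X π (.x 1)) = _
  rw [map_smul]
  rfl

theorem rm_fzc : rm π (some .f) (some .zc) = hL π := rfl

theorem rm_fe (j : Fin 2) : rm π (some .f) (some (.e j)) = dL π j := rfl

theorem rm_e1g (j : Fin 2) : rm π (some (.e 1)) (some (.gj j)) = π.c j • (dL π 0 * xL π j) := by
  change prL π (π.c j • (X π (.d 0) * X π (.x j))) = _
  rw [map_smul, map_mul]
  rfl

theorem rm_e0g (j : Fin 2) : rm π (some (.e 0)) (some (.gj j)) =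
    (π.c j * π.g) • (dL π 1 * xL π j) := by
  change prL π ((π.c j * π.g) • (X π (.d 1) * X π (.x j))) = _
  rw [map_smul, map_mul]
  rfl

theorem rm_g1gc : rm π (some (.gj 1)) (some .gc) = π.c 0 • xL π 0 := by
  change prL π (π.c 0 • X π (.x 0)) = _
  rw [map_smul]
  rfl

theorem rm_g0gc : rm π (some (.gj 0)) (some .gc) = π.c 1 • xL π 1 := by
  change prL π (π.c 1 • X π (.x 1)) = _
  rw [map_smul]
  rfl

theorem rm_uv (i : Fin 2) : rm π (some (.u i)) (some (.v i)) = tL π + hL π := by
  change prL π (if i = i then tR π + X π .h else 0) = _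
  rw [if_pos rfl, map_add]
  rfl

theorem rm_none (c : Cell) : rm π c none = 0 := by
  change prL π (Name171.rct π c none) = 0
  have h : Name171.rct π c none = 0 := by cases c <;> rfl
  rw [h, map_zero]

/-- the other entries between adjacent levels vanish (`ZZH380.tab b a` = the list above) -/
theorem rm_zero (a b : Cell) (h1 : cdeg b = cdeg a + 1) (h2 : ZZH380.tab b a = false) :
    rm π a b = 0 := by
  have key : Name171.rct π a b = 0 := by
    rcases b with _ | l
    · cases a <;> rfl
    rcases a with _ | l'
    · exfalso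
      cases l <;> simp [ZZH380.tab, cdeg] at h1 h2 <;> omega
    · cases l <;> cases l' <;> first
        | rfl
        | (exfalso; simp [ZZH380.tab] at h2; done)
        | (exfalso; simp only [cdeg] at h1; omega)
        | skip
      all_goals
        rename_i i j
        have h3 : ¬ (i = j) := fun h => by
          subst h
          simp [ZZH380.tab] at h2
        have h4 : ¬ (j = i) := fun h => h3 h.symm
        simp [Name171.rct, Name171.rcf, h4]
  change prL π (Name171.rct π a b) = 0
  rw [key, map_zero]

end table

end Crest.Agent.R186.RS982
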