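import Crest.Agent.R186.RW4_171
import Crest.Agent.R186.RS_982

/-!
Row 186 (A), short road (helper171): the character of `DV_{-2}` over the official closing data
(`Er π s hs = CEbr247.ev (KHc302.CEr π s hs)`, 982's `RSc`), `DV_{-2}` as a right dg module over `Γ`,
`tot (RSc) → DV_{-2}` and `Ac (tot ⊗ X) ↔ Ac (DV_{-2} ⊗ X)`.
-/

set_option autoImplicit false
set_option linter.style.haveILetI false
set_option linter.unusedSectionVars false

noncomputable section

namespace Crest.Agent.R186.RW171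

open Crest.Agent.R186.DefsQ830 Crest.Agent.R186.Cells221 Crest.Agent.R186.Name171
open Crest.Agent.R186.CR989 Crest.Agent.R186.WL221 Crest.Agent.R186.Win810
open Crest.Agent.R186.C2b362 (cA)
open KHev302 Frame515 HB362 Hat827 TB143 KHc302 LtR654 RS982

variable {K : Type} [Field K] (π : Par K) (s : ℕ) (hs : 5 ≤ s)

theorem rm_eq (c c' : Cell) : rm π c c' = mR π c c' := Subtype.ext (kill_rct π c c')

theorem rm_eq' : rm π = mR π := funext fun c => funext fun c' => rm_eq π c c'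

theorem chL_rm (c : Cell) : chL π (rm π none c) = 0 := by
  rw [rm_eq]
  exact (chr π 5 le_rfl).χ_m c

theorem exS {P A k : ℤ} (hP : P ≤ 0) (hk : 0 ≤ k) (y : Cell → RL π)
    (hy : ∀ σ, y σ ∈ pcL π (P - cP σ) (A - cA σ) (k - cdeg σ))
    (hd : ∀ σ, DL π (y σ) + ∑ τ, rm π σ τ * y τ = 0) (h0 : k = 0 → chL π (y none) = 0) :
    ∃ z : Cell → RL π, (∀ σ, z σ ∈ pcL π (P - cP σ) (A - cA σ) (k + 1 - cdeg σ)) ∧
      ∀ σ, y σ = DL π (z σ) + ∑ τ, rm π σ τ * z τ := by
  rw [rm_eq'] at hd ⊢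
  exact exL π hP hk y hy hd h0

theorem exS' (j : DefsQ830.Ob) (k : ℤ) (y : Cell → RL π) (hk : 0 ≤ k)
    (hy : ∀ c, y c ∈ pcL π (-cP c - ((j.1.val : ℕ) : ℤ)) (3 - cA c - ((j.2.val : ℕ) : ℤ))
      (k - cdeg c))
    (hd : ∀ c, DL π (y c) + ∑ c', rm π c c' * y c' = 0) (h0 : k = 0 → chL π (y none) = 0) :
    ∃ z : Cell → RL π, (∀ c, z c ∈ pcL π (-cP c - ((j.1.val : ℕ) : ℤ))
      (3 - cA c - ((j.2.val : ℕ) : ℤ)) (k + 1 - cdeg c)) ∧
      ∀ c, y c = DL π (z c) + ∑ c', rm π c c' * z c' := by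
  have e1 : ∀ c, -cP c - ((j.1.val : ℕ) : ℤ) = -((j.1.val : ℕ) : ℤ) - cP c := fun c => by ring
  have e2 : ∀ c, 3 - cA c - ((j.2.val : ℕ) : ℤ) = 3 - ((j.2.val : ℕ) : ℤ) - cA c := fun c => by ring
  simp only [e1, e2] at hy ⊢
  exact exS π (by omega) hk y hy hd h0

/-- the character of `DV_{-2}`, official data -/
def chs : Chr (RSc π s hs) where
  o := none
  ro := rfl
  r_nn c := Int.natCast_nonneg _
  no c := rm_none π c
  P_le j := by
    change -(0 : ℤ) ≤ (((show DefsQ830.Ob from j).1.val : ℕ) : ℤ)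
    omega
  A_le j := by
    have := (show DefsQ830.Ob from j).2.2
    change (((show DefsQ830.Ob from j).2.val : ℕ) : ℤ) ≤ 3 - 0
    omega
  p_le c := by
    have := cP_le c
    change -(0 : ℤ) ≤ -cP c
    omega
  χ := chL π
  χ_P hb hP := chL_EB π hP hb
  χ_C hb hC := chL_ne π (Or.inr hC) hb
  χ_mul {_ _ _ _ _ b} ha _ hP := chL_mulE π hP ha b
  χ_one := chi_one π
  χ_D hb := chL_DE π hb
  χ_m c := chL_rm π c
  η := hL π
  η_mem A hA := hL_mem π hA
  η_χ A _ := hL_chi π A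
  η_D A hA := hL_D π hA
  ex j k y hk hy hd h0 := exS' π j k y hk hy hd h0

/-- **`DV_{-2}` as a right dg module over `Γ`**, official data -/
def DVs : RM (WG π s (two_le hs)).dga := (chs π s hs).DV

/-- the augmentation -/
def avs : RMHom (tot (RSc π s hs)) (DVs π s hs) := (chs π s hs).avM

/-- **the right cells resolve `DV_{-2}`** -/
theorem avs_qi : QI (avs π s hs).toGCHom := (chs π s hs).avQI

/-- **`DV_{-2} ⊗ X` is acyclic iff the right cell complex is** -/
theorem dvs_ac (X : LCells (WG π s (two_le hs)).dga) :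
    Ac (tG (tot (RSc π s hs)) X) ↔ Ac (tG (DVs π s hs) X) :=
  (chs π s hs).ac_iff X

/-- elements of `DV_{-2}` are functions on the vertices supported on `i = 0` -/
theorem DVs_supp (f : (chs π s hs).Vd) (j : DefsQ830.Ob) (hj : j.1 ≠ 0) : f.1 j = 0 := by
  refine f.2 j ?_
  change ((j.1.val : ℕ) : ℤ) ≠ -(0 : ℤ)
  have : j.1.val ≠ 0 := fun h => hj (Fin.ext h)
  omega

/-- the action -/
theorem DVs_smul (m : (WG π s (two_le hs)).Win) (f : (chs π s hs).Vd) (j : DefsQ830.Ob) :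
    ((chs π s hs).Rd m f).1 j =
      ∑ i : DefsQ830.Ob, f.1 i * chi π (prL π (fR π s (two_le hs) (m.1 i j))).1 := rfl

end Crest.Agent.R186.RW171
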