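import Crest.Agent.R186.RY_625
import Crest.Agent.R186.RW5_171
import Crest.Agent.R186.TRq_461

/-!
Row 186 (A), short road, right cells (helper625): the letters of `R'` as `RX625.RLt`, 982's table as
`RLt.RTb`, and `Ac (tG (DVs π s hs) (XL π s hs))`.
-/

set_option autoImplicit false
set_option linter.style.haveILetI false
set_option linter.unusedSectionVars false

noncomputable section

namespace Crest.Agent.R186.RZ625

open Hat827 Win810 Frame515 HB362 Zig498 RW171 JTR322 FamU654 ExR807 RX625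
open Crest.Agent.R186.DefsQ830 Crest.Agent.R186.PBW128 Crest.Agent.R186.SM890
open Crest.Agent.R186.WL221 Crest.Agent.R186.Cells221 Crest.Agent.R186.KHc302
open Crest.Agent.R186.LtR654 Crest.Agent.R186.RS982 Crest.Agent.R186.Der580
open Crest.Agent.R186.DefsQ830.Gen

variable {K : Type} [Field K] (π : Par K)

theorem D_z (j : Fin 2) : D π (X π (z j)) = π.c j • (X π (d 1) * (X π (d 0) * X π (x j)) +
    π.g • (X π (d 0) * (X π (d 1) * X π (x j)))) := by
  have two := π.two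
  have cp : CharP K 2 := CharTwo.of_one_ne_zero_of_two_eq_zero one_ne_zero two
  have g0 := π.g0
  rw [D_X]
  revert j
  fin2 <;> (simp only [dGen, rF, map_mul, map_add, map_smul, mk_L]; idR)

theorem c_ne (j : Fin 2) : π.c j ≠ 0 := by
  unfold Par.c
  split_ifs
  · exact pow_ne_zero 2 π.g0
  · exact π.g0

theorem DLz (j : Fin 2) : WL221.DL π ((π.c j)⁻¹ • zL π j) =
    dL π 1 * (dL π 0 * xL π j) + π.g • (dL π 0 * (dL π 1 * xL π j)) := by
  have h := congrArg (prL π) (D_z π j)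
  rw [← DL_prL] at h
  rw [map_smul]
  change (π.c j)⁻¹ • WL221.DL π (prL π (X π (z j))) = _
  rw [h]
  simp only [map_add, map_mul, map_smul, smul_smul]
  rw [inv_mul_cancel₀ (c_ne π j), one_smul]
  rfl

variable (s : ℕ) (hs : 5 ≤ s)

/-- the letters of `R'` -/
def rlt : RLt (Er π s hs) π.g where
  x := xL π
  d := dL π
  z j := (π.c j)⁻¹ • zL π j
  h := hL π
  x_mem j := prL_mem (x_pcZ π j)
  d_mem j := prL_mem (d_pcZ π j)
  z_mem j := Submodule.smul_mem _ _ (prL_mem (z_pcZ π j))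
  h_mem := prL_mem (h_pcZ π)
  Dx _ := DX π _ rfl
  Dd _ := DX π _ rfl
  Dh := DX π _ rfl
  r00 := by
    have h := congrArg (prL π) (r_x0d0 π)
    simp only [map_add, map_mul, map_smul] at h
    exact h
  r01 := by
    have h := congrArg (prL π) (r_x0d1 π)
    simp only [map_mul, map_smul] at h
    exact h
  r10 := by
    have h := congrArg (prL π) (r_x1d0 π)
    simp only [map_mul] at h
    exact h
  r11 := by
    have h := congrArg (prL π) (r_x1d1 π)
    simp only [map_add, map_mul, map_smul] at h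
    exact h
  xx := by
    have h := congrArg (prL π) (r_xx π)
    simp only [map_mul] at h
    exact h.symm
  xh := xh_L π
  dh j := (hd_L π j).symm
  q j := (DLz π j).symm

/-! ### positions and table -/

open C2b362 (cA)

theorem posP : (fun c : Cell => -cP c) = fun c => (((pi0 c).val : ℕ) : ℤ) := by
  funext c
  revert c
  exact forall_cell rfl rfl rfl rfl rfl rfl rfl rfl rfl rfl rfl rfl rfl rfl rfl rfl

theorem posA : (fun c : Cell => 3 - cA c) = fun c => (pb c : ℤ) := by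
  funext c
  revert c
  exact forall_cell rfl rfl rfl rfl rfl rfl rfl rfl rfl rfl rfl rfl rfl rfl rfl rfl

theorem tL_eq : (rlt π s hs).t = tL π := (ht0_L π).symm

theorem c0_eq : π.c 0 = π.g ^ 2 := rfl

theorem c1_eq : π.c 1 = π.g := rfl

theorem nz_tab : ∀ a b : Cell, RLt.nz a b = false → ZZH380.tab b a = false := by
  refine forall_cell ?_ ?_ ?_ ?_ ?_ ?_ ?_ ?_ ?_ ?_ ?_ ?_ ?_ ?_ ?_ ?_ <;>
  (refine forall_cell ?_ ?_ ?_ ?_ ?_ ?_ ?_ ?_ ?_ ?_ ?_ ?_ ?_ ?_ ?_ ?_ <;> intro h <;>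
    first
    | exact absurd h (by decide)
    | rfl)

/-- entry `(a, b)` of the table in the letters -/
structure TbE (a b : Cell) : Prop where
  eq : rm π a b = (rlt π s hs).tab a b

theorem F01 : TbE π s hs none (some (.d 0)) := ⟨rfl⟩
theorem F02 : TbE π s hs none (some (.d 1)) := ⟨rfl⟩
theorem F03 : TbE π s hs (some (.d 0)) (some (.z 0)) := ⟨by
  rw [rm_d0z, c0_eq, show π.g ^ 2 * π.g = π.g ^ 3 by ring]; rfl⟩
theorem F04 : TbE π s hs (some (.d 0)) (some (.z 1)) := ⟨by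
  rw [rm_d0z, c1_eq, show π.g * π.g = π.g ^ 2 by ring]; rfl⟩
theorem F05 : TbE π s hs (some (.d 1)) (some (.z 0)) := ⟨by rw [rm_d1z, c0_eq]; rfl⟩
theorem F06 : TbE π s hs (some (.d 1)) (some (.z 1)) := ⟨by rw [rm_d1z, c1_eq]; rfl⟩
theorem F07 : TbE π s hs (some (.e 0)) (some (.gj 0)) := ⟨by
  rw [rm_e0g, c0_eq, show π.g ^ 2 * π.g = π.g ^ 3 by ring]; rfl⟩
theorem F08 : TbE π s hs (some (.e 0)) (some (.gj 1)) := ⟨by
  rw [rm_e0g, c1_eq, show π.g * π.g = π.g ^ 2 by ring]; rfl⟩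
theorem F09 : TbE π s hs (some (.e 1)) (some (.gj 0)) := ⟨by rw [rm_e1g, c0_eq]; rfl⟩
theorem F10 : TbE π s hs (some (.e 1)) (some (.gj 1)) := ⟨by rw [rm_e1g, c1_eq]; rfl⟩
theorem F11 : TbE π s hs (some .f) (some .zc) := ⟨rfl⟩
theorem F12 : TbE π s hs (some (.z 0)) (some .zc) := ⟨by rw [rm_z0zc, c1_eq]; rfl⟩
theorem F13 : TbE π s hs (some (.z 1)) (some .zc) := ⟨by rw [rm_z1zc, c0_eq]; rfl⟩
theorem F14 : TbE π s hs (some (.gj 0)) (some .gc) := ⟨by rw [rm_g0gc, c1_eq]; rfl⟩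
theorem F15 : TbE π s hs (some (.gj 1)) (some .gc) := ⟨by rw [rm_g1gc, c0_eq]; rfl⟩
theorem F16 : TbE π s hs (some .f) (some (.e 0)) := ⟨rfl⟩
theorem F17 : TbE π s hs (some .f) (some (.e 1)) := ⟨rfl⟩
theorem F18 : TbE π s hs (some (.u 0)) (some (.v 0)) := ⟨by
  rw [rm_uv, ← tL_eq π s hs]; rfl⟩
theorem F19 : TbE π s hs (some (.u 1)) (some (.v 1)) := ⟨by
  rw [rm_uv, ← tL_eq π s hs]; rfl⟩

theorem nz_tb : ∀ a b : Cell, RLt.nz a b = true → TbE π s hs a b := by
  have e01 := F01 π s hs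
  have e02 := F02 π s hs
  have e03 := F03 π s hs
  have e04 := F04 π s hs
  have e05 := F05 π s hs
  have e06 := F06 π s hs
  have e07 := F07 π s hs
  have e08 := F08 π s hs
  have e09 := F09 π s hs
  have e10 := F10 π s hs
  have e11 := F11 π s hs
  have e12 := F12 π s hs
  have e13 := F13 π s hs
  have e14 := F14 π s hs
  have e15 := F15 π s hs
  have e16 := F16 π s hs
  have e17 := F17 π s hs
  have e18 := F18 π s hs
  have e19 := F19 π s hs
  refine forall_cell ?_ ?_ ?_ ?_ ?_ ?_ ?_ ?_ ?_ ?_ ?_ ?_ ?_ ?_ ?_ ?_ <;>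
  (refine forall_cell ?_ ?_ ?_ ?_ ?_ ?_ ?_ ?_ ?_ ?_ ?_ ?_ ?_ ?_ ?_ ?_ <;> intro h <;>
    first
    | exact absurd h (by decide)
    | assumption)

theorem tab_zero : ∀ a b : Cell, RLt.nz a b = false → (rlt π s hs).tab a b = 0 := by
  refine forall_cell ?_ ?_ ?_ ?_ ?_ ?_ ?_ ?_ ?_ ?_ ?_ ?_ ?_ ?_ ?_ ?_ <;>
  (refine forall_cell ?_ ?_ ?_ ?_ ?_ ?_ ?_ ?_ ?_ ?_ ?_ ?_ ?_ ?_ ?_ ?_ <;> intro h <;>
    first
    | exact absurd h (by decide)
    | rfl)

theorem rm_tab (a b : Cell) (h : cdeg b = cdeg a + 1) : rm π a b = (rlt π s hs).tab a b := by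
  cases h1 : RLt.nz a b with
  | true => exact (nz_tb π s hs a b h1).eq
  | false => exact (rm_zero π a b h (nz_tab a b h1)).trans (tab_zero π s hs a b h1).symm

/-- the sixteen right cells -/
def rtb : (rlt π s hs).RTb where
  m := rm π
  m_mem c c' := by
    have h := rm_mem π c c'
    rwa [congrFun posP c, congrFun posP c', congrFun posA c, congrFun posA c'] at h
  mc := rm_mc π
  tb := rm_tab π s hs

theorem RS_eq {w : WD K} {E : KHev302.CE w} {κ : Type} [Fintype κ] {p p' a a' : κ → ℤ} {r : κ → ℤ}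
    {m : κ → κ → E.B} (hp : p = p') (ha : a = a') (h1) (h2) (h3) (h4) :
    (⟨κ, p, a, r, m, h1, h3⟩ : RS E) = ⟨κ, p', a', r, m, h2, h4⟩ := by
  subst hp ha
  rfl

theorem RSc_eq : RSc π s hs = (rtb π s hs).S := RS_eq posP posA _ _ _ _

/-! ### the thetas -/

theorem bij_of_smul {A B : Type} [AddCommGroup A] [Module K A] [AddCommGroup B] [Module K B]
    {f h : A →ₗ[K] B} {c : K} (hc : c ≠ 0) (hf : ∀ y, f y = c • h y)
    (hb : Function.Bijective f) : Function.Bijective h := by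
  constructor
  · intro y y' e
    exact hb.1 (by rw [hf, hf, e])
  · intro y
    obtain ⟨z, hz⟩ := hb.2 (c • y)
    refine ⟨z, ?_⟩
    rw [hf] at hz
    have := congrArg (fun y => c⁻¹ • y) hz
    simpa only [smul_smul, inv_mul_cancel₀ hc, one_smul] using this

theorem th2_eq : tL π + (1 : K) • LtR654.hL π = (π.g - 1) • (dL π 0 * xL π 0 + dL π 1 * xL π 1) := by
  rw [one_smul, ht0_L]
  have h := RL_two π (LtR654.hL π)
  calc _ = LtR654.hL π + LtR654.hL π + (π.g - 1) • (dL π 0 * xL π 0 + dL π 1 * xL π 1) := by abel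
    _ = _ := by rw [h, zero_add]

theorem th1_eq : tL π + π.g⁻¹ • LtR654.hL π = (π.g⁻¹ * (π.g - 1)) •
    (LtR654.hL π + π.g • (dL π 0 * xL π 0 + dL π 1 * xL π 1)) := by
  have g0 := π.g0
  have two := π.two
  rw [ht0_L]
  generalize dL π 0 * xL π 0 + dL π 1 * xL π 1 = v
  generalize LtR654.hL π = u
  linear_combination (norm := (match_scalars <;> field_simp <;> ring)) (π.g⁻¹ * 1) • two • u

theorem aux2 (v : RL π) : (tL π + (1 : K) • LtR654.hL π) * v =
    (π.g - 1) • (dL π 0 * (xL π 0 * v) + dL π 1 * (xL π 1 * v)) := by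
  rw [th2_eq, smul_mul_assoc, add_mul, mul_assoc, mul_assoc]

theorem aux1 (v : RL π) : (tL π + π.g⁻¹ • LtR654.hL π) * v = (π.g⁻¹ * (π.g - 1)) •
    (LtR654.hL π * v + π.g • (dL π 0 * xL π 0 * v + dL π 1 * xL π 1 * v)) := by
  rw [th1_eq, smul_mul_assoc, add_mul, smul_mul_assoc, add_mul]

variable (X : LCells (WG π s (two_le hs)).dga)

theorem S0_eq (n : ℤ) (b : ℕ) (h : QI ((TRq461.TL π s hs X).thH 1 0 b)) :
    Function.Bijective (((rlt π s hs).ry X n).S0 b) := by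
  have hb := bijective_of_QI h n
  refine bij_of_smul (c := π.g - 1) (sub_ne_zero.2 fun h => π.gn 1 one_pos (by rw [pow_one, h]))
    (fun y => ?_) hb
  obtain ⟨u, hu⟩ := IsRep.ex y
  have h1 := hu.map _ (HOK.of_hom n ((TRq461.TL π s hs X).thH 1 0 b))
  have h2 : ∀ j, IsRep (((rlt π s hs).ry X n).d j b (((rlt π s hs).ry X n).x j b y)) _ := fun j =>
    rep_lH ((rlt π s hs).md j b) ((rlt π s hs).Dd j)
      (rep_lH ((rlt π s hs).mx j b) ((rlt π s hs).Dx j) hu)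
  refine h1.eq' (((h2 0).add (h2 1)).smul (π.g - 1)) (U_ext fun σ j => ?_)
  exact aux2 π (uv u σ j)

theorem Th_eq (n : ℤ) (b : ℕ) (h : QI ((TRq461.TL π s hs X).thH π.g⁻¹ 1 b)) :
    Function.Bijective (((rlt π s hs).ry X n).Th b) := by
  have hb := bijective_of_QI h n
  refine bij_of_smul (c := π.g⁻¹ * (π.g - 1)) (mul_ne_zero (inv_ne_zero π.g0)
    (sub_ne_zero.2 fun h => π.gn 1 one_pos (by rw [pow_one, h]))) (fun y => ?_) hb
  obtain ⟨u, hu⟩ := IsRep.ex y
  have h1 := hu.map _ (HOK.of_hom n ((TRq461.TL π s hs X).thH π.g⁻¹ 1 b))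
  have h2 : ∀ j i, IsRep (((rlt π s hs).ry X n).w j i b y) _ := fun j i =>
    rep_lH ((rlt π s hs).mw j i 1 b) ((rlt π s hs).Dw j i) hu
  have h3 : IsRep (((rlt π s hs).ry X n).h 1 b y) _ :=
    rep_lH ((rlt π s hs).mh 1 b) (rlt π s hs).Dh hu
  refine h1.eq' ((h3.add (((h2 0 0).add (h2 1 1)).smul π.g)).smul (π.g⁻¹ * (π.g - 1)))
    (U_ext fun σ j => ?_)
  exact aux1 π (uv u σ j)

/-- **acyclicity of the sixteen right cells** from `theta_(-2)` on row `0`, `theta_(-1)` on row `1` -/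
theorem ac_tot (h0 : ∀ b, b < 3 → QI ((TRq461.TL π s hs X).thH 1 0 b))
    (h1 : ∀ b, b < 2 → QI ((TRq461.TL π s hs X).thH π.g⁻¹ 1 b)) :
    Ac (tG (tot (RSc π s hs)) X) := by
  rw [RSc_eq]
  exact RLt.rtot_ac (rtb π s hs) π.two π.g0 (fun h => π.gn 1 one_pos (by rw [pow_one, h]))
    (fun n b hb => S0_eq π s hs X n b (h0 b hb)) (fun n b hb => Th_eq π s hs X n b (h1 b hb))

/-- **`tot (RSc) ⊗ XL` is acyclic** -/
theorem tot_XL : Ac (tG (tot (RSc π s hs)) (EndV448.XL π s hs)) :=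
  ac_tot π s hs _ (fun _ hb => TRq461.q0 π s hs hb) (fun _ hb => TRq461.q1 π s hs (by omega))

/-- **`DV_{-2} ⊗ XL` is acyclic** -/
theorem DVs_XL : Ac (tG (DVs π s hs) (EndV448.XL π s hs)) := (dvs_ac π s hs _).1 (tot_XL π s hs)

end Crest.Agent.R186.RZ625
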