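import Crest.Agent.R186.HMc_510
import Crest.Agent.R186.RZ_625

/-!
Row 186, half (A) (helper625): `HM` without hypotheses (510's `HM_of_P` on `DVs_XL`).
-/

set_option autoImplicit false

namespace Crest.Agent.R186.HM625

open DefsQ830

variable {K : Type} [Field K] (π : Par K) (s : ℕ) (hs : 5 ≤ s)

/-- **`HM`** -/
theorem hm : EndF448.HM π s hs := HMc510.HM_of_P π s hs (RZ625.DVs_XL π s hs)

end Crest.Agent.R186.HM625
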