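import Crest.Agent.R186.HMj_510
import Crest.Agent.R186.ColHC_977
import Crest.Agent.R186.ColE_439
import Crest.Agent.R186.ColG_790

/-!
Row 186, half (A) (helper510): `HM` from the acyclicity of `DV_{-2} ⊗ XL` alone: 790's bases and
439's `Dat` through 921's column induction and 977's plug.
-/

set_option autoImplicit false
set_option linter.style.haveILetI false
set_option linter.unusedSectionVars false

noncomputable section

namespace Crest.Agent.R186.HMc510

open Hat827 Win810 DefsQ830 Frame515 Res255 RW171 V2c510 V2p510 V2q510 KHc302 WL221 TB143 Col921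
open ColAd977 EndF448 EndP448 EndV448 FinV988

variable {K : Type} [Field K] (π : Par K) (s : ℕ)

/-- the columns `(1, b)` of `Y ⊗ M` -/
theorem col1 {Y : RCells (WR π).dga} (r : RRes Y (DR (V2 π))) (b : Fin 4) :
    Ac (Sc Y (ColM790.MB π s) 1 ((b : ℕ) : ℤ)) :=
  (ColE439.dat π s).ac1 (ColG790.base_r π r b)

/-- the columns `(0, b)` of the cone of `h` on `Y ⊗ M` -/
theorem col0 {Y : RCells (WR π).dga} (r : RRes Y (DR (V2 π))) (b : Fin 3) :
    Ac (Sc Y ((ColM790.MB π s).cone (hCe π)) 0 ((b : ℕ) : ℤ)) :=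
  ((ColE439.dat π s).cone (hCe π)).ac0 (fun _ => Int.natCast_nonneg _) (ColG790.base_c π r 0 b)
    (ColG790.base_c π r 1 b)

/-- **`HB` of `Y ⊗ M` for `Y → DV`** -/
theorem hb (hs : 5 ≤ s) {Y : RCells (WR π).dga} (r : RRes Y (DR (V2 π))) (n : ℤ) :
    VT339.HB (wdatG π s (two_le hs) (three_le s hs)) (tQ Y (extG π s hs).M) n :=
  hb_MW π s (two_le hs) (three_le s hs) Y (col1 π s r) (col0 π s r) n

/-- **`HM` from its single input** -/
theorem HM_of_P (hs : 5 ≤ s) (hP : Ac (tG (A := Gam π s hs) (DVs π s hs) (XL π s hs))) :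
    HM π s hs :=
  HMj510.HM_of_HB π s hs hP fun _ R _ _ n => hb π s hs R n

end Crest.Agent.R186.HMc510
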