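import Crest.Agent.R186.HM_143
import Crest.Agent.R186.EndF_448

/-!
Row 186 (A), leaf (V), helper143: 448's literal `HM` from `HB` of `Y ⊗ M` and the acyclicity of the
sixteen right cells.
-/

set_option autoImplicit false
set_option linter.style.haveILetI false
set_option linter.unusedSectionVars false

noncomputable section

open MulOpposite

namespace Crest.Agent.R186.HM143

open Hat827 Win810 KHev302 Frame515 RW171 DefsQ830 FinV988 Res255 EndV448 EndP448 EndF448

variable {K : Type} [Field K] {π : Par K} {s : ℕ} {hs : 5 ≤ s}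

/-- **448's `HM`** -/
theorem HM_of (hP : Ac (tG (tot (rsc π s hs)) (XL π s hs)))
    (hB : ∀ (Y : RCells (WR π).dga) (R : RRes Y (DR (V2 π))), R.lo = 0 → (∀ σ, Y.e σ = 1) →
      ∀ n, VT339.HB (WG π s hs) (tQ Y (extG π s hs).M) n) : HM π s hs :=
  fun Y R h0 he => ac_of hP (hB Y R h0 he)

/-- the same with `DV_{-2} ⊗ X` -/
theorem HM_of' (hP : Ac (tG (DV2 π s hs) (XL π s hs)))
    (hB : ∀ (Y : RCells (WR π).dga) (R : RRes Y (DR (V2 π))), R.lo = 0 → (∀ σ, Y.e σ = 1) →
      ∀ n, VT339.HB (WG π s hs) (tQ Y (extG π s hs).M) n) : HM π s hs :=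
  fun Y R h0 he => VT339.ac_of_win (pb π s hs) (one π s hs) hP (hB Y R h0 he)

end Crest.Agent.R186.HM143
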