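import Crest.Agent.R186.V2q_510
import Crest.Agent.R186.ColHB_977
import Crest.Agent.R186.VHM_429
import Crest.Agent.R186.EndF_448

/-!
Row 186, half (A) (helper510): the join of (V) = `EndF448.HM` from `Ac (DV_{-2} ⊗ XL)` and the
columns of `Y ⊗ M`.
-/

set_option autoImplicit false
set_option linter.style.haveILetI false
set_option linter.unusedSectionVars false

noncomputable section

namespace Crest.Agent.R186.HMj510

open Hat827 Win810 DefsQ830 Frame515 Res255 RW171 V2c510 V2p510 V2q510 KHc302 WL221 TB143 Col921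
open ColAd977 EndF448 EndP448 EndV448 FinV988

variable {K : Type} [Field K] (π : Par K) (s : ℕ) (hs : 5 ≤ s)

/-- **`HM` from its two inputs** -/
theorem HM_of_HB (hP : Ac (tG (A := Gam π s hs) (DVs π s hs) (XL π s hs)))
    (hB : ∀ (Y : RCells (WR π).dga) (R : RRes Y (DR (V2 π))), R.lo = 0 → (∀ σ, Y.e σ = 1) →
      ∀ n, VT339.HB (wdatG π s (two_le hs) (three_le s hs)) (tQ Y (extG π s hs).M) n) :
    HM π s hs := by
  intro Y R h1 h2
  exact ac_of_HB π s hs hP (hB Y R h1 h2)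

/-- `HB` of `Y ⊗ M` from the columns -/
theorem HB_of_cols (Y : RCells (WR π).dga)
    (h1 : ∀ b : Fin 4, Ac (tY Y (colL (ColAd977.MB π s (two_le hs)) ((WR π).P (ob π 1 b))
      ((WR π).A (ob π 1 b)))))
    (h2 : ∀ b : Fin 3, QI (tYmap Y (hSt π s (two_le hs) b))) (n : ℤ) :
    VT339.HB (wdatG π s (two_le hs) (three_le s hs)) (tQ Y (extG π s hs).M) n :=
  VHM429.HB_core (SM890.tbOf (SM890.bdM π s (two_le hs)))
    (SM890.fstH (SM890.bdM π s (two_le hs))) Y
    (hb_cols π s (two_le hs) (three_le s hs) Y h1 h2 n)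

/-- **`HM` from the acyclicity of `DV_{-2} ⊗ XL` and the columns of `M`** -/
theorem HM_of_cols (hP : Ac (tG (A := Gam π s hs) (DVs π s hs) (XL π s hs)))
    (h1 : ∀ (Y : RCells (WR π).dga) (R : RRes Y (DR (V2 π))), R.lo = 0 → (∀ σ, Y.e σ = 1) →
      ∀ b : Fin 4, Ac (tY Y (colL (ColAd977.MB π s (two_le hs)) ((WR π).P (ob π 1 b))
        ((WR π).A (ob π 1 b)))))
    (h2 : ∀ (Y : RCells (WR π).dga) (R : RRes Y (DR (V2 π))), R.lo = 0 → (∀ σ, Y.e σ = 1) →
      ∀ b : Fin 3, QI (tYmap Y (hSt π s (two_le hs) b))) : HM π s hs :=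
  HM_of_HB π s hs hP fun Y R h3 h4 n => HB_of_cols π s hs Y (h1 Y R h3 h4) (h2 Y R h3 h4) n

end Crest.Agent.R186.HMj510
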