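import Crest.Agent.R186.ColHC_977
import Crest.Agent.R186.ColG_790
import Crest.Agent.R186.ColE_439
import Crest.Agent.R186.HMj_510
import Crest.Agent.R186.RZ_625

/-!
# Row 186, half (A) (helper977): `EndF448.HM`, no hypothesis

439's data, 790's bases, 921's induction, 977's columns, 510's join, 625's `Ac (DV_{-2} ⊗ XL)`.
-/

set_option autoImplicit false
set_option linter.style.haveILetI false
set_option linter.unusedSectionVars false

noncomputable section

namespace Crest.Agent.R186.HMf977

open Hat827 Win810 DefsQ830 Frame515 Res255 KHc302 TB143 Col921 ColAd977 EndV448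

variable {K : Type} [Field K] (π : Par K) (s : ℕ)

/-- columns of the row `1` -/
theorem h1 (Y : RCells (WR π).dga) (R : RRes Y (FinV988.DR (V2 π))) (b : Fin 4) :
    Ac (Sc Y (ColM790.MB π s) 1 ((b : ℕ) : ℤ)) :=
  (ColE439.dat π s).ac1 (ColG790.base_r π R b)

/-- steps of `h` in the row `0` -/
theorem h2 (Y : RCells (WR π).dga) (R : RRes Y (FinV988.DR (V2 π))) (b : Fin 3) :
    Ac (Sc Y ((ColM790.MB π s).cone (hCe π)) 0 ((b : ℕ) : ℤ)) :=
  ((ColE439.dat π s).cone (hCe π)).ac0 (fun i => Int.natCast_nonneg _)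
    (ColG790.base_c π R 0 b) (ColG790.base_c π R 1 b)

/-- **the open literal of (V)** -/
theorem hm (hs : 5 ≤ s) : EndF448.HM π s hs :=
  HMj510.HM_of_cols π s hs (RZ625.DVs_XL π s hs)
    (fun Y R _ _ b => h1 π s Y R b)
    (fun Y R _ _ b => qi_h π s (two_le hs) Y b (h2 π s Y R b))

end Crest.Agent.R186.HMf977
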