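import Crest.Agent.R186.HMj_510
import Crest.Agent.R186.ColHC_977
import Crest.Agent.R186.ColG_790
import Crest.Agent.R186.ColE_439
import Crest.Agent.R186.RZ_625

/-!
Row 186, half (A) (helper706): `HM` with no hypothesis = 510's `HM_of_HB` at 625's `DVs_XL`,
977's `hb_MW`, 439's `dat`, 790's `base_r` / `base_c`, 921's `ac1` / `ac0`.
-/

set_option autoImplicit false
set_option linter.style.haveILetI false
set_option linter.unusedSectionVars false

noncomputable section

namespace Crest.Agent.R186.HMfin706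

open Hat827 Win810 DefsQ830 Frame515 Res255 RW171 V2c510 V2p510 V2q510 KHc302 WL221 TB143 Col921
open ColAd977 EndF448 EndP448 EndV448 FinV988

variable {K : Type} [Field K] (π : Par K) (s : ℕ) (hs : 5 ≤ s)

theorem P_nonneg (i : (WR π).Ob) : 0 ≤ (WR π).P i := by
  obtain ⟨a, b⟩ := i
  exact Int.natCast_nonneg _

theorem h1 (Y : RCells (WR π).dga) (R : RRes Y (DR (V2 π))) (b : Fin 4) :
    Ac (Sc Y (ColM790.MB π s) 1 ((b : ℕ) : ℤ)) :=
  (ColE439.dat π s).ac1 (ColG790.base_r π R b)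

theorem h2 (Y : RCells (WR π).dga) (R : RRes Y (DR (V2 π))) (b : Fin 3) :
    Ac (Sc Y ((ColM790.MB π s).cone (hCe π)) 0 ((b : ℕ) : ℤ)) :=
  ((ColE439.dat π s).cone (hCe π)).ac0 (P_nonneg π) (ColG790.base_c π R 0 b)
    (ColG790.base_c π R 1 b)

/-- **`HM`: no hypothesis left** -/
theorem hm : HM π s hs :=
  HMj510.HM_of_HB π s hs (RZ625.DVs_XL π s hs) fun Y R _ _ n =>
    hb_MW π s (two_le hs) (three_le s hs) Y (h1 π s Y R) (h2 π s Y R) n

end Crest.Agent.R186.HMfin706
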