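import Crest.Agent.R186.ColHC_977
import Crest.Agent.R186.ColE_439
import Crest.Agent.R186.ColG_790
import Crest.Agent.R186.HMj_510
import Crest.Agent.R186.RZ_625

/-!
Row 186, half (A), helper143: **448's `EndF448.HM` as a theorem** (the join of 339 / 510 / 171 / 625 /
977 / 429 / 921 / 439 / 790 / 808).
-/

set_option autoImplicit false
set_option linter.style.haveILetI false
set_option linter.unusedSectionVars false

noncomputable section

namespace Crest.Agent.R186.HMz143

open Hat827 Win810 DefsQ830 Frame515 Res255 Col921 EndF448 EndP448 EndV448 FinV988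

variable {K : Type} [Field K] (π : Par K) (s : ℕ)

/-- the column `(1, b)` of `Y ⊗ M` is acyclic -/
theorem h1 {Y : RCells (WR π).dga} (r : RRes Y (DR (V2 π))) (b : Fin 4) :
    Ac (Sc Y (ColM790.MB π s) 1 ((b : ℕ) : ℤ)) :=
  (ColE439.dat π s).ac1 (a := ((b : ℕ) : ℤ)) (ColG790.base_r π r b)

theorem hP (i : (WR π).Ob) : 0 ≤ (WR π).P i := Int.natCast_nonneg _

/-- `h` is a quasi-isomorphism from the column `(0, b + 1)` to the column `(0, b)` -/
theorem h2 {Y : RCells (WR π).dga} (r : RRes Y (DR (V2 π))) (b : Fin 3) :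
    Ac (Sc Y ((ColM790.MB π s).cone (ColAd977.hCe π)) 0 ((b : ℕ) : ℤ)) :=
  ((ColE439.dat π s).cone (ColAd977.hCe π)).ac0 (hP π) (a := ((b : ℕ) : ℤ))
    (ColG790.base_c π r 0 b) (ColG790.base_c π r 1 b)

/-- **(V)** -/
theorem HM (hs : 5 ≤ s) : EndF448.HM π s hs :=
  HMj510.HM_of_HB π s hs (RZ625.DVs_XL π s hs) fun Y R _ _ n =>
    ColAd977.hb_MW π s (KHc302.two_le hs) (le_trans (by norm_num) hs) Y (h1 π s R) (h2 π s R) n

/-- **rigidity** -/
theorem PV (hs : 5 ≤ s) : EndB448.PV π s hs := EndF448.PV_of_HM (HM π s hs)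

end Crest.Agent.R186.HMz143
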