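import Crest.Agent.R186.ColX_339
import Crest.Agent.R186.ColG_790
import Crest.Agent.R186.ColHC_977
import Crest.Agent.R186.RZ_625
import Crest.Agent.R186.HMj_510

/-!
Row 186 (A), leaf (V) (helper339): the last line of `HM` (448's `EndF448.HM`).
-/

set_option autoImplicit false

noncomputable section

namespace Crest.Agent.R186.HMz339

open DefsQ830 PBW128 SM890 Win810 Frame515 Hat827 TB143 Res255 Col921 ColB790 ColAd977 EndV448 EndP448
open EndF448 FinV988

variable {K : Type} [Field K] (π : Par K) (s : ℕ)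

variable {Y : RCells (WR π).dga}

/-- columns `(1,b)` of `M` -/
theorem h1 (hs : 5 ≤ s) (r : RRes Y (DR (V2 π))) (b : Fin 4) :
    Ac (Sc Y (ColM790.MB π s) 1 ((b : ℕ) : ℤ)) :=
  ColX339.col1 s (by omega) (ColG790.base_r π r b)

/-- cones of `h` on the columns `(0,b+1) → (0,b)` of `M` -/
theorem h2 (hs : 5 ≤ s) (r : RRes Y (DR (V2 π))) (b : Fin 3) :
    Ac (Sc Y ((ColM790.MB π s).cone (hCe π)) 0 ((b : ℕ) : ℤ)) :=
  ColX339.cone0 s (by omega) (hCe π) rfl (ColG790.base_c π r 0 b) (ColG790.base_c π r 1 b)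

/-- **`HM`, every parameter, every `s ≥ 5`, no hypothesis** -/
theorem hm (hs : 5 ≤ s) : HM π s hs :=
  HMj510.HM_of_HB π s hs (RZ625.DVs_XL π s hs) fun _ r _ _ n =>
    hb_MW π s (KHc302.two_le hs) (by omega) _ (h1 π s hs r) (h2 π s hs r) n

end Crest.Agent.R186.HMz339
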