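import Crest.Agent.R186.RW1_171

/-!
Row 186 (A), short road (helper171): the one-dimensional column module `DV` of a character of `B`
and the quasi-isomorphism `tot → DV` from the columnwise exactness.
-/

set_option autoImplicit false
set_option linter.style.haveILetI false
set_option linter.unusedSectionVars false
set_option linter.unusedSimpArgs false

namespace Crest.Agent.R186.RW171

open Hat827 Win810 KHev302 Frame515 MulOpposite Adapt186 HB362

variable {K : Type} [Field K] {w : WD K} {E : CE w}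

/-- a character at the row of the cell `o`, with the columnwise exactness of the cells -/
structure Chr (S : RS E) where
  o : S.κ
  ro : S.r o = 0
  r_nn : ∀ c, 0 ≤ S.r c
  no : ∀ c, S.m c o = 0
  P_le : ∀ j : w.Ob, S.p o ≤ w.P j
  A_le : ∀ j : w.Ob, w.A j ≤ S.a o
  p_le : ∀ c, S.p o ≤ S.p c
  χ : E.B →ₗ[K] K
  χ_P : ∀ {P A : ℤ} {b : E.B}, b ∈ E.EB P A → P ≠ 0 → χ b = 0
  χ_C : ∀ {P A C : ℤ} {b : E.B}, b ∈ E.pb P A C → C ≠ 0 → χ b = 0
  χ_mul : ∀ {P A P' A' : ℤ} {a b : E.B}, a ∈ E.EB P A → b ∈ E.EB P' A' → P ≤ 0 →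
    χ (a * b) = χ a * χ b
  χ_one : χ 1 = 1
  χ_D : ∀ {A : ℤ} {b : E.B}, b ∈ E.EB 0 A → χ (E.DB b) = 0
  χ_m : ∀ c, χ (S.m o c) = 0
  η : ℤ → E.B
  η_mem : ∀ A, 0 ≤ A → η A ∈ E.pb 0 A 0
  η_χ : ∀ A, 0 ≤ A → χ (η A) = 1
  η_D : ∀ A, 0 ≤ A → E.DB (η A) = 0
  ex : ∀ (j : w.Ob) (k : ℤ) (y : S.κ → E.B), 0 ≤ k →
    (∀ c, y c ∈ E.pb (S.p c - w.P j) (S.a c - w.A j) (k - S.r c)) →
    (∀ c, E.DB (y c) + ∑ c', S.m c c' * y c' = 0) → (k = 0 → χ (y o) = 0) →
    ∃ z : S.κ → E.B, (∀ c, z c ∈ E.pb (S.p c - w.P j) (S.a c - w.A j) (k + 1 - S.r c)) ∧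
      ∀ c, y c = E.DB (z c) + ∑ c', S.m c c' * z c'

namespace Chr

variable {S : RS E} (T : Chr S)

/-- the column module: functions supported on the vertices at the `P`-level of the row -/
def Vd : Submodule K (w.Ob → K) where
  carrier := {f | ∀ j, w.P j ≠ S.p T.o → f j = 0}
  add_mem' hx hy j hj := by rw [Pi.add_apply, hx j hj, hy j hj, add_zero]
  zero_mem' _ _ := rfl
  smul_mem' r _ hx j hj := by rw [Pi.smul_apply, hx j hj, smul_zero]

theorem Vd_ext {f g : T.Vd} (h : ∀ j, f.1 j = g.1 j) : f = g := Subtype.ext (funext h)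

/-- the value of the character on an entry -/
def xm (m : w.Win) (i j : w.Ob) : K := T.χ (E.p (m.1 i j))

theorem xm_P (m : w.Win) {i j : w.Ob} (h : w.P i ≠ w.P j) : T.xm m i j = 0 :=
  T.χ_P (CE.EB_p (E := E) (m.2 i j)) (by omega)

/-- the right action -/
def Rd : w.Win →ₗ[K] T.Vd →ₗ[K] T.Vd where
  toFun m :=
    { toFun := fun f => ⟨fun j => ∑ i, f.1 i * T.xm m i j, by
        intro j hj
        refine Finset.sum_eq_zero fun i _ => ?_
        by_cases h : w.P i = S.p T.o
        · rw [T.xm_P m (by rw [h]; exact fun h' => hj h'.symm), mul_zero]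
        · rw [f.2 i h, zero_mul]⟩
      map_add' := by
        intro x y
        refine T.Vd_ext fun j => ?_
        change ∑ i, (x.1 i + y.1 i) * T.xm m i j = _ + _
        rw [← Finset.sum_add_distrib]
        exact Finset.sum_congr rfl fun i _ => add_mul _ _ _
      map_smul' := by
        intro r x
        refine T.Vd_ext fun j => ?_
        change ∑ i, (r * x.1 i) * T.xm m i j = r * ∑ i, x.1 i * T.xm m i j
        rw [Finset.mul_sum]
        exact Finset.sum_congr rfl fun i _ => mul_assoc _ _ _ }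
  map_add' a b := by
    refine LinearMap.ext fun f => T.Vd_ext fun j => ?_
    change ∑ i, f.1 i * T.χ (E.p (a.1 i j + b.1 i j)) =
      ∑ i, f.1 i * T.χ (E.p (a.1 i j)) + ∑ i, f.1 i * T.χ (E.p (b.1 i j))
    rw [← Finset.sum_add_distrib]
    exact Finset.sum_congr rfl fun i _ => by rw [map_add, map_add, mul_add]
  map_smul' r a := by
    refine LinearMap.ext fun f => T.Vd_ext fun j => ?_
    change ∑ i, f.1 i * T.χ (E.p (r • a.1 i j)) = r * ∑ i, f.1 i * T.χ (E.p (a.1 i j))
    rw [Finset.mul_sum]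
    exact Finset.sum_congr rfl fun i _ => by
      rw [map_smul, map_smul, smul_eq_mul]; ring

theorem Rd_apply (m : w.Win) (f : T.Vd) (j : w.Ob) :
    (T.Rd m f).1 j = ∑ i, f.1 i * T.xm m i j := rfl

theorem Rd_one (f : T.Vd) : T.Rd 1 f = f := T.Vd_ext fun j => by
  rw [Rd_apply, Finset.sum_eq_single j]
  · change f.1 j * T.χ (E.p ((1 : Matrix w.Ob w.Ob w.S) j j)) = _
    rw [Matrix.one_apply_eq, map_one, T.χ_one, mul_one]
  · intro i _ hi
    change f.1 i * T.χ (E.p ((1 : Matrix w.Ob w.Ob w.S) i j)) = _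
    rw [Matrix.one_apply_ne hi, map_zero, map_zero, mul_zero]
  · intro h
    exact absurd (Finset.mem_univ _) h

theorem Rd_mul (m n : w.Win) (f : T.Vd) : T.Rd (m * n) f = T.Rd n (T.Rd m f) :=
  T.Vd_ext fun j => by
    rw [Rd_apply, Rd_apply]
    simp only [Rd_apply]
    have h : ∀ i, f.1 i * T.xm (m * n) i j = ∑ l, f.1 i * (T.xm m i l * T.xm n l j) := by
      intro i
      by_cases hi : w.P i = S.p T.o
      · rw [← Finset.mul_sum]
        congr 1
        change T.χ (E.p ((m.1 * n.1) i j)) = _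
        rw [Matrix.mul_apply, map_sum, map_sum]
        refine Finset.sum_congr rfl fun l _ => ?_
        rw [map_mul]
        exact T.χ_mul (CE.EB_p (E := E) (m.2 i l)) (CE.EB_p (E := E) (n.2 l j))
          (by have := T.P_le l; omega)
      · rw [f.2 i hi, zero_mul]
        simp
    simp only [h]
    rw [Finset.sum_comm]
    refine Finset.sum_congr rfl fun l _ => ?_
    rw [Finset.sum_mul]
    exact Finset.sum_congr rfl fun i _ => (mul_assoc _ _ _).symm

/-- degree zero -/
def gV (k : ℤ) : Submodule K T.Vd := if k = 0 then ⊤ else ⊥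

theorem mem_gV0 (f : T.Vd) : f ∈ T.gV 0 := by
  rw [gV, if_pos rfl]; trivial

theorem gV_ne {k : ℤ} (hk : k ≠ 0) {f : T.Vd} (hf : f ∈ T.gV k) : f = 0 := by
  rw [gV, if_neg hk, Submodule.mem_bot] at hf
  exact hf

theorem xm_deg {k : ℤ} (hk : k ≠ 0) {m : w.Win} (hm : m ∈ w.G k) (i j : w.Ob) : T.xm m i j = 0 :=
  T.χ_C (E.p_mem (hm i j)) hk

theorem Rd_deg {k l : ℤ} {m : w.Win} {f : T.Vd} (hm : m ∈ w.G k) (hf : f ∈ T.gV l) :
    T.Rd m f ∈ T.gV (k + l) := by
  by_cases hl : l = 0
  · by_cases hk : k = 0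
    · rw [hl, hk, add_zero]; exact T.mem_gV0 _
    · have : T.Rd m f = 0 := T.Vd_ext fun j => by
        rw [Rd_apply]
        refine Finset.sum_eq_zero fun i _ => ?_
        rw [T.xm_deg hk hm, mul_zero]
      rw [this]; exact Submodule.zero_mem _
  · rw [T.gV_ne hl hf, map_zero]; exact Submodule.zero_mem _

theorem Rd_D (m : w.Win) (f : T.Vd) : T.Rd (w.DW m) f = 0 := T.Vd_ext fun j => by
  rw [Rd_apply]
  refine Finset.sum_eq_zero fun i _ => ?_
  by_cases h : w.P i = w.P j
  · have h2 : T.xm (w.DW m) i j = 0 := by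
      change T.χ (E.p ((w.DW m).1 i j)) = 0
      rw [WD.DW_apply, E.p_D]
      have h3 := CE.EB_p (E := E) (m.2 i j)
      rw [h, sub_self] at h3
      exact T.χ_D h3
    rw [h2, mul_zero]
  · rw [T.xm_P _ h, mul_zero]

/-- **the column module** -/
noncomputable def DV : RM w.dga :=
  mkRM (A := w.dga) T.Vd T.gV 0 (fun {k x} _ => Submodule.zero_mem _) (fun _ => rfl) T.Rd T.Rd_one
    T.Rd_mul T.Rd_deg (fun a f => by
      change (0 : T.Vd) = T.Rd (w.DW a) f + T.Rd a 0
      rw [map_zero, add_zero]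
      exact (T.Rd_D a f).symm)

/-- the augmentation -/
def av : Fm S →ₗ[K] T.Vd where
  toFun y := ⟨fun j => T.χ ((y T.o).1 j), fun j hj => T.χ_P ((y T.o).2 j) (fun h => hj (by omega))⟩
  map_add' x y := T.Vd_ext fun j => map_add T.χ _ _
  map_smul' r x := T.Vd_ext fun j => map_smul T.χ _ _

theorem av_apply (y : Fm S) (j : w.Ob) : (T.av y).1 j = T.χ ((y T.o).1 j) := rfl

theorem av_R (m : w.Win) (y : Fm S) : T.av (FR S m y) = T.Rd m (T.av y) := T.Vd_ext fun j => by
  rw [av_apply, FR_apply, rowR_apply, map_sum, Rd_apply]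
  exact Finset.sum_congr rfl fun i _ => T.χ_mul ((y T.o).2 i) (CE.EB_p (E := E) (m.2 i j))
    (by have := T.P_le i; omega)

theorem av_d (y : Fm S) : T.av (Fd S y) = 0 := T.Vd_ext fun j => by
  rw [av_apply, Fd_val, map_add, map_sum]
  have h1 : T.χ (E.DB ((y T.o).1 j)) = 0 := by
    by_cases h : S.p T.o = w.P j
    · have h3 := (y T.o).2 j
      rw [show S.p T.o - w.P j = 0 by omega] at h3
      exact T.χ_D h3
    · exact T.χ_P (CE.EB_D ((y T.o).2 j)) (by omega)
  rw [h1, zero_add]
  refine Finset.sum_eq_zero fun c _ => ?_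
  rw [T.χ_mul (m_EB S T.o c) ((y c).2 j) (by have := T.p_le c; omega), T.χ_m, zero_mul]

theorem av_mem {k : ℤ} {y : Fm S} (hy : y ∈ Fg S k) : T.av y ∈ T.gV k := by
  by_cases hk : k = 0
  · rw [hk]; exact T.mem_gV0 _
  · have : T.av y = 0 := T.Vd_ext fun j => by
      rw [av_apply]
      refine T.χ_C (hy T.o j) ?_
      rw [T.ro, sub_zero]; exact hk
    rw [this]; exact Submodule.zero_mem _

/-- the augmentation as a map of complexes -/
noncomputable def avH : GCHom (tot S).toGC T.DV.toGC where
  f := T.av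
  f_mem h := T.av_mem h
  f_d y := T.av_d y

theorem avH_R (m : w.Win) (y : Fm S) :
    T.avH.f (rmul (tot S) m y) = rmul T.DV m (T.avH.f y) := T.av_R m y

/-- **`tot → DV` is a quasi-isomorphism** -/
theorem avQI : QI T.avH := by
  classical
  constructor
  · intro k f hf _
    by_cases hk : k = 0
    · subst hk
      change T.Vd at f
      let x : Fm S := fun c => if h : c = T.o then
        ⟨fun j => f.1 j • T.η (S.a T.o - w.A j), fun j => by
          subst h
          by_cases hj : w.P j = S.p T.o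
          · rw [show S.p T.o - w.P j = 0 by omega]
            exact Submodule.smul_mem _ _ (CE.pb_le _ _ _ (T.η_mem _ (by have := T.A_le j; omega)))
          · change f.1 j • _ ∈ _
            rw [f.2 j hj, zero_smul]; exact Submodule.zero_mem _⟩
        else 0
      have hxo : ∀ j, (x T.o).1 j = f.1 j • T.η (S.a T.o - w.A j) := fun j => by
        simp only [x, dif_pos rfl]
      have hxn : ∀ c, c ≠ T.o → x c = 0 := fun c hc => by simp only [x, dif_neg hc]
      refine ⟨x, ?_, ?_, 0, Submodule.zero_mem _, ?_⟩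
      · intro c
        by_cases hc : c = T.o
        · subst hc
          intro j
          rw [hxo, T.ro, sub_zero]
          by_cases hj : w.P j = S.p T.o
          · rw [show S.p T.o - w.P j = 0 by omega]
            exact Submodule.smul_mem _ _ (T.η_mem _ (by have := T.A_le j; omega))
          · rw [f.2 j hj, zero_smul]; exact Submodule.zero_mem _
        · rw [hxn c hc]; exact Submodule.zero_mem _
      · change Fd S x = 0
        funext c
        refine row_ext fun j => ?_
        rw [Fd_val]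
        have h1 : ∑ c', S.m c c' * (x c').1 j = 0 := by
          refine Finset.sum_eq_zero fun c' _ => ?_
          by_cases hc : c' = T.o
          · subst hc; rw [T.no, zero_mul]
          · rw [hxn c' hc]
            change _ * (0 : E.B) = 0
            rw [mul_zero]
        rw [h1, add_zero]
        by_cases hc : c = T.o
        · subst hc
          rw [hxo, map_smul, T.η_D _ (by have := T.A_le j; omega), smul_zero]; rfl
        · rw [hxn c hc]
          change E.DB 0 = 0
          rw [map_zero]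
      · change f = T.av x + 0
        rw [add_zero]
        refine T.Vd_ext fun j => ?_
        rw [av_apply, hxo, map_smul, T.η_χ _ (by have := T.A_le j; omega), smul_eq_mul, mul_one]
    · have h0 := T.gV_ne hk hf
      refine ⟨0, Submodule.zero_mem _, map_zero _, 0, Submodule.zero_mem _, ?_⟩
      rw [h0, map_zero, map_zero, add_zero]
      rfl
  · rintro k x hx hd ⟨z, _, hz⟩
    change Fm S at x
    have hx' : x ∈ Fg S k := hx
    have hd' : Fd S x = 0 := hd
    have hz' : T.av x = 0 := hz
    by_cases hk : k < 0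
    · have h0 : x = 0 := by
        funext c
        refine row_ext fun j => ?_
        have h := hx' c j
        rw [E.pb_neg _ _ _ (by have := T.r_nn c; omega), Submodule.mem_bot] at h
        exact h
      refine ⟨0, Submodule.zero_mem _, ?_⟩
      rw [h0, map_zero]
      rfl
    · have key : ∀ j : w.Ob, ∃ z : S.κ → E.B,
          (∀ c, z c ∈ E.pb (S.p c - w.P j) (S.a c - w.A j) (k + 1 - S.r c)) ∧
          ∀ c, (x c).1 j = E.DB (z c) + ∑ c', S.m c c' * z c' := by
        intro j
        refine T.ex j k (fun c => (x c).1 j) (by omega) (fun c => hx' c j) (fun c => ?_) (fun _ => ?_)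
        · have h := congrArg (fun y : Fm S => (y c).1 j) hd'
          simp only [Fd_val] at h
          exact h
        · have h := congrArg (fun f : T.Vd => f.1 j) hz'
          exact h
      choose z hz1 hz2 using key
      let v : Fm S := fun c => ⟨fun j => z j c, fun j => CE.pb_le _ _ _ (hz1 j c)⟩
      refine ⟨v, fun c j => hz1 j c, ?_⟩
      change x = Fd S v
      funext c
      refine row_ext fun j => ?_
      rw [Fd_val]
      exact hz2 j c

end Chr

end Crest.Agent.R186.RW171
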