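import Crest.Agent.R186.VTc_339
import Crest.Agent.R186.RW2_171

/-!
Row 186 (A), leaf (V), helper143: the column module `DV` of a character (171) as the module `P` of
339's `ac_of_win`.
-/

set_option autoImplicit false
set_option linter.style.haveILetI false
set_option linter.unusedSectionVars false
set_option linter.unusedSimpArgs false

noncomputable section

open MulOpposite

namespace Crest.Agent.R186.HP143

open Hat827 Win810 KHev302 Frame515 RW171

variable {K : Type} [Field K] {w : WD K} {E : CE w} {S : RS E} (T : Chr S)

/-- the functions behind the elements of `DV` -/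
def fn : T.DV.X →ₗ[K] (w.Ob → K) := T.Vd.subtype

theorem fn_ext {f g : T.DV.X} (h : ∀ j, fn T f j = fn T g j) : f = g := T.Vd_ext h

theorem fn_supp (f : T.DV.X) {j : w.Ob} (hj : w.P j ≠ S.p T.o) : fn T f j = 0 := f.2 j hj

theorem fn_smul (m : w.dga.C) (f : T.DV.X) (j : w.Ob) :
    fn T (op m • f) j = ∑ i, fn T f i * T.xm m i j := rfl

theorem one : VT339.One T.DV where
  all p := T.mem_gV0 p
  bot _ hk _ hp := T.gV_ne hk hp

variable (W : VT339.Wdat w.dga) (ob : W.ι → w.Ob)

/-- the entries of the window data at the vertices of the column -/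
structure Ent : Prop where
  inj : Function.Injective ob
  rng : ∀ j, w.P j = S.p T.o ↔ ∃ b, ob b = j
  he : ∀ b j, T.xm (W.e b) (ob b) j = if j = ob b then 1 else 0
  he' : ∀ b b', b ≠ b' → ∀ j, T.xm (W.e b) (ob b') j = 0
  hH : ∀ b b' j, T.xm (W.H b b') (ob b) j = if j = ob b' then W.T b b' else 0
  hfs : ∀ b j, T.xm W.fs (ob b) j = 0
  hy : ∀ b j, T.xm W.y (ob b) j = 0

variable {W ob} (h : Ent T W ob)

include h in
theorem fn_single {f : T.DV.X} {b : W.ι} {c : K}
    (hf : ∀ j, fn T f j = if j = ob b then c else 0) (m : w.dga.C) (j : w.Ob) :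
    fn T (op m • f) j = c * T.xm m (ob b) j := by
  rw [fn_smul, Finset.sum_eq_single (ob b)]
  · rw [hf, if_pos rfl]
  · intro i _ hi
    rw [hf, if_neg hi, zero_mul]
  · intro hb
    exact absurd (Finset.mem_univ _) hb

/-- the basis -/
def bas : Module.Basis W.ι K T.DV.X :=
  Module.Basis.ofEquivFun
    { toFun := fun f b => fn T f (ob b)
      map_add' := fun f g => funext fun b => by rw [map_add]; rfl
      map_smul' := fun r f => funext fun b => by rw [map_smul]; rfl
      invFun := fun c => (⟨∑ b, Pi.single (ob b) (c b), fun j hj => by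
        rw [Finset.sum_apply]
        refine Finset.sum_eq_zero fun b _ => ?_
        rw [Pi.single_apply, if_neg]
        rintro rfl
        exact hj ((h.rng _).2 ⟨b, rfl⟩)⟩ : T.Vd)
      left_inv := fun f => by
        refine fn_ext T fun j => ?_
        change (∑ b, Pi.single (ob b) (fn T f (ob b)) : w.Ob → K) j = fn T f j
        rw [Finset.sum_apply]
        by_cases hj : w.P j = S.p T.o
        · obtain ⟨b, rfl⟩ := (h.rng j).1 hj
          rw [Finset.sum_eq_single b, Pi.single_eq_same]
          · intro b' _ hb
            rw [Pi.single_apply, if_neg]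
            intro e
            exact hb (h.inj e).symm
          · intro hb
            exact absurd (Finset.mem_univ _) hb
        · rw [fn_supp T f hj]
          refine Finset.sum_eq_zero fun b _ => ?_
          rw [Pi.single_apply, if_neg]
          rintro rfl
          exact hj ((h.rng _).2 ⟨b, rfl⟩)
      right_inv := fun c => by
        funext b
        change (∑ b', Pi.single (ob b') (c b') : w.Ob → K) (ob b) = c b
        rw [Finset.sum_apply, Finset.sum_eq_single b, Pi.single_eq_same]
        · intro b' _ hb
          rw [Pi.single_apply, if_neg]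
          intro e
          exact hb (h.inj e).symm
        · intro hb
          exact absurd (Finset.mem_univ _) hb }

theorem bas_fn (b : W.ι) (j : w.Ob) :
    fn T (bas T h b) j = if j = ob b then 1 else 0 := by
  have h1 : bas T h b = (bas T h).equivFun.symm (Pi.single b 1) := by
    rw [Module.Basis.equivFun_symm_apply, Finset.sum_eq_single b]
    · rw [Pi.single_eq_same, one_smul]
    · intro b' _ hb
      rw [Pi.single_eq_of_ne hb, zero_smul]
    · intro hb
      exact absurd (Finset.mem_univ _) hb
  rw [h1]
  have h2 : (bas T h).equivFun.symm (Pi.single b 1) =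
      ((⟨∑ b', Pi.single (ob b') ((Pi.single b 1 : W.ι → K) b'), fun j hj => by
        rw [Finset.sum_apply]
        refine Finset.sum_eq_zero fun b _ => ?_
        rw [Pi.single_apply, if_neg]
        rintro rfl
        exact hj ((h.rng _).2 ⟨b, rfl⟩)⟩ : T.Vd) : T.DV.X) := by
    unfold bas
    rw [Module.Basis.equivFun_ofEquivFun]
    rfl
  rw [h2]
  change (∑ b', Pi.single (ob b') ((Pi.single b 1 : W.ι → K) b') : w.Ob → K) j = _
  rw [Finset.sum_apply, Finset.sum_eq_single b]
  · rw [Pi.single_eq_same, Pi.single_apply]
  · intro b' _ hb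
    rw [Pi.single_eq_of_ne hb, Pi.single_zero]
    rfl
  · intro hb
    exact absurd (Finset.mem_univ _) hb


/-- **`DV` is the module `P` of the window data** -/
def pb : VT339.PB W T.DV where
  v := bas T h
  v_e b := by
    refine fn_ext T fun j => ?_
    rw [fn_single T h (bas_fn T h b), one_mul, h.he, bas_fn]
  v_H b b' := by
    refine fn_ext T fun j => ?_
    rw [fn_single T h (bas_fn T h b), one_mul, h.hH, map_smul, Pi.smul_apply, bas_fn, smul_eq_mul]
    split_ifs <;> simp
  p_fs p := by
    rw [← (bas T h).sum_repr p, Finset.smul_sum]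
    refine Finset.sum_eq_zero fun b _ => ?_
    have e1 : op W.fs • bas T h b = 0 := by
      refine fn_ext T fun j => ?_
      rw [fn_single T h (bas_fn T h b), h.hfs, mul_zero, map_zero]
      rfl
    have e2 := (rmul T.DV W.fs).map_smul ((bas T h).repr p b) (bas T h b)
    rw [rmul_apply, rmul_apply, e1, smul_zero] at e2
    exact e2
  p_y p := by
    rw [← (bas T h).sum_repr p, Finset.smul_sum]
    refine Finset.sum_eq_zero fun b _ => ?_
    have e1 : op W.y • bas T h b = 0 := by
      refine fn_ext T fun j => ?_
      rw [fn_single T h (bas_fn T h b), h.hy, mul_zero, map_zero]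
      rfl
    have e2 := (rmul T.DV W.y).map_smul ((bas T h).repr p b) (bas T h b)
    rw [rmul_apply, rmul_apply, e1, smul_zero] at e2
    exact e2

/-- **`hM` from the window data**: `G` zero in the columns `fs`, `h` bijective on its homology -/
theorem hM {W : VT339.Wdat w.dga} {ob : W.ι → w.Ob} (T : Chr S) (h : Ent T W ob) {G : RM w.dga}
    {X : LCells w.dga} (hP : Ac (tG T.DV X)) (hB : ∀ n, VT339.HB W G n) : Ac (tG G X) :=
  VT339.ac_of_win (pb T h) (one T) hP hB

end Crest.Agent.R186.HP143
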