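import Mathlib

/-!
Row 186, leaf HAT, part 2 (helper827): the hat algebra of a strict dg algebra `C` in
characteristic `2`, concentrated in cohomological degrees `[-N, 0]`, as a subalgebra of
`Matrix (Fin n × Bool) (Fin n × Bool) C`, `n = N + 1`.
-/

set_option autoImplicit false
set_option linter.style.haveILetI false

namespace Crest.Agent.R186.Hat827

/-- a strict finite dimensional dg algebra of characteristic two in degrees `[-N, 0]`;
`G k` is the part of cohomological degree `-k` -/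
structure DGA (K : Type) [Field K] where
  C : Type
  [ring : Ring C]
  [alg : Algebra K C]
  [fin : Module.Finite K C]
  two : ∀ a : C, a + a = 0
  N : ℕ
  G : ℤ → Submodule K C
  G_neg : ∀ k : ℤ, k < 0 → G k = ⊥
  G_big : ∀ k : ℤ, (N : ℤ) < k → G k = ⊥
  one_mem : (1 : C) ∈ G 0
  mul_mem : ∀ {k l : ℤ} {a b : C}, a ∈ G k → b ∈ G l → a * b ∈ G (k + l)
  D : C →ₗ[K] C
  D_mul : ∀ a b : C, D (a * b) = D a * b + a * D b
  D_D : ∀ a : C, D (D a) = 0
  D_mem : ∀ {k : ℤ} {a : C}, a ∈ G k → D a ∈ G (k - 1)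

attribute [instance] DGA.ring DGA.alg DGA.fin

variable {K : Type} [Field K]

namespace DGA

variable (A : DGA K)

/-- the number of vertices minus one -/
def n : ℕ := A.N + 1

theorem D_one : A.D 1 = 0 := by
  have h := A.D_mul 1 1
  rw [mul_one, one_mul, mul_one] at h
  rw [h]
  exact A.two _

variable {A}

theorem neg {k : ℤ} {a : A.C} (h : a ∈ A.G k) (hk : k < 0) : a = 0 := by
  rw [A.G_neg k hk] at h
  exact (Submodule.mem_bot K).1 h

theorem big {k : ℤ} {a : A.C} (h : a ∈ A.G k) (hk : (A.n : ℤ) ≤ k) : a = 0 := by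
  rw [A.G_big k (by unfold n at hk; omega)] at h
  exact (Submodule.mem_bot K).1 h

theorem D_neg {k : ℤ} {a : A.C} (h : a ∈ A.G k) (hk : k < 1) : A.D a = 0 :=
  neg (A.D_mem h) (by omega)

variable (A) in
/-- homogeneous families -/
structure Rep (a b : ℤ → ℤ → A.C) : Prop where
  ha : ∀ j i, a j i ∈ A.G (j - i)
  hb : ∀ j i, b j i ∈ A.G (j - i + 1)

variable (A) in
/-- the index set -/
abbrev Ix : Type := Fin A.n × Bool

variable (A) in
/-- the matrix of a homogeneous family -/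
def mat (a b : ℤ → ℤ → A.C) : Matrix A.Ix A.Ix A.C
  | (p, false), (q, false) => a (p : ℕ) (q : ℕ)
  | (p, false), (q, true) => b (p : ℕ) ((q : ℕ) + 1)
  | (p, true), (q, false) => A.D (a ((p : ℕ) + 1) (q : ℕ))
  | (p, true), (q, true) => a ((p : ℕ) + 1) ((q : ℕ) + 1) + A.D (b ((p : ℕ) + 1) ((q : ℕ) + 1))

variable (A) in
/-- product, first component -/
def pa (a b a' _b' : ℤ → ℤ → A.C) (j i : ℤ) : A.C :=
  ∑ k ∈ Finset.range (A.n + 1), (a j k * a' k i + b j k * A.D (a' k i))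

variable (A) in
/-- product, second component -/
def pb (a b a' b' : ℤ → ℤ → A.C) (j i : ℤ) : A.C :=
  ∑ k ∈ Finset.range (A.n + 1), (b j k * a' k i + a j k * b' k i + b j k * A.D (b' k i))

theorem Rep.mul {a b a' b' : ℤ → ℤ → A.C} (h : A.Rep a b) (h' : A.Rep a' b') :
    A.Rep (A.pa a b a' b') (A.pb a b a' b') := by
  constructor
  · intro j i
    refine Submodule.sum_mem _ fun k _ => Submodule.add_mem _ ?_ ?_
    · have := A.mul_mem (h.ha j k) (h'.ha k i)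
      rwa [show j - (k : ℤ) + (k - i) = j - i by ring] at this
    · have := A.mul_mem (h.hb j k) (A.D_mem (h'.ha k i))
      rwa [show j - (k : ℤ) + 1 + (k - i - 1) = j - i by ring] at this
  · intro j i
    refine Submodule.sum_mem _ fun k _ => Submodule.add_mem _ (Submodule.add_mem _ ?_ ?_) ?_
    · have := A.mul_mem (h.hb j k) (h'.ha k i)
      rwa [show j - (k : ℤ) + 1 + (k - i) = j - i + 1 by ring] at this
    · have := A.mul_mem (h.ha j k) (h'.hb k i)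
      rwa [show j - (k : ℤ) + (k - i + 1) = j - i + 1 by ring] at this
    · have := A.mul_mem (h.hb j k) (A.D_mem (h'.hb k i))
      rwa [show j - (k : ℤ) + 1 + (k - i + 1 - 1) = j - i + 1 by ring] at this

theorem sum_last (f : ℤ → A.C) :
    ∑ k ∈ Finset.range (A.n + 1), f k = ∑ k : Fin A.n, f (k : ℕ) + f A.n := by
  rw [Finset.sum_range_succ, Finset.sum_range]

theorem sum_first (f : ℤ → A.C) :
    ∑ k ∈ Finset.range (A.n + 1), f k = ∑ k : Fin A.n, f ((k : ℕ) + 1) + f 0 := by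
  rw [Finset.sum_range_succ', Finset.sum_range]
  simp

theorem two_cancel (x : A.C) : x + x = 0 := A.two x

theorem mat_mul {a b a' b' : ℤ → ℤ → A.C} (h : A.Rep a b) (h' : A.Rep a' b') :
    A.mat a b * A.mat a' b' = A.mat (A.pa a b a' b') (A.pb a b a' b') := by
  have ht := A.two
  have e1 : ∀ (p : Fin A.n) (k : ℤ), (A.n : ℤ) ≤ k → a (p : ℕ) k = 0 := fun p k hk =>
    neg (h.ha _ _) (by have := p.2; omega)
  have e2 : ∀ (i : ℤ), 0 ≤ i → A.D (a' 0 i) = 0 := fun i hi => D_neg (h'.ha _ _) (by omega)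
  have e3 : ∀ (i : ℤ), 0 ≤ i → A.D (b' 0 (i + 1)) = 0 := fun i hi =>
    D_neg (h'.hb _ _) (by omega)
  have e4 : ∀ (i : ℤ), 0 ≤ i → a' 0 (i + 1) = 0 := fun i hi => neg (h'.ha _ _) (by omega)
  have e5 : ∀ (p : Fin A.n), A.D (a ((p : ℕ) + 1) A.n) = 0 := fun p =>
    D_neg (h.ha _ _) (by have := p.2; omega)
  ext ⟨p, ε⟩ ⟨q, η⟩
  rw [Matrix.mul_apply, Fintype.sum_prod_type]
  simp only [Fintype.sum_bool]
  cases ε <;> cases η
  · change ∑ k : Fin A.n, (b (p : ℕ) ((k : ℕ) + 1) * A.D (a' ((k : ℕ) + 1) (q : ℕ)) +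
      a (p : ℕ) (k : ℕ) * a' (k : ℕ) (q : ℕ)) = ∑ k ∈ Finset.range (A.n + 1), _
    rw [Finset.sum_add_distrib, Finset.sum_add_distrib,
      sum_last (fun k => a (p : ℕ) k * a' k (q : ℕ)),
      sum_first (fun k => b (p : ℕ) k * A.D (a' k (q : ℕ))), e1 p _ le_rfl,
      e2 _ (by positivity)]
    simp only [zero_mul, mul_zero, add_zero]
    rw [add_comm]
  · change ∑ k : Fin A.n, (b (p : ℕ) ((k : ℕ) + 1) * (a' ((k : ℕ) + 1) ((q : ℕ) + 1) +
      A.D (b' ((k : ℕ) + 1) ((q : ℕ) + 1))) +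
      a (p : ℕ) (k : ℕ) * b' (k : ℕ) ((q : ℕ) + 1)) = ∑ k ∈ Finset.range (A.n + 1), _
    simp only [mul_add, Finset.sum_add_distrib]
    rw [sum_last (fun k => a (p : ℕ) k * b' k ((q : ℕ) + 1)),
      sum_first (fun k => b (p : ℕ) k * a' k ((q : ℕ) + 1)),
      sum_first (fun k => b (p : ℕ) k * A.D (b' k ((q : ℕ) + 1))), e1 p _ le_rfl,
      e3 _ (by positivity), e4 _ (by positivity)]
    simp only [zero_mul, mul_zero, add_zero]
    abel
  · change ∑ k : Fin A.n, ((a ((p : ℕ) + 1) ((k : ℕ) + 1) + A.D (b ((p : ℕ) + 1) ((k : ℕ) + 1))) *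
      A.D (a' ((k : ℕ) + 1) (q : ℕ)) +
      A.D (a ((p : ℕ) + 1) (k : ℕ)) * a' (k : ℕ) (q : ℕ)) =
      A.D (∑ k ∈ Finset.range (A.n + 1), _)
    simp only [map_sum, map_add, A.D_mul, A.D_D, mul_zero, add_zero, add_mul,
      Finset.sum_add_distrib]
    rw [sum_last (fun k => A.D (a ((p : ℕ) + 1) k) * a' k (q : ℕ)),
      sum_first (fun k => a ((p : ℕ) + 1) k * A.D (a' k (q : ℕ))),
      sum_first (fun k => A.D (b ((p : ℕ) + 1) k) * A.D (a' k (q : ℕ))), e5 p,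
      e2 _ (by positivity)]
    simp only [zero_mul, mul_zero, add_zero]
    abel
  · change ∑ k : Fin A.n, ((a ((p : ℕ) + 1) ((k : ℕ) + 1) + A.D (b ((p : ℕ) + 1) ((k : ℕ) + 1))) *
      (a' ((k : ℕ) + 1) ((q : ℕ) + 1) + A.D (b' ((k : ℕ) + 1) ((q : ℕ) + 1))) +
      A.D (a ((p : ℕ) + 1) (k : ℕ)) * b' (k : ℕ) ((q : ℕ) + 1)) =
      ∑ k ∈ Finset.range (A.n + 1), _ + A.D (∑ k ∈ Finset.range (A.n + 1), _)
    simp only [map_sum, map_add, A.D_mul, A.D_D, mul_zero, add_zero, add_mul, mul_add,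
      Finset.sum_add_distrib]
    rw [sum_last (fun k => A.D (a ((p : ℕ) + 1) k) * b' k ((q : ℕ) + 1)),
      sum_first (fun k => a ((p : ℕ) + 1) k * a' k ((q : ℕ) + 1)),
      sum_first (fun k => a ((p : ℕ) + 1) k * A.D (b' k ((q : ℕ) + 1))),
      sum_first (fun k => A.D (b ((p : ℕ) + 1) k) * a' k ((q : ℕ) + 1)),
      sum_first (fun k => A.D (b ((p : ℕ) + 1) k) * A.D (b' k ((q : ℕ) + 1))), e5 p,
      e3 _ (by positivity), e4 _ (by positivity)]
    simp only [zero_mul, mul_zero, add_zero]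
    have h0 := A.two (∑ k ∈ Finset.range (A.n + 1),
      b ((p : ℕ) + 1) (k : ℤ) * A.D (a' (k : ℤ) ((q : ℕ) + 1)))
    generalize (∑ k ∈ Finset.range (A.n + 1),
      b ((p : ℕ) + 1) (k : ℤ) * A.D (a' (k : ℤ) ((q : ℕ) + 1))) = z at h0 ⊢
    generalize (∑ k : Fin A.n, a ((p : ℕ) + 1) ((k : ℕ) + 1) * a' ((k : ℕ) + 1) ((q : ℕ) + 1)) = z1
    generalize (∑ k : Fin A.n, a ((p : ℕ) + 1) ((k : ℕ) + 1) *
      A.D (b' ((k : ℕ) + 1) ((q : ℕ) + 1))) = z2
    generalize (∑ k : Fin A.n, A.D (b ((p : ℕ) + 1) ((k : ℕ) + 1)) *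
      a' ((k : ℕ) + 1) ((q : ℕ) + 1)) = z3
    generalize (∑ k : Fin A.n, A.D (b ((p : ℕ) + 1) ((k : ℕ) + 1)) *
      A.D (b' ((k : ℕ) + 1) ((q : ℕ) + 1))) = z4
    generalize (∑ k : Fin A.n, A.D (a ((p : ℕ) + 1) (k : ℕ)) *
      b' (k : ℕ) ((q : ℕ) + 1)) = z5
    calc _ = (z + z) + (z1 + z2 + z3 + z4 + z5) := by rw [h0]; abel
      _ = _ := by abel

theorem mat_add (a b a' b' : ℤ → ℤ → A.C) :
    A.mat a b + A.mat a' b' = A.mat (a + a') (b + b') := by
  ext ⟨p, ε⟩ ⟨q, η⟩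
  cases ε <;> cases η
  · rfl
  · rfl
  · exact (map_add A.D _ _).symm
  · change (_ + A.D _) + (_ + A.D _) = (_ + _) + A.D (_ + _)
    rw [map_add]
    abel

theorem mat_zero : A.mat 0 0 = 0 := by
  ext ⟨p, ε⟩ ⟨q, η⟩
  cases ε <;> cases η
  · rfl
  · rfl
  · exact map_zero A.D
  · change (0 : A.C) + A.D 0 = 0
    rw [map_zero, add_zero]

theorem mat_smul (r : K) (a b : ℤ → ℤ → A.C) :
    r • A.mat a b = A.mat (r • a) (r • b) := by
  ext ⟨p, ε⟩ ⟨q, η⟩
  cases ε <;> cases η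
  · rfl
  · rfl
  · exact (map_smul A.D r _).symm
  · change r • (_ + A.D _) = r • _ + A.D (r • _)
    rw [map_smul, smul_add]

theorem Rep.add {a b a' b' : ℤ → ℤ → A.C} (h : A.Rep a b) (h' : A.Rep a' b') :
    A.Rep (a + a') (b + b') :=
  ⟨fun j i => Submodule.add_mem _ (h.ha j i) (h'.ha j i),
    fun j i => Submodule.add_mem _ (h.hb j i) (h'.hb j i)⟩

theorem Rep.smul {a b : ℤ → ℤ → A.C} (h : A.Rep a b) (r : K) :
    A.Rep (r • a) (r • b) :=
  ⟨fun j i => Submodule.smul_mem _ _ (h.ha j i),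
    fun j i => Submodule.smul_mem _ _ (h.hb j i)⟩

theorem Rep.zero : A.Rep 0 0 :=
  ⟨fun _ _ => Submodule.zero_mem _, fun _ _ => Submodule.zero_mem _⟩

variable (A) in
/-- diagonal family -/
def diag (e : A.C) (j i : ℤ) : A.C := if j = i then e else 0

theorem Rep.diag {e : A.C} (he : e ∈ A.G 0) : A.Rep (A.diag e) 0 := by
  constructor
  · intro j i
    unfold DGA.diag
    split
    · next h => subst h; simpa using he
    · exact Submodule.zero_mem _
  · intro j i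
    exact Submodule.zero_mem _

theorem mat_diag_one : A.mat (A.diag 1) 0 = 1 := by
  ext ⟨p, ε⟩ ⟨q, η⟩
  rw [Matrix.one_apply]
  cases ε <;> cases η
  · change (if ((p : ℕ) : ℤ) = (q : ℕ) then (1 : A.C) else 0) = _
    simp [Fin.ext_iff]
  · change (0 : A.C) = _
    simp
  · change A.D (if ((p : ℕ) : ℤ) + 1 = (q : ℕ) then (1 : A.C) else 0) = _
    split
    · simp [D_one]
    · simp
  · change (if ((p : ℕ) : ℤ) + 1 = (q : ℕ) + 1 then (1 : A.C) else 0) + A.D 0 = _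
    simp [Fin.ext_iff]

variable (A) in
/-- **the hat algebra** -/
def Hat : Subalgebra K (Matrix A.Ix A.Ix A.C) where
  carrier := {X | ∃ a b, A.Rep a b ∧ X = A.mat a b}
  mul_mem' := by
    rintro _ _ ⟨a, b, h, rfl⟩ ⟨a', b', h', rfl⟩
    exact ⟨_, _, h.mul h', mat_mul h h'⟩
  one_mem' := ⟨_, _, Rep.diag A.one_mem, mat_diag_one.symm⟩
  add_mem' := by
    rintro _ _ ⟨a, b, h, rfl⟩ ⟨a', b', h', rfl⟩
    exact ⟨_, _, h.add h', mat_add _ _ _ _⟩
  zero_mem' := ⟨_, _, Rep.zero, mat_zero.symm⟩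
  algebraMap_mem' := by
    intro r
    refine ⟨_, _, (Rep.diag A.one_mem).smul r, ?_⟩
    rw [← mat_smul, mat_diag_one, Algebra.algebraMap_eq_smul_one]

/-- elements of the hat algebra -/
def hmk {a b : ℤ → ℤ → A.C} (h : A.Rep a b) : A.Hat := ⟨A.mat a b, a, b, h, rfl⟩

theorem exists_hmk (X : A.Hat) : ∃ (a b : ℤ → ℤ → A.C) (h : A.Rep a b), X = hmk h := by
  obtain ⟨_, a, b, h, rfl⟩ := X
  exact ⟨a, b, h, rfl⟩

theorem hmk_mul {a b a' b' : ℤ → ℤ → A.C} (h : A.Rep a b) (h' : A.Rep a' b') :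
    hmk h * hmk h' = hmk (h.mul h') := Subtype.ext (mat_mul h h')

theorem hmk_add {a b a' b' : ℤ → ℤ → A.C} (h : A.Rep a b) (h' : A.Rep a' b') :
    hmk h + hmk h' = hmk (h.add h') := Subtype.ext (mat_add _ _ _ _)

instance : Module.Finite K A.Hat := by
  have : FiniteDimensional K (Matrix A.Ix A.Ix A.C) := inferInstance
  exact FiniteDimensional.finiteDimensional_submodule (Subalgebra.toSubmodule A.Hat)

/-- equality test -/
theorem mat_ext {a b a' b' : ℤ → ℤ → A.C} (h : A.Rep a b) (h' : A.Rep a' b')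
    (ha : ∀ j i : ℤ, 0 ≤ j → j < A.n → 0 ≤ i → i < A.n → a j i = a' j i)
    (hb : ∀ j i : ℤ, 0 ≤ j → j < A.n → 1 ≤ i → i ≤ A.n → b j i = b' j i)
    (hn : ∀ i : ℤ, 1 ≤ i → i ≤ A.n →
      a A.n i + A.D (b A.n i) = a' A.n i + A.D (b' A.n i)) :
    A.mat a b = A.mat a' b' := by
  ext ⟨p, ε⟩ ⟨q, η⟩
  have hp := p.2
  have hq := q.2
  have key : ∀ (i : ℤ), 0 ≤ i → i < A.n → A.D (a A.n i) = A.D (a' A.n i) := by
    intro i h0 h1
    rcases eq_or_lt_of_le h0 with h2 | h2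
    · rw [big (h.ha A.n i) (by omega), big (h'.ha A.n i) (by omega)]
    · have := congrArg A.D (hn i (by omega) (by omega))
      rwa [map_add, map_add, A.D_D, A.D_D, add_zero, add_zero] at this
  have top : ∀ (j : ℤ), 1 ≤ j → j < A.n →
      a j A.n + A.D (b j A.n) = a' j A.n + A.D (b' j A.n) := by
    intro j h0 h1
    rw [neg (h.ha j A.n) (by omega), neg (h'.ha j A.n) (by omega),
      D_neg (h.hb j A.n) (by omega), D_neg (h'.hb j A.n) (by omega)]
  cases ε <;> cases η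
  · exact ha _ _ (by positivity) (by omega) (by positivity) (by omega)
  · exact hb _ _ (by positivity) (by omega) (by omega) (by omega)
  · change A.D (a ((p : ℕ) + 1) (q : ℕ)) = A.D (a' ((p : ℕ) + 1) (q : ℕ))
    rcases Nat.lt_or_ge ((p : ℕ) + 1) A.n with h1 | h1
    · rw [ha _ _ (by positivity) (by omega) (by positivity) (by omega)]
    · have h2 : ((p : ℕ) : ℤ) + 1 = A.n := by omega
      rw [h2]
      exact key _ (by positivity) (by omega)
  · change a ((p : ℕ) + 1) ((q : ℕ) + 1) + A.D (b ((p : ℕ) + 1) ((q : ℕ) + 1)) =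
      a' ((p : ℕ) + 1) ((q : ℕ) + 1) + A.D (b' ((p : ℕ) + 1) ((q : ℕ) + 1))
    rcases Nat.lt_or_ge ((p : ℕ) + 1) A.n with h1 | h1
    · rcases Nat.lt_or_ge ((q : ℕ) + 1) A.n with h2 | h2
      · rw [ha _ _ (by positivity) (by omega) (by positivity) (by omega),
          hb _ _ (by positivity) (by omega) (by omega) (by omega)]
      · have h3 : ((q : ℕ) : ℤ) + 1 = A.n := by omega
        rw [h3]
        exact top _ (by omega) (by omega)
    · have h2 : ((p : ℕ) : ℤ) + 1 = A.n := by omega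
      rw [h2]
      exact hn _ (by omega) (by omega)

theorem hmk_ext {a b a' b' : ℤ → ℤ → A.C} (h : A.Rep a b) (h' : A.Rep a' b')
    (ha : ∀ j i : ℤ, 0 ≤ j → j < A.n → 0 ≤ i → i < A.n → a j i = a' j i)
    (hb : ∀ j i : ℤ, 0 ≤ j → j < A.n → 1 ≤ i → i ≤ A.n → b j i = b' j i)
    (hn : ∀ i : ℤ, 1 ≤ i → i ≤ A.n →
      a A.n i + A.D (b A.n i) = a' A.n i + A.D (b' A.n i)) :
    hmk h = hmk h' := Subtype.ext (mat_ext h h' ha hb hn)

/-- reading off coordinates -/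
theorem coord {a b a' b' : ℤ → ℤ → A.C} (h : A.Rep a b) (h' : A.Rep a' b')
    (e : A.mat a b = A.mat a' b') :
    (∀ j i : ℤ, 0 ≤ j → j < A.n → 0 ≤ i → i ≤ A.n → a j i = a' j i) ∧
    (∀ j i : ℤ, 0 ≤ j → j < A.n → 1 ≤ i → i ≤ A.n → b j i = b' j i) ∧
    (∀ i : ℤ, 1 ≤ i → i ≤ A.n →
      a A.n i + A.D (b A.n i) = a' A.n i + A.D (b' A.n i)) := by
  have hn1 : 0 < A.n := Nat.succ_pos _
  refine ⟨?_, ?_, ?_⟩
  · intro j i h0 h1 h2 h3
    rcases lt_or_eq_of_le h3 with h4 | h4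
    · obtain ⟨j, rfl⟩ := Int.eq_ofNat_of_zero_le h0
      obtain ⟨i, rfl⟩ := Int.eq_ofNat_of_zero_le h2
      exact congrFun (congrFun e (⟨j, by omega⟩, false)) (⟨i, by omega⟩, false)
    · rw [neg (h.ha j i) (by omega), neg (h'.ha j i) (by omega)]
  · intro j i h0 h1 h2 h3
    obtain ⟨j, rfl⟩ := Int.eq_ofNat_of_zero_le h0
    obtain ⟨i', rfl⟩ := Int.eq_ofNat_of_zero_le (show (0 : ℤ) ≤ i by omega)
    obtain ⟨i, rfl⟩ : ∃ i, i' = i + 1 := ⟨i' - 1, by omega⟩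
    have := congrFun (congrFun e (⟨j, by omega⟩, false)) (⟨i, by omega⟩, true)
    simpa [mat] using this
  · intro i h2 h3
    obtain ⟨i', rfl⟩ := Int.eq_ofNat_of_zero_le (show (0 : ℤ) ≤ i by omega)
    obtain ⟨i, rfl⟩ : ∃ i, i' = i + 1 := ⟨i' - 1, by omega⟩
    have := congrFun (congrFun e (⟨A.n - 1, by omega⟩, true)) (⟨i, by omega⟩, true)
    simp only [mat] at this
    have h5 : (((A.n - 1 : ℕ) : ℤ)) + 1 = A.n := by omega
    rw [h5] at this
    simpa using this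

end DGA

end Crest.Agent.R186.Hat827
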