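import Crest.Agent.R186.HatA_827

/-!
Row 186, leaf HAT, part 3 (helper827): columns, rows, single entries in the hat algebra; the
hat module of a `C`-module in degree `0`; cells.
-/

set_option autoImplicit false
set_option linter.style.haveILetI false

namespace Crest.Agent.R186.Hat827

variable {K : Type} [Field K]

namespace DGA

variable {A : DGA K}

/-! ### additivity of `mat` -/

theorem mat_sum {κ : Type} (s : Finset κ) (a b : κ → ℤ → ℤ → A.C) :
    ∑ x ∈ s, A.mat (a x) (b x) = A.mat (fun j i => ∑ x ∈ s, a x j i)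
      (fun j i => ∑ x ∈ s, b x j i) := by
  classical
  induction s using Finset.induction_on with
  | empty =>
    simp only [Finset.sum_empty]
    exact mat_zero.symm
  | insert x s hx ih =>
    rw [Finset.sum_insert hx, ih, mat_add]
    congr 1
    · funext j i
      simp only [Pi.add_apply]
      rw [Finset.sum_insert hx]
    · funext j i
      simp only [Pi.add_apply]
      rw [Finset.sum_insert hx]

variable (A) in
/-- a column -/
def col (i : ℤ) (a b : ℤ → A.C) : Matrix A.Ix A.Ix A.C :=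
  A.mat (fun j i' => if i' = i then a j else 0) (fun j i' => if i' = i then b j else 0)

variable (A) in
/-- a row -/
def row (j : ℤ) (a b : ℤ → A.C) : Matrix A.Ix A.Ix A.C :=
  A.mat (fun j' i => if j' = j then a i else 0) (fun j' i => if j' = j then b i else 0)

variable (A) in
/-- a single entry -/
def sg (j i : ℤ) (u v : A.C) : Matrix A.Ix A.Ix A.C :=
  A.mat (fun j' i' => if j' = j ∧ i' = i then u else 0)
    (fun j' i' => if j' = j ∧ i' = i then v else 0)

theorem Rep.col {i : ℤ} {a b : ℤ → A.C} (ha : ∀ j, a j ∈ A.G (j - i))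
    (hb : ∀ j, b j ∈ A.G (j - i + 1)) :
    A.Rep (fun j i' => if i' = i then a j else 0) (fun j i' => if i' = i then b j else 0) := by
  constructor
  · intro j i'
    split
    · next h => subst h; exact ha j
    · exact Submodule.zero_mem _
  · intro j i'
    split
    · next h => subst h; exact hb j
    · exact Submodule.zero_mem _

theorem Rep.row {j : ℤ} {a b : ℤ → A.C} (ha : ∀ i, a i ∈ A.G (j - i))
    (hb : ∀ i, b i ∈ A.G (j - i + 1)) :
    A.Rep (fun j' i => if j' = j then a i else 0) (fun j' i => if j' = j then b i else 0) := by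
  constructor
  · intro j' i
    split
    · next h => subst h; exact ha i
    · exact Submodule.zero_mem _
  · intro j' i
    split
    · next h => subst h; exact hb i
    · exact Submodule.zero_mem _

theorem Rep.sg {j i : ℤ} {u v : A.C} (hu : u ∈ A.G (j - i)) (hv : v ∈ A.G (j - i + 1)) :
    A.Rep (fun j' i' => if j' = j ∧ i' = i then u else 0)
      (fun j' i' => if j' = j ∧ i' = i then v else 0) := by
  constructor
  · intro j' i'
    split
    · next h => obtain ⟨rfl, rfl⟩ := h; exact hu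
    · exact Submodule.zero_mem _
  · intro j' i'
    split
    · next h => obtain ⟨rfl, rfl⟩ := h; exact hv
    · exact Submodule.zero_mem _

theorem col_sum {κ : Type} (s : Finset κ) (i : ℤ) (a b : κ → ℤ → A.C) :
    ∑ x ∈ s, A.col i (a x) (b x) = A.col i (fun j => ∑ x ∈ s, a x j)
      (fun j => ∑ x ∈ s, b x j) := by
  unfold col
  rw [mat_sum]
  congr 1
  · funext j i'
    split <;> simp
  · funext j i'
    split <;> simp

theorem row_sum {κ : Type} (s : Finset κ) (i : ℤ) (a b : κ → ℤ → A.C) :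
    ∑ x ∈ s, A.row i (a x) (b x) = A.row i (fun j => ∑ x ∈ s, a x j)
      (fun j => ∑ x ∈ s, b x j) := by
  unfold row
  rw [mat_sum]
  congr 1
  · funext j i'
    split <;> simp
  · funext j i'
    split <;> simp

variable (A) in
/-- position in range -/
def inr (i : ℤ) : Prop := 0 ≤ i ∧ i ≤ A.n

theorem sum_pick {i : ℤ} (hi : A.inr i) (f : ℤ → A.C) (hf : ∀ k : ℤ, k ≠ i → f k = 0) :
    ∑ k ∈ Finset.range (A.n + 1), f k = f i := by
  obtain ⟨h0, h1⟩ := hi
  obtain ⟨i, rfl⟩ := Int.eq_ofNat_of_zero_le h0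
  rw [Finset.sum_eq_single i]
  · intro k _ hk
    exact hf _ (by exact_mod_cast hk)
  · intro h
    exact absurd (Finset.mem_range.2 (by omega)) h

theorem pa_pick {a b a' b' : ℤ → ℤ → A.C} {j i i' : ℤ} (hi : A.inr i)
    (h : ∀ k : ℤ, k ≠ i → (a j k = 0 ∧ b j k = 0) ∨ (a' k i' = 0 ∧ b' k i' = 0)) :
    A.pa a b a' b' j i' = a j i * a' i i' + b j i * A.D (a' i i') := by
  refine sum_pick hi (fun k => a j k * a' k i' + b j k * A.D (a' k i')) ?_
  intro k hk
  rcases h k hk with ⟨h1, h2⟩ | ⟨h1, h2⟩ <;> simp [h1, h2]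

theorem pb_pick {a b a' b' : ℤ → ℤ → A.C} {j i i' : ℤ} (hi : A.inr i)
    (h : ∀ k : ℤ, k ≠ i → (a j k = 0 ∧ b j k = 0) ∨ (a' k i' = 0 ∧ b' k i' = 0)) :
    A.pb a b a' b' j i' = b j i * a' i i' + a j i * b' i i' + b j i * A.D (b' i i') := by
  refine sum_pick hi (fun k => b j k * a' k i' + a j k * b' k i' + b j k * A.D (b' k i')) ?_
  intro k hk
  rcases h k hk with ⟨h1, h2⟩ | ⟨h1, h2⟩ <;> simp [h1, h2]

theorem col_zero (i : ℤ) : A.col i 0 0 = 0 := by
  unfold col
  rw [← mat_zero]
  congr 1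
  · funext j i'
    simp
  · funext j i'
    simp

theorem row_zero (i : ℤ) : A.row i 0 0 = 0 := by
  unfold row
  rw [← mat_zero]
  congr 1
  · funext j i'
    simp
  · funext j i'
    simp

/-- column times entry -/
theorem col_mul_sg {i i' : ℤ} {a b : ℤ → A.C} {u v : A.C} (ha : ∀ j, a j ∈ A.G (j - i))
    (hb : ∀ j, b j ∈ A.G (j - i + 1)) (hu : u ∈ A.G (i - i')) (hv : v ∈ A.G (i - i' + 1))
    (hi : A.inr i ∨ (a = 0 ∧ b = 0)) :
    A.col i a b * A.sg i i' u v = A.col i' (fun j => a j * u + b j * A.D u)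
      (fun j => b j * u + a j * v + b j * A.D v) := by
  rcases hi with hi | ⟨rfl, rfl⟩
  · unfold col sg
    rw [mat_mul (Rep.col ha hb) (Rep.sg hu hv)]
    congr 1
    · funext j i''
      rw [pa_pick hi (fun k hk => Or.inl ⟨by simp [hk], by simp [hk]⟩)]
      by_cases h : i'' = i' <;> simp [h]
    · funext j i''
      rw [pb_pick hi (fun k hk => Or.inl ⟨by simp [hk], by simp [hk]⟩)]
      by_cases h : i'' = i' <;> simp [h]
  · rw [col_zero, zero_mul, ← col_zero i']
    congr 1
    · funext j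
      simp
    · funext j
      simp

/-- entry times row -/
theorem sg_mul_row {j j' : ℤ} {a b : ℤ → A.C} {u v : A.C} (ha : ∀ i, a i ∈ A.G (j' - i))
    (hb : ∀ i, b i ∈ A.G (j' - i + 1)) (hu : u ∈ A.G (j - j')) (hv : v ∈ A.G (j - j' + 1))
    (hi : A.inr j' ∨ (a = 0 ∧ b = 0)) :
    A.sg j j' u v * A.row j' a b = A.row j (fun i => u * a i + v * A.D (a i))
      (fun i => v * a i + u * b i + v * A.D (b i)) := by
  rcases hi with hi | ⟨rfl, rfl⟩
  · unfold row sg
    rw [mat_mul (Rep.sg hu hv) (Rep.row ha hb)]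
    congr 1
    · funext j'' i
      rw [pa_pick hi (fun k hk => Or.inr ⟨by simp [hk], by simp [hk]⟩)]
      by_cases h : j'' = j <;> simp [h]
    · funext j'' i
      rw [pb_pick hi (fun k hk => Or.inr ⟨by simp [hk], by simp [hk]⟩)]
      by_cases h : j'' = j <;> simp [h]
  · rw [row_zero, mul_zero, ← row_zero j]
    congr 1
    · funext i
      simp
    · funext i
      simp

/-- a general element times an entry -/
theorem mat_mul_sg {i i' : ℤ} {a b : ℤ → ℤ → A.C} {u v : A.C} (h : A.Rep a b)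
    (hu : u ∈ A.G (i - i')) (hv : v ∈ A.G (i - i' + 1)) (hi : A.inr i) :
    A.mat a b * A.sg i i' u v = A.col i' (fun j => a j i * u + b j i * A.D u)
      (fun j => b j i * u + a j i * v + b j i * A.D v) := by
  unfold col sg
  rw [mat_mul h (Rep.sg hu hv)]
  congr 1
  · funext j i''
    rw [pa_pick hi (fun k hk => Or.inr ⟨by simp [hk], by simp [hk]⟩)]
    by_cases h : i'' = i' <;> simp [h]
  · funext j i''
    rw [pb_pick hi (fun k hk => Or.inr ⟨by simp [hk], by simp [hk]⟩)]
    by_cases h : i'' = i' <;> simp [h]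

theorem sg_mul_mat {j j' : ℤ} {a b : ℤ → ℤ → A.C} {u v : A.C} (h : A.Rep a b)
    (hu : u ∈ A.G (j - j')) (hv : v ∈ A.G (j - j' + 1)) (hi : A.inr j') :
    A.sg j j' u v * A.mat a b = A.row j (fun i => u * a j' i + v * A.D (a j' i))
      (fun i => v * a j' i + u * b j' i + v * A.D (b j' i)) := by
  unfold row sg
  rw [mat_mul (Rep.sg hu hv) h]
  congr 1
  · funext j'' i
    rw [pa_pick hi (fun k hk => Or.inl ⟨by simp [hk], by simp [hk]⟩)]
    by_cases h : j'' = j <;> simp [h]
  · funext j'' i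
    rw [pb_pick hi (fun k hk => Or.inl ⟨by simp [hk], by simp [hk]⟩)]
    by_cases h : j'' = j <;> simp [h]

/-- entries out of range vanish -/
theorem sg_out {j i : ℤ} {u v : A.C} (h : ¬ A.inr j ∨ ¬ A.inr i) : A.sg j i u v = 0 := by
  have hn1 : 0 < A.n := Nat.succ_pos _
  ext ⟨p, ε⟩ ⟨q, η⟩
  have hp := p.2
  have hq := q.2
  unfold inr at h
  cases ε <;> cases η <;> simp only [sg, mat, Matrix.zero_apply]
  · rw [if_neg (by omega)]
  · rw [if_neg (by omega)]
  · rw [if_neg (by omega), map_zero]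
  · rw [if_neg (by omega), if_neg (by omega), map_zero, add_zero]

/-- entry times entry -/
theorem sg_mul_sg {j i i' : ℤ} {u v u' v' : A.C} (hu : u ∈ A.G (j - i)) (hv : v ∈ A.G (j - i + 1))
    (hu' : u' ∈ A.G (i - i')) (hv' : v' ∈ A.G (i - i' + 1)) (hi : A.inr i) :
    A.sg j i u v * A.sg i i' u' v' = A.sg j i' (u * u' + v * A.D u')
      (v * u' + u * v' + v * A.D v') := by
  unfold sg
  rw [mat_mul (Rep.sg hu hv) (Rep.sg hu' hv')]
  congr 1
  · funext j'' i''
    rw [pa_pick hi (fun k hk => Or.inl ⟨by simp [hk], by simp [hk]⟩)]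
    by_cases h : j'' = j <;> by_cases h' : i'' = i' <;> simp [h, h']
  · funext j'' i''
    rw [pb_pick hi (fun k hk => Or.inl ⟨by simp [hk], by simp [hk]⟩)]
    by_cases h : j'' = j <;> by_cases h' : i'' = i' <;> simp [h, h']

/-! ### normal forms -/

/-- normal form of a column -/
theorem exists_col (X : A.Hat) {i : ℤ} {e : A.C} (he : e ∈ A.G 0) (hee : e * e = e)
    (hX : X.1 * A.sg i i e 0 = X.1) :
    ∃ a b : ℤ → A.C, X.1 = A.col i a b ∧ (∀ j, a j ∈ A.G (j - i)) ∧
      (∀ j, b j ∈ A.G (j - i + 1)) ∧ (∀ j, a j * e = a j) ∧ (∀ j, b j * e = b j) ∧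
      (¬ A.inr i → a = 0 ∧ b = 0) ∧ (i = 0 → b = 0) ∧ b A.n = 0 := by
  have hDe : A.D e = 0 := D_neg he (by omega)
  by_cases hi : A.inr i
  swap
  · refine ⟨0, 0, ?_, fun _ => Submodule.zero_mem _, fun _ => Submodule.zero_mem _,
      fun _ => zero_mul _, fun _ => zero_mul _, fun _ => ⟨rfl, rfl⟩, fun _ => rfl, rfl⟩
    rw [← hX, sg_out (Or.inl hi), mul_zero, col_zero]
  obtain ⟨_, a, b, h, rfl⟩ := X
  dsimp only at hX ⊢
  rw [mat_mul_sg h (by simpa using he) (Submodule.zero_mem _) hi] at hX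
  simp only [hDe, mul_zero, add_zero, map_zero] at hX
  have h1 : ∀ j, a j i * e ∈ A.G (j - i) := by
    intro j
    simpa using A.mul_mem (h.ha j i) he
  have h2 : ∀ j, b j i * e ∈ A.G (j - i + 1) := by
    intro j
    simpa using A.mul_mem (h.hb j i) he
  have h3 : ∀ j, (if j = A.n then a j i * e + A.D (b j i * e) else a j i * e) ∈
      A.G (j - i) := by
    intro j
    split
    · have := A.D_mem (h2 j)
      rw [show j - i + 1 - 1 = j - i by ring] at this
      exact Submodule.add_mem _ (h1 j) this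
    · exact h1 j
  have h4 : ∀ j, (if j = A.n ∨ i = 0 then 0 else b j i * e) ∈ A.G (j - i + 1) := by
    intro j
    split
    · exact Submodule.zero_mem _
    · exact h2 j
  refine ⟨fun j => if j = A.n then a j i * e + A.D (b j i * e) else a j i * e,
    fun j => if j = A.n ∨ i = 0 then 0 else b j i * e, ?_, h3, h4, ?_, ?_,
    fun h => absurd hi h, ?_, ?_⟩
  · rw [← hX]
    refine mat_ext (Rep.col h1 h2) (Rep.col h3 h4) ?_ ?_ ?_
    · intro j i' h5 h6 _ _
      dsimp only
      rw [if_neg (show ¬ (j = A.n) by omega)]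
    · intro j i' h5 h6 h7 _
      dsimp only
      by_cases h8 : i' = i
      · rw [if_pos h8, if_pos h8, if_neg (show ¬ (j = A.n ∨ i = 0) by omega)]
      · rw [if_neg h8, if_neg h8]
    · intro i' h7 _
      by_cases h8 : i' = i
      · simp only [h8, if_true, true_or, map_zero, add_zero]
      · simp only [if_neg h8]
  · intro j
    dsimp only
    split
    · rw [A.D_mul, hDe, mul_zero, add_zero, add_mul, mul_assoc, mul_assoc, hee]
    · rw [mul_assoc, hee]
  · intro j
    dsimp only
    split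
    · rw [zero_mul]
    · rw [mul_assoc, hee]
  · intro h0
    funext j
    simp [h0]
  · simp

/-- normal form of a row -/
theorem exists_row (X : A.Hat) {j : ℤ} {e : A.C} (he : e ∈ A.G 0) (hee : e * e = e)
    (hX : A.sg j j e 0 * X.1 = X.1) :
    ∃ a b : ℤ → A.C, X.1 = A.row j a b ∧ (∀ i, a i ∈ A.G (j - i)) ∧
      (∀ i, b i ∈ A.G (j - i + 1)) ∧ (∀ i, e * a i = a i) ∧ (∀ i, e * b i = b i) ∧
      (¬ A.inr j → a = 0 ∧ b = 0) ∧ (j = A.n → b = 0) ∧ b 0 = 0 := by
  have hDe : A.D e = 0 := D_neg he (by omega)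
  by_cases hj : A.inr j
  swap
  · refine ⟨0, 0, ?_, fun _ => Submodule.zero_mem _, fun _ => Submodule.zero_mem _,
      fun _ => mul_zero _, fun _ => mul_zero _, fun _ => ⟨rfl, rfl⟩, fun _ => rfl, rfl⟩
    rw [← hX, sg_out (Or.inl hj), zero_mul, row_zero]
  obtain ⟨_, a, b, h, rfl⟩ := X
  dsimp only at hX ⊢
  rw [sg_mul_mat h (by simpa using he) (Submodule.zero_mem _) hj] at hX
  simp only [zero_mul, add_zero, zero_add] at hX
  have h1 : ∀ i, e * a j i ∈ A.G (j - i) := by
    intro i
    simpa using A.mul_mem he (h.ha j i)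
  have h2 : ∀ i, e * b j i ∈ A.G (j - i + 1) := by
    intro i
    have := A.mul_mem he (h.hb j i)
    rwa [show 0 + (j - i + 1) = j - i + 1 by ring] at this
  have h3 : ∀ i, (if j = A.n then e * a j i + A.D (e * b j i) else e * a j i) ∈
      A.G (j - i) := by
    intro i
    split
    · have := A.D_mem (h2 i)
      rw [show j - i + 1 - 1 = j - i by ring] at this
      exact Submodule.add_mem _ (h1 i) this
    · exact h1 i
  have h4 : ∀ i, (if j = A.n ∨ i = 0 then 0 else e * b j i) ∈ A.G (j - i + 1) := by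
    intro i
    split
    · exact Submodule.zero_mem _
    · exact h2 i
  refine ⟨fun i => if j = A.n then e * a j i + A.D (e * b j i) else e * a j i,
    fun i => if j = A.n ∨ i = 0 then 0 else e * b j i, ?_, h3, h4, ?_, ?_, fun h => absurd hj h,
    ?_, ?_⟩
  · rw [← hX]
    refine mat_ext (Rep.row h1 h2) (Rep.row h3 h4) ?_ ?_ ?_
    · intro j' i h5 h6 _ _
      dsimp only
      by_cases h8 : j' = j
      · rw [if_pos h8, if_pos h8, if_neg (show ¬ (j = A.n) by omega)]
      · rw [if_neg h8, if_neg h8]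
    · intro j' i h5 h6 h7 _
      dsimp only
      by_cases h8 : j' = j
      · rw [if_pos h8, if_pos h8, if_neg (show ¬ (j = A.n ∨ i = 0) by omega)]
      · rw [if_neg h8, if_neg h8]
    · intro i h7 _
      by_cases h8 : (A.n : ℤ) = j
      · simp only [h8, if_true, true_or, map_zero, add_zero]
      · simp only [if_neg h8]
  · intro i
    dsimp only
    split
    · rw [A.D_mul, hDe, zero_mul, zero_add, mul_add, ← mul_assoc, ← mul_assoc, hee]
    · rw [← mul_assoc, hee]
  · intro i
    dsimp only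
    split
    · rw [mul_zero]
    · rw [← mul_assoc, hee]
  · intro h0
    funext i
    simp [h0]
  · simp

/-- the last diagonal entry -/
def ev (X : A.Hat) : A.C :=
  X.1 (⟨A.n - 1, by have : 0 < A.n := Nat.succ_pos _; omega⟩, true)
    (⟨A.n - 1, by have : 0 < A.n := Nat.succ_pos _; omega⟩, true)

theorem mat_last (a b : ℤ → ℤ → A.C) :
    A.mat a b (⟨A.n - 1, by have : 0 < A.n := Nat.succ_pos _; omega⟩, true)
      (⟨A.n - 1, by have : 0 < A.n := Nat.succ_pos _; omega⟩, true) =
    a A.n A.n + A.D (b A.n A.n) := by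
  have h1 : (((A.n - 1 : ℕ) : ℤ)) + 1 = A.n := by
    have : 0 < A.n := Nat.succ_pos _
    omega
  simp only [mat, h1]

theorem ev_mul (X Y : A.Hat) : ∃ x ∈ A.G 1, ∃ y : A.C, ev (X * Y) = ev X * ev Y + A.D x * y := by
  have hn1 : 0 < A.n := Nat.succ_pos _
  obtain ⟨a, b, h, rfl⟩ := exists_hmk X
  obtain ⟨a', b', h', rfl⟩ := exists_hmk Y
  have h1 : (((A.n - 1 : ℕ) : ℤ)) + 1 = A.n := by omega
  refine ⟨a A.n (A.n - 1), by simpa using h.ha A.n (A.n - 1), b' (A.n - 1) A.n, ?_⟩
  unfold ev
  rw [show (hmk h * hmk h').1 = A.mat a b * A.mat a' b' from rfl,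
    show (hmk h).1 = A.mat a b from rfl, show (hmk h').1 = A.mat a' b' from rfl]
  rw [Matrix.mul_apply, Fintype.sum_prod_type]
  simp only [Fintype.sum_bool]
  rw [Finset.sum_eq_single (⟨A.n - 1, by omega⟩ : Fin A.n)]
  · congr 1
    have h2 : (((A.n - 1 : ℕ) : ℤ)) = A.n - 1 := by omega
    simp only [mat, h2]
    simp
  · intro k _ hk
    have hk1 : (k : ℕ) ≠ A.n - 1 := fun h0 => hk (Fin.ext h0)
    have hk2 := k.2
    have e1 : A.mat a' b' (k, true) (⟨A.n - 1, by omega⟩, true) = 0 := by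
      simp only [mat, h1]
      rw [neg (h'.ha _ _) (by omega), D_neg (h'.hb _ _) (by omega), add_zero]
    have e2 : A.mat a' b' (k, false) (⟨A.n - 1, by omega⟩, true) = 0 := by
      simp only [mat, h1]
      exact neg (h'.hb _ _) (by omega)
    rw [e1, e2, mul_zero, mul_zero, add_zero]
  · intro h0
    exact absurd (Finset.mem_univ _) h0

theorem ev_add (X Y : A.Hat) : ev (X + Y) = ev X + ev Y := rfl

theorem ev_zero : ev (0 : A.Hat) = 0 := rfl

theorem ev_one : ev (1 : A.Hat) = 1 := by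
  unfold ev
  change (1 : Matrix A.Ix A.Ix A.C) _ _ = 1
  rw [Matrix.one_apply_eq]

theorem ev_smul (r : K) (X : A.Hat) : ev (r • X) = r • ev X := rfl

end DGA

end Crest.Agent.R186.Hat827
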