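import Crest.Agent.R186.HatC_827

/-!
Row 186, leaf HAT, part 5 (helper827): the resolution over the hat algebra.
-/

set_option autoImplicit false
set_option linter.style.haveILetI false

open CategoryTheory CategoryTheory.Abelian

namespace Crest.Agent.R186.Hat827

variable {K : Type} [Field K]

open DGA

namespace Cells

variable {A : DGA K} (R : Cells A)

/-- **chains, the homotopy**: abstract form -/
theorem col_build (m : ℤ) (S : Finset R.ι)
    (hS1 : ∀ τ, τ ∉ S → ¬ A.inr (R.pos τ (m + 1)))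
    (a b : R.ι → ℤ → A.C)
    (ha : ∀ σ j, a σ j ∈ A.G (j - R.pos σ m))
    (hb : ∀ σ j, b σ j ∈ A.G (j - R.pos σ m + 1))
    (heb : ∀ σ j, b σ j * R.e σ = b σ j)
    (hout : ∀ σ, ¬ A.inr (R.pos σ m) → b σ = 0) (hzero : ∀ σ, R.pos σ m = 0 → b σ = 0)
    (hlast : ∀ σ, b σ A.n = 0)
    (H1 : ∀ τ (j : ℤ), 0 ≤ R.pos τ m → R.pos τ m < A.n → 0 ≤ j → j < A.n →
      a τ j = ∑ σ ∈ S, b σ j * R.c σ τ)
    (y' : R.ι → A.C) (hy : ∀ σ, y' σ ∈ A.G (m + 1 - R.s σ)) (hye : ∀ σ, y' σ * R.e σ = y' σ)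
    (H2 : ∀ τ, a τ A.n = A.D (y' τ) + ∑ σ ∈ S, y' σ * R.c σ τ) :
    ∃ y : R.ι → A.Hat, (∀ σ, y σ * R.ep (m + 1) σ = y σ) ∧
      ∀ τ, A.col (R.pos τ m) (a τ) (b τ) = (∑ σ ∈ S, y σ * R.dm m σ τ).1 := by
  classical
  have hn1 : 0 < A.n := Nat.succ_pos _
  have hp1 : ∀ σ, R.pos σ (m + 1) = R.pos σ m - 1 := fun σ => by unfold pos; ring
  have ha' : ∀ σ j, (if j = (A.n : ℤ) then y' σ else b σ j) ∈ A.G (j - R.pos σ (m + 1)) := by
    intro σ j
    split
    · next h =>
      subst h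
      have := hy σ
      unfold pos
      rwa [show (A.n : ℤ) - (R.s σ + A.n - (m + 1)) = m + 1 - R.s σ by ring]
    · have := hb σ j
      rwa [show j - R.pos σ m + 1 = j - R.pos σ (m + 1) by rw [hp1]; ring] at this
  have hz' : ∀ i j : ℤ, (0 : ℤ → A.C) i ∈ A.G j := fun _ _ => Submodule.zero_mem _
  have hyn : ∀ σ, y' σ ∈ A.G ((A.n : ℤ) - R.pos σ (m + 1)) := by
    intro σ
    have := ha' σ A.n
    rwa [if_pos rfl] at this
  have hin' : ∀ σ, A.inr (R.pos σ (m + 1)) ∨
      ((fun j => if j = (A.n : ℤ) then y' σ else b σ j) = 0 ∧ (0 : ℤ → A.C) = 0) := by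
    intro σ
    by_cases h : A.inr (R.pos σ (m + 1))
    · exact Or.inl h
    · right
      refine ⟨?_, rfl⟩
      have h1 : b σ = 0 := by
        by_cases h2 : R.pos σ m = 0
        · exact hzero σ h2
        · refine hout σ ?_
          intro h3
          apply h
          have := hp1 σ
          unfold inr at h3 ⊢
          omega
      have h2 : y' σ = 0 := by
        unfold inr at h
        by_cases h3 : R.pos σ (m + 1) < 0
        · exact big (hyn σ) (by omega)
        · exact neg (hyn σ) (by omega)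
      funext i
      simp [h1, h2]
  have hea' : ∀ σ j, (if j = (A.n : ℤ) then y' σ else b σ j) * R.e σ =
      if j = (A.n : ℤ) then y' σ else b σ j := by
    intro σ j
    split
    · exact hye σ
    · exact heb σ j
  obtain ⟨y, hy2⟩ : ∃ y : R.ι → A.Hat, ∀ σ, (y σ).1 =
      A.col (R.pos σ (m + 1)) (fun j => if j = (A.n : ℤ) then y' σ else b σ j) 0 :=
    ⟨fun σ => hmk (Rep.col (ha' σ) (fun i => hz' i _)), fun σ => rfl⟩
  refine ⟨y, ?_, ?_⟩
  · intro σ
    apply Subtype.ext
    rw [val_mul, hy2, ep_val, col_mul_sg (ha' σ) (fun i => hz' i _) (by simpa using R.e_mem σ)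
      (Submodule.zero_mem _) (hin' σ)]
    congr 1
    · funext j
      rw [hea' σ j, R.De, mul_zero, add_zero]
    · funext j
      simp
  · intro τ
    simp only [val_sum, val_mul, hy2]
    have h3 : ∀ σ ∈ S, A.col (R.pos σ (m + 1)) (fun j => if j = (A.n : ℤ) then y' σ else b σ j) 0 *
          (R.dm m σ τ).1 =
        A.col (R.pos τ m)
          (fun j => (if j = (A.n : ℤ) then y' σ else b σ j) * R.c σ τ)
          (fun j => (if j = (A.n : ℤ) then y' σ else b σ j) * (if σ = τ then R.e σ else 0)) := by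
      intro σ _
      rw [dm_val, col_mul_sg (ha' σ) (fun i => hz' i _) (R.dm_rep m σ τ).1 (R.dm_rep m σ τ).2
        (hin' σ)]
      congr 1
      · funext j
        simp
      · funext j
        simp
    rw [Finset.sum_congr rfl h3, col_sum]
    have hQ : ∀ j, (∑ σ ∈ S, (if j = (A.n : ℤ) then y' σ else b σ j) *
        (if σ = τ then R.e σ else 0)) = if j = (A.n : ℤ) then y' τ else b τ j := by
      intro j
      rw [Finset.sum_eq_single τ]
      · rw [if_pos (rfl : τ = τ), hea' τ j]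
      · intro σ _ hτ
        rw [if_neg hτ, mul_zero]
      · intro h
        rcases hin' τ with h1 | h1
        · exact absurd h1 (hS1 τ h)
        · have h2 := congrFun h1.1 j
          simp only [Pi.zero_apply] at h2
          rw [h2, zero_mul]
    refine mat_ext (Rep.col (ha τ) (hb τ)) (Rep.col ?_ ?_) ?_ ?_ ?_
    · intro j
      refine Submodule.sum_mem _ fun σ _ => ?_
      have := A.mul_mem (ha' σ j) (R.dm_rep m σ τ).1
      rwa [show j - R.pos σ (m + 1) + (R.pos σ (m + 1) - R.pos τ m) = j - R.pos τ m by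
          ring] at this
    · intro j
      refine Submodule.sum_mem _ fun σ _ => ?_
      have := A.mul_mem (ha' σ j) (R.dm_rep m σ τ).2
      rwa [show j - R.pos σ (m + 1) + (R.pos σ (m + 1) - R.pos τ m + 1) = j - R.pos τ m + 1 by
          ring] at this
    · intro j i h4 h5 h6 h7
      dsimp only
      by_cases h8 : i = R.pos τ m
      · rw [if_pos h8, if_pos h8, H1 τ j (by omega) (by omega) h4 h5]
        refine Finset.sum_congr rfl fun σ _ => ?_
        rw [if_neg (show ¬ (j = (A.n : ℤ)) by omega)]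
      · rw [if_neg h8, if_neg h8]
    · intro j i h4 h5 h6 h7
      dsimp only
      by_cases h8 : i = R.pos τ m
      · rw [if_pos h8, if_pos h8, hQ j, if_neg (show ¬ (j = (A.n : ℤ)) by omega)]
      · rw [if_neg h8, if_neg h8]
    · intro i h6 h7
      dsimp only
      by_cases h8 : i = R.pos τ m
      · rw [if_pos h8, if_pos h8, if_pos h8, if_pos h8, hQ A.n, hlast τ, map_zero, add_zero, H2 τ,
          if_pos rfl, add_comm]
        congr 1
        refine Finset.sum_congr rfl fun σ _ => ?_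
        rw [if_pos rfl]
      · rw [if_neg h8, if_neg h8, if_neg h8, if_neg h8]

/-- columns of the product with the differential -/
theorem col_dm (m : ℤ) (S : Finset R.ι) (x : R.ι → A.Hat) (a b : R.ι → ℤ → A.C)
    (hab : ∀ σ, (x σ).1 = A.col (R.pos σ (m + 1)) (a σ) (b σ))
    (ha : ∀ σ j, a σ j ∈ A.G (j - R.pos σ (m + 1)))
    (hb : ∀ σ j, b σ j ∈ A.G (j - R.pos σ (m + 1) + 1))
    (hea : ∀ σ j, a σ j * R.e σ = a σ j)
    (hin : ∀ σ, A.inr (R.pos σ (m + 1)) ∨ (a σ = 0 ∧ b σ = 0))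
    (hS : ∀ σ, σ ∉ S → a σ = 0) (τ : R.ι) :
    (∑ σ ∈ S, x σ * R.dm m σ τ).1 = A.col (R.pos τ m)
      (fun j => ∑ σ ∈ S, (a σ j * R.c σ τ + b σ j * A.D (R.c σ τ)))
      (fun j => a τ j + ∑ σ ∈ S, b σ j * R.c σ τ) := by
  classical
  simp only [val_sum, val_mul]
  have h3 : ∀ σ ∈ S, (x σ).1 * (R.dm m σ τ).1 =
        A.col (R.pos τ m)
          (fun j => a σ j * R.c σ τ + b σ j * A.D (R.c σ τ))
          (fun j => b σ j * R.c σ τ + a σ j * (if σ = τ then R.e σ else 0)) := by
    intro σ _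
    rw [dm_val, hab σ, col_mul_sg (ha σ) (hb σ) (R.dm_rep m σ τ).1 (R.dm_rep m σ τ).2 (hin σ)]
    congr 1
    funext j
    have : A.D (if σ = τ then R.e σ else 0) = 0 := by
      split
      · exact R.De σ
      · exact map_zero _
    rw [this, mul_zero, add_zero]
  rw [Finset.sum_congr rfl h3, col_sum]
  congr 1
  funext j
  rw [Finset.sum_add_distrib, add_comm]
  congr 1
  rw [Finset.sum_eq_single τ]
  · rw [if_pos (rfl : τ = τ), hea τ j]
  · intro σ _ hτ
    rw [if_neg hτ, mul_zero]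
  · intro h
    rw [hS τ h]
    simp

theorem sg_sum {κ : Type} (S : Finset κ) (j i : ℤ) (u v : κ → A.C) :
    ∑ x ∈ S, A.sg j i (u x) (v x) = A.sg j i (∑ x ∈ S, u x) (∑ x ∈ S, v x) := by
  unfold sg
  rw [mat_sum]
  congr 1
  · funext j' i'
    split <;> simp
  · funext j' i'
    split <;> simp

/-- `d ∘ d = 0` -/
theorem dm_dm (m : ℤ) (S : Finset R.ι) (σ τ : R.ι)
    (hS : ∀ ρ, ρ ∉ S → R.dm (m + 1) σ ρ * R.dm m ρ τ = 0) :
    ∑ ρ ∈ S, R.dm (m + 1) σ ρ * R.dm m ρ τ = 0 := by
  classical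
  have hn1 : 0 < A.n := Nat.succ_pos _
  rw [sum_eq_sum (S' := R.F (R.s σ)) (fun ρ _ h => by
    rw [R.dm_zero _ (by rw [R.mem_F] at h; omega), zero_mul]) (fun ρ _ h => hS ρ h)]
  by_cases hj : A.inr (R.pos σ (m + 1 + 1))
  swap
  · exact Finset.sum_eq_zero fun ρ _ => by rw [R.dm_out (Or.inl hj), zero_mul]
  by_cases hi : A.inr (R.pos τ m)
  swap
  · exact Finset.sum_eq_zero fun ρ _ => by rw [R.dm_out (m := m) (Or.inr hi), mul_zero]
  have hp1 : ∀ ρ, R.pos ρ (m + 1) = R.pos ρ m - 1 := fun σ => by unfold pos; ring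
  have hp2 : ∀ ρ, R.pos ρ (m + 1 + 1) = R.pos ρ (m + 1) - 1 := fun σ => by unfold pos; ring
  apply Subtype.ext
  simp only [val_sum, val_mul]
  have h3 : ∀ ρ ∈ R.F (R.s σ), (R.dm (m + 1) σ ρ).1 * (R.dm m ρ τ).1 =
      A.sg (R.pos σ (m + 1 + 1)) (R.pos τ m)
        (if A.inr (R.pos ρ (m + 1)) then
          R.c σ ρ * R.c ρ τ + (if σ = ρ then R.e σ else 0) * A.D (R.c ρ τ) else 0)
        (if A.inr (R.pos ρ (m + 1)) then
          (if σ = ρ then R.e σ else 0) * R.c ρ τ + R.c σ ρ * (if ρ = τ then R.e ρ else 0)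
          else 0) := by
    intro ρ _
    by_cases h : A.inr (R.pos ρ (m + 1))
    · rw [if_pos h, if_pos h, dm_val, dm_val, sg_mul_sg (R.dm_rep (m + 1) σ ρ).1
        (R.dm_rep (m + 1) σ ρ).2 (R.dm_rep m ρ τ).1 (R.dm_rep m ρ τ).2 h]
      congr 1
      have : A.D (if ρ = τ then R.e ρ else 0) = 0 := by
        split
        · exact R.De ρ
        · exact map_zero _
      rw [this, mul_zero, add_zero]
    · rw [if_neg h, if_neg h, dm_val, sg_out (Or.inr h), zero_mul]
      symm
      change A.mat _ _ = 0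
      rw [← mat_zero]
      congr 1 <;> funext j i <;> simp
  rw [Finset.sum_congr rfl h3, sg_sum]
  -- the two sums
  have hcc : ∀ ρ, (if A.inr (R.pos ρ (m + 1)) then R.c σ ρ * R.c ρ τ else 0) =
      R.c σ ρ * R.c ρ τ := by
    intro ρ
    by_cases h : A.inr (R.pos ρ (m + 1))
    · rw [if_pos h]
    · rw [if_neg h]
      by_cases h1 : R.s σ ≤ R.s ρ
      · rw [R.c_zero h1, zero_mul]
      by_cases h2 : R.s ρ ≤ R.s τ
      · rw [R.c_zero h2, mul_zero]
      exfalso
      apply h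
      unfold inr pos at hi hj ⊢
      omega
  have hP : (∑ ρ ∈ R.F (R.s σ), (if A.inr (R.pos ρ (m + 1)) then
          R.c σ ρ * R.c ρ τ + (if σ = ρ then R.e σ else 0) * A.D (R.c ρ τ) else 0)) =
      ∑ ρ ∈ R.F (R.s σ), R.c σ ρ * R.c ρ τ +
        (if A.inr (R.pos σ (m + 1)) then A.D (R.c σ τ) else 0) := by
    have h4 : ∀ ρ ∈ R.F (R.s σ), (if A.inr (R.pos ρ (m + 1)) then
          R.c σ ρ * R.c ρ τ + (if σ = ρ then R.e σ else 0) * A.D (R.c ρ τ) else 0) =
        R.c σ ρ * R.c ρ τ + (if A.inr (R.pos ρ (m + 1)) then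
          (if σ = ρ then R.e σ else 0) * A.D (R.c ρ τ) else 0) := by
      intro ρ _
      rw [← hcc ρ]
      split <;> simp
    rw [Finset.sum_congr rfl h4, Finset.sum_add_distrib]
    congr 1
    rw [Finset.sum_eq_single σ]
    · rw [if_pos (rfl : σ = σ), R.eD (R.c_left σ τ)]
    · intro ρ _ hρ
      rw [if_neg (Ne.symm hρ), zero_mul, ite_self]
    · intro h
      exact absurd (R.self_mem σ) h
  have hQ : (∑ ρ ∈ R.F (R.s σ), (if A.inr (R.pos ρ (m + 1)) then
          (if σ = ρ then R.e σ else 0) * R.c ρ τ + R.c σ ρ * (if ρ = τ then R.e ρ else 0)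
          else 0)) =
      (if A.inr (R.pos σ (m + 1)) then R.c σ τ else 0) +
      (if A.inr (R.pos τ (m + 1)) then R.c σ τ else 0) := by
    have h4 : ∀ ρ ∈ R.F (R.s σ), (if A.inr (R.pos ρ (m + 1)) then
          (if σ = ρ then R.e σ else 0) * R.c ρ τ + R.c σ ρ * (if ρ = τ then R.e ρ else 0)
          else 0) =
        (if A.inr (R.pos ρ (m + 1)) then (if σ = ρ then R.e σ else 0) * R.c ρ τ else 0) +
        (if A.inr (R.pos ρ (m + 1)) then R.c σ ρ * (if ρ = τ then R.e ρ else 0) else 0) := by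
      intro ρ _
      split <;> simp
    rw [Finset.sum_congr rfl h4, Finset.sum_add_distrib]
    congr 1
    · rw [Finset.sum_eq_single σ]
      · rw [if_pos (rfl : σ = σ), R.c_left σ τ]
      · intro ρ _ hρ
        rw [if_neg (Ne.symm hρ), zero_mul, ite_self]
      · intro h
        exact absurd (R.self_mem σ) h
    · rw [Finset.sum_eq_single τ]
      · rw [if_pos (rfl : τ = τ), R.c_right σ τ]
      · intro ρ _ hρ
        rw [if_neg hρ, mul_zero, ite_self]
      · intro h
        rw [R.mem_F] at h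
        rw [R.c_zero (by omega), zero_mul, ite_self]
  rw [hP, hQ]
  have hmc := R.mc σ τ
  have hcst := R.c_mem σ τ
  have hcc2 : ∑ ρ ∈ R.F (R.s σ), R.c σ ρ * R.c ρ τ = A.D (R.c σ τ) :=
    (eq_of_add hmc).symm
  rw [hcc2]
  have hmem : ∀ (b : Prop) [Decidable b], (if b then R.c σ τ else 0) ∈
      A.G (R.pos σ (m + 1 + 1) - R.pos τ m + 1) := by
    intro b _
    split
    · unfold pos
      rwa [show (R.s σ : ℤ) + A.n - (m + 1 + 1) - (R.s τ + A.n - m) + 1 =
        R.s σ - R.s τ - 1 by ring]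
    · exact Submodule.zero_mem _
  have hmem' : ∀ (b : Prop) [Decidable b], (if b then A.D (R.c σ τ) else 0) ∈
      A.G (R.pos σ (m + 1 + 1) - R.pos τ m) := by
    intro b _
    split
    · have := A.D_mem hcst
      unfold pos
      rwa [show (R.s σ : ℤ) + A.n - (m + 1 + 1) - (R.s τ + A.n - m) =
        R.s σ - R.s τ - 1 - 1 by ring]
    · exact Submodule.zero_mem _
  change A.sg _ _ _ _ = 0
  rw [← mat_zero]
  refine mat_ext (Rep.sg (Submodule.add_mem _ (by simpa using hmem' True) (hmem' _))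
    (Submodule.add_mem _ (hmem _) (hmem _))) Rep.zero ?_ ?_ ?_
  · intro j i h4 h5 h6 h7
    dsimp only [Pi.zero_apply]
    by_cases h : j = R.pos σ (m + 1 + 1) ∧ i = R.pos τ m
    · rw [if_pos h, if_pos, A.two]
      have := hp2 σ
      unfold inr at hj ⊢
      omega
    · rw [if_neg h]
  · intro j i h4 h5 h6 h7
    dsimp only [Pi.zero_apply]
    by_cases h : j = R.pos σ (m + 1 + 1) ∧ i = R.pos τ m
    · rw [if_pos h, if_pos, if_pos, A.two]
      · have := hp1 τ
        unfold inr at hi ⊢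
        omega
      · have := hp2 σ
        unfold inr at hj ⊢
        omega
    · rw [if_neg h]
  · intro i h6 h7
    dsimp only [Pi.zero_apply]
    by_cases h : (A.n : ℤ) = R.pos σ (m + 1 + 1) ∧ i = R.pos τ m
    · have h8 : ¬ A.inr (R.pos σ (m + 1)) := by
        have := hp2 σ
        unfold inr
        omega
      have h9 : A.inr (R.pos τ (m + 1)) := by
        have := hp1 τ
        unfold inr at hi ⊢
        omega
      rw [if_pos h, if_pos h, if_neg h8, if_neg h8, if_pos h9, add_zero, zero_add, A.two,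
        map_zero, add_zero]
    · rw [if_neg h, if_neg h]

end Cells

end Crest.Agent.R186.Hat827
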