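import Crest.Agent.R186.ZZB_380
import Crest.Agent.R186.TRq_461
import Crest.Agent.R186.EndB_448

/-!
Row 186 (A), leaf (H) (helper380): **`PH`** of the skeleton `EndB_448`.
-/

set_option autoImplicit false

namespace Crest.Agent.R186.Hf380

open DefsQ830 KHc302 Frame515

variable {K : Type} [Field K] (π : Par K) (s : ℕ) (hs : 5 ≤ s)

/-- **(H)** -/
theorem pH : EndB448.PH π s hs :=
  ZZB380.ac_Hrm π s hs (EndV448.XL π s hs) (by simpa using π.gn 1 one_pos)
    (fun a ha => TRq461.q2 π s hs (by omega)) (fun a _ ha => TRq461.q1 π s hs (by omega))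

end Crest.Agent.R186.Hf380
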