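import Mathlib

/-!
Row 186 (helper128): multiplicative independence of the three variables of
`k₀ = FractionRing (MvPolynomial (Fin 3) (ZMod 2))`.
-/

set_option autoImplicit false

namespace Crest.Agent.R186.Indep128

open MvPolynomial

/-- the ground field -/
abbrev k0 : Type := FractionRing (MvPolynomial (Fin 3) (ZMod 2))

/-- the variables in the ground field -/
noncomputable def X (i : Fin 3) : k0 :=
  algebraMap (MvPolynomial (Fin 3) (ZMod 2)) k0 (MvPolynomial.X i)

theorem alg_inj : Function.Injective (algebraMap (MvPolynomial (Fin 3) (ZMod 2)) k0) :=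
  IsFractionRing.injective _ _

theorem X_ne_zero (i : Fin 3) : X i ≠ 0 := by
  intro h
  have h2 : algebraMap (MvPolynomial (Fin 3) (ZMod 2)) k0 (MvPolynomial.X i) =
      algebraMap (MvPolynomial (Fin 3) (ZMod 2)) k0 0 := by
    rw [map_zero]; exact h
  exact MvPolynomial.X_ne_zero i (alg_inj h2)

instance : CharP k0 2 :=
  charP_of_injective_algebraMap (R := MvPolynomial (Fin 3) (ZMod 2)) alg_inj 2

/-- natural exponents -/
theorem prod_eq (m n : Fin 3 → ℕ) (h : ∏ i, X i ^ m i = ∏ i, X i ^ n i) : m = n := by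
  have h1 : algebraMap (MvPolynomial (Fin 3) (ZMod 2)) k0 (∏ i, MvPolynomial.X i ^ m i) =
      algebraMap (MvPolynomial (Fin 3) (ZMod 2)) k0 (∏ i, MvPolynomial.X i ^ n i) := by
    simpa [map_prod, map_pow, X] using h
  have h2 := alg_inj h1
  have h3 : ∀ e : Fin 3 → ℕ, (∏ i, (MvPolynomial.X i : MvPolynomial (Fin 3) (ZMod 2)) ^ e i) =
      monomial (Finsupp.equivFunOnFinite.symm e) 1 := by
    intro e
    rw [MvPolynomial.monomial_eq, Finsupp.prod_fintype _ _ (by intro i; simp)]
    simp
  rw [h3, h3] at h2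
  have h4 := (MvPolynomial.monomial_eq_monomial_iff _ _ _ _).1 h2
  rcases h4 with ⟨h5, _⟩ | ⟨h5, _⟩
  · exact Finsupp.equivFunOnFinite.symm.injective h5
  · exact absurd h5 one_ne_zero

/-- integral exponents -/
theorem zprod_eq (a : Fin 3 → ℤ) (h : ∏ i, X i ^ a i = 1) : a = 0 := by
  have h1 : ∏ i, X i ^ (a i).toNat = ∏ i, X i ^ (-(a i)).toNat := by
    have h2 : ∀ i, X i ^ (a i).toNat = X i ^ (a i) * X i ^ (-(a i)).toNat := by
      intro i
      rw [← zpow_natCast, ← zpow_natCast, ← zpow_add₀ (X_ne_zero i)]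
      congr 1
      omega
    rw [Finset.prod_congr rfl (fun i _ => h2 i), Finset.prod_mul_distrib, h, one_mul]
  have h3 := prod_eq _ _ h1
  funext i
  have h4 := congrFun h3 i
  simp only [Pi.zero_apply]
  omega

theorem indep (a b c : ℤ) (h : X 0 ^ a * X 1 ^ b * X 2 ^ c = 1) : a = 0 ∧ b = 0 ∧ c = 0 := by
  have h1 := zprod_eq ![a, b, c] (by simpa [Fin.prod_univ_three] using h)
  refine ⟨?_, ?_, ?_⟩
  · simpa using congrFun h1 0
  · simpa using congrFun h1 1
  · simpa using congrFun h1 2

theorem zpow_ne_one (i : Fin 3) (n : ℤ) (hn : n ≠ 0) : X i ^ n ≠ 1 := by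
  intro h
  apply hn
  have h1 := zprod_eq (Pi.single i n) (by
    rw [Finset.prod_eq_single i]
    · simpa using h
    · intro j _ hj
      simp [Pi.single_eq_of_ne hj]
    · intro hi
      exact absurd (Finset.mem_univ i) hi)
  simpa using congrFun h1 i

theorem pow_ne_one (i : Fin 3) (n : ℕ) (hn : n ≠ 0) : X i ^ n ≠ 1 := by
  have := zpow_ne_one i n (by exact_mod_cast hn)
  rwa [zpow_natCast] at this

/-- the independence predicate used by the leaves: four parameters are never needed
simultaneously; three are. -/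
def Indep3 {K : Type*} [Field K] (p q r : K) : Prop :=
  ∀ a b c : ℤ, p ^ a * q ^ b * r ^ c = 1 → a = 0 ∧ b = 0 ∧ c = 0

theorem indep3 : Indep3 (X 0) (X 1) (X 2) := indep

end Crest.Agent.R186.Indep128
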