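import Mathlib

/-! Row 186: multiplicative independence in the ground field
`k0 = FractionRing (MvPolynomial (Fin 3) (ZMod 2))`. -/

set_option autoImplicit false

namespace Crest.Agent.R186.Indep667

open Finset MvPolynomial

section General

variable {R : Type*} [CommRing R] [IsDomain R] {ι : Type*}

/-- pairwise non-dividing primes of a domain are multiplicatively independent (in `R`). -/
lemma exp_eq_of_prod {s : Finset ι} {π : ι → R} (hp : ∀ i ∈ s, Prime (π i))
    (hnd : ∀ i ∈ s, ∀ j ∈ s, i ≠ j → ¬ π i ∣ π j) {a b : ι → ℕ}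
    (hab : ∀ i ∈ s, a i = 0 ∨ b i = 0)
    (h : ∏ i ∈ s, π i ^ a i = ∏ i ∈ s, π i ^ b i) : ∀ i ∈ s, a i = 0 := by
  intro i hi
  by_contra hne
  have hbi : b i = 0 := (hab i hi).resolve_left hne
  have h1 : π i ∣ ∏ j ∈ s, π j ^ b j := by
    rw [← h]
    exact (dvd_pow_self (π i) hne).trans (Finset.dvd_prod_of_mem (fun j => π j ^ a j) hi)
  rw [Prime.dvd_finsetProd_iff (hp i hi)] at h1
  obtain ⟨j, hj, hd⟩ := h1
  have hij : i ≠ j := by
    rintro rfl
    rw [hbi, pow_zero] at hd
    exact (hp i hi).not_isUnit (isUnit_of_dvd_one hd)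
  exact hnd i hi j hj hij ((hp i hi).dvd_of_dvd_pow hd)

/-- pairwise non-dividing primes of a domain are multiplicatively independent in the field of
fractions. -/
theorem indep_of_primes {K : Type*} [Field K] [Algebra R K] [IsFractionRing R K]
    {s : Finset ι} {π : ι → R} (hp : ∀ i ∈ s, Prime (π i))
    (hnd : ∀ i ∈ s, ∀ j ∈ s, i ≠ j → ¬ π i ∣ π j) {a : ι → ℤ}
    (h : ∏ i ∈ s, (algebraMap R K (π i)) ^ a i = 1) : ∀ i ∈ s, a i = 0 := by
  have hinj : Function.Injective (algebraMap R K) := IsFractionRing.injective R K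
  have hne : ∀ i ∈ s, algebraMap R K (π i) ≠ 0 := by
    intro i hi h0
    exact (hp i hi).ne_zero (hinj (by rw [h0, map_zero]))
  have key : ∏ i ∈ s, π i ^ (a i).toNat = ∏ i ∈ s, π i ^ (-a i).toNat := by
    apply hinj
    rw [map_prod, map_prod]
    have h1 : ∏ i ∈ s, algebraMap R K (π i ^ (a i).toNat) =
        (∏ i ∈ s, (algebraMap R K (π i)) ^ a i) * ∏ i ∈ s, algebraMap R K (π i ^ (-a i).toNat) := by
      rw [← Finset.prod_mul_distrib]
      refine Finset.prod_congr rfl fun i hi => ?_
      rw [map_pow, map_pow, ← zpow_natCast, ← zpow_natCast, ← zpow_add₀ (hne i hi)]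
      congr 1
      omega
    rw [h1, h, one_mul]
  have e1 := exp_eq_of_prod hp hnd (fun i _ => by omega) key
  have e2 := exp_eq_of_prod hp hnd (fun i _ => by omega) key.symm
  intro i hi
  have h1 := e1 i hi
  have h2 := e2 i hi
  omega

end General

/-- the ground field of row 186. -/
abbrev k0 : Type := FractionRing (MvPolynomial (Fin 3) (ZMod 2))

/-- the ring. -/
abbrev A0 : Type := MvPolynomial (Fin 3) (ZMod 2)

instance : CharP A0 2 := MvPolynomial.instCharP (Fin 3) (ZMod 2) 2

instance : CharP k0 2 := IsFractionRing.charP A0 2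

/-- the substitution `X 0 ↦ X 0 + 1`. -/
noncomputable def sh : A0 →ₐ[ZMod 2] A0 := aeval fun i => if i = 0 then X 0 + 1 else X i

lemma sh_sh : sh.comp sh = AlgHom.id (ZMod 2) A0 := by
  apply MvPolynomial.algHom_ext
  intro i
  by_cases hi : i = 0
  · subst hi
    have : (X 0 : A0) + 1 + 1 = X 0 := by
      rw [add_assoc, CharTwo.add_self_eq_zero, add_zero]
    simp [sh, this]
  · simp [sh, hi]

/-- the automorphism `X 0 ↦ X 0 + 1`. -/
noncomputable def shE : A0 ≃ₐ[ZMod 2] A0 := AlgEquiv.ofAlgHom sh sh sh_sh sh_sh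

lemma shE_X : shE (X 0) = (X 0 : A0) + 1 := by
  change sh (X 0) = _
  simp [sh]

/-- the four primes `X 0, X 1, X 2, X 0 + 1`. -/
noncomputable def pr (i : Fin 4) : A0 := if h : i.1 < 3 then X ⟨i.1, h⟩ else X 0 + 1

lemma prime_pr (i : Fin 4) : Prime (pr i) := by
  unfold pr
  split_ifs with h
  · exact X_prime
  · rw [← shE_X, MulEquiv.prime_iff shE]
    exact X_prime

lemma not_dvd_pr (i j : Fin 4) (hij : i ≠ j) : ¬ pr i ∣ pr j := by
  unfold pr
  split_ifs with h1 h2 h3
  · rw [X_dvd_X]
    intro h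
    apply hij
    have := congrArg Fin.val h
    exact Fin.ext this
  · rintro ⟨c, hc⟩
    have := congrArg (MvPolynomial.eval (fun _ => (0 : ZMod 2))) hc
    simp at this
  · rintro ⟨c, hc⟩
    have := congrArg (MvPolynomial.eval (fun _ => (1 : ZMod 2))) hc
    rw [map_mul, map_add, eval_X, eval_X, map_one] at this
    have h2 : (1 : ZMod 2) + 1 = 0 := by decide
    rw [h2, zero_mul] at this
    exact one_ne_zero this
  · omega

/-- the four independent parameters of `k0`. -/
noncomputable def par (i : Fin 4) : k0 := algebraMap A0 k0 (pr i)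

lemma par_ne_zero (i : Fin 4) : par i ≠ 0 := by
  intro h
  apply (prime_pr i).ne_zero
  apply IsFractionRing.injective A0 k0
  rw [map_zero]; exact h

/-- **multiplicative independence** of the four parameters. -/
theorem par_indep (a : Fin 4 → ℤ) (h : ∏ i, par i ^ a i = 1) : a = 0 := by
  funext i
  exact indep_of_primes (R := A0) (K := k0) (s := Finset.univ) (π := pr) (fun i _ => prime_pr i)
    (fun i _ j _ hij => not_dvd_pr i j hij) h i (Finset.mem_univ i)

/-- **multiplicative independence**, four parameter form. -/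
theorem par_indep4 (a b c d : ℤ) (h : par 0 ^ a * par 1 ^ b * par 2 ^ c * par 3 ^ d = 1) :
    a = 0 ∧ b = 0 ∧ c = 0 ∧ d = 0 := by
  have h1 := par_indep ![a, b, c, d] (by simpa [Fin.prod_univ_four] using h)
  refine ⟨?_, ?_, ?_, ?_⟩
  · simpa using congrFun h1 0
  · simpa using congrFun h1 1
  · simpa using congrFun h1 2
  · simpa using congrFun h1 3

/-- three parameter form. -/
theorem par_indep3 (a b c : ℤ) (h : par 0 ^ a * par 1 ^ b * par 2 ^ c = 1) :
    a = 0 ∧ b = 0 ∧ c = 0 := by
  obtain ⟨h1, h2, h3, _⟩ := par_indep4 a b c 0 (by simpa using h)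
  exact ⟨h1, h2, h3⟩

end Crest.Agent.R186.Indep667
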