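import Mathlib

/-!
Row 186: multiplicative independence of the parameters over `k0 = F_2(x,y,z)`.
-/

set_option autoImplicit false

namespace Crest.Agent.R186.Indep988

open MvPolynomial

/-- the ground field `F_2(x,y,z)` -/
abbrev K0 : Type := FractionRing (MvPolynomial (Fin 3) (ZMod 2))

/-- the three variables -/
noncomputable def x (i : Fin 3) : K0 := algebraMap (MvPolynomial (Fin 3) (ZMod 2)) K0 (X i)

lemma alg_inj : Function.Injective (algebraMap (MvPolynomial (Fin 3) (ZMod 2)) K0) :=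
  IsFractionRing.injective _ _

lemma x_ne (i : Fin 3) : x i ≠ 0 := by
  intro h
  have : (X i : MvPolynomial (Fin 3) (ZMod 2)) = 0 := alg_inj (by rw [map_zero]; exact h)
  exact X_ne_zero i this

/-- `1 + x_0` -/
noncomputable def u : K0 := 1 + x 0

lemma u_eq : u = algebraMap (MvPolynomial (Fin 3) (ZMod 2)) K0 (1 + X 0) := by
  simp [u, x]

lemma one_add_X_ne : (1 + X 0 : MvPolynomial (Fin 3) (ZMod 2)) ≠ 0 := by
  intro h
  have h2 := congrArg (MvPolynomial.eval (fun _ : Fin 3 => (0 : ZMod 2))) h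
  simp at h2

lemma u_ne : u ≠ 0 := by
  rw [u_eq]
  intro h
  exact one_add_X_ne (alg_inj (by rw [map_zero]; exact h))

lemma prod_pow_nat (m : Fin 3 → ℕ) :
    ∏ i, x i ^ m i = algebraMap (MvPolynomial (Fin 3) (ZMod 2)) K0 (∏ i, X i ^ m i) := by
  simp [x, map_prod, map_pow]

lemma prod_X_eq (m : Fin 3 → ℕ) :
    (∏ i, X i ^ m i : MvPolynomial (Fin 3) (ZMod 2)) =
      monomial (Finsupp.equivFunOnFinite.symm m) 1 := by
  rw [monomial_eq]
  simp [Finsupp.prod_fintype]

/-- natural number exponents -/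
lemma nat_indep {m n : Fin 3 → ℕ} (h : ∏ i, x i ^ m i = ∏ i, x i ^ n i) : m = n := by
  rw [prod_pow_nat, prod_pow_nat] at h
  have h1 := alg_inj h
  rw [prod_X_eq, prod_X_eq] at h1
  have h2 := (monomial_eq_monomial_iff _ _ _ _).1 h1
  rcases h2 with ⟨h3, _⟩ | ⟨h3, _⟩
  · exact Finsupp.equivFunOnFinite.symm.injective h3
  · exact absurd h3 one_ne_zero

lemma zpow_split {K : Type*} [Field K] {a : K} (ha : a ≠ 0) (n : ℤ) :
    a ^ n * a ^ (-n).toNat = a ^ n.toNat := by
  have h : (n.toNat : ℤ) - ((-n).toNat : ℤ) = n := Int.toNat_sub_toNat_neg n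
  rw [← zpow_natCast a (-n).toNat, ← zpow_natCast a n.toNat, ← zpow_add₀ ha]
  congr 1
  omega

/-- **four independent elements**: `x, y, z, 1 + x` -/
theorem indep4 (a : Fin 3 → ℤ) (d : ℤ) (h : (∏ i, x i ^ a i) * u ^ d = 1) :
    a = 0 ∧ d = 0 := by
  -- positive and negative parts
  have h1 : (∏ i, x i ^ (a i).toNat) * u ^ d.toNat =
      (∏ i, x i ^ (-(a i)).toNat) * u ^ (-d).toNat := by
    have e1 : (∏ i, x i ^ (a i).toNat) = (∏ i, x i ^ a i) * ∏ i, x i ^ (-(a i)).toNat := by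
      rw [← Finset.prod_mul_distrib]
      exact Finset.prod_congr rfl fun i _ => (zpow_split (x_ne i) (a i)).symm
    rw [e1, ← zpow_split u_ne d]
    calc ((∏ i, x i ^ a i) * ∏ i, x i ^ (-(a i)).toNat) * (u ^ d * u ^ (-d).toNat)
        = ((∏ i, x i ^ a i) * u ^ d) * ((∏ i, x i ^ (-(a i)).toNat) * u ^ (-d).toNat) := by ring
      _ = _ := by rw [h, one_mul]
  rw [prod_pow_nat, prod_pow_nat, u_eq, ← map_pow, ← map_pow, ← map_mul, ← map_mul] at h1
  have h2 := alg_inj h1
  have hd : d = 0 := by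
    have h3 := congrArg (MvPolynomial.eval (fun _ : Fin 3 => (1 : ZMod 2))) h2
    have h11 : (1 : ZMod 2) + 1 = 0 := by decide
    simp only [map_mul, map_prod, map_pow, map_add, map_one, eval_X, one_pow,
      Finset.prod_const_one, one_mul, h11] at h3
    rcases lt_trichotomy d 0 with h4 | h4 | h4
    · have h5 : d.toNat = 0 := by omega
      have h6 : (-d).toNat ≠ 0 := by omega
      rw [h5, pow_zero, zero_pow h6] at h3
      exact absurd h3 one_ne_zero
    · exact h4
    · have h5 : (-d).toNat = 0 := by omega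
      have h6 : d.toNat ≠ 0 := by omega
      rw [h5, pow_zero, zero_pow h6] at h3
      exact absurd h3.symm one_ne_zero
  refine ⟨?_, hd⟩
  subst hd
  simp only [Int.toNat_zero, neg_zero, pow_zero, mul_one] at h2
  rw [prod_X_eq, prod_X_eq] at h2
  rcases (monomial_eq_monomial_iff _ _ _ _).1 h2 with ⟨h3, _⟩ | ⟨h3, _⟩
  · have h4 := Finsupp.equivFunOnFinite.symm.injective h3
    funext i
    have h5 : (a i).toNat = (-(a i)).toNat := congrFun h4 i
    show a i = 0
    omega
  · exact absurd h3 one_ne_zero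

/-- three independent elements -/
theorem indep3 (a : Fin 3 → ℤ) (h : ∏ i, x i ^ a i = 1) : a = 0 :=
  (indep4 a 0 (by rw [zpow_zero, mul_one]; exact h)).1

/-- three parameters `p = x, q1 = y, q2 = z`, explicit form -/
theorem indep3' (i j k : ℤ) (h : x 0 ^ i * x 1 ^ j * x 2 ^ k = 1) : i = 0 ∧ j = 0 ∧ k = 0 := by
  have h1 := indep3 ![i, j, k] (by rw [Fin.prod_univ_three]; simpa using h)
  have h2 : ∀ t : Fin 3, (![i, j, k] : Fin 3 → ℤ) t = 0 := fun t => by rw [h1]; rfl
  exact ⟨by simpa using h2 0, by simpa using h2 1, by simpa using h2 2⟩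

/-- four parameters `x, y, z, 1 + x`, explicit form -/
theorem indep4' (i j k l : ℤ) (h : x 0 ^ i * x 1 ^ j * x 2 ^ k * u ^ l = 1) :
    i = 0 ∧ j = 0 ∧ k = 0 ∧ l = 0 := by
  have h1 := indep4 ![i, j, k] l (by rw [Fin.prod_univ_three]; simpa using h)
  have h2 : ∀ t : Fin 3, (![i, j, k] : Fin 3 → ℤ) t = 0 := fun t => by rw [h1.1]; rfl
  exact ⟨by simpa using h2 0, by simpa using h2 1, by simpa using h2 2, h1.2⟩

/-- transfer of the independence to an extension field -/
theorem indep4_ext {L : Type*} [Field L] (f : K0 →+* L) (i j k l : ℤ)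
    (h : f (x 0) ^ i * f (x 1) ^ j * f (x 2) ^ k * f u ^ l = 1) :
    i = 0 ∧ j = 0 ∧ k = 0 ∧ l = 0 := by
  apply indep4'
  apply f.injective
  simpa [map_mul, map_zpow₀] using h

/-- `q`-numbers do not vanish -/
theorem qnum_ne {K : Type*} [Field K] {p : K} (hp : ∀ m : ℕ, 0 < m → p ^ m ≠ 1) {m : ℕ}
    (hm : 0 < m) : ∑ i ∈ Finset.range m, p ^ i ≠ 0 := by
  intro h
  have h1 := mul_geom_sum p m
  rw [h, mul_zero] at h1
  exact hp m hm (sub_eq_zero.1 h1.symm)

/-- `q`-numbers of the inverse parameter -/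
theorem qnum_inv_ne {K : Type*} [Field K] {p : K} (hp : ∀ m : ℕ, 0 < m → p ^ m ≠ 1) {m : ℕ}
    (hm : 0 < m) : ∑ i ∈ Finset.range m, (p⁻¹) ^ i ≠ 0 := by
  apply qnum_ne _ hm
  intro n hn h
  rw [inv_pow] at h
  exact hp n hn (by rw [← inv_inv (p ^ n), h, inv_one])

/-- from the independence of three parameters: `q`-numbers of `p` -/
theorem pow_ne_of_indep {K : Type*} [Field K] {p q1 q2 : K}
    (h : ∀ i j k : ℤ, p ^ i * q1 ^ j * q2 ^ k = 1 → i = 0 ∧ j = 0 ∧ k = 0) :
    ∀ m : ℕ, 0 < m → p ^ m ≠ 1 := by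
  intro m hm h1
  have := (h m 0 0 (by simpa using h1)).1
  omega

/-- characteristic two -/
lemma two_eq_zero : (2 : K0) = 0 := by
  have h : (2 : MvPolynomial (Fin 3) (ZMod 2)) = 0 := by
    have h2 : (2 : ZMod 2) = 0 := by decide
    have h4 : (2 : MvPolynomial (Fin 3) (ZMod 2)) = C (2 : ZMod 2) := (map_ofNat C 2).symm
    rw [h4, h2, map_zero]
  have h3 := congrArg (algebraMap (MvPolynomial (Fin 3) (ZMod 2)) K0) h
  rw [map_zero, map_ofNat] at h3
  exact h3

instance : CharP K0 2 := CharTwo.of_one_ne_zero_of_two_eq_zero one_ne_zero two_eq_zero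

end Crest.Agent.R186.Indep988
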