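import Crest.Agent.R186.Vmod_220

/-!
# Row 186, half (A) (helper439): the INVERSE polynomials as a module over `R''`

The local cohomology module `x_0⁻¹ x_1⁻¹ K[x_0⁻¹, x_1⁻¹]` (`= ⊕ V_m[1]`, `m ≤ -2`).
Basis `mon a b ↔ x_0^(-a-1) x_1^(-b-1)` of the same space `Pol K`, P-degree `-a-b-2`.
`x_i` acts by `S0`, `S1` (`VOp_220`), `h ↦ 1`, `d_0 : mon a b ↦ q^(-a) [a+1]_q mon (a+1) b`,
`d_1 : mon a b ↦ q^(-a-b) [b+1]_q mon a (b+1)` (`q = g⁻¹`), the other letters act by `0`.
Mirror of `Vmod_220`: `homI`, `repI`, `repI_D`, `repI_pcB`, `repI_ent`, `actI`.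
-/

set_option autoImplicit false

namespace Crest.Agent.R186.Inv439

open Crest.Agent.R186.VOp220 Crest.Agent.R186.DefsQ830 Crest.Agent.R186.Vmod220

variable {K : Type} [Field K] (π : Par K)

/-- the operator of `d_0` on the inverse polynomials -/
noncomputable def F0 (g : K) : Pol K →ₗ[K] Pol K :=
  op (fun a _ => g ^ a * qn g⁻¹ (a + 1)) (fun a => a + 1) (fun b => b)
/-- the operator of `d_1` on the inverse polynomials -/
noncomputable def F1 (g : K) : Pol K →ₗ[K] Pol K :=
  op (fun a b => g ^ (a + b) * qn g⁻¹ (b + 1)) (fun a => a) (fun b => b + 1)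

section ops
variable {g : K}

@[simp] lemma F0_mon (a b : ℕ) : F0 g (mon K a b) = (g ^ a * qn g⁻¹ (a + 1)) • mon K (a + 1) b := by
  simp [F0]

@[simp] lemma F1_mon (a b : ℕ) :
    F1 g (mon K a b) = (g ^ (a + b) * qn g⁻¹ (b + 1)) • mon K a (b + 1) := by
  simp [F1]

lemma relI_x : (S0 : Pol K →ₗ[K] Pol K) * S1 = S1 * S0 := by
  apply ext_mon; intro a b
  rcases a with _ | a <;> rcases b with _ | b <;> simp

/-- `g * [a+1]_q = g + [a]_q`, `q = g⁻¹` -/
lemma g_mul_qn (hg : g ≠ 0) (a : ℕ) : g * qn g⁻¹ (a + 1) = g + qn g⁻¹ a := by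
  rw [qn_succ, mul_add, mul_one, ← mul_assoc, mul_inv_cancel₀ hg, one_mul]

/-- `g^a * ([a+1]_q - [a]_q) = 1` -/
lemma pow_mul_qn (hg : g ≠ 0) (a : ℕ) : g ^ a * qn g⁻¹ (a + 1) = 1 + g ^ a * qn g⁻¹ a := by
  rw [qn_succ', mul_add, inv_pow, mul_inv_cancel₀ (pow_ne_zero _ hg), add_comm]

lemma sI00 (hg : g ≠ 0) : (S0 : Pol K →ₗ[K] Pol K) * F0 g = 1 + g • (F0 g * S0) := by
  apply ext_mon; intro a b
  rcases a with _ | a
  · simp [qn_succ]
  · simp only [Module.End.mul_apply, LinearMap.add_apply, LinearMap.smul_apply, F0_mon, S0_mon,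
      map_smul, Module.End.one_apply, Nat.add_sub_cancel, if_neg (Nat.succ_ne_zero _), one_smul,
      smul_smul]
    rw [pow_mul_qn hg, add_smul, one_smul]
    congr 2
    ring

lemma sI01 (hg : g ≠ 0) : (S0 : Pol K →ₗ[K] Pol K) * F1 g = g • (F1 g * S0) := by
  apply ext_mon; intro a b
  rcases a with _ | a
  · simp
  · simp only [Module.End.mul_apply, LinearMap.smul_apply, F1_mon, S0_mon,
      map_smul, Nat.add_sub_cancel, if_neg (Nat.succ_ne_zero _), one_smul, smul_smul]
    congr 1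
    ring

lemma sI10 : (S1 : Pol K →ₗ[K] Pol K) * F0 g = F0 g * S1 := by
  apply ext_mon; intro a b
  rcases b with _ | b
  · simp
  · simp

lemma sI11 (hg : g ≠ 0) :
    (S1 : Pol K →ₗ[K] Pol K) * F1 g = 1 + g • (F1 g * S1) + (g - 1) • (F0 g * S0) := by
  have key : ∀ a : ℕ, (g - 1) * (g ^ a * qn g⁻¹ (a + 1)) = g ^ (a + 1) - 1 := fun a => by
    have h1 := sub_mul_qn g⁻¹ (a + 1)
    have h2 : (g - 1) = -(g * (g⁻¹ - 1)) := by rw [mul_sub, mul_inv_cancel₀ hg]; ring
    calc (g - 1) * (g ^ a * qn g⁻¹ (a + 1)) = -(g ^ (a + 1)) * ((g⁻¹ - 1) * qn g⁻¹ (a + 1)) := by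
          rw [h2, pow_succ]; ring
      _ = g ^ (a + 1) - 1 := by
          rw [h1, inv_pow, mul_sub, neg_mul, mul_inv_cancel₀ (pow_ne_zero _ hg)]; ring
  apply ext_mon; intro a b
  rcases a with _ | a
  · rcases b with _ | b
    · simp [qn_succ]
    · simp only [Module.End.mul_apply, LinearMap.add_apply, LinearMap.smul_apply, F1_mon, S0_mon,
        S1_mon, map_smul, Module.End.one_apply, Nat.add_sub_cancel, if_neg (Nat.succ_ne_zero _),
        if_true, zero_smul, one_smul, map_zero, smul_zero, add_zero, smul_smul, zero_add]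
      rw [pow_mul_qn hg, add_smul, one_smul]
      congr 2
      ring
  · rcases b with _ | b
    · simp only [Module.End.mul_apply, LinearMap.add_apply, LinearMap.smul_apply, F1_mon, F0_mon,
        S0_mon, S1_mon, map_smul, Module.End.one_apply, Nat.add_sub_cancel,
        if_neg (Nat.succ_ne_zero _), if_true, zero_smul, one_smul, map_zero, smul_zero, add_zero,
        smul_smul, zero_add, qn_succ, qn_zero, mul_zero, mul_one]
      have k := key a
      rw [qn_succ] at k
      rw [k, sub_smul, one_smul, add_sub_cancel]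
    · simp only [Module.End.mul_apply, LinearMap.add_apply, LinearMap.smul_apply, F1_mon, F0_mon,
        S0_mon, S1_mon, map_smul, Module.End.one_apply, Nat.add_sub_cancel,
        if_neg (Nat.succ_ne_zero _), one_smul, smul_smul]
      rw [key a, show mon K (a + 1) (b + 1) + (g * (g ^ (a + 1 + b) * qn g⁻¹ (b + 1))) •
          mon K (a + 1) (b + 1) + (g ^ (a + 1) - 1) • mon K (a + 1) (b + 1)
          = (1 + g * (g ^ (a + 1 + b) * qn g⁻¹ (b + 1)) + (g ^ (a + 1) - 1)) •
            mon K (a + 1) (b + 1) by rw [add_smul, add_smul, one_smul]]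
      congr 1
      rw [show a + 1 + (b + 1) = (a + 1) + (b + 1) from rfl, pow_add, mul_assoc, pow_mul_qn hg (b + 1)]
      ring

lemma sIdd : F1 g * F0 g = g • (F0 g * F1 g) := by
  apply ext_mon; intro a b
  simp only [Module.End.mul_apply, LinearMap.smul_apply, F0_mon, F1_mon, map_smul, smul_smul]
  congr 1
  ring

/-! ### degrees -/

/-- degree `m` part of the inverse polynomials (zero for `m > -2`) -/
def homI (K : Type) [Field K] (m : ℤ) : Submodule K (Pol K) := hom K (-m - 2)

instance homI_fd (m : ℤ) : FiniteDimensional K (homI K m) := hom_fd (-m - 2)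

lemma homI_big {m : ℤ} (hm : -2 < m) : homI K m = ⊥ := hom_neg (by omega)

lemma monI_mem {a b : ℕ} {m : ℤ} (h : -(a : ℤ) - b - 2 = m) : mon K a b ∈ homI K m :=
  mon_mem (by omega)

lemma homI_le {m : ℤ} {p : Submodule K (Pol K)} (H : ∀ a b : ℕ, -(a : ℤ) - b - 2 = m → mon K a b ∈ p) :
    homI K m ≤ p := hom_le fun a b hab => H a b (by omega)

lemma S0_homI {m : ℤ} {v : Pol K} (hv : v ∈ homI K m) : S0 v ∈ homI K (m + 1) := by
  have := S0_hom hv
  rwa [show -m - 2 - 1 = -(m + 1) - 2 by ring] at this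

lemma S1_homI {m : ℤ} {v : Pol K} (hv : v ∈ homI K m) : S1 v ∈ homI K (m + 1) := by
  have := S1_hom hv
  rwa [show -m - 2 - 1 = -(m + 1) - 2 by ring] at this

lemma X0_homI {m : ℤ} {v : Pol K} (hv : v ∈ homI K m) : X0 v ∈ homI K (m - 1) := by
  have := X0_hom hv
  rwa [show -m - 2 + 1 = -(m - 1) - 2 by ring] at this

lemma X1_homI {m : ℤ} {v : Pol K} (hv : v ∈ homI K m) : X1 v ∈ homI K (m - 1) := by
  have := X1_hom hv
  rwa [show -m - 2 + 1 = -(m - 1) - 2 by ring] at this

lemma F0_homI {m : ℤ} {v : Pol K} (hv : v ∈ homI K m) : F0 g v ∈ homI K (m - 1) := by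
  have : homI K m ≤ (homI K (m - 1)).comap (F0 g) := homI_le fun a b hab => by
    rw [Submodule.mem_comap, F0_mon]
    exact Submodule.smul_mem _ _ (monI_mem (by push_cast; omega))
  exact this hv

lemma F1_homI {m : ℤ} {v : Pol K} (hv : v ∈ homI K m) : F1 g v ∈ homI K (m - 1) := by
  have : homI K m ≤ (homI K (m - 1)).comap (F1 g) := homI_le fun a b hab => by
    rw [Submodule.mem_comap, F1_mon]
    exact Submodule.smul_mem _ _ (monI_mem (by push_cast; omega))
  exact this hv

/-- `t` acts on the degree `m = -n-2` part by `g^n` -/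
lemma tI_hom (hg : g ≠ 0) {n : ℕ} {v : Pol K} (hv : v ∈ hom K (n : ℤ)) :
    v + (g - 1) • (F0 g (S0 v) + F1 g (S1 v)) = g ^ n • v := by
  refine eq_on (f := 1 + (g - 1) • (F0 g * S0 + F1 g * S1)) (h := g ^ n • LinearMap.id)
    (fun a b hab => ?_) hv
  have hab' : a + b = n := by exact_mod_cast hab
  have key : ∀ a : ℕ, (g - 1) * (g ^ a * qn g⁻¹ (a + 1)) = g ^ (a + 1) - 1 := fun a => by
    have h1 := sub_mul_qn g⁻¹ (a + 1)
    have h2 : (g - 1) = -(g * (g⁻¹ - 1)) := by rw [mul_sub, mul_inv_cancel₀ hg]; ring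
    calc (g - 1) * (g ^ a * qn g⁻¹ (a + 1)) = -(g ^ (a + 1)) * ((g⁻¹ - 1) * qn g⁻¹ (a + 1)) := by
          rw [h2, pow_succ]; ring
      _ = g ^ (a + 1) - 1 := by
          rw [h1, inv_pow, mul_sub, neg_mul, mul_inv_cancel₀ (pow_ne_zero _ hg)]; ring
  have key1 : ∀ a b : ℕ, (g - 1) * (g ^ (a + b) * qn g⁻¹ (b + 1)) = g ^ a * (g ^ (b + 1) - 1) :=
    fun a b => by rw [← key b, pow_add]; ring
  subst hab'
  simp only [Module.End.mul_apply, LinearMap.add_apply, LinearMap.smul_apply,
    Module.End.one_apply, LinearMap.id_apply]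
  rcases a with _ | a
  · rcases b with _ | b
    · simp
    · simp only [S0_mon, S1_mon, F1_mon, if_true, zero_smul, map_zero, zero_add,
        if_neg (Nat.succ_ne_zero _), one_smul, Nat.add_sub_cancel, smul_smul]
      have k := key1 0 b
      rw [zero_add, pow_zero, one_mul] at k
      rw [k, sub_smul, one_smul, add_sub_cancel]
  · rcases b with _ | b
    · simp only [S0_mon, S1_mon, F0_mon, if_true, zero_smul, map_zero, add_zero,
        if_neg (Nat.succ_ne_zero _), one_smul, Nat.add_sub_cancel, smul_smul]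
      rw [key, sub_smul, one_smul, add_sub_cancel]
    · simp only [S0_mon, S1_mon, F0_mon, F1_mon,
        if_neg (Nat.succ_ne_zero _), one_smul, Nat.add_sub_cancel, smul_smul, smul_add]
      rw [key, key1 (a + 1) b, show mon K (a + 1) (b + 1) + ((g ^ (a + 1) - 1) • mon K (a + 1) (b + 1)
          + (g ^ (a + 1) * (g ^ (b + 1) - 1)) • mon K (a + 1) (b + 1))
          = (1 + ((g ^ (a + 1) - 1) + g ^ (a + 1) * (g ^ (b + 1) - 1))) • mon K (a + 1) (b + 1) by
        rw [add_smul, one_smul, add_smul]]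
      congr 1
      rw [show a + 1 + (b + 1) = (a + 1) + (b + 1) from rfl, pow_add]
      ring

/-! ### exactness facts -/

/-- left inverse of `F0` -/
noncomputable def P0 (g : K) : Pol K →ₗ[K] Pol K :=
  op (fun a _ => if a = 0 then 0 else (g ^ (a - 1) * qn g⁻¹ a)⁻¹) (fun a => a - 1) (fun b => b)
/-- left inverse of `F1` -/
noncomputable def P1 (g : K) : Pol K →ₗ[K] Pol K :=
  op (fun a b => if b = 0 then 0 else (g ^ (a + (b - 1)) * qn g⁻¹ b)⁻¹) (fun a => a) (fun b => b - 1)

lemma P0_mon_zero (b : ℕ) : P0 g (mon K 0 b) = 0 := by simp [P0]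
lemma P0_mon_succ (a b : ℕ) :
    P0 g (mon K (a + 1) b) = (g ^ a * qn g⁻¹ (a + 1))⁻¹ • mon K a b := by simp [P0]
lemma P1_mon_zero (a : ℕ) : P1 g (mon K a 0) = 0 := by simp [P1]
lemma P1_mon_succ (a b : ℕ) :
    P1 g (mon K a (b + 1)) = (g ^ (a + b) * qn g⁻¹ (b + 1))⁻¹ • mon K a b := by simp [P1]

lemma P0_homI {m : ℤ} {v : Pol K} (hv : v ∈ homI K m) : P0 g v ∈ homI K (m + 1) := by
  have : homI K m ≤ (homI K (m + 1)).comap (P0 g) := homI_le fun a b hab => by
    rw [Submodule.mem_comap]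
    rcases a with _ | a
    · rw [P0_mon_zero]; exact Submodule.zero_mem _
    · rw [P0_mon_succ]
      exact Submodule.smul_mem _ _ (monI_mem (by push_cast at hab; omega))
  exact this hv

lemma P1_homI {m : ℤ} {v : Pol K} (hv : v ∈ homI K m) : P1 g v ∈ homI K (m + 1) := by
  have : homI K m ≤ (homI K (m + 1)).comap (P1 g) := homI_le fun a b hab => by
    rw [Submodule.mem_comap]
    rcases b with _ | b
    · rw [P1_mon_zero]; exact Submodule.zero_mem _
    · rw [P1_mon_succ]
      exact Submodule.smul_mem _ _ (monI_mem (by push_cast at hab; omega))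
  exact this hv

lemma cf0_ne (hg : g ≠ 0) (hgn : ∀ n : ℕ, 0 < n → g ^ n ≠ 1) (a b : ℕ) :
    g ^ a * qn g⁻¹ (b + 1) ≠ 0 :=
  mul_ne_zero (pow_ne_zero _ hg) (qn_inv_ne hg hgn (b + 1) (Nat.succ_pos b))

lemma P0_F0 (hg : g ≠ 0) (hgn : ∀ n : ℕ, 0 < n → g ^ n ≠ 1) (v : Pol K) : P0 g (F0 g v) = v := by
  have : (P0 g * F0 g : Pol K →ₗ[K] Pol K) = 1 := by
    apply ext_mon; intro a b
    simp only [Module.End.mul_apply, F0_mon, map_smul, P0_mon_succ, smul_smul, Module.End.one_apply]
    rw [mul_inv_cancel₀ (cf0_ne hg hgn a a), one_smul]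
  simpa using congrArg (fun F : Pol K →ₗ[K] Pol K => F v) this

lemma P1_F1 (hg : g ≠ 0) (hgn : ∀ n : ℕ, 0 < n → g ^ n ≠ 1) (v : Pol K) : P1 g (F1 g v) = v := by
  have : (P1 g * F1 g : Pol K →ₗ[K] Pol K) = 1 := by
    apply ext_mon; intro a b
    simp only [Module.End.mul_apply, F1_mon, map_smul, P1_mon_succ, smul_smul, Module.End.one_apply]
    rw [mul_inv_cancel₀ (cf0_ne hg hgn (a + b) b), one_smul]
  simpa using congrArg (fun F : Pol K →ₗ[K] Pol K => F v) this

lemma F0_inj (hg : g ≠ 0) (hgn : ∀ n : ℕ, 0 < n → g ^ n ≠ 1) {v : Pol K} (h : F0 g v = 0) : v = 0 := by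
  rw [← P0_F0 hg hgn v, h, map_zero]

lemma F1_inj (hg : g ≠ 0) (hgn : ∀ n : ℕ, 0 < n → g ^ n ≠ 1) {v : Pol K} (h : F1 g v = 0) : v = 0 := by
  rw [← P1_F1 hg hgn v, h, map_zero]

lemma FI_curl_grad (v : Pol K) : F1 g (F0 g v) = g • F0 g (F1 g v) := by
  simpa using congrArg (fun F : Pol K →ₗ[K] Pol K => F v) (sIdd (K := K) (g := g))

/-- kernel of curl = image of gradient -/
lemma FI_curl_exact (hg : g ≠ 0) (hgn : ∀ n : ℕ, 0 < n → g ^ n ≠ 1) {m : ℤ} {w0 w1 : Pol K}
    (h0 : w0 ∈ homI K m) (h : F1 g w0 = g • F0 g w1) :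
    ∃ v ∈ homI K (m + 1), F0 g v = w0 ∧ F1 g v = w1 := by
  have c : ∀ v : Pol K, F0 g (P0 g (F1 g v)) = F1 g (F0 g (P0 g v)) := fun v => by
    have : (F0 g * P0 g * F1 g : Pol K →ₗ[K] Pol K) = F1 g * F0 g * P0 g := by
      apply ext_mon; intro a b
      rcases a with _ | a
      · simp only [Module.End.mul_apply, F1_mon, map_smul, P0_mon_zero, map_zero, smul_zero]
      · simp only [Module.End.mul_apply, F1_mon, F0_mon, map_smul, P0_mon_succ, smul_smul]
        congr 1
        have h1 := cf0_ne hg hgn a a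
        rw [inv_mul_cancel₀ h1, mul_one, inv_mul_cancel_left₀ h1]
    simpa using congrArg (fun F : Pol K →ₗ[K] Pol K => F v) this
  have hw0 : F0 g (P0 g w0) = w0 := by
    have h1 : F1 g (F0 g (P0 g w0) - w0) = 0 := by
      rw [map_sub, ← c, h, map_smul, P0_F0 hg hgn, map_smul, sub_self]
    exact sub_eq_zero.1 (F1_inj hg hgn h1)
  refine ⟨P0 g w0, P0_homI h0, hw0, ?_⟩
  have h2 : F0 g (F1 g (P0 g w0) - w1) = 0 := by
    have h3 : g • F0 g (F1 g (P0 g w0)) = g • F0 g w1 := by rw [← FI_curl_grad, hw0, h]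
    rw [map_sub, sub_eq_zero]
    exact smul_right_injective _ hg h3
  exact sub_eq_zero.1 (F0_inj hg hgn h2)

/-- curl is onto in degrees `≤ -3` -/
lemma FI_curl_surj (hg : g ≠ 0) (hgn : ∀ n : ℕ, 0 < n → g ^ n ≠ 1) {m : ℤ} (hm : m ≤ -2) {s : Pol K}
    (hs : s ∈ homI K (m - 1)) : ∃ w0 ∈ homI K m, ∃ w1 ∈ homI K m, F1 g w0 + F0 g w1 = s := by
  refine ⟨P1 g (s - F0 g (P0 g s)), ?_, P0 g s, ?_, ?_⟩
  · have h1 : s - F0 g (P0 g s) ∈ homI K (m - 1) := by
      refine Submodule.sub_mem _ hs ?_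
      have := F0_homI (g := g) (P0_homI (g := g) hs)
      rwa [add_sub_cancel_right] at this
    have := P1_homI (g := g) h1
    rwa [sub_add_cancel] at this
  · have := P0_homI (g := g) hs
    rwa [sub_add_cancel] at this
  · refine eq_on (f := F1 g * P1 g * (1 - F0 g * P0 g) + F0 g * P0 g) (h := LinearMap.id)
      (fun a b hab => ?_) hs
    simp only [Module.End.mul_apply, LinearMap.add_apply, LinearMap.sub_apply, Module.End.one_apply,
      LinearMap.id_apply]
    rcases a with _ | a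
    · rcases b with _ | b
      · exfalso; push_cast at hab; omega
      · rw [P0_mon_zero, map_zero, sub_zero, add_zero, P1_mon_succ, map_smul, F1_mon, smul_smul,
          inv_mul_cancel₀ (cf0_ne hg hgn _ b), one_smul]
    · rw [P0_mon_succ, map_smul, F0_mon, smul_smul, inv_mul_cancel₀ (cf0_ne hg hgn a a), one_smul,
        sub_self, map_zero, map_zero, zero_add]

/-- `x_0 s = x_1 s = 0` implies `s = 0` in degrees `≤ -3` -/
lemma SI_inj {m : ℤ} (hm : m ≤ -2) {s : Pol K} (hs : s ∈ homI K (m - 1)) (h0 : S0 s = 0)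
    (h1 : S1 s = 0) : s = 0 := by
  have key : X0 (S0 s) + X1 (S1 (s - X0 (S0 s))) = s := by
    refine eq_on (f := X0 * S0 + X1 * S1 * (1 - X0 * S0)) (h := LinearMap.id) (fun a b hab => ?_) hs
    rcases a with _ | a
    · rcases b with _ | b
      · exfalso; push_cast at hab; omega
      · simp
    · simp
  rw [h0, map_zero, sub_zero, h1, map_zero, add_zero] at key
  exact key.symm

lemma SI_comm (v : Pol K) : S0 (S1 v) = S1 (S0 v) := by
  simpa using congrArg (fun F : Pol K →ₗ[K] Pol K => F v) (relI_x (K := K))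

/-- Koszul exactness in the middle -/
lemma SI_koszul_mid {m : ℤ} {w0 w1 : Pol K} (h0 : w0 ∈ homI K m) (h1 : w1 ∈ homI K m)
    (h : S0 w1 = S1 w0) : ∃ s ∈ homI K (m - 1), w0 = S0 s ∧ w1 = S1 s := by
  have c0 : ∀ v : Pol K, S0 (X1 v) = X1 (S0 v) := fun v => by
    have : (S0 * X1 : Pol K →ₗ[K] Pol K) = X1 * S0 := by
      apply ext_mon; intro a b
      rcases a with _ | a <;> simp
    simpa using congrArg (fun F : Pol K →ₗ[K] Pol K => F v) this
  have c1 : ∀ v : Pol K, S1 (X0 v) = X0 (S1 v) := fun v => by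
    have : (S1 * X0 : Pol K →ₗ[K] Pol K) = X0 * S1 := by
      apply ext_mon; intro a b
      rcases b with _ | b <;> simp
    simpa using congrArg (fun F : Pol K →ₗ[K] Pol K => F v) this
  refine ⟨X0 w0 + X1 (w1 - X0 (S0 w1)), ?_, ?_, ?_⟩
  · refine Submodule.add_mem _ (X0_homI h0) (X1_homI (Submodule.sub_mem _ h1 ?_))
    have := X0_homI (S0_homI h1)
    rwa [add_sub_cancel_right] at this
  · rw [map_add, S0_X0, c0, map_sub, S0_X0, sub_self, map_zero, add_zero]
  · rw [map_add, c1, S1_X1, ← h]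
    abel

/-- `x_0` is onto -/
lemma SI_surj {m : ℤ} {v : Pol K} (hv : v ∈ homI K (m + 1)) : ∃ w ∈ homI K m, S0 w = v := by
  refine ⟨X0 v, ?_, S0_X0 v⟩
  have := X0_homI hv
  rwa [add_sub_cancel_right] at this

end ops

/-! ## the representation -/

/-- operators of the letters -/
noncomputable def opI (g : K) : Gen → Module.End K (Pol K)
  | .x i => if i = 0 then S0 else S1
  | .h => 1
  | .d j => if j = 0 then F0 g else F1 g
  | _ => 0

/-- lift to the free algebra -/
noncomputable def repIF (g : K) : F K →ₐ[K] Module.End K (Pol K) := FreeAlgebra.lift K (opI g)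

@[simp] lemma repIF_L (g : K) (a : Gen) : repIF g (L K a) = opI g a := by
  simp [repIF, L]

lemma repIF_rel {a b : F K} (h : Rel π a b) : repIF π.g a = repIF π.g b := by
  induction h with
  | xx => simp only [map_mul, repIF_L, opI]; exact relI_x
  | hc a => simp only [map_mul, repIF_L]; simp [opI]
  | x0d0 => simp only [map_mul, map_add, map_smul, repIF_L]; simpa [opI] using sI00 π.g0
  | x0d1 => simp only [map_mul, map_add, map_smul, repIF_L]; simpa [opI] using sI01 π.g0
  | x1d0 => simp only [map_mul, map_add, map_smul, repIF_L]; simpa [opI] using sI10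
  | x1d1 => simp only [map_mul, map_add, map_smul, repIF_L]; simpa [opI] using sI11 π.g0
  | _ => simp only [map_mul, map_add, map_smul, repIF_L, map_zero]; simp [opI]

/-- the representation of `R''` on the inverse polynomials -/
noncomputable def repI : R π →ₐ[K] Module.End K (Pol K) :=
  RingQuot.liftAlgHom K ⟨repIF π.g, fun _ _ h => repIF_rel π h⟩

@[simp] lemma repI_mk (a : F K) : repI π (mk π a) = repIF π.g a := by
  simp [repI, mk]

@[simp] lemma repI_X (a : Gen) : repI π (X π a) = opI π.g a := by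
  rw [X, repI_mk, repIF_L]

lemma repI_x0 : repI π (X π (.x 0)) = S0 := by simp [opI]
lemma repI_x1 : repI π (X π (.x 1)) = S1 := by simp [opI]
lemma repI_h : repI π (X π .h) = 1 := by simp [opI]
lemma repI_d0 : repI π (X π (.d 0)) = F0 π.g := by simp [opI]
lemma repI_d1 : repI π (X π (.d 1)) = F1 π.g := by simp [opI]

lemma opI_isZ (g : K) {a : Gen} (ha : isZ a = true) : opI g a = 0 := by
  cases a <;> first | rfl | simp [isZ] at ha

lemma repI_isZ {a : Gen} (ha : isZ a = true) : repI π (X π a) = 0 := by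
  rw [repI_X, opI_isZ _ ha]

lemma repI_rF : repIF π.g (rF π) = 0 := by
  have h := sIdd (K := K) (g := π.g)
  have h2 : (2 : K) = 0 := π.two
  simp only [rF, map_add, map_mul, map_smul, repIF_L]
  simp only [opI, if_true, if_neg (show ¬ ((1 : Fin 2) = 0) by decide)]
  rw [h, ← two_smul K, h2, zero_smul]

/-- the differential of a letter acts by zero -/
lemma repIF_dGen (a : Gen) : repIF π.g (dGen π a) = 0 := by
  cases a with
  | z j => simp only [dGen, map_mul, repI_rF, mul_zero]
  | zc => simp only [dGen, map_mul, map_add, map_smul, repIF_L]; simp [opI]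
  | e j => simp only [dGen, map_mul, map_add, map_smul, repIF_L]; simp [opI]
  | gj j => simp only [dGen, rhoF, map_mul, map_add, map_smul, repIF_L]; simp [opI]
  | gc => simp only [dGen, map_mul, map_add, map_smul, repIF_L]; simp [opI]
  | u s => simp only [dGen, map_mul, repIF_L]; simp [opI]
  | v s => simp only [dGen, map_mul, map_add, map_smul, repIF_L]; simp [opI]
  | _ => simp [dGen]

/-- the inverse polynomials are a dg module with zero differential: `D r` acts by zero -/
lemma repI_D {D : R π →ₗ[K] R π} (hD : IsDiff π D) (r : R π) : repI π (D r) = 0 := by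
  have hone : D 1 = 0 := by
    have := hD.leib 1 1
    rw [one_mul, mul_one, one_mul] at this
    simpa using this
  obtain ⟨a, rfl⟩ := RingQuot.mkAlgHom_surjective K (Rel π) r
  induction a using FreeAlgebra.induction with
  | grade0 c =>
    rw [AlgHom.commutes, Algebra.algebraMap_eq_smul_one, map_smul, hone, smul_zero, map_zero]
  | grade1 a =>
    have := hD.gen a
    rw [X, mk, L] at this
    rw [this]
    have e := repI_mk π (dGen π a)
    rw [mk] at e
    rw [e, repIF_dGen]
  | mul a b ha hb =>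
    rw [map_mul, hD.leib, map_add, map_mul, map_mul, ha, hb, zero_mul, mul_zero, add_zero]
  | add a b ha hb =>
    rw [map_add, map_add, map_add, ha, hb, add_zero]

/-! ## degrees -/

lemma opI_hom (g : K) (a : Gen) {m : ℤ} {v : Pol K} (hv : v ∈ homI K m) :
    opI g a v ∈ homI K (m + a.dP) := by
  cases a with
  | x i =>
    show (if i = 0 then S0 else S1 : Module.End K (Pol K)) v ∈ homI K (m + 1)
    split_ifs
    · exact S0_homI hv
    · exact S1_homI hv
  | h => show v ∈ homI K (m + 0); rwa [add_zero]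
  | d j =>
    show (if j = 0 then F0 g else F1 g : Module.End K (Pol K)) v ∈ homI K (m + -1)
    split_ifs
    · exact F0_homI hv
    · exact F1_homI hv
  | _ => exact Submodule.zero_mem _

lemma repI_wd (w : List Gen) {m : ℤ} {v : Pol K} (hv : v ∈ homI K m) :
    repI π (wd π w) v ∈ homI K (m + wP w) := by
  induction w with
  | nil => simpa [wd, wP] using hv
  | cons a w ih =>
    have e1 : wd π (a :: w) = X π a * wd π w := by simp [wd]
    have e2 : wP (a :: w) = a.dP + wP w := by simp [wP]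
    rw [e1, map_mul, Module.End.mul_apply, repI_X, e2, show m + (a.dP + wP w) = (m + wP w) + a.dP by ring]
    exact opI_hom _ a ih

/-- `R''_(P,A)` maps degree `m` to degree `m + P` -/
lemma repI_pcB {P : ℤ} {A : ℕ} {r : R π} (hr : r ∈ pcB π P A) {m : ℤ} {v : Pol K} (hv : v ∈ homI K m) :
    repI π r v ∈ homI K (m + P) := by
  have : pcB π P A ≤ (homI K (m + P)).comap
      ((LinearMap.applyₗ (R := K) (M₂ := Pol K) v).comp (repI π).toLinearMap) := by
    rw [pcB, Submodule.span_le]
    rintro r ⟨w, hP, _, rfl⟩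
    rw [← hP]
    exact repI_wd π w hv
  exact this hr

/-- `V_n (i, b)`, `n ≤ -2` (placed in cohomological degree `1`) -/
abbrev VVI (K : Type) [Field K] (n : ℤ) (o : Ob) : Submodule K (Pol K) := homI K (n + (o.1.val : ℤ))

lemma repI_ent {n : ℤ} {o o' : Ob} {r : R π} (hr : r ∈ ent π o' o) {v : Pol K} (hv : v ∈ VVI K n o) :
    repI π r v ∈ VVI K n o' := by
  unfold ent at hr
  split_ifs at hr with h
  · have := repI_pcB π hr hv
    have e : n + (o.1.val : ℤ) + difP o o' = n + (o'.1.val : ℤ) := by unfold difP; ring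
    rwa [e] at this
  · have : r = 0 := by simpa using hr
    rw [this, map_zero]
    exact Submodule.zero_mem _

/-- action of an entry as a linear map `V_n(o) → V_n(o')` -/
noncomputable def actI (n : ℤ) (o' o : Ob) : ent π o' o →ₗ[K] VVI K n o →ₗ[K] VVI K n o' where
  toFun r := ((repI π r.1).restrict (fun v hv => repI_ent π r.2 hv))
  map_add' r s := by ext v; simp
  map_smul' c r := by ext v; simp

@[simp] lemma actI_coe (n : ℤ) (o' o : Ob) (r : ent π o' o) (v : VVI K n o) :
    (actI π n o' o r v : Pol K) = repI π r.1 v.1 := rfl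

/-- `t` acts on the degree `-n-2` part by `g^n` -/
lemma repI_t {n : ℕ} {v : Pol K} (hv : v ∈ hom K (n : ℤ)) :
    repI π (mk π (tF π)) v = π.g ^ n • v := by
  have := tI_hom π.g0 hv
  rw [repI_mk, tF]
  simp only [map_add, map_mul, map_smul, repIF_L]
  simpa [opI] using this

end Crest.Agent.R186.Inv439
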