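import Crest.Agent.R186.HB_362
import Crest.Agent.R186.TR_810

/-!
Row 186 (A) (helper322), joint (TR) → (H): 810's output `AcQ (Yc θ p a X) ⊤ (TF X J)` gives the
quasi-isomorphisms `LU (E.p θ) : U E X p a → U E X p (a + 1)` of 362's row complexes.
-/

set_option autoImplicit false
set_option linter.style.haveILetI false
set_option linter.unusedSectionVars false
set_option linter.unusedSimpArgs false
set_option linter.unusedVariables false

open MulOpposite

namespace Crest.Agent.R186.JTR322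

open Hat827 Hat827.DGA Frame515 Win810 KHev302 HB362 TR810

variable {K : Type} [Field K] {w : WD K} (E : CE w) (X : LCells w.dga)

theorem th_pb (θ : Th w) (p a : ℤ) : E.p θ.t ∈ E.pb (p - p) (a + 1 - a) 0 := by
  have h := E.p_mem θ.mem
  rw [sub_self, add_sub_cancel_left]
  exact h

theorem LU_of_zero {p a p' a' : ℤ} {b : E.B} (h : b = 0) (hb : b ∈ E.EB (p' - p) (a' - a))
    (u : X.ι →₀ Row E p a) : LU E b hb u = 0 := by
  ext σ : 1
  refine row_ext fun j => ?_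
  rw [LU_apply, lm_apply, h, zero_mul]
  rfl

/-- left multiplication by a degree-zero cycle as a morphism of complexes -/
noncomputable def LUh {p a p' a' : ℤ} (b : E.B) (hb : b ∈ E.pb (p' - p) (a' - a) 0)
    (hd : E.DB b = 0) : GCHom (U E X p a) (U E X p' a') where
  f := LU E b (CE.pb_le _ _ _ hb)
  f_mem {k x} hx := by
    have := LU_mem (CE.pb_le _ _ _ hb) hb hx
    rwa [add_zero] at this
  f_d x := by
    have h := LU_d (E := E) (X := X) b (CE.pb_le _ _ _ hb) x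
    have h2 := LU_of_zero E X hd (CE.EB_D (CE.pb_le _ _ _ hb)) x
    exact (h.trans ((congrArg (· + _) h2).trans (zero_add _))).symm

variable {E X}

/-- the projection of a finite family of rows -/
noncomputable def toU {p a : ℤ} (S : Finset X.ι) (y : X.ι → w.Ob → w.S)
    (hy : ∀ σ j, E.p (y σ j) ∈ E.EB (p - w.P j) (a - w.A j)) (hS : ∀ σ, σ ∉ S → y σ = 0) :
    X.ι →₀ Row E p a :=
  Finsupp.onFinset S (fun σ => ⟨fun j => E.p (y σ j), hy σ⟩) fun σ hσ => by
    by_contra hc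
    apply hσ
    refine row_ext fun j => ?_
    change E.p (y σ j) = 0
    rw [hS σ hc]
    exact map_zero _

theorem toU_apply {p a : ℤ} (S : Finset X.ι) (y : X.ι → w.Ob → w.S)
    (hy : ∀ σ j, E.p (y σ j) ∈ E.EB (p - w.P j) (a - w.A j)) (hS : ∀ σ, σ ∉ S → y σ = 0)
    (σ : X.ι) (j : w.Ob) : (toU S y hy hS σ).1 j = E.p (y σ j) := rfl

theorem dU_toU {p a : ℤ} (S : Finset X.ι) (y : X.ι → w.Ob → w.S)
    (hy : ∀ σ j, E.p (y σ j) ∈ E.EB (p - w.P j) (a - w.A j)) (hS : ∀ σ, σ ∉ S → y σ = 0)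
    (τ : X.ι) (j : w.Ob) : (dU E p a (toU S y hy hS) τ).1 j =
      E.p (w.D (y τ j) + ∑ σ ∈ S, ∑ l, y σ l * (X.c σ τ : w.Win).1 l j) := by
  rw [dU_apply' E (toU S y hy hS) S Finsupp.support_onFinset_subset]
  have h : ∀ f : X.ι → Row E p a, (∑ σ ∈ S, f σ).1 j = ∑ σ ∈ S, (f σ).1 j := by
    intro f
    rw [AddSubmonoidClass.coe_finsetSum, Finset.sum_apply]
  change (rowD E p a (toU S y hy hS τ)).1 j + (∑ σ ∈ S, rowR E p a (X.c σ τ) (toU S y hy hS σ)).1 j = _
  rw [h, rowD_apply, toU_apply, map_add, E.p_D, map_sum]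
  congr 1
  refine Finset.sum_congr rfl fun σ _ => ?_
  refine (rowR_apply (E := E) (X.c σ τ) (toU S y hy hS σ) j).trans ?_
  rw [map_sum]
  exact Finset.sum_congr rfl fun l _ => by rw [map_mul, toU_apply]

theorem Yc_d (θ : Th w) {p a : ℤ} (x : X.ι →₀ CR w) (S : Finset X.ι) (hS : x.support ⊆ S)
    (τ : X.ι) (β : Bool) (j : w.Ob) :
    (show X.ι →₀ CR w from (Yc θ p a X).d x) τ β j =
      w.D (x τ β j) + tb θ.t β * x τ false j +
        ∑ σ ∈ S, ∑ l, x σ β l * (X.c σ τ : w.Win).1 l j := by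
  have h := (twG (CRM θ p a) X).dd_apply' x S hS τ
  have h2 : (show X.ι →₀ CR w from (Yc θ p a X).d x) τ =
      dC θ (x τ) + ∑ σ ∈ S, (op (X.c σ τ) • x σ : CR w) := h
  rw [h2, CR.add_apply, dC_apply, CR.sum_apply]
  rfl

theorem Yc_gr {θ : Th w} {p a k : ℤ} {x : X.ι →₀ CR w} :
    x ∈ (Yc θ p a X).gr k ↔ ∀ σ, x σ ∈ grC w p a (k - X.s σ) ∧ op (X.e σ) • x σ = x σ := Iff.rfl

/-- lifting a homogeneous family through `E.p` -/
theorem lift {p a k : ℤ}
    (hsur : ∀ {P A C : ℤ} {b : E.B}, b ∈ E.pb P A C → ∃ s ∈ w.pc P A C, E.p s = b)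
    {y : X.ι →₀ Row E p a} (hy : y ∈ (U E X p a).gr k) :
    ∃ v : X.ι → w.Ob → w.S, (∀ σ j, v σ j ∈ w.pc (p - w.P j) (a - w.A j) (k - X.s σ)) ∧
      (∀ σ j, ∑ l, v σ l * (X.e σ : w.Win).1 l j = v σ j) ∧
      (∀ σ j, E.p (v σ j) = (y σ).1 j) ∧ (∀ σ, σ ∉ y.support → v σ = 0) := by
  classical
  have h : ∀ σ j, ∃ s ∈ w.pc (p - w.P j) (a - w.A j) (k - X.s σ), E.p s = (y σ).1 j ∧
      (σ ∉ y.support → s = 0) := by
    intro σ j
    by_cases hσ : σ ∈ y.support
    · obtain ⟨s, hs, e⟩ := hsur (((U_mem E).1 hy σ).1 j)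
      exact ⟨s, hs, e, fun h => absurd hσ h⟩
    · refine ⟨0, Submodule.zero_mem _, ?_, fun _ => rfl⟩
      rw [Finsupp.notMem_support_iff.1 hσ, map_zero]
      rfl
  choose u hu eu hu0 using h
  refine ⟨fun σ j => ∑ l, u σ l * (X.e σ : w.Win).1 l j, fun σ j => ?_, fun σ j => ?_,
    fun σ j => ?_, fun σ hσ => ?_⟩
  · refine Submodule.sum_mem _ fun l _ => ?_
    exact pc_cast (w.mul_mem (hu σ l) (X.e_mem σ l j)) (by ring) (by ring) (by ring)
  · have h1 := congrArg (fun m : w.Win => m.1) (X.e_idem σ)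
    have h2 : ∀ l, ((X.e σ : w.Win).1 * (X.e σ : w.Win).1) l j = (X.e σ : w.Win).1 l j :=
      fun l => congrFun (congrFun h1 l) j
    simp only [Finset.sum_mul]
    rw [Finset.sum_comm]
    refine Finset.sum_congr rfl fun l _ => ?_
    rw [← h2 l, Matrix.mul_apply, Finset.mul_sum]
    exact Finset.sum_congr rfl fun i _ => mul_assoc _ _ _
  · have h1 := congrArg (fun f : Row E p a => f.1 j) ((U_mem E).1 hy σ).2
    have h2 := (rowR_apply (E := E) (X.e σ) (y σ) j).symm.trans h1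
    refine Eq.trans ?_ h2
    rw [map_sum]
    exact Finset.sum_congr rfl fun l _ => by rw [map_mul, eu]
  · funext j
    exact Finset.sum_eq_zero fun l _ => by rw [hu0 σ l hσ, zero_mul]

/-- equality in a row complex, entrywise -/
theorem U_ext {p a : ℤ} {x y : X.ι →₀ Row E p a} (h : ∀ σ j, (x σ).1 j = (y σ).1 j) : x = y := by
  ext σ : 1
  exact row_ext (h σ)

/-- homogeneous elements of the cone have components in the rows -/
theorem gr_F {θ : Th w} {p a k : ℤ} {x : X.ι →₀ CR w} (hx : x ∈ (Yc θ p a X).gr k) (σ : X.ι)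
    (j : w.Ob) : x σ false j ∈ w.pc (p - w.P j) (a - w.A j) (k - 1 - X.s σ) :=
  pc_cast ((Yc_gr.1 hx σ).1 false j) rfl (by simp only [ab]; ring) (by simp only [cb]; ring)

theorem gr_T {θ : Th w} {p a k : ℤ} {x : X.ι →₀ CR w} (hx : x ∈ (Yc θ p a X).gr k) (σ : X.ι)
    (j : w.Ob) : x σ true j ∈ w.pc (p - w.P j) (a + 1 - w.A j) (k - X.s σ) :=
  pc_cast ((Yc_gr.1 hx σ).1 true j) rfl (by simp only [ab]) (by simp only [cb]; ring)

theorem supp0 {x : X.ι →₀ CR w} (β : Bool) (σ : X.ι) (h : σ ∉ x.support) :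
    (fun j => x σ β j) = (0 : w.Ob → w.S) := by
  rw [Finsupp.notMem_support_iff] at h
  funext j
  rw [h]
  rfl

/-- the component in the row `(p, a)` -/
noncomputable def FF {θ : Th w} {p a k : ℤ} {x : X.ι →₀ CR w} (hx : x ∈ (Yc θ p a X).gr k) :
    X.ι →₀ Row E p a :=
  toU x.support (fun σ j => x σ false j) (fun σ j => CE.pb_le _ _ _ (E.p_mem (gr_F hx σ j)))
    fun σ h => supp0 false σ h

/-- the component in the row `(p, a + 1)` -/
noncomputable def TT {θ : Th w} {p a k : ℤ} {x : X.ι →₀ CR w} (hx : x ∈ (Yc θ p a X).gr k) :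
    X.ι →₀ Row E p (a + 1) :=
  toU x.support (fun σ j => x σ true j) (fun σ j => CE.pb_le _ _ _ (E.p_mem (gr_T hx σ j)))
    fun σ h => supp0 true σ h

theorem FF_apply {θ : Th w} {p a k : ℤ} {x : X.ι →₀ CR w} (hx : x ∈ (Yc θ p a X).gr k) (σ : X.ι)
    (j : w.Ob) : (FF (E := E) hx σ).1 j = E.p (x σ false j) := rfl

theorem TT_apply {θ : Th w} {p a k : ℤ} {x : X.ι →₀ CR w} (hx : x ∈ (Yc θ p a X).gr k) (σ : X.ι)
    (j : w.Ob) : (TT (E := E) hx σ).1 j = E.p (x σ true j) := rfl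

theorem idem_apply {θ : Th w} {p a k : ℤ} {x : X.ι →₀ CR w} (hx : x ∈ (Yc θ p a X).gr k)
    (σ : X.ι) (β : Bool) (j : w.Ob) : ∑ l, x σ β l * (X.e σ : w.Win).1 l j = x σ β j :=
  congrFun (congrFun (Yc_gr.1 hx σ).2 β) j

theorem FF_mem {θ : Th w} {p a k : ℤ} {x : X.ι →₀ CR w} (hx : x ∈ (Yc θ p a X).gr k) :
    FF (E := E) hx ∈ (U E X p a).gr (k - 1) := by
  refine (U_mem E).2 fun σ => ⟨fun j => E.p_mem (gr_F hx σ j), row_ext fun j => ?_⟩
  refine (rowR_apply (E := E) (X.e σ) (FF hx σ) j).trans ?_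
  rw [FF_apply, ← idem_apply hx σ false j, map_sum]
  exact Finset.sum_congr rfl fun l _ => by rw [map_mul, FF_apply]

theorem TT_mem {θ : Th w} {p a k : ℤ} {x : X.ι →₀ CR w} (hx : x ∈ (Yc θ p a X).gr k) :
    TT (E := E) hx ∈ (U E X p (a + 1)).gr k := by
  refine (U_mem E).2 fun σ => ⟨fun j => E.p_mem (gr_T hx σ j), row_ext fun j => ?_⟩
  refine (rowR_apply (E := E) (X.e σ) (TT hx σ) j).trans ?_
  rw [TT_apply, ← idem_apply hx σ true j, map_sum]
  exact Finset.sum_congr rfl fun l _ => by rw [map_mul, TT_apply]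

theorem FF_d {θ : Th w} {p a k : ℤ} {x : X.ι →₀ CR w} (hx : x ∈ (Yc θ p a X).gr k) (τ : X.ι)
    (j : w.Ob) : E.p ((show X.ι →₀ CR w from (Yc θ p a X).d x) τ false j) =
      (dU E p a (FF hx) τ).1 j := by
  refine (congrArg E.p (Yc_d θ x x.support (Finset.Subset.refl _) τ false j)).trans ?_
  rw [FF, dU_toU]
  congr 1
  congr 1
  change w.D _ + 0 * x τ false j = _
  rw [zero_mul, add_zero]

theorem TT_d {θ : Th w} {p a k : ℤ} {x : X.ι →₀ CR w} (hx : x ∈ (Yc θ p a X).gr k) (τ : X.ι)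
    (j : w.Ob) : E.p ((show X.ι →₀ CR w from (Yc θ p a X).d x) τ true j) =
      (dU E p (a + 1) (TT hx) τ).1 j + E.p θ.t * (FF (E := E) hx τ).1 j := by
  refine (congrArg E.p (Yc_d θ x x.support (Finset.Subset.refl _) τ true j)).trans ?_
  rw [TT, dU_toU, FF_apply, ← map_mul, ← map_add]
  congr 1
  change w.D _ + θ.t * x τ false j + _ = _
  abel

/-- building elements of the cone -/
theorem mkx {θ : Th w} {p a k : ℤ}
    (hsur : ∀ {P A C : ℤ} {b : E.B}, b ∈ E.pb P A C → ∃ s ∈ w.pc P A C, E.p s = b)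
    {x : X.ι →₀ Row E p a} {z : X.ι →₀ Row E p (a + 1)} (hx : x ∈ (U E X p a).gr (k - 1))
    (hz : z ∈ (U E X p (a + 1)).gr k) : ∃ (v : X.ι →₀ CR w) (hv : v ∈ (Yc θ p a X).gr k),
      FF hv = x ∧ TT hv = z := by
  classical
  obtain ⟨f, hf, hef, epf, hf0⟩ := lift hsur hx
  obtain ⟨t, ht, het, ept, ht0⟩ := lift hsur hz
  let v : X.ι →₀ CR w := Finsupp.onFinset (x.support ∪ z.support)
    (fun σ β j => match β with
      | true => t σ j
      | false => f σ j)
    (fun σ hσ => by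
      by_contra hc
      rw [Finset.mem_union, not_or] at hc
      apply hσ
      ext β j
      cases β
      · change f σ j = 0
        rw [hf0 σ hc.1]
        rfl
      · change t σ j = 0
        rw [ht0 σ hc.2]
        rfl)
  have hv : v ∈ (Yc θ p a X).gr k := by
    rw [Yc_gr]
    intro σ
    constructor
    · rw [mem_grC]
      intro β j
      cases β
      · exact pc_cast (hf σ j) rfl (by simp only [ab]; ring) (by simp only [cb]; ring)
      · exact pc_cast (ht σ j) rfl (by simp only [ab]) (by simp only [cb]; ring)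
    · ext β j
      rw [CR.act_apply]
      cases β
      · exact hef σ j
      · exact het σ j
  exact ⟨v, hv, U_ext fun σ j => epf σ j, U_ext fun σ j => ept σ j⟩

/-- the use of `AcQ` -/
theorem use {J : Submodule K w.S} (hJ : ∀ s, s ∈ J ↔ E.p s = 0) {θ : Th w} {p a n : ℤ}
    (H : AcQ (Yc θ p a X) ⊤ (TF X J) n) {x : X.ι →₀ CR w} (hx : x ∈ (Yc θ p a X).gr n)
    (h1 : dU E p a (FF hx) = 0)
    (h2 : ∀ τ j, (dU E p (a + 1) (TT hx) τ).1 j + E.p θ.t * (FF (E := E) hx τ).1 j = 0) :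
    ∃ (u : X.ι →₀ Row E p a) (v : X.ι →₀ Row E p (a + 1)), u ∈ (U E X p a).gr n ∧
      v ∈ (U E X p (a + 1)).gr (n + 1) ∧
      FF hx = dU E p a u ∧ ∀ τ j, (TT (E := E) hx τ).1 j =
        (dU E p (a + 1) v τ).1 j + E.p θ.t * (u τ).1 j := by
  obtain ⟨y, hy, _, hxy⟩ := H x hx Submodule.mem_top (by
    refine (mem_TF (X := X)).2 fun τ β j => (hJ _).2 ?_
    cases β
    · rw [FF_d hx, h1]
      rfl
    · rw [TT_d hx]
      exact h2 τ j)
  have hxy' : ∀ σ β j, E.p (x σ β j - (show X.ι →₀ CR w from (Yc θ p a X).d y) σ β j) = 0 :=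
    fun σ β j => (hJ _).1 ((mem_TF (X := X)).1 hxy σ β j)
  refine ⟨FF hy, TT hy, by have := FF_mem (E := E) hy; rwa [add_sub_cancel_right] at this,
    TT_mem hy, U_ext fun σ j => ?_, fun τ j => ?_⟩
  · have h := hxy' σ false j
    rw [map_sub, sub_eq_zero, FF_d hy] at h
    exact h
  · have h := hxy' τ true j
    rw [map_sub, sub_eq_zero, TT_d hy] at h
    exact h

/-- **(TR) for the rows of `B`** : `LU (p θ) : U (p, a) → U (p, a + 1)` is a quasi-isomorphism -/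
theorem qi (hsur : ∀ {P A C : ℤ} {b : E.B}, b ∈ E.pb P A C → ∃ s ∈ w.pc P A C, E.p s = b)
    {J : Submodule K w.S} (hJ : ∀ s, s ∈ J ↔ E.p s = 0) (θ : Th w) (p a : ℤ)
    (H : ∀ n, AcQ (Yc θ p a X) ⊤ (TF X J) n)
    (hb : E.p θ.t ∈ E.pb (p - p) (a + 1 - a) 0) (hd : E.DB (E.p θ.t) = 0) :
    QI (LUh E X (E.p θ.t) hb hd) := by
  have two : ∀ b c : E.B, b + c = 0 → b = c := fun b c h => by
    rw [← add_zero b, ← E.two c, ← add_assoc, h, zero_add]
  constructor
  · intro k y hy hdy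
    obtain ⟨x, hx, e1, e2⟩ := mkx (θ := θ) hsur (Submodule.zero_mem ((U E X p a).gr (k - 1))) hy
    have e1' : FF (E := E) hx = 0 := e1
    obtain ⟨u, v, hu, hv, h1, h2⟩ := use hJ (H k) hx (by rw [e1', map_zero]) (fun τ j => by
      rw [e1', e2]
      have h : (dU E p (a + 1) y τ).1 j = 0 :=
        congrArg (fun f : X.ι →₀ Row E p (a + 1) => (f τ).1 j) hdy
      rw [h, Finsupp.zero_apply]
      change 0 + E.p θ.t * 0 = 0
      rw [mul_zero, add_zero])
    refine ⟨u, hu, ?_, v, hv, U_ext fun σ j => ?_⟩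
    · exact h1.symm.trans e1'
    · rw [e2] at h2
      refine (h2 σ j).trans ?_
      rw [add_comm]
      rfl
  · rintro k x hx hdx ⟨z, hz, e⟩
    obtain ⟨v, hv, e1, e2⟩ := mkx (θ := θ) (k := k + 1) (x := x) (z := z) hsur
      (by rwa [add_sub_cancel_right]) hz
    obtain ⟨u, _, hu, _, h1, _⟩ := use hJ (H (k + 1)) hv (by rw [e1]; exact hdx) (fun τ j => by
      rw [e1, e2]
      have h : E.p θ.t * ((show X.ι →₀ Row E p a from x) τ).1 j = (dU E p (a + 1) z τ).1 j :=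
        congrArg (fun f : X.ι →₀ Row E p (a + 1) => (f τ).1 j) e
      rw [h]
      exact E.two _)
    exact ⟨u, hu, e1.symm.trans h1⟩

end Crest.Agent.R186.JTR322
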