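import Crest.Agent.R186.KKh_354
import Crest.Agent.R186.Rel_306

/-!
# Row 186, half (A), leaf KKf (helper354): the operators `x, d, h, t` on the homology of a right module
-/

set_option autoImplicit false
set_option linter.style.haveILetI false

noncomputable section

open MulOpposite

namespace Crest.Agent.R186.KKf354

open Hat827 Hat827.DGA Frame515 Zig498 Crest.Agent.R186.Win810 Crest.Agent.R186.Win810.WD
open Crest.Agent.R186.DefsQ830 Crest.Agent.R186.Cells221 Crest.Agent.R186.C2x354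
open Crest.Agent.R186.QF354 Crest.Agent.R186.KKz354 Crest.Agent.R186.KKh354
open Crest.Agent.R186.C2b44 (kill c0 c0_mc)

variable {K : Type} [Field K] (π : Par K)

/-! ### pieces of the letters -/

theorem X_pcZ (a : Gen) : X π a ∈ pcZ π a.dP a.dA a.dC := by
  rw [← pz_pcZ]; exact VQ735.X_pz π a

theorem x_m (j : Fin 2) : X π (.x j) ∈ pcZ π (((1 : Fin 2).val : ℤ) - ((0 : Fin 2).val : ℤ))
    ((0 : ℕ) : ℤ) 0 := X_pcZ π (.x j)

theorem d_m (j : Fin 2) : X π (.d j) ∈ pcZ π (((0 : Fin 2).val : ℤ) - ((1 : Fin 2).val : ℤ))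
    ((1 : ℕ) : ℤ) 0 := X_pcZ π (.d j)

theorem z_m (j : Fin 2) : X π (.z j) ∈ pcZ π (((0 : Fin 2).val : ℤ) - ((1 : Fin 2).val : ℤ))
    ((2 : ℕ) : ℤ) 1 := X_pcZ π (.z j)

theorem h_m (i : Fin 2) : X π .h ∈ pcZ π ((i.val : ℤ) - (i.val : ℤ)) ((1 : ℕ) : ℤ) 0 := by
  rw [sub_self]; exact X_pcZ π .h

theorem tR_pcZ : tR π ∈ pcZ π 0 1 0 := by
  rw [← pz_pcZ]; exact VQ735.tR_pz π

theorem t_m (i : Fin 2) : tR π ∈ pcZ π ((i.val : ℤ) - (i.val : ℤ)) ((1 : ℕ) : ℤ) 0 := by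
  rw [sub_self]; exact tR_pcZ π

/-- total right multiplications -/
def mx (j : Fin 2) : (WR π).Win := mt π 1 0 0 (X π (.x j)) (x_m π j)
def md (j : Fin 2) : (WR π).Win := mt π 0 1 1 (X π (.d j)) (d_m π j)
def mz (j : Fin 2) : (WR π).Win := mt π 0 1 2 (X π (.z j)) (z_m π j)
def mh : (WR π).Win := mt π 0 0 1 (X π .h) (h_m π 0) + mt π 1 1 1 (X π .h) (h_m π 1)
def mtt : (WR π).Win := mt π 0 0 1 (tR π) (t_m π 0) + mt π 1 1 1 (tR π) (t_m π 1)

theorem mx_G (j : Fin 2) : mx π j ∈ (WR π).G 0 := mt_G π _ _ _ _ _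
theorem md_G (j : Fin 2) : md π j ∈ (WR π).G 0 := mt_G π _ _ _ _ _
theorem mz_G (j : Fin 2) : mz π j ∈ (WR π).G 1 := mt_G π _ _ _ _ _
theorem mh_G : mh π ∈ (WR π).G 0 := Submodule.add_mem _ (mt_G π _ _ _ _ _) (mt_G π _ _ _ _ _)
theorem mtt_G : mtt π ∈ (WR π).G 0 := Submodule.add_mem _ (mt_G π _ _ _ _ _) (mt_G π _ _ _ _ _)

theorem f01 (i : Fin 2) : i = 0 ∨ i = 1 := by omega

theorem mx_ent (j : Fin 2) (k l : DefsQ830.Ob) : ent π (mx π j) k l =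
    if k.1 = 1 ∧ l.1 = 0 ∧ k.2.val = l.2.val + 0 then X π (.x j) else 0 := rfl
theorem md_ent (j : Fin 2) (k l : DefsQ830.Ob) : ent π (md π j) k l =
    if k.1 = 0 ∧ l.1 = 1 ∧ k.2.val = l.2.val + 1 then X π (.d j) else 0 := rfl

theorem dd_ent (r : R π) (hr : ∀ i : Fin 2, r ∈ pcZ π ((i.val : ℤ) - (i.val : ℤ)) ((1 : ℕ) : ℤ) 0)
    (k l : DefsQ830.Ob) : ent π (mt π 0 0 1 r (hr 0) + mt π 1 1 1 r (hr 1)) k l =
    if k.1 = l.1 ∧ k.2.val = l.2.val + 1 then r else 0 := by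
  show (if k.1 = 0 ∧ l.1 = 0 ∧ k.2.val = l.2.val + 1 then r else 0) +
    (if k.1 = 1 ∧ l.1 = 1 ∧ k.2.val = l.2.val + 1 then r else 0) = _
  rcases f01 k.1 with hk | hk <;> rcases f01 l.1 with hl | hl <;> rw [hk, hl] <;> simp

theorem mh_ent (k l : DefsQ830.Ob) : ent π (mh π) k l =
    if k.1 = l.1 ∧ k.2.val = l.2.val + 1 then X π .h else 0 := dd_ent π _ (h_m π) k l
theorem mtt_ent (k l : DefsQ830.Ob) : ent π (mtt π) k l =
    if k.1 = l.1 ∧ k.2.val = l.2.val + 1 then tR π else 0 := dd_ent π _ (t_m π) k l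

/-! ### the operators on homology -/

variable {π} (N : RM (WR π).dga) (n : ℤ)

/-- classes in the column `(i, b)` -/
def PP (i : Fin 2) (b : ℤ) : Submodule K (HH N.toGC n) :=
  LinearMap.eqLocus (rho N n (ee π i b) (ee_G π i b)) LinearMap.id

variable {N n}

theorem mem_PP {i : Fin 2} {b : ℤ} {m : HH N.toGC n} :
    m ∈ PP N n i b ↔ rho N n (ee π i b) (ee_G π i b) m = m := Iff.rfl

/-- comparison on a column -/
theorem rho_on {i : Fin 2} {b : ℤ} {m : HH N.toGC n} (hm : m ∈ PP N n i b) {a a' : (WR π).Win}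
    (ha : a ∈ (WR π).G 0) (ha' : a' ∈ (WR π).G 0)
    (h : ∀ k l : DefsQ830.Ob, k.1 = i → ((k.2.val : ℕ) : ℤ) = b → ent π a k l = ent π a' k l) :
    rho N n a ha m = rho N n a' ha' m := by
  have h1 : ∀ (c : (WR π).Win) (hc : c ∈ (WR π).G 0),
      rho N n c hc m = rho N n (ee π i b * c) (G0_mul (ee_G π i b) hc) m := by
    intro c hc
    rw [← rho_mul _ _ (ee_G π i b) hc, mem_PP.1 hm]
  rw [h1 a ha, h1 a' ha']
  have e : ee π i b * a = ee π i b * a' := by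
    apply win_ext
    intro k l
    rw [ee_mul, ee_mul]
    split_ifs with h2
    · exact h k l h2.1 h2.2
    · rfl
  congr 1
  simp only [e]

theorem rho_PP {i i' : Fin 2} {b b' : ℤ} {m : HH N.toGC n} (hm : m ∈ PP N n i b)
    {a : (WR π).Win} (ha : a ∈ (WR π).G 0)
    (h : ∀ k l : DefsQ830.Ob, k.1 = i → ((k.2.val : ℕ) : ℤ) = b →
      ¬ (l.1 = i' ∧ ((l.2.val : ℕ) : ℤ) = b') → ent π a k l = 0) :
    rho N n a ha m ∈ PP N n i' b' := by
  rw [mem_PP, rho_mul]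
  refine rho_on hm _ _ fun k l hk hb => ?_
  rw [mul_ee]
  split_ifs with h2
  · rfl
  · exact (h k l hk hb h2).symm

/-! ### memberships -/

theorem X_mem (j : Fin 2) {b : ℤ} {m : HH N.toGC n} (hm : m ∈ PP N n 1 b) :
    rho N n (mx π j) (mx_G π j) m ∈ PP N n 0 b :=
  rho_PP hm _ fun k l hk hb h => by
    rw [mx_ent, if_neg]
    rintro ⟨_, h2, h3⟩
    exact h ⟨h2, by omega⟩

theorem D_mem (j : Fin 2) {b : ℤ} {m : HH N.toGC n} (hm : m ∈ PP N n 0 b) :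
    rho N n (md π j) (md_G π j) m ∈ PP N n 1 (b - 1) :=
  rho_PP hm _ fun k l hk hb h => by
    rw [md_ent, if_neg]
    rintro ⟨_, h2, h3⟩
    exact h ⟨h2, by omega⟩

theorem H_mem (i : Fin 2) {b : ℤ} {m : HH N.toGC n} (hm : m ∈ PP N n i b) :
    rho N n (mh π) (mh_G π) m ∈ PP N n i (b - 1) :=
  rho_PP hm _ fun k l hk hb h => by
    rw [mh_ent, if_neg]
    rintro ⟨h2, h3⟩
    exact h ⟨by rw [← h2, hk], by omega⟩

theorem T_mem (i : Fin 2) {b : ℤ} {m : HH N.toGC n} (hm : m ∈ PP N n i b) :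
    rho N n (mtt π) (mtt_G π) m ∈ PP N n i (b - 1) :=
  rho_PP hm _ fun k l hk hb h => by
    rw [mtt_ent, if_neg]
    rintro ⟨h2, h3⟩
    exact h ⟨by rw [← h2, hk], by omega⟩

/-! ### products -/

variable (π)

theorem mt_mul_ne {i i' j' i'' : Fin 2} (h : i' ≠ j') (s s' : ℕ) (r r' : R π) {C C' : ℤ}
    (hr : r ∈ pcZ π ((i.val : ℤ) - (i'.val : ℤ)) s C)
    (hr' : r' ∈ pcZ π ((j'.val : ℤ) - (i''.val : ℤ)) s' C') :
    mt π i i' s r hr * mt π j' i'' s' r' hr' = 0 := by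
  apply win_ext
  intro k l
  rw [ent_mul]
  refine Finset.sum_eq_zero fun m _ => ?_
  rw [mt_ent, mt_ent]
  by_cases h1 : m.1 = i'
  · rw [if_neg (fun h2 : m.1 = j' ∧ _ => h (h1.symm.trans h2.1)), mul_zero]
  · rw [if_neg (fun h2 : k.1 = i ∧ m.1 = i' ∧ _ => h1 h2.2.1), zero_mul]

theorem mul_pc {P A P' A' P'' A'' : ℤ} {r r' : R π} (hr : r ∈ pcZ π P A 0) (hr' : r' ∈ pcZ π P' A' 0)
    (h1 : P + P' = P'') (h2 : A + A' = A'') : r * r' ∈ pcZ π P'' A'' 0 := by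
  subst h1 h2
  have := pcZ_mul π hr hr'
  rwa [add_zero] at this

theorem ent_smul (c : K) (a : (WR π).Win) (k l : DefsQ830.Ob) :
    ent π (c • a) k l = c • ent π a k l := rfl
theorem ent_add (a b : (WR π).Win) (k l : DefsQ830.Ob) :
    ent π (a + b) k l = ent π a k l + ent π b k l := rfl

/-- entries of the products -/
theorem mx_dd (j : Fin 2) (r : R π)
    (hr : ∀ i : Fin 2, r ∈ pcZ π ((i.val : ℤ) - (i.val : ℤ)) ((1 : ℕ) : ℤ) 0)
    (k l : DefsQ830.Ob) : ent π (mx π j * (mt π 0 0 1 r (hr 0) + mt π 1 1 1 r (hr 1))) k l =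
    if k.1 = 1 ∧ l.1 = 0 ∧ k.2.val = l.2.val + 1 then X π (.x j) * r else 0 := by
  unfold mx
  rw [mul_add, mt_mul_ne π (by decide) _ _ _ _ _ (hr 1), add_zero, mt_mul π _ _ _ _ _ _ _ _ _
    (mul_pc π (x_m π j) (hr 0) (by simp) (by simp)), mt_ent]

theorem dd_mx (j : Fin 2) (r : R π)
    (hr : ∀ i : Fin 2, r ∈ pcZ π ((i.val : ℤ) - (i.val : ℤ)) ((1 : ℕ) : ℤ) 0)
    (k l : DefsQ830.Ob) : ent π ((mt π 0 0 1 r (hr 0) + mt π 1 1 1 r (hr 1)) * mx π j) k l =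
    if k.1 = 1 ∧ l.1 = 0 ∧ k.2.val = l.2.val + 1 then r * X π (.x j) else 0 := by
  unfold mx
  rw [add_mul, mt_mul_ne π (by decide) _ _ _ _ (hr 0) _, zero_add, mt_mul π _ _ _ _ _ _ _ _ _
    (mul_pc π (hr 1) (x_m π j) (by simp) (by simp)), mt_ent]

theorem md_dd (j : Fin 2) (r : R π)
    (hr : ∀ i : Fin 2, r ∈ pcZ π ((i.val : ℤ) - (i.val : ℤ)) ((1 : ℕ) : ℤ) 0)
    (k l : DefsQ830.Ob) : ent π (md π j * (mt π 0 0 1 r (hr 0) + mt π 1 1 1 r (hr 1))) k l =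
    if k.1 = 0 ∧ l.1 = 1 ∧ k.2.val = l.2.val + 2 then X π (.d j) * r else 0 := by
  unfold md
  rw [mul_add, mt_mul_ne π (by decide) _ _ _ _ _ (hr 0), zero_add, mt_mul π _ _ _ _ _ _ _ _ _
    (mul_pc π (d_m π j) (hr 1) (by simp) (by simp)), mt_ent]

theorem dd_md (j : Fin 2) (r : R π)
    (hr : ∀ i : Fin 2, r ∈ pcZ π ((i.val : ℤ) - (i.val : ℤ)) ((1 : ℕ) : ℤ) 0)
    (k l : DefsQ830.Ob) : ent π ((mt π 0 0 1 r (hr 0) + mt π 1 1 1 r (hr 1)) * md π j) k l =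
    if k.1 = 0 ∧ l.1 = 1 ∧ k.2.val = l.2.val + 2 then r * X π (.d j) else 0 := by
  unfold md
  rw [add_mul, mt_mul_ne π (by decide) _ _ _ _ (hr 1) _, add_zero, mt_mul π _ _ _ _ _ _ _ _ _
    (mul_pc π (hr 0) (d_m π j) (by simp) (by simp)), mt_ent]

theorem mx_md (i j : Fin 2) (k l : DefsQ830.Ob) : ent π (mx π i * md π j) k l =
    if k.1 = 1 ∧ l.1 = 1 ∧ k.2.val = l.2.val + 1 then X π (.x i) * X π (.d j) else 0 := by
  unfold mx md
  rw [mt_mul π _ _ _ _ _ _ _ _ _ (mul_pc π (x_m π i) (d_m π j) (by simp) (by simp)), mt_ent]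

theorem md_mx (i j : Fin 2) (k l : DefsQ830.Ob) : ent π (md π i * mx π j) k l =
    if k.1 = 0 ∧ l.1 = 0 ∧ k.2.val = l.2.val + 1 then X π (.d i) * X π (.x j) else 0 := by
  unfold mx md
  rw [mt_mul π _ _ _ _ _ _ _ _ _ (mul_pc π (d_m π i) (x_m π j) (by simp) (by simp)), mt_ent]

/-! ### relations on homology -/

variable {π}

/-- `t` on column `0` -/
theorem r_t0 {b : ℤ} {m : HH N.toGC n} (hm : m ∈ PP N n 0 b) :
    rho N n (mtt π) (mtt_G π) m = rho N n (mh π) (mh_G π) m +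
      (π.g - 1) • (rho N n (mx π 0) (mx_G π 0) (rho N n (md π 0) (md_G π 0) m) +
        rho N n (mx π 1) (mx_G π 1) (rho N n (md π 1) (md_G π 1) m)) := by
  have h0 := G0_mul (md_G π 0) (mx_G π 0)
  have h1 := G0_mul (md_G π 1) (mx_G π 1)
  have h2 := Submodule.add_mem _ h0 h1
  have h3 := Submodule.smul_mem _ (π.g - 1) h2
  rw [rho_mul, rho_mul, ← rho_add _ _ h0 h1, ← rho_smul (π.g - 1) _ h2,
    ← rho_add _ _ (mh_G π) h3]
  refine rho_on hm _ _ fun k l hk _ => ?_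
  rw [ent_add, ent_smul, ent_add, md_mx, md_mx, mtt_ent, mh_ent]
  by_cases h : k.1 = l.1 ∧ k.2.val = l.2.val + 1
  · have h' : k.1 = 0 ∧ l.1 = 0 ∧ k.2.val = l.2.val + 1 := ⟨hk, h.1 ▸ hk, h.2⟩
    rw [if_pos h, if_pos h, if_pos h', if_pos h']
    exact Rel306.ht0 π
  · have h' : ¬ (k.1 = 0 ∧ l.1 = 0 ∧ k.2.val = l.2.val + 1) := fun h1 =>
      h ⟨h1.1.trans h1.2.1.symm, h1.2.2⟩
    rw [if_neg h, if_neg h, if_neg h', if_neg h', add_zero, smul_zero, add_zero]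

/-- `t` on column `1` -/
theorem r_t1 {b : ℤ} {m : HH N.toGC n} (hm : m ∈ PP N n 1 b) :
    π.g ^ 2 • rho N n (mtt π) (mtt_G π) m = rho N n (mh π) (mh_G π) m +
      (π.g - 1) • (rho N n (md π 0) (md_G π 0) (rho N n (mx π 0) (mx_G π 0) m) +
        π.g • rho N n (md π 1) (md_G π 1) (rho N n (mx π 1) (mx_G π 1) m)) := by
  have h0 := G0_mul (mx_G π 0) (md_G π 0)
  have h1 := G0_mul (mx_G π 1) (md_G π 1)
  have h1' := Submodule.smul_mem _ π.g h1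
  have h2 := Submodule.add_mem _ h0 h1'
  have h3 := Submodule.smul_mem _ (π.g - 1) h2
  have h4 := Submodule.smul_mem _ (π.g ^ 2) (mtt_G π)
  rw [rho_mul, rho_mul, ← rho_smul π.g _ h1, ← rho_add _ _ h0 h1', ← rho_smul (π.g - 1) _ h2,
    ← rho_add _ _ (mh_G π) h3, ← rho_smul (π.g ^ 2) _ (mtt_G π)]
  refine rho_on hm _ _ fun k l hk _ => ?_
  rw [ent_add, ent_smul, ent_smul, ent_add, ent_smul, mx_md, mx_md, mtt_ent, mh_ent]
  by_cases h : k.1 = l.1 ∧ k.2.val = l.2.val + 1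
  · have h' : k.1 = 1 ∧ l.1 = 1 ∧ k.2.val = l.2.val + 1 := ⟨hk, h.1 ▸ hk, h.2⟩
    rw [if_pos h, if_pos h, if_pos h', if_pos h']
    exact Rel306.ht1 π
  · have h' : ¬ (k.1 = 1 ∧ l.1 = 1 ∧ k.2.val = l.2.val + 1) := fun h1 =>
      h ⟨h1.1.trans h1.2.1.symm, h1.2.2⟩
    rw [if_neg h, if_neg h, if_neg h', if_neg h', smul_zero, smul_zero, add_zero, smul_zero,
      add_zero]

/-- equal entries act equally -/
theorem rho_ext {a a' : (WR π).Win} (ha : a ∈ (WR π).G 0) (ha' : a' ∈ (WR π).G 0)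
    (h : ∀ k l : DefsQ830.Ob, ent π a k l = ent π a' k l) (m : HH N.toGC n) :
    rho N n a ha m = rho N n a' ha' m := by
  have e : a = a' := win_ext π h
  subst e
  rfl

theorem r_xt (j : Fin 2) (m : HH N.toGC n) :
    rho N n (mtt π) (mtt_G π) (rho N n (mx π j) (mx_G π j) m) =
      π.g • rho N n (mx π j) (mx_G π j) (rho N n (mtt π) (mtt_G π) m) := by
  have h0 := G0_mul (mtt_G π) (mx_G π j)
  rw [rho_mul, rho_mul, ← rho_smul π.g _ h0]
  refine rho_ext _ _ (fun k l => ?_) m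
  rw [ent_smul]
  have e1 := mx_dd π j (tR π) (t_m π) k l
  have e2 := dd_mx π j (tR π) (t_m π) k l
  refine e1.trans (Eq.trans ?_ (congrArg (fun z => π.g • z) e2).symm)
  split_ifs
  · exact Rel306.xt π j
  · exact (smul_zero _).symm

theorem r_xh (j : Fin 2) (m : HH N.toGC n) :
    rho N n (mh π) (mh_G π) (rho N n (mx π j) (mx_G π j) m) =
      rho N n (mx π j) (mx_G π j) (rho N n (mh π) (mh_G π) m) := by
  rw [rho_mul, rho_mul]
  refine rho_ext _ _ (fun k l => ?_) m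
  have e1 := mx_dd π j (X π .h) (h_m π) k l
  have e2 := dd_mx π j (X π .h) (h_m π) k l
  refine e1.trans (Eq.trans ?_ e2.symm)
  rw [Rel306.xh π j]

theorem r_dh (j : Fin 2) (m : HH N.toGC n) :
    rho N n (mh π) (mh_G π) (rho N n (md π j) (md_G π j) m) =
      rho N n (md π j) (md_G π j) (rho N n (mh π) (mh_G π) m) := by
  rw [rho_mul, rho_mul]
  refine rho_ext _ _ (fun k l => ?_) m
  have e1 := md_dd π j (X π .h) (h_m π) k l
  have e2 := dd_md π j (X π .h) (h_m π) k l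
  refine e1.trans (Eq.trans ?_ e2.symm)
  rw [Rel306.dh π j]

/-- `t d_j = g d_j t` up to a boundary -/
theorem td_ex (j : Fin 2) : ∃ (j' : Fin 2) (c : K),
    π.g • (X π (.d j) * tR π) = tR π * X π (.d j) + c • Der580.D π (X π (.z j')) := by
  have two : ∀ r : R π, r + r = 0 := fun r => (WR π).two r
  rcases f01 j with rfl | rfl
  · refine ⟨1, (π.g - 1) * (π.c 1)⁻¹, ?_⟩
    rw [← Rel306.td0 π, ← add_assoc, two, zero_add]
  · refine ⟨0, (π.g - 1) * (π.c 0)⁻¹, ?_⟩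
    rw [← Rel306.td1 π, ← add_assoc, two, zero_add]

theorem r_td (hJ : JZ π N) (j : Fin 2) (m : HH N.toGC n) :
    π.g • rho N n (mtt π) (mtt_G π) (rho N n (md π j) (md_G π j) m) =
      rho N n (md π j) (md_G π j) (rho N n (mtt π) (mtt_G π) m) := by
  have h0 := G0_mul (md_G π j) (mtt_G π)
  rw [rho_mul, rho_mul, ← rho_smul π.g _ h0]
  obtain ⟨j', c, hc⟩ := td_ex (π := π) j
  refine rho_congr hJ _ _ (Submodule.smul_mem _ c (mz_G π j')) (fun k l => ?_) m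
  congr 1
  have e1 := md_dd π j (tR π) (t_m π) k l
  have e2 := dd_md π j (tR π) (t_m π) k l
  have e3 : ent π ((WR π).DW (c • mz π j')) k l =
      if k.1 = 0 ∧ l.1 = 1 ∧ k.2.val = l.2.val + 2 then c • Der580.D π (X π (.z j')) else 0 := by
    show Der580.D π (c • (if k.1 = 0 ∧ l.1 = 1 ∧ k.2.val = l.2.val + 2 then X π (.z j') else 0)) = _
    split_ifs
    · rw [map_smul]
    · rw [smul_zero, map_zero]
  have e4 : ent π (π.g • (md π j * mtt π)) k l =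
      if k.1 = 0 ∧ l.1 = 1 ∧ k.2.val = l.2.val + 2 then π.g • (X π (.d j) * tR π) else 0 := by
    refine (congrArg (fun z => π.g • z) e1).trans ?_
    split_ifs
    · rfl
    · exact smul_zero _
  rw [e4, ent_add, e3]
  refine Eq.trans ?_ (congrArg (fun z => z + _) e2).symm
  split_ifs
  · exact hc
  · exact (add_zero _).symm

end Crest.Agent.R186.KKf354
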