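import Crest.Agent.R186.Op_515
import Crest.Agent.R186.Res_255
import Crest.Agent.R186.Win_810

/-!
Row 186 (A), short road, (TR') (helper671): the opposite window data.

* `opW w p0 a0 : WD K` : `S = w.Sᵐᵒᵖ`, positions `p0 - P`, `a0 - A`.
* `Hop : Hm (opD w.dga) (opW w p0 a0).dga`, `Hpo` back: the isomorphism of dg algebras (transposition).
* `cL Y : LCells (opW w p0 a0).dga` for `Y : RCells w.dga`, `cR` back,
  `nR N : RM (opW w p0 a0).dga` for `N : LM w.dga`, `gL G : LM (opW ..).dga` for `G : RM w.dga`,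
  and `tY Y N = tG (nR N) (cL Y)`.
-/

set_option autoImplicit false
set_option linter.style.haveILetI false

noncomputable section

namespace Crest.Agent.R186.Opw671

open MulOpposite Hat827 Win810 Frame515 Res255

variable {K : Type} [Field K]

/-- **opposite window data** -/
def opW (w : WD K) (p0 a0 : ℤ) : WD K where
  S := w.Sᵐᵒᵖ
  two a := unop_injective (w.two a.unop)
  pc P A C := (w.pc P A C).comap (opLinearEquiv K).symm.toLinearMap
  one_mem := w.one_mem
  mul_mem {P A C P' A' C' a b} ha hb := by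
    have h := w.mul_mem (show b.unop ∈ w.pc P' A' C' from hb) (show a.unop ∈ w.pc P A C from ha)
    change (a * b).unop ∈ w.pc _ _ _
    rw [unop_mul, add_comm P, add_comm A, add_comm C]
    exact h
  D := (opLinearEquiv K).toLinearMap ∘ₗ w.D ∘ₗ (opLinearEquiv K).symm.toLinearMap
  D_mul a b := by
    apply unop_injective
    change w.D (a * b).unop = (op (w.D a.unop) * b + a * op (w.D b.unop)).unop
    rw [unop_mul, w.D_mul, unop_add, unop_mul, unop_mul, unop_op, unop_op, add_comm]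
  D_D a := by
    apply unop_injective
    exact w.D_D a.unop
  D_mem h := w.D_mem h
  Ob := w.Ob
  P o := p0 - w.P o
  A o := a0 - w.A o
  N := w.N
  neg i j C hC := by
    have h := w.neg j i C hC
    rw [show p0 - w.P i - (p0 - w.P j) = w.P j - w.P i by ring,
      show a0 - w.A i - (a0 - w.A j) = w.A j - w.A i by ring, h]
    rw [eq_bot_iff]
    intro x hx
    have hx' : x.unop ∈ (⊥ : Submodule K w.S) := hx
    rw [Submodule.mem_bot] at hx' ⊢
    exact unop_injective hx'
  big i j C hC := by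
    have h := w.big j i C hC
    rw [show p0 - w.P i - (p0 - w.P j) = w.P j - w.P i by ring,
      show a0 - w.A i - (a0 - w.A j) = w.A j - w.A i by ring, h]
    rw [eq_bot_iff]
    intro x hx
    have hx' : x.unop ∈ (⊥ : Submodule K w.S) := hx
    rw [Submodule.mem_bot] at hx' ⊢
    exact unop_injective hx'
  fin i j C := by
    rw [show p0 - w.P i - (p0 - w.P j) = w.P j - w.P i by ring,
      show a0 - w.A i - (a0 - w.A j) = w.A j - w.A i by ring]
    have h := w.fin j i C
    rw [Submodule.comap_equiv_eq_map_symm]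
    infer_instance

section

variable {w : WD K} {p0 a0 : ℤ}

theorem mem_opW {P A C : ℤ} {x : w.Sᵐᵒᵖ} : x ∈ (opW w p0 a0).pc P A C ↔ x.unop ∈ w.pc P A C := Iff.rfl

theorem opW_D (x : w.Sᵐᵒᵖ) : (opW w p0 a0).D x = op (w.D x.unop) := rfl

theorem opW_P (o : w.Ob) : (opW w p0 a0).P o = p0 - w.P o := rfl

theorem opW_A (o : w.Ob) : (opW w p0 a0).A o = a0 - w.A o := rfl

/-- entries of the opposite window algebra -/
theorem mem_q_opW {i j : w.Ob} {C : ℤ} {x : w.Sᵐᵒᵖ} :
    x ∈ (opW w p0 a0).q i j C ↔ x.unop ∈ w.q j i C := by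
  unfold WD.q
  rw [opW_P, opW_P, opW_A, opW_A, show p0 - w.P i - (p0 - w.P j) = w.P j - w.P i by ring,
      show a0 - w.A i - (a0 - w.A j) = w.A j - w.A i by ring]
  rfl

theorem E_opW (i j : w.Ob) : (opW w p0 a0).E i j =
    (w.E j i).comap (opLinearEquiv K).symm.toLinearMap := by
  apply le_antisymm
  · refine iSup_le fun C => ?_
    intro x hx
    exact WD.q_le j i C (mem_q_opW.1 hx)
  · intro x hx
    have hx' : x.unop ∈ w.E j i := hx
    have key : w.E j i ≤ ((opW w p0 a0).E i j).comap (opLinearEquiv K).toLinearMap := by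
      refine iSup_le fun C => ?_
      intro y hy
      exact WD.q_le (w := opW w p0 a0) i j C (mem_q_opW.2 hy)
    exact key hx'

theorem mem_E_opW {i j : w.Ob} {x : w.Sᵐᵒᵖ} : x ∈ (opW w p0 a0).E i j ↔ x.unop ∈ w.E j i := by
  rw [E_opW]
  rfl

variable (w p0 a0)

/-- transposition, as a linear map -/
def trL : (w.Win)ᵐᵒᵖ →ₗ[K] (opW w p0 a0).Win where
  toFun m := ⟨Matrix.of fun i j => op ((unop m).1 j i), fun i j =>
    mem_E_opW.2 ((unop m).2 j i)⟩
  map_add' a b := rfl
  map_smul' r a := rfl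

/-- transposition back, as a linear map -/
def trL' : (opW w p0 a0).Win →ₗ[K] (w.Win)ᵐᵒᵖ where
  toFun m := op ⟨Matrix.of fun i j => unop (m.1 j i : w.Sᵐᵒᵖ), fun i j =>
    mem_E_opW.1 (m.2 j i)⟩
  map_add' a b := rfl
  map_smul' r a := rfl

variable {w p0 a0}

theorem trL_apply (m : (w.Win)ᵐᵒᵖ) (i j : w.Ob) : (trL w p0 a0 m).1 i j = op ((unop m).1 j i) := rfl

theorem trL'_apply (m : (opW w p0 a0).Win) (i j : w.Ob) :
    (unop (trL' w p0 a0 m)).1 i j = unop (m.1 j i : w.Sᵐᵒᵖ) := rfl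

theorem one_op {O S : Type} [DecidableEq O] [Ring S] (i j : O) :
    op ((1 : Matrix O O S) j i) = (1 : Matrix O O Sᵐᵒᵖ) i j := by
  rw [Matrix.one_apply, Matrix.one_apply]
  by_cases h : i = j
  · rw [if_pos h, if_pos h.symm]; rfl
  · rw [if_neg h, if_neg (Ne.symm h)]; rfl

theorem trL_one : trL w p0 a0 1 = 1 := by
  apply Subtype.ext
  ext i j : 2
  exact one_op (O := w.Ob) (S := w.S) i j

theorem trL_mul (a b : (w.Win)ᵐᵒᵖ) : trL w p0 a0 (a * b) = trL w p0 a0 a * trL w p0 a0 b := by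
  apply Subtype.ext
  ext i j : 2
  change op (((unop b).1 * (unop a).1) j i) =
    ((Matrix.of fun i j => op ((unop a).1 j i)) * (Matrix.of fun i j => op ((unop b).1 j i)) :
      Matrix w.Ob w.Ob w.Sᵐᵒᵖ) i j
  rw [Matrix.mul_apply, Matrix.mul_apply]
  have h := map_sum (opAddEquiv (α := w.S)) (fun l => (unop b).1 j l * (unop a).1 l i) Finset.univ
  refine h.trans ?_
  rfl

theorem trL_trL' (m : (opW w p0 a0).Win) : trL w p0 a0 (trL' w p0 a0 m) = m := rfl

theorem trL'_trL (m : (w.Win)ᵐᵒᵖ) : trL' w p0 a0 (trL w p0 a0 m) = m := rfl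

theorem trL'_one : trL' w p0 a0 1 = 1 := by
  rw [← trL_one, trL'_trL]

theorem trL'_mul (a b : (opW w p0 a0).Win) :
    trL' w p0 a0 (a * b) = trL' w p0 a0 a * trL' w p0 a0 b := by
  rw [← trL'_trL (trL' w p0 a0 a * trL' w p0 a0 b), trL_mul, trL_trL', trL_trL']

variable (w p0 a0)

/-- **transposition**: the opposite dg algebra of the window -/
def Hop : Hm (opD w.dga) (opW w p0 a0).dga where
  f := AlgHom.ofLinearMap (trL w p0 a0) trL_one trL_mul
  mem ha i j := mem_q_opW.2 (ha j i)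
  D a := rfl

/-- **transposition back** -/
def Hpo : Hm (opW w p0 a0).dga (opD w.dga) where
  f := AlgHom.ofLinearMap (trL' w p0 a0) trL'_one trL'_mul
  mem ha i j := mem_q_opW.1 (ha j i)
  D a := rfl

variable {w p0 a0}

theorem Hop_Hpo (a : (opW w p0 a0).dga.C) : (Hop w p0 a0).f ((Hpo w p0 a0).f a) = a := rfl

theorem Hpo_Hop (a : (opD w.dga).C) : (Hpo w p0 a0).f ((Hop w p0 a0).f a) = a := rfl

theorem Hop_apply (m : w.Win) (i j : w.Ob) :
    (((Hop w p0 a0).f (op m) : (opW w p0 a0).Win)).1 i j = op (m.1 j i) := rfl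

theorem Hpo_apply (m : (opW w p0 a0).Win) (i j : w.Ob) :
    ((unop ((Hpo w p0 a0).f m) : w.Win)).1 i j = unop (m.1 j i : w.Sᵐᵒᵖ) := rfl

variable (p0 a0)

/-- right cells over `w.dga` as left cells over the opposite window algebra -/
def cL (Y : RCells w.dga) : LCells (opW w p0 a0).dga := pushL (Hop w p0 a0) Y.opL

/-- right modules over `w.dga` as left modules over the opposite window algebra -/
def gL (G : RM w.dga) : LM (opW w p0 a0).dga := resL (Hpo w p0 a0) G.opL

/-- left modules over `w.dga` as right modules over the opposite window algebra -/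
def nR (N : LM w.dga) : RM (opW w p0 a0).dga := resR (Hpo w p0 a0) N.opR

variable {p0 a0}

/-- **the dictionary** -/
theorem tY_cL (Y : RCells w.dga) (N : LM w.dga) : tG (nR p0 a0 N) (cL p0 a0 Y) = tY Y N := rfl

theorem cL_e (Y : RCells w.dga) (σ : Y.ι) (i j : w.Ob) :
    (((cL p0 a0 Y).e σ : (opW w p0 a0).Win)).1 i j = op ((Y.e σ : w.Win).1 j i) := rfl

theorem cL_c (Y : RCells w.dga) (σ τ : Y.ι) (i j : w.Ob) :
    (((cL p0 a0 Y).c σ τ : (opW w p0 a0).Win)).1 i j = op ((Y.c τ σ : w.Win).1 j i) := rfl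

end

end Crest.Agent.R186.Opw671
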