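import Crest.Agent.R186.TRopK_374
import Crest.Agent.R186.Opw_671

/-!
Row 186, half (A) (helper374): theta and Koszul fields of 810's `TRD` over 671's opposite window
data `opW (bdM π s hs).ext 1 3`.
-/

set_option autoImplicit false
set_option linter.unusedSimpArgs false
set_option linter.unusedSectionVars false

noncomputable section

namespace Crest.Agent.R186.TRopK374

open DefsQ830 PBW128 Win810 SM890 SExt44 MulOpposite Opw671

variable {K : Type} [Field K] (π : Par K) (s : ℕ) (hs : 2 ≤ s)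

/-- the opposite window data of `S = R'' (+) M` -/
abbrev wO : WD K := opW (wS π s hs) 1 3

/-- `op` as a map into the opposite window ring -/
def oS (x : (wS π s hs).S) : (wO π s hs).S := op x

/-- `J1` in the opposite ring -/
def oJ : Submodule K (wO π s hs).S :=
  (J1 π s hs).comap (opLinearEquiv K).symm.toLinearMap

theorem mem_oJ {x : (wO π s hs).S} : x ∈ oJ π s hs ↔ (unop x : (wS π s hs).S) ∈ J1 π s hs := Iff.rfl

theorem oS_mul (x y : (wS π s hs).S) : oS π s hs x * oS π s hs y = oS π s hs (y * x) := rfl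

theorem oS_smul (c : K) (x : (wS π s hs).S) : c • oS π s hs x = oS π s hs (c • x) := rfl

theorem oS_sub (x y : (wS π s hs).S) : oS π s hs x - oS π s hs y = oS π s hs (x - y) := rfl

theorem oS_D (x : (wS π s hs).S) : (wO π s hs).D (oS π s hs x) = oS π s hs ((wS π s hs).D x) := rfl

theorem oS_mem {P A C : ℤ} {x : (wS π s hs).S} :
    oS π s hs x ∈ (wO π s hs).pc P A C ↔ x ∈ (wS π s hs).pc P A C := Iff.rfl

theorem oS_mem_oJ {x : (wS π s hs).S} : oS π s hs x ∈ oJ π s hs ↔ x ∈ J1 π s hs := Iff.rfl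

/-- the theta's with index in `E`, and `h`, up to scalars -/
def TT (E : ℤ → Prop) (θ : TR810.Th (wO π s hs)) : Prop :=
  ∃ c : K, c ≠ 0 ∧ ((∃ e : ℤ, E e ∧ θ.t = oS π s hs (c • (thE π s hs e).t)) ∨
    θ.t = oS π s hs (c • (thH π s hs).t))

theorem TT_mono {E E' : ℤ → Prop} (h : ∀ e, E e → E' e) (θ : TR810.Th (wO π s hs))
    (hθ : TT π s hs E θ) : TT π s hs E' θ := by
  obtain ⟨c, hc, ⟨e, he, h1⟩ | h1⟩ := hθ
  · exact ⟨c, hc, Or.inl ⟨e, h e he, h1⟩⟩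
  · exact ⟨c, hc, Or.inr h1⟩

/-- the theta of a scalar multiple -/
def oth (c : K) (e : ℤ) : TR810.Th (wO π s hs) where
  t := oS π s hs (c • (thE π s hs e).t)
  mem := (oS_mem π s hs).2 (Submodule.smul_mem _ _ (thE π s hs e).mem)
  D0 := by rw [oS_D, map_smul, (thE π s hs e).D0, smul_zero]; rfl

/-- scalar multiples of `h` -/
def othH (c : K) : TR810.Th (wO π s hs) where
  t := oS π s hs (c • (thH π s hs).t)
  mem := (oS_mem π s hs).2 (Submodule.smul_mem _ _ (thH π s hs).mem)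
  D0 := by rw [oS_D, map_smul, (thH π s hs).D0, smul_zero]; rfl

theorem oth_TT {E : ℤ → Prop} {c : K} (hc : c ≠ 0) {e : ℤ} (he : E e) :
    TT π s hs E (oth π s hs c e) := ⟨c, hc, Or.inl ⟨e, he, rfl⟩⟩

theorem othH_TT (E : ℤ → Prop) {c : K} (hc : c ≠ 0) :
    TT π s hs E (othH π s hs c) := ⟨c, hc, Or.inr rfl⟩

/-- every theta commutes with an element commuting with all `thE e` and with `h` -/
theorem TT_comm {E : ℤ → Prop} (θ : TR810.Th (wO π s hs)) (hθ : TT π s hs E θ)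
    {u : (wS π s hs).S} (h1 : ∀ e, (thE π s hs e).t * u = u * (thE π s hs e).t)
    (h2 : (thH π s hs).t * u = u * (thH π s hs).t) :
    θ.t * oS π s hs u - oS π s hs u * θ.t = 0 := by
  obtain ⟨c, hc, ⟨e, he, h⟩ | h⟩ := hθ
  · rw [h, oS_mul, oS_mul, mul_smul_comm, smul_mul_assoc, h1, sub_self]
  · rw [h, oS_mul, oS_mul, mul_smul_comm, smul_mul_assoc, h2, sub_self]

theorem TT_wq {E : ℤ → Prop} (θ : TR810.Th (wO π s hs)) (hθ : TT π s hs E θ) (q : Wb) :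
    θ.t * oS π s hs (iR π s hs (wq π q)) - oS π s hs (iR π s hs (wq π q)) * θ.t = 0 :=
  TT_comm π s hs θ hθ (fun e => thE_iwq π s hs e q) (thH_iwq π s hs q)

theorem TT_oM {E : ℤ → Prop} (θ : TR810.Th (wO π s hs)) (hθ : TT π s hs E θ) (q : Wb) :
    θ.t * oS π s hs (iM π s hs (oM π q 1)) - oS π s hs (iM π s hs (oM π q 1)) * θ.t = 0 :=
  TT_comm π s hs θ hθ (fun e => thE_iM π s hs e q) (thH_iM π s hs q)

/-- passing `x_j` : index `e` becomes `e + 1` -/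
theorem TT_xx {E E' : ℤ → Prop} (h : ∀ e, E e → E' (e + 1)) (θ : TR810.Th (wO π s hs))
    (hθ : TT π s hs E θ) : ∃ θ' : TR810.Th (wO π s hs), TT π s hs E' θ' ∧
      ∀ j, θ.t * oS π s hs (xx π s hs j) - oS π s hs (xx π s hs j) * θ'.t = 0 := by
  obtain ⟨c, hc, ⟨e, he, h1⟩ | h1⟩ := hθ
  · refine ⟨oth π s hs (c * π.g) (e + 1), oth_TT π s hs (mul_ne_zero hc π.g0) (h e he), fun j => ?_⟩
    rw [h1]
    show oS π s hs (c • (thE π s hs e).t) * oS π s hs (xx π s hs j) -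
      oS π s hs (xx π s hs j) * oS π s hs ((c * π.g) • (thE π s hs (e + 1)).t) = 0
    rw [oS_mul, oS_mul, mul_smul_comm, smul_mul_assoc, xx_thE, smul_smul, sub_self]
  · refine ⟨othH π s hs c, othH_TT π s hs E' hc, fun j => ?_⟩
    rw [h1]
    show oS π s hs (c • (thH π s hs).t) * oS π s hs (xx π s hs j) -
      oS π s hs (xx π s hs j) * oS π s hs (c • (thH π s hs).t) = 0
    rw [oS_mul, oS_mul, mul_smul_comm, smul_mul_assoc, xx_thH, sub_self]

theorem TT_kx {E E' : ℤ → Prop} (h : ∀ e, E e → E' (e + 1)) (θ : TR810.Th (wO π s hs))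
    (hθ : TT π s hs E θ) : ∃ θ' : TR810.Th (wO π s hs), TT π s hs E' θ' ∧
      ∀ j, θ.t * oS π s hs (kx π s hs j) - oS π s hs (kx π s hs j) * θ'.t = 0 := by
  obtain ⟨θ', h1, h2⟩ := TT_xx π s hs h θ hθ
  exact ⟨θ', h1, fun j => h2 (1 - j)⟩

/-- index sets -/
def E0 (e : ℤ) : Prop := 1 ≤ e
def E1 (e : ℤ) : Prop := -1 ≤ e

/-- `T0`, `T1 = T2` of `TRD` -/
def T0 : TR810.Th (wO π s hs) → Prop := TT π s hs E0
def T1 : TR810.Th (wO π s hs) → Prop := TT π s hs E1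

theorem T01 (θ : TR810.Th (wO π s hs)) (h : T0 π s hs θ) : T1 π s hs θ :=
  TT_mono π s hs (fun e (he : 1 ≤ e) => show -1 ≤ e by omega) θ h

/-- `T2x` of `TRD` with `Fl 0 = oJ` -/
theorem T2x (θ : TR810.Th (wO π s hs)) (hθ : T1 π s hs θ) :
    ∃ θ' : TR810.Th (wO π s hs), T1 π s hs θ' ∧
      (∀ j, θ.t * oS π s hs (xx π s hs j) - oS π s hs (xx π s hs j) * θ'.t ∈ oJ π s hs) ∧
      ∃ θ'' : TR810.Th (wO π s hs), T0 π s hs θ'' ∧
        ∀ j, θ'.t * oS π s hs (kx π s hs j) - oS π s hs (kx π s hs j) * θ''.t ∈ oJ π s hs := by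
  obtain ⟨θ', h1, h2⟩ := TT_xx π s hs (E' := fun e => 0 ≤ e)
    (fun e (he : -1 ≤ e) => show 0 ≤ e + 1 by omega) θ hθ
  obtain ⟨θ'', h3, h4⟩ := TT_kx π s hs (E' := E0)
    (fun e (he : 0 ≤ e) => show 1 ≤ e + 1 by omega) θ' h1
  refine ⟨θ', TT_mono π s hs (fun e (he : 0 ≤ e) => show -1 ≤ e by omega) θ' h1, fun j => ?_,
    θ'', h3, fun j => ?_⟩
  · rw [h2 j]; exact Submodule.zero_mem _
  · rw [h4 j]; exact Submodule.zero_mem _

/-- `x`, `kk` of `TRD` -/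
def ox (j : Fin 2) : (wO π s hs).S := oS π s hs (xx π s hs j)
def okk (j : Fin 2) : (wO π s hs).S := oS π s hs (kx π s hs j)

theorem ox_mem (j : Fin 2) : ox π s hs j ∈ (wO π s hs).pc 1 0 0 := xx_mem π s hs j
theorem okk_mem (j : Fin 2) : okk π s hs j ∈ (wO π s hs).pc 1 0 0 := kx_mem π s hs j

theorem ox_D (j : Fin 2) : (wO π s hs).D (ox π s hs j) = 0 := by
  rw [ox, oS_D, xx_D]; rfl

theorem okk_D (j : Fin 2) : (wO π s hs).D (okk π s hs j) = 0 := by
  rw [okk, oS_D, kx_D]; rfl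

theorem oS_unop (x : (wO π s hs).S) : oS π s hs (unop x) = x := rfl

theorem ox_okk : ∑ j, ox π s hs j * okk π s hs j ∈ oJ π s hs := by
  have h := x_kR π s hs
  rw [Fin.sum_univ_two] at h ⊢
  exact h

theorem ogen {P A C : ℤ} {y : (wO π s hs).S} (hP : 1 ≤ P) (hy : y ∈ (wO π s hs).pc P A C) :
    ∃ z : Fin 2 → (wO π s hs).S, (∀ j, z j ∈ (wO π s hs).pc (P - 1) A C) ∧
      y - ∑ j, ox π s hs j * z j ∈ oJ π s hs := by
  obtain ⟨z, hz, h⟩ := genR π s hs (y := unop y) hP hy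
  refine ⟨fun j => oS π s hs (z j), hz, ?_⟩
  rw [Fin.sum_univ_two] at h ⊢
  exact h

theorem oker {P A C : ℤ} (z : Fin 2 → (wO π s hs).S)
    (hz : ∀ j, z j ∈ (wO π s hs).pc (P - 1) A C) (h : ∑ j, ox π s hs j * z j ∈ oJ π s hs) :
    ∃ v ∈ (wO π s hs).pc (P - 2) A C, ∀ j, z j - okk π s hs j * v ∈ oJ π s hs := by
  rw [Fin.sum_univ_two] at h
  obtain ⟨v, hv, h1⟩ := kerR π s hs (P := P) (A := A) (C := C) (fun j => unop (z j)) hz (by
    rw [Fin.sum_univ_two]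
    exact h)
  exact ⟨oS π s hs v, hv, h1⟩

theorem oinj {v : (wO π s hs).S} (h : okk π s hs 0 * v ∈ oJ π s hs) : v ∈ oJ π s hs :=
  injR π s hs (v := unop v) h

end Crest.Agent.R186.TRopK374
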