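import Crest.Agent.R186.TRopF_296
import Crest.Agent.R186.TRopK2_374

/-!
Row 186 (A) (helper296): the instance `trdOp : TRD (opW (bdM π s hs).ext 1 3)` of 810's structure
(right multiplications), from the coordinates of `TRopF_296` and 374's theta / Koszul fields.
-/

set_option autoImplicit false

noncomputable section

namespace Crest.Agent.R186.TRop296

open MulOpposite Hat827 Hat827.DGA Frame515 Win810 TR810 CoTRD296 TRopF296
open Crest.Agent.R186.DefsQ830 Crest.Agent.R186.PBW128
open Crest.Agent.R186.C2b362 (pz)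
open Crest.Agent.R186.C2b44 (kill)
open Crest.Agent.R186.KOS296 (pcZ_eq_pz)
open Crest.Agent.R186.WLF296 (lev)
open Crest.Agent.R186.SM890 (MM oM pcM bdM smul_oM op_smul_oM mem_pcM dMM dMM_oM tau Tq)
open Crest.Agent.R186.KOSM296 (cM sum_cM cM_mem)
open Crest.Agent.R186.Opw671 (opW)
open Crest.Agent.R186.TRopK374 (wS wO iR iM F1 F2 ext2 oS oJ J1)

variable {K : Type} [Field K] (π : Par K) (s : ℕ) (hs : 2 ≤ s)

/-- `iR` as a linear map -/
def iRl : R π →ₗ[K] (wS π s hs).S where
  toFun r := iR π s hs r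
  map_add' a b := by
    apply ext2
    · rfl
    · show (0 : N K) = 0 + 0
      rw [add_zero]
  map_smul' c a := by
    apply ext2
    · rfl
    · show (0 : N K) = c • 0
      rw [smul_zero]

theorem iRl_apply (r : R π) : iRl π s hs r = iR π s hs r := rfl

/-- second component, on `MM` -/
def Fm : (wS π s hs).S →ₗ[K] MM π where
  toFun x := x.2
  map_add' _ _ := rfl
  map_smul' _ _ := rfl

theorem ext3 {x y : (wS π s hs).S} (h1 : F1 π s hs x = F1 π s hs y)
    (h2 : Fm π s hs x = Fm π s hs y) : x = y := ext2 π s hs h1 h2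

@[simp] theorem F1_iR (r : R π) : F1 π s hs (iR π s hs r) = r := rfl
@[simp] theorem Fm_iR (r : R π) : Fm π s hs (iR π s hs r) = 0 := rfl
@[simp] theorem F1_iM (m : MM π) : F1 π s hs (iM π s hs m) = 0 := rfl
@[simp] theorem Fm_iM (m : MM π) : Fm π s hs (iM π s hs m) = m := rfl

theorem F1_mul (x y : (wS π s hs).S) : F1 π s hs (x * y) = F1 π s hs x * F1 π s hs y := rfl
theorem Fm_mul (x y : (wS π s hs).S) : Fm π s hs (x * y) =
    F1 π s hs x • Fm π s hs y + MulOpposite.op (F1 π s hs y) • Fm π s hs x := rfl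
theorem F1_D (x : (wS π s hs).S) : F1 π s hs ((wS π s hs).D x) = Der580.D π (F1 π s hs x) := rfl
theorem Fm_D (x : (wS π s hs).S) : Fm π s hs ((wS π s hs).D x) = dMM π (Fm π s hs x) := rfl

/-- letters in `S` -/
def us : Bool × Wb → (wS π s hs).S
  | (false, q) => iR π s hs (wq π q)
  | (true, q) => iM π s hs (oM π q 1)

/-- coordinates in `S` -/
def cs : Bool × Wb → ((wS π s hs).S →ₗ[K] (wS π s hs).S)
  | (false, q) => iRl π s hs ∘ₗ cq π q ∘ₗ F1 π s hs
  | (true, q) => iRl π s hs ∘ₗ cM π q ∘ₗ Fm π s hs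

/-- levels -/
def lv : Bool × Wb → ℕ
  | (false, q) => lev q
  | (true, q) => 5 - lev q

theorem lev_le (q : Wb) : lev q ≤ 2 := by cases q <;> simp [lev]

theorem mul_us_false (q : Wb) (z : (wS π s hs).S) : F1 π s hs (z * us π s hs (false, q)) =
    F1 π s hs z * wq π q := rfl

theorem mul_us_true (q : Wb) (z : (wS π s hs).S) : z * us π s hs (true, q) =
    iM π s hs (oM π q (F1 π s hs z)) := by
  apply ext3
  · rw [F1_mul, F1_iM]
    show _ * (0 : R π) = 0
    rw [mul_zero]
  · rw [Fm_mul, Fm_iM]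
    show F1 π s hs z • oM π q 1 + MulOpposite.op (0 : R π) • Fm π s hs z = _
    rw [MulOpposite.op_zero, zero_smul, add_zero, smul_oM, mul_one]

theorem us_true_mul (q : Wb) (z : (wS π s hs).S) : us π s hs (true, q) * z =
    iM π s hs (oM π q (tau π (Tq π q) (F1 π s hs z))) := by
  apply ext3
  · rw [F1_mul, F1_iM]
    show (0 : R π) * _ = 0
    rw [zero_mul]
  · rw [Fm_mul, Fm_iM]
    show (0 : R π) • Fm π s hs z + MulOpposite.op (F1 π s hs z) • oM π q 1 = _
    rw [zero_smul, zero_add, op_smul_oM, one_mul]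

theorem sum_cs (x : (wS π s hs).S) : x = ∑ k, cs π s hs k x * us π s hs k := by
  rw [Fintype.sum_prod_type, Fintype.sum_bool]
  apply ext3
  · rw [map_add, map_sum, map_sum]
    rw [Finset.sum_eq_zero (fun q _ => ?_), zero_add]
    · exact sum_cq π (F1 π s hs x)
    · rw [mul_us_true]; rfl
  · rw [map_add, map_sum, map_sum]
    rw [Finset.sum_eq_zero (s := Finset.univ)
      (f := fun q => Fm π s hs (cs π s hs (false, q) x * us π s hs (false, q))) (fun q _ => ?_),
      add_zero]
    · conv_lhs => rw [sum_cM π (Fm π s hs x)]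
      refine Finset.sum_congr rfl fun q _ => ?_
      rw [mul_us_true]
      rfl
    · rw [Fm_mul]
      show cq π q (F1 π s hs x) • (0 : MM π) + MulOpposite.op (wq π q) • (0 : MM π) = 0
      rw [smul_zero, smul_zero, add_zero]

/-- coordinates in the opposite ring -/
def co' (k : Bool × Wb) : (wO π s hs).S →ₗ[K] (wO π s hs).S :=
  (opLinearEquiv K).toLinearMap ∘ₗ cs π s hs k ∘ₗ (opLinearEquiv K).symm.toLinearMap

theorem co'_apply (k : Bool × Wb) (x : (wO π s hs).S) :
    co' π s hs k x = oS π s hs (cs π s hs k (unop x)) := rfl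

theorem oS_inj {x y : (wS π s hs).S} (h : x = y) : oS π s hs x = oS π s hs y := by rw [h]

theorem cs_u (k k' : Bool × Wb) (z : (wS π s hs).S) (h : lv k ≤ lv k') :
    cs π s hs k (z * us π s hs k') = if k = k' then cs π s hs (false, .one) z else 0 := by
  rcases k with ⟨b | b, q⟩ <;> rcases k' with ⟨b' | b', q'⟩
  · have h' : lev q ≤ lev q' := h
    show iRl π s hs (cq π q (F1 π s hs (z * us π s hs (false, q')))) =
      if ((false, q) : Bool × Wb) = (false, q') then iRl π s hs (cq π .one (F1 π s hs z)) else 0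
    rw [mul_us_false, cq_mul_wq π q q' _ h', cq_one]
    by_cases h2 : q = q'
    · rw [if_pos h2, if_pos (by rw [h2])]
    · rw [if_neg h2, if_neg (fun h3 => h2 (Prod.ext_iff.1 h3).2), map_zero]
  · rw [if_neg (by simp)]
    show iRl π s hs (cq π q (F1 π s hs (z * us π s hs (true, q')))) = 0
    rw [mul_us_true, F1_iM, map_zero, map_zero]
  · exfalso
    have h1 : 5 - lev q ≤ lev q' := h
    have h2 := lev_le q
    have h3 := lev_le q'
    omega
  · have h' : 5 - lev q ≤ 5 - lev q' := h
    have h2 := lev_le q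
    have h3 := lev_le q'
    show iRl π s hs (cM π q (Fm π s hs (z * us π s hs (true, q')))) =
      if ((true, q) : Bool × Wb) = (true, q') then iRl π s hs (cq π .one (F1 π s hs z)) else 0
    rw [mul_us_true, Fm_iM, cM_oM_lev π q q' _ (by omega), cq_one]
    by_cases h4 : q = q'
    · rw [if_pos h4, if_pos (by rw [h4])]
    · rw [if_neg h4, if_neg (fun h3 => h4 (Prod.ext_iff.1 h3).2), map_zero]

theorem cs_l (k k' : Bool × Wb) (z : (wS π s hs).S) (h : lv k < lv k') :
    cs π s hs k (us π s hs k' * z) = 0 := by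
  rcases k with ⟨b | b, q⟩ <;> rcases k' with ⟨b' | b', q'⟩
  · show iRl π s hs (cq π q (F1 π s hs (us π s hs (false, q') * z))) = 0
    have e : F1 π s hs (us π s hs (false, q') * z) = wq π q' * F1 π s hs z := rfl
    rw [e, cq_wq_mul π q q' _ h, map_zero]
  · show iRl π s hs (cq π q (F1 π s hs (us π s hs (true, q') * z))) = 0
    rw [us_true_mul, F1_iM, map_zero, map_zero]
  · exfalso
    have h1 : 5 - lev q < lev q' := h
    have h2 := lev_le q
    have h3 := lev_le q'
    omega
  · have h' : 5 - lev q < 5 - lev q' := h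
    have h2 := lev_le q
    have h3 := lev_le q'
    show iRl π s hs (cM π q (Fm π s hs (us π s hs (true, q') * z))) = 0
    rw [us_true_mul, Fm_iM, cM_oM_lev π q q' _ (by omega), if_neg, map_zero]
    rintro rfl
    omega

/-- **the coordinates of the opposite ring** -/
def coO : Co (wO π s hs) where
  Q := Bool × Wb
  l := lv
  k0 := (false, .one)
  l0 k := by
    rcases k with ⟨b | b, q⟩ <;> cases q <;> simp [lv, lev]
  r := 5
  lr k := by
    rcases k with ⟨b | b, q⟩ <;> cases q <;> simp [lv, lev]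
  u k := oS π s hs (us π s hs k)
  uP k := if k.1 = true then 1 else 0
  uP01 k := by
    by_cases h : k.1 = true
    · right; rw [if_pos h]
    · left; rw [if_neg h]
  uC k := if k.1 = true then s - wC k.2.word else wC k.2.word
  u_mem k := by
    have hw := wC_word_le k.2
    rcases k with ⟨b | b, q⟩
    · refine ⟨?_, Submodule.zero_mem _⟩
      show wq π q ∈ pcZ π (-0) 0 ((wC q.word : ℕ) : ℤ)
      have h0 : wq π q ∈ pc π 0 0 (wC q.word) :=
        Submodule.subset_span ⟨q.word, wP_word q, wA_word q, rfl, rfl⟩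
      rw [neg_zero, ← Nat.cast_zero (R := ℤ), pcZ_nat]
      exact h0
    · refine ⟨Submodule.zero_mem _, ?_⟩
      show oM π q 1 ∈ pcM π s (-1) 0 ((s - wC q.word : ℕ) : ℤ)
      refine mem_pcM π s q (C' := 0) ?_ ?_
      · rw [neg_add_cancel]; exact pcZ_one π
      · have : ((s - wC q.word : ℕ) : ℤ) = s - wC q.word := by
          have : wC q.word ≤ s := hw.trans hs
          omega
        rw [this]; ring
  D_u k := by
    rcases k with ⟨b | b, q⟩
    · refine oS_inj π s hs (ext3 π s hs (y := 0) ?_ ?_)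
      · exact WLF296.D_wq q
      · exact map_zero (dMM π)
    · refine oS_inj π s hs (ext3 π s hs (y := 0) ?_ ?_)
      · exact map_zero (Der580.D π)
      · show dMM π (oM π q 1) = 0
        rw [dMM_oM, Der580.D_one, map_zero]
  co := co' π s hs
  sum_co x := by
    have h := oS_inj π s hs (sum_cs π s hs (unop x))
    have h2 : oS π s hs (∑ k, cs π s hs k (unop x) * us π s hs k) =
        ∑ k, oS π s hs (us π s hs k) * co' π s hs k x :=
      map_sum (opLinearEquiv K : (wS π s hs).S ≃ₗ[K] (wS π s hs).Sᵐᵒᵖ)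
        (fun k => cs π s hs k (unop x) * us π s hs k) Finset.univ
    rw [h2] at h
    exact h
  co_u k k' z h := by
    show oS π s hs (cs π s hs k (unop z * us π s hs k')) = _
    rw [cs_u π s hs k k' _ h]
    by_cases h1 : k = k'
    · rw [if_pos h1, if_pos h1]; rfl
    · rw [if_neg h1, if_neg h1]; rfl
  co_l k k' z h := by
    show oS π s hs (cs π s hs k (us π s hs k' * unop z)) = _
    rw [cs_l π s hs k k' _ h]; rfl
  co_mem k {P A C x} hx := by
    have hx' : (unop x : (wS π s hs).S) ∈ (wS π s hs).pc P A C := hx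
    rcases k with ⟨b | b, q⟩
    · refine ⟨?_, Submodule.zero_mem _⟩
      show cq π q (F1 π s hs (unop x)) ∈ pcZ π (P + 0) A (C - (wC q.word : ℕ))
      have h1 := hx'.1
      rw [add_zero, pcZ_eq_pz]
      refine cq_mem π ?_ q
      rw [← pcZ_eq_pz]
      exact h1
    · refine ⟨?_, Submodule.zero_mem _⟩
      have hw := wC_word_le q
      show cM π q (Fm π s hs (unop x)) ∈ pcZ π (P + 1) A (C - ((s - wC q.word : ℕ) : ℤ))
      have h1 := cM_mem π s hx'.2 q
      have : ((s - wC q.word : ℕ) : ℤ) = s - wC q.word := by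
        have : wC q.word ≤ s := hw.trans hs
        omega
      rw [this, pcZ_eq_pz, show C - ((s : ℤ) - wC q.word) = C - s + wC q.word by ring]
      exact h1

theorem Fl0_eq : (coO π s hs).Fl 0 = oJ π s hs := by
  ext x
  rw [Co.mem_Fl0]
  show oS π s hs (iR π s hs (cq π .one (F1 π s hs (unop x)))) = 0 ↔ kill π (F1 π s hs (unop x)) = 0
  rw [cq_one]
  constructor
  · intro h
    exact congrArg (fun y : (wO π s hs).S => F1 π s hs (unop y)) h
  · intro h
    rw [h]
    rfl

/-- **the instance of 810's `TRD` for the opposite window data** -/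
def trdOp : TRD (wO π s hs) where
  lo := 0
  neg {P A C} hC := by
    rw [eq_bot_iff]
    intro x hx
    have hx' : (unop x : (wS π s hs).S) ∈ (wS π s hs).pc P A C := hx
    have h1 : F1 π s hs (unop x) ∈ pcZ π P A C := hx'.1
    have h2 : Fm π s hs (unop x) ∈ pcM π s P A C := hx'.2
    rw [pcZ_neg π (Or.inr hC)] at h1
    rw [SM890.pcM_bot π s (fun q => pcZ_neg π (Or.inr (by have := wC_word_le q; omega)))] at h2
    exact congrArg (oS π s hs) (ext3 π s hs (x := unop x) (y := 0) h1 h2)
  r := 5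
  Fl := (coO π s hs).Fl
  Fr := (coO π s hs).Fl_r_bot
  anti := (coO π s hs).Fl_anti
  Fl_l i s' {a} ha := (coO π s hs).Fl_left s' ha
  Fl_r i s' {a} ha := (coO π s hs).Fl_right s' ha
  Fl_D i {a} ha := (coO π s hs).Fl_D ha
  κ := (coO π s hs).kap
  u i k := (coO π s hs).u k.1
  uP i k := (coO π s hs).uP k.1
  uP01 i k := (coO π s hs).uP01 k.1
  uC i k := (coO π s hs).uC k.1
  u_mem i k := (coO π s hs).u_mem k.1
  u_F i k := by
    have := (coO π s hs).u_mul_mem k.1 1 (i := i) (by rw [k.2]; omega)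
    rwa [mul_one] at this
  u_J i k {s'} hs' := (coO π s hs).u_J k hs'
  u_D i k := by
    rw [(coO π s hs).D_u]; exact Submodule.zero_mem _
  gen i {P A C x} _ hx hp := (coO π s hs).gen hx hp
  uniq i {P A C} z _ _ h k := (coO π s hs).uniq z h k
  T0 := TRopK374.T0 π s hs
  T1 := TRopK374.T1 π s hs
  T2 := TRopK374.T1 π s hs
  T01 := TRopK374.T01 π s hs
  T12 θ h := h
  u_th θ hθ i k := by
    have h : θ.t * (coO π s hs).u k.1 - (coO π s hs).u k.1 * θ.t = 0 := by
      obtain ⟨⟨b | b, q⟩, hk⟩ := k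
      · exact TRopK374.TT_wq π s hs θ hθ q
      · exact TRopK374.TT_oM π s hs θ hθ q
    rw [h]; exact Submodule.zero_mem _
  x := TRopK374.ox π s hs
  x_mem := TRopK374.ox_mem π s hs
  x_D := TRopK374.ox_D π s hs
  kk := TRopK374.okk π s hs
  kk_mem := TRopK374.okk_mem π s hs
  kk_D := TRopK374.okk_D π s hs
  x_kk := by
    rw [Fl0_eq]; exact TRopK374.ox_okk π s hs
  T2x θ hθ := by
    rw [Fl0_eq]; exact TRopK374.T2x π s hs θ hθ
  x_gen {P A C y} hP hy := by
    rw [Fl0_eq]; exact TRopK374.ogen π s hs hP hy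
  x_ker {P A C} z hz h := by
    rw [Fl0_eq] at h ⊢; exact TRopK374.oker π s hs z hz h
  x_inj {s'} h := by
    rw [Fl0_eq] at h ⊢; exact TRopK374.oinj π s hs h

end Crest.Agent.R186.TRop296
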