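import Crest.Agent.R186.TRqo_247
import Crest.Agent.R186.TRop_296

/-!
Row 186 (A), (V') item (1a) (helper247), bound to 296's instance `TRop296.trdOp`.
-/

set_option autoImplicit false

noncomputable section

namespace Crest.Agent.R186.TRqo247

open Hat827 Hat827.DGA Frame515 Res255 Win810 TR810 KHc302 Opw671 FinV988 TRio247 FamU654
open Crest.Agent.R186.DefsQ830 Crest.Agent.R186.SM890 Crest.Agent.R186.WL221
open Crest.Agent.R186.ThK763 (wS)

variable {K : Type} [Field K] (π : Par K) (s : ℕ) (hs : 5 ≤ s)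

/-- 296's data is an instance -/
theorem to296 : TO π s hs (TRop296.trdOp π s (two_le hs)) where
  J := TRop296.Fl0_eq π s (two_le hs)
  T0 _ h := h
  T1 _ h := h
  T2 _ h := h

variable {π s hs} {Y : RCells (wS π s (two_le hs)).dga}
  (R : RRes Y (DR (TRin772.VG π s (two_le hs) (-1))))

include R in
/-- **row `1`, `theta_0`** -/
theorem q1' {a : ℕ} (ha : a < 3) : QI ((TLo π s hs (cL 1 3 Y)).thH 1 1 a) :=
  q1 R (to296 π s hs) ha

include R in
/-- **row `2`, `theta_(-1)`** -/
theorem q2' {a : ℕ} (ha : a < 3) : QI ((TLo π s hs (cL 1 3 Y)).thH π.g 2 a) :=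
  q2 R (to296 π s hs) ha

include R in
/-- **row `1`, `h`** -/
theorem qh1' {a : ℕ} (ha : a < 3) : QI (hH (hs := hs) (cL 1 3 Y) 1 a) :=
  qh1 R (to296 π s hs) ha

include R in
/-- **row `2`, `h`** -/
theorem qh2' {a : ℕ} (ha : a < 3) : QI (hH (hs := hs) (cL 1 3 Y) 2 a) :=
  qh2 R (to296 π s hs) ha

end Crest.Agent.R186.TRqo247
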