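import Crest.Agent.R186.KOn_163
import Crest.Agent.R186.KKf_354
import Crest.Agent.R186.TRqp_247

/-!
Row 186, half (A), (V') (helper163): the rows `U (p, a)` over the opposite window are the columns of
`N = t(tL)`; the quasi-isomorphisms `thH` of 247 on the columns of `NtL`.
-/

set_option autoImplicit false
set_option linter.style.haveILetI false
set_option linter.unusedSectionVars false

noncomputable section

open MulOpposite

namespace Crest.Agent.R186.KO163

open Hat827 Win810 Frame515 Res255 KHev302 Opw671 V340 SM890 DefsQ830 Cells221 HB362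

variable {K : Type} [Field K] {π : Par K} {s : ℕ} {hs : 5 ≤ s}

/-- theta bijective on the homology of the columns, elementwise -/
structure ThB (N : RM (WR π).dga) (c : K) (i : Fin 2) (b : ℕ) : Prop where
  inj : ∀ (n : ℤ) (x : N.X), x ∈ N.gr n → rmul N (KKh354.ee π i ((b : ℤ) + 1)) x = x → N.d x = 0 →
    (∃ y ∈ N.gr (n + 1), rmul N (KKf354.mtt π) x + c • rmul N (KKf354.mh π) x = N.d y) →
    ∃ v ∈ N.gr (n + 1), x = N.d v
  sur : ∀ (n : ℤ) (y : N.X), y ∈ N.gr n → rmul N (KKh354.ee π i (b : ℤ)) y = y → N.d y = 0 →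
    ∃ x ∈ N.gr n, rmul N (KKh354.ee π i ((b : ℤ) + 1)) x = x ∧ N.d x = 0 ∧
      ∃ z ∈ N.gr (n + 1), y = rmul N (KKf354.mtt π) x + c • rmul N (KKf354.mh π) x + N.d z

/-- entries of a row -/
def eR {p a : ℤ} (f : Row (EO π s hs) p a) (j : DefsQ830.Ob) : WL221.RL π :=
  unop (show (WL221.RL π)ᵐᵒᵖ from f.1 j)

theorem eR_ext {p a : ℤ} {f f' : Row (EO π s hs) p a} (h : ∀ j, eR f j = eR f' j) : f = f' :=
  row_ext fun j => unop_injective (h j)

section col

variable (o : DefsQ830.Ob) {p a : ℤ} (hp : p = 2 - (WR π).P o) (ha : a = 3 - (WR π).A o)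

include hp ha in
theorem rb_iff (j : DefsQ830.Ob) (k : ℤ) (x : WL221.RL π) :
    (op x : (EO π s hs).B) ∈ (EO π s hs).pb
      (p - (opW (KHc302.WG π s (KHc302.two_le hs)) 1 3).P j)
      (a - (opW (KHc302.WG π s (KHc302.two_le hs)) 1 3).A j) k ↔
      x ∈ WL221.pcL π ((WR π).P j - (WR π).P o + 1) ((WR π).A j - (WR π).A o) k := by
  change x ∈ WL221.pcL π (p - (1 - (WR π).P j)) (a - (3 - (WR π).A j)) k ↔ _
  rw [hp, ha, show 2 - (WR π).P o - (1 - (WR π).P j) = (WR π).P j - (WR π).P o + 1 by ring,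
    show 3 - (WR π).A o - (3 - (WR π).A j) = (WR π).A j - (WR π).A o by ring]

theorem q_iff' (j : DefsQ830.Ob) (k : ℤ) (x : WL221.RL π) :
    x ∈ (tLT π s).q j o k ↔
      x ∈ WL221.pcL π ((WR π).P j - (WR π).P o + 1) ((WR π).A j - (WR π).A o) (k - s) := by
  exact iff_of_eq (congrArg (fun S : Submodule K (WL221.RL π) => x ∈ S) (q_tLT π s j o k))

include hp ha in
theorem op_EB' (j : DefsQ830.Ob) {x : WL221.RL π} (hx : x ∈ Core890.E (tLT π s) j o) :
    (op x : (EO π s hs).B) ∈ (EO π s hs).EB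
      (p - (opW (KHc302.WG π s (KHc302.two_le hs)) 1 3).P j)
      (a - (opW (KHc302.WG π s (KHc302.two_le hs)) 1 3).A j) := by
  have h : Core890.E (tLT π s) j o ≤ ((EO π s hs).EB
      (p - (opW (KHc302.WG π s (KHc302.two_le hs)) 1 3).P j)
      (a - (opW (KHc302.WG π s (KHc302.two_le hs)) 1 3).A j)).comap
      (opLinearEquiv K : WL221.RL π ≃ₗ[K] (WL221.RL π)ᵐᵒᵖ).toLinearMap :=
    iSup_le fun k y hy => CE.pb_le (E := EO π s hs) _ _ (k - s)
      ((rb_iff o hp ha j (k - s) y).2 ((q_iff' o j k y).1 hy))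
  exact h hx

include hp ha in
theorem unop_E' (j : DefsQ830.Ob) {x : (EO π s hs).B} (hx : x ∈ (EO π s hs).EB
      (p - (opW (KHc302.WG π s (KHc302.two_le hs)) 1 3).P j)
      (a - (opW (KHc302.WG π s (KHc302.two_le hs)) 1 3).A j)) :
    (unop (show (WL221.RL π)ᵐᵒᵖ from x) : WL221.RL π) ∈ Core890.E (tLT π s) j o := by
  have h : (EO π s hs).EB
      (p - (opW (KHc302.WG π s (KHc302.two_le hs)) 1 3).P j)
      (a - (opW (KHc302.WG π s (KHc302.two_le hs)) 1 3).A j) ≤
      (Core890.E (tLT π s) j o).comap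
      (opLinearEquiv K : WL221.RL π ≃ₗ[K] (WL221.RL π)ᵐᵒᵖ).symm.toLinearMap :=
    CE.EB_ind fun k y hy => Core890.q_le_E (tLT π s) j o (k + s)
      ((q_iff' o j (k + s) _).2 (by
        rw [add_sub_cancel_right]
        exact (rb_iff (hs := hs) o hp ha j k (unop (show (WL221.RL π)ᵐᵒᵖ from y))).1 hy))
  exact h hx

/-- a column as a row of the opposite -/
def toR : (tLW π s).X →ₗ[K] Row (EO π s hs) p a where
  toFun z := ⟨fun j => (op (eT π s z j o) : (WL221.RL π)ᵐᵒᵖ), fun j => op_EB' o hp ha j (z.2 j o)⟩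
  map_add' x y := eR_ext fun j => rfl
  map_smul' r x := eR_ext fun j => rfl

theorem eR_toR (z : (tLW π s).X) (j : DefsQ830.Ob) :
    eR (toR (hs := hs) o hp ha z) j = eT π s z j o := rfl

theorem iteE' (f : Row (EO π s hs) p a) (i j : DefsQ830.Ob)
    (hp : p = 2 - (WR π).P o) (ha : a = 3 - (WR π).A o) :
    (if o = j then eR f i else 0) ∈ Core890.E (tLT π s) i j := by
  by_cases h : o = j
  · rw [if_pos h, ← h]
    exact unop_E' o hp ha i (f.2 i)
  · rw [if_neg h]
    exact Submodule.zero_mem _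

/-- a row of the opposite as a matrix with one column -/
def frR : Row (EO π s hs) p a →ₗ[K] (tLW π s).X where
  toFun f := (⟨fun (i j : DefsQ830.Ob) => if o = j then eR f i else 0,
    fun i j => iteE' o f i j hp ha⟩ : Core890.Xs (tLT π s))
  map_add' x y := by
    refine eT_ext π s fun i j => ?_
    change (if o = j then eR x i + eR y i else 0) =
      (if o = j then eR x i else 0) + (if o = j then eR y i else 0)
    split_ifs <;> simp
  map_smul' r x := by
    refine eT_ext π s fun i j => ?_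
    change (if o = j then r • eR x i else 0) = r • (if o = j then eR x i else 0)
    split_ifs <;> simp

theorem eT_frR (f : Row (EO π s hs) p a) (i j : DefsQ830.Ob) :
    eT π s (frR o hp ha f) i j = if o = j then eR f i else 0 := rfl

theorem eR_add (f f' : Row (EO π s hs) p a) (j : DefsQ830.Ob) : eR (f + f') j = eR f j + eR f' j := rfl

theorem eR_zero (j : DefsQ830.Ob) : eR (0 : Row (EO π s hs) p a) j = 0 := rfl

theorem eR_sum {ι : Type} (S : Finset ι) (f : ι → Row (EO π s hs) p a) (j : DefsQ830.Ob) :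
    eR (∑ x ∈ S, f x) j = ∑ x ∈ S, eR (f x) j := by
  classical
  induction S using Finset.induction_on with
  | empty => rfl
  | insert x S hx ih => rw [Finset.sum_insert hx, Finset.sum_insert hx, eR_add, ih]

theorem eR_R (m : (opW (KHc302.WG π s (KHc302.two_le hs)) 1 3).Win) (f : Row (EO π s hs) p a)
    (j : DefsQ830.Ob) : eR (rowR (EO π s hs) p a m f) j = ∑ i : DefsQ830.Ob,
      KHc302.pW π s (KHc302.two_le hs)
        (unop (show ((KHc302.WG π s (KHc302.two_le hs)).S)ᵐᵒᵖ from m.1 i j)) * eR f i := by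
  unfold eR
  have h : (show (WL221.RL π)ᵐᵒᵖ from (rowR (EO π s hs) p a m f).1 j) =
      ∑ i : DefsQ830.Ob, (show (WL221.RL π)ᵐᵒᵖ from f.1 i) *
        op (KHc302.pW π s (KHc302.two_le hs)
          (unop (show ((KHc302.WG π s (KHc302.two_le hs)).S)ᵐᵒᵖ from m.1 i j))) := rfl
  rw [h, unop_sum']
  rfl

variable {Y : RCells (Gm π s (KHc302.two_le hs))}

/-- the differential of the row -/
def dV (p a : ℤ) : (Y.ι →₀ Row (EO π s hs) p a) →ₗ[K] (Y.ι →₀ Row (EO π s hs) p a) :=
  dU (EO π s hs) (X := cL 1 3 Y) p a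

theorem dU_entry (u : Y.ι →₀ Row (EO π s hs) p a) (S : Finset Y.ι) (hS : u.support ⊆ S) (τ : Y.ι)
    (j : DefsQ830.Ob) : eR (dV p a u τ) j =
      WL221.DL π (eR (u τ) j) +
      ∑ σ ∈ S, ∑ i : DefsQ830.Ob, KHc302.pW π s (KHc302.two_le hs)
        ((show (KHc302.WG π s (KHc302.two_le hs)).Win from Y.c τ σ).1 j i) * eR (u σ) i := by
  have h : dV p a u τ = rowD (EO π s hs) p a (u τ) +
      ∑ σ ∈ S, rowR (EO π s hs) p a ((cL 1 3 Y).c σ τ) (u σ) :=
    dU_apply' (EO π s hs) (X := cL 1 3 Y) u S hS τ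
  rw [h, eR_add, eR_sum]
  congr 1

include hp ha in
theorem memU {k : ℤ} {u : Y.ι →₀ Row (EO π s hs) p a} :
    u ∈ (U (EO π s hs) (cL 1 3 Y) p a).gr k ↔
    ∀ σ, (∀ j : DefsQ830.Ob, eR (u σ) j ∈
      WL221.pcL π ((WR π).P j - (WR π).P o + 1) ((WR π).A j - (WR π).A o) (k - Y.s σ)) ∧
      ∀ j : DefsQ830.Ob, ∑ i : DefsQ830.Ob, KHc302.pW π s (KHc302.two_le hs)
        ((show (KHc302.WG π s (KHc302.two_le hs)).Win from Y.e σ).1 j i) * eR (u σ) i =
        eR (u σ) j := by
  constructor
  · intro h σ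
    have h1 := (U_mem (EO π s hs) (X := cL 1 3 Y)).1 h σ
    refine ⟨fun j => ?_, fun j => ?_⟩
    · exact (rb_iff o hp ha j _ _).1 (h1.1 j)
    · exact (eR_R _ _ _).symm.trans (congrArg (fun z => eR z j) h1.2)
  · intro h
    refine (U_mem (EO π s hs) (X := cL 1 3 Y)).2 fun σ => ⟨fun j => ?_, ?_⟩
    · exact (rb_iff o hp ha j _ _).2 ((h σ).1 j)
    · refine eR_ext fun j => ?_
      rw [eR_R]
      exact (h σ).2 j

end col


/-! ### theta -/

section th

variable {Y : RCells (Gm π s (KHc302.two_le hs))}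

/-- theta on the rows -/
def fV (l : K) (p : ℤ) (a : ℕ) :
    (Y.ι →₀ Row (EO π s hs) p a) →ₗ[K] (Y.ι →₀ Row (EO π s hs) p ((a + 1 : ℕ) : ℤ)) :=
  ((TRqo247.TLo π s hs (cL 1 3 Y)).thH l p a).f

theorem th_entry (l : K) (p : ℤ) (a : ℕ) (u : Y.ι →₀ Row (EO π s hs) p a) (σ : Y.ι)
    (j : DefsQ830.Ob) :
    eR (fV l p a u σ) j =
      eR (u σ) j * (WL221.prL π (tR π) + l • (π.g ^ 2)⁻¹ • WL221.prL π (X π .h)) := rfl

theorem rN_ee (i : Fin 2) (b : Fin 4) (x : Y.ι →₀ (tLW π s).X) (σ : Y.ι) (k j : DefsQ830.Ob) :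
    eT π s (rN (hs := hs) (KKh354.ee π i ((b.val : ℕ) : ℤ)) x σ) k j =
      if (i, b) = j then eT π s (x σ) k j else 0 := by
  rw [KKh354.ee_e, rN_e]

theorem ent_mtt (k l : DefsQ830.Ob) : QF354.ent π (KKf354.mtt π) k l =
    if k.1 = l.1 ∧ k.2.val = l.2.val + 1 then tR π else 0 := KKf354.mtt_ent π k l

theorem ent_mh (k l : DefsQ830.Ob) : QF354.ent π (KKf354.mh π) k l =
    if k.1 = l.1 ∧ k.2.val = l.2.val + 1 then X π .h else 0 := KKf354.mh_ent π k l

/-- theta on a column -/
theorem rN_th (c : K) (o o' : DefsQ830.Ob) (h1 : o.1 = o'.1) (h2 : o.2.val = o'.2.val + 1)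
    (x : Y.ι →₀ (tLW π s).X) (hx : ∀ σ k j, o ≠ j → eT π s (x σ) k j = 0) (σ : Y.ι)
    (k j : DefsQ830.Ob) :
    eT π s ((rN (hs := hs) (KKf354.mtt π) x + c • rN (hs := hs) (KKf354.mh π) x) σ) k j =
      if o' = j then eT π s (x σ) k o * (WL221.prL π (tR π) + c • WL221.prL π (X π .h)) else 0 := by
  have e1 : eT π s ((rN (hs := hs) (KKf354.mtt π) x + c • rN (hs := hs) (KKf354.mh π) x) σ) k j =
      eT π s (rN (hs := hs) (KKf354.mtt π) x σ) k j +
        c • eT π s (rN (hs := hs) (KKf354.mh π) x σ) k j := rfl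
  rw [e1, rN_entry, rN_entry, Finset.sum_eq_single o, Finset.sum_eq_single o]
  · rw [ent_mtt, ent_mh]
    by_cases h : o' = j
    · subst h
      rw [if_pos ⟨h1, h2⟩, if_pos ⟨h1, h2⟩, if_pos rfl, mul_add, mul_smul_comm]
    · have hn : ¬ (o.1 = j.1 ∧ o.2.val = j.2.val + 1) := by
        rintro ⟨h3, h4⟩
        exact h (Prod.ext (h1.symm.trans h3) (Fin.ext (by omega)))
      rw [if_neg hn, if_neg hn, if_neg h, map_zero, mul_zero, smul_zero, add_zero]
  · intro l _ hl
    rw [hx σ k l (Ne.symm hl), zero_mul]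
  · intro h
    exact absurd (Finset.mem_univ _) h
  · intro l _ hl
    rw [hx σ k l (Ne.symm hl), zero_mul]
  · intro h
    exact absurd (Finset.mem_univ _) h

/-- **theta on the columns of `t(tL)` from theta on the rows of the opposite** -/
theorem thB_of {l c : K} (hc : l * (π.g ^ 2)⁻¹ = c) (i : Fin 2) (b : ℕ) (hb : b < 3) (p : ℤ)
    (hp : p = 2 - (i.val : ℤ)) (a : ℕ) (ha : a + b = 2)
    (hQ : QI ((TRqo247.TLo π s hs (cL 1 3 Y)).thH l p a)) :
    ThB (tQ Y (tLG π s hs)) c i b := by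
  -- positions
  let o : DefsQ830.Ob := (i, ⟨b + 1, by omega⟩)
  let o' : DefsQ830.Ob := (i, ⟨b, by omega⟩)
  have hop : p = 2 - (WR π).P o := hp
  have hoa : (a : ℤ) = 3 - (WR π).A o := by
    change (a : ℤ) = 3 - (((b + 1 : ℕ) : ℕ) : ℤ)
    push_cast
    omega
  have hop' : p = 2 - (WR π).P o' := hp
  have hoa' : ((a + 1 : ℕ) : ℤ) = 3 - (WR π).A o' := by
    change ((a + 1 : ℕ) : ℤ) = 3 - (((b : ℕ) : ℕ) : ℤ)
    push_cast
    omega
  have ho : KKh354.ee π i ((b : ℤ) + 1) = WD.e (w := WR π) o := by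
    have h := KKh354.ee_e π i (⟨b + 1, by omega⟩ : Fin 4)
    have h2 : (((⟨b + 1, by omega⟩ : Fin 4).val : ℕ) : ℤ) = (b : ℤ) + 1 := by
      push_cast
      rfl
    rw [h2] at h
    exact h
  have ho' : KKh354.ee π i (b : ℤ) = WD.e (w := WR π) o' := KKh354.ee_e π i (⟨b, by omega⟩ : Fin 4)
  have hcc : ∀ z : WL221.RL π, z * (WL221.prL π (tR π) + l • (π.g ^ 2)⁻¹ • WL221.prL π (X π .h)) =
      z * (WL221.prL π (tR π) + c • WL221.prL π (X π .h)) := fun z => by
    rw [smul_smul, hc]
  have col : ∀ (q : DefsQ830.Ob) (x : Y.ι →₀ (tLW π s).X),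
      rN (hs := hs) (WD.e (w := WR π) q) x = x → ∀ σ k j, q ≠ j → eT π s (x σ) k j = 0 := by
    intro q x h σ k j hj
    have h2 := congrArg (fun z : Y.ι →₀ (tLW π s).X => eT π s (z σ) k j) h
    simp only [rN_e (hs := hs), if_neg hj] at h2
    exact h2.symm
  have colf : ∀ (q : DefsQ830.Ob) (x : Y.ι →₀ (tLW π s).X),
      (∀ σ k j, q ≠ j → eT π s (x σ) k j = 0) → rN (hs := hs) (WD.e (w := WR π) q) x = x := by
    intro q x h
    refine Finsupp.ext fun σ => eT_ext π s fun k j => ?_
    rw [rN_e]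
    by_cases hj : q = j
    · rw [if_pos hj]
    · rw [if_neg hj, h σ k j hj]
  constructor
  · intro n x0 hx0 hxe0 hxd0 hy0
    obtain ⟨y0, hyg0, hy0⟩ := hy0
    let x : Y.ι →₀ (tLW π s).X := x0
    let y : Y.ι →₀ (tLW π s).X := y0
    have hx : x ∈ (tQ Y (tLG π s hs)).gr n := hx0
    have hyg : y ∈ (tQ Y (tLG π s hs)).gr (n + 1) := hyg0
    have hxe : rN (hs := hs) (WD.e (w := WR π) o) x = x := by
      rw [← ho]
      exact hxe0
    have hxd : dN (hs := hs) x = 0 := hxd0
    have hth : rN (hs := hs) (KKf354.mtt π) x + c • rN (hs := hs) (KKf354.mh π) x =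
      dN (hs := hs) y := hy0
    have hcol := col o x hxe
    let u : Y.ι →₀ Row (EO π s hs) p a := Finsupp.mapRange.linearMap (toR o hop hoa) x
    let v : Y.ι →₀ Row (EO π s hs) p ((a + 1 : ℕ) : ℤ) :=
      Finsupp.mapRange.linearMap (toR o' hop' hoa') y
    have hu : ∀ σ j, eR (u σ) j = eT π s (x σ) j o := fun _ _ => rfl
    have hv : ∀ σ j, eR (v σ) j = eT π s (y σ) j o' := fun _ _ => rfl
    have huS : u.support ⊆ x.support := Finsupp.support_mapRange (hf := map_zero _)
    have hvS : v.support ⊆ y.support := Finsupp.support_mapRange (hf := map_zero _)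
    have hug : u ∈ (U (EO π s hs) (cL 1 3 Y) p a).gr (n - s) := by
      refine (memU o hop hoa).2 fun σ => ⟨fun j => ?_, fun j => ?_⟩
      · have h := (memN.1 hx σ).1 j o
        rw [show n - (Y.s σ : ℤ) - s = n - s - Y.s σ by ring] at h
        exact h
      · exact (memN.1 hx σ).2 j o
    have hvg : v ∈ (U (EO π s hs) (cL 1 3 Y) p ((a + 1 : ℕ) : ℤ)).gr (n - s + 1) := by
      refine (memU o' hop' hoa').2 fun σ => ⟨fun j => ?_, fun j => ?_⟩
      · have h := (memN.1 hyg σ).1 j o'
        rw [show n + 1 - (Y.s σ : ℤ) - s = n - s + 1 - Y.s σ by ring] at h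
        exact h
      · exact (memN.1 hyg σ).2 j o'
    have hud : dV p a u = 0 := by
      refine Finsupp.ext fun τ => eR_ext fun j => ?_
      rw [dU_entry u x.support huS]
      have h := congrArg (fun z : Y.ι →₀ (tLW π s).X => eT π s (z τ) j o) hxd
      have h' : eT π s (dN (hs := hs) x τ) j o = 0 := h
      rw [dN_entry (hs := hs) x x.support (Finset.Subset.refl _)] at h'
      exact h'
    have hfv : fV l p a u =
        dV p ((a + 1 : ℕ) : ℤ) v := by
      refine Finsupp.ext fun τ => eR_ext fun j => ?_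
      rw [th_entry, hcc, dU_entry v y.support hvS, hu]
      have h := congrArg (fun z : Y.ι →₀ (tLW π s).X => eT π s (z τ) j o') hth
      have h' : eT π s ((rN (hs := hs) (KKf354.mtt π) x +
        c • rN (hs := hs) (KKf354.mh π) x) τ) j o' = eT π s (dN (hs := hs) y τ) j o' := h
      rw [rN_th (hs := hs) c o o' rfl rfl x hcol, if_pos rfl,
        dN_entry (hs := hs) y y.support (Finset.Subset.refl _)] at h'
      exact h'
    obtain ⟨w0, hwg0, hw0⟩ := hQ.inj (n - s) u hug hud ⟨v, hvg, hfv⟩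
    let ww : Y.ι →₀ Row (EO π s hs) p a := w0
    have hwg := (memU o hop hoa (k := n - s + 1) (u := ww)).1 hwg0
    have hw : u = dV p a ww := hw0
    let xx : Y.ι →₀ (tLW π s).X := Finsupp.mapRange.linearMap (frR o hop hoa) ww
    have hxx : ∀ σ k j, eT π s (xx σ) k j = if o = j then eR (ww σ) k else 0 := fun _ _ _ => rfl
    have hxxS : xx.support ⊆ ww.support := Finsupp.support_mapRange (hf := map_zero _)
    refine ⟨xx, ?_, ?_⟩
    · refine memN.2 fun σ => ⟨fun k j => ?_, fun k j => ?_⟩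
      · rw [hxx]
        by_cases h : o = j
        · rw [if_pos h, ← h]
          have h1 := (hwg σ).1 k
          rw [show n - (s : ℤ) + 1 - Y.s σ = n + 1 - Y.s σ - s by ring] at h1
          exact h1
        · rw [if_neg h]
          exact Submodule.zero_mem _
      · simp only [hxx]
        by_cases h : o = j
        · simp only [if_pos h]
          exact (hwg σ).2 k
        · simp only [if_neg h, mul_zero, Finset.sum_const_zero]
    · change x = dN (hs := hs) xx
      refine Finsupp.ext fun σ => eT_ext π s fun k j => ?_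
      rw [dN_entry (hs := hs) xx ww.support hxxS]
      simp only [hxx]
      by_cases h : o = j
      · subst h
        simp only [if_true]
        rw [← hu, hw, dU_entry ww ww.support (Finset.Subset.refl _)]
      · simp only [if_neg h, map_zero, mul_zero, Finset.sum_const_zero, add_zero]
        exact hcol σ k j h
  · intro n y0 hy0 hye0 hyd0
    let y : Y.ι →₀ (tLW π s).X := y0
    have hy : y ∈ (tQ Y (tLG π s hs)).gr n := hy0
    have hye : rN (hs := hs) (WD.e (w := WR π) o') y = y := by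
      rw [← ho']
      exact hye0
    have hyd : dN (hs := hs) y = 0 := hyd0
    have hcol := col o' y hye
    let v : Y.ι →₀ Row (EO π s hs) p ((a + 1 : ℕ) : ℤ) :=
      Finsupp.mapRange.linearMap (toR o' hop' hoa') y
    have hv : ∀ σ j, eR (v σ) j = eT π s (y σ) j o' := fun _ _ => rfl
    have hvS : v.support ⊆ y.support := Finsupp.support_mapRange (hf := map_zero _)
    have hvg : v ∈ (U (EO π s hs) (cL 1 3 Y) p ((a + 1 : ℕ) : ℤ)).gr (n - s) := by
      refine (memU o' hop' hoa').2 fun σ => ⟨fun j => ?_, fun j => ?_⟩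
      · have h := (memN.1 hy σ).1 j o'
        rw [show n - (Y.s σ : ℤ) - s = n - s - Y.s σ by ring] at h
        exact h
      · exact (memN.1 hy σ).2 j o'
    have hvd : dV p ((a + 1 : ℕ) : ℤ) v = 0 := by
      refine Finsupp.ext fun τ => eR_ext fun j => ?_
      rw [dU_entry v y.support hvS]
      have h := congrArg (fun z : Y.ι →₀ (tLW π s).X => eT π s (z τ) j o') hyd
      have h' : eT π s (dN (hs := hs) y τ) j o' = 0 := h
      rw [dN_entry (hs := hs) y y.support (Finset.Subset.refl _)] at h'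
      exact h'
    obtain ⟨u0, hug0, hud0, z0, hzg0, hz0⟩ := hQ.surj (n - s) v hvg hvd
    let u : Y.ι →₀ Row (EO π s hs) p a := u0
    let z : Y.ι →₀ Row (EO π s hs) p ((a + 1 : ℕ) : ℤ) := z0
    have hug := (memU o hop hoa (k := n - s) (u := u)).1 hug0
    have hzg := (memU o' hop' hoa' (k := n - s + 1) (u := z)).1 hzg0
    have hud : dV p a u = 0 := hud0
    have hz : v = fV l p a u +
        dV p ((a + 1 : ℕ) : ℤ) z := hz0
    let x : Y.ι →₀ (tLW π s).X := Finsupp.mapRange.linearMap (frR o hop hoa) u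
    let t : Y.ι →₀ (tLW π s).X := Finsupp.mapRange.linearMap (frR o' hop' hoa') z
    have hx : ∀ σ k j, eT π s (x σ) k j = if o = j then eR (u σ) k else 0 := fun _ _ _ => rfl
    have ht : ∀ σ k j, eT π s (t σ) k j = if o' = j then eR (z σ) k else 0 := fun _ _ _ => rfl
    have hxS : x.support ⊆ u.support := Finsupp.support_mapRange (hf := map_zero _)
    have htS : t.support ⊆ z.support := Finsupp.support_mapRange (hf := map_zero _)
    have hxcol : ∀ σ k j, o ≠ j → eT π s (x σ) k j = 0 := fun σ k j h => by rw [hx, if_neg h]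
    refine ⟨x, ?_, ?_, ?_, t, ?_, ?_⟩
    · refine memN.2 fun σ => ⟨fun k j => ?_, fun k j => ?_⟩
      · rw [hx]
        by_cases h : o = j
        · rw [if_pos h, ← h]
          have h1 := (hug σ).1 k
          rw [show n - (s : ℤ) - Y.s σ = n - Y.s σ - s by ring] at h1
          exact h1
        · rw [if_neg h]
          exact Submodule.zero_mem _
      · simp only [hx]
        by_cases h : o = j
        · simp only [if_pos h]
          exact (hug σ).2 k
        · simp only [if_neg h, mul_zero, Finset.sum_const_zero]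
    · rw [ho]
      exact colf o x hxcol
    · change dN (hs := hs) x = 0
      refine Finsupp.ext fun σ => eT_ext π s fun k j => ?_
      rw [dN_entry (hs := hs) x u.support hxS]
      simp only [hx]
      by_cases h : o = j
      · simp only [if_pos h]
        have h2 := congrArg (fun z : Y.ι →₀ Row (EO π s hs) p a => eR (z σ) k) hud
        have h' : eR (dV p a u σ) k = 0 := h2
        rw [dU_entry u u.support (Finset.Subset.refl _)] at h'
        exact h'
      · simp only [if_neg h, map_zero, mul_zero, Finset.sum_const_zero, add_zero]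
        rfl
    · refine memN.2 fun σ => ⟨fun k j => ?_, fun k j => ?_⟩
      · rw [ht]
        by_cases h : o' = j
        · rw [if_pos h, ← h]
          have h1 := (hzg σ).1 k
          rw [show n - (s : ℤ) + 1 - Y.s σ = n + 1 - Y.s σ - s by ring] at h1
          exact h1
        · rw [if_neg h]
          exact Submodule.zero_mem _
      · simp only [ht]
        by_cases h : o' = j
        · simp only [if_pos h]
          exact (hzg σ).2 k
        · simp only [if_neg h, mul_zero, Finset.sum_const_zero]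
    · change y = rN (hs := hs) (KKf354.mtt π) x + c • rN (hs := hs) (KKf354.mh π) x +
        dN (hs := hs) t
      refine Finsupp.ext fun σ => eT_ext π s fun k j => ?_
      have e1 : eT π s ((rN (hs := hs) (KKf354.mtt π) x + c • rN (hs := hs) (KKf354.mh π) x +
          dN (hs := hs) t) σ) k j = eT π s ((rN (hs := hs) (KKf354.mtt π) x +
          c • rN (hs := hs) (KKf354.mh π) x) σ) k j + eT π s (dN (hs := hs) t σ) k j := rfl
      rw [e1, rN_th (hs := hs) c o o' rfl rfl x hxcol, dN_entry (hs := hs) t z.support htS]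
      simp only [ht]
      by_cases h : o' = j
      · subst h
        simp only [if_true]
        have h2 := congrArg (fun z : Y.ι →₀ Row (EO π s hs) p ((a + 1 : ℕ) : ℤ) => eR (z σ) k) hz
        have h' : eR (v σ) k = eR (fV l p a u σ) k +
          eR (dV p ((a + 1 : ℕ) : ℤ) z σ) k := h2
        rw [th_entry, hcc, dU_entry z z.support (Finset.Subset.refl _), hv] at h'
        rw [hx, if_pos rfl]
        exact h'
      · simp only [if_neg h, map_zero, mul_zero, Finset.sum_const_zero, add_zero]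
        exact hcol σ k j h

end th

/-! ### the columns of `NtL` -/

section final

variable {Y : RCells (Gm π s (KHc302.two_le hs))}
  (R : RRes Y (FinV988.DR (TRin772.VG π s (KHc302.two_le hs) (-1))))

include R in
/-- **row `1`, `theta_0`** on the columns `(1, b)` -/
theorem thB1 (b : ℕ) (hb : b < 3) :
    ThB (QG354.NtL π s (KHc302.two_le hs) Y) ((π.g ^ 2)⁻¹) 1 b :=
  thB_of (Y := Y) (hs := hs) (l := 1) (one_mul _) 1 b hb 1 (by norm_num) (2 - b) (by omega)
    (TRqo247.q1' R (by omega))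

include R in
/-- **row `2`, `theta_(-1)`** on the columns `(0, b)` -/
theorem thB0 (b : ℕ) (hb : b < 3) :
    ThB (QG354.NtL π s (KHc302.two_le hs) Y) (π.g⁻¹) 0 b :=
  thB_of (Y := Y) (hs := hs) (l := π.g) (by
    have h := π.g0
    field_simp) 0 b hb 2 (by norm_num) (2 - b) (by omega) (TRqo247.q2' R (by omega))

end final

end Crest.Agent.R186.KO163
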