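import Crest.Agent.R186.KP_355

/-!
Row 186, S0281, base (helper355): the row maps of `K(n)` on tuples (`Fin`-indexed) as left
`Op K`-linear maps: `s = 0`: `EP, D1, D2, D3`; `s = 1`: `EP, E1, E2, E3`.
-/

set_option autoImplicit false

namespace Crest.Agent.R186.B281

namespace KN

variable {K : Type} [Field K]

section
variable {M : Type*} {m : ℕ}

theorem ez_add' [AddZeroClass M] (x y : Fin m → M) : ez (x + y) = ez x + ez y :=
  funext fun j => ez_add x y j

theorem ez_smul' {R : Type*} [Zero M] [SMulZeroClass R M] (r : R) (x : Fin m → M) :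
    ez (r • x) = r • ez x :=
  funext fun j => ez_smul r x j

theorem ez_zero [Zero M] : ez (0 : Fin m → M) = 0 := by
  funext j
  unfold ez
  split_ifs <;> rfl

theorem ez_inj [Zero M] {x y : Fin m → M} (h : ez x = ez y) : x = y := by
  funext j
  have := congrFun h j
  rwa [ez_fin, ez_fin] at this

/-- a sequence with support in `[0, m)` is `ez` of its restriction -/
theorem ez_restrict [Zero M] {u : ℕ → M} (h : ∀ j, m ≤ j → u j = 0) :
    ez (fun j : Fin m => u j) = u := by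
  funext j
  unfold ez
  split_ifs with h'
  · rfl
  · exact (h j (not_lt.1 h')).symm

theorem ez_all [Zero M] {p : M → Prop} (h0 : p 0) {x : Fin m → M} (h : ∀ j, p (x j)) (j : ℕ) :
    p (ez x j) := by
  unfold ez
  split_ifs
  · exact h _
  · exact h0

end

/-- pairs of tuples -/
def ez2 {M : Type*} [Zero M] {m : ℕ} (x : Fin 2 → Fin m → M) : Fin 2 → ℕ → M := fun e => ez (x e)

theorem ez2_add {M : Type*} [AddZeroClass M] {m : ℕ} (x y : Fin 2 → Fin m → M) :
    ez2 (x + y) = ez2 x + ez2 y := funext fun e => ez_add' (x e) (y e)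

theorem ez2_smul {R M : Type*} [Zero M] [SMulZeroClass R M] {m : ℕ} (r : R)
    (x : Fin 2 → Fin m → M) : ez2 (r • x) = r • ez2 x := funext fun e => ez_smul' r (x e)

/-- `f_j = x₀^(n-j) x₁^j` -/
noncomputable def mo (K : Type) [Field K] (n j : ℕ) : Lau K := Finsupp.single ((n : ℤ) - j, (j : ℤ)) 1

/-- the augmentation `u ↦ ∑ u_j f_j` -/
noncomputable def EP (K : Type) [Field K] (n : ℕ) : (Fin (n + 1) → Op K) →ₗ[Op K] Lau K where
  toFun u := ∑ j, u j (mo K n j)
  map_add' u v := by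
    simp only [Pi.add_apply, LinearMap.add_apply, Finset.sum_add_distrib]
  map_smul' T u := by
    simp only [Pi.smul_apply, smul_eq_mul, Module.End.mul_apply, RingHom.id_apply]
    rw [show (T • ∑ j, u j (mo K n j)) = T (∑ j, u j (mo K n j)) from rfl, map_sum]

variable (g : K) (n : ℕ)

/-! ### `s = 0` -/

/-- `K₁ → K₀` -/
noncomputable def D1 : (Fin 2 → Fin (n + 1) → Fin 2 → Op K) →ₗ[Op K] (Fin (n + 1) → Op K) where
  toFun v := fun j => d1f g n (ez2 v) j
  map_add' v w := by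
    funext j
    rw [ez2_add]
    exact (d1f_lin g n j).add _ _
  map_smul' T v := by
    funext j
    rw [ez2_smul]
    exact (d1f_lin g n j).smul _ _

/-- `K₂ → K₁` -/
noncomputable def D2 : ((Fin (n + 2) → Fin 2 → Op K) × (Fin 2 → Fin n → Op K)) →ₗ[Op K]
    (Fin 2 → Fin (n + 1) → Fin 2 → Op K) where
  toFun p := ![fun j => d2w0 g (ez p.1) j + d2h0 g n (ez2 p.2) j,
    fun j => d2w1 g n (ez p.1) j + d2h1 g (ez2 p.2) j]
  map_add' p q := by
    refine funext (Fin.forall_fin_two.2 ⟨?_, ?_⟩)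
    · funext j
      show d2w0 g (ez (p.1 + q.1)) j + d2h0 g n (ez2 (p.2 + q.2)) j =
        (d2w0 g (ez p.1) j + d2h0 g n (ez2 p.2) j) + (d2w0 g (ez q.1) j + d2h0 g n (ez2 q.2) j)
      rw [ez_add', ez2_add, (d2w0_lin g j).add, (d2h0_lin g n j).add]
      abel
    · funext j
      show d2w1 g n (ez (p.1 + q.1)) j + d2h1 g (ez2 (p.2 + q.2)) j =
        (d2w1 g n (ez p.1) j + d2h1 g (ez2 p.2) j) + (d2w1 g n (ez q.1) j + d2h1 g (ez2 q.2) j)
      rw [ez_add', ez2_add, (d2w1_lin g n j).add, (d2h1_lin g j).add]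
      abel
  map_smul' T p := by
    refine funext (Fin.forall_fin_two.2 ⟨?_, ?_⟩)
    · funext j
      show d2w0 g (ez (T • p.1)) j + d2h0 g n (ez2 (T • p.2)) j =
        T • (d2w0 g (ez p.1) j + d2h0 g n (ez2 p.2) j)
      rw [ez_smul', ez2_smul, (d2w0_lin g j).smul, (d2h0_lin g n j).smul, smul_add]
    · funext j
      show d2w1 g n (ez (T • p.1)) j + d2h1 g (ez2 (T • p.2)) j =
        T • (d2w1 g n (ez p.1) j + d2h1 g (ez2 p.2) j)
      rw [ez_smul', ez2_smul, (d2w1_lin g n j).smul, (d2h1_lin g j).smul, smul_add]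

/-- `K₃ → K₂` -/
noncomputable def D3 : (Fin (n + 1) → Op K) →ₗ[Op K]
    ((Fin (n + 2) → Fin 2 → Op K) × (Fin 2 → Fin n → Op K)) where
  toFun u := (fun j => d3w g n (ez u) j, ![fun j => d3h0 g (ez u) j, fun j => d3h1 g n (ez u) j])
  map_add' u v := by
    refine Prod.ext ?_ (funext (Fin.forall_fin_two.2 ⟨?_, ?_⟩))
    · funext j
      show d3w g n (ez (u + v)) j = d3w g n (ez u) j + d3w g n (ez v) j
      rw [ez_add', (d3w_lin g n j).add]
    · funext j
      show d3h0 g (ez (u + v)) j = d3h0 g (ez u) j + d3h0 g (ez v) j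
      rw [ez_add', (d3h0_lin g j).add]
    · funext j
      show d3h1 g n (ez (u + v)) j = d3h1 g n (ez u) j + d3h1 g n (ez v) j
      rw [ez_add', (d3h1_lin g n j).add]
  map_smul' T u := by
    refine Prod.ext ?_ (funext (Fin.forall_fin_two.2 ⟨?_, ?_⟩))
    · funext j
      show d3w g n (ez (T • u)) j = T • d3w g n (ez u) j
      rw [ez_smul', (d3w_lin g n j).smul]
    · funext j
      show d3h0 g (ez (T • u)) j = T • d3h0 g (ez u) j
      rw [ez_smul', (d3h0_lin g j).smul]
    · funext j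
      show d3h1 g n (ez (T • u)) j = T • d3h1 g n (ez u) j
      rw [ez_smul', (d3h1_lin g n j).smul]

/-! ### `s = 1` -/

/-- `K₁ → K₀` -/
noncomputable def E1 : ((Fin n → Fin 2 → Op K) × (Fin 2 → Fin (n + 2) → Op K)) →ₗ[Op K]
    (Fin (n + 1) → Op K) where
  toFun p := fun j => e1w g n (ez p.1) j + e1q g n (ez2 p.2) j
  map_add' p q := by
    funext j
    show e1w g n (ez (p.1 + q.1)) j + e1q g n (ez2 (p.2 + q.2)) j =
      (e1w g n (ez p.1) j + e1q g n (ez2 p.2) j) + (e1w g n (ez q.1) j + e1q g n (ez2 q.2) j)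
    rw [ez_add', ez2_add, (e1w_lin g n j).add, (e1q_lin g n j).add]
    abel
  map_smul' T p := by
    funext j
    show e1w g n (ez (T • p.1)) j + e1q g n (ez2 (T • p.2)) j =
      T • (e1w g n (ez p.1) j + e1q g n (ez2 p.2) j)
    rw [ez_smul', ez2_smul, (e1w_lin g n j).smul, (e1q_lin g n j).smul, smul_add]

/-- `K₂ → K₁` -/
noncomputable def E2 : (Fin 2 → Fin (n + 1) → Fin 2 → Op K) →ₗ[Op K]
    ((Fin n → Fin 2 → Op K) × (Fin 2 → Fin (n + 2) → Op K)) where
  toFun v := (fun j => e2w g n (ez2 v) j, ![fun j => e2q0 g n (ez2 v) j,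
    fun j => e2q1 g n (ez2 v) j])
  map_add' u v := by
    refine Prod.ext ?_ (funext (Fin.forall_fin_two.2 ⟨?_, ?_⟩))
    · funext j
      show e2w g n (ez2 (u + v)) j = e2w g n (ez2 u) j + e2w g n (ez2 v) j
      rw [ez2_add, (e2w_lin g n j).add]
    · funext j
      show e2q0 g n (ez2 (u + v)) j = e2q0 g n (ez2 u) j + e2q0 g n (ez2 v) j
      rw [ez2_add, (e2q0_lin g n j).add]
    · funext j
      show e2q1 g n (ez2 (u + v)) j = e2q1 g n (ez2 u) j + e2q1 g n (ez2 v) j
      rw [ez2_add, (e2q1_lin g n j).add]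
  map_smul' T u := by
    refine Prod.ext ?_ (funext (Fin.forall_fin_two.2 ⟨?_, ?_⟩))
    · funext j
      show e2w g n (ez2 (T • u)) j = T • e2w g n (ez2 u) j
      rw [ez2_smul, (e2w_lin g n j).smul]
    · funext j
      show e2q0 g n (ez2 (T • u)) j = T • e2q0 g n (ez2 u) j
      rw [ez2_smul, (e2q0_lin g n j).smul]
    · funext j
      show e2q1 g n (ez2 (T • u)) j = T • e2q1 g n (ez2 u) j
      rw [ez2_smul, (e2q1_lin g n j).smul]

/-- `K₃ → K₂` -/
noncomputable def E3 : (Fin (n + 1) → Op K) →ₗ[Op K] (Fin 2 → Fin (n + 1) → Fin 2 → Op K) where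
  toFun u := ![fun j => e3v0 g (ez u) j, fun j => e3v1 g n (ez u) j]
  map_add' u v := by
    refine funext (Fin.forall_fin_two.2 ⟨?_, ?_⟩)
    · funext j
      show e3v0 g (ez (u + v)) j = e3v0 g (ez u) j + e3v0 g (ez v) j
      rw [ez_add', (e3v0_lin g j).add]
    · funext j
      show e3v1 g n (ez (u + v)) j = e3v1 g n (ez u) j + e3v1 g n (ez v) j
      rw [ez_add', (e3v1_lin g n j).add]
  map_smul' T u := by
    refine funext (Fin.forall_fin_two.2 ⟨?_, ?_⟩)
    · funext j
      show e3v0 g (ez (T • u)) j = T • e3v0 g (ez u) j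
      rw [ez_smul', (e3v0_lin g j).smul]
    · funext j
      show e3v1 g n (ez (T • u)) j = T • e3v1 g n (ez u) j
      rw [ez_smul', (e3v1_lin g n j).smul]

end KN

end Crest.Agent.R186.B281
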