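import Crest.Agent.R186.CovOp_831
import Crest.Agent.R186.KL_355

/-!
Row 186, S0281, base (helper853): exactness of 355's literal maps (`KL_355`, `s = 0`) from the
abstract theorem `Cov_853` at 831's instance `fdat`, degree by degree (families supported on a
diagonal `a + b = n`; index `j` = exponent of `x₁`).
-/

set_option autoImplicit false
set_option linter.unusedVariables false
set_option linter.unusedSimpArgs false
set_option linter.unusedSectionVars false
set_option linter.unnecessarySeqFocus false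

namespace Crest.Agent.R186.B281.KE0_853

open FilPBW633 KN Val831
open Cov853 (Fn In ap ap_apply)
open Cov853.Dat (R4)

variable {K : Type} [Field K] {g : K}

/-- the sequence on the diagonal `a + b = m` -/
def sq {M : Type*} [Zero M] (m : ℕ) (u : ℕ → ℕ → M) (j : ℕ) : M := if j ≤ m then u (m - j) j else 0

theorem sq_of {M : Type*} [Zero M] {m a b : ℕ} (u : ℕ → ℕ → M) (h : a + b = m) :
    sq m u b = u a b := by
  unfold sq
  rw [if_pos (by omega), show m - b = a by omega]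

theorem sq_gt {M : Type*} [Zero M] {m b : ℕ} (u : ℕ → ℕ → M) (h : m < b) : sq m u b = 0 :=
  if_neg (not_le.2 h)

/-- the sequence on the diagonal `a + b + 1 = n` -/
def sh' {M : Type*} [Zero M] (n : ℕ) (u : ℕ → ℕ → M) (j : ℕ) : M :=
  if j + 1 ≤ n then u (n - 1 - j) j else 0

theorem sh'_of {M : Type*} [Zero M] {n a b : ℕ} (u : ℕ → ℕ → M) (h : a + b + 1 = n) :
    sh' n u b = u a b := by
  unfold sh'
  rw [if_pos (by omega), show n - 1 - b = a by omega]

theorem sh'_ge {M : Type*} [Zero M] {n b : ℕ} (u : ℕ → ℕ → M) (h : n ≤ b) : sh' n u b = 0 :=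
  if_neg (by omega)

/-- family on the diagonal `m` -/
def dg {M : Type*} [Zero M] (m : ℕ) (x : ℕ → M) : ℕ → ℕ → M := fun a b => if a + b = m then x b else 0

theorem dg_of {M : Type*} [Zero M] {m a b : ℕ} (x : ℕ → M) (h : a + b = m) : dg m x a b = x b :=
  if_pos h

theorem dg_ne {M : Type*} [Zero M] {m a b : ℕ} (x : ℕ → M) (h : a + b ≠ m) : dg m x a b = 0 :=
  if_neg h

/-- family on the diagonal `n - 1` -/
def dh {M : Type*} [Zero M] (n : ℕ) (x : ℕ → M) : ℕ → ℕ → M :=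
  fun a b => if a + b + 1 = n then x b else 0

theorem dh_of {M : Type*} [Zero M] {n a b : ℕ} (x : ℕ → M) (h : a + b + 1 = n) :
    dh n x a b = x b := if_pos h

theorem dh_ne {M : Type*} [Zero M] {n a b : ℕ} (x : ℕ → M) (h : a + b + 1 ≠ n) :
    dh n x a b = 0 := if_neg h

theorem sq_dg {M : Type*} [Zero M] {m : ℕ} (x : ℕ → M) (h : ∀ j, m < j → x j = 0) :
    sq m (dg m x) = x := by
  funext j
  by_cases hj : j ≤ m
  · rw [sq_of (a := m - j) _ (by omega), dg_of _ (by omega)]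
  · rw [sq_gt _ (by omega), h j (by omega)]

theorem sh'_dh {M : Type*} [Zero M] {n : ℕ} (x : ℕ → M) (h : ∀ j, n ≤ j → x j = 0) :
    sh' n (dh n x) = x := by
  funext j
  by_cases hj : j + 1 ≤ n
  · rw [sh'_of (a := n - 1 - j) _ (by omega), dh_of _ (by omega)]
  · rw [sh'_ge _ (by omega), h j (by omega)]

/-- the rows of `K₁` on the diagonal `n` -/
noncomputable def vz (n : ℕ) (z : R4 (Op K)) : Fin 2 → ℕ → Fin 2 → Op K :=
  ![fun j => ![sq n z.1 j, sq n z.2.1 j], fun j => ![sq n z.2.2.1 j, sq n z.2.2.2 j]]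

@[simp] theorem vz00 (n : ℕ) (z : R4 (Op K)) (j : ℕ) : vz n z 0 j 0 = sq n z.1 j := rfl
@[simp] theorem vz01 (n : ℕ) (z : R4 (Op K)) (j : ℕ) : vz n z 0 j 1 = sq n z.2.1 j := rfl
@[simp] theorem vz10 (n : ℕ) (z : R4 (Op K)) (j : ℕ) : vz n z 1 j 0 = sq n z.2.2.1 j := rfl
@[simp] theorem vz11 (n : ℕ) (z : R4 (Op K)) (j : ℕ) : vz n z 1 j 1 = sq n z.2.2.2 j := rfl

section lemmas
variable (hg : Gen g)

/-- (A) `δ₁` -/
theorem del1_eq (n : ℕ) (z : R4 (Op K)) (a b : ℕ) (h : a + b = n) :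
    (fdat hg).del1 z a b = d1f g n (vz n z) b := by
  obtain ⟨z1, z2, z3, z4⟩ := z
  have e1 : n - b = a := by omega
  have e2 : n + 1 - b = a + 1 := by omega
  unfold Cov853.Dat.del1 d1f
  simp only [Pi.sub_apply, Pi.add_apply, ap_apply, Cov853.Dat.cv_apply, fdat_x0, fdat_x1, fdat_d0,
    fdat_d1, cc, vz00, vz01, vz10, vz11, sq_of _ h, e1, e2]
  rcases a with _ | a <;> rcases b with _ | b
  · simp only [Cov853.X0_zero, Cov853.X1_zero, Nat.cast_zero, cq_zero, zero_smul, sub_zero,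
      sh_zero, Pi.zero_apply, smul_zero]
    rw [sq_gt _ (show n < 0 + 1 by omega), smul_zero, sub_zero]
  · simp only [Cov853.X0_zero, Cov853.X1_succ, Nat.cast_zero, cq_zero, zero_smul, sub_zero,
      sh_succ, vz01]
    rw [sq_gt _ (show n < b + 1 + 1 by omega), sq_of (a := 0 + 1) (b := b) _ (by omega)]
    simp only [Pi.add_apply, Cov853.D0_apply, Cov853.D1_apply, fdat_c, smul_zero, sub_zero]
    abel
  · simp only [Cov853.X0_succ, Cov853.X1_zero, Nat.cast_zero, cq_zero, zero_smul, sub_zero,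
      sh_zero, Pi.zero_apply, smul_zero]
    rw [sq_of (a := a) (b := 0 + 1) _ (by omega)]
    simp only [Pi.add_apply, Cov853.D0_apply, Cov853.D1_apply, fdat_c, smul_zero, sub_zero]
    abel
  · simp only [Cov853.X0_succ, Cov853.X1_succ, sh_succ, vz01]
    rw [sq_of (a := a) (b := b + 1 + 1) _ (by omega), sq_of (a := a + 1 + 1) (b := b) _ (by omega)]
    simp only [Pi.add_apply, Cov853.D0_apply, Cov853.D1_apply, fdat_c, smul_zero, sub_zero]
    abel

end lemmas

/-! ### values -/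

section ep
variable (hg : Gen g)

theorem X0_pow_apply (a : ℕ) (m : Op K) : ((fdat hg).x0 ^ a) m = m * X 0 ^ a := by
  induction a with
  | zero => simp
  | succ a ih => rw [pow_succ', Module.End.mul_apply, ih, fdat_x0, mul_assoc, ← pow_succ]

theorem X1_pow_apply (a : ℕ) (m : Op K) : ((fdat hg).x1 ^ a) m = m * X 1 ^ a := by
  induction a with
  | zero => simp
  | succ a ih => rw [pow_succ', Module.End.mul_apply, ih, fdat_x1, mul_assoc, ← pow_succ]

theorem X_pow_single (i : Fin 2) (a : ℕ) (m : ℤ × ℤ) :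
    ((X i : Op K) ^ a) (Finsupp.single m 1) = Finsupp.single (m + a • ev i) 1 := by
  induction a with
  | zero => simp
  | succ a ih =>
    rw [pow_succ', Module.End.mul_apply, ih, X_single, succ_nsmul, add_assoc]

theorem mu_one (m : ℕ) (u : Fn (Op K)) : (fdat hg).mu m u (Finsupp.single (0, 0) 1) =
    ∑ p ∈ Finset.HasAntidiagonal.antidiagonal m, u p.1 p.2 (Finsupp.single ((p.1 : ℤ), (p.2 : ℤ)) 1) := by
  unfold Cov853.Dat.mu
  rw [LinearMap.sum_apply]
  refine Finset.sum_congr rfl fun p _ => ?_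
  rw [X0_pow_apply, X1_pow_apply, Module.End.mul_apply, Module.End.mul_apply, X_pow_single,
    X_pow_single]
  congr 2
  ext <;> simp [ev]

theorem EP_eq (n : ℕ) (u : Fin (n + 1) → Op K) :
    EP K n u = (fdat hg).mu n (dg n (ez u)) (Finsupp.single (0, 0) 1) := by
  rw [mu_one, Finset.Nat.sum_antidiagonal_eq_sum_range_succ_mk, ← Finset.sum_flip]
  show ∑ j, u j (mo K n j) = _
  rw [Finset.sum_range]
  refine Finset.sum_congr rfl fun j _ => ?_
  have hj : (j : ℕ) ≤ n := by omega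
  have e : n - (n - (j : ℕ)) = j := by omega
  simp only [e]
  rw [dg_of _ (by omega), ez_fin, mo]
  congr 2
  ext <;> simp
  omega

theorem mu_dg_ne {m n : ℕ} (h : m ≠ n) (x : ℕ → Op K) : (fdat hg).mu m (dg n x) = 0 := by
  unfold Cov853.Dat.mu
  refine Finset.sum_eq_zero fun p hp => ?_
  rw [dg_ne _ (by rw [Finset.HasAntidiagonal.mem_antidiagonal.1 hp]; exact h), map_zero, map_zero]

end ep

theorem ez2_eq_vz {n : ℕ} (v : Fin 2 → Fin (n + 1) → Fin 2 → Op K) :
    vz n (dg n (fun j => ez (v 0) j 0), dg n (fun j => ez (v 0) j 1), dg n (fun j => ez (v 1) j 0),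
      dg n (fun j => ez (v 1) j 1)) = ez2 v := by
  have h : ∀ e i j, n < j → ez (v e) j i = 0 := fun e i j hj => by
    rw [ez_of_ge _ (by omega)]; rfl
  unfold vz
  simp only [sq_dg _ (h _ _)]
  funext e j i
  fin_cases e <;> fin_cases i <;> rfl

theorem vz_fin {n : ℕ} (z : R4 (Op K)) : ez2 (fun e (j : Fin (n + 1)) => vz n z e j) = vz n z := by
  funext e
  unfold ez2
  refine ez_restrict (u := vz n z e) fun j hj => ?_
  funext i
  fin_cases e <;> fin_cases i <;> exact sq_gt _ (by omega)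

section D1
variable (hg : Gen g)

/-- (A) on tuples -/
theorem D1_vz (n : ℕ) (z : R4 (Op K)) :
    D1 g n (fun e (j : Fin (n + 1)) => vz n z e j) =
      fun j : Fin (n + 1) => (fdat hg).del1 z (n - (j : ℕ)) j := by
  funext j
  show d1f g n (ez2 (fun e (j : Fin (n + 1)) => vz n z e j)) j = _
  rw [vz_fin, del1_eq hg n z (n - j) j (by omega)]

/-- the four families of a tuple -/
noncomputable def zv {n : ℕ} (v : Fin 2 → Fin (n + 1) → Fin 2 → Op K) : R4 (Op K) :=
  (dg n (fun j => ez (v 0) j 0), dg n (fun j => ez (v 0) j 1), dg n (fun j => ez (v 1) j 0),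
      dg n (fun j => ez (v 1) j 1))

theorem del1_zv {n : ℕ} (v : Fin 2 → Fin (n + 1) → Fin 2 → Op K) :
    (fdat hg).del1 (zv v) = dg n (ez (D1 g n v)) := by
  funext a b
  by_cases h : a + b = n
  · rw [del1_eq hg n _ a b h, dg_of _ h, ez_of_lt _ (show b < n + 1 by omega)]
    unfold zv
    rw [ez2_eq_vz]
    rfl
  · rw [dg_ne _ h]
    unfold Cov853.Dat.del1 zv
    simp only [Pi.sub_apply, Pi.add_apply, ap_apply, Cov853.Dat.cv_apply]
    rw [dg_ne _ h, dg_ne _ h, dg_ne _ h, dg_ne _ h]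
    simp only [map_zero, add_zero, zero_sub]
    rcases a with _ | a <;> rcases b with _ | b
    · simp
    · simp only [Cov853.X0_zero, Cov853.X1_succ, Pi.add_apply, Cov853.D0_apply, Cov853.D1_apply]
      rw [dg_ne _ (by omega), dg_ne _ (by omega)]
      simp
    · simp only [Cov853.X0_succ, Cov853.X1_zero, Pi.add_apply, Cov853.D0_apply, Cov853.D1_apply]
      rw [dg_ne _ (by omega), dg_ne _ (by omega)]
      simp
    · simp only [Cov853.X0_succ, Cov853.X1_succ, Pi.add_apply, Cov853.D0_apply, Cov853.D1_apply]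
      rw [dg_ne _ (by omega), dg_ne _ (by omega), dg_ne _ (by omega), dg_ne _ (by omega)]
      simp

include hg

/-- (z0) -/
theorem z0 (n : ℕ) (v : Fin 2 → Fin (n + 1) → Fin 2 → Op K) : EP K n (D1 g n v) = 0 := by
  rw [EP_eq hg, ← del1_zv hg, Cov853.Dat.mu_del1]
  simp only [fdat_d0, fdat_d1, LinearMap.add_apply, Module.End.mul_apply, D_one, map_zero,
    add_zero]

/-- (x0) -/
theorem x0 {n : ℕ} {k P : ℤ} (hP : 0 ≤ P) (u : Fin (n + 1) → Op K) (hu : ∀ j, u j ∈ Fil g k P)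
    (h : EP K n u = 0) :
    ∃ v : Fin 2 → Fin (n + 1) → Fin 2 → Op K, (∀ e j, RK g 0 1 k P (v e j)) ∧ D1 g n v = u := by
  have hU : In ((fdat hg).F P k) (dg n (ez u)) := fun a b => by
    show _ ∈ Fil g k P
    unfold dg
    split_ifs
    · exact ez_all (p := fun T => T ∈ Fil g k P) (zero_mem _) hu b
    · exact zero_mem _
  obtain ⟨z, hz, hz'⟩ := (fdat hg).exact0 hP (dg n (ez u)) hU (fun m => by
    by_cases hm : m = n
    · subst hm
      have h1 := (fdat hg).mu_mem hU m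
      rw [fdat_F] at h1
      rw [EP_eq hg] at h
      obtain ⟨a, ha, b, hb, hab⟩ := val_zero hg h1 h
      exact ⟨a, ha, b, hb, hab⟩
    · rw [mu_dg_ne hg hm]
      exact ⟨0, zero_mem _, 0, zero_mem _, by simp⟩)
  refine ⟨fun e j => vz n z e j, fun e j => ?_, ?_⟩
  · obtain ⟨⟨h1, h2, h3⟩, ⟨h4, h5, h6⟩⟩ := hz
    have hj : n - (j : ℕ) + j = n := by omega
    fin_cases e
    · refine ⟨?_, ?_, ?_⟩
      · show sq n z.1 j ∈ Fil g (k - 0) P
        rw [sq_of _ hj, sub_zero]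
        exact h1 _ _
      · show sq n z.2.1 j ∈ Fil g (k - 0) P
        rw [sq_of _ hj, sub_zero]
        exact h2 _ _
      · show sq n z.1 j * X 0 + sq n z.2.1 j * X 1 ∈ Fil g (k - 1) (P + 1)
        rw [sq_of _ hj, sq_of _ hj]
        exact h3 _ _
    · refine ⟨?_, ?_, ?_⟩
      · show sq n z.2.2.1 j ∈ Fil g (k - 0) P
        rw [sq_of _ hj, sub_zero]
        exact h4 _ _
      · show sq n z.2.2.2 j ∈ Fil g (k - 0) P
        rw [sq_of _ hj, sub_zero]
        exact h5 _ _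
      · show sq n z.2.2.1 j * X 0 + sq n z.2.2.2 j * X 1 ∈ Fil g (k - 1) (P + 1)
        rw [sq_of _ hj, sq_of _ hj]
        exact h6 _ _
  · rw [D1_vz hg, hz']
    funext j
    rw [dg_of _ (by omega), ez_fin]

end D1

/-! ### `δ₂` -/

/-- the rows of `K₂` on the diagonal `n + 1` -/
noncomputable def wz (n : ℕ) (α β : ℕ → ℕ → Op K) : ℕ → Fin 2 → Op K :=
  fun j => ![sq (n + 1) α j, sq (n + 1) β j]

@[simp] theorem wz0 (n : ℕ) (α β : ℕ → ℕ → Op K) (j : ℕ) : wz n α β j 0 = sq (n + 1) α j := rfl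
@[simp] theorem wz1 (n : ℕ) (α β : ℕ → ℕ → Op K) (j : ℕ) : wz n α β j 1 = sq (n + 1) β j := rfl

/-- the two sequences on the diagonal `n - 1` -/
noncomputable def hz (n : ℕ) (H0 H1 : ℕ → ℕ → Op K) : Fin 2 → ℕ → Op K := ![sh' n H0, sh' n H1]

@[simp] theorem hz0 (n : ℕ) (H0 H1 : ℕ → ℕ → Op K) : hz n H0 H1 0 = sh' n H0 := rfl
@[simp] theorem hz1 (n : ℕ) (H0 H1 : ℕ → ℕ → Op K) : hz n H0 H1 1 = sh' n H1 := rfl

theorem wz_fin {n : ℕ} (α β : ℕ → ℕ → Op K) :
    ez (fun j : Fin (n + 2) => wz n α β j) = wz n α β := by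
  refine ez_restrict (u := wz n α β) fun j hj => ?_
  funext i
  fin_cases i <;> exact sq_gt _ (by omega)

theorem hz_fin {n : ℕ} (H0 H1 : ℕ → ℕ → Op K) :
    ez2 (fun e (j : Fin n) => hz n H0 H1 e j) = hz n H0 H1 := by
  funext e
  unfold ez2
  refine ez_restrict (u := hz n H0 H1 e) fun j hj => ?_
  fin_cases e <;> exact sh'_ge _ hj

section D2
variable (hg : Gen g)

/-- (B) -/
theorem al_eq (n : ℕ) (α β : Fn (Op K)) (a b : ℕ) (h : a + b = n) :
    ((fdat hg).al α β).1 a b = d2w0 g (wz n α β) b 0 ∧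
    ((fdat hg).al α β).2.1 a b = d2w0 g (wz n α β) b 1 ∧
    ((fdat hg).al α β).2.2.1 a b = d2w1 g n (wz n α β) b 0 ∧
    ((fdat hg).al α β).2.2.2 a b = d2w1 g n (wz n α β) b 1 := by
  have e2 : n + 1 - b = a + 1 := by omega
  have hb : sq (n + 1) α (b + 1) = α a (b + 1) := sq_of _ (by omega)
  have hb' : sq (n + 1) β (b + 1) = β a (b + 1) := sq_of _ (by omega)
  have hc : sq (n + 1) α b = α (a + 1) b := sq_of _ (by omega)
  have hc' : sq (n + 1) β b = β (a + 1) b := sq_of _ (by omega)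
  unfold Cov853.Dat.al d2w0 d2w1
  simp only [Pi.sub_apply, Pi.add_apply, Pi.neg_apply, Pi.smul_apply, ap_apply,
    Cov853.Dat.cv_apply, fdat_x0, fdat_x1, fdat_d0, fdat_d1, fdat_g, fdat_c, cc, wz0, wz1, hb, hb',
    hc, hc', e2, Cov853.D0_apply, Cov853.D1_apply, Cov853.Dat.q1_apply]
  rcases b with _ | b
  · rw [if_pos rfl, if_pos rfl]
    simp [Cov853.Dat.q0_zero, Cov853.Dat.cv_apply, hc, hc']
  · rw [if_neg (by omega), if_neg (by omega)]
    simp [Cov853.Dat.q0_succ]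

/-- (C) -/
theorem be_eq (n : ℕ) (H0 H1 : Fn (Op K)) (a b : ℕ) (h : a + b = n) :
    ((fdat hg).be H0 H1).1 a b = d2h0 g n (hz n H0 H1) b 0 ∧
    ((fdat hg).be H0 H1).2.1 a b = d2h0 g n (hz n H0 H1) b 1 ∧
    ((fdat hg).be H0 H1).2.2.1 a b = d2h1 g (hz n H0 H1) b 0 ∧
    ((fdat hg).be H0 H1).2.2.2 a b = d2h1 g (hz n H0 H1) b 1 := by
  have e1 : n - b = a := by omega
  have hX1 : ∀ H : Fn (Op K), Cov853.X1 H a b = sh (sh' n H) b := by
    intro H
    rcases b with _ | b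
    · rw [Cov853.X1_zero, sh_zero]
    · rw [Cov853.X1_succ, sh_succ, sh'_of _ (by omega)]
  have hX0 : ∀ H : Fn (Op K), Cov853.X0 H a b = sh' n H b := by
    intro H
    rcases a with _ | a
    · rw [Cov853.X0_zero, sh'_ge _ (by omega)]
    · rw [Cov853.X0_succ, sh'_of (a := a) _ (by omega)]
  have hI : ∀ H : Fn (Op K), (fdat hg).I0 H a b = (cq g (a : ℕ))⁻¹ • sh' n H b := by
    intro H
    rcases a with _ | a
    · rw [Cov853.Dat.I0_zero, sh'_ge _ (by omega), smul_zero]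
    · rw [Cov853.Dat.I0_succ, sh'_of (a := a) _ (by omega), fdat_c]
  unfold Cov853.Dat.be d2h0 d2h1
  simp only [Pi.sub_apply, Pi.add_apply, Pi.neg_apply, Pi.smul_apply, ap_apply, fdat_x0, fdat_x1,
    fdat_d0, fdat_d1, fdat_g, hX0, hX1, hI, hz0, hz1, e1]
  simp [syz, sub_eq_add_neg, mul_add, add_mul]

theorem D2_wz (n : ℕ) (α β H0 H1 : Fn (Op K)) :
    D2 g n (fun j : Fin (n + 2) => wz n α β j, fun e (j : Fin n) => hz n H0 H1 e j) =
      fun e (j : Fin (n + 1)) => vz n ((fdat hg).al α β + (fdat hg).be H0 H1) e j := by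
  have key : ∀ j : Fin (n + 1), (n - (j : ℕ)) + j = n := fun j => by omega
  funext e j i
  obtain ⟨a1, a2, a3, a4⟩ := al_eq hg n α β _ _ (key j)
  obtain ⟨b1, b2, b3, b4⟩ := be_eq hg n H0 H1 _ _ (key j)
  fin_cases e
  · show (d2w0 g (ez (fun j : Fin (n + 2) => wz n α β j)) j +
      d2h0 g n (ez2 (fun e (j : Fin n) => hz n H0 H1 e j)) j) i = _
    rw [wz_fin, hz_fin]
    fin_cases i
    · show _ = sq n _ j
      rw [sq_of _ (key j)]
      show _ = ((fdat hg).al α β).1 (n - (j : ℕ)) j + ((fdat hg).be H0 H1).1 (n - (j : ℕ)) j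
      rw [a1, b1]; rfl
    · show _ = sq n _ j
      rw [sq_of _ (key j)]
      show _ = ((fdat hg).al α β).2.1 (n - (j : ℕ)) j + ((fdat hg).be H0 H1).2.1 (n - (j : ℕ)) j
      rw [a2, b2]; rfl
  · show (d2w1 g n (ez (fun j : Fin (n + 2) => wz n α β j)) j +
      d2h1 g (ez2 (fun e (j : Fin n) => hz n H0 H1 e j)) j) i = _
    rw [wz_fin, hz_fin]
    fin_cases i
    · show _ = sq n _ j
      rw [sq_of _ (key j)]
      show _ = ((fdat hg).al α β).2.2.1 (n - (j : ℕ)) j + ((fdat hg).be H0 H1).2.2.1 (n - (j : ℕ)) j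
      rw [a3, b3]; rfl
    · show _ = sq n _ j
      rw [sq_of _ (key j)]
      show _ = ((fdat hg).al α β).2.2.2 (n - (j : ℕ)) j + ((fdat hg).be H0 H1).2.2.2 (n - (j : ℕ)) j
      rw [a4, b4]; rfl

include hg

/-- (x1) -/
theorem x1 {n : ℕ} {k P : ℤ} (hP : 0 ≤ P) (v : Fin 2 → Fin (n + 1) → Fin 2 → Op K)
    (hv : ∀ e j, RK g 0 1 k P (v e j)) (h : D1 g n v = 0) :
    ∃ p : (Fin (n + 2) → Fin 2 → Op K) × (Fin 2 → Fin n → Op K),
      (∀ j, RK g 0 2 k P (p.1 j)) ∧ (∀ e j, p.2 e j ∈ Fil g (k - 1) P) ∧ D2 g n p = v := by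
  have hzv : (fdat hg).K1m P k (zv v) := by
    have hv' : ∀ e j, RK g 0 1 k P (ez (v e) j) := fun e j =>
      ez_all (p := fun r => RK g 0 1 k P r) RK.zero (hv e) j
    have key : ∀ e, (fdat hg).KL 1 P k (dg n (fun j => ez (v e) j 0))
        (dg n (fun j => ez (v e) j 1)) := by
      intro e
      refine ⟨fun a b => ?_, fun a b => ?_, fun a b => ?_⟩
      · show _ ∈ Fil g k P
        unfold dg
        split_ifs
        · have := (hv' e b).1
          rwa [sub_zero] at this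
        · exact zero_mem _
      · show _ ∈ Fil g k P
        unfold dg
        split_ifs
        · have := (hv' e b).2.1
          rwa [sub_zero] at this
        · exact zero_mem _
      · show dg n (fun j => ez (v e) j 0) a b * X 0 + dg n (fun j => ez (v e) j 1) a b * X 1 ∈
          Fil g (k - 1) (P + 1)
        unfold dg
        split_ifs
        · exact (hv' e b).2.2
        · simp
    exact ⟨key 0, key 1⟩
  have hd : (fdat hg).del1 (zv v) = 0 := by
    rw [del1_zv, h, ez_zero]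
    funext a b
    unfold dg
    split_ifs <;> rfl
  obtain ⟨α, β, H0, H1, hK, ha, hb, m0, m1, hE⟩ := (fdat hg).exact1 hP _ hzv hd
  refine ⟨(fun j : Fin (n + 2) => wz n α β j, fun e (j : Fin n) => hz n H0 H1 e j),
    fun j => ?_, fun e j => ?_, ?_⟩
  · have hj : n + 1 - (j : ℕ) + j = n + 1 := by omega
    refine ⟨?_, ?_, ?_⟩
    · show sq (n + 1) α j ∈ Fil g (k - 0) P
      rw [sq_of _ hj, sub_zero]
      exact hK.1 _ _
    · show sq (n + 1) β j ∈ Fil g (k - 0) P
      rw [sq_of _ hj, sub_zero]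
      exact hK.2.1 _ _
    · show sq (n + 1) α j * X 0 + sq (n + 1) β j * X 1 ∈ Fil g (k - 2) (P + 1)
      rw [sq_of _ hj, sq_of _ hj]
      exact hK.2.2 _ _
  · have hj : n - 1 - (j : ℕ) + j + 1 = n := by omega
    fin_cases e
    · show sh' n H0 j ∈ Fil g (k - 1) P
      rw [sh'_of _ hj]
      exact m0 _ _
    · show sh' n H1 j ∈ Fil g (k - 1) P
      rw [sh'_of _ hj]
      exact m1 _ _
  · rw [D2_wz hg, ← hE]
    funext e j
    rw [show vz n (zv v) = ez2 v from ez2_eq_vz v]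
    exact ez_fin _ _

omit hg in
/-- the families of an element of `K₂` -/
theorem wz_dg {n : ℕ} (w : Fin (n + 2) → Fin 2 → Op K) :
    wz n (dg (n + 1) (fun j => ez w j 0)) (dg (n + 1) (fun j => ez w j 1)) = ez w := by
  have h : ∀ i j, n + 1 < j → ez w j i = 0 := fun i j hj => by
    rw [ez_of_ge _ (by omega)]; rfl
  unfold wz
  simp only [sq_dg _ (h _)]
  funext j i
  fin_cases i <;> rfl

omit hg in
theorem hz_dh {n : ℕ} (x : Fin 2 → Fin n → Op K) :
    hz n (dh n (ez (x 0))) (dh n (ez (x 1))) = ez2 x := by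
  unfold hz
  rw [sh'_dh _ fun j hj => ez_of_ge _ hj, sh'_dh _ fun j hj => ez_of_ge _ hj]
  funext e
  fin_cases e <;> rfl

/-- all families of `δ₂` of a tuple -/
theorem D2_zv {n : ℕ} (p : (Fin (n + 2) → Fin 2 → Op K) × (Fin 2 → Fin n → Op K)) :
    (fdat hg).al (dg (n + 1) (fun j => ez p.1 j 0)) (dg (n + 1) (fun j => ez p.1 j 1)) +
      (fdat hg).be (dh n (ez (p.2 0))) (dh n (ez (p.2 1))) = zv (D2 g n p) := by
  have hD := D2_wz hg n (dg (n + 1) (fun j => ez p.1 j 0)) (dg (n + 1) (fun j => ez p.1 j 1))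
    (dh n (ez (p.2 0))) (dh n (ez (p.2 1)))
  rw [wz_dg, hz_dh] at hD
  have hp : ((fun j : Fin (n + 2) => ez p.1 j), (fun e (j : Fin n) => ez2 p.2 e j)) = p := by
    refine Prod.ext ?_ ?_
    · funext j
      exact ez_fin _ _
    · funext e j
      exact ez_fin _ _
  rw [hp] at hD
  rw [hD]
  set Z : R4 (Op K) := (fdat hg).al (dg (n + 1) (fun j => ez p.1 j 0))
    (dg (n + 1) (fun j => ez p.1 j 1)) + (fdat hg).be (dh n (ez (p.2 0))) (dh n (ez (p.2 1)))
    with hZ
  -- off the diagonal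
  have off : ∀ a b, a + b ≠ n → Z.1 a b = 0 ∧ Z.2.1 a b = 0 ∧ Z.2.2.1 a b = 0 ∧
      Z.2.2.2 a b = 0 := by
    intro a b hab
    have hX1 : ∀ x : ℕ → Op K, Cov853.X1 (dh n x) a b = 0 := by
      intro x
      rcases b with _ | b
      · rw [Cov853.X1_zero]
      · rw [Cov853.X1_succ, dh_ne _ (by omega)]
    have hX0 : ∀ x : ℕ → Op K, Cov853.X0 (dh n x) a b = 0 := by
      intro x
      rcases a with _ | a
      · rw [Cov853.X0_zero]
      · rw [Cov853.X0_succ, dh_ne _ (by omega)]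
    have hI : ∀ x : ℕ → Op K, (fdat hg).I0 (dh n x) a b = 0 := by
      intro x
      rcases a with _ | a
      · rw [Cov853.Dat.I0_zero]
      · rw [Cov853.Dat.I0_succ, dh_ne _ (by omega), smul_zero]
    have hq0 : ∀ x y : ℕ → Op K, Cov853.Dat.q0 ((fdat hg).cv (dg (n + 1) x) (dg (n + 1) y)) a b =
        0 := by
      intro x y
      rcases b with _ | b
      · rw [Cov853.Dat.q0_zero, Cov853.Dat.cv_apply, dg_ne _ (by omega), dg_ne _ (by omega)]
        simp
      · rw [Cov853.Dat.q0_succ]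
    have hq1 : ∀ x y : ℕ → Op K, Cov853.Dat.q1 ((fdat hg).cv (dg (n + 1) x) (dg (n + 1) y)) a b =
        0 := by
      intro x y
      rw [Cov853.Dat.q1_apply, Cov853.Dat.cv_apply, dg_ne _ (by omega), dg_ne _ (by omega)]
      simp
    have hD0 : ∀ x : ℕ → Op K, Cov853.D0 (fdat hg).c (dg (n + 1) x) a b = 0 := by
      intro x
      rw [Cov853.D0_apply, dg_ne _ (by omega), smul_zero]
    have hD1 : ∀ x : ℕ → Op K, Cov853.D1 (fdat hg).c (dg (n + 1) x) a b = 0 := by
      intro x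
      rw [Cov853.D1_apply, dg_ne _ (by omega), smul_zero]
    rw [hZ]
    unfold Cov853.Dat.al Cov853.Dat.be
    simp only [Prod.mk_add_mk, Pi.sub_apply, Pi.add_apply, Pi.neg_apply, Pi.smul_apply, ap_apply,
      hX0, hX1, hI, hq0, hq1, hD0, hD1, map_zero, smul_zero, add_zero, sub_zero, neg_zero,
      and_self]
  have on : ∀ (u : ℕ → ℕ → Op K), (∀ a b, a + b ≠ n → u a b = 0) → dg n (sq n u) = u := by
    intro u hu
    funext a b
    by_cases hab : a + b = n
    · rw [dg_of _ hab, sq_of _ hab]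
    · rw [dg_ne _ hab, hu a b hab]
  unfold zv
  rw [show (ez ((fun e (j : Fin (n + 1)) => vz n Z e j) 0) : ℕ → Fin 2 → Op K) = vz n Z 0 from
      congrFun (vz_fin Z) 0,
    show (ez ((fun e (j : Fin (n + 1)) => vz n Z e j) 1) : ℕ → Fin 2 → Op K) = vz n Z 1 from
      congrFun (vz_fin Z) 1]
  refine Prod.ext ?_ (Prod.ext ?_ (Prod.ext ?_ ?_))
  · exact (on _ fun a b h => (off a b h).1).symm
  · exact (on _ fun a b h => (off a b h).2.1).symm
  · exact (on _ fun a b h => (off a b h).2.2.1).symm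
  · exact (on _ fun a b h => (off a b h).2.2.2).symm

/-- (z1) -/
theorem z1 (n : ℕ) (p : (Fin (n + 2) → Fin 2 → Op K) × (Fin 2 → Fin n → Op K)) :
    D1 g n (D2 g n p) = 0 := by
  have h := del1_zv hg (D2 g n p)
  rw [← D2_zv hg, Cov853.Dat.del1_add, Cov853.Dat.del1_al, Cov853.Dat.del1_be, add_zero] at h
  funext j
  have := congrFun (congrFun h (n - (j : ℕ))) j
  rw [dg_of _ (by omega), ez_fin] at this
  exact this.symm

end D2

/-! ### `δ₃` -/

section D3
variable (hg : Gen g)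

/-- (D), the component in `K₂ ⊗ [n+1]` -/
theorem d3w_eq (n : ℕ) (v : Fn (Op K)) (a b : ℕ) (h : a + b = n + 1) :
    (fdat hg).d3α v a b = d3w g n (sq n v) b 0 ∧ (fdat hg).d3β v a b = d3w g n (sq n v) b 1 := by
  have e2 : n + 1 - b = a := by omega
  have hX1 : Cov853.X1 v a b = sh (sq n v) b := by
    rcases b with _ | b
    · rw [Cov853.X1_zero, sh_zero]
    · rw [Cov853.X1_succ, sh_succ, sq_of (a := a) _ (by omega)]
  have hX0 : Cov853.X0 v a b = sq n v b := by
    rcases a with _ | a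
    · rw [Cov853.X0_zero, sq_gt _ (by omega)]
    · rw [Cov853.X0_succ, sq_of (a := a) _ (by omega)]
  have hI : (fdat hg).I0 v a b = (cq g (a : ℕ))⁻¹ • sq n v b := by
    rcases a with _ | a
    · rw [Cov853.Dat.I0_zero, sq_gt _ (by omega), smul_zero]
    · rw [Cov853.Dat.I0_succ, sq_of (a := a) _ (by omega), fdat_c]
  have hpsi : (fdat hg).psi v a b =
      if b = n + 1 then -((cq g (n + 1 : ℕ))⁻¹ • sq n v n) else 0 := by
    rcases a with _ | a
    · obtain rfl : b = n + 1 := by omega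
      rw [Cov853.Dat.psi_zero_succ, if_pos rfl, sq_of (a := 0) _ (by omega), fdat_c]
    · rw [Cov853.Dat.psi_succ, if_neg (by omega)]
  unfold Cov853.Dat.d3α Cov853.Dat.d3β d3w
  simp only [Pi.sub_apply, Pi.add_apply, Pi.neg_apply, ap_apply, hX0, hX1, hI, hpsi, fdat_x0,
    fdat_x1, fdat_d0, fdat_d1, e2]
  split_ifs with hb
  · simp [syz, sub_eq_add_neg]
  · simp [syz, sub_eq_add_neg]

/-- (D), the components in `O(-1) ⊗ [n-1]` -/
theorem d3h_eq (n : ℕ) (v : Fn (Op K)) (a b : ℕ) (h : a + b + 1 = n) :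
    (fdat hg).d3H0 v a b = d3h0 g (sq n v) b ∧ (fdat hg).d3H1 v a b = d3h1 g n (sq n v) b := by
  have e1 : n - b = a + 1 := by omega
  have h1 : sq n v (b + 1) = v a (b + 1) := sq_of _ (by omega)
  have h2 : sq n v b = v (a + 1) b := sq_of _ (by omega)
  unfold Cov853.Dat.d3H0 Cov853.Dat.d3H1 d3h0 d3h1
  simp only [Pi.sub_apply, Pi.add_apply, Pi.neg_apply, Pi.smul_apply, ap_apply,
    Cov853.D0_apply, Cov853.D1_apply, Cov853.Dat.q1_apply, fdat_x1, fdat_d0, fdat_d1, fdat_g,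
    fdat_c, h1, h2, e1, sub_smul, one_smul]
  constructor
  · trivial
  · abel

theorem sq_fin {n : ℕ} (v : Fn (Op K)) : ez (fun j : Fin (n + 1) => sq n v j) = sq n v :=
  ez_restrict fun j hj => sq_gt _ (by omega)

theorem D3_sq (n : ℕ) (v : Fn (Op K)) :
    D3 g n (fun j : Fin (n + 1) => sq n v j) =
      (fun j : Fin (n + 2) => wz n ((fdat hg).d3α v) ((fdat hg).d3β v) j,
        fun e (j : Fin n) => hz n ((fdat hg).d3H0 v) ((fdat hg).d3H1 v) e j) := by
  refine Prod.ext ?_ ?_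
  · funext j i
    show d3w g n (ez (fun j : Fin (n + 1) => sq n v j)) j i = _
    have hj : n + 1 - (j : ℕ) + j = n + 1 := by omega
    obtain ⟨h1, h2⟩ := d3w_eq hg n v _ _ hj
    rw [sq_fin]
    fin_cases i
    · show _ = sq (n + 1) _ j
      rw [sq_of _ hj, h1]; rfl
    · show _ = sq (n + 1) _ j
      rw [sq_of _ hj, h2]; rfl
  · funext e j
    have hj : n - 1 - (j : ℕ) + j + 1 = n := by omega
    obtain ⟨h1, h2⟩ := d3h_eq hg n v _ _ hj
    fin_cases e
    · show d3h0 g (ez (fun j : Fin (n + 1) => sq n v j)) j = sh' n _ j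
      rw [sq_fin, sh'_of _ hj, h1]
    · show d3h1 g n (ez (fun j : Fin (n + 1) => sq n v j)) j = sh' n _ j
      rw [sq_fin, sh'_of _ hj, h2]

theorem sq_dg_fin {n : ℕ} (u : Fin (n + 1) → Op K) :
    (fun j : Fin (n + 1) => sq n (dg n (ez u)) j) = u := by
  funext j
  rw [sq_dg _ fun j hj => ez_of_ge _ (by omega)]
  exact ez_fin u j

include hg

/-- (z2) -/
theorem z2 (n : ℕ) (u : Fin (n + 1) → Op K) : D2 g n (D3 g n u) = 0 := by
  rw [← sq_dg_fin u, D3_sq hg, D2_wz hg, Cov853.Dat.del2_del3]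
  funext e j i
  have : sq n (0 : Fn (Op K)) j = 0 := by
    unfold sq
    split_ifs <;> rfl
  fin_cases e <;> fin_cases i <;> exact this

/-- (x2) -/
theorem x2 {n : ℕ} {k P : ℤ} (hP : 0 ≤ P)
    (p : (Fin (n + 2) → Fin 2 → Op K) × (Fin 2 → Fin n → Op K))
    (hp1 : ∀ j, RK g 0 2 k P (p.1 j)) (hp2 : ∀ e j, p.2 e j ∈ Fil g (k - 1) P)
    (h : D2 g n p = 0) :
    ∃ u : Fin (n + 1) → Op K, (∀ j, u j ∈ Fil g (k - 2) P) ∧ D3 g n u = p := by
  have hzv : zv (0 : Fin 2 → Fin (n + 1) → Fin 2 → Op K) = 0 := by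
    have : ∀ i, dg n (fun j => ez (0 : Fin (n + 1) → Fin 2 → Op K) j i) = 0 := by
      intro i
      funext a b
      rw [ez_zero]
      unfold dg
      split_ifs <;> rfl
    exact Prod.ext (this 0) (Prod.ext (this 1) (Prod.ext (this 0) (this 1)))
  have hE := D2_zv hg p
  rw [h, hzv] at hE
  have hv' : ∀ j, RK g 0 2 k P (ez p.1 j) := fun j =>
    ez_all (p := fun r => RK g 0 2 k P r) RK.zero hp1 j
  have hK : (fdat hg).KL 2 P k (dg (n + 1) (fun j => ez p.1 j 0))
      (dg (n + 1) (fun j => ez p.1 j 1)) := by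
    refine ⟨fun a b => ?_, fun a b => ?_, fun a b => ?_⟩
    · show _ ∈ Fil g k P
      unfold dg
      split_ifs
      · have := (hv' b).1
        rwa [sub_zero] at this
      · exact zero_mem _
    · show _ ∈ Fil g k P
      unfold dg
      split_ifs
      · have := (hv' b).2.1
        rwa [sub_zero] at this
      · exact zero_mem _
    · show dg (n + 1) (fun j => ez p.1 j 0) a b * X 0 + dg (n + 1) (fun j => ez p.1 j 1) a b * X 1 ∈
        Fil g (k - 2) (P + 1)
      unfold dg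
      split_ifs
      · exact (hv' b).2.2
      · simp
  obtain ⟨v, mv, e1, e2, e3, e4⟩ := (fdat hg).exact2 hP _ _ _ _ hK (dg_ne _ (by omega))
    (dg_ne _ (by omega)) hE
  refine ⟨fun j => sq n v j, fun j => ?_, ?_⟩
  · show sq n v j ∈ Fil g (k - 2) P
    rw [sq_of (a := n - (j : ℕ)) _ (by omega)]
    exact mv _ _
  · rw [D3_sq hg, ← e1, ← e2, ← e3, ← e4, wz_dg, hz_dh]
    refine Prod.ext ?_ ?_
    · funext j
      exact ez_fin _ _
    · funext e j
      exact ez_fin _ _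

omit hg in
/-- (x3) -/
theorem x3 (n : ℕ) (u : Fin (n + 1) → Op K) (h : D3 g n u = 0) : u = 0 := by
  have h1 : ∀ j : Fin (n + 2), sh (ez u) j * X 0 = ez u j * X 1 := by
    intro j
    have h2 : d3w g n (ez u) j = 0 := congrFun (congrArg Prod.fst h) j
    have h3 : cc (d3w g n (ez u) j) = sh (ez u) j * X 0 - ez u j * X 1 := by
      unfold d3w
      have hsub : ∀ x y : Fin 2 → Op K, cc (x - y) = cc x - cc y := fun x y => by
        rw [sub_eq_add_neg, cc_add, cc_neg, sub_eq_add_neg]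
      rw [hsub, hsub, cc_csmul, cc_syz, smul_zero, sub_zero]
      have : cc (if (j : ℕ) = n + 1 then (cq g (n + 1 : ℕ))⁻¹ • syz (ez u n * D g 1) else 0) =
          0 := by
        split_ifs
        · rw [cc_csmul, cc_syz, smul_zero]
        · exact cc_zero
      rw [this, sub_zero]
      simp [cc, sub_eq_add_neg]
    rw [h2, cc_zero] at h3
    exact sub_eq_zero.1 h3.symm
  have h2 : ∀ j, j < n + 1 → ez u j = 0 := by
    intro j
    induction j with
    | zero =>
      intro _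
      have := h1 ⟨0, by omega⟩
      rw [sh_zero, zero_mul] at this
      exact mul_X_zero 1 this.symm
    | succ j ih =>
      intro hj
      have := h1 ⟨j + 1, by omega⟩
      rw [sh_succ, ih (by omega), zero_mul] at this
      exact mul_X_zero 1 this.symm
  funext j
  rw [← ez_fin u j]
  exact h2 j j.2

end D3

end Crest.Agent.R186.B281.KE0_853
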