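import Crest.Agent.R186.Cov1Op_605
import Crest.Agent.R186.KL_355

/-!
Row 186, S0281 base (helper605): exactness (`s = 1`) of helper355's literal maps
`e3v0 e3v1 | e2w e2q0 e2q1 | e1w e1q` on tuples, index `j` = exponent of `x₁`
(from `Cov1_605`, index `i` = exponent of `x₀`, by the reflection `j = m - i`).
-/

set_option autoImplicit false

namespace Crest.Agent.R186.B281

namespace KE1

open Cov605 KN

/-- reflection of a sequence with `m` entries -/
def rf {M : Type*} [Zero M] (m : ℕ) (u : ℕ → M) (i : ℕ) : M := if i < m then u (m - 1 - i) else 0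

section
variable {M : Type*} [Zero M]

theorem rf_eq {m i : ℕ} (u : ℕ → M) (j : ℕ) (h : i + j + 1 = m) : rf m u i = u j := by
  unfold rf
  rw [if_pos (by omega)]
  congr 1
  omega

theorem rf_ge {m i : ℕ} (u : ℕ → M) (h : m ≤ i) : rf m u i = 0 := if_neg (by omega)

theorem rf_sh {m i : ℕ} (u : ℕ → M) (j : ℕ) (h : i + j = m) : rf m u i = KN.sh u j := by
  rcases j with _ | j
  · exact rf_ge u (by omega)
  · exact rf_eq u j (by omega)

/-- `sh (rf m u) i = u j` if `i + j = m` and `u m = 0` -/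
theorem sh_rf {m i : ℕ} (u : ℕ → M) (j : ℕ) (h : i + j = m) (h0 : u m = 0) :
    Cov605.sh (rf m u) i = u j := by
  rcases i with _ | i
  · rw [Cov605.sh_zero]
    obtain rfl : j = m := by omega
    exact h0.symm
  · rw [Cov605.sh_succ]
    exact rf_eq u j (by omega)

end

variable {K : Type} [Field K] {g : K}

/-- `(w, q) ↦ ξ` -/
noncomputable def xi (n : ℕ) (w : ℕ → Fin 2 → Op K) (q : Fin 2 → ℕ → Op K) : Fin 4 → ℕ → Op K :=
  ![rf n (fun j => w j 0), rf n (fun j => w j 1), rf (n + 2) (q 0), rf (n + 2) (q 1)]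

/-- `v ↦ η` -/
noncomputable def et (n : ℕ) (v : Fin 2 → ℕ → Fin 2 → Op K) : Fin 4 → ℕ → Op K :=
  ![rf (n + 1) (fun j => v 0 j 0), rf (n + 1) (fun j => v 0 j 1), rf (n + 1) (fun j => v 1 j 0),
    rf (n + 1) (fun j => v 1 j 1)]

theorem dd1_xi (hg : Gen g) (n : ℕ) (w : ℕ → Fin 2 → Op K) (q : Fin 2 → ℕ → Op K)
    (hw : w n = 0) {i j : ℕ} (hij : i + j = n) :
    (wOp hg).dd1 n (xi n w q) i = e1w g n w j + e1q g n q j := by
  have e1 : (wOp hg).d1K (rf n fun j => w j 0) (rf n fun j => w j 1) i = e1w g n w j := by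
    unfold Wey.d1K e1w
    have hb : rf n (fun j => w j 1) i = KN.sh w j 1 := by
      rw [rf_sh _ j hij]
      rcases j with _ | j <;> rfl
    have ha : Cov605.sh (rf n fun j => w j 0) i = w j 0 :=
      sh_rf _ j hij (by rw [hw]; rfl)
    have hc : Cov605.sh ((wOp hg).cc (rf n fun j => w j 0) (rf n fun j => w j 1)) i =
        cc (w j) := by
      rcases i with _ | i
      · obtain rfl : j = n := by omega
        rw [Cov605.sh_zero, hw, cc_zero]
      · rw [Cov605.sh_succ]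
        unfold Wey.cc cc
        rw [rf_eq _ j (by omega), rf_eq _ j (by omega)]
        rfl
    rw [ha, hb, hc, show n - j = i by omega]
    rfl
  have e2 : (wOp hg).d1q0 (rf (n + 2) (q 0)) i = q 0 j * D g 0 * X 0 -
      cq g (n + 1 - j : ℕ) • q 0 j + (if j = n then q 0 (n + 1) * D g 0 * X 1 else 0) := by
    unfold Wey.d1q0
    rw [rf_eq (q 0) j (by omega), rf_eq (q 0) (n + 1) (by omega), show n + 1 - j = i + 1 by omega]
    have : (i = 0) ↔ (j = n) := by omega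
    simp only [this]
    rfl
  have e3 : (wOp hg).d1q1 n (rf (n + 2) (q 1)) i = q 1 j * D g 1 * X 0 -
      cq g (j + 1 : ℕ) • q 1 (j + 1) + (if j = n then q 1 (n + 1) * D g 1 * X 1 else 0) := by
    unfold Wey.d1q1
    rw [rf_eq (i := i + 1) (q 1) j (by omega), rf_eq (i := 0) (q 1) (n + 1) (by omega),
      rf_eq (i := i) (q 1) (j + 1) (by omega), show n + 1 - i = j + 1 by omega]
    have : (i = 0) ↔ (j = n) := by omega
    simp only [this]
    rfl
  change (wOp hg).d1K _ _ i + (wOp hg).d1q0 _ i + (wOp hg).d1q1 n _ i = _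
  unfold e1q
  rw [← e1, ← add_assoc, ← e3, ← e2]
  rfl

/-! ### `d2` -/

theorem cc_rf (hg : Gen g) {m i : ℕ} (u : ℕ → Fin 2 → Op K) (j : ℕ) (h : i + j + 1 = m) :
    (wOp hg).cc (rf m fun j => u j 0) (rf m fun j => u j 1) i = cc (u j) := by
  unfold Wey.cc cc
  rw [rf_eq _ j h, rf_eq _ j h]
  rfl

theorem sh_cc_rf (hg : Gen g) {m i : ℕ} (u : ℕ → Fin 2 → Op K) (j : ℕ) (h : i + j = m)
    (h0 : u m = 0) :
    Cov605.sh ((wOp hg).cc (rf m fun j => u j 0) (rf m fun j => u j 1)) i = cc (u j) := by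
  rcases i with _ | i
  · obtain rfl : j = m := by omega
    rw [Cov605.sh_zero, h0, cc_zero]
  · rw [Cov605.sh_succ]
    exact cc_rf hg u j (by omega)

theorem d2_et_a (hg : Gen g) (n : ℕ) (v : Fin 2 → ℕ → Fin 2 → Op K) {i j : ℕ}
    (hij : i + j + 1 = n) : (wOp hg).d2 n (et n v) 0 i = e2w g n v j 0 := by
  change (wOp hg).d20a (rf (n + 1) fun j => v 0 j 0) (rf (n + 1) fun j => v 0 j 1) i +
    (wOp hg).d21a n (rf (n + 1) fun j => v 1 j 0) (rf (n + 1) fun j => v 1 j 1) i = _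
  unfold Wey.d20a Wey.d21a e2w
  rw [rf_eq (i := i + 1) _ j (by omega), rf_eq (i := i + 1) _ j (by omega),
    rf_eq (i := i + 1) _ j (by omega), rf_eq (i := i) _ (j + 1) (by omega),
    show n - i = j + 1 by omega, show n - j = i + 1 by omega]
  simp only [Pi.add_apply, Pi.sub_apply, Pi.neg_apply, Pi.smul_apply, syz, Matrix.cons_val_zero,
    neg_smul]
  rfl

theorem d2_et_b (hg : Gen g) (n : ℕ) (v : Fin 2 → ℕ → Fin 2 → Op K) {i j : ℕ}
    (hij : i + j + 1 = n) : (wOp hg).d2 n (et n v) 1 i = e2w g n v j 1 := by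
  change (wOp hg).d20b (rf (n + 1) fun j => v 0 j 0) (rf (n + 1) fun j => v 0 j 1) i +
    (wOp hg).d21b n (rf (n + 1) fun j => v 1 j 0) (rf (n + 1) fun j => v 1 j 1) i = _
  unfold Wey.d20b Wey.d21b e2w
  rw [rf_eq (i := i + 1) _ j (by omega), rf_eq (i := i + 1) _ j (by omega),
    rf_eq (i := i) _ (j + 1) (by omega),
    show n - i = j + 1 by omega, show n - j = i + 1 by omega]
  simp only [Pi.add_apply, Pi.sub_apply, Pi.neg_apply, Pi.smul_apply, syz, Matrix.cons_val_zero,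
    Matrix.cons_val_one, neg_smul, smul_neg, sub_neg_eq_add]
  rfl

theorem d2_et_q0 (hg : Gen g) (n : ℕ) (v : Fin 2 → ℕ → Fin 2 → Op K) (hv : ∀ e, v e (n + 1) = 0)
    {i j : ℕ} (hij : i + j = n + 1) : (wOp hg).d2 n (et n v) 2 i = e2q0 g n v j := by
  change (wOp hg).d20q0 n (rf (n + 1) fun j => v 0 j 0) (rf (n + 1) fun j => v 0 j 1) i +
    (wOp hg).d21q0 (rf (n + 1) fun j => v 1 j 0) (rf (n + 1) fun j => v 1 j 1) i = _
  unfold Wey.d20q0 Wey.d21q0 e2q0
  have hb : rf (n + 1) (fun j => v 0 j 1) i = KN.sh (v 0) j 1 := by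
    rw [rf_sh _ j hij]
    rcases j with _ | j <;> rfl
  have : (i = 0) ↔ (j = n + 1) := by omega
  rw [sh_rf _ j hij (by rw [hv]; rfl), hb, sh_cc_rf hg (v 1) j hij (hv 1),
    cc_rf hg (i := 0) (v 0) n (by omega), show n + 1 - j = i by omega]
  simp only [this]
  rfl

theorem d2_et_q1 (hg : Gen g) (n : ℕ) (v : Fin 2 → ℕ → Fin 2 → Op K) (hv : ∀ e, v e (n + 1) = 0)
    {i j : ℕ} (hij : i + j = n + 1) : (wOp hg).d2 n (et n v) 3 i = e2q1 g n v j := by
  change (wOp hg).d20q1 n (rf (n + 1) fun j => v 0 j 0) (rf (n + 1) fun j => v 0 j 1) i +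
    (wOp hg).d21q1 (rf (n + 1) fun j => v 1 j 0) (rf (n + 1) fun j => v 1 j 1) i = _
  unfold Wey.d20q1 Wey.d21q1 e2q1
  have hb : rf (n + 1) (fun j => v 1 j 1) i = KN.sh (v 1) j 1 := by
    rw [rf_sh _ j hij]
    rcases j with _ | j <;> rfl
  have : (i = 0) ↔ (j = n + 1) := by omega
  rw [sh_rf _ j hij (by rw [hv]; rfl), hb, sh_cc_rf hg (v 1) j hij (hv 1),
    cc_rf hg (i := 0) (v 0) n (by omega), show n + 1 - j = i by omega]
  simp only [this]
  rfl

/-! ### `d3` -/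

theorem d3_rf_0 (hg : Gen g) (n : ℕ) (u : ℕ → Op K) (hu : u (n + 1) = 0) {i j : ℕ}
    (hij : i + j = n) : (wOp hg).d3 n (rf (n + 1) u) 0 i = e3v0 g u j 0 ∧
      (wOp hg).d3 n (rf (n + 1) u) 1 i = e3v0 g u j 1 := by
  change (wOp hg).d30a n _ i = _ ∧ (wOp hg).d30b n _ i = _
  unfold Wey.d30a Wey.d30b e3v0
  rw [rf_eq (i := i) u j (by omega), sh_rf u (j + 1) (by omega) hu,
    show n + 1 - i = j + 1 by omega]
  exact ⟨rfl, rfl⟩

theorem d3_rf_1 (hg : Gen g) (n : ℕ) (u : ℕ → Op K) {i j : ℕ}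
    (hij : i + j = n) : (wOp hg).d3 n (rf (n + 1) u) 2 i = e3v1 g n u j 0 ∧
      (wOp hg).d3 n (rf (n + 1) u) 3 i = e3v1 g n u j 1 := by
  change (wOp hg).d31a _ i = _ ∧ (wOp hg).d31b _ i = _
  unfold Wey.d31a Wey.d31b e3v1
  rw [rf_eq (i := i) u j (by omega), rf_sh (i := i + 1) u j (by omega),
    show n + 1 - j = i + 1 by omega]
  exact ⟨rfl, rfl⟩

/-! ### tuples and lattices -/

/-- the rows of `K₂` in bidegree `(k, P)` -/
def T2 (g : K) (k P : ℤ) (x : Fin 2 → Op K) : Prop :=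
  x 0 ∈ Fil g k P ∧ x 1 ∈ Fil g k P ∧ cc x ∈ Fil g (k - 2) (P + 1)

/-- the rows of `K₁(-1)` in bidegree `(k, P)` -/
def T1 (g : K) (k P : ℤ) (x : Fin 2 → Op K) : Prop :=
  x 0 ∈ Fil g (k - 1) P ∧ x 1 ∈ Fil g (k - 1) P ∧ cc x ∈ Fil g (k - 2) (P + 1)

theorem T2_zero (g : K) (k P : ℤ) : T2 g k P 0 :=
  ⟨zero_mem _, zero_mem _, by rw [cc_zero]; exact zero_mem _⟩

theorem T1_zero (g : K) (k P : ℤ) : T1 g k P 0 :=
  ⟨zero_mem _, zero_mem _, by rw [cc_zero]; exact zero_mem _⟩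

theorem ez_prop {M : Type*} [Zero M] {m : ℕ} {x : Fin m → M} (p : M → Prop) (h0 : p 0)
    (hx : ∀ j, p (x j)) (j : ℕ) : p (ez x j) := by
  unfold ez
  split_ifs
  · exact hx _
  · exact h0

theorem rf_prop {M : Type*} [Zero M] {m : ℕ} {u : ℕ → M} (p : M → Prop) (h0 : p 0)
    (hx : ∀ j, p (u j)) (i : ℕ) : p (rf m u i) := by
  unfold rf
  split_ifs
  · exact hx _
  · exact h0

theorem cc_rf_mem (hg : Gen g) {m : ℕ} {u : ℕ → Fin 2 → Op K} {S : Submodule K (Op K)}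
    (h : ∀ j, cc (u j) ∈ S) (i : ℕ) :
    (wOp hg).cc (rf m fun j => u j 0) (rf m fun j => u j 1) i ∈ S := by
  rcases Nat.lt_or_ge i m with hi | hi
  · rw [cc_rf hg u (m - 1 - i) (by omega)]
    exact h _
  · unfold Wey.cc
    rw [rf_ge _ hi, rf_ge _ hi, map_zero, map_zero, add_zero]
    exact zero_mem _

theorem Ok1_xi (hg : Gen g) {n : ℕ} {k P : ℤ} {w : Fin n → Fin 2 → Op K}
    {q : Fin 2 → Fin (n + 2) → Op K} (hw : ∀ j, T2 g k P (w j)) (hq : ∀ e j, q e j ∈ Fil g (k - 1) P) :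
    (wOp hg).Ok1 P k n (xi n (ez w) (fun e => ez (q e))) := by
  have hw' : ∀ j, T2 g k P (ez w j) := ez_prop _ (T2_zero g k P) hw
  have hq' : ∀ e j, ez (q e) j ∈ Fil g (k - 1) P := fun e =>
    ez_prop (· ∈ Fil g (k - 1) P) (zero_mem _) (hq e)
  refine ⟨fun i => ?_, fun i => ?_, fun i => ?_, fun i => ?_, fun i => ?_, fun i hi => ?_,
    fun i hi => ?_, fun i hi => ?_, fun i hi => ?_⟩
  · exact rf_prop (· ∈ Fil g k P) (zero_mem _) (fun j => (hw' j).1) i
  · exact rf_prop (· ∈ Fil g k P) (zero_mem _) (fun j => (hw' j).2.1) i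
  · exact cc_rf_mem hg (fun j => (hw' j).2.2) i
  · exact rf_prop (· ∈ Fil g (k - 1) P) (zero_mem _) (hq' 0) i
  · exact rf_prop (· ∈ Fil g (k - 1) P) (zero_mem _) (hq' 1) i
  · exact rf_ge (fun j => ez w j 0) hi
  · exact rf_ge (fun j => ez w j 1) hi
  · exact rf_ge (ez (q 0)) hi
  · exact rf_ge (ez (q 1)) hi

theorem Ok2_et (hg : Gen g) {n : ℕ} {k P : ℤ} {v : Fin 2 → Fin (n + 1) → Fin 2 → Op K}
    (hv : ∀ e j, T1 g k P (v e j)) : (wOp hg).Ok2 P k n (et n (fun e => ez (v e))) := by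
  have hv' : ∀ e j, T1 g k P (ez (v e) j) := fun e => ez_prop _ (T1_zero g k P) (hv e)
  refine ⟨fun l i => ?_, fun i => ?_, fun i => ?_, fun l i hi => ?_⟩
  · fin_cases l
    · exact rf_prop (· ∈ Fil g (k - 1) P) (zero_mem _) (fun j => (hv' 0 j).1) i
    · exact rf_prop (· ∈ Fil g (k - 1) P) (zero_mem _) (fun j => (hv' 0 j).2.1) i
    · exact rf_prop (· ∈ Fil g (k - 1) P) (zero_mem _) (fun j => (hv' 1 j).1) i
    · exact rf_prop (· ∈ Fil g (k - 1) P) (zero_mem _) (fun j => (hv' 1 j).2.1) i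
  · exact cc_rf_mem hg (fun j => (hv' 0 j).2.2) i
  · exact cc_rf_mem hg (fun j => (hv' 1 j).2.2) i
  · fin_cases l
    · exact rf_ge (fun j => ez (v 0) j 0) hi
    · exact rf_ge (fun j => ez (v 0) j 1) hi
    · exact rf_ge (fun j => ez (v 1) j 0) hi
    · exact rf_ge (fun j => ez (v 1) j 1) hi

theorem Ok3_rf (hg : Gen g) {n : ℕ} {k P : ℤ} {u : Fin (n + 1) → Op K}
    (hu : ∀ j, u j ∈ Fil g (k - 2) P) : (wOp hg).Ok3 P k n (rf (n + 1) (ez u)) :=
  ⟨rf_prop (· ∈ Fil g (k - 2) P) (zero_mem _) (ez_prop (· ∈ Fil g (k - 2) P) (zero_mem _) hu),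
    fun _ hi => rf_ge _ hi⟩

theorem rf_ez {M : Type*} [Zero M] {n : ℕ} {u : ℕ → M} (hu : ∀ i, n < i → u i = 0) :
    rf (n + 1) (ez (fun j : Fin (n + 1) => u (n - j))) = u := by
  funext i
  rcases Nat.lt_or_ge n i with hi | hi
  · rw [rf_ge _ hi, hu i hi]
  · rw [rf_eq _ (n - i) (by omega), ez_of_lt _ (show n - i < n + 1 by omega)]
    show u (n - (n - i)) = u i
    congr 1
    omega

theorem rf_ez2 {M : Type*} [Zero M] {n : ℕ} {u : Fin 2 → ℕ → M} (hu : ∀ l i, n < i → u l i = 0)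
    (l : Fin 2) :
    rf (n + 1) (fun j => ez (fun j : Fin (n + 1) => fun l => u l (n - j)) j l) = u l := by
  funext i
  rcases Nat.lt_or_ge n i with hi | hi
  · rw [rf_ge _ hi, hu l i hi]
  · rw [rf_eq _ (n - i) (by omega), ez_of_lt _ (show n - i < n + 1 by omega)]
    show u l (n - (n - i)) = u l i
    congr 1
    omega

theorem rf_ez2' {M : Type*} [Zero M] {n : ℕ} {u : Fin 2 → ℕ → M} (hu : ∀ l i, n ≤ i → u l i = 0)
    (l : Fin 2) :
    rf n (fun j => ez (fun j : Fin n => fun l => u l (n - 1 - j)) j l) = u l := by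
  funext i
  rcases Nat.lt_or_ge i n with hi | hi
  · rw [rf_eq _ (n - 1 - i) (by omega), ez_of_lt _ (show n - 1 - i < n by omega)]
    show u l (n - 1 - (n - 1 - i)) = u l i
    congr 1
    omega
  · rw [rf_ge _ hi, hu l i hi]

/-! ### the four statements -/

/-- **exactness at `K₁`** -/
theorem ex1 (hg : Gen g) (n : ℕ) {k P : ℤ} (hP : 0 ≤ P) (w : Fin n → Fin 2 → Op K)
    (q : Fin 2 → Fin (n + 2) → Op K) (hw : ∀ j, T2 g k P (w j))
    (hq : ∀ e j, q e j ∈ Fil g (k - 1) P)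
    (h : ∀ j : Fin (n + 1), e1w g n (ez w) j + e1q g n (fun e => ez (q e)) j = 0) :
    ∃ v : Fin 2 → Fin (n + 1) → Fin 2 → Op K, (∀ e j, T1 g k P (v e j)) ∧
      (∀ j : Fin n, e2w g n (fun e => ez (v e)) j = w j) ∧
      (∀ j : Fin (n + 2), e2q0 g n (fun e => ez (v e)) j = q 0 j) ∧
      (∀ j : Fin (n + 2), e2q1 g n (fun e => ez (v e)) j = q 1 j) := by
  have ok := Ok1_xi hg hw hq
  obtain ⟨η, okη, hη⟩ := (wOp hg).exact1 hP n _ ok (by
    funext i
    rcases Nat.lt_or_ge n i with hi | hi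
    · exact ((wOp hg).dd1_mem ok).2 i hi
    · rw [dd1_xi hg n (ez w) _ (ez_of_ge _ le_rfl) (show i + (n - i) = n by omega)]
      exact h ⟨n - i, by omega⟩)
  let v : Fin 2 → Fin (n + 1) → Fin 2 → Op K :=
    ![fun j l => (![η 0, η 1] : Fin 2 → ℕ → Op K) l (n - j),
      fun j l => (![η 2, η 3] : Fin 2 → ℕ → Op K) l (n - j)]
  have h01 : ∀ (l : Fin 2) i, n < i → (![η 0, η 1] : Fin 2 → ℕ → Op K) l i = 0 := fun l i hi => by
    fin_cases l <;> exact okη.2.2.2 _ i hi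
  have h23 : ∀ (l : Fin 2) i, n < i → (![η 2, η 3] : Fin 2 → ℕ → Op K) l i = 0 := fun l i hi => by
    fin_cases l <;> exact okη.2.2.2 _ i hi
  have hev : et n (fun e => ez (v e)) = η := by
    funext l
    fin_cases l
    · exact rf_ez2 h01 0
    · exact rf_ez2 h01 1
    · exact rf_ez2 h23 0
    · exact rf_ez2 h23 1
  have hv1 : ∀ e, ez (v e) (n + 1) = 0 := fun e => ez_of_ge _ le_rfl
  rw [← hev] at hη
  refine ⟨v, fun e j => ?_, fun j => ?_, fun j => ?_, fun j => ?_⟩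
  · fin_cases e
    · exact ⟨okη.1 0 _, okη.1 1 _, okη.2.1 _⟩
    · exact ⟨okη.1 2 _, okη.1 3 _, okη.2.2.1 _⟩
  · funext l
    have hj : n - 1 - (j : ℕ) + j + 1 = n := by omega
    fin_cases l
    · have := d2_et_a hg n (fun e => ez (v e)) hj
      rw [hη] at this
      refine this.symm.trans ?_
      change rf n (fun j => ez w j 0) _ = _
      rw [rf_eq _ j hj, ez_fin]
      rfl
    · have := d2_et_b hg n (fun e => ez (v e)) hj
      rw [hη] at this
      refine this.symm.trans ?_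
      change rf n (fun j => ez w j 1) _ = _
      rw [rf_eq _ j hj, ez_fin]
      rfl
  · have := d2_et_q0 hg n (fun e => ez (v e)) hv1 (show n + 1 - (j : ℕ) + j = n + 1 by omega)
    rw [hη] at this
    refine this.symm.trans ?_
    change rf (n + 2) (ez (q 0)) _ = _
    rw [rf_eq _ j (by omega), ez_fin]
  · have := d2_et_q1 hg n (fun e => ez (v e)) hv1 (show n + 1 - (j : ℕ) + j = n + 1 by omega)
    rw [hη] at this
    refine this.symm.trans ?_
    change rf (n + 2) (ez (q 1)) _ = _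
    rw [rf_eq _ j (by omega), ez_fin]

/-- **exactness at `K₂`** -/
theorem ex2 (hg : Gen g) (n : ℕ) {k P : ℤ} (hP : 0 ≤ P) (v : Fin 2 → Fin (n + 1) → Fin 2 → Op K)
    (hv : ∀ e j, T1 g k P (v e j)) (h1 : ∀ j : Fin n, e2w g n (fun e => ez (v e)) j = 0)
    (h2 : ∀ j : Fin (n + 2), e2q0 g n (fun e => ez (v e)) j = 0)
    (h3 : ∀ j : Fin (n + 2), e2q1 g n (fun e => ez (v e)) j = 0) :
    ∃ u : Fin (n + 1) → Op K, (∀ j, u j ∈ Fil g (k - 2) P) ∧
      (∀ j : Fin (n + 1), e3v0 g (ez u) j = v 0 j) ∧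
      (∀ j : Fin (n + 1), e3v1 g n (ez u) j = v 1 j) := by
  have ok := Ok2_et hg hv
  have hv1 : ∀ e, ez (v e) (n + 1) = 0 := fun e => ez_of_ge _ le_rfl
  have okd := (wOp hg).Ok1_d2 ok
  obtain ⟨e, he, hd⟩ := (wOp hg).exact2 hP n _ ok (by
    funext l i
    fin_cases l
    · rcases Nat.lt_or_ge i n with hi | hi
      · refine (d2_et_a hg n _ (show i + (n - 1 - i) + 1 = n by omega)).trans ?_
        exact congrFun (h1 ⟨n - 1 - i, by omega⟩) 0
      · exact okd.2.2.2.2.2.1 i hi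
    · rcases Nat.lt_or_ge i n with hi | hi
      · refine (d2_et_b hg n _ (show i + (n - 1 - i) + 1 = n by omega)).trans ?_
        exact congrFun (h1 ⟨n - 1 - i, by omega⟩) 1
      · exact okd.2.2.2.2.2.2.1 i hi
    · rcases Nat.lt_or_ge (n + 1) i with hi | hi
      · exact okd.2.2.2.2.2.2.2.1 i hi
      · refine (d2_et_q0 hg n _ hv1 (show i + (n + 1 - i) = n + 1 by omega)).trans ?_
        exact h2 ⟨n + 1 - i, by omega⟩
    · rcases Nat.lt_or_ge (n + 1) i with hi | hi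
      · exact okd.2.2.2.2.2.2.2.2 i hi
      · refine (d2_et_q1 hg n _ hv1 (show i + (n + 1 - i) = n + 1 by omega)).trans ?_
        exact h3 ⟨n + 1 - i, by omega⟩)
  have hr := rf_ez he.2
  refine ⟨fun j => e (n - j), fun j => he.1 _, fun j => ?_, fun j => ?_⟩
  · have hj : n - (j : ℕ) + j = n := by omega
    obtain ⟨a0, a1⟩ := d3_rf_0 hg n (ez fun j : Fin (n + 1) => e (n - j)) (ez_of_ge _ le_rfl) hj
    rw [hr, hd] at a0 a1
    funext l
    fin_cases l
    · refine a0.symm.trans ?_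
      change rf (n + 1) (fun j => ez (v 0) j 0) _ = _
      rw [rf_eq _ j (by omega), ez_fin]
      rfl
    · refine a1.symm.trans ?_
      change rf (n + 1) (fun j => ez (v 0) j 1) _ = _
      rw [rf_eq _ j (by omega), ez_fin]
      rfl
  · have hj : n - (j : ℕ) + j = n := by omega
    obtain ⟨a0, a1⟩ := d3_rf_1 hg n (ez fun j : Fin (n + 1) => e (n - j)) hj
    rw [hr, hd] at a0 a1
    funext l
    fin_cases l
    · refine a0.symm.trans ?_
      change rf (n + 1) (fun j => ez (v 1) j 0) _ = _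
      rw [rf_eq _ j (by omega), ez_fin]
      rfl
    · refine a1.symm.trans ?_
      change rf (n + 1) (fun j => ez (v 1) j 1) _ = _
      rw [rf_eq _ j (by omega), ez_fin]
      rfl

/-- **injectivity of `d3`** -/
theorem inj3 (hg : Gen g) (n : ℕ) (u : Fin (n + 1) → Op K)
    (h1 : ∀ j : Fin (n + 1), e3v0 g (ez u) j = 0) (h2 : ∀ j : Fin (n + 1), e3v1 g n (ez u) j = 0) :
    u = 0 := by
  have h := (wOp hg).exact3 n (rf (n + 1) (ez u)) (fun i hi => rf_ge _ hi) (by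
    funext l i
    have hu : ez u (n + 1) = 0 := ez_of_ge _ le_rfl
    rcases Nat.lt_or_ge n i with hi | hi
    · have e0 : rf (n + 1) (ez u) i = 0 := rf_ge _ hi
      have e1 : rf (n + 1) (ez u) (i + 1) = 0 := rf_ge _ (by omega)
      have e2 : (wOp hg).lam (n + 1 - i) • Cov605.sh (rf (n + 1) (ez u)) i = 0 := by
        rcases Nat.lt_or_ge (n + 1) i with hi' | hi'
        · obtain ⟨i, rfl⟩ : ∃ k, i = k + 1 := ⟨i - 1, by omega⟩
          rw [Cov605.sh_succ, rf_ge _ (by omega), smul_zero]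
        · obtain rfl : i = n + 1 := by omega
          rw [Nat.sub_self, (wOp hg).lam0, zero_smul]
      fin_cases l
      · change (wOp hg).d30a n _ i = 0
        simp [Wey.d30a, e0]
      · change (wOp hg).d30b n _ i = 0
        unfold Wey.d30b
        rw [e0, e2]
        simp
      · change (wOp hg).d31a _ i = 0
        simp [Wey.d31a, e0, e1]
      · change (wOp hg).d31b _ i = 0
        simp [Wey.d31b, e0]
    · have hi' : i + (n - i) = n := by omega
      obtain ⟨a0, a1⟩ := d3_rf_0 hg n (ez u) hu hi'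
      obtain ⟨b0, b1⟩ := d3_rf_1 hg n (ez u) hi'
      have c0 := h1 ⟨n - i, by omega⟩
      have c1 := h2 ⟨n - i, by omega⟩
      fin_cases l
      · exact a0.trans (congrFun c0 0)
      · exact a1.trans (congrFun c0 1)
      · exact b0.trans (congrFun c1 0)
      · exact b1.trans (congrFun c1 1))
  funext j
  have := congrFun h (n - j)
  rw [rf_eq _ j (by omega), ez_fin] at this
  exact this

theorem rm_pow (y T : Op K) (k : ℕ) : (D3.rm y ^ k) T = T * y ^ k := by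
  induction k generalizing T with
  | zero => rw [pow_zero, pow_zero, mul_one]; rfl
  | succ k ih => rw [pow_succ, Module.End.mul_apply, ih, D3.rm_apply, mul_assoc, ← pow_succ']

theorem ev_aug (hg : Gen g) (n : ℕ) (u : Fin (n + 1) → Op K) :
    ((wOp hg).ev n (rf (n + 1) (ez u))) (Finsupp.single 0 1) =
      ∑ j : Fin (n + 1), u j (Finsupp.single ((n : ℤ) - (j : ℕ), ((j : ℕ) : ℤ)) 1) := by
  have h1 : ∀ i ∈ Finset.range (n + 1), ((((wOp hg).X1 ^ (n - i)) (((wOp hg).X0 ^ i)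
      (rf (n + 1) (ez u) i)) : Op K)) (Finsupp.single 0 1) =
      ez u (n - i) (Finsupp.single ((n : ℤ) - ((n - i : ℕ) : ℤ), ((n - i : ℕ) : ℤ)) 1) := by
    intro i hi
    rw [Finset.mem_range] at hi
    have e1 : ((wOp hg).X1 ^ (n - i)) (((wOp hg).X0 ^ i) (rf (n + 1) (ez u) i)) =
      rf (n + 1) (ez u) i * X 0 ^ i * X 1 ^ (n - i) := by
      change (D3.rm (X 1) ^ (n - i)) ((D3.rm (X 0) ^ i) _) = _
      rw [rm_pow, rm_pow]
    rw [e1, rf_eq _ (n - i) (by omega), Module.End.mul_apply, Module.End.mul_apply,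
      D3.X_pow_single, D3.X_pow_single]
    congr 2
    ext
    · simp [B281.ev]
      omega
    · simp [B281.ev]
  rw [Wey.ev, LinearMap.sum_apply, Finset.sum_congr rfl h1]
  refine (Finset.sum_range_reflect (fun j => ez u j (Finsupp.single ((n : ℤ) - (j : ℤ), (j : ℤ)) 1))
    (n + 1)).trans ?_
  rw [Finset.sum_range]
  exact Finset.sum_congr rfl fun j _ => by rw [ez_fin]

/-- **exactness at `K₀`** -/
theorem ex0 (hg : Gen g) (n : ℕ) {k P : ℤ} (hP : 0 ≤ P) (u : Fin (n + 1) → Op K)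
    (hu : ∀ j, u j ∈ Fil g k P)
    (h : ∑ j : Fin (n + 1), u j (Finsupp.single ((n : ℤ) - (j : ℕ), ((j : ℕ) : ℤ)) 1) = 0) :
    ∃ (w : Fin n → Fin 2 → Op K) (q : Fin 2 → Fin (n + 2) → Op K), (∀ j, T2 g k P (w j)) ∧
      (∀ e j, q e j ∈ Fil g (k - 1) P) ∧
      ∀ j : Fin (n + 1), e1w g n (ez w) j + e1q g n (fun e => ez (q e)) j = u j := by
  have hu' : ∀ i, rf (n + 1) (ez u) i ∈ Fil g k P :=
    rf_prop (· ∈ Fil g k P) (zero_mem _) (ez_prop (· ∈ Fil g k P) (zero_mem _) hu)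
  obtain ⟨f0, hf0, f1, hf1, hf⟩ := D3.D2r_ker ((wOp hg).ev_mem (P := P) (A := k) n _ fun i _ => hu' i)
    ((ev_aug hg n u).trans h)
  obtain ⟨ξ, ok, hξ⟩ := (wOp hg).exact0 hP n _ hu' (fun i hi => rf_ge _ hi)
    ⟨f0, hf0, f1, hf1, hf⟩
  let w : Fin n → Fin 2 → Op K := fun j l => (![ξ 0, ξ 1] : Fin 2 → ℕ → Op K) l (n - 1 - j)
  let q : Fin 2 → Fin (n + 2) → Op K := ![fun j => ξ 2 (n + 1 - j), fun j => ξ 3 (n + 1 - j)]
  have h01 : ∀ (l : Fin 2) i, n ≤ i → (![ξ 0, ξ 1] : Fin 2 → ℕ → Op K) l i = 0 := fun l i hi => by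
    fin_cases l
    · exact ok.2.2.2.2.2.1 i hi
    · exact ok.2.2.2.2.2.2.1 i hi
  have hξ' : xi n (ez w) (fun e => ez (q e)) = ξ := by
    funext l
    fin_cases l
    · exact rf_ez2' h01 0
    · exact rf_ez2' h01 1
    · exact rf_ez ok.2.2.2.2.2.2.2.1
    · exact rf_ez ok.2.2.2.2.2.2.2.2
  refine ⟨w, q, fun j => ⟨ok.1 _, ok.2.1 _, ok.2.2.1 _⟩, fun e j => ?_, fun j => ?_⟩
  · fin_cases e
    · exact ok.2.2.2.1 _
    · exact ok.2.2.2.2.1 _
  · rw [← dd1_xi hg n (ez w) (fun e => ez (q e)) (ez_of_ge _ le_rfl)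
      (show n - (j : ℕ) + j = n by omega), hξ', hξ, rf_eq _ j (by omega), ez_fin]

/-! ### the complex -/

/-- the augmentation kills the image of `d1` -/
theorem aug_d1 (hg : Gen g) (n : ℕ) (w : Fin n → Fin 2 → Op K) (q : Fin 2 → Fin (n + 2) → Op K) :
    ∑ j : Fin (n + 1), (e1w g n (ez w) j + e1q g n (fun e => ez (q e)) j : Op K)
      (Finsupp.single ((n : ℤ) - (j : ℕ), ((j : ℕ) : ℤ)) 1) = 0 := by
  rw [← ev_aug hg n fun j : Fin (n + 1) => e1w g n (ez w) j + e1q g n (fun e => ez (q e)) j]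
  have h1 : ∀ i, i ≤ n → rf (n + 1) (ez fun j : Fin (n + 1) =>
      e1w g n (ez w) j + e1q g n (fun e => ez (q e)) j) i =
      (wOp hg).dd1 n (xi n (ez w) (fun e => ez (q e))) i := by
    intro i hi
    rw [dd1_xi hg n (ez w) _ (ez_of_ge _ le_rfl) (show i + (n - i) = n by omega),
      rf_eq _ (n - i) (by omega), ez_of_lt _ (show n - i < n + 1 by omega)]
  have h2 : (wOp hg).ev n (rf (n + 1) (ez fun j : Fin (n + 1) =>
      e1w g n (ez w) j + e1q g n (fun e => ez (q e)) j)) =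
      (wOp hg).ev n ((wOp hg).dd1 n (xi n (ez w) (fun e => ez (q e)))) := by
    unfold Wey.ev
    exact Finset.sum_congr rfl fun i hi => by
      rw [h1 i (by rw [Finset.mem_range] at hi; omega)]
  rw [h2, (wOp hg).ev_dd1 n _ (fun i hi => rf_ge (fun j => ez w j 1) hi), LinearMap.add_apply,
    wOp_D0, wOp_D1, Module.End.mul_apply, Module.End.mul_apply, D3.D_one, D3.D_one, map_zero,
    map_zero, add_zero]

/-- supports of `d2` -/
theorem d2_supp (hg : Gen g) {n : ℕ} {η : Fin 4 → ℕ → Op K} (h4 : ∀ l i, n < i → η l i = 0) :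
    (∀ i, n ≤ i → (wOp hg).d2 n η 0 i = 0) ∧ (∀ i, n ≤ i → (wOp hg).d2 n η 1 i = 0) ∧
      (∀ i, n + 1 < i → (wOp hg).d2 n η 2 i = 0) ∧ ∀ i, n + 1 < i → (wOp hg).d2 n η 3 i = 0 := by
  refine ⟨fun i hi => ?_, fun i hi => ?_, fun i hi => ?_, fun i hi => ?_⟩
  · change (wOp hg).d20a (η 0) (η 1) i + (wOp hg).d21a n (η 2) (η 3) i = 0
    rcases eq_or_lt_of_le hi with rfl | hi'
    · unfold Wey.d20a Wey.d21a
      rw [h4 _ (n + 1) (by omega), h4 _ (n + 1) (by omega), h4 _ (n + 1) (by omega), Nat.sub_self,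
        (wOp hg).lam0]
      simp
    · unfold Wey.d20a Wey.d21a
      rw [h4 _ (i + 1) (by omega), h4 _ (i + 1) (by omega), h4 _ (i + 1) (by omega), h4 _ i hi']
      simp
  · change (wOp hg).d20b (η 0) (η 1) i + (wOp hg).d21b n (η 2) (η 3) i = 0
    rcases eq_or_lt_of_le hi with rfl | hi'
    · unfold Wey.d20b Wey.d21b
      rw [h4 _ (n + 1) (by omega), h4 _ (n + 1) (by omega), Nat.sub_self,
        (wOp hg).lam0]
      simp
    · unfold Wey.d20b Wey.d21b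
      rw [h4 _ (i + 1) (by omega), h4 _ (i + 1) (by omega), h4 _ i hi']
      simp
  · change (wOp hg).d20q0 n (η 0) (η 1) i + (wOp hg).d21q0 (η 2) (η 3) i = 0
    obtain ⟨i, rfl⟩ : ∃ k, i = k + 1 := ⟨i - 1, by omega⟩
    unfold Wey.d20q0 Wey.d21q0
    rw [Cov605.sh_succ, Cov605.sh_succ, if_neg (by omega)]
    unfold Wey.cc
    rw [h4 _ i (by omega), h4 _ i (by omega), h4 _ i (by omega), h4 _ (i + 1) (by omega)]
    simp
  · change (wOp hg).d20q1 n (η 0) (η 1) i + (wOp hg).d21q1 (η 2) (η 3) i = 0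
    obtain ⟨i, rfl⟩ : ∃ k, i = k + 1 := ⟨i - 1, by omega⟩
    unfold Wey.d20q1 Wey.d21q1
    rw [Cov605.sh_succ, Cov605.sh_succ, if_neg (by omega)]
    unfold Wey.cc
    rw [h4 _ i (by omega), h4 _ i (by omega), h4 _ (i + 1) (by omega)]
    simp

theorem et_supp (n : ℕ) (v : Fin 2 → ℕ → Fin 2 → Op K) (l : Fin 4) (i : ℕ) (hi : n < i) :
    et n v l i = 0 := by
  fin_cases l
  · exact rf_ge (fun j => v 0 j 0) hi
  · exact rf_ge (fun j => v 0 j 1) hi
  · exact rf_ge (fun j => v 1 j 0) hi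
  · exact rf_ge (fun j => v 1 j 1) hi

/-- `xi` of `e2 v` is `d2` of `et v` -/
theorem xi_e2 (hg : Gen g) (n : ℕ) (v : Fin 2 → ℕ → Fin 2 → Op K) (hv : ∀ e, v e (n + 1) = 0) :
    xi n (ez fun j : Fin n => e2w g n v j) (ez2 ![fun j : Fin (n + 2) => e2q0 g n v j,
      fun j : Fin (n + 2) => e2q1 g n v j]) = (wOp hg).d2 n (et n v) := by
  obtain ⟨s0, s1, s2, s3⟩ := d2_supp hg (et_supp n v)
  funext l i
  fin_cases l
  · change rf n (fun j => ez (fun j : Fin n => e2w g n v j) j 0) i = _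
    rcases Nat.lt_or_ge i n with hi | hi
    · rw [rf_eq _ (n - 1 - i) (by omega), ez_of_lt _ (show n - 1 - i < n by omega)]
      exact (d2_et_a hg n v (show i + (n - 1 - i) + 1 = n by omega)).symm
    · exact (rf_ge _ hi).trans (s0 i hi).symm
  · change rf n (fun j => ez (fun j : Fin n => e2w g n v j) j 1) i = _
    rcases Nat.lt_or_ge i n with hi | hi
    · rw [rf_eq _ (n - 1 - i) (by omega), ez_of_lt _ (show n - 1 - i < n by omega)]
      exact (d2_et_b hg n v (show i + (n - 1 - i) + 1 = n by omega)).symm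
    · exact (rf_ge _ hi).trans (s1 i hi).symm
  · change rf (n + 2) (ez (fun j : Fin (n + 2) => e2q0 g n v j)) i = _
    rcases Nat.lt_or_ge (n + 1) i with hi | hi
    · exact (rf_ge _ hi).trans (s2 i hi).symm
    · rw [rf_eq _ (n + 1 - i) (by omega), ez_of_lt _ (show n + 1 - i < n + 2 by omega)]
      exact (d2_et_q0 hg n v hv (show i + (n + 1 - i) = n + 1 by omega)).symm
  · change rf (n + 2) (ez (fun j : Fin (n + 2) => e2q1 g n v j)) i = _
    rcases Nat.lt_or_ge (n + 1) i with hi | hi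
    · exact (rf_ge _ hi).trans (s3 i hi).symm
    · rw [rf_eq _ (n + 1 - i) (by omega), ez_of_lt _ (show n + 1 - i < n + 2 by omega)]
      exact (d2_et_q1 hg n v hv (show i + (n + 1 - i) = n + 1 by omega)).symm

/-- supports of `d3` -/
theorem d3_supp (hg : Gen g) {n : ℕ} {e : ℕ → Op K} (h4 : ∀ i, n < i → e i = 0) (l : Fin 4) (i : ℕ)
    (hi : n < i) : (wOp hg).d3 n e l i = 0 := by
  have e2 : (wOp hg).lam (n + 1 - i) • Cov605.sh e i = 0 := by
    rcases Nat.lt_or_ge (n + 1) i with hi' | hi'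
    · obtain ⟨i, rfl⟩ : ∃ k, i = k + 1 := ⟨i - 1, by omega⟩
      rw [Cov605.sh_succ, h4 _ (by omega), smul_zero]
    · obtain rfl : i = n + 1 := by omega
      rw [Nat.sub_self, (wOp hg).lam0, zero_smul]
  fin_cases l
  · change (wOp hg).d30a n _ i = 0
    unfold Wey.d30a
    rw [h4 i hi]
    simp
  · change (wOp hg).d30b n _ i = 0
    unfold Wey.d30b
    rw [h4 i hi, e2]
    simp
  · change (wOp hg).d31a _ i = 0
    unfold Wey.d31a
    rw [h4 i hi, h4 (i + 1) (by omega)]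
    simp
  · change (wOp hg).d31b _ i = 0
    unfold Wey.d31b
    rw [h4 i hi]
    simp

/-- `et` of `e3 u` is `d3` of `rf u` -/
theorem et_e3 (hg : Gen g) (n : ℕ) (u : ℕ → Op K) (hu : u (n + 1) = 0) :
    et n (ez2 ![fun j : Fin (n + 1) => e3v0 g u j, fun j : Fin (n + 1) => e3v1 g n u j]) =
      (wOp hg).d3 n (rf (n + 1) u) := by
  have s := d3_supp hg (n := n) (e := rf (n + 1) u) (fun i hi => rf_ge _ hi)
  funext l i
  rcases Nat.lt_or_ge n i with hi | hi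
  · rw [s l i hi, et_supp _ _ _ _ hi]
  have hi' : i + (n - i) = n := by omega
  obtain ⟨a0, a1⟩ := d3_rf_0 hg n u hu hi'
  obtain ⟨b0, b1⟩ := d3_rf_1 hg n u hi'
  fin_cases l
  · refine Eq.trans ?_ a0.symm
    change rf (n + 1) (fun j => ez (fun j : Fin (n + 1) => e3v0 g u j) j 0) i = _
    rw [rf_eq _ (n - i) (by omega), ez_of_lt _ (show n - i < n + 1 by omega)]
  · refine Eq.trans ?_ a1.symm
    change rf (n + 1) (fun j => ez (fun j : Fin (n + 1) => e3v0 g u j) j 1) i = _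
    rw [rf_eq _ (n - i) (by omega), ez_of_lt _ (show n - i < n + 1 by omega)]
  · refine Eq.trans ?_ b0.symm
    change rf (n + 1) (fun j => ez (fun j : Fin (n + 1) => e3v1 g n u j) j 0) i = _
    rw [rf_eq _ (n - i) (by omega), ez_of_lt _ (show n - i < n + 1 by omega)]
  · refine Eq.trans ?_ b1.symm
    change rf (n + 1) (fun j => ez (fun j : Fin (n + 1) => e3v1 g n u j) j 1) i = _
    rw [rf_eq _ (n - i) (by omega), ez_of_lt _ (show n - i < n + 1 by omega)]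

/-! ### the literal statements for 355's `E1 E2 E3 EP` -/

theorem E_z1 (hg : Gen g) (n : ℕ) (v : Fin 2 → Fin (n + 1) → Fin 2 → Op K) :
    E1 g n (E2 g n v) = 0 := by
  have hv1 : ∀ e, ez2 v e (n + 1) = 0 := fun e => ez_of_ge _ le_rfl
  have h := (wOp hg).dd1_d2 n (et n (ez2 v)) (fun i hi => et_supp n (ez2 v) 3 i hi)
  rw [← xi_e2 hg n (ez2 v) hv1] at h
  funext j
  exact (dd1_xi hg n _ _ (ez_of_ge _ le_rfl) (show n - (j : ℕ) + j = n by omega)).symm.trans (h _)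

theorem E_z2 (hg : Gen g) (n : ℕ) (u : Fin (n + 1) → Op K) : E2 g n (E3 g n u) = 0 := by
  have h := (wOp hg).d2_d3 n (rf (n + 1) (ez u)) (fun i hi => rf_ge _ hi)
  rw [← et_e3 hg n (ez u) (ez_of_ge _ le_rfl)] at h
  have hv1 : ∀ e, ez2 (E3 g n u) e (n + 1) = 0 := fun e => ez_of_ge _ le_rfl
  refine Prod.ext ?_ (funext (Fin.forall_fin_two.2 ⟨?_, ?_⟩))
  · funext j l
    have hj : n - 1 - (j : ℕ) + j + 1 = n := by omega
    fin_cases l
    · exact (d2_et_a hg n (ez2 (E3 g n u)) hj).symm.trans (congrFun (congrFun h 0) _)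
    · exact (d2_et_b hg n (ez2 (E3 g n u)) hj).symm.trans (congrFun (congrFun h 1) _)
  · funext j
    exact (d2_et_q0 hg n (ez2 (E3 g n u)) hv1 (show n + 1 - (j : ℕ) + j = n + 1 by omega)).symm.trans
      (congrFun (congrFun h 2) _)
  · funext j
    exact (d2_et_q1 hg n (ez2 (E3 g n u)) hv1 (show n + 1 - (j : ℕ) + j = n + 1 by omega)).symm.trans
      (congrFun (congrFun h 3) _)

theorem E_z0 (hg : Gen g) (n : ℕ) (p : (Fin n → Fin 2 → Op K) × (Fin 2 → Fin (n + 2) → Op K)) :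
    EP K n (E1 g n p) = 0 := aug_d1 hg n p.1 p.2

theorem E_x0 (hg : Gen g) (n : ℕ) {k P : ℤ} (hP : 0 ≤ P) (u : Fin (n + 1) → Op K)
    (hu : ∀ j, u j ∈ Fil g k P) (h : EP K n u = 0) :
    ∃ p : (Fin n → Fin 2 → Op K) × (Fin 2 → Fin (n + 2) → Op K), (∀ j, RK g 0 2 k P (p.1 j)) ∧
      (∀ e j, p.2 e j ∈ Fil g (k - 1) P) ∧ E1 g n p = u := by
  obtain ⟨w, q, h1, h2, h3⟩ := ex0 hg n hP u hu h
  refine ⟨(w, q), fun j => ?_, h2, funext h3⟩
  unfold RK
  rw [sub_zero]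
  exact h1 j

theorem E_x1 (hg : Gen g) (n : ℕ) {k P : ℤ} (hP : 0 ≤ P)
    (p : (Fin n → Fin 2 → Op K) × (Fin 2 → Fin (n + 2) → Op K)) (h1 : ∀ j, RK g 0 2 k P (p.1 j))
    (h2 : ∀ e j, p.2 e j ∈ Fil g (k - 1) P) (h : E1 g n p = 0) :
    ∃ v : Fin 2 → Fin (n + 1) → Fin 2 → Op K, (∀ e j, RK g 1 2 k P (v e j)) ∧ E2 g n v = p := by
  obtain ⟨v, a1, a2, a3, a4⟩ := ex1 hg n hP p.1 p.2 (fun j => by
    have := h1 j
    unfold RK at this
    rw [sub_zero] at this
    exact this) h2 (fun j => congrFun h j)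
  exact ⟨v, a1, Prod.ext (funext a2) (funext (Fin.forall_fin_two.2 ⟨funext a3, funext a4⟩))⟩

theorem E_x2 (hg : Gen g) (n : ℕ) {k P : ℤ} (hP : 0 ≤ P) (v : Fin 2 → Fin (n + 1) → Fin 2 → Op K)
    (hv : ∀ e j, RK g 1 2 k P (v e j)) (h : E2 g n v = 0) :
    ∃ u : Fin (n + 1) → Op K, (∀ j, u j ∈ Fil g (k - 2) P) ∧ E3 g n u = v := by
  obtain ⟨u, a1, a2, a3⟩ := ex2 hg n hP v hv (fun j => congrFun (congrArg Prod.fst h) j)
    (fun j => congrFun (congrFun (congrArg Prod.snd h) 0) j)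
    (fun j => congrFun (congrFun (congrArg Prod.snd h) 1) j)
  exact ⟨u, a1, funext (Fin.forall_fin_two.2 ⟨funext a2, funext a3⟩)⟩

theorem E_x3 (hg : Gen g) (n : ℕ) (u : Fin (n + 1) → Op K) (h : E3 g n u = 0) : u = 0 :=
  inj3 hg n u (fun j => congrFun (congrFun h 0) j) (fun j => congrFun (congrFun h 1) j)

end KE1

end Crest.Agent.R186.B281
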