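import Crest.Agent.R186.KN_355
import Crest.Agent.R186.FDord_757

/-!
Row 186, S0281, base (helper355): the row maps of `K(n)` are left `Op`-linear and filtered.
-/

set_option autoImplicit false

namespace Crest.Agent.R186.B281

namespace KN

variable {K : Type} [Field K]

section
variable {M : Type*}

theorem sh_add' [AddZeroClass M] (u v : ℕ → M) (j : ℕ) : sh (u + v) j = sh u j + sh v j := by
  cases j
  · simp
  · rfl

theorem sh_smul' {R : Type*} [Zero M] [SMulZeroClass R M] (r : R) (u : ℕ → M) (j : ℕ) :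
    sh (r • u) j = r • sh u j := by
  cases j
  · simp
  · rfl

end

theorem ite_add' {M : Type*} [AddZeroClass M] (p : Prop) [Decidable p] (a b : M) :
    (if p then a + b else 0) = (if p then a else 0) + (if p then b else 0) := by
  split_ifs <;> simp

theorem ite_smul' {R M : Type*} [Zero M] [SMulZeroClass R M] (p : Prop) [Decidable p] (r : R)
    (a : M) : (if p then r • a else 0) = r • (if p then a else 0) := by
  split_ifs <;> simp

theorem vec_add (a b c d : Op K) : (![a + c, b + d] : Fin 2 → Op K) = ![a, b] + ![c, d] := by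
  funext i
  fin_cases i <;> rfl

theorem vec_smul (T a b : Op K) : (![T * a, T * b] : Fin 2 → Op K) = T • ![a, b] := by
  funext i
  fin_cases i <;> rfl

theorem syz_0 (c : Op K) : syz c 0 = c * X 1 := rfl

theorem syz_1 (c : Op K) : syz c 1 = -(c * X 0) := rfl

theorem ext2 {v w : Fin 2 → Op K} (h0 : v 0 = w 0) (h1 : v 1 = w 1) : v = w :=
  funext (Fin.forall_fin_two.2 ⟨h0, h1⟩)

/-- additive and `Op`-homogeneous -/
structure Lin {A B : Type*} [AddCommMonoid A] [Module (Op K) A] [AddCommMonoid B]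
    [Module (Op K) B] (f : A → B) : Prop where
  add : ∀ x y, f (x + y) = f x + f y
  smul : ∀ (T : Op K) x, f (T • x) = T • f x

/-- normal form of the entries -/
macro "nf1" "[" ls:Lean.Parser.Tactic.simpLemma,* "]" : tactic =>
  `(tactic| (simp only [$ls,*, Pi.add_apply, Pi.sub_apply, Pi.neg_apply, Pi.smul_apply,
    Pi.zero_apply, ite_apply, Matrix.cons_val_zero, Matrix.cons_val_one, syz_0, syz_1, cc_add,
    cc_smul, smul_eq_mul, smul_add, smul_sub, smul_neg, smul_zero, mul_add, add_mul, sub_mul,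
    mul_sub, mul_neg, neg_mul, mul_assoc, mul_smul_comm, smul_mul_assoc, sh_add', sh_smul', ite_add',
    mul_ite, mul_zero, neg_add, neg_sub, sub_zero, add_zero, zero_add, zero_sub, ite_self]))

section s0
variable (g : K) (n : ℕ) (j : ℕ)

theorem d1f_lin : Lin (K := K) (fun v : Fin 2 → ℕ → Fin 2 → Op K => d1f g n v j) where
  add v w := by nf1 [d1f]; abel
  smul T v := by nf1 [d1f]

theorem d2w0_lin : Lin (K := K) (fun w : ℕ → Fin 2 → Op K => d2w0 g w j) where
  add v w := by
    refine ext2 ?_ ?_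
    · nf1 [d2w0]; abel
    · nf1 [d2w0]; abel
  smul T v := by
    refine ext2 ?_ ?_
    · nf1 [d2w0]
    · nf1 [d2w0]

theorem d2w1_lin : Lin (K := K) (fun w : ℕ → Fin 2 → Op K => d2w1 g n w j) where
  add v w := by
    refine ext2 ?_ ?_
    · nf1 [d2w1]; abel
    · nf1 [d2w1]; abel
  smul T v := by
    refine ext2 ?_ ?_
    · nf1 [d2w1]
    · nf1 [d2w1]

theorem d2h0_lin : Lin (K := K) (fun h : Fin 2 → ℕ → Op K => d2h0 g n h j) where
  add v w := by
    refine ext2 ?_ ?_
    · nf1 [d2h0]; abel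
    · nf1 [d2h0]; abel
  smul T v := by
    refine ext2 ?_ ?_
    · nf1 [d2h0]
    · nf1 [d2h0]

theorem d2h1_lin : Lin (K := K) (fun h : Fin 2 → ℕ → Op K => d2h1 g h j) where
  add v w := by
    refine ext2 ?_ ?_
    · nf1 [d2h1]; try abel
    · nf1 [d2h1]
  smul T v := by
    refine ext2 ?_ ?_
    · nf1 [d2h1]
    · nf1 [d2h1]

theorem d3w_lin : Lin (K := K) (fun u : ℕ → Op K => d3w g n u j) where
  add v w := by
    refine ext2 ?_ ?_
    · nf1 [d3w]; abel
    · nf1 [d3w]; abel
  smul T v := by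
    refine ext2 ?_ ?_
    · nf1 [d3w]
    · nf1 [d3w]

theorem d3h0_lin : Lin (K := K) (fun u : ℕ → Op K => d3h0 g u j) where
  add v w := by nf1 [d3h0]; abel
  smul T v := by nf1 [d3h0]

theorem d3h1_lin : Lin (K := K) (fun u : ℕ → Op K => d3h1 g n u j) where
  add v w := by nf1 [d3h1]; abel
  smul T v := by nf1 [d3h1]

end s0

section s1
variable (g : K) (n : ℕ) (j : ℕ)

theorem e1w_lin : Lin (K := K) (fun w : ℕ → Fin 2 → Op K => e1w g n w j) where
  add v w := by nf1 [e1w]; abel
  smul T v := by nf1 [e1w]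

theorem e1q_lin : Lin (K := K) (fun q : Fin 2 → ℕ → Op K => e1q g n q j) where
  add v w := by nf1 [e1q]; abel
  smul T v := by nf1 [e1q]

theorem e2w_lin : Lin (K := K) (fun v : Fin 2 → ℕ → Fin 2 → Op K => e2w g n v j) where
  add v w := by
    refine ext2 ?_ ?_
    · nf1 [e2w]; abel
    · nf1 [e2w]; abel
  smul T v := by
    refine ext2 ?_ ?_
    · nf1 [e2w]
    · nf1 [e2w]

theorem e2q0_lin : Lin (K := K) (fun v : Fin 2 → ℕ → Fin 2 → Op K => e2q0 g n v j) where
  add v w := by nf1 [e2q0]; abel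
  smul T v := by nf1 [e2q0]

theorem e2q1_lin : Lin (K := K) (fun v : Fin 2 → ℕ → Fin 2 → Op K => e2q1 g n v j) where
  add v w := by nf1 [e2q1]; abel
  smul T v := by nf1 [e2q1]

theorem e3v0_lin : Lin (K := K) (fun u : ℕ → Op K => e3v0 g u j) where
  add v w := by
    refine ext2 ?_ ?_
    · nf1 [e3v0]; abel
    · nf1 [e3v0]; abel
  smul T v := by
    refine ext2 ?_ ?_
    · nf1 [e3v0]
    · nf1 [e3v0]

theorem e3v1_lin : Lin (K := K) (fun u : ℕ → Op K => e3v1 g n u j) where
  add v w := by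
    refine ext2 ?_ ?_
    · nf1 [e3v1]; abel
    · nf1 [e3v1]; abel
  smul T v := by
    refine ext2 ?_ ?_
    · nf1 [e3v1]
    · nf1 [e3v1]

end s1

end KN

end Crest.Agent.R186.B281
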