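import Crest.Agent.R186.FilPBW_633
import Crest.Agent.R186.B281W_128
import Crest.Agent.R186.Inst_823

/-!
# Row 186, S0281, base (helper633): 128's `KGen`
-/

set_option autoImplicit false

namespace Crest.Agent.R186.PBWD633.QW

variable {K : Type*} [Field K] {g : K} {R : Type*} [Ring R] [Algebra K R] {W : QW g R}

/-- generation of the lattices `K_j` -/
theorem kgen (h : W.PBW) (hg : g ≠ 0) {k l P : ℤ} (hl : l ≤ k) {a b : R} (ha : a ∈ W.F k P)
    (hb : b ∈ W.F k P) (hc : a * W.x0 + b * W.x1 ∈ W.F l (P + 1)) :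
    ∃ a' ∈ W.F l P, ∃ b' ∈ W.F l P, ∃ e ∈ W.F k (P - 1),
      a = a' + e * W.x1 ∧ b = b' - e * W.x0 := by
  obtain ⟨a', ha', b', hb', e1⟩ := X3R h hg ha hb hc
  rw [add_sub_cancel_right] at ha' hb'
  have hj : W.F l P ≤ W.F k P := F_mono _ hl P
  have h2 : (a - a') * W.x0 + (b - b') * W.x1 = 0 := by
    rw [sub_mul, sub_mul, sub_add_sub_comm, e1, sub_self]
  obtain ⟨e, he, e2, e3⟩ := X2R h hg (Submodule.sub_mem _ ha (hj ha'))
    (Submodule.sub_mem _ hb (hj hb')) h2
  refine ⟨a', ha', b', hb', e, he, ?_, ?_⟩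
  · rw [← e2]; abel
  · rw [sub_eq_add_neg, ← e3]; abel

end Crest.Agent.R186.PBWD633.QW

namespace Crest.Agent.R186.KGen633

open B281 FilPBW633 PBWD633

variable {K : Type} [Field K] {g : K}

/-- the only PBW input of the `w`-functor -/
theorem kgen (hg : Gen g) : KGen g := by
  intro j k P a b ha hb h
  have hj : Fil g (k - j) P ≤ Fil g k P := Fil_mono g (by omega)
  obtain ⟨a', ha', b', hb', e1⟩ := X3R hg ha hb h
  rw [add_sub_cancel_right] at ha' hb'
  have h2 : (a - a') * X 0 + (b - b') * X 1 = 0 := by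
    rw [sub_mul, sub_mul, sub_add_sub_comm, e1, sub_self]
  obtain ⟨e, he, e2, e3⟩ := X2R hg (Submodule.sub_mem _ ha (hj ha'))
    (Submodule.sub_mem _ hb (hj hb')) h2
  refine ⟨a', ha', b', hb', e, he, ?_, ?_⟩
  · rw [← e2]; abel
  · rw [sub_eq_add_neg, ← e3]; abel

end Crest.Agent.R186.KGen633
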