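import Crest.Agent.R186.Adapt_186
import Crest.Agent.R186.Win_810
import Crest.Agent.R186.Frame_515

/-!
Row 186 (A), leaf A.KH (helper186): the closing data over an abstract window `w : WD K`.

`CE w`  : a target ring `B = R' = R''/J` with pieces, projections, differential, the projection
`p : S → B`, the map `o : B → S`, `b ↦ b o₁ κ`, and the cells `cc` over `B`.
`KK`    : `(i, c) ↦ B`, left module over the window algebra, `L`, `dY`, `gr`, `KKlm : LM w.dga`.
-/

set_option autoImplicit false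
set_option linter.style.haveILetI false

namespace Crest.Agent.R186.KH186

open Hat827 Win810 Adapt186 Frame515

variable {K : Type} [Field K]

/-- closing data over a window -/
structure CE (w : WD K) where
  B : Type
  [ring : Ring B]
  [alg : Algebra K B]
  two : ∀ b : B, b + b = 0
  pb : ℤ → ℤ → ℤ → Submodule K B
  pb_mul : ∀ {P A C P' A' C' : ℤ} {a b : B}, a ∈ pb P A C → b ∈ pb P' A' C' →
    a * b ∈ pb (P + P') (A + A') (C + C')
  pb_neg : ∀ P A C : ℤ, C < 0 → pb P A C = ⊥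
  Nb : ℕ
  pb_big : ∀ (P : ℤ) (i j : w.Ob) (C : ℤ), (Nb : ℤ) < C → pb P (w.A i - w.A j) C = ⊥
  pb_fin : ∀ P A C : ℤ, Module.Finite K (pb P A C)
  prB : ℤ → B →ₗ[K] B
  prB_self : ∀ {P A C : ℤ} {b : B}, b ∈ pb P A C → prB C b = b
  prB_ne : ∀ {P A C : ℤ} {b : B} (C' : ℤ), b ∈ pb P A C → C' ≠ C → prB C' b = 0
  D' : B →ₗ[K] B
  D'_mul : ∀ a b : B, D' (a * b) = D' a * b + a * D' b
  D'_D' : ∀ a, D' (D' a) = 0
  D'_mem : ∀ {P A C : ℤ} {b : B}, b ∈ pb P A C → D' b ∈ pb P A (C - 1)
  p : w.S →ₐ[K] B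
  p_mem : ∀ {P A C : ℤ} {a : w.S}, a ∈ w.pc P A C → p a ∈ pb P A C
  p_D : ∀ a, p (w.D a) = D' (p a)
  /-- `b ↦ b o₁ κ` -/
  o : B →ₗ[K] w.S
  s0 : ℤ
  o_mem : ∀ {P A C : ℤ} {b : B}, b ∈ pb P A C → o b ∈ w.pc (P - 1) A (C + s0)
  mul_o : ∀ (a : w.S) (b : B), a * o b = o (p a * b)
  o_mul : ∀ (b : B) (a : w.S), o b * a = o (b * p a)
  D_o : ∀ b, w.D (o b) = o (D' b)
  p_o : ∀ b, p (o b) = 0
  /-- cells -/
  κ : Type
  [fκ : Fintype κ]
  [dκ : DecidableEq κ]
  oc : κ → w.Ob
  cd : κ → ℕ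
  cd_le : ∀ c, (cd c : ℤ) ≤ s0
  cc : κ → κ → B
  cc_mem : ∀ c c', cc c c' ∈ pb (w.P (oc c) - w.P (oc c')) (w.A (oc c) - w.A (oc c'))
    ((cd c : ℤ) - cd c' - 1)
  mc : ∀ c c', D' (cc c c') + ∑ c'', cc c c'' * cc c'' c' = 0

attribute [instance] CE.ring CE.alg CE.fκ CE.dκ

namespace CE

variable {w : WD K} (E : CE w)

/-- all cohomological degrees -/
def EB (P A : ℤ) : Submodule K E.B := ⨆ C : ℤ, E.pb P A C

theorem pb_le (P A C : ℤ) : E.pb P A C ≤ E.EB P A := le_iSup (fun C => E.pb P A C) C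

theorem EB_cast {P A P' A' : ℤ} {b : E.B} (h : b ∈ E.EB P A) (h1 : P = P') (h2 : A = A') :
    b ∈ E.EB P' A' := by
  subst h1 h2
  exact h

theorem EB_mul {P A P' A' : ℤ} {a b : E.B} (ha : a ∈ E.EB P A) (hb : b ∈ E.EB P' A') :
    a * b ∈ E.EB (P + P') (A + A') := by
  have key : E.EB P A * E.EB P' A' ≤ E.EB (P + P') (A + A') := by
    unfold EB
    rw [Submodule.iSup_mul]
    refine iSup_le fun C => ?_
    rw [Submodule.mul_iSup]
    refine iSup_le fun C' => ?_
    refine Submodule.mul_le.2 fun a ha b hb => ?_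
    exact E.pb_le _ _ (C + C') (E.pb_mul ha hb)
  exact key (Submodule.mul_mem_mul ha hb)

theorem EB_D {P A : ℤ} {a : E.B} (ha : a ∈ E.EB P A) : E.D' a ∈ E.EB P A := by
  have key : E.EB P A ≤ (E.EB P A).comap E.D' := by
    refine iSup_le fun C => ?_
    intro x hx
    exact E.pb_le P A (C - 1) (E.D'_mem hx)
  exact key ha

theorem prB_EB {P A : ℤ} {b : E.B} (C : ℤ) (hb : b ∈ E.EB P A) : E.prB C b ∈ E.pb P A C := by
  have key : E.EB P A ≤ (E.pb P A C).comap (E.prB C) := by
    refine iSup_le fun C1 => ?_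
    intro x hx
    rw [Submodule.mem_comap]
    by_cases h : C = C1
    · subst h
      rw [E.prB_self hx]
      exact hx
    · rw [E.prB_ne C hx h]
      exact Submodule.zero_mem _
  exact key hb

theorem prB_tot (P : ℤ) (i j : w.Ob) (t : ℤ) (ht : 0 ≤ t) (N : ℕ) (hN : (E.Nb : ℤ) + t ≤ N)
    {b : E.B} (hb : b ∈ E.EB P (w.A i - w.A j)) :
    ∑ k : Fin (N + 1), E.prB (((k : ℕ) : ℤ) - t) b = b := by
  have key : E.EB P (w.A i - w.A j) ≤
      LinearMap.ker ((∑ k : Fin (N + 1), E.prB (((k : ℕ) : ℤ) - t)) - LinearMap.id) := by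
    refine iSup_le fun C1 => ?_
    intro x hx
    rw [LinearMap.mem_ker, LinearMap.sub_apply, LinearMap.sum_apply, LinearMap.id_apply,
      sub_eq_zero]
    by_cases h0 : C1 < 0
    · rw [E.pb_neg _ _ _ h0] at hx
      rw [(Submodule.mem_bot K).1 hx]
      simp
    by_cases h1 : (E.Nb : ℤ) < C1
    · rw [E.pb_big _ _ _ _ h1] at hx
      rw [(Submodule.mem_bot K).1 hx]
      simp
    have h2 : (C1 + t).toNat < N + 1 := by omega
    rw [Finset.sum_eq_single (⟨(C1 + t).toNat, h2⟩ : Fin (N + 1))]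
    · have h3 : (((C1 + t).toNat : ℕ) : ℤ) - t = C1 := by omega
      change E.prB ((((C1 + t).toNat : ℕ) : ℤ) - t) x = x
      rw [h3]
      exact E.prB_self hx
    · intro k _ hk
      apply E.prB_ne _ hx
      intro h4
      apply hk
      apply Fin.ext
      change (k : ℕ) = (C1 + t).toNat
      omega
    · intro h
      exact absurd (Finset.mem_univ _) h
  have := key hb
  rw [LinearMap.mem_ker, LinearMap.sub_apply, LinearMap.sum_apply, LinearMap.id_apply,
    sub_eq_zero] at this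
  exact this

theorem p_E {i j : w.Ob} {a : w.S} (ha : a ∈ w.E i j) :
    E.p a ∈ E.EB (w.P i - w.P j) (w.A i - w.A j) := by
  have key : w.E i j ≤ (E.EB (w.P i - w.P j) (w.A i - w.A j)).comap E.p.toLinearMap := by
    refine iSup_le fun C => ?_
    intro x hx
    exact E.pb_le _ _ C (E.p_mem hx)
  exact key ha

theorem cc_EB (c c' : E.κ) :
    E.cc c c' ∈ E.EB (w.P (E.oc c) - w.P (E.oc c')) (w.A (E.oc c) - w.A (E.oc c')) :=
  E.pb_le _ _ _ (E.cc_mem c c')

theorem EB_eq (P : ℤ) (i j : w.Ob) :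
    E.EB P (w.A i - w.A j) = ⨆ C : Fin (E.Nb + 1), E.pb P (w.A i - w.A j) ((C : ℕ) : ℤ) := by
  apply le_antisymm
  · refine iSup_le fun C => ?_
    by_cases h0 : C < 0
    · rw [E.pb_neg _ _ _ h0]
      exact bot_le
    · by_cases h1 : (E.Nb : ℤ) < C
      · rw [E.pb_big _ _ _ _ h1]
        exact bot_le
      · obtain ⟨m, rfl⟩ : ∃ m : ℕ, C = m := ⟨C.toNat, by omega⟩
        exact le_iSup (fun C : Fin (E.Nb + 1) => E.pb P (w.A i - w.A j) ((C : ℕ) : ℤ))
          ⟨m, by omega⟩
  · exact iSup_le fun C => E.pb_le _ _ _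

theorem finEB (P : ℤ) (i j : w.Ob) : Module.Finite K (E.EB P (w.A i - w.A j)) := by
  rw [EB_eq]
  haveI : ∀ C : Fin (E.Nb + 1), Module.Finite K (E.pb P (w.A i - w.A j) ((C : ℕ) : ℤ)) :=
    fun C => E.pb_fin _ _ _
  exact Submodule.finite_iSup _

/-! ### the left module `KK` -/

/-- the left module of the cells -/
def KK : Submodule K (w.Ob → E.κ → E.B) where
  carrier := {x | ∀ i c, x i c ∈ E.EB (w.P i - w.P (E.oc c)) (w.A i - w.A (E.oc c))}
  add_mem' ha hb i c := Submodule.add_mem _ (ha i c) (hb i c)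
  zero_mem' i c := Submodule.zero_mem _
  smul_mem' r x hx i c := Submodule.smul_mem _ _ (hx i c)

variable {E}

theorem mem_KK {x : w.Ob → E.κ → E.B} :
    x ∈ E.KK ↔ ∀ i c, x i c ∈ E.EB (w.P i - w.P (E.oc c)) (w.A i - w.A (E.oc c)) := Iff.rfl

instance finKK : Module.Finite K E.KK := by
  haveI : ∀ (i : w.Ob) (c : E.κ),
      Module.Finite K (E.EB (w.P i - w.P (E.oc c)) (w.A i - w.A (E.oc c))) :=
    fun i c => E.finEB _ _ _
  let f : E.KK →ₗ[K] ((i : w.Ob) → (c : E.κ) →
      E.EB (w.P i - w.P (E.oc c)) (w.A i - w.A (E.oc c))) :=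
    { toFun := fun x i c => ⟨x.1 i c, x.2 i c⟩
      map_add' := fun _ _ => rfl
      map_smul' := fun _ _ => rfl }
  refine Module.Finite.of_injective f ?_
  intro a b hab
  apply Subtype.ext
  funext i c
  exact congrArg Subtype.val (congrFun (congrFun hab i) c)

variable (E)

/-- left action -/
def L : w.Win →ₗ[K] E.KK →ₗ[K] E.KK where
  toFun m :=
    { toFun := fun x => ⟨fun i c => ∑ j, E.p (m.1 i j) * x.1 j c, fun i c =>
        Submodule.sum_mem _ fun j _ => E.EB_cast (E.EB_mul (E.p_E (m.2 i j)) (x.2 j c))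
          (by ring) (by ring)⟩
      map_add' := fun x y => by
        apply Subtype.ext
        funext i c
        change ∑ j, E.p (m.1 i j) * (x.1 j c + y.1 j c) =
          ∑ j, E.p (m.1 i j) * x.1 j c + ∑ j, E.p (m.1 i j) * y.1 j c
        rw [← Finset.sum_add_distrib]
        exact Finset.sum_congr rfl fun j _ => mul_add _ _ _
      map_smul' := fun r x => by
        apply Subtype.ext
        funext i c
        change ∑ j, E.p (m.1 i j) * (r • x.1 j c) = r • ∑ j, E.p (m.1 i j) * x.1 j c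
        rw [Finset.smul_sum]
        exact Finset.sum_congr rfl fun j _ => mul_smul_comm _ _ _ }
  map_add' m n := by
    apply LinearMap.ext
    intro x
    apply Subtype.ext
    funext i c
    change ∑ j, E.p (m.1 i j + n.1 i j) * x.1 j c =
      ∑ j, E.p (m.1 i j) * x.1 j c + ∑ j, E.p (n.1 i j) * x.1 j c
    rw [← Finset.sum_add_distrib]
    exact Finset.sum_congr rfl fun j _ => by rw [map_add, add_mul]
  map_smul' r m := by
    apply LinearMap.ext
    intro x
    apply Subtype.ext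
    funext i c
    change ∑ j, E.p (r • m.1 i j) * x.1 j c = r • ∑ j, E.p (m.1 i j) * x.1 j c
    rw [Finset.smul_sum]
    exact Finset.sum_congr rfl fun j _ => by rw [map_smul, smul_mul_assoc]

variable {E}

theorem L_apply (m : w.Win) (x : E.KK) (i : w.Ob) (c : E.κ) :
    (E.L m x).1 i c = ∑ j, E.p (m.1 i j) * x.1 j c := rfl

theorem L_one (x : E.KK) : E.L 1 x = x := by
  apply Subtype.ext
  funext i c
  rw [L_apply, Finset.sum_eq_single i]
  · change E.p ((1 : Matrix w.Ob w.Ob w.S) i i) * _ = _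
    rw [Matrix.one_apply_eq, map_one, one_mul]
  · intro j _ hj
    change E.p ((1 : Matrix w.Ob w.Ob w.S) i j) * _ = _
    rw [Matrix.one_apply_ne (Ne.symm hj), map_zero, zero_mul]
  · intro h
    exact absurd (Finset.mem_univ _) h

theorem L_mul (a b : w.Win) (x : E.KK) : E.L (a * b) x = E.L a (E.L b x) := by
  apply Subtype.ext
  funext i c
  rw [L_apply, L_apply]
  simp_rw [L_apply]
  change ∑ j, E.p ((a.1 * b.1) i j) * _ = _
  simp_rw [Matrix.mul_apply, map_sum, map_mul, Finset.sum_mul, Finset.mul_sum]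
  rw [Finset.sum_comm]
  exact Finset.sum_congr rfl fun j _ => Finset.sum_congr rfl fun l _ => mul_assoc _ _ _

variable (E)

/-- the differential -/
def dY : E.KK →ₗ[K] E.KK where
  toFun x := ⟨fun i c => E.D' (x.1 i c) + ∑ c', x.1 i c' * E.cc c' c, fun i c =>
    Submodule.add_mem _ (E.EB_D (x.2 i c)) (Submodule.sum_mem _ fun c' _ =>
      E.EB_cast (E.EB_mul (x.2 i c') (E.cc_EB c' c)) (by ring) (by ring))⟩
  map_add' x y := by
    apply Subtype.ext
    funext i c
    change E.D' (x.1 i c + y.1 i c) + ∑ c', (x.1 i c' + y.1 i c') * E.cc c' c =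
      (E.D' (x.1 i c) + ∑ c', x.1 i c' * E.cc c' c) +
        (E.D' (y.1 i c) + ∑ c', y.1 i c' * E.cc c' c)
    simp_rw [add_mul]
    rw [Finset.sum_add_distrib, map_add]
    abel
  map_smul' r x := by
    apply Subtype.ext
    funext i c
    change E.D' (r • x.1 i c) + ∑ c', (r • x.1 i c') * E.cc c' c =
      r • (E.D' (x.1 i c) + ∑ c', x.1 i c' * E.cc c' c)
    simp_rw [smul_mul_assoc]
    rw [smul_add, map_smul, Finset.smul_sum]

variable {E}

theorem dY_apply (x : E.KK) (i : w.Ob) (c : E.κ) :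
    (E.dY x).1 i c = E.D' (x.1 i c) + ∑ c', x.1 i c' * E.cc c' c := rfl

theorem dYY (x : E.KK) : E.dY (E.dY x) = 0 := by
  apply Subtype.ext
  funext i c
  rw [dY_apply]
  simp_rw [dY_apply]
  change _ = (0 : E.B)
  rw [map_add, E.D'_D', zero_add, map_sum]
  simp_rw [E.D'_mul, add_mul, Finset.sum_mul]
  rw [Finset.sum_add_distrib, Finset.sum_add_distrib]
  have h1 : ∑ c', x.1 i c' * E.D' (E.cc c' c) + ∑ c', ∑ c'', x.1 i c'' * E.cc c'' c' * E.cc c' c
      = 0 := by
    rw [Finset.sum_comm, ← Finset.sum_add_distrib]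
    refine Finset.sum_eq_zero fun c' _ => ?_
    have := E.mc c' c
    calc _ = x.1 i c' * (E.D' (E.cc c' c) + ∑ c'', E.cc c' c'' * E.cc c'' c) := by
          rw [mul_add, Finset.mul_sum]
          congr 1
          exact Finset.sum_congr rfl fun c'' _ => mul_assoc _ _ _
      _ = 0 := by rw [this, mul_zero]
  have h2 := E.two (∑ c', E.D' (x.1 i c') * E.cc c' c)
  calc _ = (∑ c', E.D' (x.1 i c') * E.cc c' c + ∑ c', E.D' (x.1 i c') * E.cc c' c) +
        (∑ c', x.1 i c' * E.D' (E.cc c' c) +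
          ∑ c', ∑ c'', x.1 i c'' * E.cc c'' c' * E.cc c' c) := by abel
    _ = 0 := by rw [h1, h2, add_zero]

theorem L_D (a : w.Win) (x : E.KK) :
    E.L (w.DW a) x = E.dY (E.L a x) + E.L a (E.dY x) := by
  apply Subtype.ext
  funext i c
  change (E.L (w.DW a) x).1 i c = (E.dY (E.L a x)).1 i c + (E.L a (E.dY x)).1 i c
  rw [dY_apply, L_apply, L_apply]
  simp_rw [L_apply, dY_apply, WD.DW_apply, E.p_D, map_sum, E.D'_mul, mul_add, Finset.sum_mul,
    Finset.mul_sum]
  rw [Finset.sum_add_distrib, Finset.sum_add_distrib]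
  have h1 := E.two (∑ j, E.p (a.1 i j) * E.D' (x.1 j c))
  have h2 : ∑ c', ∑ j, E.p (a.1 i j) * x.1 j c' * E.cc c' c =
      ∑ j, ∑ c', E.p (a.1 i j) * (x.1 j c' * E.cc c' c) := by
    rw [Finset.sum_comm]
    exact Finset.sum_congr rfl fun j _ => Finset.sum_congr rfl fun l _ => mul_assoc _ _ _
  have h3 := E.two (∑ j, ∑ c', E.p (a.1 i j) * (x.1 j c' * E.cc c' c))
  rw [h2]
  calc _ = ∑ j, E.D' (E.p (a.1 i j)) * x.1 j c + (∑ j, E.p (a.1 i j) * E.D' (x.1 j c) +
        ∑ j, E.p (a.1 i j) * E.D' (x.1 j c)) +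
        (∑ j, ∑ c', E.p (a.1 i j) * (x.1 j c' * E.cc c' c) +
          ∑ j, ∑ c', E.p (a.1 i j) * (x.1 j c' * E.cc c' c)) := by rw [h1, h3, add_zero, add_zero]
    _ = _ := by abel

/-! ### grading -/

variable (E)

/-- bound of the degrees of the cells -/
def mx : ℕ := Finset.univ.sup E.cd

theorem cd_le_mx (c : E.κ) : E.cd c ≤ E.mx := Finset.le_sup (Finset.mem_univ c)

/-- projection of `KK` -/
def prK (k : ℤ) : E.KK →ₗ[K] E.KK where
  toFun x := ⟨fun i c => E.prB (k - E.cd c) (x.1 i c), fun i c =>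
    E.pb_le _ _ _ (E.prB_EB _ (x.2 i c))⟩
  map_add' x y := by
    apply Subtype.ext
    funext i c
    exact map_add _ _ _
  map_smul' r x := by
    apply Subtype.ext
    funext i c
    exact map_smul _ _ _

variable {E}

theorem prK_apply (k : ℤ) (x : E.KK) (i : w.Ob) (c : E.κ) :
    (E.prK k x).1 i c = E.prB (k - E.cd c) (x.1 i c) := rfl

variable (E)

/-- the grading of `KK` -/
def gr : GS K E.KK where
  N := E.Nb + E.mx
  pr := E.prK
  pr_pr k x := by
    apply Subtype.ext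
    funext i c
    rw [prK_apply, prK_apply]
    exact E.prB_self (E.prB_EB _ (x.2 i c))
  pr_ne k l x h := by
    apply Subtype.ext
    funext i c
    rw [prK_apply, prK_apply]
    exact E.prB_ne _ (E.prB_EB _ (x.2 i c)) (by omega)
  total x := by
    apply Subtype.ext
    funext i c
    have h : ∀ (s : Finset (Fin (E.Nb + E.mx + 1))),
        (∑ k ∈ s, E.prK ((k : ℕ) : ℤ) x).1 i c =
          ∑ k ∈ s, E.prB (((k : ℕ) : ℤ) - E.cd c) (x.1 i c) := by
      intro s
      classical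
      induction s using Finset.induction_on with
      | empty => rfl
      | insert a s ha ih =>
        rw [Finset.sum_insert ha, Finset.sum_insert ha, ← ih]
        rfl
    rw [h]
    exact E.prB_tot _ _ _ _ (by positivity) _ (by have := E.cd_le_mx c; push_cast; omega)
      (x.2 i c)

variable {E}

theorem mem_gr {k : ℤ} {x : E.KK} : x ∈ E.gr.G k ↔
    ∀ i c, x.1 i c ∈ E.pb (w.P i - w.P (E.oc c)) (w.A i - w.A (E.oc c)) (k - E.cd c) := by
  rw [GS.mem_G]
  constructor
  · intro h i c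
    have h1 := congrFun (congrFun (congrArg Subtype.val h) i) c
    rw [← h1]
    exact E.prB_EB _ (x.2 i c)
  · intro h
    apply Subtype.ext
    funext i c
    exact E.prB_self (h i c)

theorem pb_cast {P A C P' A' C' : ℤ} {b : E.B} (h : b ∈ E.pb P A C) (h1 : P = P') (h2 : A = A')
    (h3 : C = C') : b ∈ E.pb P' A' C' := by
  subst h1 h2 h3
  exact h

theorem L_deg {m k : ℤ} {a : w.Win} {x : E.KK} (ha : a ∈ w.G m) (hx : x ∈ E.gr.G k) :
    E.L a x ∈ E.gr.G (k + m) := by
  rw [mem_gr] at hx ⊢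
  intro i c
  rw [L_apply]
  exact Submodule.sum_mem _ fun j _ => pb_cast (E.pb_mul (E.p_mem (ha i j)) (hx j c))
    (by ring) (by ring) (by ring)

theorem dY_deg {k : ℤ} {x : E.KK} (hx : x ∈ E.gr.G k) : E.dY x ∈ E.gr.G (k - 1) := by
  rw [mem_gr] at hx ⊢
  intro i c
  rw [dY_apply]
  refine Submodule.add_mem _ (pb_cast (E.D'_mem (hx i c)) rfl rfl (by ring)) ?_
  exact Submodule.sum_mem _ fun c' _ => pb_cast (E.pb_mul (hx i c') (E.cc_mem c' c))
    (by ring) (by ring) (by ring)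

/-! ### `KK` as a dg module -/

instance : SMul w.Win E.KK := ⟨fun m x => E.L m x⟩

theorem smul_def (m : w.Win) (x : E.KK) : m • x = E.L m x := rfl

instance modKK : Module w.Win E.KK where
  one_smul x := L_one x
  mul_smul a b x := L_mul a b x
  smul_zero a := map_zero (E.L a)
  smul_add a x y := map_add (E.L a) x y
  add_smul a b x := by
    change E.L (a + b) x = E.L a x + E.L b x
    rw [map_add, LinearMap.add_apply]
  zero_smul x := by
    change E.L 0 x = 0
    rw [map_zero, LinearMap.zero_apply]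

instance towKK : IsScalarTower K w.Win E.KK where
  smul_assoc r a x := by
    change E.L (r • a) x = r • E.L a x
    rw [map_smul, LinearMap.smul_apply]

theorem KK_two (y : E.KK) : y + y = 0 := by
  apply Subtype.ext
  funext i c
  exact E.two _

theorem dY_L (a : w.Win) (x : E.KK) :
    E.dY (E.L a x) = E.L (w.DW a) x + E.L a (E.dY x) := by
  rw [L_D, add_assoc, KK_two, add_zero]

variable (E)

/-- `KK` as a left dg module over the window algebra -/
noncomputable def KKlm : LM w.dga where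
  X := E.KK
  gr := E.gr.G
  d := E.dY
  d_mem := dY_deg
  d_d := dYY
  act := inferInstanceAs (Module w.Win E.KK)
  tower := inferInstanceAs (IsScalarTower K w.Win E.KK)
  smul_mem {k l a x} ha hx := by
    have := L_deg (E := E) (m := k) (k := l) (a := a) (x := x) ha hx
    rwa [add_comm] at this
  leib a x := dY_L (E := E) a x

end CE

end Crest.Agent.R186.KH186
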