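import Crest.Agent.R186.Adapt_186
import Crest.Agent.R186.Win_810

/-!
Row 186 (A), leaf A.KH (helper302): the right dg module `H = Hom_L(KK, L(+1))`, the evaluation
`ev : KK ⊗ H → Γ`.
-/

set_option autoImplicit false
set_option linter.style.haveILetI false

namespace Crest.Agent.R186.KHev302

open Hat827 Win810 Adapt186

variable {K : Type} [Field K]

/-- target ring with cells, over a window -/
structure CE (w : WD K) where
  B : Type
  [rB : Ring B]
  [aB : Algebra K B]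
  two : ∀ b : B, b + b = 0
  pb : ℤ → ℤ → ℤ → Submodule K B
  pb_mul : ∀ {P A C P' A' C' : ℤ} {a b : B}, a ∈ pb P A C → b ∈ pb P' A' C' →
    a * b ∈ pb (P + P') (A + A') (C + C')
  pb_neg : ∀ (P A C : ℤ), C < 0 → pb P A C = ⊥
  nb : ℕ
  pb_big : ∀ (i j : w.Ob) (P C : ℤ), (nb : ℤ) < C → pb P (w.A i - w.A j) C = ⊥
  pb_fin : ∀ (P A C : ℤ), Module.Finite K (pb P A C)
  prB : ℤ → B →ₗ[K] B
  pr_same : ∀ {P A C : ℤ} {b : B}, b ∈ pb P A C → prB C b = b
  pr_diff : ∀ {P A C C' : ℤ} {b : B}, b ∈ pb P A C → C' ≠ C → prB C' b = 0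
  DB : B →ₗ[K] B
  DB_mul : ∀ a b : B, DB (a * b) = DB a * b + a * DB b
  DB_DB : ∀ a : B, DB (DB a) = 0
  DB_mem : ∀ {P A C : ℤ} {a : B}, a ∈ pb P A C → DB a ∈ pb P A (C - 1)
  p : w.S →ₐ[K] B
  p_mem : ∀ {P A C : ℤ} {a : w.S}, a ∈ w.pc P A C → p a ∈ pb P A C
  p_D : ∀ a : w.S, p (w.D a) = DB (p a)
  o : B →ₗ[K] w.S
  s0 : ℤ
  o_mem : ∀ {P A C : ℤ} {b : B}, b ∈ pb P A C → o b ∈ w.pc (P - 1) A (C + s0)
  mul_o : ∀ (a : w.S) (b : B), a * o b = o (p a * b)
  o_mul : ∀ (b : B) (a : w.S), o b * a = o (b * p a)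
  D_o : ∀ b : B, w.D (o b) = o (DB b)
  p_o : ∀ b : B, p (o b) = 0
  ka : Type
  [fka : Fintype ka]
  oc : ka → w.Ob
  cd : ka → ℕ
  cd_le : ∀ c, (cd c : ℤ) ≤ s0
  cc : ka → ka → B
  cc_mem : ∀ c c', cc c c' ∈ pb (w.P (oc c) - w.P (oc c')) (w.A (oc c) - w.A (oc c'))
    ((cd c : ℤ) - cd c' - 1)
  mc : ∀ c c', DB (cc c c') + ∑ c'', cc c c'' * cc c'' c' = 0

attribute [instance] CE.rB CE.aB CE.fka

namespace CE

variable {w : WD K} (E : CE w)

/-- all cohomological degrees -/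
def EB (P A : ℤ) : Submodule K E.B := ⨆ C : ℤ, E.pb P A C

variable {E}

theorem pb_le (P A C : ℤ) : E.pb P A C ≤ E.EB P A := le_iSup (fun C => E.pb P A C) C

theorem EB_ind {P A : ℤ} {T : Submodule K E.B} (h : ∀ C, E.pb P A C ≤ T) : E.EB P A ≤ T :=
  iSup_le h

theorem EB_mul {P A P' A' : ℤ} {a b : E.B} (ha : a ∈ E.EB P A) (hb : b ∈ E.EB P' A') :
    a * b ∈ E.EB (P + P') (A + A') := by
  have key : E.EB P A * E.EB P' A' ≤ E.EB (P + P') (A + A') := by
    unfold EB
    rw [Submodule.iSup_mul]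
    refine iSup_le fun C => ?_
    rw [Submodule.mul_iSup]
    refine iSup_le fun C' => ?_
    refine Submodule.mul_le.2 fun a ha b hb => ?_
    exact pb_le _ _ (C + C') (E.pb_mul ha hb)
  exact key (Submodule.mul_mem_mul ha hb)

theorem EB_D {P A : ℤ} {a : E.B} (ha : a ∈ E.EB P A) : E.DB a ∈ E.EB P A := by
  have key : E.EB P A ≤ (E.EB P A).comap E.DB :=
    EB_ind fun C x hx => pb_le P A (C - 1) (E.DB_mem hx)
  exact key ha

theorem EB_p {i j : w.Ob} {a : w.S} (ha : a ∈ w.E i j) :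
    E.p a ∈ E.EB (w.P i - w.P j) (w.A i - w.A j) := by
  have key : w.E i j ≤ (E.EB (w.P i - w.P j) (w.A i - w.A j)).comap E.p.toLinearMap :=
    iSup_le fun C x hx => pb_le _ _ C (E.p_mem hx)
  exact key ha

theorem EB_pr {P A : ℤ} (k : ℤ) {a : E.B} (ha : a ∈ E.EB P A) : E.prB k a ∈ E.pb P A k := by
  have key : E.EB P A ≤ (E.pb P A k).comap (E.prB k) := by
    refine EB_ind fun C x hx => ?_
    rw [Submodule.mem_comap]
    by_cases h : k = C
    · subst h
      rw [E.pr_same hx]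
      exact hx
    · rw [E.pr_diff hx h]
      exact Submodule.zero_mem _
  exact key ha

theorem pb_iff {P A : ℤ} (k : ℤ) {a : E.B} (ha : a ∈ E.EB P A) :
    E.prB k a = a ↔ a ∈ E.pb P A k :=
  ⟨fun h => h ▸ EB_pr k ha, fun h => E.pr_same h⟩

theorem sum_pr {i j : w.Ob} {P : ℤ} (N : ℕ) (t : ℤ) (ht : t ≤ 0) (hN : (E.nb : ℤ) ≤ N + t)
    {a : E.B} (ha : a ∈ E.EB P (w.A i - w.A j)) :
    ∑ k : Fin (N + 1), E.prB (((k : ℕ) : ℤ) + t) a = a := by
  have key : E.EB P (w.A i - w.A j) ≤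
      LinearMap.ker ((∑ k : Fin (N + 1), E.prB (((k : ℕ) : ℤ) + t)) - LinearMap.id) := by
    refine EB_ind fun C x hx => ?_
    rw [LinearMap.mem_ker, LinearMap.sub_apply, LinearMap.sum_apply, LinearMap.id_apply, sub_eq_zero]
    by_cases h0 : C < 0
    · rw [E.pb_neg _ _ C h0, Submodule.mem_bot] at hx
      subst hx
      simp
    by_cases h1 : (E.nb : ℤ) < C
    · rw [E.pb_big i j P C h1, Submodule.mem_bot] at hx
      subst hx
      simp
    have h2 : (C - t).toNat < N + 1 := by omega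
    rw [Finset.sum_eq_single ⟨(C - t).toNat, h2⟩]
    · have h3 : (((C - t).toNat : ℕ) : ℤ) + t = C := by omega
      change E.prB ((((C - t).toNat : ℕ) : ℤ) + t) x = x
      rw [h3, E.pr_same hx]
    · intro k _ hk
      refine E.pr_diff hx fun h => hk (Fin.ext ?_)
      change (k : ℕ) = (C - t).toNat
      omega
    · intro h
      exact absurd (Finset.mem_univ _) h
  have h := key ha
  rw [LinearMap.mem_ker, LinearMap.sub_apply, LinearMap.sum_apply, LinearMap.id_apply, sub_eq_zero] at h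
  exact h

theorem EB_eq (i j : w.Ob) (P : ℤ) :
    E.EB P (w.A i - w.A j) = ⨆ C : Fin (E.nb + 1), E.pb P (w.A i - w.A j) (C : ℕ) := by
  apply le_antisymm
  · refine iSup_le fun C => ?_
    by_cases h0 : C < 0
    · rw [E.pb_neg _ _ C h0]
      exact bot_le
    · by_cases h1 : (E.nb : ℤ) < C
      · rw [E.pb_big i j P C h1]
        exact bot_le
      · obtain ⟨m, rfl⟩ : ∃ m : ℕ, C = m := ⟨C.toNat, by omega⟩
        exact le_iSup (fun C : Fin (E.nb + 1) => E.pb P (w.A i - w.A j) (C : ℕ)) ⟨m, by omega⟩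
  · exact iSup_le fun C => pb_le _ _ _

theorem finEB (i j : w.Ob) (P : ℤ) : Module.Finite K (E.EB P (w.A i - w.A j)) := by
  rw [EB_eq]
  haveI : ∀ C : Fin (E.nb + 1), Module.Finite K (E.pb P (w.A i - w.A j) (C : ℕ)) :=
    fun C => E.pb_fin _ _ _
  exact Submodule.finite_iSup _

/-! ### the right module `H` -/

variable (E)

/-- `H = Hom_L(KK, L(+1))` -/
def H : Submodule K (E.ka → w.Ob → E.B) where
  carrier := {η | ∀ c j, η c j ∈ E.EB (w.P (E.oc c) - w.P j + 1) (w.A (E.oc c) - w.A j)}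
  add_mem' hx hy c j := Submodule.add_mem _ (hx c j) (hy c j)
  zero_mem' _ _ := Submodule.zero_mem _
  smul_mem' r _ hx c j := Submodule.smul_mem _ r (hx c j)

variable {E}

theorem mem_H {η : E.ka → w.Ob → E.B} :
    η ∈ E.H ↔ ∀ c j, η c j ∈ E.EB (w.P (E.oc c) - w.P j + 1) (w.A (E.oc c) - w.A j) := Iff.rfl

instance finH : Module.Finite K E.H := by
  haveI : ∀ (c : E.ka) (j : w.Ob),
      Module.Finite K (E.EB (w.P (E.oc c) - w.P j + 1) (w.A (E.oc c) - w.A j)) :=
    fun c j => finEB _ _ _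
  let f : E.H →ₗ[K] (∀ (c : E.ka) (j : w.Ob),
      E.EB (w.P (E.oc c) - w.P j + 1) (w.A (E.oc c) - w.A j)) :=
    { toFun := fun η c j => ⟨η.1 c j, η.2 c j⟩
      map_add' := fun _ _ => rfl
      map_smul' := fun _ _ => rfl }
  refine Module.Finite.of_injective f ?_
  intro a b hab
  apply Subtype.ext
  funext c j
  exact congrArg Subtype.val (congrFun (congrFun hab c) j)

/-- entries of homogeneous elements of `H` of degree `k` -/
def hH (k : ℤ) (η : E.H) : Prop := ∀ c j, η.1 c j ∈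
  E.pb (w.P (E.oc c) - w.P j + 1) (w.A (E.oc c) - w.A j) (k - E.s0 + E.cd c)

/-- the projections of `H` -/
def prH (k : ℤ) : E.H →ₗ[K] E.H where
  toFun η := ⟨fun c j => E.prB (k - E.s0 + E.cd c) (η.1 c j),
    fun c j => pb_le _ _ _ (EB_pr _ (η.2 c j))⟩
  map_add' x y := by
    apply Subtype.ext
    funext c j
    exact map_add (E.prB _) _ _
  map_smul' r x := by
    apply Subtype.ext
    funext c j
    exact map_smul (E.prB _) _ _

theorem prH_apply (k : ℤ) (η : E.H) (c : E.ka) (j : w.Ob) :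
    (prH k η).1 c j = E.prB (k - E.s0 + E.cd c) (η.1 c j) := rfl

variable (E)

theorem s0_nn (c : E.ka) : 0 ≤ E.s0 := le_trans (by positivity) (E.cd_le c)

/-- the grading of `H` -/
def gH : GS K E.H where
  N := E.nb + E.s0.toNat
  pr := prH
  pr_pr k η := by
    apply Subtype.ext
    funext c j
    rw [prH_apply, prH_apply]
    exact E.pr_same (EB_pr _ (η.2 c j))
  pr_ne k l η h := by
    apply Subtype.ext
    funext c j
    rw [prH_apply, prH_apply]
    exact E.pr_diff (EB_pr _ (η.2 c j)) (fun h' => h (by omega))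
  total η := by
    apply Subtype.ext
    rw [AddSubmonoidClass.coe_finsetSum]
    funext c j
    rw [Finset.sum_apply, Finset.sum_apply]
    have h1 := E.cd_le c
    have h2 := E.s0_nn c
    have h := sum_pr (E := E) (i := E.oc c) (j := j) (P := w.P (E.oc c) - w.P j + 1)
      (E.nb + E.s0.toNat) (-E.s0 + E.cd c) (by omega) (by push_cast; omega) (η.2 c j)
    conv_rhs => rw [← h]
    refine Finset.sum_congr rfl fun k _ => ?_
    rw [prH_apply, show ((k : ℕ) : ℤ) - E.s0 + E.cd c = ((k : ℕ) : ℤ) + (-E.s0 + E.cd c) by ring]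

variable {E}

theorem mem_gH {k : ℤ} {η : E.H} : η ∈ E.gH.G k ↔ hH k η := by
  rw [GS.mem_G]
  constructor
  · intro h c j
    rw [← h]
    exact EB_pr _ (η.2 c j)
  · intro h
    apply Subtype.ext
    funext c j
    exact E.pr_same (h c j)

/-- the right action -/
def RH : w.Win →ₗ[K] E.H →ₗ[K] E.H where
  toFun m :=
    { toFun := fun η => ⟨fun c j => ∑ i, η.1 c i * E.p (m.1 i j), by
        intro c j
        refine Submodule.sum_mem _ fun i _ => ?_
        have h := EB_mul (η.2 c i) (EB_p (E := E) (m.2 i j))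
        rwa [show w.P (E.oc c) - w.P i + 1 + (w.P i - w.P j) = w.P (E.oc c) - w.P j + 1 by ring,
          show w.A (E.oc c) - w.A i + (w.A i - w.A j) = w.A (E.oc c) - w.A j by ring] at h⟩
      map_add' := by
        intro x y
        apply Subtype.ext
        funext c j
        change ∑ i, (x.1 c i + y.1 c i) * E.p (m.1 i j) = _ + _
        rw [← Finset.sum_add_distrib]
        exact Finset.sum_congr rfl fun i _ => add_mul _ _ _
      map_smul' := by
        intro r x
        apply Subtype.ext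
        funext c j
        change ∑ i, (r • x.1 c i) * E.p (m.1 i j) = r • ∑ i, x.1 c i * E.p (m.1 i j)
        rw [Finset.smul_sum]
        exact Finset.sum_congr rfl fun i _ => smul_mul_assoc _ _ _ }
  map_add' a b := by
    apply LinearMap.ext
    intro η
    apply Subtype.ext
    funext c j
    change ∑ i, η.1 c i * E.p (a.1 i j + b.1 i j) =
      ∑ i, η.1 c i * E.p (a.1 i j) + ∑ i, η.1 c i * E.p (b.1 i j)
    rw [← Finset.sum_add_distrib]
    exact Finset.sum_congr rfl fun i _ => by rw [map_add, mul_add]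
  map_smul' r a := by
    apply LinearMap.ext
    intro η
    apply Subtype.ext
    funext c j
    change ∑ i, η.1 c i * E.p (r • a.1 i j) = r • ∑ i, η.1 c i * E.p (a.1 i j)
    rw [Finset.smul_sum]
    exact Finset.sum_congr rfl fun i _ => by rw [map_smul, mul_smul_comm]

@[simp] theorem RH_apply (m : w.Win) (η : E.H) (c : E.ka) (j : w.Ob) :
    (RH m η).1 c j = ∑ i, η.1 c i * E.p (m.1 i j) := rfl

theorem RH_one (η : E.H) : RH (E := E) 1 η = η := by
  apply Subtype.ext
  funext c j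
  rw [RH_apply, Finset.sum_eq_single j]
  · change η.1 c j * E.p ((1 : Matrix w.Ob w.Ob w.S) j j) = _
    rw [Matrix.one_apply_eq, map_one, mul_one]
  · intro i _ hi
    change η.1 c i * E.p ((1 : Matrix w.Ob w.Ob w.S) i j) = _
    rw [Matrix.one_apply_ne hi, map_zero, mul_zero]
  · intro h
    exact absurd (Finset.mem_univ _) h

theorem RH_mul (a b : w.Win) (η : E.H) : RH (a * b) η = RH b (RH a η) := by
  apply Subtype.ext
  funext c j
  rw [RH_apply, RH_apply]
  simp only [RH_apply]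
  change ∑ i, η.1 c i * E.p ((a.1 * b.1) i j) = _
  simp only [Matrix.mul_apply, map_sum, map_mul, Finset.mul_sum, Finset.sum_mul]
  rw [Finset.sum_comm]
  exact Finset.sum_congr rfl fun i _ => Finset.sum_congr rfl fun l _ => by rw [mul_assoc]

theorem RH_deg {m k : ℤ} {a : w.Win} {η : E.H} (ha : a ∈ w.G m) (hη : η ∈ E.gH.G k) :
    RH a η ∈ E.gH.G (k + m) := by
  rw [mem_gH] at hη ⊢
  intro c j
  rw [RH_apply]
  refine Submodule.sum_mem _ fun i _ => ?_
  have h := E.pb_mul (hη c i) (E.p_mem (ha i j))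
  rwa [show w.P (E.oc c) - w.P i + 1 + (w.P i - w.P j) = w.P (E.oc c) - w.P j + 1 by ring,
    show w.A (E.oc c) - w.A i + (w.A i - w.A j) = w.A (E.oc c) - w.A j by ring,
    show k - E.s0 + E.cd c + m = k + m - E.s0 + E.cd c by ring] at h

/-- the differential of `H` -/
def dH : E.H →ₗ[K] E.H where
  toFun η := ⟨fun c j => E.DB (η.1 c j) + ∑ c', E.cc c c' * η.1 c' j, by
    intro c j
    refine Submodule.add_mem _ (EB_D (η.2 c j)) (Submodule.sum_mem _ fun c' _ => ?_)
    have h := EB_mul (pb_le _ _ _ (E.cc_mem c c')) (η.2 c' j)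
    rwa [show w.P (E.oc c) - w.P (E.oc c') + (w.P (E.oc c') - w.P j + 1) =
        w.P (E.oc c) - w.P j + 1 by ring,
      show w.A (E.oc c) - w.A (E.oc c') + (w.A (E.oc c') - w.A j) = w.A (E.oc c) - w.A j by
        ring] at h⟩
  map_add' x y := by
    apply Subtype.ext
    funext c j
    change E.DB (x.1 c j + y.1 c j) + ∑ c', E.cc c c' * (x.1 c' j + y.1 c' j) =
      (E.DB (x.1 c j) + ∑ c', E.cc c c' * x.1 c' j) + (E.DB (y.1 c j) + ∑ c', E.cc c c' * y.1 c' j)
    simp only [map_add, mul_add, Finset.sum_add_distrib]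
    abel
  map_smul' r x := by
    apply Subtype.ext
    funext c j
    change E.DB (r • x.1 c j) + ∑ c', E.cc c c' * (r • x.1 c' j) =
      r • (E.DB (x.1 c j) + ∑ c', E.cc c c' * x.1 c' j)
    simp only [map_smul, mul_smul_comm, ← Finset.smul_sum, smul_add]

@[simp] theorem dH_apply (η : E.H) (c : E.ka) (j : w.Ob) :
    (dH η).1 c j = E.DB (η.1 c j) + ∑ c', E.cc c c' * η.1 c' j := rfl

theorem dH_deg {k : ℤ} {η : E.H} (hη : η ∈ E.gH.G k) : dH η ∈ E.gH.G (k - 1) := by
  rw [mem_gH] at hη ⊢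
  intro c j
  rw [dH_apply]
  refine Submodule.add_mem _ ?_ (Submodule.sum_mem _ fun c' _ => ?_)
  · have h := E.DB_mem (hη c j)
    rwa [show k - E.s0 + E.cd c - 1 = k - 1 - E.s0 + E.cd c by ring] at h
  · have h := E.pb_mul (E.cc_mem c c') (hη c' j)
    rwa [show w.P (E.oc c) - w.P (E.oc c') + (w.P (E.oc c') - w.P j + 1) =
        w.P (E.oc c) - w.P j + 1 by ring,
      show w.A (E.oc c) - w.A (E.oc c') + (w.A (E.oc c') - w.A j) = w.A (E.oc c) - w.A j by
        ring,
      show (E.cd c : ℤ) - E.cd c' - 1 + (k - E.s0 + E.cd c') = k - 1 - E.s0 + E.cd c by ring] at h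

theorem dbl_sum {ι : Type} (s : Finset ι) (f : ι → E.B) : ∑ i ∈ s, f i + ∑ i ∈ s, f i = 0 :=
  E.two _

theorem dH_dH (η : E.H) : dH (dH η) = 0 := by
  apply Subtype.ext
  funext c j
  rw [dH_apply]
  simp only [dH_apply, map_add, map_sum, E.DB_DB, E.DB_mul, zero_add, mul_add,
    Finset.sum_add_distrib, Finset.mul_sum]
  have h : ∑ c', E.DB (E.cc c c') * η.1 c' j + ∑ c', ∑ c'', E.cc c c' * (E.cc c' c'' * η.1 c'' j) =
      0 := by
    rw [Finset.sum_comm (f := fun c' c'' => E.cc c c' * (E.cc c' c'' * η.1 c'' j)),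
      ← Finset.sum_add_distrib]
    refine Finset.sum_eq_zero fun c' _ => ?_
    have h1 := congrArg (· * η.1 c' j) (E.mc c c')
    simp only [add_mul, zero_mul, Finset.sum_mul] at h1
    rw [← h1]
    congr 1
    exact Finset.sum_congr rfl fun i _ => by rw [mul_assoc]
  have h2 := E.two (∑ c', E.cc c c' * E.DB (η.1 c' j))
  change _ = (0 : E.B)
  calc _ = (∑ c', E.DB (E.cc c c') * η.1 c' j +
        ∑ c', ∑ c'', E.cc c c' * (E.cc c' c'' * η.1 c'' j)) +
        (∑ c', E.cc c c' * E.DB (η.1 c' j) + ∑ c', E.cc c c' * E.DB (η.1 c' j)) := by abel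
    _ = 0 := by rw [h, h2, add_zero]

theorem RH_D (a : w.Win) (η : E.H) : RH (w.DW a) η = dH (RH a η) + RH a (dH η) := by
  apply Subtype.ext
  funext c j
  change (RH (w.DW a) η).1 c j = (dH (RH a η)).1 c j + (RH a (dH η)).1 c j
  simp only [dH_apply, RH_apply, WD.DW_apply, E.p_D, map_sum, E.DB_mul, add_mul,
    Finset.sum_add_distrib, Finset.sum_mul, Finset.mul_sum, mul_assoc]
  rw [Finset.sum_comm (f := fun c' i => E.cc c c' * (η.1 c' i * E.p (a.1 i j)))]
  have h1 := E.two (∑ i, E.DB (η.1 c i) * E.p (a.1 i j))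
  have h2 := E.two (∑ i, ∑ c', E.cc c c' * (η.1 c' i * E.p (a.1 i j)))
  calc _ = (∑ i, η.1 c i * E.DB (E.p (a.1 i j))) +
        (∑ i, E.DB (η.1 c i) * E.p (a.1 i j) + ∑ i, E.DB (η.1 c i) * E.p (a.1 i j)) +
        (∑ i, ∑ c', E.cc c c' * (η.1 c' i * E.p (a.1 i j)) +
          ∑ i, ∑ c', E.cc c c' * (η.1 c' i * E.p (a.1 i j))) := by rw [h1, h2, add_zero, add_zero]
    _ = _ := by abel

end CE

end Crest.Agent.R186.KHev302
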