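import Crest.Agent.R186.KKf_354
import Crest.Agent.R186.ExT_698

/-!
# Row 186, half (A), leaf KKg (helper354): the homology of a right module killed by the `W`-letters as
698's `ROp`; `KEx` from `ROp.exact`
-/

set_option autoImplicit false
set_option linter.style.haveILetI false

noncomputable section

open MulOpposite

namespace Crest.Agent.R186.KKg354

open Hat827 Hat827.DGA Frame515 Zig498 Crest.Agent.R186.Win810 Crest.Agent.R186.Win810.WD
open Crest.Agent.R186.DefsQ830 Crest.Agent.R186.Cells221 Crest.Agent.R186.C2x354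
open Crest.Agent.R186.QF354 Crest.Agent.R186.KKz354 Crest.Agent.R186.KKh354
open Crest.Agent.R186.KKf354
open Crest.Agent.R186.C2b44 (kill c0 c0_mc)

variable {K : Type} [Field K] {π : Par K} {N : RM (WR π).dga}

/-- **the homology of `N` in degree `n` as an `ROp`** -/
def ropH (hJ : JZ π N) (n : ℤ) : ExT698.ROp K π.g (HH N.toGC n) where
  P := PP N n
  X j := rho N n (mx π j) (mx_G π j)
  D j := rho N n (md π j) (md_G π j)
  H := rho N n (mh π) (mh_G π)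
  T := rho N n (mtt π) (mtt_G π)
  X_mem j _ _ hm := X_mem j hm
  D_mem j _ _ hm := D_mem j hm
  H_mem i _ _ hm := H_mem i hm
  T_mem i _ _ hm := T_mem i hm
  t0 _ _ hm := r_t0 hm
  t1 _ _ hm := r_t1 hm
  tx j _ m _ := r_xt j m
  td j _ m _ := r_td hJ j m
  hx j _ m _ := r_xh j m
  hd j _ m _ := r_dh j m

/-! ### classes of fixed cycles -/

theorem e_G (c : Cell) : WD.e (w := WR π) (oc c) ∈ (WR π).G 0 := WD.e_mem _

theorem ee_oc (c : Cell) : ee π (oc c).1 (((oc c).2.val : ℕ) : ℤ) = WD.e (w := WR π) (oc c) :=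
  ee_e π (oc c).1 (oc c).2

theorem rho_eq {a a' : (WR π).Win} {n : ℤ} (h : a = a') (ha : a ∈ (WR π).G 0)
    (ha' : a' ∈ (WR π).G 0) (m : HH N.toGC n) : rho N n a ha m = rho N n a' ha' m := by
  subst h; rfl

theorem cls_PP {n : ℤ} (c : Cell) {x : N.X} (hx : x ∈ N.gr n) (hd : N.d x = 0)
    (he : rmul N (WD.e (w := WR π) (oc c)) x = x) :
    cls N.toGC n x hx hd ∈ PP N n (oc c).1 (((oc c).2.val : ℕ) : ℤ) := by
  rw [mem_PP, rho_eq (ee_oc c) _ (e_G c), rho_cls]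
  exact cls_congr' he

theorem PP_rep {n : ℤ} (c : Cell) {m : HH N.toGC n}
    (hm : m ∈ PP N n (oc c).1 (((oc c).2.val : ℕ) : ℤ)) :
    ∃ (x : N.X) (hx : x ∈ N.gr n) (hd : N.d x = 0), cls N.toGC n x hx hd = m ∧
      rmul N (WD.e (w := WR π) (oc c)) x = x := by
  obtain ⟨x, hx, hd, rfl⟩ := exists_rep m
  rw [mem_PP, rho_eq (ee_oc c) _ (e_G c), rho_cls] at hm
  refine ⟨rmul N (WD.e (w := WR π) (oc c)) x, _, _, hm, ?_⟩
  exact (twG N (XX π)).p_p (c, eo π) x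

theorem k0_G {c c' : Cell} (h : cdeg c' + 1 = cdeg c) : k0 π c c' ∈ (WR π).G 0 := by
  have h1 : ∀ z : ℤ, z = (cdeg c : ℤ) - cdeg c' - 1 → k0 π c c' ∈ (WR π).G z := by
    rintro z rfl
    exact ws_mem_G (c0_q π c c')
  exact h1 0 (by omega)

/-- **`KEx` from 698's exactness** -/
theorem KEx_of (hJ : JZ π N) (n : ℤ) (hB : (ropH hJ n).Bij)
    (htab : ∀ (c c' : Cell) (h : cdeg c' + 1 = cdeg c) (m : HH N.toGC n),
      m ∈ PP N n (oc c).1 (((oc c).2.val : ℕ) : ℤ) →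
      rho N n (k0 π c c') (k0_G h) m = ExT698.ROp.tab π (ropH hJ n) c c' m) (r : ℕ) :
    KEx π N r n := by
  classical
  intro z hz hz0 hb
  -- products of cycles with the coefficients
  have hp : ∀ (u : Cell → N.X) (q : ℕ), (∀ c, u c ∈ N.gr n ∧ N.d (u c) = 0) →
      (∀ c, cdeg c ≠ q → u c = 0) → ∀ (c' c : Cell), cdeg c' + 1 = q →
      rmul N (k0 π c c') (u c) ∈ N.gr n ∧ N.d (rmul N (k0 π c c') (u c)) = 0 := by
    intro u q hu hu0 c' c hq
    by_cases hc : cdeg c = q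
    · exact (hok N n (k0_G (c := c) (c' := c') (by omega))).z _ (hu c).1 (hu c).2
    · rw [hu0 c hc, map_zero, map_zero]
      exact ⟨Submodule.zero_mem _, rfl⟩
  have htb : ∀ (u : Cell → N.X) (q : ℕ) (hu : ∀ c, u c ∈ N.gr n ∧
      rmul N (WD.e (w := WR π) (oc c)) (u c) = u c ∧ N.d (u c) = 0)
      (hu0 : ∀ c, cdeg c ≠ q → u c = 0) (c' c : Cell) (hq : cdeg c' + 1 = q)
      (h1 : rmul N (k0 π c c') (u c) ∈ N.gr n) (h2 : N.d (rmul N (k0 π c c') (u c)) = 0),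
      ExT698.ROp.tab π (ropH hJ n) c c' (cls N.toGC n (u c) (hu c).1 (hu c).2.2) =
        cls N.toGC n (rmul N (k0 π c c') (u c)) h1 h2 := by
    intro u q hu hu0 c' c hq h1 h2
    by_cases hc : cdeg c = q
    · rw [← htab c c' (by omega) _ (cls_PP c (hu c).1 (hu c).2.2 (hu c).2.1), rho_cls]
    · have e1 : cls N.toGC n (u c) (hu c).1 (hu c).2.2 = 0 :=
        cls_eq_zero.2 ⟨0, Submodule.zero_mem _, by rw [map_zero, hu0 c hc]⟩
      have e2 : cls N.toGC n (rmul N (k0 π c c') (u c)) h1 h2 = 0 :=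
        cls_eq_zero.2 ⟨0, Submodule.zero_mem _, by rw [map_zero, hu0 c hc, map_zero]⟩
      rw [e1, e2, map_zero]
  obtain ⟨w, hw, hw0, hyw⟩ := ExT698.ROp.exact π hB r
    (fun c => cls N.toGC n (z c) (hz c).1 (hz c).2.2)
    (fun c => cls_PP c (hz c).1 (hz c).2.2 (hz c).2.1)
    (fun c hc => cls_eq_zero.2 ⟨0, Submodule.zero_mem _, by rw [map_zero, hz0 c hc]⟩)
    (fun c' hc' => by
      have h1 := fun c => hp z r (fun c => ⟨(hz c).1, (hz c).2.2⟩) hz0 c' c hc'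
      rw [Finset.sum_congr rfl fun c _ => htb z r hz hz0 c' c hc' (h1 c).1 (h1 c).2,
        ← cls_sum Finset.univ (fun c => rmul N (k0 π c c') (z c)) (fun c => (h1 c).1)
          (fun c => (h1 c).2)]
      obtain ⟨y, hy, _, hyd⟩ := hb c' hc'
      exact cls_eq_zero.2 ⟨y, hy, hyd.symm⟩)
  -- representatives of `w`
  have hrep : ∀ c, ∃ x : N.X, x ∈ N.gr n ∧ rmul N (WD.e (w := WR π) (oc c)) x = x ∧ N.d x = 0 ∧
      (cdeg c ≠ r + 1 → x = 0) ∧ ∀ (h1 : x ∈ N.gr n) (h2 : N.d x = 0), cls N.toGC n x h1 h2 = w c := by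
    intro c
    by_cases hc : cdeg c = r + 1
    · obtain ⟨x, hx, hd, h, he⟩ := PP_rep c (hw c)
      exact ⟨x, hx, he, hd, fun h' => absurd hc h', fun _ _ => h⟩
    · refine ⟨0, Submodule.zero_mem _, map_zero _, map_zero _, fun _ => rfl, fun h1 h2 => ?_⟩
      rw [hw0 c hc]
      exact cls_eq_zero.2 ⟨0, Submodule.zero_mem _, map_zero _⟩
  choose x hx he hd hx0 hcls using hrep
  have h1 := fun c' c (hc' : cdeg c' + 1 = r + 1) => hp x (r + 1) (fun c => ⟨hx c, hd c⟩) hx0 c' c hc'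
  have key : ∀ c', cdeg c' = r → ∃ y ∈ N.gr (n + 1),
      rmul N (WD.e (w := WR π) (oc c')) y = y ∧
      z c' = ∑ c, rmul N (k0 π c c') (x c) + N.d y := by
    intro c' hc'
    have h2 := hyw c' hc'
    have h3 : ∑ c, ExT698.ROp.tab π (ropH hJ n) c c' (w c) =
        cls N.toGC n (∑ c, rmul N (k0 π c c') (x c))
          (Submodule.sum_mem _ fun c _ => (h1 c' c (by omega)).1)
          (by rw [map_sum]; exact Finset.sum_eq_zero fun c _ => (h1 c' c (by omega)).2) := by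
      rw [cls_sum Finset.univ (fun c => rmul N (k0 π c c') (x c)) (fun c => (h1 c' c (by omega)).1)
          (fun c => (h1 c' c (by omega)).2)]
      refine Finset.sum_congr rfl fun c _ => ?_
      rw [← hcls c (hx c) (hd c)]
      exact htb x (r + 1) (fun c => ⟨hx c, he c, hd c⟩) hx0 c' c (by omega) _ _
    rw [h3] at h2
    obtain ⟨y, hy, hzy⟩ := cls_eq.1 h2
    refine ⟨rmul N (WD.e (w := WR π) (oc c')) y, ?_, (twG N (XX π)).p_p (c', eo π) y, ?_⟩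
    · exact (twG N (XX π)).p_mem (c', eo π) hy
    · have h4 := congrArg (rmul N (WD.e (w := WR π) (oc c'))) hzy
      rw [(hz c').2.1, map_add, map_sum, e_d] at h4
      rw [h4]
      congr 1
      exact Finset.sum_congr rfl fun c _ => k0_right c c' (x c)
  have key' : ∀ c', ∃ y : N.X, y ∈ N.gr (n + 1) ∧ rmul N (WD.e (w := WR π) (oc c')) y = y ∧
      (cdeg c' = r → z c' = ∑ c, rmul N (k0 π c c') (x c) + N.d y) := by
    intro c'
    by_cases hc' : cdeg c' = r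
    · obtain ⟨y, hy, hye, h⟩ := key c' hc'
      exact ⟨y, hy, hye, fun _ => h⟩
    · exact ⟨0, Submodule.zero_mem _, map_zero _, fun h => absurd h hc'⟩
  choose y hy hye hzy using key'
  exact ⟨x, y, fun c => ⟨hx c, he c, hd c⟩, hx0, fun c => ⟨hy c, hye c⟩, hzy⟩

/-! ### bijectivity of `θ` from the columns of `N` -/

theorem th_q (i : Fin 2) (b : Fin 3) (c : K) : (tR π + c • X π .h : R π) ∈
    (WR π).q (i, b.succ) (i, b.castSucc) 0 := by
  show (tR π + c • X π .h : R π) ∈ pcZ π (((i.val : ℕ) : ℤ) - ((i.val : ℕ) : ℤ))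
    (((b.succ.val : ℕ) : ℤ) - ((b.castSucc.val : ℕ) : ℤ)) 0
  have e : (((b.succ.val : ℕ) : ℤ) - ((b.castSucc.val : ℕ) : ℤ)) = ((1 : ℕ) : ℤ) := by
    simp
  rw [e]
  exact Submodule.add_mem _ (t_m π i) (Submodule.smul_mem _ c (h_m π i))

variable (π) in
/-- `θ = t + c h` from the column `(i, b + 1)` to the column `(i, b)` -/
def thw (i : Fin 2) (b : Fin 3) (c : K) : (WR π).Win :=
  ws (w := WR π) (i, b.succ) (i, b.castSucc) (tR π + c • X π .h) (q_le _ _ _ (th_q i b c))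

theorem thw_G (i : Fin 2) (b : Fin 3) (c : K) : thw π i b c ∈ (WR π).G 0 := ws_mem_G (th_q i b c)

theorem thw_ent (i : Fin 2) (b : Fin 3) (c : K) (k l : DefsQ830.Ob) : ent π (thw π i b c) k l =
    if ((i, b.succ) : DefsQ830.Ob) = k ∧ ((i, b.castSucc) : DefsQ830.Ob) = l then
      tR π + c • X π .h else 0 :=
  ws_apply (w := WR π) (i, b.succ) (i, b.castSucc) (tR π + c • X π .h) _ k l

/-- right multiplication by `θ` is bijective on homology, elementwise -/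
structure ThQ (N : RM (WR π).dga) (n : ℤ) (i : Fin 2) (b : Fin 3) (c : K) : Prop where
  inj : ∀ x ∈ N.gr n, rmul N (WD.e (w := WR π) (i, b.succ)) x = x → N.d x = 0 →
    (∃ y ∈ N.gr (n + 1), rmul N (thw π i b c) x = N.d y) → ∃ v ∈ N.gr (n + 1), x = N.d v
  surj : ∀ x ∈ N.gr n, rmul N (WD.e (w := WR π) (i, b.castSucc)) x = x → N.d x = 0 →
    ∃ x' ∈ N.gr n, rmul N (WD.e (w := WR π) (i, b.succ)) x' = x' ∧ N.d x' = 0 ∧
      ∃ y ∈ N.gr (n + 1), x = rmul N (thw π i b c) x' + N.d y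

theorem rep_ob {n : ℤ} (i : Fin 2) (b : Fin 4) {m : HH N.toGC n}
    (hm : m ∈ PP N n i ((b.val : ℕ) : ℤ)) :
    ∃ (x : N.X) (hx : x ∈ N.gr n) (hd : N.d x = 0), cls N.toGC n x hx hd = m ∧
      rmul N (WD.e (w := WR π) (i, b)) x = x := by
  obtain ⟨x, hx, hd, rfl⟩ := exists_rep m
  rw [mem_PP, rho_eq (ee_e π i b) _ (WD.e_mem _), rho_cls] at hm
  refine ⟨rmul N (WD.e (w := WR π) (i, b)) x, _, _, hm, ?_⟩
  exact (ra_mul N _ _ x).trans (congrArg (fun a => rmul N a x) (e_mul_e (w := WR π) (i, b)))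

theorem PP_ob {n : ℤ} (i : Fin 2) (b : Fin 4) {x : N.X} (hx : x ∈ N.gr n) (hd : N.d x = 0)
    (he : rmul N (WD.e (w := WR π) (i, b)) x = x) :
    cls N.toGC n x hx hd ∈ PP N n i ((b.val : ℕ) : ℤ) := by
  rw [mem_PP, rho_eq (ee_e π i b) _ (WD.e_mem _), rho_cls]
  exact cls_congr' he

theorem th_on {n : ℤ} (i : Fin 2) (b : Fin 3) (c : K) {m : HH N.toGC n}
    (hm : m ∈ PP N n i (((b.succ : Fin 4).val : ℕ) : ℤ)) :
    rho N n (mtt π) (mtt_G π) m + c • rho N n (mh π) (mh_G π) m =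
      rho N n (thw π i b c) (thw_G i b c) m := by
  rw [← rho_smul c _ (mh_G π), ← rho_add _ _ (mtt_G π) (Submodule.smul_mem _ c (mh_G π))]
  refine rho_on hm _ _ fun k l hk hb => ?_
  rw [ent_add, ent_smul, mtt_ent, mh_ent, thw_ent]
  have hk2 : k.2 = b.succ := Fin.ext (by omega)
  by_cases h : k.1 = l.1 ∧ k.2.val = l.2.val + 1
  · have h1 : ((i, b.succ) : DefsQ830.Ob) = k ∧ ((i, b.castSucc) : DefsQ830.Ob) = l := by
      refine ⟨Prod.ext hk.symm hk2.symm, Prod.ext (hk.symm.trans h.1) (Fin.ext ?_)⟩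
      have h2 := h.2
      rw [hk2, Fin.val_succ] at h2
      show b.val = l.2.val
      omega
    rw [if_pos h, if_pos h, if_pos h1]
  · have h1 : ¬ (((i, b.succ) : DefsQ830.Ob) = k ∧ ((i, b.castSucc) : DefsQ830.Ob) = l) := by
      rintro ⟨rfl, rfl⟩
      exact h ⟨rfl, by simp⟩
    rw [if_neg h, if_neg h, if_neg h1, smul_zero, add_zero]

theorem th_inj {n : ℤ} {i : Fin 2} {b : Fin 3} {c : K} (h : ThQ N n i b c) {m : HH N.toGC n}
    (hm : m ∈ PP N n i (((b.succ : Fin 4).val : ℕ) : ℤ))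
    (h0 : rho N n (mtt π) (mtt_G π) m + c • rho N n (mh π) (mh_G π) m = 0) : m = 0 := by
  rw [th_on i b c hm] at h0
  obtain ⟨x, hx, hd, rfl, he⟩ := rep_ob i b.succ hm
  rw [rho_cls] at h0
  obtain ⟨y, hy, hyd⟩ := cls_eq_zero.1 h0
  obtain ⟨v, hv, hvd⟩ := h.inj x hx he hd ⟨y, hy, hyd.symm⟩
  exact cls_eq_zero.2 ⟨v, hv, hvd.symm⟩

theorem th_surj {n : ℤ} {i : Fin 2} {b : Fin 3} {c : K} (h : ThQ N n i b c) {m : HH N.toGC n}
    (hm : m ∈ PP N n i (((b.castSucc : Fin 4).val : ℕ) : ℤ)) :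
    ∃ m' ∈ PP N n i (((b.succ : Fin 4).val : ℕ) : ℤ),
      rho N n (mtt π) (mtt_G π) m' + c • rho N n (mh π) (mh_G π) m' = m := by
  obtain ⟨x, hx, hd, rfl, he⟩ := rep_ob i b.castSucc hm
  obtain ⟨x', hx', he', hd', y, hy, hxy⟩ := h.surj x hx he hd
  refine ⟨cls N.toGC n x' hx' hd', PP_ob i b.succ hx' hd' he', ?_⟩
  rw [th_on i b c (PP_ob i b.succ hx' hd' he'), rho_cls]
  exact (cls_eq.2 ⟨y, hy, hxy⟩).symm

/-- **698's `Bij` from the columns**: `θ_0` on the columns `(1, ·)`, `θ_(-1)` on `(0, ·)` -/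
theorem bij_of (hJ : JZ π N) (n : ℤ) (h1 : ∀ b : Fin 3, ThQ N n 1 b (π.g ^ 2)⁻¹)
    (h0 : ∀ b : Fin 3, b ≠ 0 → ThQ N n 0 b (π.g)⁻¹) : (ropH hJ n).Bij where
  i1 b hb1 hb2 m hm h := by
    obtain ⟨b', rfl⟩ : ∃ b' : Fin 3, b = (((b'.succ : Fin 4).val : ℕ) : ℤ) :=
      ⟨⟨(b - 1).toNat, by omega⟩, by simp; omega⟩
    exact th_inj (h1 b') hm h
  s1 b hb1 hb2 m hm := by
    obtain ⟨b', rfl⟩ : ∃ b' : Fin 3, b = (((b'.succ : Fin 4).val : ℕ) : ℤ) :=
      ⟨⟨(b - 1).toNat, by omega⟩, by simp; omega⟩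
    have e : (((b'.succ : Fin 4).val : ℕ) : ℤ) - 1 = (((b'.castSucc : Fin 4).val : ℕ) : ℤ) := by
      simp
    rw [e] at hm
    exact th_surj (h1 b') hm
  i0 b hb1 hb2 m hm h := by
    obtain ⟨b', rfl⟩ : ∃ b' : Fin 3, b = (((b'.succ : Fin 4).val : ℕ) : ℤ) :=
      ⟨⟨(b - 1).toNat, by omega⟩, by simp; omega⟩
    refine th_inj (h0 b' ?_) hm h
    rintro rfl
    simp at hb1
  s0 b hb1 hb2 m hm := by
    obtain ⟨b', rfl⟩ : ∃ b' : Fin 3, b = (((b'.succ : Fin 4).val : ℕ) : ℤ) :=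
      ⟨⟨(b - 1).toNat, by omega⟩, by simp; omega⟩
    have e : (((b'.succ : Fin 4).val : ℕ) : ℤ) - 1 = (((b'.castSucc : Fin 4).val : ℕ) : ℤ) := by
      simp
    rw [e] at hm
    refine th_surj (h0 b' ?_) hm
    rintro rfl
    simp at hb1

end Crest.Agent.R186.KKg354
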