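import Crest.Agent.R186.KKz_354
import Crest.Agent.R186.HH_498

/-!
# Row 186, half (A), leaf KKh (helper354): the degree zero part of the window acts on the homology of a
right module
-/

set_option autoImplicit false
set_option linter.style.haveILetI false

noncomputable section

open MulOpposite

namespace Crest.Agent.R186.KKh354

open Hat827 Hat827.DGA Frame515 Zig498 Crest.Agent.R186.Win810 Crest.Agent.R186.Win810.WD
open Crest.Agent.R186.DefsQ830 Crest.Agent.R186.Cells221 Crest.Agent.R186.C2x354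
open Crest.Agent.R186.QF354 Crest.Agent.R186.KKz354
open Crest.Agent.R186.C2b44 (kill c0 c0_mc)

variable {K : Type} [Field K] {π : Par K}

theorem G0_D {a : (WR π).Win} (ha : a ∈ (WR π).G 0) : (WR π).DW a = 0 :=
  D_neg (A := (WR π).dga) ha (by norm_num)

variable (N : RM (WR π).dga) (n : ℤ)

theorem hok {a : (WR π).Win} (ha : a ∈ (WR π).G 0) :
    HOK (X := N.toGC) (Y := N.toGC) n (rmul N a) := by
  have hd : ∀ x, N.d (rmul N a x) = rmul N a (N.d x) := fun x => by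
    have h1 := ra_leib N a x
    have h2 : rmul N ((WR π).dga.D a) x = 0 := by
      have h3 : (WR π).dga.D a = 0 := G0_D ha
      rw [h3, ra_zero]
      rfl
    rw [h1, h2, zero_add]
  have hm : ∀ {k : ℤ} {x : N.X}, x ∈ N.gr k → rmul N a x ∈ N.gr k := fun {k x} hx => by
    have := N.smul_mem (a := a) ha hx
    rwa [zero_add] at this
  exact ⟨fun x hx hdx => ⟨hm hx, by rw [hd, hdx, map_zero]⟩, fun y hy => ⟨rmul N a y, hm hy, hd y⟩⟩

/-- the action of an element of degree zero on homology -/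
def rho (a : (WR π).Win) (ha : a ∈ (WR π).G 0) : HH N.toGC n →ₗ[K] HH N.toGC n :=
  Hm (rmul N a) (hok N n ha)

variable {N n}

theorem rho_cls (a : (WR π).Win) (ha : a ∈ (WR π).G 0) (x : N.X) (hx : x ∈ N.gr n)
    (hd : N.d x = 0) : rho N n a ha (cls N.toGC n x hx hd) =
      cls N.toGC n (rmul N a x) ((hok N n ha).z x hx hd).1 ((hok N n ha).z x hx hd).2 := rfl

theorem cls_congr' {x y : N.X} {hx : x ∈ N.gr n} {hdx : N.d x = 0} {hy : y ∈ N.gr n}
    {hdy : N.d y = 0} (h : x = y) : cls N.toGC n x hx hdx = cls N.toGC n y hy hdy := by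
  subst h; rfl

theorem G0_mul {a b : (WR π).Win} (ha : a ∈ (WR π).G 0) (hb : b ∈ (WR π).G 0) :
    a * b ∈ (WR π).G 0 := by
  have := G_sum ha hb
  rwa [add_zero] at this

theorem rho_mul (a b : (WR π).Win) (ha : a ∈ (WR π).G 0) (hb : b ∈ (WR π).G 0)
    (ζ : HH N.toGC n) : rho N n b hb (rho N n a ha ζ) = rho N n (a * b) (G0_mul ha hb) ζ := by
  obtain ⟨x, hx, hd, rfl⟩ := exists_rep ζ
  rw [rho_cls, rho_cls, rho_cls]
  exact cls_congr' (ra_mul N a b x)

theorem rho_add (a b : (WR π).Win) (ha : a ∈ (WR π).G 0) (hb : b ∈ (WR π).G 0)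
    (ζ : HH N.toGC n) : rho N n (a + b) (Submodule.add_mem _ ha hb) ζ =
      rho N n a ha ζ + rho N n b hb ζ := by
  obtain ⟨x, hx, hd, rfl⟩ := exists_rep ζ
  rw [rho_cls, rho_cls, rho_cls, ← cls_add]
  exact cls_congr' (ra_add N a b x)

theorem ra_smul (r : K) (a : (WR π).dga.C) (x : N.X) : rmul N (r • a) x = r • rmul N a x := by
  simp only [rmul_apply, op_smul, smul_assoc]

theorem cls_smul' (r : K) (x : N.X) (hx : x ∈ N.gr n) (hd : N.d x = 0) :
    r • cls N.toGC n x hx hd = cls N.toGC n (r • x) (Submodule.smul_mem _ r hx)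
      (by rw [map_smul, hd, smul_zero]) := rfl

theorem rho_smul (r : K) (a : (WR π).Win) (ha : a ∈ (WR π).G 0)
    (ζ : HH N.toGC n) : rho N n (r • a) (Submodule.smul_mem _ r ha) ζ = r • rho N n a ha ζ := by
  obtain ⟨x, hx, hd, rfl⟩ := exists_rep ζ
  rw [rho_cls, rho_cls, cls_smul']
  exact cls_congr' (ra_smul r a x)

/-- the action depends only on the class modulo the `W`-letters and boundaries -/
theorem rho_congr (hJ : JZ π N) {a b z : (WR π).Win} (ha : a ∈ (WR π).G 0) (hb : b ∈ (WR π).G 0)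
    (hz : z ∈ (WR π).G 1)
    (h : ∀ i j, kill π (ent π a i j) = kill π (ent π (b + (WR π).DW z) i j))
    (ζ : HH N.toGC n) : rho N n a ha ζ = rho N n b hb ζ := by
  obtain ⟨x, hx, hd, rfl⟩ := exists_rep ζ
  rw [rho_cls, rho_cls]
  refine cls_eq.2 ⟨rmul N z x, ?_, ?_⟩
  · have := N.smul_mem (a := z) hz hx
    rwa [add_comm] at this
  · have h1 := hJ (a + (-1 : K) • (b + (WR π).DW z)) (fun i j => by
      show kill π (ent π a i j + (-1 : K) • ent π (b + (WR π).DW z) i j) = 0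
      rw [map_add, map_smul, h i j]
      exact (congrArg (fun t => _ + t) (neg_one_smul K _)).trans (add_neg_cancel _)) x
    have h2 : rmul N (a + (-1 : K) • (b + (WR π).DW z)) x =
        rmul N a x + (-1 : K) • (rmul N b x + rmul N ((WR π).DW z) x) :=
      (ra_add N _ _ x).trans (congrArg (fun t => rmul N a x + t) ((ra_smul _ _ x).trans
        (congrArg (fun t => (-1 : K) • t) (ra_add N _ _ x))))
    have h3 : N.d (rmul N z x) = rmul N ((WR π).DW z) x := by
      rw [ra_leib N z x, hd, map_zero, add_zero]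
      rfl
    rw [h2, neg_smul, one_smul, add_neg_eq_zero] at h1
    rw [h3]
    exact h1

/-! ### homogeneous matrices -/

variable (π)

/-- the matrix with entries `r` at `((i, b + s), (i', b))` -/
def mt (i i' : Fin 2) (s : ℕ) (r : R π) {C : ℤ}
    (hr : r ∈ pcZ π ((i.val : ℤ) - (i'.val : ℤ)) s C) : (WR π).Win :=
  ⟨Matrix.of fun k l : DefsQ830.Ob =>
    if k.1 = i ∧ l.1 = i' ∧ k.2.val = l.2.val + s then r else 0, fun k l => by
    show (if k.1 = i ∧ l.1 = i' ∧ k.2.val = l.2.val + s then r else 0) ∈ (WR π).E k l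
    split_ifs with h
    · refine q_le (w := WR π) _ _ C ?_
      show r ∈ pcZ π (((k.1.val : ℕ) : ℤ) - ((l.1.val : ℕ) : ℤ))
        (((k.2.val : ℕ) : ℤ) - ((l.2.val : ℕ) : ℤ)) C
      rw [h.1, h.2.1, h.2.2]
      have e : (((l.2.val + s : ℕ) : ℕ) : ℤ) - ((l.2.val : ℕ) : ℤ) = s := by push_cast; ring
      rw [e]
      exact hr
    · exact Submodule.zero_mem ((WR π).E k l)⟩

theorem mt_ent (i i' : Fin 2) (s : ℕ) (r : R π) {C : ℤ}
    (hr : r ∈ pcZ π ((i.val : ℤ) - (i'.val : ℤ)) s C) (k l : DefsQ830.Ob) :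
    ent π (mt π i i' s r hr) k l =
      if k.1 = i ∧ l.1 = i' ∧ k.2.val = l.2.val + s then r else 0 := rfl

theorem mt_G (i i' : Fin 2) (s : ℕ) (r : R π) {C : ℤ}
    (hr : r ∈ pcZ π ((i.val : ℤ) - (i'.val : ℤ)) s C) : mt π i i' s r hr ∈ (WR π).G C := by
  intro k l
  show (if k.1 = i ∧ l.1 = i' ∧ k.2.val = l.2.val + s then r else 0) ∈ (WR π).q k l C
  split_ifs with h
  · show r ∈ pcZ π (((k.1.val : ℕ) : ℤ) - ((l.1.val : ℕ) : ℤ))
      (((k.2.val : ℕ) : ℤ) - ((l.2.val : ℕ) : ℤ)) C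
    rw [h.1, h.2.1, h.2.2]
    have e : (((l.2.val + s : ℕ) : ℕ) : ℤ) - ((l.2.val : ℕ) : ℤ) = s := by push_cast; ring
    rw [e]
    exact hr
  · exact Submodule.zero_mem ((WR π).q k l C)

theorem ent_mul (a b : (WR π).Win) (k l : DefsQ830.Ob) :
    ent π (a * b) k l = ∑ m, ent π a k m * ent π b m l := rfl

theorem win_ext {a b : (WR π).Win} (h : ∀ k l, ent π a k l = ent π b k l) : a = b := by
  apply Subtype.ext
  ext k l
  exact h k l

theorem mt_mul (i i' i'' : Fin 2) (s s' : ℕ) (r r' : R π)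
    (hr : r ∈ pcZ π ((i.val : ℤ) - (i'.val : ℤ)) s 0)
    (hr' : r' ∈ pcZ π ((i'.val : ℤ) - (i''.val : ℤ)) s' 0)
    (h : r * r' ∈ pcZ π ((i.val : ℤ) - (i''.val : ℤ)) ((s + s' : ℕ) : ℤ) 0) :
    mt π i i' s r hr * mt π i' i'' s' r' hr' = mt π i i'' (s + s') (r * r') h := by
  apply win_ext
  intro k l
  rw [ent_mul, mt_ent]
  simp only [mt_ent]
  by_cases hk : k.1 = i ∧ l.1 = i'' ∧ k.2.val = l.2.val + (s + s')
  · rw [if_pos hk]
    have hlt : l.2.val + s' < 4 := by have := k.2.2; omega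
    rw [Finset.sum_eq_single (i', ⟨l.2.val + s', hlt⟩)]
    · rw [if_pos ⟨hk.1, rfl, by show k.2.val = l.2.val + s' + s; omega⟩,
        if_pos ⟨rfl, hk.2.1, rfl⟩]
    · intro m _ hm
      by_cases h1 : m.1 = i' ∧ l.1 = i'' ∧ m.2.val = l.2.val + s'
      · exfalso
        apply hm
        exact Prod.ext h1.1 (Fin.ext h1.2.2)
      · rw [if_neg h1, mul_zero]
    · intro h; exact absurd (Finset.mem_univ _) h
  · rw [if_neg hk]
    refine Finset.sum_eq_zero fun m _ => ?_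
    by_cases h1 : k.1 = i ∧ m.1 = i' ∧ k.2.val = m.2.val + s
    · by_cases h2 : m.1 = i' ∧ l.1 = i'' ∧ m.2.val = l.2.val + s'
      · exact absurd ⟨h1.1, h2.2.1, by omega⟩ hk
      · rw [if_neg h2, mul_zero]
    · rw [if_neg h1, zero_mul]

/-- the idempotent of the column `(i, b)`, zero outside of the window -/
def ee (i : Fin 2) (b : ℤ) : (WR π).Win :=
  ⟨Matrix.of fun k l : DefsQ830.Ob => if k = l ∧ k.1 = i ∧ ((k.2.val : ℕ) : ℤ) = b then 1 else 0,
    fun k l => by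
    show (if k = l ∧ k.1 = i ∧ ((k.2.val : ℕ) : ℤ) = b then 1 else 0) ∈ (WR π).E k l
    split_ifs with h
    · rw [h.1]
      exact q_le (w := WR π) _ _ 0 (q_one l)
    · exact Submodule.zero_mem ((WR π).E k l)⟩

theorem ee_ent (i : Fin 2) (b : ℤ) (k l : DefsQ830.Ob) :
    ent π (ee π i b) k l = if k = l ∧ k.1 = i ∧ ((k.2.val : ℕ) : ℤ) = b then 1 else 0 := rfl

theorem ee_G (i : Fin 2) (b : ℤ) : ee π i b ∈ (WR π).G 0 := by
  intro k l
  show (if k = l ∧ k.1 = i ∧ ((k.2.val : ℕ) : ℤ) = b then 1 else 0) ∈ (WR π).q k l 0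
  split_ifs with h
  · rw [h.1]
    exact q_one l
  · exact Submodule.zero_mem ((WR π).q k l 0)

theorem ee_mul (i : Fin 2) (b : ℤ) (a : (WR π).Win) (k l : DefsQ830.Ob) :
    ent π (ee π i b * a) k l = if k.1 = i ∧ ((k.2.val : ℕ) : ℤ) = b then ent π a k l else 0 := by
  rw [ent_mul]
  simp only [ee_ent]
  by_cases h : k.1 = i ∧ ((k.2.val : ℕ) : ℤ) = b
  · rw [if_pos h, Finset.sum_eq_single k]
    · rw [if_pos ⟨rfl, h⟩, one_mul]
    · intro m _ hm
      rw [if_neg (fun h1 => hm h1.1.symm), zero_mul]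
    · intro h; exact absurd (Finset.mem_univ _) h
  · rw [if_neg h]
    refine Finset.sum_eq_zero fun m _ => ?_
    rw [if_neg (fun h1 => h h1.2), zero_mul]

theorem mul_ee (i : Fin 2) (b : ℤ) (a : (WR π).Win) (k l : DefsQ830.Ob) :
    ent π (a * ee π i b) k l = if l.1 = i ∧ ((l.2.val : ℕ) : ℤ) = b then ent π a k l else 0 := by
  rw [ent_mul]
  simp only [ee_ent]
  by_cases h : l.1 = i ∧ ((l.2.val : ℕ) : ℤ) = b
  · rw [if_pos h, Finset.sum_eq_single l]
    · rw [if_pos ⟨rfl, h⟩, mul_one]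
    · intro m _ hm
      rw [if_neg (fun h1 => hm h1.1), mul_zero]
    · intro h; exact absurd (Finset.mem_univ _) h
  · rw [if_neg h]
    refine Finset.sum_eq_zero fun m _ => ?_
    rw [if_neg (fun h1 : m = l ∧ m.1 = i ∧ ((m.2.val : ℕ) : ℤ) = b =>
      h ⟨by rw [← h1.1]; exact h1.2.1, by rw [← h1.1]; exact h1.2.2⟩), mul_zero]

theorem ee_e (i : Fin 2) (b : Fin 4) : ee π i ((b.val : ℕ) : ℤ) = WD.e (w := WR π) (i, b) := by
  apply win_ext
  intro k l
  have h : ent π (WD.e (w := WR π) (i, b)) k l = if (i, b) = k ∧ (i, b) = l then 1 else 0 :=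
    ws_apply (w := WR π) (i, b) (i, b) 1 _ k l
  rw [ee_ent, h]
  congr 1
  apply propext
  constructor
  · rintro ⟨rfl, rfl, h2⟩
    have : k.2 = b := Fin.ext (by omega)
    subst this
    exact ⟨rfl, rfl⟩
  · rintro ⟨rfl, rfl⟩
    exact ⟨rfl, rfl, rfl⟩

end Crest.Agent.R186.KKh354
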