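import Crest.Agent.R186.QF_354
import Crest.Agent.R186.Zig_498

/-!
# Row 186, half (A), leaf KKz (helper354): `N ⊗ KK` is acyclic if the sixteen cells with values in the
homology of the columns of `N` form an exact complex
-/

set_option autoImplicit false
set_option linter.style.haveILetI false

noncomputable section

open MulOpposite

namespace Crest.Agent.R186.KKz354

open Hat827 Hat827.DGA Frame515 Zig498 Crest.Agent.R186.Win810 Crest.Agent.R186.Win810.WD
open Crest.Agent.R186.DefsQ830 Crest.Agent.R186.Cells221 Crest.Agent.R186.C2x354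
open Crest.Agent.R186.QF354
open Crest.Agent.R186.C2b44 (kill c0 c0_mc)

variable {K : Type} [Field K]

/-- the part of a complex fixed by an idempotent -/
def fixS (B : GC K) (p : B.X →ₗ[K] B.X) : Submodule K B.X where
  carrier := {x | p x = x}
  add_mem' hx hy := by
    simp only [Set.mem_ofPred_eq] at hx hy ⊢
    rw [map_add, hx, hy]
  zero_mem' := map_zero p
  smul_mem' r x hx := by
    simp only [Set.mem_ofPred_eq] at hx ⊢
    rw [map_smul, hx]

theorem mem_fixS {B : GC K} {p : B.X →ₗ[K] B.X} {x : B.X} : x ∈ fixS B p ↔ p x = x := Iff.rfl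

/-- the part of a complex fixed by an idempotent, as a complex -/
def fixG (B : GC K) (p : B.X →ₗ[K] B.X) (hd : ∀ x, p (B.d x) = B.d (p x)) : GC K where
  X := fixS B p
  gr k := (B.gr k).comap (fixS B p).subtype
  d := B.d.restrict fun x hx => by
    rw [mem_fixS] at hx ⊢
    rw [hd, hx]
  d_mem {k x} hx := B.d_mem (x := x.1) hx
  d_d x := Subtype.ext (B.d_d x.1)

/-- the inclusion of the fixed part -/
def vl (B : GC K) (p : B.X →ₗ[K] B.X) (hd : ∀ x, p (B.d x) = B.d (p x)) :
    (fixG B p hd).X →ₗ[K] B.X := (fixS B p).subtype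

theorem vl_inj {B : GC K} {p : B.X →ₗ[K] B.X} {hd : ∀ x, p (B.d x) = B.d (p x)}
    {x y : (fixG B p hd).X} (h : vl B p hd x = vl B p hd y) : x = y := Subtype.ext h

section ab

variable {A : DGA K} (G : RM A)

theorem ra_mul (a b : A.C) (x : G.X) : rmul G b (rmul G a x) = rmul G (a * b) x := by
  rw [rmul_apply, rmul_apply, rmul_apply, smul_smul, ← op_mul]

theorem ra_add (a b : A.C) (x : G.X) : rmul G (a + b) x = rmul G a x + rmul G b x := by
  simp only [rmul_apply, op_add, add_smul]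

theorem ra_zero : rmul G (0 : A.C) = 0 := by
  ext x
  rw [rmul_apply, op_zero, zero_smul]
  rfl

theorem ra_sum {κ : Type} (s : Finset κ) (a : κ → A.C) (x : G.X) :
    rmul G (∑ c ∈ s, a c) x = ∑ c ∈ s, rmul G (a c) x := by
  classical
  induction s using Finset.induction_on with
  | empty => rw [Finset.sum_empty, Finset.sum_empty, ra_zero]; rfl
  | insert c s hc ih => rw [Finset.sum_insert hc, Finset.sum_insert hc, ra_add, ih]

theorem ra_leib (a : A.C) (x : G.X) :
    G.d (rmul G a x) = rmul G (A.D a) x + rmul G a (G.d x) := by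
  rw [rmul_apply, G.leib]
  rfl

theorem g_self (x : G.X) : x + x = 0 := by
  have : x = op (1 : A.C) • x := by rw [op_one, one_smul]
  rw [this, ← add_smul, ← op_add, A.two, op_zero, zero_smul]

end ab

variable (π : Par K)

/-- exactness of the sixteen cells with values in the homology of degree `n` of the columns of `N`,
at level `r`, elementwise -/
def KEx (N : RM (WR π).dga) (r : ℕ) (n : ℤ) : Prop :=
  ∀ z : Cell → N.X,
    (∀ c, z c ∈ N.gr n ∧ rmul N (WD.e (w := WR π) (oc c)) (z c) = z c ∧ N.d (z c) = 0) →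
    (∀ c, cdeg c ≠ r → z c = 0) →
    (∀ c', cdeg c' + 1 = r → ∃ y ∈ N.gr (n + 1), rmul N (WD.e (w := WR π) (oc c')) y = y ∧
      ∑ c, rmul N (k0 π c c') (z c) = N.d y) →
    ∃ w y : Cell → N.X,
      (∀ c, w c ∈ N.gr n ∧ rmul N (WD.e (w := WR π) (oc c)) (w c) = w c ∧ N.d (w c) = 0) ∧
      (∀ c, cdeg c ≠ r + 1 → w c = 0) ∧
      (∀ c, y c ∈ N.gr (n + 1) ∧ rmul N (WD.e (w := WR π) (oc c)) (y c) = y c) ∧
      ∀ c, cdeg c = r → z c = ∑ c', rmul N (k0 π c' c) (w c') + N.d (y c)

variable {π} {N : RM (WR π).dga}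

theorem e_d (c : Cell) (x : N.X) : rmul N (WD.e (w := WR π) (oc c)) (N.d x) =
    N.d (rmul N (WD.e (w := WR π) (oc c)) x) := by
  have h := (twG N (XX π)).p_d (c, eo π) x
  exact h

theorem k0_e (c c' : Cell) : k0 π c c' * WD.e (w := WR π) (oc c') = k0 π c c' := by
  refine (col_iff _ _).2 fun i j h => ?_
  have h1 := k0_ent π c c' i j
  rw [if_neg (fun h0 => h h0.2)] at h1
  exact h1

theorem k0_right (c c' : Cell) (x : N.X) :
    rmul N (WD.e (w := WR π) (oc c')) (rmul N (k0 π c c') x) = rmul N (k0 π c c') x :=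
  (ra_mul N _ _ x).trans (congrArg (fun a => rmul N a x) (k0_e c c'))

theorem k0_mem (c c' : Cell) {k : ℤ} {x : N.X} (hx : x ∈ N.gr k) :
    rmul N (k0 π c c') x ∈ N.gr (k + (cdeg c - cdeg c' - 1)) := by
  have h := N.smul_mem (a := k0 π c c') (ws_mem_G (c0_q π c c')) hx
  rw [add_comm] at h
  exact h

theorem c0_zero {c c' : Cell} (h : cdeg c ≤ cdeg c') : c0 π c c' = 0 := by
  have h1 := (mem_q π (oc c) c' _ _).1 (c0_q π c c')
  rw [pcZ_neg π (by omega)] at h1
  exact (Submodule.mem_bot K).1 h1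

theorem k0_z {c c' : Cell} (h : cdeg c ≤ cdeg c') : k0 π c c' = 0 := by
  apply Subtype.ext
  ext i j
  have h1 := k0_ent π c c' i j
  rw [c0_zero h, ite_self] at h1
  exact h1

theorem k0_zero {c c' : Cell} (h : cdeg c ≤ cdeg c') : rmul N (k0 π c c') = 0 :=
  (congrArg (fun a => rmul N a) (k0_z h)).trans (ra_zero N)

theorem k0_mc (hJ : JZ π N) (c c' : Cell) (x : N.X) :
    N.d (rmul N (k0 π c c') x) + rmul N (k0 π c c') (N.d x) +
      ∑ c'', rmul N (k0 π c'' c') (rmul N (k0 π c c'') x) = 0 := by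
  have h := hJ ((WR π).DW (k0 π c c') + ∑ c'', k0 π c c'' * k0 π c'' c') (fun i j => by
    have e1 : ∀ c'', ent π (k0 π c c'' * k0 π c'' c') i j =
        if oc c = i ∧ oc c' = j then c0 π c c'' * c0 π c'' c' else 0 := fun c'' =>
      (congrArg (fun a => ent π a i j) (ws_mul (w := WR π) (q_le _ _ _ (c0_q π c c''))
        (q_le _ _ _ (c0_q π c'' c')))).trans (ws_apply (w := WR π) (oc c) (oc c')
          (c0 π c c'' * c0 π c'' c') (E_mul (q_le _ _ _ (c0_q π c c''))
        (q_le _ _ _ (c0_q π c'' c'))) i j)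
    have e2 : ent π ((WR π).DW (k0 π c c') + ∑ c'', k0 π c c'' * k0 π c'' c') i j =
        Der580.D π (ent π (k0 π c c') i j) + ∑ c'', ent π (k0 π c c'' * k0 π c'' c') i j := by
      have e3 := C2p354.GPre.sum_apply (w := WR π) Finset.univ
        (fun c'' => k0 π c c'' * k0 π c'' c') i j
      exact congrArg (fun z : R π => Der580.D π (ent π (k0 π c c') i j) + z) e3
    rw [e2, k0_ent]
    simp only [e1]
    split_ifs
    · exact c0_mc π c c'
    · simp) x
  have h1 : rmul N ((WR π).DW (k0 π c c') + ∑ c'', k0 π c c'' * k0 π c'' c') x =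
      rmul N ((WR π).DW (k0 π c c')) x + ∑ c'', rmul N (k0 π c'' c') (rmul N (k0 π c c'') x) :=
    (ra_add N _ _ x).trans (congrArg₂ (· + ·) rfl ((ra_sum N _ _ x).trans
      (Finset.sum_congr rfl fun c'' _ => (ra_mul N _ _ x).symm)))
  have h2 := ra_leib N (k0 π c c') x
  have h3 := g_self N (rmul N (k0 π c c') (N.d x))
  rw [h1] at h
  rw [h2, add_assoc (rmul N _ x), h3, add_zero]
  exact h

/-- the value complex of a cell -/
def UU (N : RM (WR π).dga) (c : Cell) : GC K :=
  fixG N.toGC (rmul N (WD.e (w := WR π) (oc c))) (e_d c)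

/-- the inclusion of the value complex -/
def uv (N : RM (WR π).dga) (c : Cell) : (UU N c).X →ₗ[K] N.X := vl N.toGC _ (e_d c)

/-- the maps between the value complexes -/
def cU (N : RM (WR π).dga) (l l' : Cell) : (UU N l').X →ₗ[K] (UU N l).X :=
  ((rmul N (k0 π l' l)).comp (uv N l')).codRestrict
    (fixS N.toGC (rmul N (WD.e (w := WR π) (oc l)))) fun x => k0_right l' l (uv N l' x)

theorem uv_cU (l l' : Cell) (x : (UU N l').X) :
    uv N l (cU N l l' x) = rmul N (k0 π l' l) (uv N l' x) := rfl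

theorem uv_d (l : Cell) (x : (UU N l).X) : uv N l ((UU N l).d x) = N.d (uv N l x) := rfl

/-- the zigzag family -/
def zf (hJ : JZ π N) : TF K where
  Cl := Cell
  s c := -(cdeg c : ℤ)
  U := UU N
  c := cU N
  c_zero l l' h := by
    have h1 := k0_zero (N := N) (c := l') (c' := l) (by omega)
    apply LinearMap.ext
    intro x
    apply vl_inj
    show rmul N (k0 π l' l) (uv N l' x) = 0
    rw [h1, LinearMap.zero_apply]
  c_mem l l' {k x} hx := by
    show rmul N (k0 π l' l) (uv N l' x) ∈ N.gr _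
    have h := k0_mem (N := N) l' l (x := uv N l' x) hx
    rwa [show k + -(cdeg l : ℤ) - -(cdeg l' : ℤ) - 1 = k + (cdeg l' - cdeg l - 1) by ring]
  mc l l' x := by
    apply vl_inj
    show uv N l ((UU N l).d (cU N l l' x) + cU N l l' ((UU N l').d x) +
      ∑ l'', cU N l l'' (cU N l'' l' x)) = 0
    rw [map_add, map_add, map_sum]
    exact k0_mc (N := N) hJ l' l (uv N l' x)

theorem zf_s (hJ : JZ π N) (c : Cell) : (zf hJ).s c = -(cdeg c : ℤ) := rfl

/-- the inclusion of the value space of a cell -/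
def vc (hJ : JZ π N) (l : Cell) : ((zf hJ).U l).X →ₗ[K] N.X := uv N l

theorem vc_e (hJ : JZ π N) (l : Cell) (x : ((zf hJ).U l).X) :
    rmul N (WD.e (w := WR π) (oc l)) (vc hJ l x) = vc hJ l x := x.2

theorem vc_inj (hJ : JZ π N) {l : Cell} {x y : ((zf hJ).U l).X} (h : vc hJ l x = vc hJ l y) :
    x = y := Subtype.ext h

theorem vc_d (hJ : JZ π N) (l : Cell) (x : ((zf hJ).U l).X) :
    vc hJ l (((zf hJ).U l).d x) = N.d (vc hJ l x) := rfl

theorem vc_mem (hJ : JZ π N) (l : Cell) (k : ℤ) (x : ((zf hJ).U l).X) :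
    x ∈ ((zf hJ).U l).gr k ↔ vc hJ l x ∈ N.gr k := Iff.rfl

theorem vc_c (hJ : JZ π N) (l l' : Cell) (x : ((zf hJ).U l').X) :
    vc hJ l ((zf hJ).c l l' x) = rmul N (k0 π l' l) (vc hJ l' x) := rfl

/-- an element of the value space -/
def mkv (hJ : JZ π N) (l : Cell) (x : N.X) (h : rmul N (WD.e (w := WR π) (oc l)) x = x) :
    ((zf hJ).U l).X := (⟨x, h⟩ : fixS N.toGC _)

theorem vc_mkv (hJ : JZ π N) (l : Cell) (x : N.X) (h : rmul N (WD.e (w := WR π) (oc l)) x = x) :
    vc hJ l (mkv hJ l x h) = x := rfl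

theorem zf_sum (hJ : JZ π N) (l : Cell) (u : ∀ l : Cell, ((zf hJ).U l).X) :
    vc hJ l (∑ l' : Cell, (zf hJ).c l l' (u l')) =
      ∑ l' : Cell, rmul N (k0 π l' l) (vc hJ l' (u l')) :=
  map_sum (vc hJ l) _ _

/-- **exactness on homology implies acyclicity of `N ⊗ KK`** -/
theorem KK0_of_KEx (hJ : JZ π N) (h : ∀ r n, KEx π N r n) : KK0 π N := by
  have hac : Ac (zf hJ).cx := by
    refine (zf hJ).ac_of_ex fun m n => ?_
    intro z hz hdz hz0 hb
    change ∀ l : Cell, ((zf hJ).U l).X at z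
    by_cases hm : 0 < m
    · have hz' : ∀ l : Cell, z l = 0 := by
        intro l
        refine hz0 l ?_
        show -(cdeg l : ℤ) ≠ m
        omega
      refine ⟨0, 0, fun l => ⟨Submodule.zero_mem _, map_zero _, fun _ => rfl⟩,
        fun l => ⟨Submodule.zero_mem _, fun _ => rfl⟩, fun l _ => ?_⟩
      rw [hz' l]
      simp
    obtain ⟨r, rfl⟩ : ∃ r : ℕ, m = -(r : ℤ) := ⟨(-m).toNat, by omega⟩
    obtain ⟨w, y, hw, hw0, hy, hzy⟩ := h r n (fun c => vc hJ c (z c))
      (fun c => ⟨hz c, vc_e hJ c (z c), congrArg Subtype.val (hdz c)⟩)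
      (fun c hc => by
        have h1 : z c = 0 := hz0 c (show -(cdeg c : ℤ) ≠ -(r : ℤ) by omega)
        show vc hJ c (z c) = 0
        rw [h1, map_zero])
      (fun c' hc' => by
        obtain ⟨y, hy, hyd⟩ := hb c' (show -(cdeg c' : ℤ) = -(r : ℤ) + 1 by omega)
        refine ⟨vc hJ c' y, hy, vc_e hJ c' y, ?_⟩
        exact (zf_sum hJ c' z).symm.trans (congrArg (vc hJ c') hyd))
    classical
    refine ⟨fun c : Cell => mkv hJ c (w c) (hw c).2.1,
      fun c : Cell => if cdeg c = r then mkv hJ c (y c) (hy c).2 else 0,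
      fun c => ⟨(hw c).1, ?_, ?_⟩, fun c => ⟨?_, ?_⟩, fun c hc => ?_⟩
    · exact vc_inj hJ (hw c).2.2
    · intro hc
      change -(cdeg c : ℤ) + 1 ≠ -(r : ℤ) at hc
      exact vc_inj hJ (hw0 c (by omega))
    · show (if cdeg c = r then mkv hJ c (y c) (hy c).2 else 0) ∈ _
      by_cases hc : cdeg c = r
      · rw [if_pos hc]; exact (hy c).1
      · rw [if_neg hc]; exact Submodule.zero_mem _
    · intro hc
      change -(cdeg c : ℤ) ≠ -(r : ℤ) at hc
      exact if_neg (by omega)
    · change -(cdeg c : ℤ) = -(r : ℤ) at hc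
      have hc' : cdeg c = r := by omega
      show z c = ∑ l' : Cell, (zf hJ).c c l' (mkv hJ l' (w l') (hw l').2.1) +
        ((zf hJ).U c).d (if cdeg c = r then mkv hJ c (y c) (hy c).2 else 0)
      rw [if_pos hc']
      apply vc_inj hJ
      rw [map_add, zf_sum hJ c (fun l' : Cell => mkv hJ l' (w l') (hw l').2.1)]
      exact hzy c hc'
  intro k x hx hd
  obtain ⟨v, hv, hdv⟩ := hac k (fun c : Cell => mkv hJ c (x c) (hx c).2)
    (fun c => (hx c).1)
    (by
      funext c
      apply vc_inj hJ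
      refine Eq.trans ?_ (hd c)
      refine congrArg (fun t => N.d (x c) + t) ?_
      exact zf_sum hJ c (fun c : Cell => mkv hJ c (x c) (hx c).2))
  change ∀ l : Cell, ((zf hJ).U l).X at v
  refine ⟨fun c => vc hJ c (v c), fun c => ⟨hv c, vc_e hJ c (v c)⟩, fun c => ?_⟩
  have h1 := congrArg (vc hJ c) (congrFun hdv c)
  refine h1.symm.trans ?_
  refine congrArg (fun t => N.d (vc hJ c (v c)) + t) ?_
  exact zf_sum hJ c v

end Crest.Agent.R186.KKz354
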