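import Crest.Agent.R186.B281P_128
import Crest.Agent.R186.FamX2_823

/-!
Row 186, S0281, leaf B281.F1 (helper823): (S') = `Fam.Sur` at both `K`-vertices for all five
families `TV hg s v`, for their powers and products.
-/

set_option autoImplicit false

namespace Crest.Agent.R186.FamX823

open Crest.Agent.R186.B281

variable {K : Type} [Field K] {g : K}

/-- (S') at both `K`-vertices -/
def Sur2 (F : Fam g) (s : ℤ) : Prop :=
  ∀ e : ℤ, 0 ≤ e → F.Sur (s + 1) s e ∧ F.Sur 2 0 e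

theorem Sur2.pi {F : Fam g} {s : ℤ} (h : Sur2 F s) (ι : Type) : Sur2 (pi F ι) s :=
  fun e he => ⟨sur_pi (h e he).1 ι, sur_pi (h e he).2 ι⟩

theorem Sur2.prod {F G : Fam g} {s : ℤ} (h : Sur2 F s) (h' : Sur2 G s) : Sur2 (prod F G) s :=
  fun e he => ⟨sur_prod (h e he).1 (h' e he).1, sur_prod (h e he).2 (h' e he).2⟩

theorem sur2_TO (hg : Gen g) (c s : ℤ) : Sur2 (TO hg c) s := fun e he =>
  ⟨sur_O (F := TO hg c) (LinearEquiv.refl (Op K) (Op K)) (c := c) he fun _ _ => Iff.rfl,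
    sur_O (F := TO hg c) (LinearEquiv.refl (Op K) (Op K)) (c := c) he fun _ _ => Iff.rfl⟩

theorem sur_TK (hg : Gen g) {c d j i e : ℤ} (he : 0 ≤ e) (hcd : c ≤ d) (hbc : c ≤ i ∨ d ≤ j) :
    (TK hg c d).Sur j i e :=
  sur_K (F := TK hg c d) hg (LinearEquiv.refl (Op K) (Fin 2 → Op K)) he hcd hbc
    (fun _ _ => Iff.rfl) fun _ _ => Iff.rfl

/-- **(S')** for the five families -/
theorem sur2_TV (hg : Gen g) {s : ℤ} (hs : s = 0 ∨ s = 1) (v : Fin 5) : Sur2 (TV hg s v) s := by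
  fin_cases v
  · exact sur2_TO hg _ s
  · exact sur2_TO hg _ s
  · exact sur2_TO hg _ s
  · exact fun e he => ⟨sur_TK hg he (by omega) (by omega), sur_TK hg he (by omega) (by omega)⟩
  · exact fun e he => ⟨sur_TK hg he (by omega) (by omega), sur_TK hg he (by omega) (by omega)⟩

/-- the `W` of a power of a vertex family, in terms of `P = {x | x * e_v = x}` -/
noncomputable def WTpi (hg : Gen g) (s : ℤ) (v : Fin 5) (P : Submodule (A g s) (A g s))
    (hP : ∀ x, x ∈ P ↔ x * eps g s v = x) (ι : Type) :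
    (pi (TV hg s v) ι).W s ≃ₗ[A g s] (ι → P) :=
  (piW (TV hg s v) ι s).trans (LinearEquiv.piCongrRight fun _ => WT hg s v P hP)

theorem WTpi_apply (hg : Gen g) (s : ℤ) (v : Fin 5) (P : Submodule (A g s) (A g s))
    (hP : ∀ x, x ∈ P ↔ x * eps g s v = x) (ι : Type) (p : (pi (TV hg s v) ι).W s) (i : ι) :
    WTpi hg s v P hP ι p i = WT hg s v P hP (piW (TV hg s v) ι s p i) := rfl

end Crest.Agent.R186.FamX823
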