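import Crest.Agent.R186.KR_355
import Crest.Agent.R186.B281R_128
import Crest.Agent.R186.SurV_823

/-!
Row 186, S0281, base, leaf B281.K0 (helper355): the resolutions `K(n)` of `E g s n`, `s = 0, 1`,
as `NullChain538.MRes`, in the `W` form and in the `Pv` form, from the levelwise exactness
`KE0`, `KE1` of the maps of `KN`.
-/

set_option autoImplicit false
set_option linter.unusedSectionVars false
set_option linter.unusedVariables false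

noncomputable section

namespace Crest.Agent.R186.B281.KM

open KN KR FamX823

variable {K : Type} [Field K] {g : K}

/-- the levelwise facts, `s = 0` -/
structure KE0 (g : K) (n : ℕ) : Prop where
  z0 : ∀ v, EP K n (D1 g n v) = 0
  z1 : ∀ p, D1 g n (D2 g n p) = 0
  z2 : ∀ u, D2 g n (D3 g n u) = 0
  x0 : ∀ {k P : ℤ}, 0 ≤ P → ∀ u : Fin (n + 1) → Op K, (∀ j, u j ∈ Fil g k P) → EP K n u = 0 →
    ∃ v : Fin 2 → Fin (n + 1) → Fin 2 → Op K, (∀ e j, RK g 0 1 k P (v e j)) ∧ D1 g n v = u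
  x1 : ∀ {k P : ℤ}, 0 ≤ P → ∀ v : Fin 2 → Fin (n + 1) → Fin 2 → Op K,
    (∀ e j, RK g 0 1 k P (v e j)) → D1 g n v = 0 →
    ∃ p : (Fin (n + 2) → Fin 2 → Op K) × (Fin 2 → Fin n → Op K),
      (∀ j, RK g 0 2 k P (p.1 j)) ∧ (∀ e j, p.2 e j ∈ Fil g (k - 1) P) ∧ D2 g n p = v
  x2 : ∀ {k P : ℤ}, 0 ≤ P → ∀ p : (Fin (n + 2) → Fin 2 → Op K) × (Fin 2 → Fin n → Op K),
    (∀ j, RK g 0 2 k P (p.1 j)) → (∀ e j, p.2 e j ∈ Fil g (k - 1) P) → D2 g n p = 0 →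
    ∃ u : Fin (n + 1) → Op K, (∀ j, u j ∈ Fil g (k - 2) P) ∧ D3 g n u = p
  x3 : ∀ {k P : ℤ}, 0 ≤ P → ∀ u : Fin (n + 1) → Op K, (∀ j, u j ∈ Fil g (k - 2) P) →
    D3 g n u = 0 → u = 0

/-- the levelwise facts, `s = 1` -/
structure KE1 (g : K) (n : ℕ) : Prop where
  z0 : ∀ p, EP K n (E1 g n p) = 0
  z1 : ∀ v, E1 g n (E2 g n v) = 0
  z2 : ∀ u, E2 g n (E3 g n u) = 0
  x0 : ∀ {k P : ℤ}, 0 ≤ P → ∀ u : Fin (n + 1) → Op K, (∀ j, u j ∈ Fil g k P) → EP K n u = 0 →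
    ∃ p : (Fin n → Fin 2 → Op K) × (Fin 2 → Fin (n + 2) → Op K),
      (∀ j, RK g 0 2 k P (p.1 j)) ∧ (∀ e j, p.2 e j ∈ Fil g (k - 1) P) ∧ E1 g n p = u
  x1 : ∀ {k P : ℤ}, 0 ≤ P → ∀ p : (Fin n → Fin 2 → Op K) × (Fin 2 → Fin (n + 2) → Op K),
    (∀ j, RK g 0 2 k P (p.1 j)) → (∀ e j, p.2 e j ∈ Fil g (k - 1) P) → E1 g n p = 0 →
    ∃ v : Fin 2 → Fin (n + 1) → Fin 2 → Op K, (∀ e j, RK g 1 2 k P (v e j)) ∧ E2 g n v = p
  x2 : ∀ {k P : ℤ}, 0 ≤ P → ∀ v : Fin 2 → Fin (n + 1) → Fin 2 → Op K,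
    (∀ e j, RK g 1 2 k P (v e j)) → E2 g n v = 0 →
    ∃ u : Fin (n + 1) → Op K, (∀ j, u j ∈ Fil g (k - 2) P) ∧ E3 g n u = v
  x3 : ∀ {k P : ℤ}, 0 ≤ P → ∀ u : Fin (n + 1) → Op K, (∀ j, u j ∈ Fil g (k - 2) P) →
    E3 g n u = 0 → u = 0

/-! ### the resolutions of families -/

theorem lev_P {s k P : ℤ} (hs : 0 ≤ s) (h : Lev s k P) : 0 ≤ P := by
  have := (h.nonneg hs).2
  omega

/-- **the resolution of families, `s = 0`** -/
def fres0 (hg : Gen g) {n : ℕ} (h : KE0 g n) :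
    FRes 0 (Vf g n) (G0 hg n) (G1 hg n) (G2 hg n) (G3 hg n) where
  ε := ge hg n
  φ1 := g1 hg n
  φ2 := g2 hg n
  φ3 := g3 hg n
  z0 := h.z0
  z1 := h.z1
  z2 := h.z2
  sur k P hl := surAt_Vf _ (hl.nonneg le_rfl).1 fun f hf => by
    obtain ⟨u, hu, e⟩ := EP_surj (g := g) (hl.nonneg le_rfl).1 (lev_P le_rfl hl) hf
    exact ⟨u, (mem_G0 hg n u).2 hu, e⟩
  x0 k P hl u hu hz := by
    obtain ⟨v, hv, e⟩ := h.x0 (lev_P le_rfl hl) u ((mem_G0 hg n u).1 hu) hz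
    exact ⟨v, (mem_G1 hg n v).2 hv, e⟩
  x1 k P hl v hv hz := by
    obtain ⟨p, h1, h2, e⟩ := h.x1 (lev_P le_rfl hl) v ((mem_G1 hg n v).1 hv) hz
    exact ⟨p, (mem_G2 hg n p).2 ⟨h1, h2⟩, e⟩
  x2 k P hl p hp hz := by
    obtain ⟨h1, h2⟩ := (mem_G2 hg n p).1 hp
    obtain ⟨u, hu, e⟩ := h.x2 (lev_P le_rfl hl) p h1 h2 hz
    exact ⟨u, (mem_G3 hg n u).2 hu, e⟩
  x3 k P hl u hu hz := h.x3 (lev_P le_rfl hl) u ((mem_G3 hg n u).1 hu) hz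
  S1 e he := ((sur2_TV hg (Or.inl rfl) 3).pi _).pi _ e (by omega)
  S2 e he := (((sur2_TV hg (Or.inl rfl) 4).pi _).prod (((sur2_TV hg (Or.inl rfl) 1).pi _).pi _)) e
    (by omega)
  S3 e he := ((sur2_TV hg (Or.inl rfl) 2).pi _) e (by omega)

/-- **the resolution of families, `s = 1`** -/
def fres1 (hg : Gen g) {n : ℕ} (h : KE1 g n) :
    FRes 1 (Vf g n) (H0 hg n) (H1 hg n) (H2 hg n) (H3 hg n) where
  ε := he hg n
  φ1 := h1 hg n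
  φ2 := h2 hg n
  φ3 := h3 hg n
  z0 := h.z0
  z1 := h.z1
  z2 := h.z2
  sur k P hl := surAt_Vf _ (hl.nonneg zero_le_one).1 fun f hf => by
    obtain ⟨u, hu, e⟩ := EP_surj (g := g) (hl.nonneg zero_le_one).1 (lev_P zero_le_one hl) hf
    exact ⟨u, (mem_H0 hg n u).2 hu, e⟩
  x0 k P hl u hu hz := by
    obtain ⟨p, h1, h2, e⟩ := h.x0 (lev_P zero_le_one hl) u ((mem_H0 hg n u).1 hu) hz
    exact ⟨p, (mem_H1 hg n p).2 ⟨h1, h2⟩, e⟩
  x1 k P hl p hp hz := by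
    obtain ⟨h1, h2⟩ := (mem_H1 hg n p).1 hp
    obtain ⟨v, hv, e⟩ := h.x1 (lev_P zero_le_one hl) p h1 h2 hz
    exact ⟨v, (mem_H2 hg n v).2 hv, e⟩
  x2 k P hl v hv hz := by
    obtain ⟨u, hu, e⟩ := h.x2 (lev_P zero_le_one hl) v ((mem_H2 hg n v).1 hv) hz
    exact ⟨u, (mem_H3 hg n u).2 hu, e⟩
  x3 k P hl u hu hz := h.x3 (lev_P zero_le_one hl) u ((mem_H3 hg n u).1 hu) hz
  S1 e he := (((sur2_TV hg (Or.inr rfl) 4).pi _).prod (((sur2_TV hg (Or.inr rfl) 1).pi _).pi _)) e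
    (by omega)
  S2 e he := ((sur2_TV hg (Or.inr rfl) 3).pi _).pi _ e (by omega)
  S3 e he := ((sur2_TV hg (Or.inr rfl) 2).pi _) e (by omega)

/-! ### the equivalences of the terms with powers of the `Pv` -/

section kap
variable (hg : Gen g) (s : ℤ)

/-- `W (TV v ^ m) ≃ Pv v ^ m` -/
def k1 (v : Fin 5) (m : ℕ) : (pi (TV hg s v) (Fin m)).W s ≃ₗ[A g s] (Fin m → Pv g s v) :=
  (piW (TV hg s v) (Fin m) s).trans (LinearEquiv.piCongrRight fun _ => WPv hg s v)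

/-- `W ((TV v ^ m) ^ 2) ≃ (Pv v ^ m) ^ 2` -/
def k2 (v : Fin 5) (m : ℕ) : (pi (pi (TV hg s v) (Fin m)) (Fin 2)).W s ≃ₗ[A g s]
    (Fin 2 → Fin m → Pv g s v) :=
  (piW (pi (TV hg s v) (Fin m)) (Fin 2) s).trans (LinearEquiv.piCongrRight fun _ => k1 hg s v m)

/-- the mixed term -/
def kp (v w : Fin 5) (m m' : ℕ) :
    (prod (pi (TV hg s v) (Fin m)) (pi (pi (TV hg s w) (Fin m')) (Fin 2))).W s ≃ₗ[A g s]
    ((Fin m → Pv g s v) × (Fin 2 → Fin m' → Pv g s w)) :=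
  (prodW _ _ s).trans ((k1 hg s v m).prodCongr (k2 hg s w m'))

instance proj_k1 (v : Fin 5) (m : ℕ) :
    Module.Projective (A g s) ((pi (TV hg s v) (Fin m)).W s) :=
  Module.Projective.of_equiv (k1 hg s v m).symm

instance proj_k2 (v : Fin 5) (m : ℕ) :
    Module.Projective (A g s) ((pi (pi (TV hg s v) (Fin m)) (Fin 2)).W s) :=
  Module.Projective.of_equiv (k2 hg s v m).symm

instance proj_kp (v w : Fin 5) (m m' : ℕ) : Module.Projective (A g s)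
    ((prod (pi (TV hg s v) (Fin m)) (pi (pi (TV hg s w) (Fin m')) (Fin 2))).W s) :=
  Module.Projective.of_equiv (kp hg s v w m m').symm

end kap

instance projG0 (hg : Gen g) (n : ℕ) : Module.Projective (A g 0) ((G0 hg n).W 0) :=
  proj_k1 hg 0 0 (n + 1)
instance projG1 (hg : Gen g) (n : ℕ) : Module.Projective (A g 0) ((G1 hg n).W 0) :=
  proj_k2 hg 0 3 (n + 1)
instance projG2 (hg : Gen g) (n : ℕ) : Module.Projective (A g 0) ((G2 hg n).W 0) :=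
  proj_kp hg 0 4 1 (n + 2) n
instance projG3 (hg : Gen g) (n : ℕ) : Module.Projective (A g 0) ((G3 hg n).W 0) :=
  proj_k1 hg 0 2 (n + 1)
instance projH0 (hg : Gen g) (n : ℕ) : Module.Projective (A g 1) ((H0 hg n).W 1) :=
  proj_k1 hg 1 0 (n + 1)
instance projH1 (hg : Gen g) (n : ℕ) : Module.Projective (A g 1) ((H1 hg n).W 1) :=
  proj_kp hg 1 4 1 n (n + 2)
instance projH2 (hg : Gen g) (n : ℕ) : Module.Projective (A g 1) ((H2 hg n).W 1) :=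
  proj_k2 hg 1 3 (n + 1)
instance projH3 (hg : Gen g) (n : ℕ) : Module.Projective (A g 1) ((H3 hg n).W 1) :=
  proj_k1 hg 1 2 (n + 1)

/-! ### the resolutions, `W` form -/

/-- **`K(n) → E g 0 n`, `W` form** : `K_i = (G_i).W 0`, `d_i = g_i.W 0`, `e = toE` -/
def mresW0 (hg : Gen g) {n : ℕ} (h : KE0 g n) : NullChain538.MRes (A g 0) (E g 0 n) where
  K0 := (G0 hg n).W 0
  K1 := (G1 hg n).W 0
  K2 := (G2 hg n).W 0
  K3 := (G3 hg n).W 0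
  e := toE hg le_rfl (ge hg n)
  d1 := (g1 hg n).W 0
  d2 := (g2 hg n).W 0
  d3 := (g3 hg n).W 0
  surj := toE_surj hg le_rfl _ ((fres0 hg h).surj hg)
  ex0 := toE_exact hg le_rfl _ _ ((fres0 hg h).ex0 hg)
  ex1 := (fres0 hg h).ex1 hg
  ex2 := (fres0 hg h).ex2 hg
  inj := (fres0 hg h).inj hg
  p0 := projG0 hg n
  p1 := projG1 hg n
  p2 := projG2 hg n
  p3 := projG3 hg n

/-- **`K(n) → E g 1 n`, `W` form** -/
def mresW1 (hg : Gen g) {n : ℕ} (h : KE1 g n) : NullChain538.MRes (A g 1) (E g 1 n) where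
  K0 := (H0 hg n).W 1
  K1 := (H1 hg n).W 1
  K2 := (H2 hg n).W 1
  K3 := (H3 hg n).W 1
  e := toE hg zero_le_one (he hg n)
  d1 := (h1 hg n).W 1
  d2 := (h2 hg n).W 1
  d3 := (h3 hg n).W 1
  surj := toE_surj hg zero_le_one _ ((fres1 hg h).surj hg)
  ex0 := toE_exact hg zero_le_one _ _ ((fres1 hg h).ex0 hg)
  ex1 := (fres1 hg h).ex1 hg
  ex2 := (fres1 hg h).ex2 hg
  inj := (fres1 hg h).inj hg
  p0 := projH0 hg n
  p1 := projH1 hg n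
  p2 := projH2 hg n
  p3 := projH3 hg n

end Crest.Agent.R186.B281.KM
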