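import Crest.Agent.R186.PBWr_128

/-!
Row 186, half (A), leaf KOS (helper296): the RIGHT normal form of `R''`,
`R'' = ⊕ h^k w q x_0^i x_1^j`, and the Koszul facts for right multiplication by `x_0`, `x_1`
in every homogeneous piece (`K0`, `K1`, `K2`).
-/

set_option autoImplicit false

noncomputable section

namespace Crest.Agent.R186.KOS296

open Crest.Agent.R186.DefsQ830 Crest.Agent.R186.PBW128

variable {K : Type} [Field K]

/-- right normal element -/
def nr (π : Par K) (ν : Ix) : R π :=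
  X π .h ^ ν.2.2.1 * we π ν.2.2.2.1 * wq π ν.2.2.2.2 * X π (.x 0) ^ ν.1 * X π (.x 1) ^ ν.2.1

/-- the map in right normal form -/
def Th (π : Par K) : N K →ₗ[K] R π := Finsupp.linearCombination K (nr π)

@[simp] theorem Th_bv (π : Par K) (i j k : ℕ) (w : List E) (q : Wb) :
    Th π (bv K i j k w q) = nr π (i, j, k, w, q) := by
  simp [Th, bv]

/-- the image -/
def Im (π : Par K) : Submodule K (R π) := Submodule.span K (Set.range (nr π))

theorem nr_mem (π : Par K) (ν : Ix) : nr π ν ∈ Im π := Submodule.subset_span ⟨ν, rfl⟩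

theorem Im_ind (π : Par K) (a : R π) (h : ∀ i j k w q, a * nr π (i, j, k, w, q) ∈ Im π)
    {r : R π} (hr : r ∈ Im π) : a * r ∈ Im π := by
  have : Im π ≤ (Im π).comap (LinearMap.mulLeft K a) := by
    rw [Im, Submodule.span_le]
    rintro _ ⟨⟨i, j, k, w, q⟩, rfl⟩
    exact h i j k w q
  exact this hr

theorem h_Im (π : Par K) {r : R π} (hr : r ∈ Im π) : X π .h * r ∈ Im π := by
  refine Im_ind π _ (fun i j k w q => ?_) hr
  have e : X π .h * nr π (i, j, k, w, q) = nr π (i, j, k + 1, w, q) := by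
    simp only [nr, pow_succ', mul_assoc]
  rw [e]; exact nr_mem π _

theorem hk_Im (π : Par K) (k : ℕ) {r : R π} (hr : r ∈ Im π) : X π .h ^ k * r ∈ Im π := by
  induction k with
  | zero => simpa using hr
  | succ k ih => rw [pow_succ', mul_assoc]; exact h_Im π ih

theorem E_Im (π : Par K) (l : E) {r : R π} (hr : r ∈ Im π) : X π l.toGen * r ∈ Im π := by
  refine Im_ind π _ (fun i j k w q => ?_) hr
  have e : X π l.toGen * nr π (i, j, k, w, q) = nr π (i, j, k, l :: w, q) := by
    simp only [nr, we_cons, ← mul_assoc]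
    rw [((comm_h π l.toGen).pow_left k).eq]
  rw [e]; exact nr_mem π _

theorem Y_Im (π : Par K) (a : Y) {r : R π} (hr : r ∈ Im π) : X π a.toGen * r ∈ Im π := by
  refine Im_ind π _ (fun i j k w q => ?_) hr
  have e : X π a.toGen * nr π (i, j, k, w, q)
      = ((w.map (chi π a)).prod * wk π a q) • nr π (i, j, k, w, wt a q) := by
    simp only [nr]
    simp only [← mul_assoc]
    rw [← ((comm_h π a.toGen).pow_left k).eq, mul_assoc (X π .h ^ k), Ywe, mul_smul_comm,
      smul_mul_assoc, smul_mul_assoc, smul_mul_assoc, ← mul_assoc, mul_assoc (X π .h ^ k * we π w),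
      rW, mul_smul_comm, smul_mul_assoc, smul_mul_assoc, smul_smul]
  rw [e]; exact Submodule.smul_mem _ _ (nr_mem π _)

theorem al_ne (π : Par K) (l : E) : al π l ≠ 0 := by
  have hg := π.g0
  cases l <;> simp only [al] <;> (try split_ifs) <;> simp [Par.c, hg]

theorem be_ne (π : Par K) (l : E) : be π l ≠ 0 := by
  have hg := π.g0
  cases l <;> simp only [be] <;> (try split_ifs) <;> simp [Par.c, hg]

theorem c_ne (π : Par K) (i : Fin 2) : π.c i ≠ 0 := by
  have hg := π.g0
  rcases fin2 i with rfl | rfl <;> simp [Par.c, hg]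

theorem lE0 (π : Par K) (l : E) : X π (.x 0) * X π l.toGen =
    (al π l)⁻¹ • (X π l.toGen * X π (.x 0) - th π l • X π .h) := by
  rw [rE0, add_sub_cancel_right, smul_smul, inv_mul_cancel₀ (al_ne π l), one_smul]

theorem lE1 (π : Par K) (l : E) : X π (.x 1) * X π l.toGen =
    (be π l)⁻¹ • (X π l.toGen * X π (.x 1) - ga π l • (X π (.x 0) * X π (mt l).toGen)
      - et π l • X π .h) := by
  rw [rE1]
  rw [show ∀ a b c : R π, a + b + c - b - c = a by intros; abel, smul_smul,
    inv_mul_cancel₀ (be_ne π l), one_smul]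

theorem xY (π : Par K) (a : Y) (i : Fin 2) :
    X π (.x i) * X π a.toGen = π.c i • (X π a.toGen * X π (.x i)) := by
  rw [rY, smul_smul, mul_inv_cancel₀ (c_ne π i), one_smul]

/-- scalar for moving `x_i` past a basis element of `W` -/
def cw (π : Par K) (i : Fin 2) : Wb → K
  | .one => 1
  | .y _ => π.c i
  | .yb _ => π.c i
  | .pi => π.c i * π.c i

theorem x_wq (π : Par K) (i : Fin 2) (q : Wb) :
    X π (.x i) * wq π q = cw π i q • (wq π q * X π (.x i)) := by
  cases q with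
  | one => simp [wq_one, cw]
  | y s => rw [wq_y]; exact xY π (.y s) i
  | yb s => rw [wq_yb]; exact xY π (.yb s) i
  | pi =>
    rw [wq_pi, ← mul_assoc]
    have h0 : X π (.x i) * X π (.y 0) = π.c i • (X π (.y 0) * X π (.x i)) := xY π (.y 0) i
    have h1 : X π (.x i) * X π (.y 1) = π.c i • (X π (.y 1) * X π (.x i)) := xY π (.y 1) i
    rw [h0, smul_mul_assoc, mul_assoc, h1, mul_smul_comm, smul_smul, ← mul_assoc]
    rfl

/-- `x_c` times a monomial `x_0^i x_1^j` -/
theorem x_mon (π : Par K) (c : Fin 2) (i j : ℕ) : ∃ i' j',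
    X π (.x c) * (X π (.x 0) ^ i * X π (.x 1) ^ j) = X π (.x 0) ^ i' * X π (.x 1) ^ j' := by
  rcases fin2 c with rfl | rfl
  · exact ⟨i + 1, j, by rw [pow_succ', mul_assoc]⟩
  · refine ⟨i, j + 1, ?_⟩
    rw [← mul_assoc, ← ((comm_xx π).pow_left i).eq, mul_assoc, pow_succ']

theorem x0w (π : Par K) (w : List E) (q : Wb) (i j : ℕ) :
    X π (.x 0) * (we π w * (wq π q * (X π (.x 0) ^ i * X π (.x 1) ^ j))) ∈ Im π := by
  induction w with
  | nil =>
    obtain ⟨i', j', e⟩ := x_mon π 0 i j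
    rw [we_nil, one_mul, ← mul_assoc, x_wq, smul_mul_assoc, mul_assoc, e]
    refine Submodule.smul_mem _ _ ?_
    have := nr_mem π (i', j', 0, [], q)
    simpa only [nr, pow_zero, one_mul, we_nil, mul_assoc] using this
  | cons l w ih =>
    have hw : we π w * (wq π q * (X π (.x 0) ^ i * X π (.x 1) ^ j)) ∈ Im π := by
      have := nr_mem π (i, j, 0, w, q)
      simpa only [nr, pow_zero, one_mul, mul_assoc] using this
    rw [we_cons, mul_assoc, ← mul_assoc (X π (.x 0)), lE0, smul_mul_assoc, sub_mul, smul_mul_assoc,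
      mul_assoc]
    refine Submodule.smul_mem _ _ (Submodule.sub_mem _ (E_Im π l ih) (Submodule.smul_mem _ _ ?_))
    exact h_Im π hw

theorem x1w (π : Par K) (w : List E) (q : Wb) (i j : ℕ) :
    X π (.x 1) * (we π w * (wq π q * (X π (.x 0) ^ i * X π (.x 1) ^ j))) ∈ Im π := by
  induction w with
  | nil =>
    obtain ⟨i', j', e⟩ := x_mon π 1 i j
    rw [we_nil, one_mul, ← mul_assoc, x_wq, smul_mul_assoc, mul_assoc, e]
    refine Submodule.smul_mem _ _ ?_
    have := nr_mem π (i', j', 0, [], q)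
    simpa only [nr, pow_zero, one_mul, we_nil, mul_assoc] using this
  | cons l w ih =>
    have hw : we π w * (wq π q * (X π (.x 0) ^ i * X π (.x 1) ^ j)) ∈ Im π := by
      have := nr_mem π (i, j, 0, w, q)
      simpa only [nr, pow_zero, one_mul, mul_assoc] using this
    have hm := x0w π (mt l :: w) q i j
    rw [we_cons, mul_assoc, ← mul_assoc (X π (.x 0))] at hm
    rw [we_cons, mul_assoc, ← mul_assoc (X π (.x 1)), lE1, smul_mul_assoc, sub_mul, sub_mul,
      smul_mul_assoc, smul_mul_assoc, mul_assoc (X π l.toGen)]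
    refine Submodule.smul_mem _ _ (Submodule.sub_mem _ (Submodule.sub_mem _ (E_Im π l ih)
      (Submodule.smul_mem _ _ hm)) (Submodule.smul_mem _ _ ?_))
    exact h_Im π hw

theorem x_Im (π : Par K) (c : Fin 2) {r : R π} (hr : r ∈ Im π) : X π (.x c) * r ∈ Im π := by
  refine Im_ind π _ (fun i j k w q => ?_) hr
  have e : X π (.x c) * nr π (i, j, k, w, q) =
      X π .h ^ k * (X π (.x c) * (we π w * (wq π q * (X π (.x 0) ^ i * X π (.x 1) ^ j)))) := by
    simp only [nr, mul_assoc]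
    rw [← mul_assoc, ← ((comm_h π (.x c)).pow_left k).eq, mul_assoc]
  rw [e]
  refine hk_Im π k ?_
  rcases fin2 c with rfl | rfl
  · exact x0w π w q i j
  · exact x1w π w q i j

theorem X_Im (π : Par K) (a : Gen) {r : R π} (hr : r ∈ Im π) : X π a * r ∈ Im π := by
  cases a with
  | x i => exact x_Im π i hr
  | h => exact h_Im π hr
  | d j => exact E_Im π (.d j) hr
  | f => exact E_Im π .f hr
  | z j => exact E_Im π (.z j) hr
  | zc => exact E_Im π .zc hr
  | u s => exact E_Im π (.u s) hr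
  | e j => exact E_Im π (.e j) hr
  | gj j => exact E_Im π (.gj j) hr
  | gc => exact E_Im π .gc hr
  | v s => exact E_Im π (.v s) hr
  | y s => exact Y_Im π (.y s) hr
  | yb s => exact Y_Im π (.yb s) hr

theorem one_Im (π : Par K) : (1 : R π) ∈ Im π := by
  have := nr_mem π (0, 0, 0, [], .one)
  simpa [nr, we_nil, wq_one] using this

theorem mul_Im (π : Par K) (a : R π) : ∀ r ∈ Im π, a * r ∈ Im π := by
  refine R_ind π (P := fun a => ∀ r ∈ Im π, a * r ∈ Im π) ?_ ?_ ?_ ?_ a
  · intro c r hr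
    rw [← Algebra.smul_def]
    exact Submodule.smul_mem _ _ hr
  · intro a r hr
    exact X_Im π a hr
  · intro a b ha hb r hr
    rw [mul_assoc]
    exact ha _ (hb _ hr)
  · intro a b ha hb r hr
    rw [add_mul]
    exact Submodule.add_mem _ (ha _ hr) (hb _ hr)

theorem Th_surj (π : Par K) (r : R π) : ∃ n, Th π n = r := by
  have h : r ∈ Im π := by
    have := mul_Im π r 1 (one_Im π)
    rwa [mul_one] at this
  rw [Im, ← Finsupp.range_linearCombination] at h
  exact h

/-! ### gradings -/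

/-- the right normal word -/
def rw' (ν : Ix) : List Gen :=
  List.replicate ν.2.2.1 .h ++ ν.2.2.2.1.map E.toGen ++ ν.2.2.2.2.word ++
    List.replicate ν.1 (.x 0) ++ List.replicate ν.2.1 (.x 1)

theorem wd_rw (π : Par K) (ν : Ix) : wd π (rw' ν) = nr π ν := by
  simp only [rw', wd_append, wd_replicate, nr, we, wq]

theorem wP_rw (ν : Ix) : wP (rw' ν) = dPx ν := by
  simp only [rw', wP_append, wP_word, dPx]
  simp [wP, Gen.dP, List.sum_replicate, Function.comp_def]
  ring

theorem wA_rw (ν : Ix) : wA (rw' ν) = dAx ν := by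
  simp only [rw', wA_append, wA_word, dAx]
  simp [wA, Gen.dA, List.sum_replicate, Function.comp_def]

theorem wC_rw (ν : Ix) : wC (rw' ν) = dCx ν := by
  simp only [rw', wC_append, dCx]
  simp [wC, Gen.dC, List.sum_replicate, Function.comp_def]

theorem nr_mem_pc (π : Par K) (ν : Ix) : nr π ν ∈ pc π (dPx ν) (dAx ν) (dCx ν) :=
  Submodule.subset_span ⟨rw' ν, wP_rw ν, wA_rw ν, wC_rw ν, (wd_rw π ν).symm⟩

/-- the change of normal form, in coordinates -/
def T (π : Par K) : N K →ₗ[K] N K := ev π ∘ₗ Th π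

theorem T_NS (π : Par K) {P : ℤ} {A C : ℕ} {n : N K} (hn : n ∈ NS K P A C) : T π n ∈ NS K P A C := by
  refine map_NS ?_ hn
  intro i j k w q h1 h2 h3
  show ev π (Th π _) ∈ _
  rw [Th_bv, ← mem_pc_iff, ← h1, ← h2, ← h3]
  exact nr_mem_pc π _

theorem T_surj (π : Par K) : Function.Surjective (T π) := by
  intro n
  obtain ⟨m, hm⟩ := Th_surj π (Psi π n)
  refine ⟨m, ?_⟩
  show ev π (Th π m) = n
  rw [hm, ev_Psi]

open Classical in
/-- projection to a homogeneous component -/
def pr (K : Type) [Field K] (P : ℤ) (A C : ℕ) : N K →ₗ[K] N K :=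
  (NS K P A C).subtype ∘ₗ Finsupp.restrictDom K K {ν | dPx ν = P ∧ dAx ν = A ∧ dCx ν = C}

theorem pr_mem {P : ℤ} {A C : ℕ} (n : N K) : pr K P A C n ∈ NS K P A C :=
  (Finsupp.restrictDom K K {ν | dPx ν = P ∧ dAx ν = A ∧ dCx ν = C} n).2

open Classical in
theorem pr_apply {P : ℤ} {A C : ℕ} (n : N K) (ν : Ix) :
    pr K P A C n ν = if dPx ν = P ∧ dAx ν = A ∧ dCx ν = C then n ν else 0 := by
  show (Finsupp.restrictDom K K {ν | dPx ν = P ∧ dAx ν = A ∧ dCx ν = C} n : N K) ν = _
  rw [Finsupp.restrictDom_apply, Finsupp.filter_apply]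
  rfl

theorem pr_self {P : ℤ} {A C : ℕ} {n : N K} (hn : n ∈ NS K P A C) : pr K P A C n = n := by
  classical
  ext ν
  rw [pr_apply]
  split_ifs with h
  · rfl
  · by_contra h2
    exact h (mem_NS_iff.mp hn ν (Ne.symm h2))

theorem pr_other {P P' : ℤ} {A C A' C' : ℕ} {n : N K} (hn : n ∈ NS K P' A' C')
    (h : ¬ (P' = P ∧ A' = A ∧ C' = C)) : pr K P A C n = 0 := by
  classical
  ext ν
  rw [pr_apply]
  split_ifs with h1
  · by_contra h2
    obtain ⟨e1, e2, e3⟩ := mem_NS_iff.mp hn ν h2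
    exact h ⟨e1.symm.trans h1.1, e2.symm.trans h1.2.1, e3.symm.trans h1.2.2⟩
  · rfl

theorem T_pr (π : Par K) {P : ℤ} {A C : ℕ} (n : N K) : T π (pr K P A C n) = pr K P A C (T π n) := by
  have : T π ∘ₗ pr K P A C = pr K P A C ∘ₗ T π := by
    apply ext_bv
    intro i j k w q
    rw [LinearMap.comp_apply, LinearMap.comp_apply]
    have hb : bv K i j k w q ∈ NS K (dPx (i, j, k, w, q)) (dAx (i, j, k, w, q))
        (dCx (i, j, k, w, q)) := bv_mem_NS rfl rfl rfl
    by_cases h : dPx (i, j, k, w, q) = P ∧ dAx (i, j, k, w, q) = A ∧ dCx (i, j, k, w, q) = C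
    · obtain ⟨rfl, rfl, rfl⟩ := h
      rw [pr_self hb, pr_self (T_NS π hb)]
    · rw [pr_other hb h, pr_other (T_NS π hb) h, map_zero]
  exact LinearMap.congr_fun this n

instance (P : ℤ) (A C : ℕ) : FiniteDimensional K (NS K P A C) :=
  Submodule.finiteDimensional_of_le (NS_le_NSB P A C)

theorem T_inj_NS (π : Par K) {P : ℤ} {A C : ℕ} {n : N K} (hn : n ∈ NS K P A C) (h : T π n = 0) :
    n = 0 := by
  set Tr : NS K P A C →ₗ[K] NS K P A C := (T π).restrict (fun n hn => T_NS π hn) with hTr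
  have hs : Function.Surjective Tr := by
    rintro ⟨m, hm⟩
    obtain ⟨n', hn'⟩ := T_surj π m
    refine ⟨⟨pr K P A C n', pr_mem n'⟩, Subtype.ext ?_⟩
    show T π (pr K P A C n') = m
    rw [T_pr, hn', pr_self hm]
  have : FiniteDimensional K (NS K P A C) := Submodule.finiteDimensional_of_le (NS_le_NSB P A C)
  have hi : Function.Injective Tr := OrzechProperty.injective_of_surjective_endomorphism Tr hs
  have h2 : Tr ⟨n, hn⟩ = Tr 0 := by
    rw [map_zero]
    exact Subtype.ext h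
  exact congrArg Subtype.val (hi h2)

theorem T_inj (π : Par K) {n : N K} (h : T π n = 0) : n = 0 := by
  classical
  ext ν
  have h2 : pr K (dPx ν) (dAx ν) (dCx ν) n = 0 :=
    T_inj_NS π (pr_mem n) (by rw [T_pr, h, map_zero])
  have h3 := DFunLike.congr_fun h2 ν
  rw [pr_apply, if_pos ⟨rfl, rfl, rfl⟩] at h3
  exact h3

theorem Th_inj (π : Par K) {n : N K} (h : Th π n = 0) : n = 0 := by
  apply T_inj π
  show ev π (Th π n) = 0
  rw [h, map_zero]

theorem Th_mem (π : Par K) {P : ℤ} {A C : ℕ} {n : N K} (hn : n ∈ NS K P A C) :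
    Th π n ∈ pc π P A C := (mem_pc_iff π).mpr (T_NS π hn)

theorem exists_Th (π : Par K) {P : ℤ} {A C : ℕ} {r : R π} (hr : r ∈ pc π P A C) :
    ∃ n ∈ NS K P A C, Th π n = r := by
  obtain ⟨n, hn⟩ := Th_surj π r
  have h1 : T π n ∈ NS K P A C := by
    show ev π (Th π n) ∈ _
    rw [hn]; exact (mem_pc_iff π).mp hr
  have h2 : n - pr K P A C n = 0 := by
    apply T_inj π
    rw [map_sub, T_pr, pr_self h1, sub_self]
  rw [sub_eq_zero] at h2
  exact ⟨n, h2 ▸ pr_mem n, hn⟩

/-! ### right multiplication by `x_0`, `x_1` -/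

theorem Th_X0 (π : Par K) (n : N K) : Th π (opX0 K n) = Th π n * X π (.x 0) := by
  have : Th π ∘ₗ opX0 K = LinearMap.mulRight K (X π (.x 0)) ∘ₗ Th π := by
    apply ext_bv
    intro i j k w q
    rw [LinearMap.comp_apply, opX0_bv, Th_bv, LinearMap.comp_apply, Th_bv, LinearMap.mulRight_apply]
    simp only [nr]
    rw [mul_assoc _ (X π (.x 1) ^ j), ← ((comm_xx π).pow_right j).eq, ← mul_assoc,
      mul_assoc _ (X π (.x 0) ^ i), ← pow_succ]
  exact LinearMap.congr_fun this n

theorem Th_X1 (π : Par K) (n : N K) : Th π (opX1 K n) = Th π n * X π (.x 1) := by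
  have : Th π ∘ₗ opX1 K = LinearMap.mulRight K (X π (.x 1)) ∘ₗ Th π := by
    apply ext_bv
    intro i j k w q
    rw [LinearMap.comp_apply, opX1_bv, Th_bv, LinearMap.comp_apply, Th_bv, LinearMap.mulRight_apply]
    simp only [nr]
    rw [mul_assoc _ (X π (.x 1) ^ j), ← pow_succ]
  exact LinearMap.congr_fun this n

/-- division by `x_0` -/
def pX0 (K : Type) [Field K] : N K →ₗ[K] N K :=
  Finsupp.linearCombination K (fun ν : Ix =>
    if ν.1 = 0 then 0 else bv K (ν.1 - 1) ν.2.1 ν.2.2.1 ν.2.2.2.1 ν.2.2.2.2)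

/-- division by `x_1` of the part without `x_0` -/
def pX1 (K : Type) [Field K] : N K →ₗ[K] N K :=
  Finsupp.linearCombination K (fun ν : Ix =>
    if ν.1 = 0 ∧ ν.2.1 ≠ 0 then bv K 0 (ν.2.1 - 1) ν.2.2.1 ν.2.2.2.1 ν.2.2.2.2 else 0)

/-- division by `x_1` -/
def qX1 (K : Type) [Field K] : N K →ₗ[K] N K :=
  Finsupp.linearCombination K (fun ν : Ix =>
    if ν.2.1 = 0 then 0 else bv K ν.1 (ν.2.1 - 1) ν.2.2.1 ν.2.2.2.1 ν.2.2.2.2)

theorem pX0_bv (i j k : ℕ) (w : List E) (q : Wb) : pX0 K (bv K i j k w q) =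
    if i = 0 then 0 else bv K (i - 1) j k w q := by
  simp [pX0, bv]

theorem pX1_bv (i j k : ℕ) (w : List E) (q : Wb) : pX1 K (bv K i j k w q) =
    if i = 0 ∧ j ≠ 0 then bv K 0 (j - 1) k w q else 0 := by
  simp [pX1, bv]

theorem qX1_bv (i j k : ℕ) (w : List E) (q : Wb) : qX1 K (bv K i j k w q) =
    if j = 0 then 0 else bv K i (j - 1) k w q := by
  simp [qX1, bv]

theorem pX0_opX0 (n : N K) : pX0 K (opX0 K n) = n := by
  have : pX0 K ∘ₗ opX0 K = LinearMap.id := by
    apply ext_bv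
    intro i j k w q
    simp [pX0_bv]
  exact LinearMap.congr_fun this n

theorem qX1_opX1 (n : N K) : qX1 K (opX1 K n) = n := by
  have : qX1 K ∘ₗ opX1 K = LinearMap.id := by
    apply ext_bv
    intro i j k w q
    simp [qX1_bv]
  exact LinearMap.congr_fun this n

theorem pX1_opX0 (n : N K) : pX1 K (opX0 K n) = 0 := by
  have : pX1 K ∘ₗ opX0 K = 0 := by
    apply ext_bv
    intro i j k w q
    simp [pX1_bv]
  exact LinearMap.congr_fun this n

theorem split (b : N K) : b = opX0 K (pX0 K b) + pX1 K (opX1 K b) := by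
  have : (LinearMap.id : N K →ₗ[K] N K) = opX0 K ∘ₗ pX0 K + pX1 K ∘ₗ opX1 K := by
    apply ext_bv
    intro i j k w q
    rw [LinearMap.id_apply, LinearMap.add_apply, LinearMap.comp_apply, LinearMap.comp_apply,
      pX0_bv, opX1_bv, pX1_bv]
    rcases Nat.eq_zero_or_pos i with rfl | hi
    · simp
    · have h : i ≠ 0 := by omega
      rw [if_neg h, if_neg (by simp [h]), add_zero, opX0_bv, Nat.sub_add_cancel hi]
  have h := LinearMap.congr_fun this b
  simpa using h

theorem pX0_NS {P : ℤ} {A C : ℕ} {n : N K} (hn : n ∈ NS K P A C) :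
    pX0 K n ∈ NS K (P - 1) A C := by
  refine map_NS ?_ hn
  intro i j k w q h1 h2 h3
  rw [pX0_bv]
  rcases Nat.eq_zero_or_pos i with rfl | hi
  · rw [if_pos rfl]; exact Submodule.zero_mem _
  · rw [if_neg (by omega)]
    refine bv_mem_NS ?_ ?_ ?_
    · rw [← h1]; simp only [dPx]; push_cast [Nat.cast_sub hi]; ring
    · rw [← h2]; rfl
    · rw [← h3]; rfl

theorem pX1_NS {P : ℤ} {A C : ℕ} {n : N K} (hn : n ∈ NS K P A C) :
    pX1 K n ∈ NS K (P - 1) A C := by
  refine map_NS ?_ hn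
  intro i j k w q h1 h2 h3
  rw [pX1_bv]
  by_cases h : i = 0 ∧ j ≠ 0
  · rw [if_pos h]
    obtain ⟨rfl, hj⟩ := h
    have hj' : 1 ≤ j := by omega
    refine bv_mem_NS ?_ ?_ ?_
    · rw [← h1]; simp only [dPx]; push_cast [Nat.cast_sub hj']; ring
    · rw [← h2]; rfl
    · rw [← h3]; rfl
  · rw [if_neg h]; exact Submodule.zero_mem _

theorem dP_le (l : E) : l.toGen.dP ≤ 0 := by
  cases l <;> simp [E.toGen, Gen.dP]

theorem sumP_le (w : List E) : (w.map (fun l => l.toGen.dP)).sum ≤ 0 := by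
  induction w with
  | nil => simp
  | cons l w ih =>
    have := dP_le l
    simp only [List.map_cons, List.sum_cons]
    omega

/-- elements of positive `P`-degree are divisible -/
theorem divide {P : ℤ} {A C : ℕ} (hP : 1 ≤ P) {n : N K} (hn : n ∈ NS K P A C) :
    n = opX0 K (pX0 K n) + opX1 K (pX1 K n) := by
  have h2 : NS K P A C ≤
      LinearMap.ker (LinearMap.id - (opX0 K ∘ₗ pX0 K + opX1 K ∘ₗ pX1 K) : N K →ₗ[K] N K) := by
    rw [NS, Finsupp.supported_eq_span_single, Submodule.span_le]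
    rintro _ ⟨⟨i, j, k, w, q⟩, ⟨h1, -, -⟩, rfl⟩
    show (LinearMap.id - (opX0 K ∘ₗ pX0 K + opX1 K ∘ₗ pX1 K) : N K →ₗ[K] N K)
      (bv K i j k w q) = 0
    rw [LinearMap.sub_apply, LinearMap.id_apply, LinearMap.add_apply, LinearMap.comp_apply,
      LinearMap.comp_apply, pX0_bv, pX1_bv]
    rcases Nat.eq_zero_or_pos i with rfl | hi
    · have hj : j ≠ 0 := by
        rintro rfl
        have := sumP_le w
        simp only [dPx] at h1
        push_cast at h1
        omega
      rw [if_pos rfl, if_pos ⟨rfl, hj⟩, map_zero, zero_add, opX1_bv, Nat.sub_add_cancel (by omega),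
        sub_self]
    · have h : i ≠ 0 := by omega
      rw [if_neg h, if_neg (by simp [h]), map_zero, add_zero, opX0_bv, Nat.sub_add_cancel hi, sub_self]
  have h3 := h2 hn
  rw [LinearMap.mem_ker, LinearMap.sub_apply, sub_eq_zero] at h3
  exact h3

/-- **(K0)**: right multiplication by `x_i` is injective -/
theorem K0 (π : Par K) (c : Fin 2) {a : R π} (h : a * X π (.x c) = 0) : a = 0 := by
  obtain ⟨n, rfl⟩ := Th_surj π a
  rcases fin2 c with rfl | rfl
  · rw [← Th_X0] at h
    have h2 := Th_inj π h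
    have : n = 0 := by rw [← pX0_opX0 n, h2, map_zero]
    rw [this, map_zero]
  · rw [← Th_X1] at h
    have h2 := Th_inj π h
    have : n = 0 := by rw [← qX1_opX1 n, h2, map_zero]
    rw [this, map_zero]

/-- **(K1)**: elements of `P`-degree `≥ 1` are `a x_0 + b x_1` -/
theorem K1 (π : Par K) {P : ℤ} {A C : ℕ} (hP : 1 ≤ P) {r : R π} (hr : r ∈ pc π P A C) :
    ∃ a ∈ pc π (P - 1) A C, ∃ b ∈ pc π (P - 1) A C, r = a * X π (.x 0) + b * X π (.x 1) := by
  obtain ⟨n, hn, rfl⟩ := exists_Th π hr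
  refine ⟨_, Th_mem π (pX0_NS hn), _, Th_mem π (pX1_NS hn), ?_⟩
  rw [← Th_X0, ← Th_X1, ← map_add, ← divide hP hn]

/-- **(K2)** without degrees -/
theorem K2' (π : Par K) {a b : R π} (h : a * X π (.x 0) + b * X π (.x 1) = 0) :
    ∃ e : R π, a = -(e * X π (.x 1)) ∧ b = e * X π (.x 0) := by
  obtain ⟨n, rfl⟩ := Th_surj π a
  obtain ⟨m, rfl⟩ := Th_surj π b
  rw [← Th_X0, ← Th_X1, ← map_add] at h
  have h2 := Th_inj π h
  have h3 : pX1 K (opX1 K m) = 0 := by
    have := congrArg (pX1 K) h2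
    rwa [map_add, pX1_opX0, zero_add, map_zero] at this
  have h4 : m = opX0 K (pX0 K m) := by
    have := split m
    rwa [h3, add_zero] at this
  have h5 : n = -opX1 K (pX0 K m) := by
    have := congrArg (pX0 K) h2
    rw [map_add, pX0_opX0, map_zero, h4, ← X0X1, pX0_opX0] at this
    exact eq_neg_of_add_eq_zero_left this
  refine ⟨Th π (pX0 K m), ?_, ?_⟩
  · rw [← Th_X1, ← map_neg, ← h5]
  · rw [← Th_X0, ← h4]

/-- **(K2)**: the Koszul relation, with degrees, every `P` -/
theorem K2 (π : Par K) {P : ℤ} {A C : ℕ} {a b : R π} (ha : a ∈ pc π P A C) (hb : b ∈ pc π P A C)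
    (h : a * X π (.x 0) + b * X π (.x 1) = 0) :
    ∃ e ∈ pc π (P - 1) A C, a = -(e * X π (.x 1)) ∧ b = e * X π (.x 0) := by
  obtain ⟨n, hn, rfl⟩ := exists_Th π ha
  obtain ⟨m, hm, rfl⟩ := exists_Th π hb
  rw [← Th_X0, ← Th_X1, ← map_add] at h
  have h2 := Th_inj π h
  have h3 : pX1 K (opX1 K m) = 0 := by
    have := congrArg (pX1 K) h2
    rwa [map_add, pX1_opX0, zero_add, map_zero] at this
  have h4 : m = opX0 K (pX0 K m) := by
    have := split m
    rwa [h3, add_zero] at this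
  have h5 : n = -opX1 K (pX0 K m) := by
    have := congrArg (pX0 K) h2
    rw [map_add, pX0_opX0, map_zero, h4, ← X0X1, pX0_opX0] at this
    exact eq_neg_of_add_eq_zero_left this
  refine ⟨Th π (pX0 K m), Th_mem π (pX0_NS hm), ?_, ?_⟩
  · rw [← Th_X1, ← map_neg, ← h5]
  · rw [← Th_X0, ← h4]

/-- degree of a quotient by `x_i` -/
theorem mem_of_mul_x (π : Par K) {P : ℤ} {A C : ℕ} (c : Fin 2) {a : R π}
    (h : a * X π (.x c) ∈ pc π P A C) : a ∈ pc π (P - 1) A C := by
  obtain ⟨n, rfl⟩ := Th_surj π a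
  obtain ⟨m, hm, he⟩ := exists_Th π h
  rcases fin2 c with rfl | rfl
  · rw [← Th_X0] at he
    have h2 : m = opX0 K n := by
      rw [← sub_eq_zero]; apply Th_inj π; rw [map_sub, he, sub_self]
    have h3 : n = pX0 K m := by rw [h2, pX0_opX0]
    rw [h3]; exact Th_mem π (pX0_NS hm)
  · rw [← Th_X1] at he
    have h2 : m = opX1 K n := by
      rw [← sub_eq_zero]; apply Th_inj π; rw [map_sub, he, sub_self]
    have h3 : n = qX1 K m := by rw [h2, qX1_opX1]
    rw [h3]
    refine Th_mem π (map_NS ?_ hm)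
    intro i j k w q h1 h2 h3
    rw [qX1_bv]
    rcases Nat.eq_zero_or_pos j with rfl | hj
    · rw [if_pos rfl]; exact Submodule.zero_mem _
    · rw [if_neg (by omega)]
      refine bv_mem_NS ?_ ?_ ?_
      · rw [← h1]; simp only [dPx]; push_cast [Nat.cast_sub hj]; ring
      · rw [← h2]; rfl
      · rw [← h3]; rfl

end Crest.Agent.R186.KOS296
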