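import Crest.Agent.R186.Frame_515

/-!
# Row 186, half (A), leaf QFa (helper354): filtration of a twisted complex by a length function
-/

set_option autoImplicit false

noncomputable section

namespace Crest.Agent.R186.QFa354

open Hat827 Hat827.DGA Frame515

variable {K : Type} [Field K] {B : GC K}

/-- **filtration lemma**: the cells are partitioned by `q : T.ι → β`, the coefficients preserve `q` or
raise the length `ln`; if every part is exact (elementwise) and `B` is bounded below, the whole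
twisted complex is acyclic. -/
theorem ac_of_pieces (T : Tw B) (lo : ℤ) (hlo : ∀ k : ℤ, k < lo → ∀ x ∈ B.gr k, x = 0)
    {β : Type} (q : T.ι → β) (ln : β → ℕ) (hln : ∀ σ, ln (q σ) ≤ T.s σ)
    (hm : ∀ σ τ, q σ ≠ q τ → ln (q τ) ≤ ln (q σ) → T.m σ τ = 0)
    (piece : ∀ (b : β) (k : ℤ) (x : T.ι →₀ B.X), x ∈ T.gr k → (∀ σ, q σ ≠ b → x σ = 0) →
      (∀ τ, q τ = b → T.dd x τ = 0) →
      ∃ y ∈ T.gr (k + 1), (∀ σ, q σ ≠ b → y σ = 0) ∧ ∀ τ, q τ = b → T.dd y τ = x τ) :
    Ac T.cx := by
  classical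
  intro k x hx hd
  -- values of a family supported on one part, at the cells of another part of smaller length
  have hoff : ∀ (b : β) (y : T.ι →₀ B.X), (∀ σ, q σ ≠ b → y σ = 0) →
      ∀ τ, q τ ≠ b → ln (q τ) ≤ ln b → T.dd y τ = 0 := by
    intro b y hy τ hτ hl
    rw [T.dd_apply' y y.support (Finset.Subset.refl _), hy τ hτ, map_zero, zero_add]
    refine Finset.sum_eq_zero fun σ hσ => ?_
    have hb : q σ = b := by
      by_contra hc
      exact (Finsupp.mem_support_iff.1 hσ) (hy σ hc)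
    rw [hm σ τ (by rw [hb]; exact fun h => hτ h.symm) (by rw [hb]; exact hl), LinearMap.zero_apply]
  set M : ℕ := (k - lo).toNat + 1 with hM
  have hbd : ∀ z ∈ T.gr k, ∀ σ, z σ ≠ 0 → ln (q σ) < M := by
    intro z hz σ hσ
    have h1 := hln σ
    have h2 : lo ≤ k - T.s σ := by
      by_contra hc
      exact hσ (hlo _ (by omega) _ (hz σ).1)
    omega
  have key : ∀ (n : ℕ) (x : T.ι →₀ B.X), x ∈ T.gr k → T.dd x = 0 →
      (∀ σ, x σ ≠ 0 → M ≤ ln (q σ) + n) → ∃ y ∈ T.gr (k + 1), T.dd y = x := by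
    intro n
    induction n with
    | zero =>
      intro x hx _ hs
      have hx0 : x = 0 := by
        ext σ
        by_contra hc
        have h1 := hs σ hc
        have h2 := hbd x hx σ hc
        omega
      exact ⟨0, Submodule.zero_mem _, by rw [hx0, map_zero]⟩
    | succ n ih =>
      intro x hx hd hs
      by_cases hn : M ≤ n
      · exact ih x hx hd fun σ _ => by omega
      obtain ⟨j, hj⟩ : ∃ j : ℕ, M = j + n + 1 := ⟨M - n - 1, by omega⟩
      have hs' : ∀ σ, x σ ≠ 0 → j ≤ ln (q σ) := fun σ hσ => by have := hs σ hσ; omega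
      -- the part of `x` over `b`
      let xb : β → (T.ι →₀ B.X) := fun b => x.filter fun σ => q σ = b
      have xb_pos : ∀ b σ, q σ = b → xb b σ = x σ := fun b σ h => Finsupp.filter_apply_pos _ _ h
      have xb_neg : ∀ b σ, q σ ≠ b → xb b σ = 0 := fun b σ h => Finsupp.filter_apply_neg _ _ h
      have xb_gr : ∀ b, xb b ∈ T.gr k := by
        intro b σ
        by_cases h : q σ = b
        · rw [xb_pos b σ h]; exact hx σ
        · rw [xb_neg b σ h]; exact ⟨Submodule.zero_mem _, map_zero _⟩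
      have xb_d : ∀ b, ln b = j → ∀ τ, q τ = b → T.dd (xb b) τ = 0 := by
        intro b hb τ hτ
        have h := DFunLike.congr_fun hd τ
        rw [T.dd_apply' x x.support (Finset.Subset.refl _), Finsupp.zero_apply] at h
        rw [T.dd_apply' (xb b) x.support (fun σ hσ => by
          rw [Finsupp.mem_support_iff] at hσ ⊢
          by_cases hq : q σ = b
          · rwa [xb_pos b σ hq] at hσ
          · exact absurd (xb_neg b σ hq) hσ), xb_pos b τ hτ, ← h]
        congr 1
        refine Finset.sum_congr rfl fun σ hσ => ?_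
        by_cases hq : q σ = b
        · rw [xb_pos b σ hq]
        · rw [xb_neg b σ hq, map_zero, hm σ τ (by rw [hτ]; exact hq) (by
            rw [hτ, hb]; exact hs' σ (Finsupp.mem_support_iff.1 hσ)), LinearMap.zero_apply]
      have hy : ∀ b, ln b = j → ∃ y ∈ T.gr (k + 1), (∀ σ, q σ ≠ b → y σ = 0) ∧
          ∀ τ, q τ = b → T.dd y τ = xb b τ := fun b hb =>
        piece b k (xb b) (xb_gr b) (xb_neg b) (xb_d b hb)
      let g : β → (T.ι →₀ B.X) := fun b => if h : ln b = j then Classical.choose (hy b h) else 0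
      have hg : ∀ b, ln b = j → g b ∈ T.gr (k + 1) ∧ (∀ σ, q σ ≠ b → g b σ = 0) ∧
          ∀ τ, q τ = b → T.dd (g b) τ = xb b τ := by
        intro b hb
        have := Classical.choose_spec (hy b hb)
        simp only [g, dif_pos hb]
        exact this
      let S : Finset β := (x.support.image q).filter fun b => ln b = j
      have hS : ∀ b ∈ S, ln b = j := fun b hb => (Finset.mem_filter.1 hb).2
      let z : T.ι →₀ B.X := ∑ b ∈ S, g b
      have hz : z ∈ T.gr (k + 1) := Submodule.sum_mem _ fun b hb => (hg b (hS b hb)).1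
      have hdz : ∀ τ, ln (q τ) ≤ j → T.dd z τ = x τ := by
        intro τ hτ
        rw [map_sum, Finset.sum_apply']
        by_cases hq : q τ ∈ S
        · rw [Finset.sum_eq_single (q τ)]
          · rw [(hg _ (hS _ hq)).2.2 τ rfl, xb_pos _ _ rfl]
          · intro b hb hne
            exact hoff b (g b) (hg b (hS b hb)).2.1 τ (Ne.symm hne) (by rw [hS b hb]; exact hτ)
          · intro h; exact absurd hq h
        · rw [Finset.sum_eq_zero]
          · by_contra hc
            have hc' : x τ ≠ 0 := fun h => hc h.symm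
            have h1 := hs' τ hc'
            exact hq (Finset.mem_filter.2 ⟨Finset.mem_image.2 ⟨τ, Finsupp.mem_support_iff.2 hc', rfl⟩,
              by omega⟩)
          · intro b hb
            exact hoff b (g b) (hg b (hS b hb)).2.1 τ (fun h => hq (h ▸ hb)) (by rw [hS b hb]; exact hτ)
      have hx' : x - T.dd z ∈ T.gr k := by
        have := T.dd_mem hz
        rw [add_sub_cancel_right] at this
        exact Submodule.sub_mem _ hx this
      have hd' : T.dd (x - T.dd z) = 0 := by rw [map_sub, hd, T.dd_dd, sub_zero]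
      obtain ⟨y, hy1, hy2⟩ := ih (x - T.dd z) hx' hd' (fun σ hσ => by
        by_contra hc
        apply hσ
        rw [Finsupp.sub_apply, hdz σ (by omega), sub_self])
      exact ⟨y + z, Submodule.add_mem _ hy1 hz, by rw [map_add, hy2, sub_add_cancel]⟩
  exact key M x hx hd fun σ _ => by omega

/-- the same with index set a product `κ × β`, `κ` finite -/
theorem ac_of_prod (T : Tw B) (lo : ℤ) (hlo : ∀ k : ℤ, k < lo → ∀ x ∈ B.gr k, x = 0)
    {κ β : Type} [Fintype κ] (j : κ → β → T.ι) (a : T.ι → κ) (q : T.ι → β)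
    (hj : ∀ σ, j (a σ) (q σ) = σ) (hj1 : ∀ c b, a (j c b) = c) (hj2 : ∀ c b, q (j c b) = b)
    (ln : β → ℕ) (cd : κ → ℕ) (qd : β → ℕ) (hln : ∀ b, ln b ≤ qd b)
    (hs : ∀ c b, T.s (j c b) = cd c + qd b)
    (hm : ∀ σ τ, q σ ≠ q τ → ln (q τ) ≤ ln (q σ) → T.m σ τ = 0)
    (piece : ∀ (b : β) (k : ℤ) (x : κ → B.X),
      (∀ c, x c ∈ B.gr (k - cd c) ∧ T.p (j c b) (x c) = x c) →
      (∀ c', B.d (x c') + ∑ c, T.m (j c b) (j c' b) (x c) = 0) →
      ∃ y : κ → B.X, (∀ c, y c ∈ B.gr (k + 1 - cd c) ∧ T.p (j c b) (y c) = y c) ∧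
        ∀ c', x c' = B.d (y c') + ∑ c, T.m (j c b) (j c' b) (y c)) :
    Ac T.cx := by
  classical
  refine ac_of_pieces T lo hlo q ln (fun σ => ?_) hm ?_
  · have h1 := hs (a σ) (q σ)
    rw [hj] at h1
    have h2 := hln (q σ)
    omega
  intro b k x hx hxb hd
  have hsupp : ∀ z : T.ι →₀ B.X, (∀ σ, q σ ≠ b → z σ = 0) →
      z.support ⊆ Finset.univ.image fun c : κ => j c b := by
    intro z hz σ hσ
    have h1 : q σ = b := by
      by_contra hc
      exact (Finsupp.mem_support_iff.1 hσ) (hz σ hc)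
    exact Finset.mem_image.2 ⟨a σ, Finset.mem_univ _, by rw [← h1, hj]⟩
  have hsum : ∀ z : T.ι →₀ B.X, (∀ σ, q σ ≠ b → z σ = 0) → ∀ c',
      T.dd z (j c' b) = B.d (z (j c' b)) + ∑ c, T.m (j c b) (j c' b) (z (j c b)) := by
    intro z hz c'
    rw [T.dd_apply' z _ (hsupp z hz)]
    congr 1
    exact Finset.sum_image fun c _ c2 _ h => by rw [← hj1 c b, h, hj1]
  obtain ⟨y, hy, hxy⟩ := piece b (k - qd b) (fun c => x (j c b)) (fun c => by
    have h1 := hx (j c b)
    rw [hs] at h1
    refine ⟨?_, h1.2⟩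
    have h2 := h1.1
    rwa [show k - ((cd c + qd b : ℕ) : ℤ) = k - qd b - cd c by push_cast; ring] at h2)
    (fun c' => by
      rw [← hsum x hxb c']
      exact hd (j c' b) (hj2 c' b))
  let z : T.ι →₀ B.X := Finsupp.onFinset (Finset.univ.image fun c : κ => j c b)
    (fun σ => if q σ = b then y (a σ) else 0) (fun σ hσ => by
      by_cases h1 : q σ = b
      · exact Finset.mem_image.2 ⟨a σ, Finset.mem_univ _, by rw [← h1, hj]⟩
      · exact absurd (if_neg h1) hσ)
  have hz : ∀ σ, z σ = if q σ = b then y (a σ) else 0 := fun σ => rfl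
  have hz1 : ∀ c, z (j c b) = y c := fun c => by rw [hz, if_pos (hj2 c b), hj1]
  have hz2 : ∀ σ, q σ ≠ b → z σ = 0 := fun σ h => by rw [hz, if_neg h]
  refine ⟨z, ?_, hz2, ?_⟩
  · intro σ
    by_cases h : q σ = b
    · have h1 := hj σ
      rw [h] at h1
      rw [← h1, hz1, hs]
      refine ⟨?_, (hy _).2⟩
      have h2 := (hy (a σ)).1
      rwa [show k + 1 - ((cd (a σ) + qd b : ℕ) : ℤ) = k - qd b + 1 - cd (a σ) by push_cast; ring]
    · rw [hz2 σ h]
      exact ⟨Submodule.zero_mem _, map_zero _⟩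
  · intro τ hτ
    have h1 := hj τ
    rw [hτ] at h1
    rw [← h1, hsum z hz2, hz1]
    simp only [hz1]
    exact (hxy _).symm

end Crest.Agent.R186.QFa354
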