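import Crest.Agent.R186.Tau_890
import Crest.Agent.R186.C2b_44
import Crest.Agent.R186.QB_735

/-!
# Row 186, half (A), leaf QFb (helper354): the sixteen cells are homogeneous under the torus
-/

set_option autoImplicit false

noncomputable section

namespace Crest.Agent.R186.QFb354

open Crest.Agent.R186.DefsQ830 Crest.Agent.R186.Der580 Crest.Agent.R186.Cells221 Crest.Agent.R186.SM890
open Crest.Agent.R186.PBW128 (E E.toGen)
open Crest.Agent.R186.C2b44 (kill c0)
open Crest.Agent.R186.VQ735 (Bt ch lp)

variable {K : Type} [Field K] (π : Par K)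

/-- torus weight of a cell -/
def wt (t : Tor K) : Cell → K
  | none => 1
  | some l => SM890.tw t l.toGen

theorem wt_ne (t : Tor K) (a : Cell) : wt t a ≠ 0 := by
  rcases a with _ | l
  · exact one_ne_zero
  · exact tw_ne t _

theorem f2 (i : Fin 2) : i = 0 ∨ i = 1 := by omega

set_option hygiene false in
macro "unC2" : tactic => `(tactic| (
    simp only [cf, E.toGen, if_true, if_false, one_ne_zero, zero_ne_one, map_zero, smul_zero, map_mul,
      map_smul, map_add, tR, map_one, hx, hh, hd, hf, hz, hzc, hu, he, hgj, hgc, hv, SM890.tw,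
      DefsQ830.sg, hs_zero, hs_one]
    try idR))

set_option maxHeartbeats 4000000 in
/-- **homogeneity of the coefficients** -/
theorem homog (t : Tor K) (φ : R π →ₐ[K] R π)
    (hφ : ∀ a : Gen, (∀ s, a ≠ .y s ∧ a ≠ .yb s) → φ (X π a) = SM890.tw t a • X π a) (a a' : Cell) :
    wt t a' • φ (c0 π a a') = wt t a • c0 π a a' := by
  have g0 := π.g0
  have p0 := π.p0
  have h0 := t.h0
  have h1 := t.h1
  have hb := t.hb
  have hx : ∀ i, φ (X π (.x i)) = SM890.tw t (.x i) • X π (.x i) := fun i => hφ _ (by simp)
  have hh : φ (X π .h) = SM890.tw t .h • X π .h := hφ _ (by simp)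
  have hd : ∀ i, φ (X π (.d i)) = SM890.tw t (.d i) • X π (.d i) := fun i => hφ _ (by simp)
  have hf : φ (X π .f) = SM890.tw t .f • X π .f := hφ _ (by simp)
  have hz : ∀ i, φ (X π (.z i)) = SM890.tw t (.z i) • X π (.z i) := fun i => hφ _ (by simp)
  have hzc : φ (X π .zc) = SM890.tw t .zc • X π .zc := hφ _ (by simp)
  have hu : ∀ i, φ (X π (.u i)) = SM890.tw t (.u i) • X π (.u i) := fun i => hφ _ (by simp)
  have he : ∀ i, φ (X π (.e i)) = SM890.tw t (.e i) • X π (.e i) := fun i => hφ _ (by simp)
  have hgj : ∀ i, φ (X π (.gj i)) = SM890.tw t (.gj i) • X π (.gj i) := fun i => hφ _ (by simp)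
  have hgc : φ (X π .gc) = SM890.tw t .gc • X π .gc := hφ _ (by simp)
  have hv : ∀ i, φ (X π (.v i)) = SM890.tw t (.v i) • X π (.v i) := fun i => hφ _ (by simp)
  rcases a with _ | l
  · show wt t a' • φ 0 = wt t none • (0 : R π)
    rw [map_zero, smul_zero, smul_zero]
  · rcases a' with _ | l'
    · show (1 : K) • φ (X π l.toGen) = SM890.tw t l.toGen • X π l.toGen
      rw [one_smul]
      exact hφ _ (by cases l <;> simp [E.toGen])
    · show SM890.tw t l'.toGen • φ (cf π l l') = SM890.tw t l.toGen • cf π l l'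
      rcases l with j | _ | j | _ | s | j | j | _ | s <;> rcases l' with i | _ | i | _ | r | i | i | _ | r <;>
        first
        | (simp only [cf, map_zero, smul_zero]; done)
        | (rcases f2 j with rfl | rfl <;> rcases f2 i with rfl | rfl <;> unC2)
        | (rcases f2 s with rfl | rfl <;> rcases f2 i with rfl | rfl <;> unC2)
        | (rcases f2 s with rfl | rfl <;> rcases f2 r with rfl | rfl <;> unC2)
        | (rcases f2 j with rfl | rfl <;> unC2)
        | (rcases f2 i with rfl | rfl <;> unC2)
        | (rcases f2 r with rfl | rfl <;> unC2)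
        | unC2

end Crest.Agent.R186.QFb354
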