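import Crest.Agent.R186.C2f_354
import Crest.Agent.R186.Res2_255
import Crest.Agent.R186.QFa_354
import Crest.Agent.R186.QFb_354
import Crest.Agent.R186.WL_221

/-!
# Row 186, half (A), leaf QF (helper354): `N ⊗ X''` is acyclic as soon as `N ⊗ KK` is

`N` a right dg module over `L''` on which the `W`-letters act by zero, bounded below.  `X''` is
filtered by the word length of `Q`; the part over a basis element `q` is `N ⊗ KK` up to a diagonal
rescaling (the sixteen cells are torus-homogeneous), so no torus twist remains.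
-/

set_option autoImplicit false
set_option linter.style.haveILetI false

noncomputable section

open MulOpposite

namespace Crest.Agent.R186.QF354

open Hat827 Hat827.DGA Frame515 Crest.Agent.R186.Win810 Crest.Agent.R186.Win810.WD
open Crest.Agent.R186.DefsQ830 Crest.Agent.R186.Cells221 Crest.Agent.R186.C2x354
open Crest.Agent.R186.PBW128 (E)
open Crest.Agent.R186.C2b44 (kill c0 kill_cf kill_E)
open Crest.Agent.R186.VQ735 (Bt Io qd ln sI cI FI ch tw cA Dl th Cm cAd)
open Crest.Agent.R186.Loc261 (Lt)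
open Crest.Agent.R186.WL221 (WL prW prW_mem prW_D prL_eq_zero)

variable {K : Type} [Field K]

/-! ### sixteen cells over a complex -/

/-- acyclicity of a complex of sixteen cells, elementwise -/
def KAc (B : GC K) (p : Cell → (B.X →ₗ[K] B.X)) (m : Cell → Cell → (B.X →ₗ[K] B.X)) : Prop :=
  ∀ (k : ℤ) (x : Cell → B.X), (∀ c, x c ∈ B.gr (k - cdeg c) ∧ p c (x c) = x c) →
    (∀ c', B.d (x c') + ∑ c, m c c' (x c) = 0) →
    ∃ y : Cell → B.X, (∀ c, y c ∈ B.gr (k + 1 - cdeg c) ∧ p c (y c) = y c) ∧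
      ∀ c', x c' = B.d (y c') + ∑ c, m c c' (y c)

/-- diagonal rescaling -/
theorem KAc.scale {B : GC K} {p : Cell → (B.X →ₗ[K] B.X)} {m m' : Cell → Cell → (B.X →ₗ[K] B.X)}
    (h : KAc B p m) (μ : Cell → K) (hμ : ∀ c, μ c ≠ 0)
    (hm : ∀ c c' x, μ c' • m' c c' x = μ c • m c c' x) : KAc B p m' := by
  intro k x hx hd
  obtain ⟨y, hy, hxy⟩ := h k (fun c => μ c • x c)
    (fun c => ⟨Submodule.smul_mem _ _ (hx c).1, by rw [map_smul, (hx c).2]⟩)
    (fun c' => by
      have h1 := congrArg (fun z => μ c' • z) (hd c')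
      simp only [smul_add, smul_zero, Finset.smul_sum] at h1
      rw [← h1, map_smul]
      congr 1
      refine Finset.sum_congr rfl fun c _ => ?_
      rw [map_smul, hm])
  refine ⟨fun c => (μ c)⁻¹ • y c, fun c => ⟨Submodule.smul_mem _ _ (hy c).1, by
    rw [map_smul, (hy c).2]⟩, fun c' => ?_⟩
  have h1 := hxy c'
  have h2 : x c' = (μ c')⁻¹ • (B.d (y c') + ∑ c, m c c' (y c)) := by
    rw [← h1, smul_smul, inv_mul_cancel₀ (hμ c'), one_smul]
  rw [h2, smul_add, Finset.smul_sum, map_smul]
  congr 1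
  refine Finset.sum_congr rfl fun c _ => ?_
  have h3 := hm c c' ((μ c)⁻¹ • y c)
  rw [(m c c').map_smul, smul_smul, mul_inv_cancel₀ (hμ c), one_smul] at h3
  rw [← h3, smul_smul, inv_mul_cancel₀ (hμ c'), one_smul]

/-! ### the cells of `KK` inside the window of `R''` -/

variable (π : Par K)

theorem kill_c0 (a a' : Cell) : kill π (c0 π a a') = c0 π a a' := by
  rcases a with _ | l
  · exact map_zero _
  · rcases a' with _ | l'
    · exact kill_E π l
    · exact kill_cf π l l'

theorem Cm_eq (a a' : Cell) : Cm π a a' = Dl π (c0 π a a') + if a = a' then th π else 0 := by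
  rcases a with _ | l
  · rcases a' with _ | l'
    · show th π = Dl π 0 + if (none : Cell) = none then th π else 0
      rw [map_zero, zero_add, if_pos rfl]
    · show (0 : VQ735.A2 π) = Dl π 0 + if (none : Cell) = some l' then th π else 0
      rw [map_zero, zero_add, if_neg (by simp)]
  · rcases a' with _ | l'
    · show Dl π (X π l.toGen) = Dl π (X π l.toGen) + if (some l : Cell) = none then th π else 0
      rw [if_neg (by simp), add_zero]
    · show Dl π (cf π l l') + (if l = l' then th π else 0) =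
        Dl π (cf π l l') + if (some l : Cell) = some l' then th π else 0
      simp only [Option.some.injEq]

theorem kill_cI (a a' : Cell) (b b' : Bt π) :
    kill π (cI π (a, b) (a', b')) = kill π (cA π b b' (Dl π (c0 π a a'))) := by
  unfold VQ735.cI
  show kill π (cA π b b' (Cm π a a')) = _
  rw [Cm_eq, map_add, map_add]
  split_ifs with h
  · rw [kill_th, add_zero]
  · rw [map_zero, map_zero, add_zero]

/-- off the diagonal the coefficients raise the length, modulo the `W`-letters -/
theorem kill_cI_off (a a' : Cell) {b b' : Bt π} (hne : b ≠ b') (h : ln b' ≤ ln b) :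
    kill π (cI π (a, b) (a', b')) = 0 := by
  rw [kill_cI]
  rcases h.lt_or_eq with h | h
  · rw [VQ735.cA_Dl_lt π _ h, map_zero]
  · rw [VQ735.cA_Dl_ne π _ h hne, map_zero]

/-- on the diagonal: the torus twist -/
theorem kill_cI_tw (a a' : Cell) (b : Bt π) :
    kill π (cI π (a, b) (a', b)) = kill π (tw π b (c0 π a a')) := by
  rw [kill_cI, VQ735.tw_apply]

/-! ### the torus point of a basis element of `Q` -/

theorem pw_ne (f : Lt → K) (hf : ∀ l, f l ≠ 0) (m : Multiset Lt) : VQ735.pw f m ≠ 0 := by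
  unfold VQ735.pw
  apply Multiset.prod_ne_zero
  intro h
  obtain ⟨l, _, hl⟩ := Multiset.mem_map.1 h
  exact hf l hl

/-- the torus point of `b` -/
def tb (b : Bt π) : SM890.Tor K where
  a0 := (π.c 0)⁻¹ ^ b.1.card
  a1 := (π.c 1)⁻¹ ^ b.1.card
  b := VQ735.pw (fun l => (VQ735.lp π).c l) b.1
  h0 := pow_ne_zero _ (inv_ne_zero (VQ735.c_ne π 0))
  h1 := pow_ne_zero _ (inv_ne_zero (VQ735.c_ne π 1))
  hb := pw_ne _ (fun l => (VQ735.lp π).c_ne l) _

theorem f2 (i : Fin 2) : i = 0 ∨ i = 1 := by omega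

theorem ch_tb (b : Bt π) (a : Gen) (ha : ∀ s, a ≠ .y s ∧ a ≠ .yb s) :
    ch π b.1 a = SM890.tw (tb π b) a := by
  have e0 : π.cz 0 = π.c 1 := by simp [Par.cz, Par.c]
  have e1 : π.cz 1 = π.c 0 := by simp [Par.cz, Par.c]
  have hs : ∀ s : Fin 2, VQ735.pw (fun l => DefsQ830.sg ((VQ735.lp π).c l) s) b.1 =
      DefsQ830.sg (VQ735.pw (fun l => (VQ735.lp π).c l) b.1) s := by
    intro s
    rcases f2 s with rfl | rfl
    · simp [DefsQ830.sg]
    · simp only [DefsQ830.sg, one_ne_zero, if_false]
      unfold VQ735.pw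
      exact Multiset.prod_map_inv
  cases a with
  | x i => rcases f2 i with rfl | rfl <;> simp [VQ735.ch, SM890.tw, tb]
  | h => rfl
  | d j => rcases f2 j with rfl | rfl <;> simp [VQ735.ch, SM890.tw, tb]
  | f => rfl
  | z j => rcases f2 j with rfl | rfl <;> simp [VQ735.ch, SM890.tw, tb, e0, e1]
  | zc => rfl
  | u s => exact hs s
  | e j => rcases f2 j with rfl | rfl <;> simp [VQ735.ch, SM890.tw, tb]
  | gj j => rcases f2 j with rfl | rfl <;> simp [VQ735.ch, SM890.tw, tb, e0, e1]
  | gc => rfl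
  | v s => exact hs s
  | y s => exact absurd rfl (ha s).1
  | yb s => exact absurd rfl (ha s).2

/-- torus weight of a cell at `b` -/
def wt (b : Bt π) : Cell → K := QFb354.wt (tb π b)

theorem wt_ne (b : Bt π) (a : Cell) : wt π b a ≠ 0 := QFb354.wt_ne _ a

theorem tw_c0 (b : Bt π) (a a' : Cell) :
    wt π b a' • tw π b (c0 π a a') = wt π b a • c0 π a a' :=
  QFb354.homog π (tb π b) (tw π b) (fun g hg => by rw [VQ735.tw_X, ch_tb π b g hg]) a a'

/-! ### the coefficients in the window -/

theorem c0_q (a a' : Cell) :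
    (c0 π a a' : R π) ∈ (WR π).q (oc a) (oc a') ((cdeg a : ℤ) - cdeg a' - 1) := by
  have h : (VQ735.cI π (a, eo π) (a', eo π) : R π) ∈ (WR π).q (oc a) (oc a')
      (((XR π).s (a, eo π) : ℤ) - (XR π).s (a', eo π) - 1) :=
    (XR π).c_mem (a, eo π) (a', eo π)
  have hs : ∀ c : Cell, (((XR π).s (c, eo π) : ℕ) : ℤ) = cdeg c := by
    intro c
    show (((cdeg c + qd (eo π) : ℕ)) : ℤ) = cdeg c
    rw [(qd_zero π _).2 rfl, Nat.add_zero]
  rw [hs, hs] at h
  refine (mem_q π (oc a) a' _ _).2 ?_
  have h1 := C2b44.kill_mem π ((mem_q π (oc a) a' _ _).1 h)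
  have h2 := kill_cI_e π a a'
  rw [map_sub, kill_c0, sub_eq_zero] at h2
  rw [h2] at h1
  exact h1

/-- entries of the window matrices -/
def ent (a : (WR π).Win) (i j : DefsQ830.Ob) : R π := a.1 i j

/-- the coefficients of `KK` in the window of `R''` -/
def k0 (a a' : Cell) : (WR π).Win := ws (oc a) (oc a') (c0 π a a') (q_le _ _ _ (c0_q π a a'))

theorem k0_ent (a a' : Cell) (i j : DefsQ830.Ob) :
    ent π (k0 π a a') i j = if oc a = i ∧ oc a' = j then c0 π a a' else 0 :=
  ws_apply (w := WR π) (oc a) (oc a') (c0 π a a') (q_le _ _ _ (c0_q π a a')) i j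

theorem cI_E (σ τ : Io π) : (VQ735.cI π σ τ : R π) ∈ (WR π).E (oc σ.1) (oc τ.1) :=
  q_le _ _ _ ((XR π).c_mem σ τ)

/-- the coefficients of `X''` in the window of `R''` -/
def kI (σ τ : Io π) : (WR π).Win := ws (oc σ.1) (oc τ.1) (VQ735.cI π σ τ) (cI_E π σ τ)

theorem kI_ent (σ τ : Io π) (i j : DefsQ830.Ob) :
    ent π (kI π σ τ) i j = if oc σ.1 = i ∧ oc τ.1 = j then VQ735.cI π σ τ else 0 :=
  ws_apply (w := WR π) (oc σ.1) (oc τ.1) (VQ735.cI π σ τ) (cI_E π σ τ) i j

/-- `X''` as left cells over `L''` -/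
def XX : LCells (WR π).dga := Res255.lcPre (C2f354.pre π)

theorem XX_c (σ τ : Io π) : (XX π).c σ τ = kI π σ τ := rfl

theorem XX_e (σ : Io π) : (XX π).e σ = WD.e (w := WR π) (oc σ.1) := rfl

theorem XX_s (σ : Io π) : (XX π).s σ = cdeg σ.1 + qd σ.2 := rfl

/-! ### the main theorem -/

/-- the `W`-letters act by zero on the right module `N` -/
def JZ (N : RM (WR π).dga) : Prop :=
  ∀ a : (WR π).Win, (∀ i j, kill π (ent π a i j) = 0) → ∀ x : N.X, rmul N a x = 0

/-- the complex `N ⊗ KK` (through the window of `R''`), elementwise -/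
def KK0 (N : RM (WR π).dga) : Prop :=
  KAc N.toGC (fun c => rmul N (WD.e (w := WR π) (oc c))) fun c c' => rmul N (k0 π c c')

section main

variable {N : RM (WR π).dga}

theorem rmul_add (a b : (WR π).dga.C) (x : N.X) : rmul N (a + b) x = rmul N a x + rmul N b x := by
  simp only [rmul_apply, op_add, add_smul]

theorem rmul_smul (r : K) (a : (WR π).dga.C) (x : N.X) : rmul N (r • a) x = r • rmul N a x := by
  simp only [rmul_apply, op_smul, smul_assoc]

/-- modulo the `W`-letters, the coefficients over `b` are the twisted coefficients of `KK` -/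
theorem act_tw (hJ : JZ π N) (b : Bt π) (c c' : Cell) (x : N.X) :
    wt π b c' • rmul N (kI π (c, b) (c', b)) x = wt π b c • rmul N (k0 π c c') x := by
  have h := hJ (wt π b c' • kI π (c, b) (c', b) + (-wt π b c) • k0 π c c') (fun i j => by
      show kill π (wt π b c' • ent π (kI π (c, b) (c', b)) i j +
        (-wt π b c) • ent π (k0 π c c') i j) = 0
      rw [kI_ent, k0_ent]
      by_cases hij : oc c = i ∧ oc c' = j
      · rw [if_pos hij, if_pos hij, map_add, map_smul, map_smul, kill_cI_tw, kill_c0]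
        have h1 := congrArg (kill π) (tw_c0 π b c c')
        rw [map_smul, map_smul, kill_c0] at h1
        rw [h1]
        exact (add_smul _ _ _).symm.trans (by rw [add_neg_cancel, zero_smul])
      · rw [if_neg hij, if_neg hij, smul_zero, smul_zero, add_zero, map_zero]) x
  have h2 : rmul N (wt π b c' • kI π (c, b) (c', b) + (-wt π b c) • k0 π c c') x =
      wt π b c' • rmul N (kI π (c, b) (c', b)) x + (-wt π b c) • rmul N (k0 π c c') x :=
    (rmul_add π _ _ x).trans (congrArg₂ (· + ·) (rmul_smul π _ _ x) (rmul_smul π _ _ x))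
  rw [h2, neg_smul, add_neg_eq_zero] at h
  exact h

/-- off the diagonal -/
theorem act_off (hJ : JZ π N) {σ τ : Io π} (hne : σ.2 ≠ τ.2) (h : ln τ.2 ≤ ln σ.2) :
    rmul N (kI π σ τ) = 0 := by
  ext x
  rw [LinearMap.zero_apply]
  refine hJ _ (fun i j => ?_) x
  rw [kI_ent]
  split_ifs
  · exact kill_cI_off π σ.1 τ.1 hne h
  · exact map_zero _

/-- **`N ⊗ X''` is acyclic if `N ⊗ KK` is** -/
theorem ac_XX (hJ : JZ π N) (lo : ℤ) (hlo : ∀ k : ℤ, k < lo → ∀ x ∈ N.gr k, x = 0)
    (h : KK0 π N) : Ac (tG N (XX π)) := by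
  refine QFa354.ac_of_prod (twG N (XX π)) lo hlo (κ := Cell) (β := Bt π) (fun c b => (c, b))
    Prod.fst Prod.snd (fun _ => rfl) (fun _ _ => rfl) (fun _ _ => rfl) ln cdeg qd
    (fun b => VQ735.ln_le π b) (fun _ _ => rfl) (fun σ τ hne hl => act_off π hJ hne hl) ?_
  intro b
  exact KAc.scale h (wt π b) (wt_ne π b) (m' := fun c c' => rmul N (kI π (c, b) (c', b)))
    (fun c c' x => act_tw π hJ b c c' x)

/-- **torus twist**: the complex `N ⊗ KK` with the coefficients twisted by a point of the torus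
(`φ` = any algebra map scaling the letters by `tw t`, `kφ` its value on the coefficients, up to the
`W`-letters) -/
theorem KK0.twist (hJ : JZ π N) (h : KK0 π N) (t : SM890.Tor K) (φ : R π →ₐ[K] R π)
    (hφ : ∀ a : Gen, (∀ s, a ≠ .y s ∧ a ≠ .yb s) → φ (X π a) = SM890.tw t a • X π a)
    (kφ : Cell → Cell → (WR π).Win)
    (hk : ∀ c c' i j, kill π (ent π (kφ c c') i j) =
      if oc c = i ∧ oc c' = j then kill π (φ (c0 π c c')) else 0) :
    KAc N.toGC (fun c => rmul N (WD.e (w := WR π) (oc c))) fun c c' => rmul N (kφ c c') := by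
  refine KAc.scale h (QFb354.wt t) (QFb354.wt_ne t) fun c c' x => ?_
  have h := hJ (QFb354.wt t c' • kφ c c' + (-QFb354.wt t c) • k0 π c c') (fun i j => by
      show kill π (QFb354.wt t c' • ent π (kφ c c') i j +
        (-QFb354.wt t c) • ent π (k0 π c c') i j) = 0
      rw [k0_ent, map_add, map_smul, map_smul, hk]
      by_cases hij : oc c = i ∧ oc c' = j
      · rw [if_pos hij, if_pos hij, kill_c0]
        have h1 := congrArg (kill π) (QFb354.homog π t φ hφ c c')
        rw [map_smul, map_smul, kill_c0] at h1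
        rw [h1]
        exact (add_smul _ _ _).symm.trans (by rw [add_neg_cancel, zero_smul])
      · rw [if_neg hij, if_neg hij, map_zero, smul_zero, smul_zero, add_zero]) x
  have h2 : rmul N (QFb354.wt t c' • kφ c c' + (-QFb354.wt t c) • k0 π c c') x =
      QFb354.wt t c' • rmul N (kφ c c') x + (-QFb354.wt t c) • rmul N (k0 π c c') x :=
    (rmul_add π _ _ x).trans (congrArg₂ (· + ·) (rmul_smul π _ _ x) (rmul_smul π _ _ x))
  rw [h2, neg_smul, add_neg_eq_zero] at h
  exact h

end main

/-! ### modules over `L` -/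

/-- `L'' → L` as a morphism of dg algebras -/
def prH : Res255.Hm (WR π).dga (WL π).dga where
  f := prW π
  mem h := prW_mem h
  D m := prW_D m

/-- modules restricted along `L'' → L` -/
theorem JZ_resR (N : RM (WL π).dga) : JZ π (Res255.resR (prH π) N) := by
  intro a ha x
  have h : prW π a = 0 := by
    apply Subtype.ext
    ext i j
    exact prL_eq_zero.2 (ha i j)
  show op ((prH π).f a) • (show N.X from x) = 0
  have h' : (prH π).f a = 0 := h
  rw [h', op_zero, zero_smul]

end Crest.Agent.R186.QF354
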