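import Crest.Agent.R186.CEop_340
import Crest.Agent.R186.CEc_683
import Crest.Agent.R186.KHc_302
import Crest.Agent.R186.QF_354
import Crest.Agent.R186.TLW_890

/-!
Row 186, half (A), (V') (helper163): `Y ⊗_Γ H'` over the opposite window is `t(tL) ⊗ KK`.

* `tLR π s : BM (WR π).dga (WR π).dga`, `tLG π s hs : BM (Gm π s _) (WR π).dga` = `tL` restricted.
* `KK0_of : Ac (tG (HB362.HM (ceOp 1 3 (ev (CEr π s hs)))) (cL 1 3 Y)) → KK0 π (tQ Y (tLG π s hs))`.
-/

set_option autoImplicit false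
set_option linter.style.haveILetI false
set_option linter.unusedSectionVars false

noncomputable section

open MulOpposite

namespace Crest.Agent.R186.KO163

open Hat827 Win810 Frame515 Res255 KHev302 Opw671 V340 SM890 DefsQ830 Cells221

variable {K : Type} [Field K] (π : Par K) (s : ℕ) (hs : 5 ≤ s)

/-- `tL` as a bimodule over `L''` -/
def tLR : BM (WR π).dga (WR π).dga := resBL (prHm π) (resBR (prHm π) (tLW π s))

/-- `tL` as a bimodule over `Γ`, `L''` -/
def tLG : BM (Gm π s (KHc302.two_le hs)) (WR π).dga := resBL (HmP π s (KHc302.two_le hs)) (tLR π s)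

/-- the closing data over the opposite window -/
abbrev EO : CE (opW (KHc302.WG π s (KHc302.two_le hs)) 1 3) :=
  ceOp 1 3 (CEc683.ev (KHc302.CEr π s hs))

/-- entries on the `H` side -/
def eH (η : (EO π s hs).H) (c : Cell) (j : DefsQ830.Ob) : WL221.RL π :=
  unop (show (WL221.RL π)ᵐᵒᵖ from η.1 c j)

/-- entries on the `tL` side -/
def eT (z : (tLW π s).X) (i j : DefsQ830.Ob) : WL221.RL π := z.1 i j

theorem oc_eq (c : Cell) : WL221.oc c = C2x354.oc c := by
  rcases c with _ | c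
  · rfl
  · cases c <;> rfl

theorem eT_ext {z z' : (tLW π s).X} (h : ∀ i j, eT π s z i j = eT π s z' i j) : z = z' := by
  apply Subtype.ext
  funext i j
  exact h i j

theorem eH_ext {z z' : (EO π s hs).H} (h : ∀ i j, eH π s hs z i j = eH π s hs z' i j) : z = z' := by
  apply Subtype.ext
  funext i j
  exact unop_injective (h i j)

theorem q_iff (c : Cell) (j : DefsQ830.Ob) (k : ℤ) (x : WL221.RL π) :
    x ∈ (tLT π s).q j (C2x354.oc c) k ↔
      x ∈ WL221.pcL π ((WR π).P j - (WR π).P (C2x354.oc c) + 1)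
        ((WR π).A j - (WR π).A (C2x354.oc c)) (k - s) := by
  exact iff_of_eq (congrArg (fun S : Submodule K (WL221.RL π) => x ∈ S)
    (q_tLT π s j (C2x354.oc c) k))

theorem pb_iff (c : Cell) (j : DefsQ830.Ob) (k : ℤ) (x : WL221.RL π) :
    (op x : (EO π s hs).B) ∈ (EO π s hs).pb
      ((opW (KHc302.WG π s (KHc302.two_le hs)) 1 3).P ((EO π s hs).oc c) -
        (opW (KHc302.WG π s (KHc302.two_le hs)) 1 3).P j + 1)
      ((opW (KHc302.WG π s (KHc302.two_le hs)) 1 3).A ((EO π s hs).oc c) -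
        (opW (KHc302.WG π s (KHc302.two_le hs)) 1 3).A j) k ↔
      x ∈ WL221.pcL π ((WR π).P j - (WR π).P (C2x354.oc c) + 1)
        ((WR π).A j - (WR π).A (C2x354.oc c)) k := by
  change x ∈ WL221.pcL π (1 - (WR π).P (WL221.oc c) - (1 - (WR π).P j) + 1)
    (3 - (WR π).A (WL221.oc c) - (3 - (WR π).A j)) k ↔ _
  rw [oc_eq, show 1 - (WR π).P (C2x354.oc c) - (1 - (WR π).P j) + 1 =
      (WR π).P j - (WR π).P (C2x354.oc c) + 1 by ring,
    show 3 - (WR π).A (C2x354.oc c) - (3 - (WR π).A j) =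
      (WR π).A j - (WR π).A (C2x354.oc c) by ring]

theorem op_EB (c : Cell) (j : DefsQ830.Ob) {x : WL221.RL π}
    (hx : x ∈ Core890.E (tLT π s) j (C2x354.oc c)) : (op x : (EO π s hs).B) ∈ (EO π s hs).EB
      ((opW (KHc302.WG π s (KHc302.two_le hs)) 1 3).P ((EO π s hs).oc c) -
        (opW (KHc302.WG π s (KHc302.two_le hs)) 1 3).P j + 1)
      ((opW (KHc302.WG π s (KHc302.two_le hs)) 1 3).A ((EO π s hs).oc c) -
        (opW (KHc302.WG π s (KHc302.two_le hs)) 1 3).A j) := by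
  have h : Core890.E (tLT π s) j (C2x354.oc c) ≤ ((EO π s hs).EB
      ((opW (KHc302.WG π s (KHc302.two_le hs)) 1 3).P ((EO π s hs).oc c) -
        (opW (KHc302.WG π s (KHc302.two_le hs)) 1 3).P j + 1)
      ((opW (KHc302.WG π s (KHc302.two_le hs)) 1 3).A ((EO π s hs).oc c) -
        (opW (KHc302.WG π s (KHc302.two_le hs)) 1 3).A j)).comap
      (opLinearEquiv K : WL221.RL π ≃ₗ[K] (WL221.RL π)ᵐᵒᵖ).toLinearMap :=
    iSup_le fun k y hy => CE.pb_le (E := EO π s hs) _ _ (k - s)
      ((pb_iff π s hs c j (k - s) y).2 ((q_iff π s c j k y).1 hy))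
  exact h hx

theorem unop_E (c : Cell) (j : DefsQ830.Ob) {x : (EO π s hs).B} (hx : x ∈ (EO π s hs).EB
      ((opW (KHc302.WG π s (KHc302.two_le hs)) 1 3).P ((EO π s hs).oc c) -
        (opW (KHc302.WG π s (KHc302.two_le hs)) 1 3).P j + 1)
      ((opW (KHc302.WG π s (KHc302.two_le hs)) 1 3).A ((EO π s hs).oc c) -
        (opW (KHc302.WG π s (KHc302.two_le hs)) 1 3).A j)) :
    (unop (show (WL221.RL π)ᵐᵒᵖ from x) : WL221.RL π) ∈ Core890.E (tLT π s) j (C2x354.oc c) := by
  have h : (EO π s hs).EB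
      ((opW (KHc302.WG π s (KHc302.two_le hs)) 1 3).P ((EO π s hs).oc c) -
        (opW (KHc302.WG π s (KHc302.two_le hs)) 1 3).P j + 1)
      ((opW (KHc302.WG π s (KHc302.two_le hs)) 1 3).A ((EO π s hs).oc c) -
        (opW (KHc302.WG π s (KHc302.two_le hs)) 1 3).A j) ≤
      (Core890.E (tLT π s) j (C2x354.oc c)).comap
      (opLinearEquiv K : WL221.RL π ≃ₗ[K] (WL221.RL π)ᵐᵒᵖ).symm.toLinearMap :=
    CE.EB_ind fun k y hy => Core890.q_le_E (tLT π s) j (C2x354.oc c) (k + s)
      ((q_iff π s c j (k + s) _).2 (by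
        rw [add_sub_cancel_right]
        exact (pb_iff π s hs c j k (unop (show (WL221.RL π)ᵐᵒᵖ from y))).1 hy))
  exact h hx

/-! ### the two maps -/

/-- a family of matrices as an element of `H` (the column at the position of the cell) -/
def toH (f : Cell → (tLW π s).X) : (EO π s hs).H :=
  ⟨fun c j => (op (eT π s (f c) j (C2x354.oc c)) : (WL221.RL π)ᵐᵒᵖ),
    fun c j => op_EB π s hs c j ((f c).2 j (C2x354.oc c))⟩

theorem eH_toH (f : Cell → (tLW π s).X) (c : Cell) (j : DefsQ830.Ob) :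
    eH π s hs (toH π s hs f) c j = eT π s (f c) j (C2x354.oc c) := rfl

theorem ite_E (c : Cell) (η : (EO π s hs).H) (i j : DefsQ830.Ob) :
    (if C2x354.oc c = j then eH π s hs η c i else 0) ∈ Core890.E (tLT π s) i j := by
  by_cases h : C2x354.oc c = j
  · rw [if_pos h, ← h]
    exact unop_E π s hs c i (η.2 c i)
  · rw [if_neg h]
    exact Submodule.zero_mem _

/-- the matrix with one column -/
def frH (c : Cell) : (EO π s hs).H →ₗ[K] (tLW π s).X where
  toFun η := (⟨fun (i j : DefsQ830.Ob) => if C2x354.oc c = j then eH π s hs η c i else 0,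
    fun i j => ite_E π s hs c η i j⟩ : Core890.Xs (tLT π s))
  map_add' x y := by
    refine eT_ext π s fun i j => ?_
    change (if C2x354.oc c = j then eH π s hs x c i + eH π s hs y c i else 0) =
      (if C2x354.oc c = j then eH π s hs x c i else 0) +
      (if C2x354.oc c = j then eH π s hs y c i else 0)
    split_ifs <;> simp
  map_smul' r x := by
    refine eT_ext π s fun i j => ?_
    change (if C2x354.oc c = j then r • eH π s hs x c i else 0) =
      r • (if C2x354.oc c = j then eH π s hs x c i else 0)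
    split_ifs <;> simp

theorem eT_frH (c : Cell) (η : (EO π s hs).H) (i j : DefsQ830.Ob) :
    eT π s (frH π s hs c η) i j = if C2x354.oc c = j then eH π s hs η c i else 0 := rfl

/-! ### entries of the operations -/

section ops

variable {π s hs}

theorem eT_add (z z' : (tLW π s).X) (i j : DefsQ830.Ob) :
    eT π s (z + z') i j = eT π s z i j + eT π s z' i j := rfl

theorem eT_zero (i j : DefsQ830.Ob) : eT π s (0 : (tLW π s).X) i j = 0 := rfl

theorem eT_sum {ι : Type} (S : Finset ι) (f : ι → (tLW π s).X) (i j : DefsQ830.Ob) :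
    eT π s (∑ a ∈ S, f a) i j = ∑ a ∈ S, eT π s (f a) i j := by
  classical
  induction S using Finset.induction_on with
  | empty => rfl
  | insert a S ha ih => rw [Finset.sum_insert ha, Finset.sum_insert ha, eT_add, ih]

theorem eT_d (z : (tLW π s).X) (i j : DefsQ830.Ob) :
    eT π s ((tLW π s).d z) i j = WL221.DL π (eT π s z i j) := rfl

/-- left multiplication by an element of `Γ` -/
theorem eT_l (a : (Gm π s (KHc302.two_le hs)).C) (z : (tLG π s hs).X) (i j : DefsQ830.Ob) :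
    eT π s (show (tLW π s).X from a • z) i j = ∑ l : DefsQ830.Ob,
      KHc302.pW π s (KHc302.two_le hs)
        ((show (KHc302.WG π s (KHc302.two_le hs)).Win from a).1 i l) *
      eT π s (show (tLW π s).X from z) l j := rfl

/-- right multiplication by an element of `L''` -/
theorem eT_r (a : (WR π).Win) (z : (tLG π s hs).X) (i j : DefsQ830.Ob) :
    eT π s (show (tLW π s).X from (op (show (WR π).dga.C from a)) • z) i j = ∑ l : DefsQ830.Ob,
      eT π s (show (tLW π s).X from z) i l * WL221.prL π (QF354.ent π a l j) := rfl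

theorem eH_add (z z' : (EO π s hs).H) (c : Cell) (j : DefsQ830.Ob) :
    eH π s hs (z + z') c j = eH π s hs z c j + eH π s hs z' c j := rfl

theorem eH_zero (c : Cell) (j : DefsQ830.Ob) : eH π s hs (0 : (EO π s hs).H) c j = 0 := rfl

theorem eH_sum {ι : Type} (S : Finset ι) (f : ι → (EO π s hs).H) (c : Cell) (j : DefsQ830.Ob) :
    eH π s hs (∑ a ∈ S, f a) c j = ∑ a ∈ S, eH π s hs (f a) c j := by
  classical
  induction S using Finset.induction_on with
  | empty => rfl
  | insert a S ha ih => rw [Finset.sum_insert ha, Finset.sum_insert ha, eH_add, ih]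

theorem unop_sum' {ι B : Type} [AddCommMonoid B] (S : Finset ι) (f : ι → Bᵐᵒᵖ) :
    unop (∑ a ∈ S, f a) = ∑ a ∈ S, unop (f a) :=
  map_sum (opAddEquiv (α := B)).symm f S

theorem eH_d (η : (EO π s hs).H) (c : Cell) (j : DefsQ830.Ob) :
    eH π s hs (CE.dH η) c j = WL221.DL π (eH π s hs η c j) +
      ∑ c' : Cell, eH π s hs η c' j * WL221.cL π c' c := by
  unfold eH
  have h : (show (WL221.RL π)ᵐᵒᵖ from (CE.dH η).1 c j) =
      op (WL221.DL π (unop (show (WL221.RL π)ᵐᵒᵖ from η.1 c j))) +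
      ∑ c' : Cell, op (WL221.cL π c' c) * (show (WL221.RL π)ᵐᵒᵖ from η.1 c' j) := rfl
  rw [h, unop_add, unop_op, unop_sum']
  rfl

theorem eH_R (m : (opW (KHc302.WG π s (KHc302.two_le hs)) 1 3).Win) (η : (EO π s hs).H) (c : Cell)
    (j : DefsQ830.Ob) : eH π s hs (CE.RH m η) c j = ∑ i : DefsQ830.Ob,
      KHc302.pW π s (KHc302.two_le hs)
        (unop (show ((KHc302.WG π s (KHc302.two_le hs)).S)ᵐᵒᵖ from m.1 i j)) * eH π s hs η c i := by
  unfold eH
  have h : (show (WL221.RL π)ᵐᵒᵖ from (CE.RH m η).1 c j) =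
      ∑ i : DefsQ830.Ob, (show (WL221.RL π)ᵐᵒᵖ from η.1 c i) *
        op (KHc302.pW π s (KHc302.two_le hs)
          (unop (show ((KHc302.WG π s (KHc302.two_le hs)).S)ᵐᵒᵖ from m.1 i j))) := rfl
  rw [h, unop_sum']
  rfl

end ops


/-! ### the main theorem -/

section main

variable {π s hs} {Y : RCells (Gm π s (KHc302.two_le hs))}

/-- the differential of `H' ⊗ Y^op` -/
def dA : (Y.ι →₀ (EO π s hs).H) →ₗ[K] (Y.ι →₀ (EO π s hs).H) :=
  (tG (HB362.HM (EO π s hs)) (cL 1 3 Y)).d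

/-- the differential of `Y ⊗ tL` -/
def dN : (Y.ι →₀ (tLW π s).X) →ₗ[K] (Y.ι →₀ (tLW π s).X) := (tQ Y (tLG π s hs)).d

theorem dA_entry (u : Y.ι →₀ (EO π s hs).H) (S : Finset Y.ι) (hS : u.support ⊆ S) (τ : Y.ι)
    (c : Cell) (j : DefsQ830.Ob) : eH π s hs (dA u τ) c j =
      WL221.DL π (eH π s hs (u τ) c j) + ∑ c' : Cell, eH π s hs (u τ) c' j * WL221.cL π c' c +
      ∑ σ ∈ S, ∑ i : DefsQ830.Ob, KHc302.pW π s (KHc302.two_le hs)
        ((show (KHc302.WG π s (KHc302.two_le hs)).Win from Y.c τ σ).1 j i) *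
        eH π s hs (u σ) c i := by
  have h : dA u τ = CE.dH (u τ) + ∑ σ ∈ S, CE.RH ((cL 1 3 Y).c σ τ) (u σ) :=
    HB362.dHX_apply' (E := EO π s hs) (X := cL 1 3 Y) u S hS τ
  rw [h, eH_add, eH_sum, eH_d]
  congr 1

theorem dN_entry (x : Y.ι →₀ (tLW π s).X) (S : Finset Y.ι) (hS : x.support ⊆ S) (τ : Y.ι)
    (i j : DefsQ830.Ob) : eT π s (dN (hs := hs) x τ) i j =
      WL221.DL π (eT π s (x τ) i j) +
      ∑ σ ∈ S, ∑ l : DefsQ830.Ob, KHc302.pW π s (KHc302.two_le hs)
        ((show (KHc302.WG π s (KHc302.two_le hs)).Win from Y.c τ σ).1 i l) *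
        eT π s (x σ) l j := by
  have h : dN (hs := hs) x τ = (tLW π s).d (x τ) +
      ∑ σ ∈ S, (show (tLW π s).X from Y.c τ σ • (show (tLG π s hs).X from x σ)) :=
    (twY Y (tLG π s hs).toLM).dd_apply' x S hS τ
  rw [h, eT_add, eT_sum, eT_d]
  congr 1


/-- right multiplication on `Y ⊗ tL` -/
def rN (a : (WR π).Win) : (Y.ι →₀ (tLW π s).X) →ₗ[K] (Y.ι →₀ (tLW π s).X) :=
  rmul (tQ Y (tLG π s hs)) a

theorem rN_entry (a : (WR π).Win) (x : Y.ι →₀ (tLW π s).X) (σ : Y.ι) (i j : DefsQ830.Ob) :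
    eT π s (rN (hs := hs) a x σ) i j =
      ∑ l : DefsQ830.Ob, eT π s (x σ) i l * WL221.prL π (QF354.ent π a l j) := rfl

theorem rN_k0 (c c' : Cell) (x : Y.ι →₀ (tLW π s).X) (σ : Y.ι) (i j : DefsQ830.Ob) :
    eT π s (rN (hs := hs) (QF354.k0 π c c') x σ) i j =
      if C2x354.oc c' = j then eT π s (x σ) i (C2x354.oc c) * WL221.cL π c c' else 0 := by
  rw [rN_entry]
  by_cases h : C2x354.oc c' = j
  · rw [if_pos h, Finset.sum_eq_single (C2x354.oc c)]
    · rw [QF354.k0_ent, if_pos ⟨rfl, h⟩]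
      rfl
    · intro l _ hl
      rw [QF354.k0_ent, if_neg (fun h' => hl h'.1.symm), map_zero, mul_zero]
    · intro h
      exact absurd (Finset.mem_univ _) h
  · rw [if_neg h]
    refine Finset.sum_eq_zero fun l _ => ?_
    rw [QF354.k0_ent, if_neg (fun h' => h h'.2), map_zero, mul_zero]

theorem ent_e (o i j : DefsQ830.Ob) : QF354.ent π (WD.e (w := WR π) o) i j =
    if o = i ∧ o = j then 1 else 0 :=
  WD.ws_apply (w := WR π) o o 1 _ i j

theorem rN_e (o : DefsQ830.Ob) (x : Y.ι →₀ (tLW π s).X) (σ : Y.ι) (i j : DefsQ830.Ob) :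
    eT π s (rN (hs := hs) (WD.e (w := WR π) o) x σ) i j = if o = j then eT π s (x σ) i j else 0 := by
  rw [rN_entry]
  by_cases h : o = j
  · rw [if_pos h, Finset.sum_eq_single j]
    · rw [ent_e, if_pos ⟨h, h⟩, map_one, mul_one]
    · intro l _ hl
      rw [ent_e, if_neg (fun h' => hl (h'.1.symm.trans h'.2)), map_zero, mul_zero]
    · intro h
      exact absurd (Finset.mem_univ _) h
  · rw [if_neg h]
    refine Finset.sum_eq_zero fun l _ => ?_
    rw [ent_e, if_neg (fun h' => h h'.2), map_zero, mul_zero]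

/-- homogeneous elements of `Y ⊗ tL` in entries -/
theorem memN {k : ℤ} {x : Y.ι →₀ (tLW π s).X} : x ∈ (tQ Y (tLG π s hs)).gr k ↔
    ∀ σ, (∀ i j : DefsQ830.Ob, eT π s (x σ) i j ∈ WL221.pcL π ((WR π).P i - (WR π).P j + 1)
      ((WR π).A i - (WR π).A j) (k - Y.s σ - s)) ∧
      ∀ i j : DefsQ830.Ob, ∑ l : DefsQ830.Ob, KHc302.pW π s (KHc302.two_le hs)
        ((show (KHc302.WG π s (KHc302.two_le hs)).Win from Y.e σ).1 i l) *
        eT π s (x σ) l j = eT π s (x σ) i j := by
  constructor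
  · intro h σ
    have h1 : x σ ∈ (tLW π s).gr (k - Y.s σ) := (h σ).1
    have h2 : (show (tLW π s).X from Y.e σ • (show (tLG π s hs).X from x σ)) = x σ := (h σ).2
    refine ⟨fun i j => mem_grtL.1 h1 i j, fun i j => ?_⟩
    exact congrArg (fun z => eT π s z i j) h2
  · intro h σ
    refine ⟨mem_grtL.2 fun i j => (h σ).1 i j, ?_⟩
    exact eT_ext π s fun i j => (h σ).2 i j

/-- homogeneous elements of `H' ⊗ Y^op` in entries -/
theorem memA {k : ℤ} {u : Y.ι →₀ (EO π s hs).H} :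
    u ∈ (tG (HB362.HM (EO π s hs)) (cL 1 3 Y)).gr k ↔
    ∀ σ, (∀ (c : Cell) (j : DefsQ830.Ob), eH π s hs (u σ) c j ∈
      WL221.pcL π ((WR π).P j - (WR π).P (C2x354.oc c) + 1)
      ((WR π).A j - (WR π).A (C2x354.oc c)) (k - Y.s σ - cdeg c)) ∧
      ∀ (c : Cell) (j : DefsQ830.Ob), ∑ i : DefsQ830.Ob, KHc302.pW π s (KHc302.two_le hs)
        ((show (KHc302.WG π s (KHc302.two_le hs)).Win from Y.e σ).1 j i) *
        eH π s hs (u σ) c i = eH π s hs (u σ) c j := by
  have hc : ∀ c : Cell, (((EO π s hs).cd c : ℕ) : ℤ) = s - cdeg c := fun c => cdOp (p0 := 1) (a0 := 3)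
    (E := CEc683.ev (KHc302.CEr π s hs)) c
  have hdeg : ∀ (m : ℤ) (c : Cell), m - (EO π s hs).s0 + ((EO π s hs).cd c : ℕ) = m - cdeg c := by
    intro m c
    rw [hc c]
    change m - (s : ℤ) + (s - cdeg c) = m - cdeg c
    ring
  constructor
  · intro h σ
    have h1 : u σ ∈ (EO π s hs).gH.G (k - Y.s σ) := (h σ).1
    have h2 : CE.RH ((cL 1 3 Y).e σ) (u σ) = u σ := (h σ).2
    refine ⟨fun c j => ?_, fun c j => ?_⟩
    · have h3 := CE.mem_gH.1 h1 c j
      rw [hdeg] at h3
      exact (pb_iff π s hs c j _ _).1 h3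
    · exact (eH_R _ _ _ _).symm.trans (congrArg (fun z => eH π s hs z c j) h2)
  · intro h σ
    refine ⟨?_, ?_⟩
    · change u σ ∈ (EO π s hs).gH.G (k - Y.s σ)
      refine CE.mem_gH.2 fun c j => ?_
      rw [hdeg]
      exact (pb_iff π s hs c j _ _).2 ((h σ).1 c j)
    · change CE.RH ((cL 1 3 Y).e σ) (u σ) = u σ
      refine eH_ext π s hs fun c j => ?_
      rw [eH_R]
      exact (h σ).2 c j


theorem eT_rsum {ι : Type} (S : Finset ι) (f : ι → (Y.ι →₀ (tLW π s).X)) (σ : Y.ι)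
    (i j : DefsQ830.Ob) : eT π s ((∑ a ∈ S, f a) σ) i j = ∑ a ∈ S, eT π s (f a σ) i j := by
  rw [Finsupp.finsetSum_apply, eT_sum]

/-- **reordering**: `Y ⊗ H'` acyclic over the opposite window ⟹ `(Y ⊗ tL) ⊗ KK` acyclic -/
theorem KK0_of (hA : Ac (tG (HB362.HM (EO π s hs)) (cL 1 3 Y))) :
    QF354.KK0 π (tQ Y (tLG π s hs)) := by
  classical
  intro k x0 hx0 hd0
  let x : Cell → (Y.ι →₀ (tLW π s).X) := x0
  have hx : ∀ c, x c ∈ (tQ Y (tLG π s hs)).gr (k - cdeg c) := fun c => (hx0 c).1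
  have hxe : ∀ c, rN (hs := hs) (WD.e (w := WR π) (C2x354.oc c)) (x c) = x c := fun c => (hx0 c).2
  have hd : ∀ c', dN (hs := hs) (x c') +
      ∑ c, rN (hs := hs) (QF354.k0 π c c') (x c) = 0 := hd0
  let S : Finset Y.ι := Finset.univ.biUnion fun c : Cell => (x c).support
  have hS : ∀ c, (x c).support ⊆ S := fun c =>
    Finset.subset_biUnion_of_mem (fun c : Cell => (x c).support) (Finset.mem_univ c)
  let u : Y.ι →₀ (EO π s hs).H := Finsupp.onFinset S (fun σ => toH π s hs fun c => x c σ)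
    (fun σ hσ => by
      by_contra hc
      apply hσ
      refine eH_ext π s hs fun c j => ?_
      rw [eH_toH, eH_zero]
      have h0 : x c σ = 0 := by
        by_contra h1
        exact hc (hS c (Finsupp.mem_support_iff.2 h1))
      rw [h0]
      rfl)
  have hu : ∀ σ c j, eH π s hs (u σ) c j = eT π s (x c σ) j (C2x354.oc c) := fun _ _ _ => rfl
  have huS : u.support ⊆ S := Finsupp.support_onFinset_subset
  have hug : u ∈ (tG (HB362.HM (EO π s hs)) (cL 1 3 Y)).gr (k - s) := by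
    refine memA.2 fun σ => ⟨fun c j => ?_, fun c j => ?_⟩
    · have h := (memN.1 (hx c) σ).1 j (C2x354.oc c)
      rw [show k - (cdeg c : ℤ) - Y.s σ - s = k - s - Y.s σ - cdeg c by ring] at h
      exact h
    · exact (memN.1 (hx c) σ).2 j (C2x354.oc c)
  have hud : dA u = 0 := by
    refine Finsupp.ext fun τ => eH_ext π s hs fun c j => ?_
    rw [dA_entry u S huS]
    have h := congrArg (fun z : Y.ι →₀ (tLW π s).X => eT π s (z τ) j (C2x354.oc c)) (hd c)
    have h' : eT π s (dN (hs := hs) (x c) τ) j (C2x354.oc c) +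
        eT π s ((∑ c', rN (hs := hs) (QF354.k0 π c' c) (x c')) τ) j (C2x354.oc c) = 0 := h
    rw [dN_entry (hs := hs) (x c) S (hS c), eT_rsum (hs := hs)] at h'
    simp only [rN_k0 (hs := hs), if_true] at h'
    simp only [hu]
    rw [add_right_comm]
    exact h'
  obtain ⟨v0, hv0, hvd0⟩ := hA (k - s) u hug hud
  let v : Y.ι →₀ (EO π s hs).H := v0
  have hv := memA.1 (show v ∈ (tG (HB362.HM (EO π s hs)) (cL 1 3 Y)).gr (k - s + 1) from hv0)
  have hvd : dA v = u := hvd0
  let y : Cell → (Y.ι →₀ (tLW π s).X) := fun c => Finsupp.mapRange.linearMap (frH π s hs c) v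
  have hy : ∀ c σ i j, eT π s (y c σ) i j = if C2x354.oc c = j then eH π s hs (v σ) c i else 0 :=
    fun _ _ _ _ => rfl
  have hyS : ∀ c, (y c).support ⊆ v.support := fun c => Finsupp.support_mapRange (hf := map_zero _)
  refine ⟨y, fun c => ⟨?_, ?_⟩, fun c' => ?_⟩
  · refine memN.2 fun σ => ⟨fun i j => ?_, fun i j => ?_⟩
    · rw [hy]
      by_cases h : C2x354.oc c = j
      · rw [if_pos h, ← h]
        have h1 := (hv σ).1 c i
        rw [show k - (s : ℤ) + 1 - Y.s σ - cdeg c = k + 1 - cdeg c - Y.s σ - s by ring] at h1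
        exact h1
      · rw [if_neg h]
        exact Submodule.zero_mem _
    · simp only [hy]
      by_cases h : C2x354.oc c = j
      · simp only [if_pos h]
        exact (hv σ).2 c i
      · simp only [if_neg h, mul_zero, Finset.sum_const_zero]
  · change rN (hs := hs) (WD.e (w := WR π) (C2x354.oc c)) (y c) = y c
    refine Finsupp.ext fun σ => eT_ext π s fun i j => ?_
    rw [rN_e, hy]
    by_cases h : C2x354.oc c = j
    · rw [if_pos h]
    · rw [if_neg h, if_neg h]
  · change x c' = dN (hs := hs) (y c') + ∑ c, rN (hs := hs) (QF354.k0 π c c') (y c)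
    refine Finsupp.ext fun σ => eT_ext π s fun i j => ?_
    have h1 : eT π s ((dN (hs := hs) (y c') + ∑ c, rN (hs := hs) (QF354.k0 π c c') (y c)) σ) i j =
        eT π s (dN (hs := hs) (y c') σ) i j +
        eT π s ((∑ c, rN (hs := hs) (QF354.k0 π c c') (y c)) σ) i j := rfl
    rw [h1, dN_entry (hs := hs) (y c') v.support (hyS c'), eT_rsum (hs := hs)]
    simp only [rN_k0 (hs := hs), hy]
    by_cases h : C2x354.oc c' = j
    · subst h
      simp only [if_true]
      rw [← hu, ← hvd, dA_entry v v.support (Finset.Subset.refl _)]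
      exact add_right_comm _ _ _
    · simp only [if_neg h, map_zero, mul_zero, Finset.sum_const_zero, add_zero]
      have h2 := congrArg (fun z : Y.ι →₀ (tLW π s).X => eT π s (z σ) i j) (hxe c')
      simp only [rN_e (hs := hs), if_neg h] at h2
      exact h2.symm

/-- the `W`-letters act by zero on `Y ⊗ tL` -/
theorem JZ_tQ : QF354.JZ π (tQ Y (tLG π s hs)) := by
  intro a ha x
  have h : ∀ x : Y.ι →₀ (tLW π s).X, rN (hs := hs) a x = 0 := fun x =>
    Finsupp.ext fun σ => eT_ext π s fun i j => by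
      rw [rN_entry]
      refine (Finset.sum_eq_zero fun l _ => ?_).trans rfl
      rw [WL221.prL_eq_zero.2 (ha l j), mul_zero]
  exact h x

end main

end Crest.Agent.R186.KO163
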