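import Crest.Agent.R186.AcIff_492
import Crest.Agent.R186.TB2_143

/-!
Row 186 (A) (helper75), the join (V), mirror form (helper340 #35778).

`i : A'' → A`, `p : A → A''`, `p i = 1`, `M = ker p` as an `(A, A'')`-bimodule.  If `Y → G` are right
`A`-cells, `X'' → V''` left `A''`-cells, `X → V''` left `A`-cells and `(Y ⊗ M) ⊗ X''` is acyclic, then
`G ⊗ X` and `G ⊗ X''` are exact in the same degrees and have "one-dimensional homology generated by
one class" in the same degrees.
-/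

set_option autoImplicit false
set_option linter.style.haveILetI false
set_option linter.unusedSectionVars false

open MulOpposite

namespace Crest.Agent.R186.VJ75

open Hat827 Hat827.DGA Frame515 Res255 AcIff492

variable {K : Type} [Field K] {A B : DGA K}

/-- short exact sequence of right modules, tensored with left cells -/
noncomputable def tGSES {G G' G'' : RM A} (S : TB143.SES G.toGC G'.toGC G''.toGC)
    (hi : ∀ (a : A.C) (x : G.X), S.i.f (op a • x) = op a • S.i.f x)
    (hp : ∀ (a : A.C) (x : G'.X), S.p.f (op a • x) = op a • S.p.f x) (X : LCells A) :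
    TB143.SES (tG G X) (tG G' X) (tG G'' X) :=
  TB143.twSES S
    { φ := S.i, j := Equiv.refl _, hs := fun _ => rfl, hp := fun _ _ => hi _ _,
      hm := fun _ _ _ => hi _ _ }
    { φ := S.p, j := Equiv.refl _, hs := fun _ => rfl, hp := fun _ _ => hp _ _,
      hm := fun _ _ _ => hp _ _ } rfl rfl

/-- short exact sequence of left modules, tensored with right cells -/
noncomputable def tYSES {N N' N'' : LM A} (S : TB143.SES N.toGC N'.toGC N''.toGC)
    (hi : ∀ (a : A.C) (x : N.X), S.i.f (a • x) = a • S.i.f x)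
    (hp : ∀ (a : A.C) (x : N'.X), S.p.f (a • x) = a • S.p.f x) (Y : RCells A) :
    TB143.SES (tY Y N) (tY Y N') (tY Y N'') :=
  TB143.twSES S
    { φ := S.i, j := Equiv.refl _, hs := fun _ => rfl, hp := fun _ _ => hi _ _,
      hm := fun _ _ _ => hi _ _ }
    { φ := S.p, j := Equiv.refl _, hs := fun _ => rfl, hp := fun _ _ => hp _ _,
      hm := fun _ _ _ => hp _ _ } rfl rfl

/-- part (a): two-step filtration of a right module -/
theorem ac_ext {G G' G'' : RM A} (S : TB143.SES G.toGC G'.toGC G''.toGC)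
    (hi : ∀ (a : A.C) (x : G.X), S.i.f (op a • x) = op a • S.i.f x)
    (hp : ∀ (a : A.C) (x : G'.X), S.p.f (op a • x) = op a • S.p.f x) (X : LCells A)
    (h1 : Ac (tG G X)) (h2 : Ac (tG G'' X)) : Ac (tG G' X) := (tGSES S hi hp X).ac_mid h1 h2

/-- short exact sequence of bimodules -/
structure BSES (M P Q : BM A B) where
  S : TB143.SES M.toGC P.toGC Q.toGC
  iL : ∀ (a : A.C) (x : M.X), S.i.f (a • x) = a • S.i.f x
  iR : ∀ (b : B.C) (x : M.X), S.i.f (op b • x) = op b • S.i.f x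
  pL : ∀ (a : A.C) (x : P.X), S.p.f (a • x) = a • S.p.f x
  pR : ∀ (b : B.C) (x : P.X), S.p.f (op b • x) = op b • S.p.f x

/-- the sequence of left modules `M ⊗ X → P ⊗ X → Q ⊗ X` -/
noncomputable def BSES.tp {M P Q : BM A B} (T : BSES M P Q) (X : LCells B) :
    TB143.SES (tP M X).toGC (tP P X).toGC (tP Q X).toGC :=
  tGSES (G := M.toRM) (G' := P.toRM) (G'' := Q.toRM) T.S T.iR T.pR X

/-- `Y ⊗ (M ⊗ X) → Y ⊗ (P ⊗ X) → Y ⊗ (Q ⊗ X)` -/
noncomputable def BSES.ytp {M P Q : BM A B} (T : BSES M P Q) (Y : RCells A) (X : LCells B) :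
    TB143.SES (tY Y (tP M X)) (tY Y (tP P X)) (tY Y (tP Q X)) :=
  tYSES (N := tP M X) (N' := tP P X) (N'' := tP Q X) (T.tp X)
    (fun a x => Finsupp.ext fun σ => T.iL a ((show X.ι →₀ M.X from x) σ))
    (fun a x => Finsupp.ext fun σ => T.pL a ((show X.ι →₀ P.X from x) σ)) Y

/-- the kernel of `p : A → A''` as a bimodule -/
noncomputable def kerT {A A'' : DGA K} (i : Hm A'' A) (p : Hm A A'') (hpi : ∀ a, p.f (i.f a) = a)
    (M : BM A A'') (j : M.X →ₗ[K] A.C) (j_mem : ∀ {k : ℤ} {m : M.X}, m ∈ M.gr k → j m ∈ A.G k)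
    (j_d : ∀ m, j (M.d m) = A.D (j m)) (j_L : ∀ (a : A.C) (m : M.X), j (a • m) = a * j m)
    (j_R : ∀ (b : A''.C) (m : M.X), j (op b • m) = j m * i.f b)
    (j_inj : ∀ {k : ℤ} {m : M.X}, m ∈ M.gr k → j m = 0 → m = 0)
    (j_zero : ∀ m : M.X, p.f (j m) = 0)
    (j_ker : ∀ {k : ℤ} {a : A.C}, a ∈ A.G k → p.f a = 0 → ∃ m ∈ M.gr k, j m = a) :
    BSES M (resBR i (selfB A)) (resBL p (selfB A'')) where
  S :=
    { i := { f := j, f_mem := j_mem, f_d := j_d }
      p := { f := p.f.toLinearMap, f_mem := p.mem, f_d := p.D }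
      zero := fun _ => j_zero _
      inj := j_inj
      ex := fun hy h => j_ker hy h
      sur := fun {k z} hz => ⟨i.f z, i.mem hz, hpi z⟩ }
  iL := j_L
  iR := j_R
  pL a x := map_mul p.f a x
  pR b x := by
    change p.f ((show A.C from x) * i.f b) = p.f x * b
    rw [map_mul, hpi]

section join

variable {A A'' : DGA K} (i : Hm A'' A) (p : Hm A A'') {M : BM A A''}
  (T : BSES M (resBR i (selfB A)) (resBL p (selfB A'')))
  {G : RM A} {Y : RCells A} (RY : RRes Y G) {V : LM A''} {X'' : LCells A''} (RX'' : LRes X'' V)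
  {X : LCells A} (RX : LRes X (resL p V))

include T RY RX'' RX

/-- **(V), mirror form**: `G ⊗_A X` and `G ⊗_{A''} X''` are exact in the same degrees -/
theorem z_join (hM : Ac (tG (tQ Y M) X'')) (k : ℤ) :
    Z (tG G X) (RY.lo + (RX''.lo + k - RX.lo)) ↔ Z (tG (resR i G) X'') (RY.lo + k) := by
  have h1 : Z (tG G X) (RY.lo + (RX''.lo + k - RX.lo)) ↔
      Z (tY Y (resL p V)) (RX.lo + (RX''.lo + k - RX.lo)) := z_iff RY RX _
  rw [show RX.lo + (RX''.lo + k - RX.lo) = RX''.lo + k by ring] at h1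
  have h2 : Z (tY Y (tP (resBL p (selfB A'')) X'')) k ↔ Z (tY Y (resL p V)) (RX''.lo + k) :=
    z_Y (pushR p Y) RX'' k
  have hM' : Ac (tY Y (tP M X'')) := fun n => (asc_z Y M X'' n).1 (hM n)
  have h3 : Z (tY Y (tP (resBR i (selfB A)) X'')) k ↔
      Z (tY Y (tP (resBL p (selfB A'')) X'')) k :=
    ⟨fun h => (T.ytp Y X'').right h (hM' _), fun h => (T.ytp Y X'').mid (hM' _) h⟩
  have h4 : Z (tG (tQ Y (resBR i (selfB A))) X'') k ↔ Z (tY Y (tP (resBR i (selfB A)) X'')) k :=
    asc_z Y (resBR i (selfB A)) X'' k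
  have h5 : Z (tG (tQ Y (resBR i (selfB A))) X'') k ↔ Z (tG (resR i G) X'') (RY.lo + k) :=
    z_G RY (pushL i X'') k
  exact h1.trans (h2.symm.trans (h3.symm.trans (h4.symm.trans h5)))

end join

end Crest.Agent.R186.VJ75
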