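import Crest.Agent.R186.MLay_75
import Crest.Agent.R186.TLW_890
import Crest.Agent.R186.Chr2_763
import Crest.Agent.R186.VJ_75

/-!
Row 186 (A) (helper75): THE M-CHAIN, concrete.

The bimodule `M = R'' (x)_W DW` (890's `MW π s hs`) has six layers `tL · o_q` (right action twisted by
the torus element `Tq π q`).
* `ml π s hs : BLy (MW π s hs) 6`;
* `ac_M` : `(Y ⊗ M) ⊗ X''` is acyclic if all `(Y_L ⊗ tL) ⊗ (X''_L)^(tau_q)` are.
-/

set_option autoImplicit false
set_option linter.style.haveILetI false
set_option linter.unusedSectionVars false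

noncomputable section

open MulOpposite

namespace Crest.Agent.R186.MCh75

open Hat827 Win810 Win810.WD Frame515 WBM163 FinV988 Core890 SExt44 DefsQ830 PBW128 WL221 C2b44
open Res255 SM890 KOSM296 MLay75 Chr763

variable {K : Type} [Field K] (π : Par K)

/-! ### elements -/

/-- position of a letter -/
def idx : Wb → ℕ
  | .one => 0
  | .y s => 1 + s.val
  | .yb s => 3 + s.val
  | .pi => 5

/-- the letter of a position -/
def lt : ℕ → Wb
  | 0 => .one
  | 1 => .y 0
  | 2 => .y 1
  | 3 => .yb 0
  | 4 => .yb 1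
  | _ => .pi

theorem lt_idx (q : Wb) : lt (idx q) = q := by
  rcases q with _ | s | s | _ <;> (try rcases fin2 s with rfl | rfl) <;> rfl

theorem idx_lt6 (q : Wb) : idx q < 6 := by
  rcases q with _ | s | s | _ <;> (try rcases fin2 s with rfl | rfl) <;> decide

theorem idx_lt {j : ℕ} (hj : j < 6) : idx (lt j) = j := by
  interval_cases j <;> rfl

theorem tW_idx (q1 q : Wb) (h1 : q1 ≠ .one) : cW π q1 q = 0 ∨ idx (tW q1 q) < idx q := by
  have h10 : (1 : Fin 2) ≠ 0 := by decide
  have h01 : (0 : Fin 2) ≠ 1 := by decide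
  rcases q1 with _ | s | s | _ <;> rcases q with _ | s' | s' | _ <;>
    (try rcases fin2 s with rfl | rfl) <;> (try rcases fin2 s' with rfl | rfl) <;>
    first
    | exact absurd rfl h1
    | (left; simp [cW, dk, dt, h10, h01]; done)
    | (right; simp [tW, dt, idx]; done)

/-- the coordinate with values in `R'` -/
def co (q : Wb) : MM π →ₗ[K] RL π := (prL π).toLinearMap ∘ₗ cM π q

theorem co_apply (q : Wb) (m : MM π) : co π q m = prL π (cM π q m) := rfl

theorem co_zero {q : Wb} {m : MM π} (h : co π q m = 0) : cM π q m = 0 := by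
  rw [co_apply, prL_eq_zero, kill_cM] at h
  exact h

/-- **key**: coordinates of `r · o_q'` above -/
theorem co_oM {q q' : Wb} (h : idx q' ≤ idx q) (r : R π) :
    co π q (oM π q' r) = if q' = q then prL π r else 0 := by
  refine (WLF296.ext_nf π (φ := co π q ∘ₗ oM π q')
    (ψ := if q' = q then (prL π).toLinearMap else 0) ?_ r).trans ?_
  · intro i j k w q1
    rw [LinearMap.comp_apply, KOSM296.oM_nf]
    have e1 : co π q (cW π q1 q' • (bv K i j k w (tW q1 q') : N K)) =
        cW π q1 q' • co π q (bv K i j k w (tW q1 q') : N K) := map_smul (co π q) _ _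
    rw [e1]
    have e2 : co π q (bv K i j k w (tW q1 q') : N K) =
        prL π (if tW q1 q' = q then nf π (i, j, k, w, .one) else 0) :=
      congrArg (prL π) (cN_bv π q i j k w (tW q1 q'))
    rw [e2]
    by_cases h1 : q1 = .one
    · subst h1
      have e3 : cW π .one q' = 1 := rfl
      have e4 : tW .one q' = q' := rfl
      rw [e3, e4, one_smul]
      split_ifs <;> simp
    · have e5 : prL π (nf π (i, j, k, w, q1)) = 0 := by
        rw [prL_eq_zero, WLF296.kill_nf', if_neg h1]
      have e6 : (if q' = q then (prL π).toLinearMap else 0) (nf π (i, j, k, w, q1)) = 0 := by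
        split_ifs
        · exact e5
        · rfl
      rw [e6]
      rcases tW_idx π q1 q' h1 with h2 | h2
      · rw [h2, zero_smul]
      · rw [if_neg, map_zero, smul_zero]
        rintro rfl
        omega
  · split_ifs <;> rfl

/-- the general computation -/
theorem co_sum {q : Wb} {m : MM π} (hm : ∀ q', idx q < idx q' → cM π q' m = 0)
    (f : MM π →ₗ[K] MM π) (g : Wb → R π →ₗ[K] R π)
    (h : ∀ q' t, f (oM π q' t) = oM π q' (g q' t)) : co π q (f m) = prL π (g q (cM π q m)) := by
  conv_lhs => rw [sum_cM π m]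
  rw [map_sum, map_sum, Finset.sum_eq_single q]
  · rw [h, co_oM π le_rfl, if_pos rfl]
  · intro q' _ hq
    by_cases h1 : idx q' ≤ idx q
    · rw [h, co_oM π h1, if_neg hq]
    · rw [hm q' (by omega), map_zero, map_zero, map_zero]
  · intro h'
    exact absurd (Finset.mem_univ _) h'

theorem co_l {q : Wb} {m : MM π} (hm : ∀ q', idx q < idx q' → cM π q' m = 0) (r : R π) :
    co π q (repM π r m) = prL π r * co π q m := by
  refine (co_sum π hm (repM π r) (fun _ => LinearMap.mulLeft K r)
    (fun q' t => smul_oM π q' r t)).trans ?_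
  rw [LinearMap.mulLeft_apply, map_mul, co_apply]

theorem co_r {q : Wb} {m : MM π} (hm : ∀ q', idx q < idx q' → cM π q' m = 0) (r : R π) :
    co π q (rho π r m) = co π q m * tauL π (Tq π q) (prL π r) := by
  refine (co_sum π hm (rho π r) (fun q' => LinearMap.mulRight K (tau π (Tq π q') r))
    (fun q' t => op_smul_oM π q' r t)).trans ?_
  rw [LinearMap.mulRight_apply, map_mul, co_apply, tauL_prL]

theorem co_d {q : Wb} {m : MM π} (hm : ∀ q', idx q < idx q' → cM π q' m = 0) :
    co π q (dMM π m) = DL π (co π q m) := by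
  have := co_sum π hm (dMM π) (fun _ => Der580.D π) (fun q' t => dMM_oM π q' t)
  rw [this, co_apply, DL_prL]

theorem co_mem (s : ℕ) {P A C : ℤ} {m : MM π} (hm : m ∈ pcM π s P A C) (q : Wb) :
    co π q m ∈ pcL π (P + 1) A (C + wC q.word - s) := by
  have h := KOSM296.cM_mem π s hm q
  rw [← KOS296.pcZ_eq_pz, show C - (s : ℤ) + wC q.word = C + wC q.word - s by ring] at h
  exact prL_mem h

/-! ### windows -/

section W

variable (s : ℕ) (hs : 2 ≤ s)

theorem co_E (q : Wb) {i j : DefsQ830.Ob} {m : MM π} (hm : m ∈ E (tbOf (bdM π s hs)) i j) :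
    co π q m ∈ E (tLT π s) i j := by
  have h : E (tbOf (bdM π s hs)) i j ≤ (E (tLT π s) i j).comap (co π q) := by
    refine iSup_le fun k x hx => ?_
    refine q_le_E (tLT π s) i j (k + wC q.word) ?_
    have h1 := co_mem π s ((le_of_eq (q_tbOf (bdM π s hs) i j k)) hx) q
    exact (le_of_eq (q_tLT π s i j (k + wC q.word)).symm) h1
  exact h hm

/-- the coordinate on windows -/
def coW (q : Wb) : (MW π s hs).X →ₗ[K] (tLW π s).X where
  toFun m := (⟨fun i j => co π q (m.1 i j), fun i j => co_E π s hs q (m.2 i j)⟩ : Xs (tLT π s))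
  map_add' m n := by
    apply Subtype.ext
    funext i j
    exact map_add (co π q) _ _
  map_smul' c m := by
    apply Subtype.ext
    funext i j
    exact map_smul (co π q) _ _

theorem coW_apply (q : Wb) (m : (MW π s hs).X) (i j : DefsQ830.Ob) :
    (coW π s hs q m).1 i j = co π q (m.1 i j) := rfl

theorem coW_zero {q : Wb} {m : (MW π s hs).X} (h : coW π s hs q m = 0) (i j : DefsQ830.Ob) :
    cM π q (m.1 i j) = 0 :=
  co_zero π (congrFun (congrFun (congrArg Subtype.val h) i) j)

/-- the right structure of the layer `q`: `L'' → L`, then `tau_q` -/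
def hq (q : Wb) : Hm (WR π).dga (WL π).dga := (hL π (Tq π q)).comp (SM890.prHm π)

theorem hq_apply (q : Wb) (b : (WR π).Win) (i j : DefsQ830.Ob) :
    (show (WL π).Win from (hq π q).f b).1 i j = tauL π (Tq π q) (prL π (b.1 i j)) := rfl

/-- the layer `tL · o_q` -/
abbrev Dq (q : Wb) : BM (WR π).dga (WR π).dga :=
  resBL (SM890.prHm π) (resBR (hq π q) (tLW π s))

theorem upz {j : ℕ} (hj : j < 6) {m : (MW π s hs).X}
    (h : ∀ i < 6, j < i → coW π s hs (lt i) m = 0) (q' : Wb) (hq' : idx (lt j) < idx q')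
    (i k : DefsQ830.Ob) : cM π q' (m.1 i k) = 0 := by
  rw [idx_lt hj] at hq'
  have := h (idx q') (idx_lt6 q') hq'
  rw [lt_idx] at this
  exact coW_zero π s hs this i k

/-- **the six layers of `M`** -/
def ml : BLy (MW π s hs) 6 where
  D j := Dq π s (lt j)
  c j := wC (lt j).word
  μ j := coW π s hs (lt j)
  mem j hj k x hx _ := (mem_grtL).2 fun i i' => co_mem π s ((mem_grM (bdM π s hs)).1 hx i i') (lt j)
  zero {k x} hx h := by
    apply Subtype.ext
    funext i i'
    refine eq_zero_of_cM π fun q => ?_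
    have := h (idx q) (idx_lt6 q)
    rw [lt_idx] at this
    exact coW_zero π s hs this i i'
  md j hj x hx := by
    apply Subtype.ext
    funext i i'
    exact co_d π fun q' hq' => upz π s hs hj hx q' hq' i i'
  msL j hj a x hx := by
    apply Subtype.ext
    funext i i'
    refine (map_sum (co π (lt j)) _ _).trans ?_
    exact Finset.sum_congr rfl fun l _ => co_l π (fun q' hq' => upz π s hs hj hx q' hq' l i') _
  msR j hj b x hx := by
    apply Subtype.ext
    funext i i'
    refine (map_sum (co π (lt j)) _ _).trans ?_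
    exact Finset.sum_congr rfl fun l _ => co_r π (fun q' hq' => upz π s hs hj hx q' hq' i l) _
  sur j hj k y hy := by
    have hy' : ∀ i i', (show RL π from (show Xs (tLT π s) from y).1 i i') ∈
        pcL π ((WL π).P i - (WL π).P i' + 1) ((WL π).A i - (WL π).A i') (k + wC (lt j).word - s) :=
      (mem_grtL).1 hy
    have hx : ∀ i i', oM π (lt j) (show RL π from (show Xs (tLT π s) from y).1 i i').1 ∈
        pcM π s ((WR π).P i - (WR π).P i') ((WR π).A i - (WR π).A i') k := fun i i' =>
      mem_pcM π s (lt j) (hy' i i') (by ring)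
    let x : (MW π s hs).X := ⟨fun i i' => oM π (lt j) (show RL π from (show Xs (tLT π s) from y).1 i i').1,
      fun i i' => q_le_E (tbOf (bdM π s hs)) i i' k
        ((le_of_eq (q_tbOf (bdM π s hs) i i' k).symm) (hx i i'))⟩
    refine ⟨x, (mem_grM (bdM π s hs)).2 hx, ?_, ?_⟩
    · apply Subtype.ext
      funext i i'
      show co π (lt j) (oM π (lt j) (show RL π from (show Xs (tLT π s) from y).1 i i').1) = _
      rw [co_oM π le_rfl, if_pos rfl]
      exact prL_inL _
    · intro i hi hij
      apply Subtype.ext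
      funext a b
      show co π (lt i) (oM π (lt j) (show RL π from (show Xs (tLT π s) from y).1 a b).1) = 0
      have h1 : idx (lt j) < idx (lt i) := by rw [idx_lt hj, idx_lt hi]; exact hij
      rw [co_oM π h1.le, if_neg]
      intro h2
      rw [h2] at h1
      exact lt_irrefl _ h1

/-- **THE M-CHAIN over `L''`** -/
theorem ac_MW (Y : RCells (WR π).dga) (X : LCells (WR π).dga)
    (h : ∀ q : Wb, Ac (tG (tQ (pushR (SM890.prHm π) Y) (tLW π s)) (pushL (hq π q) X))) :
    Ac (tG (tQ Y (MW π s hs)) X) :=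
  (ml π s hs).ac Y X fun j _ => h (lt j)

/-- **THE M-CHAIN over `Γ`**: 340's `hM` -/
theorem ac_M (Y : RCells (Gm π s hs)) (X : LCells (WR π).dga)
    (h : ∀ q : Wb, Ac (tG (tQ (pushR ((SM890.prHm π).comp (HmP π s hs)) Y) (tLW π s))
      (pushL (hq π q) X))) :
    Ac (tG (tQ Y (resBL (HmP π s hs) (MW π s hs))) X) :=
  ac_MW π s hs (pushR (HmP π s hs) Y) X h

/-- the exact sequence `M → Γ → L''` -/
def seqM : VJ75.BSES (resBL (HmP π s hs) (MW π s hs)) (resBR (HmI π s hs) (selfB (Gm π s hs)))
    (resBL (HmP π s hs) (selfB (WR π).dga)) :=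
  VJ75.kerT (HmI π s hs) (HmP π s hs) (HmP_HmI π s hs) (resBL (HmP π s hs) (MW π s hs))
    (inrW (bdM π s hs)) (inrW_mem (bdM π s hs)) (inrW_d (bdM π s hs))
    (fun a m => (mul_inrW (bdM π s hs) a m).symm) (fun b m => (inrW_mul_inlH (bdM π s hs) m b).symm)
    (fun _ h => inrW_inj (bdM π s hs) (h.trans (map_zero _).symm))
    (fun m => fstH_inrW (bdM π s hs) m) (fun ha h => inrW_ex (bdM π s hs) ha h)

end W

end Crest.Agent.R186.MCh75
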