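import Crest.Agent.R186.QF_354
import Crest.Agent.R186.MCh_75

/-!
# Row 186, half (A), (V'), (helper354): the six layers of `t(M) ⊗ X''` are acyclic if `t(tL) ⊗ KK` is
-/

set_option autoImplicit false
set_option linter.style.haveILetI false

noncomputable section

open MulOpposite

namespace Crest.Agent.R186.QG354

open Hat827 Hat827.DGA Frame515 Crest.Agent.R186.Res255
open Crest.Agent.R186.Win810 Crest.Agent.R186.Win810.WD
open Crest.Agent.R186.DefsQ830 Crest.Agent.R186.Cells221 Crest.Agent.R186.C2x354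
open Crest.Agent.R186.QF354 Crest.Agent.R186.PBW128 Crest.Agent.R186.SM890
open Crest.Agent.R186.C2b44 (kill c0)
open Crest.Agent.R186.WL221 (WL prW prW_e mapW_e prL prL_eq_zero)
open Crest.Agent.R186.Chr763 (hL hPr hL_hPr hR)
open Crest.Agent.R186.MCh75 (hq hq_apply)

variable {K : Type} [Field K] (π : Par K)

theorem hL_e (t : Tor K) (o : DefsQ830.Ob) :
    (hL π t).f (WD.e (w := WL π) o) = WD.e (w := WL π) o :=
  mapW_e (w := WL π) (w' := WL π) (Chr763.tauL π t) (Equiv.refl DefsQ830.Ob)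
    (fun _ _ _ _ ha => Chr763.tauL_mem π t ha) o

theorem hq_e (q : Wb) (o : DefsQ830.Ob) :
    (hq π q).f (WD.e (w := WR π) o) = (SM890.prHm π).f (WD.e (w := WR π) o) := by
  have h1 : (SM890.prHm π).f (WD.e (w := WR π) o) = WD.e (w := WL π) o := prW_e o
  have h2 : (hq π q).f (WD.e (w := WR π) o) =
      (hL π (Tq π q)).f ((SM890.prHm π).f (WD.e (w := WR π) o)) := rfl
  rw [h2, h1, hL_e]

theorem hq_R (q : Wb) (a : (WR π).Win) :
    (hq π q).f a = (SM890.prHm π).f ((hR π (Tq π q)).f a) :=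
  hL_hPr π (Tq π q) a

/-- the `W`-letters act by zero through `hq` -/
theorem JZ_hq (N : RM (WL π).dga) (q : Wb) : JZ π (resR (hq π q) N) := by
  intro a ha x
  have h : (hq π q).f a = 0 := by
    apply Subtype.ext
    ext i j
    have h1 := hq_apply π q a i j
    have h2 : prL π (a.1 i j) = 0 := (prL_eq_zero).2 (ha i j)
    rw [h2, map_zero] at h1
    exact h1
  show op ((hq π q).f a) • (show N.X from x) = 0
  rw [h, op_zero, zero_smul]

theorem JZ_pr (N : RM (WL π).dga) : JZ π (resR (SM890.prHm π) N) := JZ_resR π N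

/-- **the six layers** -/
theorem star (N : RM (WL π).dga) (lo : ℤ) (hlo : ∀ k : ℤ, k < lo → ∀ x ∈ N.gr k, x = 0)
    (h : KK0 π (resR (SM890.prHm π) N)) (q : Wb) : Ac (tG N (pushL (hq π q) (XX π))) := by
  have hac : Ac (tG (resR (hq π q) N) (XX π)) := by
    refine ac_XX π (JZ_hq π N q) lo hlo ?_
    have h1 := KK0.twist π (JZ_pr π N) h (Tq π q) (tau π (Tq π q))
      (fun g _ => tau_X π _ g) (fun c c' => (hR π (Tq π q)).f (k0 π c c')) (fun c c' i j => by
        have h2 : ent π ((hR π (Tq π q)).f (k0 π c c')) i j =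
          tau π (Tq π q) (ent π (k0 π c c') i j) := rfl
        rw [h2, k0_ent]
        split_ifs
        · rfl
        · rw [map_zero, map_zero])
    have e1 : (fun c => rmul (resR (hq π q) N) (WD.e (w := WR π) (oc c))) =
        fun c => rmul (resR (SM890.prHm π) N) (WD.e (w := WR π) (oc c)) := by
      funext c
      show rmul N ((hq π q).f (WD.e (w := WR π) (oc c))) =
        rmul N ((SM890.prHm π).f (WD.e (w := WR π) (oc c)))
      rw [hq_e]
    have e2 : (fun c c' => rmul (resR (hq π q) N) (k0 π c c')) =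
        fun c c' => rmul (resR (SM890.prHm π) N) ((hR π (Tq π q)).f (k0 π c c')) := by
      funext c c'
      show rmul N ((hq π q).f (k0 π c c')) = rmul N ((SM890.prHm π).f ((hR π (Tq π q)).f (k0 π c c')))
      rw [hq_R]
    unfold KK0
    rw [e1, e2]
    exact h1
  exact hac

/-- `Y ⊗ tL` is bounded below -/
theorem tQ_low (s : ℕ) (Y : RCells (WL π).dga) (k : ℤ) (hk : k < 0)
    (x : (tQ Y (tLW π s)).X) (hx : x ∈ (tQ Y (tLW π s)).gr k) : x = 0 := by
  apply Finsupp.ext
  intro σ
  have h1 : (show Y.ι →₀ (tLW π s).X from x) σ ∈ (tLW π s).gr (k - Y.s σ) := (hx σ).1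
  refine Subtype.ext ?_
  funext i j
  have h2 := (mem_grtL.1 h1) i j
  have h3 : (WL π).pc ((WL π).P i - (WL π).P j + 1) ((WL π).A i - (WL π).A j)
      (k - Y.s σ - s) = ⊥ := Crest.Agent.R186.WL221.pcL_neg (Or.inr (by omega))
  rw [h3] at h2
  exact (Submodule.mem_bot K).1 h2

variable (s : ℕ) (hs : 2 ≤ s)

/-- `t(tL) = Y ⊗ tL` as a right module over `L''` -/
abbrev NtL (Y : RCells (Gm π s hs)) : RM (WR π).dga :=
  resR (SM890.prHm π) (tQ (pushR ((SM890.prHm π).comp (HmP π s hs)) Y) (tLW π s))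

/-- **`hM` of (V') from the single statement `KK0` for `t(tL)`** -/
theorem hM_of (Y : RCells (Gm π s hs)) (h : KK0 π (NtL π s hs Y)) :
    Ac (tG (tQ Y (resBL (HmP π s hs) (MW π s hs))) (XX π)) :=
  MCh75.ac_M π s hs Y (XX π) fun q => star π _ 0 (tQ_low π s _) h q

end Crest.Agent.R186.QG354
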