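import Crest.Agent.R186.TRio_247
import Crest.Agent.R186.TRopK2_374
import Crest.Agent.R186.CEop_340
import Crest.Agent.R186.JTRc_322
import Crest.Agent.R186.LtR_654

/-!
Row 186 (A), (V') item (1a) (helper247): output of (TR') on the rows over `cL 1 3 Y`, `Y → D V_{-1}`
right cells over `Gamma`: the chain maps `t' + l h'` of the letters `ltOp` are quasi-isomorphisms.

* `q1` : row `1`, `l = 1`  (`theta_0` on the columns `(0, b)` of `t(L)`);
* `q2` : row `2`, `l = g`  (`theta_(-1)` on the columns `(0, b)` of `t(tL)`);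
* `qh1`, `qh2` : `h` on the rows `1`, `2`.
-/

set_option autoImplicit false
set_option linter.style.haveILetI false
set_option linter.unusedSectionVars false

open MulOpposite

noncomputable section

namespace Crest.Agent.R186.TRqo247

open Hat827 Hat827.DGA Frame515 Res255 Win810 TR810 KHc302 Opw671 FinV988 TRio247 FamU654
open Crest.Agent.R186.DefsQ830 Crest.Agent.R186.SM890 Crest.Agent.R186.WL221
open Crest.Agent.R186.Cells221 (tR)
open Crest.Agent.R186.ThK763 (wS)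

variable {K : Type} [Field K] (π : Par K) (s : ℕ) (hs : 5 ≤ s)

/-- `HL462.Lt` over the opposite data gives 654's letters -/
abbrev Eo : KHev302.CE (opW (WG π s (two_le hs)) 1 3) := V340.ceOp 1 3 (LtR654.Er π s hs)

/-- the letters of the opposite data -/
def lo : HL462.Lt (Eo π s hs) (π.g)⁻¹ := V340.ltOp (LtR654.lt π s hs) π.g0 π.two

/-- 654's form -/
abbrev TLo (X : LCells (opW (WG π s (two_le hs)) 1 3).dga) :
    XDHT (rowSys (Eo π s hs) X) (π.g)⁻¹ := LtR654.xdht (lo π s hs) X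

/-- an instance of 810's data over the opposite window, with 374's thetas -/
structure TO (T : TRD (TRopK374.wO π s (two_le hs))) : Prop where
  J : T.Fl 0 = TRopK374.oJ π s (two_le hs)
  T0 : ∀ θ, T.T0 θ → TRopK374.T0 π s (two_le hs) θ
  T1 : ∀ θ, TRopK374.T1 π s (two_le hs) θ → T.T1 θ
  T2 : ∀ θ, TRopK374.T1 π s (two_le hs) θ → T.T2 θ

variable {π s hs}

theorem thR_eq (e : ℤ) : TRopK374.thR π e = TRin772.theta π e := by
  unfold TRopK374.thR TRin772.theta
  rw [sub_eq_add_neg]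
  congr 1
  exact neg_eq_of_add_eq_zero_left (Der580.add_self π _)

theorem nz (θ : Th (TRopK374.wO π s (two_le hs))) (h : TRopK374.T0 π s (two_le hs) θ) :
    TRin772.NZ π ((bdM π s (two_le hs)).fst (unop θ.t)) := by
  obtain ⟨c, hc, ⟨e, he, h1⟩ | h1⟩ := h
  · have h2 : (bdM π s (two_le hs)).fst (unop θ.t) = c • TRopK374.thR π e := by
      rw [h1]; rfl
    have he' : 1 ≤ e := he
    rw [h2, thR_eq]
    exact TRj461.NZ_smul hc (TRin772.NZ_theta π (by omega))
  · have h2 : (bdM π s (two_le hs)).fst (unop θ.t) = c • X π .h := by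
      rw [h1]; rfl
    rw [h2]
    exact TRj461.NZ_smul hc (TRin772.NZ_h π)

theorem hJ (x : (opW (WG π s (two_le hs)) 1 3).S) :
    x ∈ TRopK374.oJ π s (two_le hs) ↔ (Eo π s hs).p x = 0 := by
  have h1 : x ∈ TRopK374.oJ π s (two_le hs) ↔
      C2b44.kill π (KHc302.fR π s (two_le hs) (unop x)) = 0 := Iff.rfl
  have h2 := (JTR322.mem_JW_iff π s hs (unop x)).symm
  have h3 : (Eo π s hs).p x = op ((LtR654.Er π s hs).p (unop x)) := rfl
  rw [h1, h2, JTR322.mem_JW, h3]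
  exact (MulOpposite.op_eq_zero_iff _).symm

theorem hsur {P A C : ℤ} {b : (Eo π s hs).B} (hb : b ∈ (Eo π s hs).pb P A C) :
    ∃ x ∈ (opW (WG π s (two_le hs)) 1 3).pc P A C, (Eo π s hs).p x = b := by
  obtain ⟨x, hx, h⟩ := JTR322.hsur π s hs (b := unop b) hb
  exact ⟨op x, hx, congrArg op h⟩

theorem p_oth (c : K) (e : ℤ) : (Eo π s hs).p (TRopK374.oth π s (two_le hs) c e).t =
    op (c • (LtR654.tL π + (π.g ^ (-e - 2)) • LtR654.hL π)) := by
  have h : (Eo π s hs).p (TRopK374.oth π s (two_le hs) c e).t =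
      op (prL π (c • TRopK374.thR π e)) := rfl
  rw [h, thR_eq, map_smul]
  congr 2
  change prL π (tR π + π.g ^ (-e - 2) • X π .h) = _
  rw [map_add, map_smul]
  rfl

theorem p_othH (c : K) : (Eo π s hs).p (TRopK374.othH π s (two_le hs) c).t =
    op (c • LtR654.hL π) := by
  have h : (Eo π s hs).p (TRopK374.othH π s (two_le hs) c).t =
      op (prL π (c • X π .h)) := rfl
  rw [h, map_smul]
  rfl

variable {Y : RCells (wS π s (two_le hs)).dga}
  (R : RRes Y (DR (TRin772.VG π s (two_le hs) (-1))))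
  {T : TRD (TRopK374.wO π s (two_le hs))} (hT : TO π s hs T)

include R hT in
/-- **row `1`, `theta_0`** -/
theorem q1 {a : ℕ} (ha : a < 3) : QI ((TLo π s hs (cL 1 3 Y)).thH 1 1 a) := by
  refine JTR322.thQI (TLo π s hs (cL 1 3 Y)) (fun h => hsur h) hJ _ 1 a
    (TRopK374.oth π s (two_le hs) 1 0) ?_ fun n => ?_
  · rw [p_oth]
    change _ = op (LtR654.tL π) + (1 : K) • op ((π.g ^ 2)⁻¹ • LtR654.hL π)
    rw [one_smul, one_smul, op_add]
    have : π.g ^ (-(0 : ℤ) - 2) = (π.g ^ 2)⁻¹ := by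
      rw [neg_zero, zero_sub, zpow_neg]
      norm_cast
    rw [this]
  · rw [← hT.J]
    exact (trOp π s (two_le hs) T (fun θ h => nz (hs := hs) θ (hT.T0 θ h)) R ha).2.1 _
      (hT.T1 _ (TRopK374.oth_TT π s (two_le hs) one_ne_zero (show (-1 : ℤ) ≤ 0 by norm_num))) n

include R hT in
/-- **row `2`, `theta_(-1)`** -/
theorem q2 {a : ℕ} (ha : a < 3) : QI ((TLo π s hs (cL 1 3 Y)).thH π.g 2 a) := by
  refine JTR322.thQI (TLo π s hs (cL 1 3 Y)) (fun h => hsur h) hJ _ 2 a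
    (TRopK374.oth π s (two_le hs) 1 (-1)) ?_ fun n => ?_
  · rw [p_oth]
    change _ = op (LtR654.tL π) + π.g • op ((π.g ^ 2)⁻¹ • LtR654.hL π)
    rw [one_smul, ← op_smul, smul_smul, op_add]
    have : π.g ^ (-(-1 : ℤ) - 2) = π.g * (π.g ^ 2)⁻¹ := by
      rw [show (-(-1 : ℤ) - 2) = -1 by norm_num, zpow_neg_one, pow_two, mul_inv, ← mul_assoc,
        mul_inv_cancel₀ π.g0, one_mul]
    rw [this]
  · rw [← hT.J]
    exact (trOp π s (two_le hs) T (fun θ h => nz (hs := hs) θ (hT.T0 θ h)) R ha).2.2 _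
      (hT.T2 _ (TRopK374.oth_TT π s (two_le hs) one_ne_zero (show (-1 : ℤ) ≤ -1 by norm_num))) n

/-- 654's chain map of `h'` -/
abbrev hH (X : LCells (opW (WG π s (two_le hs)) 1 3).dga) (p : ℤ) (a : ℕ) :
    GCHom ((rowSys (Eo π s hs) X).U p a) ((rowSys (Eo π s hs) X).U p ((a + 1 : ℕ) : ℤ)) :=
  RowSys.lH ((TLo π s hs X).mh p a) (TLo π s hs X).h_D

theorem hQI {X : LCells (opW (WG π s (two_le hs)) 1 3).dga} (p : ℤ) (a : ℕ)
    (H : ∀ n, AcQ (Yc (TRopK374.othH π s (two_le hs) ((π.g ^ 2)⁻¹)) p a X) ⊤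
      (TF X (TRopK374.oJ π s (two_le hs))) n) : QI (hH (hs := hs) X p a) :=
  JTR322.qi_congr (a' := ((a + 1 : ℕ) : ℤ))
    (show (Eo π s hs).p (TRopK374.othH π s (two_le hs) ((π.g ^ 2)⁻¹)).t = (TLo π s hs X).h from
      p_othH _)
    (JTR322.th_pb (Eo π s hs) _ p a) (JTR322.th_d (Eo π s hs) _) ((TLo π s hs X).mh p a)
    (TLo π s hs X).h_D
    (JTR322.qi (fun h => hsur h) hJ _ p a H (JTR322.th_pb (Eo π s hs) _ p a)
      (JTR322.th_d (Eo π s hs) _))

include R hT in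
/-- **row `1`, `h`** -/
theorem qh1 {a : ℕ} (ha : a < 3) : QI (hH (hs := hs) (cL 1 3 Y) 1 a) := by
  refine hQI 1 a fun n => ?_
  rw [← hT.J]
  exact (trOp π s (two_le hs) T (fun θ h => nz (hs := hs) θ (hT.T0 θ h)) R ha).2.1 _
    (hT.T1 _ (TRopK374.othH_TT π s (two_le hs) _ (inv_ne_zero (pow_ne_zero 2 π.g0)))) n

include R hT in
/-- **row `2`, `h`** -/
theorem qh2 {a : ℕ} (ha : a < 3) : QI (hH (hs := hs) (cL 1 3 Y) 2 a) := by
  refine hQI 2 a fun n => ?_
  rw [← hT.J]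
  exact (trOp π s (two_le hs) T (fun θ h => nz (hs := hs) θ (hT.T0 θ h)) R ha).2.2 _
    (hT.T2 _ (TRopK374.othH_TT π s (two_le hs) _ (inv_ne_zero (pow_ne_zero 2 π.g0)))) n

end Crest.Agent.R186.TRqo247
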