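import Crest.Agent.R186.KO_163
import Crest.Agent.R186.QG_354
import Crest.Agent.R186.TRqo_247

/-!
Row 186, half (A), (V') (helper163): KO_163 in the literals of QG_354 and TRqo_247.
-/

set_option autoImplicit false

namespace Crest.Agent.R186.KO163

open Hat827 Win810 Frame515 Res255 Opw671 SM890 DefsQ830

variable {K : Type} [Field K] {π : Par K} {s : ℕ} {hs : 5 ≤ s}
  {Y : RCells (Gm π s (KHc302.two_le hs))}

theorem HM_Eo : HB362.HM (TRqo247.Eo π s hs) = HB362.HM (EO π s hs) := rfl

/-- **(V') item (2)** in the literals of 354 and 247 -/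
theorem KK0_NtL (hA : Ac (tG (HB362.HM (TRqo247.Eo π s hs)) (cL 1 3 Y))) :
    QF354.KK0 π (QG354.NtL π s (KHc302.two_le hs) Y) :=
  KK0_of (π := π) (s := s) (hs := hs) (Y := Y) hA

end Crest.Agent.R186.KO163
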