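import Crest.Agent.R186.KF_355

/-!
Row 186, S0281, base (helper355): the row maps of `K(n)` preserve the lattices.
-/

set_option autoImplicit false

namespace Crest.Agent.R186.B281

namespace KN

variable {K : Type} [Field K]

/-- the row lattice `(a, b) ∈ F (k-c)`, `a x₀ + b x₁ ∈ F (k-d)` -/
def RK (g : K) (c d k P : ℤ) (v : Fin 2 → Op K) : Prop :=
  v 0 ∈ Fil g (k - c) P ∧ v 1 ∈ Fil g (k - c) P ∧ cc v ∈ Fil g (k - d) (P + 1)

variable {g : K}

theorem RK.zero {c d k P : ℤ} : RK g c d k P 0 :=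
  ⟨zero_mem _, zero_mem _, by rw [cc_zero]; exact zero_mem _⟩

theorem RK.add {c d k P : ℤ} {v w : Fin 2 → Op K} (hv : RK g c d k P v) (hw : RK g c d k P w) :
    RK g c d k P (v + w) :=
  ⟨add_mem hv.1 hw.1, add_mem hv.2.1 hw.2.1, by rw [cc_add]; exact add_mem hv.2.2 hw.2.2⟩

theorem cc_neg (v : Fin 2 → Op K) : cc (-v) = -cc v := by
  simp only [cc, Pi.neg_apply, neg_mul]
  abel

theorem cc_csmul (t : K) (v : Fin 2 → Op K) : cc (t • v) = t • cc v := by
  simp only [cc, Pi.smul_apply, smul_mul_assoc, smul_add]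

theorem RK.neg {c d k P : ℤ} {v : Fin 2 → Op K} (hv : RK g c d k P v) : RK g c d k P (-v) :=
  ⟨neg_mem hv.1, neg_mem hv.2.1, by rw [cc_neg]; exact neg_mem hv.2.2⟩

theorem RK.sub {c d k P : ℤ} {v w : Fin 2 → Op K} (hv : RK g c d k P v) (hw : RK g c d k P w) :
    RK g c d k P (v - w) := by
  rw [sub_eq_add_neg]
  exact hv.add hw.neg

theorem RK.csmul {c d k P : ℤ} {v : Fin 2 → Op K} (t : K) (hv : RK g c d k P v) :
    RK g c d k P (t • v) :=
  ⟨Submodule.smul_mem _ _ hv.1, Submodule.smul_mem _ _ hv.2.1, by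
    rw [cc_csmul]; exact Submodule.smul_mem _ _ hv.2.2⟩

theorem RK.ite {c d k P : ℤ} {v : Fin 2 → Op K} (p : Prop) [Decidable p]
    (hv : p → RK g c d k P v) : RK g c d k P (if p then v else 0) := by
  split_ifs with h
  · exact hv h
  · exact RK.zero

theorem ite_mem' {S : Submodule K (Op K)} {a : Op K} (p : Prop) [Decidable p]
    (h : p → a ∈ S) : (if p then a else 0) ∈ S := by
  split_ifs with h'
  · exact h h'
  · exact zero_mem _

/-- a pair of elements of `F (k-c')` is a row as soon as `c, d ≤ c'` -/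
theorem RK.pair (hg : Gen g) {c d c' k P : ℤ} (h1 : c ≤ c') (h2 : d ≤ c') {a b : Op K}
    (ha : a ∈ Fil g (k - c') P) (hb : b ∈ Fil g (k - c') P) : RK g c d k P ![a, b] :=
  ⟨Fil_mono g (by omega) ha, Fil_mono g (by omega) hb,
    add_mem (Fil_mono g (by omega) (FD757.mul_X_mem hg 0 ha))
      (Fil_mono g (by omega) (FD757.mul_X_mem hg 1 hb))⟩

theorem cc_syz (c : Op K) : cc (syz c) = 0 := by
  show c * X 1 * X 0 + -(c * X 0) * X 1 = 0
  rw [neg_mul, mul_assoc, mul_assoc, X_comm 1 0]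
  exact add_neg_cancel _

/-- the syzygy of an element of `F (k-c) (P-1)` -/
theorem RK.syz (hg : Gen g) {c d k P : ℤ} {a : Op K} (ha : a ∈ Fil g (k - c) (P - 1)) :
    RK g c d k P (syz a) := by
  refine ⟨?_, ?_, by rw [cc_syz]; exact zero_mem _⟩
  · have := FD757.mul_X_mem hg 1 ha
    rwa [sub_add_cancel] at this
  · have := neg_mem (FD757.mul_X_mem hg 0 ha)
    rwa [sub_add_cancel] at this

theorem RK.weak {c d c' d' k P : ℤ} {v : Fin 2 → Op K} (h1 : c ≤ c') (h2 : d ≤ d')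
    (hv : RK g c' d' k P v) : RK g c d k P v :=
  ⟨Fil_mono g (by omega) hv.1, Fil_mono g (by omega) hv.2.1, Fil_mono g (by omega) hv.2.2⟩

/-- `c d_i`, `c = cc v`, `v` a row with `c ∈ F (k-d)` -/
theorem RK.ccD {c d k P : ℤ} {v : Fin 2 → Op K} (hv : RK g c d k P v) (i : Fin 2) {l : ℤ}
    (hl : k - d + 1 ≤ l) : cc v * D g i ∈ Fil g l P := by
  have := FD757.mul_D_mem i hv.2.2
  rw [add_sub_cancel_right] at this
  exact Fil_mono g hl this

theorem mulDX (hg : Gen g) {k P l : ℤ} {a : Op K} (ha : a ∈ Fil g k P) (i j : Fin 2)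
    (hl : k + 1 ≤ l) : a * D g i * X j ∈ Fil g l P := by
  have := FD757.mul_X_mem hg j (FD757.mul_D_mem i ha)
  rw [sub_add_cancel] at this
  exact Fil_mono g hl this

theorem sh_mem {S : Submodule K (Op K)} {u : ℕ → Op K} (h : ∀ j, u j ∈ S) (j : ℕ) :
    sh u j ∈ S := by
  cases j
  · exact zero_mem _
  · exact h _

theorem sh_RK {c d k P : ℤ} {u : ℕ → Fin 2 → Op K} (h : ∀ j, RK g c d k P (u j)) (j : ℕ) :
    RK g c d k P (sh u j) := by
  cases j
  · exact RK.zero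
  · exact h _

section s0
variable (hg : Gen g) {n : ℕ} {k P : ℤ} (j : ℕ)
include hg

omit hg in
theorem d1f_mem {v : Fin 2 → ℕ → Fin 2 → Op K} (h : ∀ e j, RK g 0 1 k P (v e j)) :
    d1f g n v j ∈ Fil g k P := by
  have h0 : ∀ e j i, v e j i ∈ Fil g k P := fun e j i => by
    have := h e j
    fin_cases i
    · simpa using this.1
    · simpa using this.2.1
  refine sub_mem (sub_mem (sub_mem (sub_mem (add_mem ?_ ?_) ?_) ?_) ?_) ?_
  · exact (h 0 j).ccD 0 (by omega)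
  · exact (h 1 j).ccD 1 (by omega)
  · exact Submodule.smul_mem _ _ (h0 _ _ _)
  · exact Submodule.smul_mem _ _ (h0 _ _ _)
  · refine Submodule.smul_mem _ _ ?_
    have := (sh_RK (h 0) j).2.1
    simpa using this
  · exact Submodule.smul_mem _ _ (h0 _ _ _)

theorem d2w0_mem {w : ℕ → Fin 2 → Op K} (h : ∀ j, RK g 0 2 k P (w j)) :
    RK g 0 1 k P (d2w0 g w j) := by
  refine RK.sub (RK.sub (RK.csmul _ ((h _).weak le_rfl (by norm_num))) (RK.ite _ fun _ =>
    RK.csmul _ (RK.pair hg (c' := 1) (by norm_num) le_rfl ?_ (zero_mem _))))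
    (RK.pair hg (c' := 1) (by norm_num) le_rfl (zero_mem _) ?_)
  · exact (h 0).ccD 1 (by omega)
  · exact (h _).ccD 1 (by omega)

theorem d2w1_mem {w : ℕ → Fin 2 → Op K} (h : ∀ j, RK g 0 2 k P (w j)) :
    RK g 0 1 k P (d2w1 g n w j) := by
  refine RK.add (RK.add (RK.neg (RK.csmul _ ((h _).weak le_rfl (by norm_num)))) (RK.ite _ fun _ =>
    (RK.pair hg (c' := 1) (by norm_num) le_rfl ?_ (zero_mem _))))
    (RK.csmul _ (RK.pair hg (c' := 1) (by norm_num) le_rfl (zero_mem _) ?_))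
  · exact (h 0).ccD 0 (by omega)
  · exact (h _).ccD 0 (by omega)

theorem mulD1 {P : ℤ} {k : ℤ} {a : Op K} (ha : a ∈ Fil g (k - 1) P) (i : Fin 2) :
    a * D g i ∈ Fil g (k - 0) (P - 1) := by
  have := FD757.mul_D_mem i ha
  exact Fil_mono g (by omega) this

theorem d2h0_mem {u : Fin 2 → ℕ → Op K} (h : ∀ e j, u e j ∈ Fil g (k - 1) P) :
    RK g 0 1 k P (d2h0 g n u j) := by
  refine RK.add (RK.pair hg (c' := 1) (by norm_num) le_rfl ?_ (h _ _))
    (RK.csmul _ (RK.syz hg (add_mem (mulD1 hg (h _ _) _) (mulD1 hg (h _ _) _))))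
  exact neg_mem (Submodule.smul_mem _ _ (sh_mem (h 0) j))

theorem d2h1_mem {u : Fin 2 → ℕ → Op K} (h : ∀ e j, u e j ∈ Fil g (k - 1) P) :
    RK g 0 1 k P (d2h1 g u j) :=
  RK.pair hg (c' := 1) (by norm_num) le_rfl (neg_mem (sh_mem (h 1) j))
    (Submodule.smul_mem _ _ (h _ _))

theorem d3w_mem {u : ℕ → Op K} (h : ∀ j, u j ∈ Fil g (k - 2) P) :
    RK g 0 2 k P (d3w g n u j) := by
  have h' : ∀ (j : ℕ) (i : Fin 2), u j * D g i ∈ Fil g (k - 0) (P - 1) := fun j i =>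
    Fil_mono g (by omega) (FD757.mul_D_mem i (h j))
  exact RK.sub (RK.sub (RK.pair hg (c' := 2) (by norm_num) le_rfl (sh_mem h j) (neg_mem (h j)))
    (RK.csmul _ (RK.syz hg (h' _ _)))) (RK.ite _ fun _ => RK.csmul _ (RK.syz hg (h' _ _)))

theorem d3h0_mem {u : ℕ → Op K} (h : ∀ j, u j ∈ Fil g (k - 2) P) :
    d3h0 g u j ∈ Fil g (k - 1) P :=
  sub_mem (Submodule.smul_mem _ _ (Fil_mono g (by omega) (h _)))
    (Submodule.smul_mem _ _ (mulDX hg (h _) 1 1 (by omega)))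

theorem d3h1_mem {u : ℕ → Op K} (h : ∀ j, u j ∈ Fil g (k - 2) P) :
    d3h1 g n u j ∈ Fil g (k - 1) P :=
  sub_mem (mulDX hg (h _) 0 1 (by omega))
    (Submodule.smul_mem _ _ (Fil_mono g (by omega) (h _)))

end s0

section s1
variable (hg : Gen g) {n : ℕ} {k P : ℤ} (j : ℕ)
include hg

omit hg in
theorem e1w_mem {w : ℕ → Fin 2 → Op K} (h : ∀ j, RK g 0 2 k P (w j)) :
    e1w g n w j ∈ Fil g k P := by
  refine sub_mem (sub_mem (Submodule.smul_mem _ _ ((h j).ccD 0 (by omega))) ?_) ?_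
  · have := (h j).1
    simpa using this
  · have := (sh_RK h j).2.1
    simpa using this

theorem e1q_mem {q : Fin 2 → ℕ → Op K} (h : ∀ e j, q e j ∈ Fil g (k - 1) P) :
    e1q g n q j ∈ Fil g k P := by
  have h' : ∀ e j, q e j ∈ Fil g k P := fun e j => Fil_mono g (by omega) (h e j)
  refine add_mem (add_mem (sub_mem (mulDX hg (h _ _) _ _ (by omega))
    (Submodule.smul_mem _ _ (h' _ _))) (ite_mem' _ fun _ => mulDX hg (h _ _) _ _ (by omega)))
    (add_mem (sub_mem (mulDX hg (h _ _) _ _ (by omega))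
    (Submodule.smul_mem _ _ (h' _ _))) (ite_mem' _ fun _ => mulDX hg (h _ _) _ _ (by omega)))

theorem e2w_mem {v : Fin 2 → ℕ → Fin 2 → Op K} (h : ∀ e j, RK g 1 2 k P (v e j)) :
    RK g 0 2 k P (e2w g n v j) := by
  have h0 : ∀ e j, RK g 0 2 k P (v e j) := fun e j => (h e j).weak (by norm_num) le_rfl
  have h' : ∀ (e : Fin 2) (j : ℕ) (i : Fin 2), v e j 1 * D g i ∈ Fil g (k - 0) (P - 1) :=
    fun e j i => Fil_mono g (by omega) (FD757.mul_D_mem i (h e j).2.1)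
  exact RK.add (RK.sub (RK.neg (RK.csmul _ (h0 _ _))) (RK.syz hg (h' _ _ _)))
    (RK.sub (RK.neg (RK.csmul _ (h0 _ _))) (RK.csmul _ (RK.syz hg (h' _ _ _))))

omit hg in
theorem e2q0_mem {v : Fin 2 → ℕ → Fin 2 → Op K} (h : ∀ e j, RK g 1 2 k P (v e j)) :
    e2q0 g n v j ∈ Fil g (k - 1) P := by
  refine add_mem (sub_mem (add_mem (Submodule.smul_mem _ _ (h 0 j).1)
    (sh_RK (h 0) j).2.1) (ite_mem' _ fun _ => Submodule.smul_mem _ _ ?_))
    (Submodule.smul_mem _ _ ?_)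
  · exact (h _ _).ccD 1 (by omega)
  · exact (h _ _).ccD 1 (by omega)

omit hg in
theorem e2q1_mem {v : Fin 2 → ℕ → Fin 2 → Op K} (h : ∀ e j, RK g 1 2 k P (v e j)) :
    e2q1 g n v j ∈ Fil g (k - 1) P := by
  refine add_mem (ite_mem' _ fun _ => Submodule.smul_mem _ _ ?_)
    (sub_mem (add_mem (h 1 j).1 (Submodule.smul_mem _ _ (sh_RK (h 1) j).2.1))
    (Submodule.smul_mem _ _ ?_))
  · exact (h _ _).ccD 0 (by omega)
  · exact (h _ _).ccD 0 (by omega)

theorem e3v0_mem {u : ℕ → Op K} (h : ∀ j, u j ∈ Fil g (k - 2) P) :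
    RK g 1 2 k P (e3v0 g u j) := by
  have hu : ∀ j, u j ∈ Fil g (k - 1) P := fun j => Fil_mono g (by omega) (h j)
  refine ⟨sub_mem (mulDX hg (h _) _ _ (by omega)) (Submodule.smul_mem _ _ (hu _)),
    add_mem (neg_mem (mulDX hg (h _) _ _ (by omega))) (Submodule.smul_mem _ _ (hu _)), ?_⟩
  have e : cc (e3v0 g u j) =
      -(cq g (j + 1 : ℕ) • (u j * X 0)) + cq g (j + 1 : ℕ) • (u (j + 1) * X 1) := by
    show (u j * D g 1 * X 1 - cq g (j + 1 : ℕ) • u j) * X 0 +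
      (-(u j * D g 1 * X 0) + cq g (j + 1 : ℕ) • u (j + 1)) * X 1 = _
    rw [sub_mul, add_mul, neg_mul, mul_assoc _ (X 1) (X 0), mul_assoc _ (X 0) (X 1), X_comm 1 0,
      smul_mul_assoc, smul_mul_assoc]
    abel
  rw [e]
  exact add_mem (neg_mem (Submodule.smul_mem _ _ (FD757.mul_X_mem hg 0 (h j))))
    (Submodule.smul_mem _ _ (FD757.mul_X_mem hg 1 (h _)))

theorem e3v1_mem {u : ℕ → Op K} (h : ∀ j, u j ∈ Fil g (k - 2) P) :
    RK g 1 2 k P (e3v1 g n u j) := by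
  have hu : ∀ j, u j ∈ Fil g (k - 1) P := fun j => Fil_mono g (by omega) (h j)
  refine ⟨add_mem (neg_mem (mulDX hg (h _) _ _ (by omega)))
    (Submodule.smul_mem _ _ (sh_mem hu j)), sub_mem (mulDX hg (h _) _ _ (by omega))
    (Submodule.smul_mem _ _ (hu _)), ?_⟩
  have e : cc (e3v1 g n u j) =
      cq g (n + 1 - j : ℕ) • (sh u j * X 0) - cq g (n + 1 - j : ℕ) • (u j * X 1) := by
    show (-(u j * D g 0 * X 1) + cq g (n + 1 - j : ℕ) • sh u j) * X 0 +
      (u j * D g 0 * X 0 - cq g (n + 1 - j : ℕ) • u j) * X 1 = _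
    rw [sub_mul, add_mul, neg_mul, mul_assoc _ (X 1) (X 0), mul_assoc _ (X 0) (X 1), X_comm 1 0,
      smul_mul_assoc, smul_mul_assoc]
    abel
  rw [e]
  exact sub_mem (Submodule.smul_mem _ _ (FD757.mul_X_mem hg 0 (sh_mem h j)))
    (Submodule.smul_mem _ _ (FD757.mul_X_mem hg 1 (h j)))

end s1

end KN

end Crest.Agent.R186.B281
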