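import Crest.Agent.R186.KRS_823
import Crest.Agent.R186.KE0_853
import Crest.Agent.R186.KE1_605

/-!
Row 186, S0281, leaf B281.K0/K1 (helper823): the resolutions of families `K(n)`, both `s`
(elementwise exactness: 853 `KE0_853`, 605 `KE1_605`; maps and memberships: 355; frame: 128).
-/

set_option autoImplicit false

noncomputable section

namespace Crest.Agent.R186.KRJ823

open Crest.Agent.R186.B281 Crest.Agent.R186.B281.KN Crest.Agent.R186.B281.KR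
  Crest.Agent.R186.FamX823 Crest.Agent.R186.KRS823

variable {K : Type} [Field K] {g : K}

/-- `0 → G3 → G2 → G1 → G0 → Vf n → 0`, `s = 0` -/
def res0 (hg : Gen g) (n : ℕ) :
    FRes 0 (Vf g n) (G0 hg n) (G1 hg n) (G2 hg n) (G3 hg n) :=
  fres0 hg n (KE0_853.z0 hg n) (KE0_853.z1 hg n) (KE0_853.z2 hg n)
    (fun _ _ hP => KE0_853.x0 hg hP) (fun _ _ hP => KE0_853.x1 hg hP)
    (fun _ _ hP => KE0_853.x2 hg hP) (fun _ _ _ u _ h => KE0_853.x3 n u h)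

/-- `0 → H3 → H2 → H1 → H0 → Vf n → 0`, `s = 1` -/
def res1 (hg : Gen g) (n : ℕ) :
    FRes 1 (Vf g n) (H0 hg n) (H1 hg n) (H2 hg n) (H3 hg n) :=
  fres1 hg n (KE1.E_z0 hg n) (KE1.E_z1 hg n) (KE1.E_z2 hg n)
    (fun _ _ hP => KE1.E_x0 hg n hP) (fun _ _ hP => KE1.E_x1 hg n hP)
    (fun _ _ hP => KE1.E_x2 hg n hP) (fun _ _ _ u _ h => KE1.E_x3 hg n u h)

theorem res0_ε (hg : Gen g) (n : ℕ) : (res0 hg n).ε = ge hg n := rfl
theorem res0_φ1 (hg : Gen g) (n : ℕ) : (res0 hg n).φ1 = g1 hg n := rfl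
theorem res0_φ2 (hg : Gen g) (n : ℕ) : (res0 hg n).φ2 = g2 hg n := rfl
theorem res0_φ3 (hg : Gen g) (n : ℕ) : (res0 hg n).φ3 = g3 hg n := rfl
theorem res1_ε (hg : Gen g) (n : ℕ) : (res1 hg n).ε = he hg n := rfl
theorem res1_φ1 (hg : Gen g) (n : ℕ) : (res1 hg n).φ1 = h1 hg n := rfl
theorem res1_φ2 (hg : Gen g) (n : ℕ) : (res1 hg n).φ2 = h2 hg n := rfl
theorem res1_φ3 (hg : Gen g) (n : ℕ) : (res1 hg n).φ3 = h3 hg n := rfl

end Crest.Agent.R186.KRJ823
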