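import Crest.Agent.R186.Kdef_448
import Crest.Agent.R186.KR_355
import Crest.Agent.R186.B281R_128
import Crest.Agent.R186.KRJ_823

/-!
Row 186, S0281, base, leaf B281.K0, `s = 0` (helper448): the resolution
`0 → K₃ → K₂ → K₁ → K₀ → E g 0 n → 0` on 580's projectives with the maps of Kdef_448.
-/

set_option autoImplicit false
set_option linter.unusedSectionVars false

open Matrix

noncomputable section

namespace Crest.Agent.R186.B281

namespace K448

open KN FamX823 KR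

variable {K : Type} [Field K] {g : K} {s : ℤ}

/-- the halves of a column -/
def hc {N : Type} (e : Fin 2) (p : Col N) : Fin 7 → N := if e = 0 then p.1 else p.2

/-! ### rows of `WPv` -/

theorem rO_WPv0 (hg : Gen g) (e : Fin 2) (i : Fin 7) (p : (TV hg s 0).W s) :
    rO 0 e i ((WPv hg s 0 p : Pv g s 0) : A g s) = hc e p.1 i := by
  fin_cases e
  · exact (emb hg s 0).πι (p.1.1 i)
  · exact (emb hg s 0).πι (p.1.2 i)

theorem rO_WPv1 (hg : Gen g) (e : Fin 2) (i : Fin 7) (p : (TV hg s 1).W s) :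
    rO 1 e i ((WPv hg s 1 p : Pv g s 1) : A g s) = hc e p.1 i := by
  fin_cases e
  · exact (emb hg s 1).πι (p.1.1 i)
  · exact (emb hg s 1).πι (p.1.2 i)

theorem rO_WPv2 (hg : Gen g) (e : Fin 2) (i : Fin 7) (p : (TV hg s 2).W s) :
    rO 2 e i ((WPv hg s 2 p : Pv g s 2) : A g s) = hc e p.1 i := by
  fin_cases e
  · exact (emb hg s 2).πι (p.1.1 i)
  · exact (emb hg s 2).πι (p.1.2 i)

theorem rK_WPv3 (hg : Gen g) (e : Fin 2) (i : Fin 7) (p : (TV hg s 3).W s) :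
    rK 3 4 e i ((WPv hg s 3 p : Pv g s 3) : A g s) = hc e p.1 i := by
  fin_cases e
  · exact (emb hg s 3).πι (p.1.1 i)
  · exact (emb hg s 3).πι (p.1.2 i)

theorem rK_WPv4 (hg : Gen g) (e : Fin 2) (i : Fin 7) (p : (TV hg s 4).W s) :
    rK 5 6 e i ((WPv hg s 4 p : Pv g s 4) : A g s) = hc e p.1 i := by
  fin_cases e
  · exact (emb hg s 4).πι (p.1.1 i)
  · exact (emb hg s 4).πι (p.1.2 i)

/-! ### equality by rows -/

theorem Pv_ext (v : Fin 5) {x y : Pv g s v}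
    (h : ∀ (e : Fin 2) (i j : Fin 7), blk j = v → hf e (x : A g s) i j = hf e (y : A g s) i j) :
    x = y := by
  apply Subtype.ext
  apply A_ext'
  intro e i j
  by_cases hj : blk j = v
  · exact h e i j hj
  · have hx := mem_Pv.1 x.2 i j hj
    have hy := mem_Pv.1 y.2 i j hj
    fin_cases e
    · exact hx.1.trans hy.1.symm
    · exact hx.2.trans hy.2.symm

theorem Pv_ext0 {x y : Pv g s 0} (h : ∀ e i, rO 0 e i (x : A g s) = rO 0 e i (y : A g s)) :
    x = y := by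
  refine Pv_ext 0 fun e i j hj => ?_
  have : j = 0 := by revert hj; revert j; decide
  subst this
  exact h e i

theorem Pv_ext1 {x y : Pv g s 1} (h : ∀ e i, rO 1 e i (x : A g s) = rO 1 e i (y : A g s)) :
    x = y := by
  refine Pv_ext 1 fun e i j hj => ?_
  have : j = 1 := by revert hj; revert j; decide
  subst this
  exact h e i

theorem Pv_ext3 {x y : Pv g s 3} (h : ∀ e i, rK 3 4 e i (x : A g s) = rK 3 4 e i (y : A g s)) :
    x = y := by
  refine Pv_ext 3 fun e i j hj => ?_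
  have : j = 3 ∨ j = 4 := by revert hj; revert j; decide
  rcases this with rfl | rfl
  · exact congrFun (h e i) 0
  · exact congrFun (h e i) 1

theorem Pv_ext4 {x y : Pv g s 4} (h : ∀ e i, rK 5 6 e i (x : A g s) = rK 5 6 e i (y : A g s)) :
    x = y := by
  refine Pv_ext 4 fun e i j hj => ?_
  have : j = 5 ∨ j = 6 := by revert hj; revert j; decide
  rcases this with rfl | rfl
  · exact congrFun (h e i) 0
  · exact congrFun (h e i) 1

/-! ### the equivalences -/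

/-- powers of an equivalence -/
def piC {R M N : Type} [Ring R] [AddCommGroup M] [Module R M] [AddCommGroup N] [Module R N]
    (ι : Type) (e : M ≃ₗ[R] N) : (ι → M) ≃ₗ[R] (ι → N) := LinearEquiv.piCongrRight fun _ => e

/-- `W (TV^ι) ≃ Pv^ι` -/
def eP (hg : Gen g) (s : ℤ) (v : Fin 5) (ι : Type) :
    (pi (TV hg s v) ι).W s ≃ₗ[A g s] (ι → Pv g s v) :=
  (piW (TV hg s v) ι s).trans (piC ι (WPv hg s v))

/-- `W (TV^(ι × κ)) ≃ Pv^(ι × κ)` -/
def ePP (hg : Gen g) (s : ℤ) (v : Fin 5) (ι κ : Type) :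
    (pi (pi (TV hg s v) ι) κ).W s ≃ₗ[A g s] (κ → ι → Pv g s v) :=
  (piW (pi (TV hg s v) ι) κ s).trans (piC κ (eP hg s v ι))

/-- `K₀` -/
def e0 (hg : Gen g) (n : ℕ) : (G0 hg n).W 0 ≃ₗ[A g 0] (Fin (n + 1) → Pv g 0 0) :=
  eP hg 0 0 (Fin (n + 1))

/-- `K₁` -/
def e1 (hg : Gen g) (n : ℕ) : (G1 hg n).W 0 ≃ₗ[A g 0] (Fin 2 → Fin (n + 1) → Pv g 0 3) :=
  ePP hg 0 3 (Fin (n + 1)) (Fin 2)

/-- `K₂` -/
def e2 (hg : Gen g) (n : ℕ) : (G2 hg n).W 0 ≃ₗ[A g 0] T2 g n :=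
  (prodW (pi (TV hg 0 4) (Fin (n + 2))) (pi (pi (TV hg 0 1) (Fin n)) (Fin 2)) 0).trans
    (LinearEquiv.prodCongr (eP hg 0 4 (Fin (n + 2))) (ePP hg 0 1 (Fin n) (Fin 2)))

/-- `K₃` -/
def e3 (hg : Gen g) (n : ℕ) : (G3 hg n).W 0 ≃ₗ[A g 0] (Fin (n + 1) → Pv g 0 2) :=
  eP hg 0 2 (Fin (n + 1))

/-! ### rows of the equivalences -/

theorem hc_pi {F : Fam g} {ι : Type} (p : (pi F ι).W s) (j : ι) (e : Fin 2) (i : Fin 7) :
    hc e (piW F ι s p j).1 i = (show ι → F.N from hc e p.1 i) j := by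
  fin_cases e <;> rfl

theorem hc_prod1 {F G : Fam g} (p : (prod F G).W s) (e : Fin 2) (i : Fin 7) :
    hc e (prodW F G s p).1.1 i = (show F.N × G.N from hc e p.1 i).1 := by
  fin_cases e <;> rfl

theorem hc_prod2 {F G : Fam g} (p : (prod F G).W s) (e : Fin 2) (i : Fin 7) :
    hc e (prodW F G s p).2.1 i = (show F.N × G.N from hc e p.1 i).2 := by
  fin_cases e <;> rfl

theorem hc_W {F G : Fam g} (φ : F.Hom G) (p : F.W s) (e : Fin 2) (i : Fin 7) :
    hc e (φ.W s p).1 i = φ.f (hc e p.1 i) := by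
  fin_cases e <;> rfl

/-- the row of a tuple in `K₀` -/
theorem row_e0 (hg : Gen g) (n : ℕ) (p : (G0 hg n).W 0) (e : Fin 2) (i : Fin 7)
    (j : Fin (n + 1)) :
    rO 0 e i ((e0 hg n p j : Pv g 0 0) : A g 0) =
      (show Fin (n + 1) → Op K from hc e p.1 i) j :=
  (rO_WPv0 hg e i _).trans (hc_pi p j e i)

theorem row_e1 (hg : Gen g) (n : ℕ) (p : (G1 hg n).W 0) (e : Fin 2) (i : Fin 7) (t : Fin 2)
    (j : Fin (n + 1)) :
    rK 3 4 e i ((e1 hg n p t j : Pv g 0 3) : A g 0) =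
      (show Fin 2 → Fin (n + 1) → Fin 2 → Op K from hc e p.1 i) t j :=
  (rK_WPv3 hg e i _).trans ((hc_pi (F := TV hg 0 3)
    (piW (pi (TV hg 0 3) (Fin (n + 1))) (Fin 2) 0 p t) j e i).trans
    (congrFun (hc_pi (F := pi (TV hg 0 3) (Fin (n + 1))) p t e i) j))

theorem row_e2 (hg : Gen g) (n : ℕ) (p : (G2 hg n).W 0) (e : Fin 2) (i : Fin 7)
    (j : Fin (n + 2)) :
    rK 5 6 e i (((e2 hg n p).1 j : Pv g 0 4) : A g 0) =
      (show (Fin (n + 2) → Fin 2 → Op K) × (Fin 2 → Fin n → Op K) from hc e p.1 i).1 j :=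
  (rK_WPv4 hg e i _).trans ((hc_pi (F := TV hg 0 4) (prodW (pi (TV hg 0 4) (Fin (n + 2)))
    (pi (pi (TV hg 0 1) (Fin n)) (Fin 2)) 0 p).1 j e i).trans
    (congrFun (hc_prod1 (F := pi (TV hg 0 4) (Fin (n + 2)))
      (G := pi (pi (TV hg 0 1) (Fin n)) (Fin 2)) p e i) j))

theorem row_e2' (hg : Gen g) (n : ℕ) (p : (G2 hg n).W 0) (e : Fin 2) (i : Fin 7) (t : Fin 2)
    (j : Fin n) :
    rO 1 e i (((e2 hg n p).2 t j : Pv g 0 1) : A g 0) =
      (show (Fin (n + 2) → Fin 2 → Op K) × (Fin 2 → Fin n → Op K) from hc e p.1 i).2 t j :=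
  (rO_WPv1 hg e i _).trans ((hc_pi (F := TV hg 0 1) (piW (pi (TV hg 0 1) (Fin n)) (Fin 2) 0
    (prodW (pi (TV hg 0 4) (Fin (n + 2))) (pi (pi (TV hg 0 1) (Fin n)) (Fin 2)) 0 p).2 t)
      j e i).trans
    ((congrFun (hc_pi (F := pi (TV hg 0 1) (Fin n)) (prodW (pi (TV hg 0 4) (Fin (n + 2)))
      (pi (pi (TV hg 0 1) (Fin n)) (Fin 2)) 0 p).2 t e i) j).trans
      (congrFun (congrFun (hc_prod2 (F := pi (TV hg 0 4) (Fin (n + 2)))
        (G := pi (pi (TV hg 0 1) (Fin n)) (Fin 2)) p e i) t) j)))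

theorem row_e3 (hg : Gen g) (n : ℕ) (p : (G3 hg n).W 0) (e : Fin 2) (i : Fin 7)
    (j : Fin (n + 1)) :
    rO 2 e i ((e3 hg n p j : Pv g 0 2) : A g 0) =
      (show Fin (n + 1) → Op K from hc e p.1 i) j :=
  (rO_WPv2 hg e i _).trans (hc_pi p j e i)

/-! ### the maps commute with the equivalences -/

theorem comm1 (hg : Gen g) (n : ℕ) (p : (G1 hg n).W 0) :
    d1 g n (e1 hg n p) = e0 hg n ((g1 hg n).W 0 p) := by
  funext j
  apply Pv_ext0
  intro e i
  rw [d1_row, row_e0]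
  have h1 : (fun t k => rK 3 4 e i ((e1 hg n p t k : Pv g 0 3) : A g 0)) =
      (show Fin 2 → Fin (n + 1) → Fin 2 → Op K from hc e p.1 i) :=
    funext fun t => funext fun k => row_e1 hg n p e i t k
  rw [h1]
  exact congrFun (hc_W (g1 hg n) p e i).symm j

theorem comm2 (hg : Gen g) (n : ℕ) (p : (G2 hg n).W 0) :
    d2 hg n (e2 hg n p) = e1 hg n ((g2 hg n).W 0 p) := by
  funext t j
  apply Pv_ext3
  intro e i
  have h1 : row2 n e i (e2 hg n p) =
      (show (Fin (n + 2) → Fin 2 → Op K) × (Fin 2 → Fin n → Op K) from hc e p.1 i) :=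
    Prod.ext (funext fun k => row_e2 hg n p e i k)
      (funext fun t => funext fun k => row_e2' hg n p e i t k)
  have h2 := congrFun (congrFun (row_d2 hg n (e2 hg n p) e i) t) j
  rw [h1] at h2
  exact h2.trans ((congrFun (congrFun (hc_W (g2 hg n) p e i).symm t) j).trans
    (row_e1 hg n _ e i t j).symm)

theorem comm3 (hg : Gen g) (n : ℕ) (p : (G3 hg n).W 0) :
    d3 hg n (e3 hg n p) = e2 hg n ((g3 hg n).W 0 p) := by
  have h1 : ∀ (e : Fin 2) (i : Fin 7), (fun k => rO 2 e i ((e3 hg n p k : Pv g 0 2) : A g 0)) =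
      (show Fin (n + 1) → Op K from hc e p.1 i) := fun e i =>
    funext fun k => row_e3 hg n p e i k
  have h2 : ∀ (e : Fin 2) (i : Fin 7), row2 n e i (d3 hg n (e3 hg n p)) =
      (show (Fin (n + 2) → Fin 2 → Op K) × (Fin 2 → Fin n → Op K) from
        hc e ((g3 hg n).W 0 p).1 i) := fun e i => by
    rw [row2_d3, h1]
    exact (hc_W (g3 hg n) p e i).symm
  refine Prod.ext ?_ ?_
  · funext j
    apply Pv_ext4
    intro e i
    exact (congrFun (congrArg Prod.fst (h2 e i)) j).trans (row_e2 hg n _ e i j).symm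
  · funext t j
    apply Pv_ext1
    intro e i
    exact (congrFun (congrFun (congrArg Prod.snd (h2 e i)) t) j).trans
      (row_e2' hg n _ e i t j).symm

/-! ### the augmentation -/

/-- **the augmentation `K₀ → E g 0 n`** -/
def ε (hg : Gen g) (n : ℕ) : (Fin (n + 1) → Pv g 0 0) →ₗ[A g 0] E g 0 n :=
  toE hg le_rfl (ge hg n) ∘ₗ (e0 hg n).symm.toLinearMap

theorem commε (hg : Gen g) (n : ℕ) (p : (G0 hg n).W 0) :
    ε hg n (e0 hg n p) = VfW hg n le_rfl ((ge hg n).W 0 p) := by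
  show toE hg le_rfl (ge hg n) ((e0 hg n).symm (e0 hg n p)) = _
  rw [LinearEquiv.symm_apply_apply]
  rfl

theorem ε_fst (hg : Gen g) (n : ℕ) (x : Fin (n + 1) → Pv g 0 0) (i : Fin 7) :
    (ε hg n x).1.1 i = EP K n fun j => (x j : A g 0).1.fst i 0 := rfl

theorem ε_snd (hg : Gen g) (n : ℕ) (x : Fin (n + 1) → Pv g 0 0) (i : Fin 7) :
    (ε hg n x).1.2 i = EP K n fun j => (x j : A g 0).1.snd i 0 := rfl

/-! ### **the resolution** -/

instance projT2 (g : K) (n : ℕ) : Module.Projective (A g 0) (T2 g n) := by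
  unfold T2
  infer_instance

/-- **`0 → K₃ → K₂ → K₁ → K₀ → E g 0 n → 0`** -/
def mres0 (hg : Gen g) (n : ℕ) : NullChain538.MRes (A g 0) (E g 0 n) :=
  (KRJ823.res0 hg n).mresOf hg (VfW hg n le_rfl) (e0 hg n) (e1 hg n) (e2 hg n) (e3 hg n)
    (ε hg n) (d1 g n) (d2 hg n) (d3 hg n) (commε hg n) (comm1 hg n) (comm2 hg n) (comm3 hg n)

end K448

end Crest.Agent.R186.B281
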