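import Crest.Agent.R186.KR_355
import Crest.Agent.R186.SurV_823
import Crest.Agent.R186.B281R_128

/-!
Row 186, S0281, leaf B281.K0/K1 (helper823): (S') for the terms of the resolutions `K(n)` of both
`s`, and the resolutions of families `FRes` from the elementwise exactness statements.
-/

set_option autoImplicit false

noncomputable section

namespace Crest.Agent.R186.KRS823

open Crest.Agent.R186.B281 Crest.Agent.R186.B281.KN Crest.Agent.R186.B281.KR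
  Crest.Agent.R186.FamX823

variable {K : Type} [Field K] {g : K}

section Sur
variable (hg : Gen g) (n : ℕ)

theorem sG1 : Sur2 (G1 hg n) 0 := ((sur2_TV hg (Or.inl rfl) 3).pi _).pi _
theorem sG2 : Sur2 (G2 hg n) 0 :=
  ((sur2_TV hg (Or.inl rfl) 4).pi _).prod (((sur2_TV hg (Or.inl rfl) 1).pi _).pi _)
theorem sG3 : Sur2 (G3 hg n) 0 := (sur2_TV hg (Or.inl rfl) 2).pi _
theorem sH1 : Sur2 (H1 hg n) 1 :=
  ((sur2_TV hg (Or.inr rfl) 4).pi _).prod (((sur2_TV hg (Or.inr rfl) 1).pi _).pi _)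
theorem sH2 : Sur2 (H2 hg n) 1 := ((sur2_TV hg (Or.inr rfl) 3).pi _).pi _
theorem sH3 : Sur2 (H3 hg n) 1 := (sur2_TV hg (Or.inr rfl) 2).pi _

/-- the form of the fields `S1 S2 S3` of `FRes` -/
theorem _root_.Crest.Agent.R186.FamX823.Sur2.two {F : Fam g} {s : ℤ} (h : Sur2 F s) :
    ∀ e : ℤ, (e = 0 ∨ e = 1) → F.Sur (s + 1) s e ∧ F.Sur 2 0 e :=
  fun e he => h e (by omega)

end Sur

/-! ### the resolutions of families -/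

theorem lev_nn {s k P : ℤ} (hs : 0 ≤ s) (h : Lev s k P) : 0 ≤ k ∧ 0 ≤ P := by
  obtain ⟨h1, h2⟩ := h.nonneg hs
  exact ⟨h1, by omega⟩

/-- the resolution of families, `s = 0`, from the elementwise statements -/
def fres0 (hg : Gen g) (n : ℕ)
    (z0 : ∀ v : Fin 2 → Fin (n + 1) → Fin 2 → Op K, EP K n (D1 g n v) = 0)
    (z1 : ∀ p : (Fin (n + 2) → Fin 2 → Op K) × (Fin 2 → Fin n → Op K), D1 g n (D2 g n p) = 0)
    (z2 : ∀ u : Fin (n + 1) → Op K, D2 g n (D3 g n u) = 0)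
    (x0 : ∀ k P : ℤ, 0 ≤ P → ∀ u : Fin (n + 1) → Op K, (∀ j, u j ∈ Fil g k P) → EP K n u = 0 →
      ∃ v : Fin 2 → Fin (n + 1) → Fin 2 → Op K, (∀ e j, RK g 0 1 k P (v e j)) ∧ D1 g n v = u)
    (x1 : ∀ k P : ℤ, 0 ≤ P → ∀ v : Fin 2 → Fin (n + 1) → Fin 2 → Op K,
      (∀ e j, RK g 0 1 k P (v e j)) → D1 g n v = 0 →
      ∃ p : (Fin (n + 2) → Fin 2 → Op K) × (Fin 2 → Fin n → Op K),
        (∀ j, RK g 0 2 k P (p.1 j)) ∧ (∀ e j, p.2 e j ∈ Fil g (k - 1) P) ∧ D2 g n p = v)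
    (x2 : ∀ k P : ℤ, 0 ≤ P → ∀ p : (Fin (n + 2) → Fin 2 → Op K) × (Fin 2 → Fin n → Op K),
      (∀ j, RK g 0 2 k P (p.1 j)) → (∀ e j, p.2 e j ∈ Fil g (k - 1) P) → D2 g n p = 0 →
      ∃ u : Fin (n + 1) → Op K, (∀ j, u j ∈ Fil g (k - 2) P) ∧ D3 g n u = p)
    (x3 : ∀ k P : ℤ, 0 ≤ P → ∀ u : Fin (n + 1) → Op K, (∀ j, u j ∈ Fil g (k - 2) P) →
      D3 g n u = 0 → u = 0) :
    FRes 0 (Vf g n) (G0 hg n) (G1 hg n) (G2 hg n) (G3 hg n) where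
  ε := ge hg n
  φ1 := g1 hg n
  φ2 := g2 hg n
  φ3 := g3 hg n
  z0 := z0
  z1 := z1
  z2 := z2
  sur k P h := by
    obtain ⟨hk, hP⟩ := lev_nn le_rfl h
    intro f hf
    obtain ⟨u, hu, he⟩ := EP_surj (g := g) hk hP ((mem_Vf_L (g := g) n hk P f).1 hf)
    exact ⟨u, (mem_G0 hg n u).2 hu, he⟩
  x0 k P h u hu he := by
    obtain ⟨v, hv, e⟩ := x0 k P (lev_nn le_rfl h).2 u ((mem_G0 hg n u).1 hu) he
    exact ⟨v, (mem_G1 hg n v).2 hv, e⟩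
  x1 k P h v hv he := by
    obtain ⟨p, h1, h2, e⟩ := x1 k P (lev_nn le_rfl h).2 v ((mem_G1 hg n v).1 hv) he
    exact ⟨p, (mem_G2 hg n p).2 ⟨h1, h2⟩, e⟩
  x2 k P h p hp he := by
    obtain ⟨h1, h2⟩ := (mem_G2 hg n p).1 hp
    obtain ⟨u, hu, e⟩ := x2 k P (lev_nn le_rfl h).2 p h1 h2 he
    exact ⟨u, (mem_G3 hg n u).2 hu, e⟩
  x3 k P h u hu he := x3 k P (lev_nn le_rfl h).2 u ((mem_G3 hg n u).1 hu) he
  S1 := (sG1 hg n).two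
  S2 := (sG2 hg n).two
  S3 := (sG3 hg n).two

/-- the resolution of families, `s = 1`, from the elementwise statements -/
def fres1 (hg : Gen g) (n : ℕ)
    (z0 : ∀ p : (Fin n → Fin 2 → Op K) × (Fin 2 → Fin (n + 2) → Op K), EP K n (E1 g n p) = 0)
    (z1 : ∀ v : Fin 2 → Fin (n + 1) → Fin 2 → Op K, E1 g n (E2 g n v) = 0)
    (z2 : ∀ u : Fin (n + 1) → Op K, E2 g n (E3 g n u) = 0)
    (x0 : ∀ k P : ℤ, 0 ≤ P → ∀ u : Fin (n + 1) → Op K, (∀ j, u j ∈ Fil g k P) → EP K n u = 0 →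
      ∃ p : (Fin n → Fin 2 → Op K) × (Fin 2 → Fin (n + 2) → Op K),
        (∀ j, RK g 0 2 k P (p.1 j)) ∧ (∀ e j, p.2 e j ∈ Fil g (k - 1) P) ∧ E1 g n p = u)
    (x1 : ∀ k P : ℤ, 0 ≤ P → ∀ p : (Fin n → Fin 2 → Op K) × (Fin 2 → Fin (n + 2) → Op K),
      (∀ j, RK g 0 2 k P (p.1 j)) → (∀ e j, p.2 e j ∈ Fil g (k - 1) P) → E1 g n p = 0 →
      ∃ v : Fin 2 → Fin (n + 1) → Fin 2 → Op K, (∀ e j, RK g 1 2 k P (v e j)) ∧ E2 g n v = p)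
    (x2 : ∀ k P : ℤ, 0 ≤ P → ∀ v : Fin 2 → Fin (n + 1) → Fin 2 → Op K,
      (∀ e j, RK g 1 2 k P (v e j)) → E2 g n v = 0 →
      ∃ u : Fin (n + 1) → Op K, (∀ j, u j ∈ Fil g (k - 2) P) ∧ E3 g n u = v)
    (x3 : ∀ k P : ℤ, 0 ≤ P → ∀ u : Fin (n + 1) → Op K, (∀ j, u j ∈ Fil g (k - 2) P) →
      E3 g n u = 0 → u = 0) :
    FRes 1 (Vf g n) (H0 hg n) (H1 hg n) (H2 hg n) (H3 hg n) where
  ε := he hg n
  φ1 := h1 hg n
  φ2 := h2 hg n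
  φ3 := h3 hg n
  z0 := z0
  z1 := z1
  z2 := z2
  sur k P h := by
    obtain ⟨hk, hP⟩ := lev_nn zero_le_one h
    intro f hf
    obtain ⟨u, hu, he⟩ := EP_surj (g := g) hk hP ((mem_Vf_L (g := g) n hk P f).1 hf)
    exact ⟨u, (mem_H0 hg n u).2 hu, he⟩
  x0 k P h u hu he := by
    obtain ⟨p, h1, h2, e⟩ := x0 k P (lev_nn zero_le_one h).2 u ((mem_H0 hg n u).1 hu) he
    exact ⟨p, (mem_H1 hg n p).2 ⟨h1, h2⟩, e⟩
  x1 k P h p hp he := by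
    obtain ⟨h1, h2⟩ := (mem_H1 hg n p).1 hp
    obtain ⟨v, hv, e⟩ := x1 k P (lev_nn zero_le_one h).2 p h1 h2 he
    exact ⟨v, (mem_H2 hg n v).2 hv, e⟩
  x2 k P h v hv he := by
    obtain ⟨u, hu, e⟩ := x2 k P (lev_nn zero_le_one h).2 v ((mem_H2 hg n v).1 hv) he
    exact ⟨u, (mem_H3 hg n u).2 hu, e⟩
  x3 k P h u hu he := x3 k P (lev_nn zero_le_one h).2 u ((mem_H3 hg n u).1 hu) he
  S1 := (sH1 hg n).two
  S2 := (sH2 hg n).two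
  S3 := (sH3 hg n).two

end Crest.Agent.R186.KRS823
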