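import Crest.Agent.R186.KL_355
import Crest.Agent.R186.FDind_757

/-!
Row 186, S0281, base (helper355): the augmentation `EP` is onto, and the transport of exactness
along linear equivalences.
-/

set_option autoImplicit false

namespace Crest.Agent.R186.B281

namespace KN

variable {K : Type} [Field K] {g : K}

theorem EP_single (n : ℕ) (j : Fin (n + 1)) (T : Op K) :
    EP K n (Pi.single j T) = T (mo K n j) := by
  show ∑ i, (Pi.single j T : Fin (n + 1) → Op K) i (mo K n i) = _
  rw [Finset.sum_eq_single j]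
  · rw [Pi.single_eq_same]
  · intro i _ hi
    rw [Pi.single_eq_of_ne hi]
    rfl
  · intro h
    exact absurd (Finset.mem_univ _) h

theorem EP_surj {k P : ℤ} (hk : 0 ≤ k) (hP : 0 ≤ P) {n : ℕ} {f : Lau K}
    (hf : f ∈ Pol K (n + P)) :
    ∃ u : Fin (n + 1) → Op K, (∀ j, u j ∈ Fil g k P) ∧ EP K n u = f := by
  rw [Pol, Finsupp.supported_eq_span_single] at hf
  induction hf using Submodule.span_induction with
  | mem x hx =>
    obtain ⟨⟨a, b⟩, ⟨h1, h2, h3⟩, rfl⟩ := hx
    simp only at h1 h2 h3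
    obtain ⟨a, rfl⟩ := Int.eq_ofNat_of_zero_le h1
    obtain ⟨b, rfl⟩ := Int.eq_ofNat_of_zero_le h2
    have hj : min b n ≤ n := min_le_right _ _
    have hj' : min b n ≤ b := min_le_left _ _
    have ha : n - min b n ≤ a := by
      rcases le_total b n with h | h
      · rw [min_eq_left h]; omega
      · rw [min_eq_right h]; omega
    refine ⟨Pi.single ⟨min b n, by omega⟩ (mon g (a - (n - min b n), b - min b n) (0, 0)),
      fun j => ?_, ?_⟩
    · by_cases h : j = ⟨min b n, by omega⟩
      · subst h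
        rw [Pi.single_eq_same]
        exact mon_mem g _ _ (by simpa using hk) (by simp; omega)
      · rw [Pi.single_eq_of_ne h]
        exact zero_mem _
    · rw [EP_single, mo, FD757.mon_single]
      simp only [FD757.fac, Finset.range_zero, Finset.prod_empty, mul_one]
      congr 1
      ext
      · simp only [Nat.cast_zero, sub_zero]
        omega
      · simp only [Nat.cast_zero, sub_zero]
        omega
  | zero => exact ⟨0, fun _ => zero_mem _, map_zero _⟩
  | add x y _ _ hx hy =>
    obtain ⟨u, hu, eu⟩ := hx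
    obtain ⟨v, hv, ev⟩ := hy
    exact ⟨u + v, fun j => add_mem (hu j) (hv j), by rw [map_add, eu, ev]⟩
  | smul r x _ hx =>
    obtain ⟨u, hu, eu⟩ := hx
    refine ⟨r • u, fun j => Submodule.smul_mem _ r (hu j), ?_⟩
    rw [← eu]
    show ∑ j, (r • u j) (mo K n j) = r • ∑ j, u j (mo K n j)
    rw [Finset.smul_sum]
    rfl

theorem EP_mem {k P : ℤ} {n : ℕ} {u : Fin (n + 1) → Op K} (hu : ∀ j, u j ∈ Fil g k P) :
    EP K n u ∈ Pol K (n + P) := by
  show (∑ j, u j (mo K n j)) ∈ Pol K (n + P)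
  refine Submodule.sum_mem _ fun j _ => ?_
  have hm : mo K n j ∈ Pol K n := by
    refine Finsupp.single_mem_supported K _ ⟨?_, ?_, ?_⟩
    · have := j.2
      simp only
      omega
    · simp
    · simp
  exact Fil_Pol (hu j) hm

theorem ex_conj {M1 M2 M3 N1 N2 N3 : Type*} [Zero M3] [Zero N3] (e1 : M1 ≃ N1) (e2 : M2 ≃ N2)
    (e3 : M3 ≃ N3) (h0 : e3 0 = 0) {f : M1 → M2} {h : M2 → M3} {f' : N1 → N2} {h' : N2 → N3}
    (hf : ∀ x, e2 (f x) = f' (e1 x)) (hh : ∀ x, e3 (h x) = h' (e2 x))
    (ex : Function.Exact f' h') : Function.Exact f h := by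
  intro y
  have h1 : h y = 0 ↔ h' (e2 y) = 0 := by
    rw [← hh, ← h0]
    exact ⟨fun t => by rw [t], fun t => e3.injective t⟩
  rw [h1, ex (e2 y)]
  constructor
  · rintro ⟨z, hz⟩
    refine ⟨e1.symm z, e2.injective ?_⟩
    rw [hf, Equiv.apply_symm_apply, hz]
  · rintro ⟨x, rfl⟩
    exact ⟨e1 x, (hf x).symm⟩

end KN

end Crest.Agent.R186.B281
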