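import Crest.Agent.R186.KVc_186
import Crest.Agent.R186.KHc_302

/-!
Row 186 (A), leaf A.KH (helper186): `KHc186.kres` over helper302's `KHc302.CEr π s hs` (the official
concrete closing data over `Γ = (bdM π s _).ext`).
-/

set_option autoImplicit false
set_option linter.style.haveILetI false

noncomputable section

namespace Crest.Agent.R186.KHc186

open Crest.Agent.R186.DefsQ830 Crest.Agent.R186.PBW128 Crest.Agent.R186.Der580
open Crest.Agent.R186.Win810 Crest.Agent.R186.C2b44 Crest.Agent.R186.Cells221
open Crest.Agent.R186.VOp220 Crest.Agent.R186.Vmod220 Crest.Agent.R186.WL221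
open Crest.Agent.R186.SM890 Crest.Agent.R186.KH186

variable {K : Type} [Field K] (π : Par K) (s : ℕ) (hs : 5 ≤ s)

/-- the two concrete closing data are over the same window data -/
theorem wG_eq : wG (K := K) (π := π) s hs = KHc302.WG π s (KHc302.two_le hs) := rfl

/-- **the sixteen cells resolve `V_{-1}`, over `Γ`**, for `KHc302.CEr` -/
def kresC : KRes (KHc302.CEr π s hs) (VX π s hs (hr π) (-1)) where
  rB := (hr π).rho.comp (RL π).val
  rB_p := (kres π s hs).rB_p
  rB_pos := (kres π s hs).rB_pos
  rB_D := (kres π s hs).rB_D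
  rB_mem := (kres π s hs).rB_mem
  v := (kres π s hs).v
  v_mem := (kres π s hs).v_mem
  v_zero := (kres π s hs).v_zero
  v_aug := (kres π s hs).v_aug
  exR := (kres π s hs).exR
  exR0 := (kres π s hs).exR0
  gen := (kres π s hs).gen

end Crest.Agent.R186.KHc186
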