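import Crest.Agent.R186.FinD_384

/-!
Row 186 (A), leaf A.KX (helper853): the fields `kt, kt_deg, kt_e, kt_d, kt_ne, KX` of `FinD384.HIn`
from an augmentation `I.Y → X.V` (quasi-isomorphism) and `End V = K`.

* `Aug I X` : the augmentation (a1) .. (a5), literally the output of `KV_186`;
* `Aug.lift` : the lifting lemma (cells, level by level);
* `Aug.exists_kt`, `Aug.kx`.
-/

set_option autoImplicit false

namespace Crest.Agent.R186.KX853

open Hat827 ConeAlg462 ConeHyp462 Adapt186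

variable {K : Type} [Field K]

/-- a function on cells built level by level -/
theorem glue {ι Y : Type} (s : ι → ℕ) (P : ℕ → (ι → Y) → Prop) (f0 : ι → Y) (h0 : P 0 f0)
    (step : ∀ n f, P n f → ∃ f', P (n + 1) f' ∧ ∀ σ, s σ < n → f' σ = f σ) :
    ∃ g : ι → Y, ∀ n, ∃ f, P n f ∧ ∀ σ, s σ < n → f σ = g σ := by
  choose! nx hnx hag using step
  let F : ℕ → ι → Y := fun n => Nat.rec f0 (fun n f => nx n f) n
  have hF : ∀ n, P n (F n) := by
    intro n
    induction n with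
    | zero => exact h0
    | succ n ih => exact hnx n _ ih
  have hs : ∀ n k σ, s σ < n → F (n + k) σ = F n σ := by
    intro n k σ h
    induction k with
    | zero => rfl
    | succ k ih => exact (hag (n + k) _ (hF _) σ (by omega)).trans ih
  refine ⟨fun σ => F (s σ + 1) σ, fun n => ⟨F n, hF n, fun σ h => ?_⟩⟩
  obtain ⟨k, rfl⟩ : ∃ k, n = s σ + 1 + k := ⟨n - (s σ + 1), by omega⟩
  exact hs _ _ _ (by omega)

variable {A : DGA K} {I : In A} {X : PCells A}

theorem twoY (y : I.Y) : y + y = 0 := by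
  have h : I.L (1 + 1) y = y + y := by rw [map_add, LinearMap.add_apply, I.L_one]
  rw [← h, A.two, map_zero]
  rfl

theorem eq_of_add {y z : I.Y} (h : y + z = 0) : y = z := by
  have h1 : y + z + z = z := by rw [h, zero_add]
  rwa [add_assoc, twoY, add_zero] at h1

theorem dL (a : A.C) (y : I.Y) : I.dY (I.L a y) = I.L (A.D a) y + I.L a (I.dY y) := by
  rw [I.L_D, add_assoc, twoY, add_zero]

theorem G_neg {k : ℤ} {y : I.Y} (hy : y ∈ I.gr.G k) (hk : k < 0) : y = 0 := by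
  rw [I.gr.mem_G] at hy
  rw [← I.gr.total y]
  refine Finset.sum_eq_zero fun j _ => ?_
  rw [← hy]
  exact I.gr.pr_ne _ _ _ (by omega)

/-- the augmentation `Y → V` -/
structure Aug (I : In A) (X : PCells A) where
  a : I.Y →ₗ[K] X.V
  a_L : ∀ g y, a (I.L g y) = g • a y
  a_deg : ∀ {k : ℤ} {y : I.Y}, k ≠ 0 → y ∈ I.gr.G k → a y = 0
  a_d : ∀ y, a (I.dY y) = 0
  a_surj : ∀ u : X.V, ∃ y ∈ I.gr.G 0, a y = u
  a_ex : ∀ {n : ℤ} {y : I.Y}, y ∈ I.gr.G n → I.dY y = 0 → (n = 0 → a y = 0) →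
    ∃ z ∈ I.gr.G (n + 1), y = I.dY z

namespace Aug

variable (R : Aug I X)

include R

theorem twoV (u : X.V) : u + u = 0 := by
  obtain ⟨y, _, rfl⟩ := R.a_surj u
  rw [← map_add, twoY, map_zero]

/-- elements of degree `≠ 0` act by zero on `V` -/
theorem act0 {k : ℤ} {g : A.C} (hg : g ∈ A.G k) (hk : k ≠ 0) (u : X.V) : g • u = 0 := by
  obtain ⟨y, hy, rfl⟩ := R.a_surj u
  rw [← R.a_L]
  refine R.a_deg (k := 0 + k) (by omega) (I.L_deg hg hy)

omit R in
theorem c_hi {σ τ : X.ι} (h : X.s σ ≤ X.s τ) : X.c σ τ = 0 :=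
  DGA.neg (X.c_mem σ τ) (by omega)

omit R in
theorem sum_F {M : Type} [AddCommGroup M] {m n : ℕ} (hmn : m ≤ n) (f : X.ι → M)
    (h : ∀ τ, m < X.s τ → f τ = 0) : ∑ τ ∈ X.F n, f τ = ∑ τ ∈ X.F m, f τ := by
  refine (Finset.sum_subset (fun τ hτ => ?_) (fun τ _ hτ => ?_)).symm
  · rw [X.mem_F] at hτ ⊢
    omega
  · rw [X.mem_F] at hτ
    exact h τ (by omega)

/-- **the lifting lemma** -/
theorem lift (p : ℤ) (κ : X.ι → I.Y) (w : X.ι → X.V)
    (hκ : ∀ σ, κ σ ∈ I.gr.G ((X.s σ : ℤ) - p)) (hκe : ∀ σ, I.L (X.e σ) (κ σ) = κ σ)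
    (hκd : ∀ σ, I.dY (κ σ) + ∑ τ ∈ X.F (X.s σ), I.L (X.c σ τ) (κ τ) = 0)
    (hw : ∀ σ, (X.s σ : ℤ) - p + 1 ≠ 0 → w σ = 0) (hwe : ∀ σ, X.e σ • w σ = w σ)
    (hκw : ∀ σ, R.a (κ σ) = ∑ τ ∈ X.F (X.s σ), X.c σ τ • w τ) :
    ∃ ψ : X.ι → I.Y, (∀ σ, ψ σ ∈ I.gr.G ((X.s σ : ℤ) - p + 1)) ∧
      (∀ σ, I.L (X.e σ) (ψ σ) = ψ σ) ∧ (∀ σ, R.a (ψ σ) = w σ) ∧
      ∀ σ, κ σ = I.dY (ψ σ) + ∑ τ ∈ X.F (X.s σ), I.L (X.c σ τ) (ψ τ) := by
  classical
  obtain ⟨ψ, hψ⟩ := glue X.s (fun n f => ∀ σ, X.s σ < n →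
    f σ ∈ I.gr.G ((X.s σ : ℤ) - p + 1) ∧ I.L (X.e σ) (f σ) = f σ ∧ R.a (f σ) = w σ ∧
      κ σ = I.dY (f σ) + ∑ τ ∈ X.F (X.s σ), I.L (X.c σ τ) (f τ)) 0 (fun σ h => absurd h (by omega)) (by
    intro n f hf
    -- the step
    have key : ∀ σ, X.s σ = n → ∃ y ∈ I.gr.G ((X.s σ : ℤ) - p + 1), I.L (X.e σ) y = y ∧
        R.a y = w σ ∧ κ σ = I.dY y + ∑ τ ∈ X.F n, I.L (X.c σ τ) (f τ) := by
      intro σ hσ
      obtain ⟨z, hz⟩ : ∃ z, z = κ σ + ∑ τ ∈ X.F n, I.L (X.c σ τ) (f τ) := ⟨_, rfl⟩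
      have hzG : z ∈ I.gr.G ((X.s σ : ℤ) - p) := by
        rw [hz]
        refine Submodule.add_mem _ (hκ σ) (Submodule.sum_mem _ fun τ _ => ?_)
        by_cases h : X.s τ < n
        · have := I.L_deg (X.c_mem σ τ) (hf τ h).1
          rwa [show (X.s τ : ℤ) - p + 1 + ((X.s σ : ℤ) - X.s τ - 1) = (X.s σ : ℤ) - p by ring] at this
        · rw [c_hi (by omega), map_zero]
          exact Submodule.zero_mem _
      have hze : I.L (X.e σ) z = z := by
        rw [hz, map_add, map_sum, hκe]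
        congr 1
        refine Finset.sum_congr rfl fun τ _ => ?_
        rw [← I.L_mul, X.c_left]
      have hza : (X.s σ : ℤ) - p = 0 → R.a z = 0 := by
        intro _
        rw [hz, map_add, map_sum, hκw, hσ, ← Finset.sum_add_distrib]
        refine Finset.sum_eq_zero fun τ _ => ?_
        by_cases h : X.s τ < n
        · rw [R.a_L, (hf τ h).2.2.1]
          exact R.twoV _
        · rw [c_hi (by omega), map_zero, zero_smul]
          simp
      have hzd : I.dY z = 0 := by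
        have e1 : ∀ τ ∈ X.F n, I.dY (I.L (X.c σ τ) (f τ)) = I.L (A.D (X.c σ τ)) (f τ) +
            (I.L (X.c σ τ) (κ τ) + ∑ ρ ∈ X.F n, I.L (X.c σ τ * X.c τ ρ) (f ρ)) := by
          intro τ _
          rw [dL]
          congr 1
          by_cases h : X.s τ < n
          · have h1 : I.dY (f τ) = κ τ + ∑ ρ ∈ X.F n, I.L (X.c τ ρ) (f ρ) := by
              rw [(hf τ h).2.2.2, sum_F (X := X) (m := X.s τ) (n := n) (by omega)
                (fun ρ => I.L (X.c τ ρ) (f ρ)) (fun ρ hρ => by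
                  rw [c_hi (by omega), map_zero]
                  rfl), add_assoc, twoY, add_zero]
            rw [h1, map_add, map_sum]
            congr 1
            exact Finset.sum_congr rfl fun ρ _ => (I.L_mul _ _ _).symm
          · rw [c_hi (by omega : X.s σ ≤ X.s τ)]
            simp
        have e2 := hκd σ
        rw [hσ] at e2
        have e3 : ∀ ρ, A.D (X.c σ ρ) + ∑ τ ∈ X.F n, X.c σ τ * X.c τ ρ = 0 := by
          intro ρ
          have := X.mc σ ρ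
          rwa [hσ] at this
        rw [hz, map_add, map_sum, Finset.sum_congr rfl e1, Finset.sum_add_distrib,
          Finset.sum_add_distrib, Finset.sum_comm]
        have e4 : ∀ ρ ∈ X.F n, I.L (A.D (X.c σ ρ)) (f ρ) +
            ∑ τ ∈ X.F n, I.L (X.c σ τ * X.c τ ρ) (f ρ) = 0 := by
          intro ρ _
          have h1 := congrArg (fun g => I.L g (f ρ)) (e3 ρ)
          simp only [map_add, map_sum, LinearMap.add_apply, LinearMap.sum_apply, map_zero,
            LinearMap.zero_apply] at h1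
          exact h1
        have e5 := Finset.sum_eq_zero e4
        rw [Finset.sum_add_distrib] at e5
        have e6 : I.dY (κ σ) + (∑ i ∈ X.F n, I.L (A.D (X.c σ i)) (f i) +
            (∑ i ∈ X.F n, I.L (X.c σ i) (κ i) +
              ∑ y ∈ X.F n, ∑ x ∈ X.F n, I.L (X.c σ x * X.c x y) (f y))) =
            (I.dY (κ σ) + ∑ i ∈ X.F n, I.L (X.c σ i) (κ i)) +
            (∑ i ∈ X.F n, I.L (A.D (X.c σ i)) (f i) +
              ∑ y ∈ X.F n, ∑ x ∈ X.F n, I.L (X.c σ x * X.c x y) (f y)) := by abel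
        rw [e6, e2, e5, add_zero]
      have hκz : κ σ = z + ∑ τ ∈ X.F n, I.L (X.c σ τ) (f τ) := by
        rw [hz, add_assoc, twoY, add_zero]
      by_cases hd : (X.s σ : ℤ) - p + 1 = 0
      · obtain ⟨y, hy, hya⟩ := R.a_surj (w σ)
        have hz0 : z = 0 := G_neg hzG (by omega)
        have he := I.L_deg (X.e_mem σ) hy
        rw [add_zero] at he
        refine ⟨I.L (X.e σ) y, by rw [hd]; exact he, ?_, ?_, ?_⟩
        · rw [← I.L_mul, X.e_idem]
        · rw [R.a_L, hya, hwe]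
        · rw [G_neg (I.dY_deg he) (by omega), zero_add]
          rwa [hz0, zero_add] at hκz
      · obtain ⟨y, hy, hzy⟩ := R.a_ex hzG hzd hza
        have he := I.L_deg (X.e_mem σ) hy
        rw [add_zero] at he
        refine ⟨I.L (X.e σ) y, he, ?_, ?_, ?_⟩
        · rw [← I.L_mul, X.e_idem]
        · rw [R.a_deg hd he, hw σ hd]
        · have h1 : A.D (X.e σ) = 0 := DGA.D_neg (X.e_mem σ) (by omega)
          rw [dL, h1, map_zero, LinearMap.zero_apply, zero_add, ← hzy, hze]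
          exact hκz
    choose y hy1 hy2 hy3 hy4 using key
    refine ⟨fun σ => if h : X.s σ = n then y σ h else f σ, fun σ hσ => ?_, fun σ hσ => ?_⟩
    · have hsum : ∀ m, m ≤ n → X.s σ = m → ∑ τ ∈ X.F m, I.L (X.c σ τ)
          (if h : X.s τ = n then y τ h else f τ) = ∑ τ ∈ X.F m, I.L (X.c σ τ) (f τ) := by
        intro m hm hσm
        refine Finset.sum_congr rfl fun τ _ => ?_
        by_cases h : X.s τ = n
        · rw [c_hi (by omega), map_zero]
          rfl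
        · rw [dif_neg h]
      by_cases h : X.s σ = n
      · simp only [dif_pos h]
        refine ⟨hy1 σ h, hy2 σ h, hy3 σ h, ?_⟩
        rw [hsum _ (by omega) rfl, h]
        exact hy4 σ h
      · simp only [dif_neg h]
        obtain ⟨a, b, c, d⟩ := hf σ (by omega)
        refine ⟨a, b, c, ?_⟩
        rw [hsum _ (by omega) rfl]
        exact d
    · simp only [dif_neg (show X.s σ ≠ n by omega)])
  refine ⟨ψ, fun σ => ?_, fun σ => ?_, fun σ => ?_, fun σ => ?_⟩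
  · obtain ⟨f, hf, hg⟩ := hψ (X.s σ + 1)
    rw [← hg σ (by omega)]
    exact (hf σ (by omega)).1
  · obtain ⟨f, hf, hg⟩ := hψ (X.s σ + 1)
    rw [← hg σ (by omega)]
    exact (hf σ (by omega)).2.1
  · obtain ⟨f, hf, hg⟩ := hψ (X.s σ + 1)
    rw [← hg σ (by omega)]
    exact (hf σ (by omega)).2.2.1
  · obtain ⟨f, hf, hg⟩ := hψ (X.s σ + 1)
    rw [(hf σ (by omega)).2.2.2, hg σ (by omega)]
    congr 1
    refine Finset.sum_congr rfl fun τ hτ => ?_
    rw [X.mem_F] at hτ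
    rw [hg τ (by omega)]

/-- the relation of the augmentation of `X` at every cell -/
theorem v_rel (σ : X.ι) : ∑ τ ∈ X.F (X.s σ), X.c σ τ • X.v τ = 0 := by
  by_cases h : X.s σ = 1
  · rw [h, sum_F (X := X) (m := 0) (n := 1) (by omega) (fun τ => X.c σ τ • X.v τ) (fun τ hτ => by
      rw [X.v_zero τ (by omega), smul_zero])]
    exact X.v_aug σ h
  · refine Finset.sum_eq_zero fun τ _ => ?_
    by_cases h0 : X.s τ = 0
    · exact R.act0 (X.c_mem σ τ) (by omega) _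
    · rw [X.v_zero τ h0, smul_zero]

/-- **existence of the lift** `kt` -/
theorem exists_kt : ∃ kt : X.ι → I.Y, (∀ σ, kt σ ∈ I.gr.G (X.s σ)) ∧
    (∀ σ, I.L (X.e σ) (kt σ) = kt σ) ∧
    (∀ σ, I.dY (kt σ) + ∑ τ ∈ X.F (X.s σ), I.L (X.c σ τ) (kt τ) = 0) ∧
    (∀ σ, R.a (kt σ) = X.v σ) := by
  obtain ⟨ψ, h1, h2, h3, h4⟩ := R.lift 1 0 X.v (fun _ => Submodule.zero_mem _)
    (fun _ => map_zero _) (fun σ => by simp) (fun σ h => X.v_zero σ (by omega)) X.v_e
    (fun σ => by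
      rw [R.v_rel σ]
      exact map_zero _)
  refine ⟨ψ, fun σ => ?_, h2, fun σ => (h4 σ).symm, h3⟩
  have := h1 σ
  rwa [sub_add_cancel] at this

/-- `kt` is not zero -/
theorem kt_ne {kt : X.ι → I.Y} (h : ∀ σ, R.a (kt σ) = X.v σ) : kt ≠ 0 := by
  intro h0
  obtain ⟨u, hu⟩ := exists_ne (0 : X.V)
  obtain ⟨x, _, hx⟩ := X.gen u
  refine hu (hx.symm.trans (Finset.sum_eq_zero fun σ _ => ?_))
  rw [← h σ, h0]
  exact (congrArg (fun z => x σ • z) (map_zero R.a)).trans (smul_zero _)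

/-- relations of `V` hold for every cocycle of degree `0` -/
theorem rel {φ : X.ι → X.V} (hφe : ∀ σ, X.e σ • φ σ = φ σ)
    (hφ : ∀ σ, X.s σ = 1 → ∑ τ ∈ X.F 0, X.c σ τ • φ τ = 0) {x : X.ι → A.C}
    (hx : ∀ σ, x σ ∈ A.G (-(X.s σ : ℤ))) (hv : ∑ σ ∈ X.F 0, x σ • X.v σ = 0) :
    ∑ σ ∈ X.F 0, x σ • φ σ = 0 := by
  obtain ⟨y, hy, -, hxy⟩ := X.exR0 (fun σ => x σ * X.e σ) (fun σ => by
    have := A.mul_mem (hx σ) (X.e_mem σ)
    rwa [add_zero] at this) (fun σ => by rw [mul_assoc, X.e_idem]) (by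
    rw [← hv]
    refine Finset.sum_congr rfl fun σ _ => ?_
    rw [mul_smul, X.v_e])
  have e1 : ∀ τ ∈ X.F 0, x τ • φ τ = ∑ σ ∈ X.F 1, y σ • (X.c σ τ • φ τ) := by
    intro τ hτ
    rw [X.mem_F] at hτ
    have h1 : x τ • φ τ = (x τ * X.e τ) • φ τ := by rw [mul_smul, hφe]
    have h2 : A.D (y τ) • φ τ = 0 := X.dpos _ (by
      have := hy τ
      rwa [show (1 : ℤ) - X.s τ = 1 by omega] at this) _
    rw [h1, hxy, add_smul, h2, zero_add, Finset.sum_smul]
    exact Finset.sum_congr rfl fun σ _ => mul_smul _ _ _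
  rw [Finset.sum_congr rfl e1, Finset.sum_comm]
  refine Finset.sum_eq_zero fun σ _ => ?_
  rw [← Finset.smul_sum]
  by_cases h : X.s σ = 1
  · rw [hφ σ h, smul_zero]
  · by_cases h0 : X.s σ = 0
    · refine (congrArg (fun z => y σ • z) (Finset.sum_eq_zero fun τ _ => ?_)).trans (smul_zero _)
      rw [c_hi (by omega), zero_smul]
    · rw [DGA.neg (hy σ) (by omega), zero_smul]

/-- cocycles of degree `0` of `Hom(X, V)` are scalar -/
theorem end_scalar (endV : ∀ f : X.V →ₗ[K] X.V, (∀ g ∈ A.G 0, ∀ u, f (g • u) = g • f u) →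
      ∃ r : K, ∀ u, f u = r • u) {φ : X.ι → X.V} (hφe : ∀ σ, X.e σ • φ σ = φ σ)
    (hφ0 : ∀ σ, X.s σ ≠ 0 → φ σ = 0)
    (hφ : ∀ σ, X.s σ = 1 → ∑ τ ∈ X.F 0, X.c σ τ • φ τ = 0) :
    ∃ r : K, ∀ σ, φ σ = r • X.v σ := by
  classical
  choose x hx hxu using X.gen
  have uniq : ∀ (y : X.ι → A.C) (u : X.V), (∀ σ, y σ ∈ A.G (-(X.s σ : ℤ))) →
      ∑ σ ∈ X.F 0, y σ • X.v σ = u → ∑ σ ∈ X.F 0, x u σ • φ σ = ∑ σ ∈ X.F 0, y σ • φ σ := by
    intro y u hy hu
    rw [← sub_eq_zero, ← Finset.sum_sub_distrib]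
    have := R.rel hφe hφ (x := fun σ => x u σ - y σ)
      (fun σ => Submodule.sub_mem _ (hx u σ) (hy σ)) (by
      simp only [sub_smul]
      rw [Finset.sum_sub_distrib, hxu, hu, sub_self])
    simpa only [sub_smul] using this
  obtain ⟨r, hr⟩ := endV
    { toFun := fun u => ∑ σ ∈ X.F 0, x u σ • φ σ
      map_add' := fun u u' => by
        rw [uniq (fun σ => x u σ + x u' σ) (u + u')
          (fun σ => Submodule.add_mem _ (hx u σ) (hx u' σ)) (by
            simp only [add_smul]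
            rw [Finset.sum_add_distrib, hxu, hxu])]
        simp only [add_smul]
        rw [Finset.sum_add_distrib]
      map_smul' := fun c u => by
        rw [RingHom.id_apply, uniq (fun σ => c • x u σ) (c • u)
          (fun σ => Submodule.smul_mem _ _ (hx u σ)) (by
            simp only [smul_assoc]
            rw [← Finset.smul_sum, hxu])]
        simp only [smul_assoc]
        rw [← Finset.smul_sum] } (fun g hg u => by
    change ∑ σ ∈ X.F 0, x (g • u) σ • φ σ = g • ∑ σ ∈ X.F 0, x u σ • φ σ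
    rw [uniq (fun σ => g * x u σ) (g • u) (fun σ => by
      have := A.mul_mem hg (hx u σ)
      rwa [zero_add] at this) (by
        simp only [mul_smul]
        rw [← Finset.smul_sum, hxu])]
    simp only [mul_smul]
    rw [← Finset.smul_sum])
  refine ⟨r, fun σ => ?_⟩
  by_cases h : X.s σ = 0
  · have h1 := hr (X.v σ)
    change ∑ ρ ∈ X.F 0, x (X.v σ) ρ • φ ρ = r • X.v σ at h1
    rw [← h1, uniq (Pi.single σ (X.e σ)) (X.v σ) (fun ρ => by
      by_cases hρ : ρ = σ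
      · subst hρ
        rw [Pi.single_eq_same, h]
        exact X.e_mem ρ
      · rw [Pi.single_eq_of_ne hρ]
        exact Submodule.zero_mem _) (by
      rw [Finset.sum_eq_single σ]
      · rw [Pi.single_eq_same, X.v_e]
      · intro ρ _ hρ
        rw [Pi.single_eq_of_ne hρ, zero_smul]
      · intro hσ
        exact absurd ((X.mem_F 0 σ).2 (by omega)) hσ), Finset.sum_eq_single σ]
    · rw [Pi.single_eq_same, hφe]
    · intro ρ _ hρ
      rw [Pi.single_eq_of_ne hρ, zero_smul]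
    · intro hσ
      exact absurd ((X.mem_F 0 σ).2 (by omega)) hσ
  · rw [hφ0 σ h, X.v_zero σ h, smul_zero]

/-- **`Hom(X, Y)` has cohomology spanned by `kt`** (the field `KX`) -/
theorem kx (endV : ∀ f : X.V →ₗ[K] X.V, (∀ g ∈ A.G 0, ∀ u, f (g • u) = g • f u) →
      ∃ r : K, ∀ u, f u = r • u) {kt : X.ι → I.Y} (kt_deg : ∀ σ, kt σ ∈ I.gr.G (X.s σ))
    (kt_e : ∀ σ, I.L (X.e σ) (kt σ) = kt σ)
    (kt_d : ∀ σ, I.dY (kt σ) + ∑ τ ∈ X.F (X.s σ), I.L (X.c σ τ) (kt τ) = 0)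
    (kt_a : ∀ σ, R.a (kt σ) = X.v σ)
    (p : ℤ) (κ : X.ι → I.Y) (hκ : ∀ σ, κ σ ∈ I.gr.G ((X.s σ : ℤ) - p))
    (hκe : ∀ σ, I.L (X.e σ) (κ σ) = κ σ)
    (hκd : ∀ σ, I.dY (κ σ) + ∑ τ ∈ X.F (X.s σ), I.L (X.c σ τ) (κ τ) = 0) :
    ∃ (ψ : X.ι → I.Y) (r : K), (∀ σ, ψ σ ∈ I.gr.G ((X.s σ : ℤ) - p + 1)) ∧
      (∀ σ, I.L (X.e σ) (ψ σ) = ψ σ) ∧ (p ≠ 0 → r = 0) ∧
      ∀ σ, κ σ = r • kt σ + (I.dY (ψ σ) + ∑ τ ∈ X.F (X.s σ), I.L (X.c σ τ) (ψ τ)) := by
  have hae : ∀ σ, X.e σ • R.a (κ σ) = R.a (κ σ) := fun σ => by rw [← R.a_L, hκe]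
  have had : ∀ σ, ∑ τ ∈ X.F (X.s σ), X.c σ τ • R.a (κ τ) = 0 := by
    intro σ
    have h1 := congrArg R.a (hκd σ)
    rw [map_add, R.a_d, zero_add, map_sum, map_zero] at h1
    rw [← h1]
    exact Finset.sum_congr rfl fun τ _ => (R.a_L _ _).symm
  have ha0 : ∀ σ, (X.s σ : ℤ) - p ≠ 0 → R.a (κ σ) = 0 := fun σ h => R.a_deg h (hκ σ)
  rcases lt_trichotomy p 0 with hp | hp | hp
  · obtain ⟨ψ, h1, h2, -, h4⟩ := R.lift p κ 0 hκ hκe hκd (fun _ _ => rfl) (fun _ => smul_zero _)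
      (fun σ => by
        rw [ha0 σ (by omega)]
        exact (Finset.sum_eq_zero fun τ _ => smul_zero _).symm)
    exact ⟨ψ, 0, h1, h2, fun _ => rfl, fun σ => by rw [zero_smul, zero_add]; exact h4 σ⟩
  · subst hp
    obtain ⟨r, hr⟩ := R.end_scalar endV (φ := fun σ => R.a (κ σ)) hae
      (fun σ h => ha0 σ (by omega)) (fun σ h => by
        have h1 := had σ
        rw [h, sum_F (X := X) (m := 0) (n := 1) (by omega) (fun τ => X.c σ τ • R.a (κ τ))
          (fun τ hτ => by rw [ha0 τ (by omega), smul_zero])] at h1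
        exact h1)
    obtain ⟨ψ, h1, h2, -, h4⟩ := R.lift 0 (fun σ => κ σ - r • kt σ) 0
      (fun σ => Submodule.sub_mem _ (hκ σ) (Submodule.smul_mem _ _ (by
        rw [sub_zero]
        exact kt_deg σ)))
      (fun σ => by rw [map_sub, map_smul, hκe, kt_e])
      (fun σ => by
        have h1 := hκd σ
        have h2 := kt_d σ
        simp only [map_sub, map_smul]
        rw [Finset.sum_sub_distrib, ← Finset.smul_sum]
        have e : I.dY (κ σ) - r • I.dY (kt σ) + (∑ τ ∈ X.F (X.s σ), I.L (X.c σ τ) (κ τ) -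
            r • ∑ τ ∈ X.F (X.s σ), I.L (X.c σ τ) (kt τ)) =
            (I.dY (κ σ) + ∑ τ ∈ X.F (X.s σ), I.L (X.c σ τ) (κ τ)) -
              r • (I.dY (kt σ) + ∑ τ ∈ X.F (X.s σ), I.L (X.c σ τ) (kt τ)) := by
          rw [smul_add]
          abel
        rw [e, h1, h2, smul_zero, sub_zero])
      (fun _ _ => rfl) (fun _ => smul_zero _)
      (fun σ => by
        rw [map_sub, map_smul, kt_a, hr σ, sub_self]
        exact (Finset.sum_eq_zero fun τ _ => smul_zero _).symm)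
    refine ⟨ψ, r, h1, h2, fun h => absurd rfl h, fun σ => ?_⟩
    rw [← h4 σ]
    abel
  · obtain ⟨m, rfl⟩ : ∃ m : ℕ, p = (m : ℤ) + 1 := ⟨(p - 1).toNat, by omega⟩
    obtain ⟨w, hw, hφw⟩ := X.exV m (fun σ => R.a (κ σ)) (fun σ h => ha0 σ (by omega)) hae
      (fun σ h => by
        have h1 := had σ
        rw [h, sum_F (X := X) (m := m + 1) (n := m + 2) (by omega) (fun τ => X.c σ τ • R.a (κ τ))
          (fun τ hτ => by rw [ha0 τ (by omega), smul_zero])] at h1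
        exact h1)
    obtain ⟨ψ, h1, h2, -, h4⟩ := R.lift ((m : ℤ) + 1) κ (fun σ => X.e σ • w σ) hκ hκe hκd
      (fun σ h => by rw [hw σ (by omega), smul_zero])
      (fun σ => by rw [← mul_smul, X.e_idem])
      (fun σ => by
        have e1 : ∑ τ ∈ X.F (X.s σ), X.c σ τ • (X.e τ • w τ) =
            ∑ τ ∈ X.F (X.s σ), X.c σ τ • w τ :=
          Finset.sum_congr rfl fun τ _ => by rw [← mul_smul, X.c_right]
        rw [e1]
        by_cases h : X.s σ = m + 1
        · rw [hφw σ h, h]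
          exact (sum_F (X := X) (m := m) (n := m + 1) (by omega) (fun τ => X.c σ τ • w τ)
            (fun τ hτ => by rw [hw τ (by omega), smul_zero])).symm
        · rw [ha0 σ (by omega)]
          refine (Finset.sum_eq_zero fun τ _ => ?_).symm
          by_cases h' : X.s τ = m
          · exact R.act0 (X.c_mem σ τ) (by omega) _
          · rw [hw τ h', smul_zero])
    exact ⟨ψ, 0, h1, h2, fun _ => rfl, fun σ => by rw [zero_smul, zero_add]; exact h4 σ⟩

end Aug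

end Crest.Agent.R186.KX853
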