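import Crest.Agent.R186.KX_378
import Crest.Agent.R186.KV_186

/-!
Row 186 (A), leaf A.FIN.KX (helper378), part 2: the augmentation data `KX378.Aug` from 186's
`KRes E M` (the cells resolve the window module `M`) and `End(M) = K`.
-/

set_option autoImplicit false

namespace Crest.Agent.R186.KX378

open Hat827 Win810 ConeHyp462 Adapt186 KH186

variable {K : Type} [Field K] {w : WD K}

/-- an entry acts on a window module through an entry of degree `0` -/
theorem E_zero (M : WMod w) {i j : w.Ob} {a : w.S} (ha : a ∈ w.E i j) :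
    ∃ b ∈ w.q i j 0, ∀ u ∈ M.W j, M.rho a u = M.rho b u := by
  refine Submodule.iSup_induction (fun C => w.q i j C)
    (motive := fun a => ∃ b ∈ w.q i j 0, ∀ u ∈ M.W j, M.rho a u = M.rho b u) ha ?_ ?_ ?_
  · intro C x hx
    rcases lt_trichotomy C 0 with h | h | h
    · unfold WD.q at hx
      rw [w.neg i j C h, Submodule.mem_bot] at hx
      subst hx
      exact ⟨0, Submodule.zero_mem _, fun _ _ => rfl⟩
    · subst h
      exact ⟨x, hx, fun _ _ => rfl⟩
    · exact ⟨0, Submodule.zero_mem _, fun u hu => by rw [M.act0 hx h hu, map_zero]; rfl⟩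
  · exact ⟨0, Submodule.zero_mem _, fun _ _ => rfl⟩
  · rintro x y ⟨b, hb, h1⟩ ⟨c, hc, h2⟩
    exact ⟨b + c, Submodule.add_mem _ hb hc, fun u hu => by
      rw [map_add, map_add, LinearMap.add_apply, LinearMap.add_apply, h1 u hu, h2 u hu]⟩

/-- the window algebra acts on a window module through its part of degree zero -/
theorem smul_zero_part (M : WMod w) (m : w.Win) : ∃ m0 ∈ w.G 0, ∀ u : M.VM, m • u = m0 • u := by
  choose b hb hbu using fun i j => E_zero M (m.2 i j)
  refine ⟨⟨fun i j => b i j, fun i j => WD.q_le i j 0 (hb i j)⟩, fun i j => hb i j, fun u => ?_⟩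
  apply M.vext
  intro i
  rw [WMod.smul_apply, WMod.smul_apply]
  exact Finset.sum_congr rfl fun j _ => hbu i j _ (u j).2

/-- endomorphisms commuting with the degree zero part commute with the window algebra -/
theorem end_zero (M : WMod w)
    (hE : ∀ f : M.VM →ₗ[K] M.VM, (∀ (a : w.Win) (u : M.VM), f (a • u) = a • f u) →
      ∃ r : K, ∀ u, f u = r • u)
    (f : M.VM →ₗ[K] M.VM) (hf : ∀ a ∈ w.G 0, ∀ u : M.VM, f (a • u) = a • f u) :
    ∃ r : K, ∀ u, f u = r • u := by
  refine hE f fun a u => ?_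
  obtain ⟨a0, h0, h1⟩ := smul_zero_part M a
  rw [h1, h1, hf a0 h0]

/-- **the augmentation data of the resolution `KK → V` by cells** -/
noncomputable def augOf {E : CE w} {M : WMod w} (R : KRes E M) (X : PCells w.dga)
    (θ : M.VM ≃ₗ[K] X.V)
    (hθ : ∀ (g : w.dga.C) (u : M.VM), θ ((show w.Win from g) • u) = g • θ u)
    (hE : ∀ f : M.VM →ₗ[K] M.VM, (∀ (a : w.Win) (u : M.VM), f (a • u) = a • f u) →
      ∃ r : K, ∀ u, f u = r • u) : Aug E.toIn X where
  a := θ.toLinearMap ∘ₗ R.aug
  a_L g _ y _ := (congrArg θ (R.aug_L g y)).trans (hθ g _)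
  a_ne k hk y hy := (congrArg θ (R.aug_deg hk hy)).trans (map_zero θ)
  a_d y _ := (congrArg θ (R.aug_d y)).trans (map_zero θ)
  onto u := by
    obtain ⟨x, hx, hxu⟩ := R.aug_surj (θ.symm u)
    exact ⟨x, hx, (congrArg θ hxu).trans (θ.apply_symm_apply u)⟩
  ex n _ y hy hd h0 := by
    refine R.aug_ex hy hd fun hn => ?_
    have h1 : θ (R.aug y) = 0 := h0 hn
    exact θ.map_eq_zero_iff.1 h1
  endV f hf := by
    obtain ⟨r, hr⟩ := end_zero M hE (θ.symm.toLinearMap ∘ₗ f ∘ₗ θ.toLinearMap) (fun a ha u => by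
      change θ.symm (f (θ (a • u))) = a • θ.symm (f (θ u))
      apply θ.injective
      have h2 : ∀ v : M.VM, θ (a • v) = (show w.dga.C from a) • θ v := fun v => hθ a v
      rw [LinearEquiv.apply_symm_apply, h2, hf a ha, h2, LinearEquiv.apply_symm_apply])
    refine ⟨r, fun u => ?_⟩
    have h3 := congrArg θ (hr (θ.symm u))
    rw [map_smul, LinearEquiv.apply_symm_apply] at h3
    rw [← h3]
    change f u = θ (θ.symm (f (θ (θ.symm u))))
    rw [LinearEquiv.apply_symm_apply, LinearEquiv.apply_symm_apply]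

end Crest.Agent.R186.KX378
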