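import Crest.Agent.R186.KXb_378
import Crest.Agent.R186.KVc_186
import Crest.Agent.R186.VEnd_701
import Crest.Agent.R186.EndA_448

/-!
Row 186 (A), leaf A.FIN.KX (helper378), part 3: the concrete leaf (KX) over
`Γ = (KHc186.wG π s hs).dga` in the shape of 448's skeleton.
-/

set_option autoImplicit false
set_option linter.style.haveILetI false

noncomputable section

namespace Crest.Agent.R186.KX378

open Hat827 Win810 ConeHyp462 Adapt186 KH186 Frame515 DefsQ830 SM890 KHc186 WL221 FinV988 SemiFree515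

variable {K : Type} [Field K]

/-- the output in the shape of 448's skeleton -/
def kxOut {w : WD K} {E : CE w} {X : PCells w.dga} (U : Aug E.toIn X) : EndA448.KXOut E X where
  kt := U.kt_KX.choose
  kt_deg := U.kt_KX.choose_spec.1
  kt_e := U.kt_KX.choose_spec.2.1
  kt_d := U.kt_KX.choose_spec.2.2.1
  kt_ne := U.kt_KX.choose_spec.2.2.2.1
  KX := U.kt_KX.choose_spec.2.2.2.2.2

theorem kxOut_a {w : WD K} {E : CE w} {X : PCells w.dga} (U : Aug E.toIn X) (σ : X.ι) :
    U.a ((kxOut U).kt σ) = X.v σ := U.kt_KX.choose_spec.2.2.2.2.1 σ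

section concrete

variable (π : Par K) (s : ℕ) (hs : 5 ≤ s)

/-- `V_{-1}` over `Γ` -/
abbrev MX : WMod (wG π s hs) := VX π s hs (hr π) (-1)

theorem endMX (f : (MX π s hs).VM →ₗ[K] (MX π s hs).VM)
    (hf : ∀ (a : (wG π s hs).Win) (u : (MX π s hs).VM), f (a • u) = a • f u) :
    ∃ r : K, ∀ u, f u = r • u :=
  VEnd701.end_scalar' (π := π) (C := (wG π s hs).Win)
    (bdM π s (le_trans (by norm_num) hs)).fstW
    (fun m => ⟨(bdM π s (le_trans (by norm_num) hs)).inlW m,
      (bdM π s (le_trans (by norm_num) hs)).fstW_inlW m⟩) f hf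

/-- **(KX) augmentation data, any cells of `V_{-1}` over `Γ`** -/
def augX (h0 : Deg0 (Vlm (MX π s hs))) [Module.Finite K (Vlm (MX π s hs)).X]
    [Nontrivial (Vlm (MX π s hs)).X] (X : Pre (wG π s hs).dga (Vlm (MX π s hs)).X)
    (hV : ∀ k : ℤ, 1 ≤ k → ExAt (tG (DR (Vlm (MX π s hs))) (lpre X)) k) :
    Aug (CEr π s hs).toIn (pcells (Vlm (MX π s hs)) h0 X hV) :=
  augOf (kres π s hs) (pcells (Vlm (MX π s hs)) h0 X hV) (LinearEquiv.refl K _)
    (fun _ _ => rfl) (endMX π s hs)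

/-- **(KX), concrete** -/
def kxX (h0 : Deg0 (Vlm (MX π s hs))) [Module.Finite K (Vlm (MX π s hs)).X]
    [Nontrivial (Vlm (MX π s hs)).X] (X : Pre (wG π s hs).dga (Vlm (MX π s hs)).X)
    (hV : ∀ k : ℤ, 1 ≤ k → ExAt (tG (DR (Vlm (MX π s hs))) (lpre X)) k) :
    EndA448.KXOut (CEr π s hs) (pcells (Vlm (MX π s hs)) h0 X hV) :=
  kxOut (augX π s hs h0 X hV)

end concrete

end Crest.Agent.R186.KX378
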