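import Crest.Agent.R186.KXc_186
import Crest.Agent.R186.EndB_448

/-!
Row 186 (A) (helper186): the plug (K) of helper448's `EndB_448`.
-/

set_option autoImplicit false
set_option linter.style.haveILetI false

noncomputable section

namespace Crest.Agent.R186.KHc186

open Frame515 Res255 FinV988 EndV448 EndB448

variable {K : Type} [Field K] {π : DefsQ830.Par K} {s : ℕ} {hs : 5 ≤ s}

/-- **(K)**: 378's `Aug` on 448's objects -/
def UG (hV : PV π s hs) : KX378.Aug (IG π s hs) (PG hV) :=
  letI i1 : Module.Finite K (NG π s hs (v_pos π (-1)) (v_D π (-1))).X := finVG π s hs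
  letI i2 : Nontrivial (NG π s hs (v_pos π (-1)) (v_D π (-1))).X := ntVG π s hs
  augX π s hs (v_pos π (-1)) (v_D π (-1)) (deg0_VG π s hs) (XG π s hs) hV

/-- the augmentation is that of the sixteen cells -/
theorem UG_a (hV : PV π s hs) (y : (IG π s hs).Y) : (UG hV).a y = (kresC π s hs).aug y := rfl

/-- **the null pair from (H), (V), (D)** -/
theorem null_K (hH : PH π s hs) (hV : PV π s hs)
    (hD : ∀ (kt : (PG hV).ι → (IG π s hs).Y) (hk : ∀ σ, kt σ ∈ (IG π s hs).gr.G ((PG hV).s σ))
      (hd : FinD988.KtD (IG π s hs) (PG hV) kt),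
      (∀ σ, (IG π s hs).L ((PG hV).e σ) (kt σ) = kt σ) →
      (∀ σ, (UG hV).a (kt σ) = (PG hV).v σ) → QI (FinD988.gD (IG π s hs) (PG hV) kt hk hd)) :
    Nonempty (Spine700.Null.{0, 0} K) := null_B hH hV (UG hV) hD

end Crest.Agent.R186.KHc186
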