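import Crest.Agent.R186.KdefE_448

/-!
Row 186, S0281, base, leaf B281.K1 for `s = 1` (helper755): THE ELEMENTS of `A g 1` by which the
differentials of `K(n)`, `s = 1`, are right multiplications, and their action on rows
(same format as helper448's `KdefE_448` for `s = 0`).
-/

set_option autoImplicit false
set_option linter.unusedSectionVars false

open Matrix

namespace Crest.Agent.R186.B281

namespace K755

open FD757 K448

variable {K : Type} [Field K] {g : K}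

/-! ### they preserve the lattices (`s = 1`) -/

/-- `K₂ → O(0)`, `w ↦ (w.x) d_i` -/
theorem pres_c (i : Fin 2) : Pres g 1 0 (mC 5 6 0 (D g i) : Mat K) := by
  rintro k P v ⟨h0, h1, h2, ⟨h3, h4, h34⟩, h5, h6, h56⟩
  rw [add_zero]
  have key : (v 5 * X 0 + v 6 * X 1) * D g i ∈ Fil g k P := by
    refine Fil_mono g (by omega : k - 1 ≤ k) (memD i ?_)
    rwa [show k - 1 - 1 = k - 2 by ring]
  refine ⟨?_, ?_, ?_, ⟨?_, ?_, ?_⟩, ?_, ?_, ?_⟩ <;> simp [row_mC] <;> simpa using key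

/-- `K₂ → O(0)`, the entries -/
theorem pres_p (t : Fin 7) (ht : t = 5 ∨ t = 6) :
    Pres g 1 0 (Matrix.single t 0 1 : Mat K) := by
  rintro k P v ⟨h0, h1, h2, ⟨h3, h4, h34⟩, h5, h6, h56⟩
  rw [add_zero]
  have key : v t ∈ Fil g k P := by
    rcases ht with rfl | rfl <;> assumption
  refine ⟨?_, ?_, ?_, ⟨?_, ?_, ?_⟩, ?_, ?_, ?_⟩ <;> simp [K448.vec_single] <;> simpa using key

/-- `O(-1) → O(0)`, the inclusion -/
theorem pres_b : Pres g 1 0 (Matrix.single 1 0 1 : Mat K) := by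
  rintro k P v ⟨h0, h1, h2, ⟨h3, h4, h34⟩, h5, h6, h56⟩
  rw [add_zero]
  have key' : v 1 ∈ Fil g k P := Fil_mono g (by omega) h1
  refine ⟨?_, ?_, ?_, ⟨?_, ?_, ?_⟩, ?_, ?_, ?_⟩ <;> simp [K448.vec_single] <;> assumption

/-- `O(-1) → O(0)`, `q ↦ q d_i x_j` -/
theorem pres_bx (hg : Gen g) (i j : Fin 2) :
    Pres g 1 0 (Matrix.single 1 0 (D g i * X j) : Mat K) := by
  rintro k P v ⟨h0, h1, h2, ⟨h3, h4, h34⟩, h5, h6, h56⟩
  rw [add_zero]
  have key : v 1 * (D g i * X j) ∈ Fil g k P := by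
    have := mul_X_mem hg j (mul_D_mem i h1)
    rwa [show k - 1 + 1 = k by ring, show P - 1 + 1 = P by ring, mul_assoc] at this
  refine ⟨?_, ?_, ?_, ⟨?_, ?_, ?_⟩, ?_, ?_, ?_⟩ <;> simp [K448.vec_single] <;> assumption

/-- `K₁(-1) → K₂`, the inclusion -/
theorem pres_j12 : Pres g 1 0 (Matrix.single 3 5 1 + Matrix.single 4 6 1 : Mat K) := by
  rintro k P v ⟨h0, h1, h2, ⟨h3, h4, h34⟩, h5, h6, h56⟩
  rw [add_zero]
  have e3 : v 3 ∈ Fil g k P := Fil_mono g (by omega) h3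
  have e4 : v 4 ∈ Fil g k P := Fil_mono g (by omega) h4
  have e : v 3 * X 0 + v 4 * X 1 ∈ Fil g (k - 2) (P + 1) := by
    rwa [show k - 1 - 1 = k - 2 by ring] at h34
  refine ⟨?_, ?_, ?_, ⟨?_, ?_, ?_⟩, ?_, ?_, ?_⟩ <;>
    simp [Matrix.vecMul_add, K448.vec_single] <;> assumption

/-- `K₁(-1) → K₂`, `v ↦ v_1 d_i (x₁, -x₀)` (`t = 4`) or `v_0 d_i (x₁, -x₀)` (`t = 3`) -/
theorem pres_t (hg : Gen g) (i : Fin 2) (t : Fin 7) (ht : t = 3 ∨ t = 4) :
    Pres g 1 0 (mS t 5 6 (D g i) : Mat K) := by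
  rintro k P v ⟨h0, h1, h2, ⟨h3, h4, h34⟩, h5, h6, h56⟩
  rw [add_zero]
  have ht' : v t ∈ Fil g (k - 1) P := by rcases ht with rfl | rfl <;> assumption
  have key : ∀ j : Fin 2, v t * D g i * X j ∈ Fil g k P := by
    intro j
    have := mul_X_mem hg j (mul_D_mem i ht')
    rwa [show k - 1 + 1 = k by ring, show P - 1 + 1 = P by ring] at this
  have k0 := key 0
  have k1 := key 1
  have z : v t * D g i * X 1 * X 0 + -(v t * D g i * X 0 * X 1) ∈ Fil g (k - 2) (P + 1) := by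
    rw [← sub_eq_add_neg, syz0]
    exact zero_mem _
  refine ⟨?_, ?_, ?_, ⟨?_, ?_, ?_⟩, ?_, ?_, ?_⟩ <;> simp [row_mS] <;> assumption

/-- `K₁(-1) → O(-1)`, the entries -/
theorem pres_q (t : Fin 7) (ht : t = 3 ∨ t = 4) :
    Pres g 1 0 (Matrix.single t 1 1 : Mat K) := by
  rintro k P v ⟨h0, h1, h2, ⟨h3, h4, h34⟩, h5, h6, h56⟩
  rw [add_zero]
  have key : v t ∈ Fil g (k - 1) P := by rcases ht with rfl | rfl <;> assumption
  refine ⟨?_, ?_, ?_, ⟨?_, ?_, ?_⟩, ?_, ?_, ?_⟩ <;> simp [K448.vec_single] <;> simpa using key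

/-- `K₁(-1) → O(-1)`, `v ↦ (v.x) d_i` -/
theorem pres_qc (i : Fin 2) : Pres g 1 0 (mC 3 4 1 (D g i) : Mat K) := by
  rintro k P v ⟨h0, h1, h2, ⟨h3, h4, h34⟩, h5, h6, h56⟩
  rw [add_zero]
  have key : (v 3 * X 0 + v 4 * X 1) * D g i ∈ Fil g (k - 1) P := memD i h34
  refine ⟨?_, ?_, ?_, ⟨?_, ?_, ?_⟩, ?_, ?_, ?_⟩ <;> simp [row_mC] <;> simpa using key

/-- `O(-2) → K₁(-1)`, the entries -/
theorem pres_a (hg : Gen g) (t : Fin 7) (ht : t = 3 ∨ t = 4) :
    Pres g 1 0 (Matrix.single 2 t 1 : Mat K) := by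
  rintro k P v ⟨h0, h1, h2, ⟨h3, h4, h34⟩, h5, h6, h56⟩
  rw [add_zero]
  have key' : v 2 ∈ Fil g (k - 1) P := Fil_mono g (by omega) h2
  have kx : v 2 * X 0 ∈ Fil g (k - 1 - 1) (P + 1) := by
    rw [show k - 1 - 1 = k - 2 by ring]
    exact memX hg 0 h2
  have ky : v 2 * X 1 ∈ Fil g (k - 1 - 1) (P + 1) := by
    rw [show k - 1 - 1 = k - 2 by ring]
    exact memX hg 1 h2
  rcases ht with rfl | rfl <;>
  refine ⟨?_, ?_, ?_, ⟨?_, ?_, ?_⟩, ?_, ?_, ?_⟩ <;> simp [K448.vec_single] <;> assumption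

/-- `O(-2) → K₁(-1)`, `u ↦ u d_i (x₁, -x₀)` -/
theorem pres_s (hg : Gen g) (i : Fin 2) : Pres g 1 0 (mS 2 3 4 (D g i) : Mat K) := by
  rintro k P v ⟨h0, h1, h2, ⟨h3, h4, h34⟩, h5, h6, h56⟩
  rw [add_zero]
  have key : ∀ j : Fin 2, v 2 * D g i * X j ∈ Fil g (k - 1) P := by
    intro j
    have := mul_X_mem hg j (mul_D_mem i h2)
    rwa [show k - 2 + 1 = k - 1 by ring, show P - 1 + 1 = P by ring] at this
  have k0 := key 0
  have k1 := key 1
  have z : v 2 * D g i * X 1 * X 0 + -(v 2 * D g i * X 0 * X 1) ∈ Fil g (k - 1 - 1) (P + 1) := by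
    rw [← sub_eq_add_neg, syz0]
    exact zero_mem _
  refine ⟨?_, ?_, ?_, ⟨?_, ?_, ?_⟩, ?_, ?_, ?_⟩ <;> simp [row_mS] <;> assumption

/-! ### the elements (`s = 1`) -/

/-- `K₂ → O(0)`, `w ↦ (w.x) d_i` -/
noncomputable def c (g : K) (i : Fin 2) : Pv g 1 0 := el (mC 5 6 0 (D g i)) (pres_c i) (by
  intro a b h
  rw [mC, Matrix.add_apply, hb_single 5 0 _ rfl a b h, hb_single 6 0 _ rfl a b h, add_zero])

/-- `K₂ → O(0)`, `w ↦ w_0` -/
noncomputable def p0 (g : K) : Pv g 1 0 := el (Matrix.single 5 0 1) (pres_p 5 (Or.inl rfl))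
  (hb_single 5 0 _ rfl)

/-- `K₂ → O(0)`, `w ↦ w_1` -/
noncomputable def p1 (g : K) : Pv g 1 0 := el (Matrix.single 6 0 1) (pres_p 6 (Or.inr rfl))
  (hb_single 6 0 _ rfl)

/-- `O(-1) → O(0)`, the inclusion -/
noncomputable def b (g : K) : Pv g 1 0 := el (Matrix.single 1 0 1) pres_b (hb_single 1 0 _ rfl)

/-- `O(-1) → O(0)`, `q ↦ q d_i x_j` -/
noncomputable def bx (hg : Gen g) (i j : Fin 2) : Pv g 1 0 :=
  el (Matrix.single 1 0 (D g i * X j)) (pres_bx hg i j) (hb_single 1 0 _ rfl)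

/-- `K₁(-1) → K₂`, the inclusion -/
noncomputable def j12 (g : K) : Pv g 1 4 := el (Matrix.single 3 5 1 + Matrix.single 4 6 1) pres_j12
  (by
    intro a b h
    rw [Matrix.add_apply, hb_single 3 5 _ rfl a b h, hb_single 4 6 _ rfl a b h, add_zero])

/-- `K₁(-1) → K₂`, `v ↦ v_1 d_i (x₁, -x₀)` -/
noncomputable def t1 (hg : Gen g) (i : Fin 2) : Pv g 1 4 :=
  el (mS 4 5 6 (D g i)) (pres_t hg i 4 (Or.inr rfl)) (by
    intro a b h
    rw [mS, Matrix.sub_apply, hb_single 4 5 _ rfl a b h, hb_single 4 6 _ rfl a b h, sub_zero])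

/-- `K₁(-1) → O(-1)`, `v ↦ v_0` -/
noncomputable def q0 (g : K) : Pv g 1 1 := el (Matrix.single 3 1 1) (pres_q 3 (Or.inl rfl))
  (hb_single 3 1 _ rfl)

/-- `K₁(-1) → O(-1)`, `v ↦ v_1` -/
noncomputable def q1 (g : K) : Pv g 1 1 := el (Matrix.single 4 1 1) (pres_q 4 (Or.inr rfl))
  (hb_single 4 1 _ rfl)

/-- `K₁(-1) → O(-1)`, `v ↦ (v.x) d_i` -/
noncomputable def qc (g : K) (i : Fin 2) : Pv g 1 1 := el (mC 3 4 1 (D g i)) (pres_qc i) (by
  intro a b h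
  rw [mC, Matrix.add_apply, hb_single 3 1 _ rfl a b h, hb_single 4 1 _ rfl a b h, add_zero])

/-- `O(-2) → K₁(-1)`, `u ↦ (u, 0)` -/
noncomputable def a0 (hg : Gen g) : Pv g 1 3 := el (Matrix.single 2 3 1) (pres_a hg 3 (Or.inl rfl))
  (hb_single 2 3 _ rfl)

/-- `O(-2) → K₁(-1)`, `u ↦ (0, u)` -/
noncomputable def a1 (hg : Gen g) : Pv g 1 3 := el (Matrix.single 2 4 1) (pres_a hg 4 (Or.inr rfl))
  (hb_single 2 4 _ rfl)

/-- `O(-2) → K₁(-1)`, `u ↦ u d_i (x₁, -x₀)` -/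
noncomputable def sx (hg : Gen g) (i : Fin 2) : Pv g 1 3 := el (mS 2 3 4 (D g i)) (pres_s hg i) (by
    intro a b h
    rw [mS, Matrix.sub_apply, hb_single 2 3 _ rfl a b h, hb_single 2 4 _ rfl a b h, sub_zero])

/-! ### their action on rows -/

section act

variable (e : Fin 2) (i : Fin 7) (x : A g (1 : ℤ))

theorem rKz (q q' : Fin 7) : rK q q' e i x 0 = hf e x i q := rfl

theorem rKo (q q' : Fin 7) : rK q q' e i x 1 = hf e x i q' := rfl

theorem rO_c (t : Fin 2) : rO 0 e i (x * (c g t : A g 1)) = KN.cc (rK 5 6 e i x) * D g t := by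
  rw [rO, c, hf_el]
  have := row_mC (hf e x i) 5 6 0 (D g t) 0
  rw [if_pos rfl] at this
  exact this

theorem rO_p0 : rO 0 e i (x * (p0 g : A g 1)) = rK 5 6 e i x 0 := by
  rw [rO, p0, hf_el, mul_single_apply, if_pos rfl, mul_one]
  rfl

theorem rO_p1 : rO 0 e i (x * (p1 g : A g 1)) = rK 5 6 e i x 1 := by
  rw [rO, p1, hf_el, mul_single_apply, if_pos rfl, mul_one]
  rfl

theorem rO_b : rO 0 e i (x * (b g : A g 1)) = rO 1 e i x := by
  rw [rO, b, hf_el, mul_single_apply, if_pos rfl, mul_one]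
  rfl

theorem rO_bx (hg : Gen g) (s t : Fin 2) :
    rO 0 e i (x * (bx hg s t : A g 1)) = rO 1 e i x * D g s * X t := by
  rw [rO, bx, hf_el, mul_single_apply, if_pos rfl, ← mul_assoc]
  rfl

theorem rK_j12 : rK 5 6 e i (x * (j12 g : A g 1)) = rK 3 4 e i x := by
  apply vec2_ext
  · rw [rKz, rKz, j12, hf_el, mul_add, Matrix.add_apply, mul_single_apply,
      mul_single_apply, if_pos rfl, if_neg (by decide), mul_one, add_zero]
  · rw [rKo, rKo, j12, hf_el, mul_add, Matrix.add_apply, mul_single_apply,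
      mul_single_apply, if_neg (by decide), if_pos rfl, mul_one, zero_add]

theorem rK_t1 (hg : Gen g) (t : Fin 2) :
    rK 5 6 e i (x * (t1 hg t : A g 1)) = KN.syz (rK 3 4 e i x 1 * D g t) := by
  apply vec2_ext
  · rw [rKz, t1, hf_el]
    have := row_mS (hf e x i) 4 5 6 (D g t) 5
    rw [if_pos rfl, if_neg (by decide), sub_zero] at this
    exact this
  · rw [rKo, t1, hf_el]
    have := row_mS (hf e x i) 4 5 6 (D g t) 6
    rw [if_neg (by decide), if_pos rfl, zero_sub] at this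
    exact this

theorem rO_q0 : rO 1 e i (x * (q0 g : A g 1)) = rK 3 4 e i x 0 := by
  rw [rO, q0, hf_el, mul_single_apply, if_pos rfl, mul_one]
  rfl

theorem rO_q1 : rO 1 e i (x * (q1 g : A g 1)) = rK 3 4 e i x 1 := by
  rw [rO, q1, hf_el, mul_single_apply, if_pos rfl, mul_one]
  rfl

theorem rO_qc (t : Fin 2) : rO 1 e i (x * (qc g t : A g 1)) = KN.cc (rK 3 4 e i x) * D g t := by
  rw [rO, qc, hf_el]
  have := row_mC (hf e x i) 3 4 1 (D g t) 1
  rw [if_pos rfl] at this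
  exact this

theorem rK_a0 (hg : Gen g) : rK 3 4 e i (x * (a0 hg : A g 1)) = ![rO 2 e i x, 0] := by
  apply vec2_ext
  · rw [rKz, a0, hf_el, mul_single_apply, if_pos rfl, mul_one]
    rfl
  · rw [rKo, a0, hf_el, mul_single_apply, if_neg (by decide)]
    rfl

theorem rK_a1 (hg : Gen g) : rK 3 4 e i (x * (a1 hg : A g 1)) = ![0, rO 2 e i x] := by
  apply vec2_ext
  · rw [rKz, a1, hf_el, mul_single_apply, if_neg (by decide)]
    rfl
  · rw [rKo, a1, hf_el, mul_single_apply, if_pos rfl, mul_one]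
    rfl

theorem rK_sx (hg : Gen g) (t : Fin 2) :
    rK 3 4 e i (x * (sx hg t : A g 1)) = KN.syz (rO 2 e i x * D g t) := by
  apply vec2_ext
  · rw [rKz, sx, hf_el]
    have := row_mS (hf e x i) 2 3 4 (D g t) 3
    rw [if_pos rfl, if_neg (by decide), sub_zero] at this
    exact this
  · rw [rKo, sx, hf_el]
    have := row_mS (hf e x i) 2 3 4 (D g t) 4
    rw [if_neg (by decide), if_pos rfl, zero_sub] at this
    exact this

end act

end K755

end Crest.Agent.R186.B281
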