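import Mathlib
import Crest.Agent.R186.PBWr_128

/-!
Row 186 (A), leaf KOS, coordinate level (helper374): the two exponent shifts `opX0`, `opX1` on
`N K = (i, j, k, w, q) →₀ K` form a Koszul pair.  `G : Ix → Prop`-supported versions.
-/

set_option autoImplicit false

noncomputable section

namespace Crest.Agent.R186.Kos374

open Crest.Agent.R186.DefsQ830 Crest.Agent.R186.PBW128

variable {K : Type} [Field K]

/-- shift up in the first exponent, evaluated -/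
theorem opX0_apply_succ (n : N K) (i j k : ℕ) (w : List E) (q : Wb) :
    opX0 K n (i + 1, j, k, w, q) = n (i, j, k, w, q) := by
  have hinj : Function.Injective
      (fun ν : Ix => ((ν.1 + 1, ν.2.1, ν.2.2.1, ν.2.2.2.1, ν.2.2.2.2) : Ix)) := by
    rintro ⟨a, b, c, d, e⟩ ⟨a', b', c', d', e'⟩ h
    simp only [Prod.mk.injEq, add_left_inj] at h
    obtain ⟨rfl, rfl, rfl, rfl, rfl⟩ := h
    rfl
  exact Finsupp.mapDomain_apply hinj n (i, j, k, w, q)

theorem opX0_apply_zero (n : N K) (j k : ℕ) (w : List E) (q : Wb) :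
    opX0 K n (0, j, k, w, q) = 0 := by
  refine Finsupp.mapDomain_of_notMem_range n _ ?_
  rintro ⟨⟨a, b, c, d, e⟩, h⟩
  simp at h

theorem opX1_apply_succ (n : N K) (i j k : ℕ) (w : List E) (q : Wb) :
    opX1 K n (i, j + 1, k, w, q) = n (i, j, k, w, q) := by
  have hinj : Function.Injective
      (fun ν : Ix => ((ν.1, ν.2.1 + 1, ν.2.2.1, ν.2.2.2.1, ν.2.2.2.2) : Ix)) := by
    rintro ⟨a, b, c, d, e⟩ ⟨a', b', c', d', e'⟩ h
    simp only [Prod.mk.injEq, add_left_inj] at h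
    obtain ⟨rfl, rfl, rfl, rfl, rfl⟩ := h
    rfl
  exact Finsupp.mapDomain_apply hinj n (i, j, k, w, q)

theorem opX1_apply_zero (n : N K) (i k : ℕ) (w : List E) (q : Wb) :
    opX1 K n (i, 0, k, w, q) = 0 := by
  refine Finsupp.mapDomain_of_notMem_range n _ ?_
  rintro ⟨⟨a, b, c, d, e⟩, h⟩
  simp at h

theorem opX0_inj {n : N K} (h : opX0 K n = 0) : n = 0 := by
  ext ⟨i, j, k, w, q⟩
  rw [← opX0_apply_succ, h]; rfl

theorem opX1_inj {n : N K} (h : opX1 K n = 0) : n = 0 := by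
  ext ⟨i, j, k, w, q⟩
  rw [← opX1_apply_succ, h]; rfl

/-- division by the first exponent: forgets the part with exponent `0` -/
def dv0 (n : N K) : N K :=
  Finsupp.comapDomain (fun ν : Ix => ((ν.1 + 1, ν.2.1, ν.2.2.1, ν.2.2.2.1, ν.2.2.2.2) : Ix)) n
    (by
      rintro ⟨a, b, c, d, e⟩ _ ⟨a', b', c', d', e'⟩ _ h
      simp only [Prod.mk.injEq, add_left_inj] at h
      obtain ⟨rfl, rfl, rfl, rfl, rfl⟩ := h
      rfl)

@[simp] theorem dv0_apply (n : N K) (i j k : ℕ) (w : List E) (q : Wb) :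
    dv0 n (i, j, k, w, q) = n (i + 1, j, k, w, q) := rfl

/-- division by the second exponent -/
def dv1 (n : N K) : N K :=
  Finsupp.comapDomain (fun ν : Ix => ((ν.1, ν.2.1 + 1, ν.2.2.1, ν.2.2.2.1, ν.2.2.2.2) : Ix)) n
    (by
      rintro ⟨a, b, c, d, e⟩ _ ⟨a', b', c', d', e'⟩ _ h
      simp only [Prod.mk.injEq, add_left_inj] at h
      obtain ⟨rfl, rfl, rfl, rfl, rfl⟩ := h
      rfl)

@[simp] theorem dv1_apply (n : N K) (i j k : ℕ) (w : List E) (q : Wb) :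
    dv1 n (i, j, k, w, q) = n (i, j + 1, k, w, q) := rfl

/-- **kernel of `(a, b) ↦ x_1 a - x_0 b`** in coordinates, with the witness `dv0 a` -/
theorem ker_N {a b : N K} (h : opX1 K a = opX0 K b) :
    a = opX0 K (dv0 a) ∧ b = opX1 K (dv0 a) := by
  have ha : a = opX0 K (dv0 a) := by
    ext ⟨i, j, k, w, q⟩
    cases i with
    | zero => rw [opX0_apply_zero, ← opX1_apply_succ, h, opX0_apply_zero]
    | succ i => rw [opX0_apply_succ, dv0_apply]
  refine ⟨ha, ?_⟩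
  have h1 : opX0 K (b - opX1 K (dv0 a)) = 0 := by
    rw [map_sub, X0X1, ← ha, h, sub_self]
  exact sub_eq_zero.1 (opX0_inj h1)

/-- the part of `n` with first exponent `0` -/
def part0 (n : N K) : N K := n.filter (fun ν : Ix => ν.1 = 0)

theorem part0_zero (n : N K) (j k : ℕ) (w : List E) (q : Wb) :
    part0 n (0, j, k, w, q) = n (0, j, k, w, q) := Finsupp.filter_apply_pos _ _ rfl

theorem part0_succ (n : N K) (i j k : ℕ) (w : List E) (q : Wb) :
    part0 n (i + 1, j, k, w, q) = 0 := Finsupp.filter_apply_neg _ _ (Nat.succ_ne_zero i)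

/-- **`(x_0, x_1)` generate everything without the exponents `(0, 0)`** -/
theorem sur_N {n : N K} (h : ∀ k w q, n (0, 0, k, w, q) = 0) :
    n = opX0 K (dv0 n) + opX1 K (dv1 (part0 n)) := by
  ext ⟨i, j, k, w, q⟩
  rw [Finsupp.add_apply]
  cases i with
  | zero =>
    rw [opX0_apply_zero, zero_add]
    cases j with
    | zero => rw [opX1_apply_zero, h]
    | succ j => rw [opX1_apply_succ, dv1_apply, part0_zero]
  | succ i =>
    rw [opX0_apply_succ, dv0_apply]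
    cases j with
    | zero => rw [opX1_apply_zero, add_zero]
    | succ j => rw [opX1_apply_succ, dv1_apply, part0_succ, add_zero]

/-! ### degrees -/

theorem dPx_succ0 (i j k : ℕ) (w : List E) (q : Wb) :
    dPx (i + 1, j, k, w, q) = dPx (i, j, k, w, q) + 1 := by
  simp only [dPx]; push_cast; ring

theorem dPx_succ1 (i j k : ℕ) (w : List E) (q : Wb) :
    dPx (i, j + 1, k, w, q) = dPx (i, j, k, w, q) + 1 := by
  simp only [dPx]; push_cast; ring

theorem dv0_NS {n : N K} {P : ℤ} {A C : ℕ} (hn : n ∈ NS K P A C) : dv0 n ∈ NS K (P - 1) A C := by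
  rw [mem_NS_iff] at hn ⊢
  rintro ⟨i, j, k, w, q⟩ h
  obtain ⟨h1, h2, h3⟩ := hn (i + 1, j, k, w, q) h
  refine ⟨?_, h2, h3⟩
  rw [dPx_succ0] at h1
  linarith

theorem dv1_NS {n : N K} {P : ℤ} {A C : ℕ} (hn : n ∈ NS K P A C) : dv1 n ∈ NS K (P - 1) A C := by
  rw [mem_NS_iff] at hn ⊢
  rintro ⟨i, j, k, w, q⟩ h
  obtain ⟨h1, h2, h3⟩ := hn (i, j + 1, k, w, q) h
  refine ⟨?_, h2, h3⟩
  rw [dPx_succ1] at h1
  linarith

theorem part0_NS {n : N K} {P : ℤ} {A C : ℕ} (hn : n ∈ NS K P A C) : part0 n ∈ NS K P A C := by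
  rw [mem_NS_iff] at hn ⊢
  intro ν h
  apply hn
  intro h0
  apply h
  unfold part0
  by_cases hp : ν.1 = 0
  · rw [Finsupp.filter_apply_pos (fun ν : Ix => ν.1 = 0) n hp, h0]
  · exact Finsupp.filter_apply_neg (fun ν : Ix => ν.1 = 0) n hp

theorem dP_le (l : E) : l.toGen.dP ≤ 0 := by
  cases l <;> simp [E.toGen, Gen.dP]

theorem sumP_le (w : List E) : (w.map (fun l => l.toGen.dP)).sum ≤ 0 := by
  induction w with
  | nil => simp
  | cons l w ih =>
    have := dP_le l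
    simp only [List.map_cons, List.sum_cons]
    omega

theorem dPx_zero_le (k : ℕ) (w : List E) (q : Wb) : dPx (0, 0, k, w, q) ≤ 0 := by
  have := sumP_le w
  simp only [dPx]
  push_cast
  omega

/-- in positive `P`-degree the exponents `(0, 0)` do not occur -/
theorem zero_of_pos {n : N K} {P : ℤ} {A C : ℕ} (hP : 1 ≤ P) (hn : n ∈ NS K P A C)
    (k : ℕ) (w : List E) (q : Wb) : n (0, 0, k, w, q) = 0 := by
  by_contra h
  have h1 := ((mem_NS_iff.1 hn) _ h).1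
  have h2 := dPx_zero_le k w q
  omega

theorem dv0_NSB {n : N K} {P : ℤ} {A : ℕ} (hn : n ∈ NSB K P A) : dv0 n ∈ NSB K (P - 1) A := by
  rw [mem_NSB_iff] at hn ⊢
  rintro ⟨i, j, k, w, q⟩ h
  obtain ⟨h1, h2⟩ := hn (i + 1, j, k, w, q) h
  refine ⟨?_, h2⟩
  rw [dPx_succ0] at h1
  linarith

theorem dv1_NSB {n : N K} {P : ℤ} {A : ℕ} (hn : n ∈ NSB K P A) : dv1 n ∈ NSB K (P - 1) A := by
  rw [mem_NSB_iff] at hn ⊢
  rintro ⟨i, j, k, w, q⟩ h
  obtain ⟨h1, h2⟩ := hn (i, j + 1, k, w, q) h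
  refine ⟨?_, h2⟩
  rw [dPx_succ1] at h1
  linarith

theorem part0_NSB {n : N K} {P : ℤ} {A : ℕ} (hn : n ∈ NSB K P A) : part0 n ∈ NSB K P A := by
  rw [mem_NSB_iff] at hn ⊢
  intro ν h
  apply hn
  intro h0
  apply h
  unfold part0
  by_cases hp : ν.1 = 0
  · rw [Finsupp.filter_apply_pos (fun ν : Ix => ν.1 = 0) n hp, h0]
  · exact Finsupp.filter_apply_neg (fun ν : Ix => ν.1 = 0) n hp

theorem zero_of_posB {n : N K} {P : ℤ} {A : ℕ} (hP : 1 ≤ P) (hn : n ∈ NSB K P A)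
    (k : ℕ) (w : List E) (q : Wb) : n (0, 0, k, w, q) = 0 := by
  by_contra h
  have h1 := ((mem_NSB_iff.1 hn) _ h).1
  have h2 := dPx_zero_le k w q
  omega

/-! ### the left statements in `R''` -/

variable (π : Par K)

/-- transfer: `ev` of a left multiple -/
theorem ev_x0 (r : R π) : ev π (X π (.x 0) * r) = opX0 K (ev π r) := by
  rw [ev_mul, rep_x0]

theorem ev_x1 (r : R π) : ev π (X π (.x 1) * r) = opX1 K (ev π r) := by
  rw [ev_mul, rep_x1]

theorem ev_eq_zero {r : R π} (h : ev π r = 0) : r = 0 := by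
  rw [← Psi_ev π r, h, map_zero]

theorem ev_inj {r s : R π} (h : ev π r = ev π s) : r = s := by
  rw [← Psi_ev π r, h, Psi_ev]

theorem xl_inj (i : Fin 2) {r : R π} (h : X π (.x i) * r = 0) : r = 0 := by
  apply ev_eq_zero
  rcases fin2 i with rfl | rfl
  · apply opX0_inj; rw [← ev_x0, h, map_zero]
  · apply opX1_inj; rw [← ev_x1, h, map_zero]

/-- **left Koszul, kernel** -/
theorem xl_ker {P : ℤ} {A C : ℕ} {a b : R π} (ha : a ∈ pc π P A C)
    (h : X π (.x 1) * a = X π (.x 0) * b) :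
    ∃ c ∈ pc π (P - 1) A C, a = X π (.x 0) * c ∧ b = X π (.x 1) * c := by
  have h1 : opX1 K (ev π a) = opX0 K (ev π b) := by rw [← ev_x1, h, ev_x0]
  obtain ⟨h2, h3⟩ := ker_N h1
  refine ⟨Psi π (dv0 (ev π a)), ?_, ?_, ?_⟩
  · rw [mem_pc_iff, ev_Psi]
    exact dv0_NS ((mem_pc_iff π).1 ha)
  · rw [← Psi_X0, ← h2, Psi_ev]
  · rw [← Psi_X1, ← h3, Psi_ev]

/-- **left Koszul, generation** -/
theorem xl_sur {P : ℤ} {A C : ℕ} (hP : 1 ≤ P) {r : R π} (hr : r ∈ pc π P A C) :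
    ∃ a ∈ pc π (P - 1) A C, ∃ b ∈ pc π (P - 1) A C, r = X π (.x 0) * a + X π (.x 1) * b := by
  have h1 := (mem_pc_iff π).1 hr
  refine ⟨Psi π (dv0 (ev π r)), ?_, Psi π (dv1 (part0 (ev π r))), ?_, ?_⟩
  · rw [mem_pc_iff, ev_Psi]; exact dv0_NS h1
  · rw [mem_pc_iff, ev_Psi]; exact dv1_NS (part0_NS h1)
  · rw [← Psi_X0, ← Psi_X1, ← map_add, ← sur_N (zero_of_pos hP h1), Psi_ev]

theorem xl_kerB {P : ℤ} {A : ℕ} {a b : R π} (ha : a ∈ pcB π P A)
    (h : X π (.x 1) * a = X π (.x 0) * b) :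
    ∃ c ∈ pcB π (P - 1) A, a = X π (.x 0) * c ∧ b = X π (.x 1) * c := by
  have h1 : opX1 K (ev π a) = opX0 K (ev π b) := by rw [← ev_x1, h, ev_x0]
  obtain ⟨h2, h3⟩ := ker_N h1
  refine ⟨Psi π (dv0 (ev π a)), ?_, ?_, ?_⟩
  · rw [mem_pcB_iff, ev_Psi]
    exact dv0_NSB ((mem_pcB_iff π).1 ha)
  · rw [← Psi_X0, ← h2, Psi_ev]
  · rw [← Psi_X1, ← h3, Psi_ev]

theorem xl_surB {P : ℤ} {A : ℕ} (hP : 1 ≤ P) {r : R π} (hr : r ∈ pcB π P A) :
    ∃ a ∈ pcB π (P - 1) A, ∃ b ∈ pcB π (P - 1) A, r = X π (.x 0) * a + X π (.x 1) * b := by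
  have h1 := (mem_pcB_iff π).1 hr
  refine ⟨Psi π (dv0 (ev π r)), ?_, Psi π (dv1 (part0 (ev π r))), ?_, ?_⟩
  · rw [mem_pcB_iff, ev_Psi]; exact dv0_NSB h1
  · rw [mem_pcB_iff, ev_Psi]; exact dv1_NSB (part0_NSB h1)
  · rw [← Psi_X0, ← Psi_X1, ← map_add, ← sur_N (zero_of_posB hP h1), Psi_ev]

end Crest.Agent.R186.Kos374
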