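import Crest.Agent.R186.Bas_735

/-!
# Row 186, half (A), leaf (c2) (helper307), part 1: the left Koszul contraction of `Q`

`dq g : Q → Q` = "first letter divided off" (normal form without the word `x x'`);
`dM g` the same for the twisted multiplications `MQ g` of 735:
`Σ_g MQ g (dM g u) = u - eps u`, `dM g (MQ l v) = δ v` (`l ≠ x`), `dM x (MQ x v) = v - MQ x' (dM x' v)`,
`dM x' (MQ x v) = p MQ x (dM x' v)`.
-/

set_option autoImplicit false

namespace Crest.Agent.R186.KosQ307

open Crest.Agent.R186.Loc261
open Crest.Agent.R186.VQ735 (lp MQ SC SC_apply MQ_apply dg Bt bq qd HT coef)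

variable {K : Type} [Field K]

section loc

variable (P : Loc261.Par K)

/-- the sum of the components -/
noncomputable def tot : (K × (Lt → Loc261.Q P)) →ₗ[K] Loc261.Q P where
  toFun z := algebraMap K _ z.1 + (li P .x * z.2 .x + li P .a * z.2 .a + li P .x' * z.2 .x'
      + li P .b * z.2 .b)
  map_add' z w := by
    simp only [Prod.fst_add, Prod.snd_add, Pi.add_apply, map_add, mul_add]
    abel
  map_smul' r z := by
    show algebraMap K _ (r * z.1) + (li P .x * (r • z.2 .x) + li P .a * (r • z.2 .a)
      + li P .x' * (r • z.2 .x') + li P .b * (r • z.2 .b)) = r • _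
    simp only [mul_smul_comm, map_mul, smul_add, ← Algebra.smul_def]

theorem sum4 {M : Type*} [AddCommMonoid M] (F : Lt → M) :
    ∑ g, F g = F .x + F .a + F .x' + F .b := VQ735.sumL F

theorem tot_apply (r : K) (b : Lt → Loc261.Q P) :
    tot P (r, b) = algebraMap K _ r + (li P .x * b .x + li P .a * b .a + li P .x' * b .x'
      + li P .b * b .b) := rfl

/-- components of left multiplication by `x` -/
noncomputable def alx (z : K × (Lt → Loc261.Q P)) : Lt → Loc261.Q P
  | .x => algebraMap K _ z.1 + (li P .x * z.2 .x + li P .a * z.2 .a + li P .b * z.2 .b)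
  | .x' => P.p⁻¹ • (li P .x * z.2 .x')
  | .a => 0
  | .b => 0

/-- left multiplication by a letter -/
noncomputable def al (l : Lt) : Module.End K (K × (Lt → Loc261.Q P)) where
  toFun z := (0, if l = .x then alx P z else Pi.single l (tot P z))
  map_add' z w := by
    refine Prod.ext (by simp) ?_
    funext g
    split_ifs
    · cases g <;> simp [alx, mul_add] <;> abel
    · simp [Pi.single_add]
  map_smul' r z := by
    refine Prod.ext (by simp) ?_
    funext g
    split_ifs
    · cases g
      · show algebraMap K _ (r * z.1) + (li P .x * (r • z.2 .x) + li P .a * (r • z.2 .a)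
          + li P .b * (r • z.2 .b)) = r • (algebraMap K _ z.1 + (li P .x * z.2 .x
          + li P .a * z.2 .a + li P .b * z.2 .b))
        simp only [mul_smul_comm, map_mul, smul_add, ← Algebra.smul_def]
      · exact (smul_zero r).symm
      · show P.p⁻¹ • (li P .x * (r • z.2 .x')) = r • (P.p⁻¹ • (li P .x * z.2 .x'))
        rw [mul_smul_comm, smul_comm]
      · exact (smul_zero r).symm
    · simp [Pi.single_smul]

theorem al_ne {l : Lt} (hl : l ≠ .x) (z : K × (Lt → Loc261.Q P)) :
    al P l z = (0, Pi.single l (tot P z)) := by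
  show (0, if l = .x then alx P z else Pi.single l (tot P z)) = _
  rw [if_neg hl]

theorem al_x (z : K × (Lt → Loc261.Q P)) : al P .x z = (0, alx P z) := by
  show (0, if (Lt.x : Lt) = .x then alx P z else Pi.single .x (tot P z)) = _
  rw [if_pos rfl]

theorem tot_al (l : Lt) (z : K × (Lt → Loc261.Q P)) : tot P (al P l z) = li P l * tot P z := by
  by_cases hl : l = .x
  · subst hl
    obtain ⟨r, b⟩ := z
    rw [al_x, tot_apply, tot_apply]
    simp only [alx, map_zero, zero_add, mul_zero, add_zero, mul_add]
    rw [mul_smul_comm, ← mul_assoc (li P .x') (li P .x), ← smul_mul_assoc, ← rel]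
    simp only [mul_assoc]
    abel
  · rw [al_ne P hl, tot_apply]
    rw [← sum4 (fun g => li P g * (Pi.single l (tot P z) : Lt → Loc261.Q P) g)]
    rw [map_zero, zero_add, Finset.sum_eq_single l]
    · rw [Pi.single_eq_same]
    · intro g _ hg
      rw [Pi.single_eq_of_ne hg, mul_zero]
    · intro h; exact absurd (Finset.mem_univ _) h

theorem al_rel : al P .x * al P .x' = P.p⁻¹ • (al P .x' * al P .x) := by
  apply LinearMap.ext
  rintro ⟨r, b⟩
  rw [LinearMap.smul_apply, Module.End.mul_apply, Module.End.mul_apply,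
    al_ne P (l := .x') (by decide), al_ne P (l := .x') (by decide), al_x, tot_al]
  refine Prod.ext (by simp) ?_
  funext g
  cases g <;> simp [Pi.single_apply, alx]

/-- the action of `Q` on `K ⊕ Q^4` -/
noncomputable def Ah : Loc261.Q P →ₐ[K] Module.End K (K × (Lt → Loc261.Q P)) :=
  lft P (al P) (al_rel P)

/-- the components of `u` -/
noncomputable def cmp (u : Loc261.Q P) : K × (Lt → Loc261.Q P) := Ah P u (1, 0)

theorem cmp_add (u v : Loc261.Q P) : cmp P (u + v) = cmp P u + cmp P v := by
  simp [cmp]
theorem cmp_smul (r : K) (u : Loc261.Q P) : cmp P (r • u) = r • cmp P u := by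
  simp [cmp]
theorem cmp_one : cmp P 1 = (1, 0) := by simp [cmp]
theorem cmp_mul (l : Lt) (u : Loc261.Q P) : cmp P (li P l * u) = al P l (cmp P u) := by
  simp [cmp, Ah]

theorem tot_cmp (u : Loc261.Q P) : tot P (cmp P u) = u := by
  induction u using Q_ind P with
  | one => rw [cmp_one, tot_apply]; simp
  | add u v hu hv => rw [cmp_add, map_add, hu, hv]
  | smul r u hu => rw [cmp_smul, map_smul, hu]
  | mul g u hu => rw [cmp_mul, tot_al, hu]

/-- first letter divided off -/
noncomputable def dq (g : Lt) : Loc261.Q P →ₗ[K] Loc261.Q P where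
  toFun u := (cmp P u).2 g
  map_add' u v := by rw [cmp_add]; rfl
  map_smul' r u := by rw [cmp_smul]; rfl

/-- the constant term -/
noncomputable def eps : Loc261.Q P →ₗ[K] K where
  toFun u := (cmp P u).1
  map_add' u v := by rw [cmp_add]; rfl
  map_smul' r u := by rw [cmp_smul]; rfl

theorem cmp_eq (u : Loc261.Q P) : cmp P u = (eps P u, fun g => dq P g u) := rfl

@[simp] theorem eps_one : eps P 1 = 1 := by
  show (cmp P 1).1 = 1
  rw [cmp_one]

@[simp] theorem dq_one (g : Lt) : dq P g 1 = 0 := by
  show (cmp P 1).2 g = 0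
  rw [cmp_one]; rfl

theorem eps_mul (l : Lt) (u : Loc261.Q P) : eps P (li P l * u) = 0 := by
  show (cmp P _).1 = 0
  rw [cmp_mul]
  by_cases hl : l = .x
  · subst hl; rw [cmp_eq, al_x]
  · rw [al_ne P hl]

theorem tot_dq (u : Loc261.Q P) : ∑ g, li P g * dq P g u = u - eps P u • 1 := by
  have h := tot_cmp P u
  rw [cmp_eq, tot_apply, Algebra.algebraMap_eq_smul_one] at h
  rw [sum4]
  rw [eq_sub_iff_add_eq, add_comm]
  exact h

theorem dq_ne {l : Lt} (hl : l ≠ .x) (g : Lt) (u : Loc261.Q P) :
    dq P g (li P l * u) = if l = g then u else 0 := by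
  show (cmp P _).2 g = _
  rw [cmp_mul, al_ne P hl, tot_cmp]
  by_cases h : l = g
  · subst h; simp
  · rw [if_neg h]; exact Pi.single_eq_of_ne (Ne.symm h) _

theorem dq_xx (u : Loc261.Q P) : dq P .x (li P .x * u) = u - li P .x' * dq P .x' u := by
  show (cmp P _).2 .x = _
  have h := tot_dq P u
  rw [sum4] at h
  rw [cmp_mul, cmp_eq, al_x]
  show algebraMap K _ (eps P u) + (li P .x * dq P .x u + li P .a * dq P .a u
    + li P .b * dq P .b u) = _
  rw [Algebra.algebraMap_eq_smul_one]
  have h2 : u = eps P u • 1 + (li P .x * dq P .x u + li P .a * dq P .a u + li P .x' * dq P .x' u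
      + li P .b * dq P .b u) := by rw [h]; abel
  conv_rhs => rw [h2]
  have h3 : dq P .x' (eps P u • 1 + (li P .x * dq P .x u + li P .a * dq P .a u
      + li P .x' * dq P .x' u + li P .b * dq P .b u)) = dq P .x' u := congrArg _ h2.symm
  rw [h3]
  abel

theorem dq_xx' (u : Loc261.Q P) :
    dq P .x' (li P .x * u) = P.p⁻¹ • (li P .x * dq P .x' u) := by
  show (cmp P _).2 .x' = _
  rw [cmp_mul, cmp_eq, al_x]
  rfl

theorem dq_xa (u : Loc261.Q P) : dq P .a (li P .x * u) = 0 := by
  show (cmp P _).2 .a = _
  rw [cmp_mul, cmp_eq, al_x]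
  rfl

theorem dq_xb (u : Loc261.Q P) : dq P .b (li P .x * u) = 0 := by
  show (cmp P _).2 .b = _
  rw [cmp_mul, cmp_eq, al_x]
  rfl

theorem eps_sc (s : Lt → K) (u : Loc261.Q P) : eps P (sc P s u) = eps P u := by
  induction u using Q_ind P with
  | one => simp
  | add u v hu hv => simp only [map_add, hu, hv]
  | smul r u hu => simp only [map_smul, hu]
  | mul g u _ => rw [map_mul, sc_li, smul_mul_assoc, map_smul, eps_mul, eps_mul, smul_zero]

theorem dq_sc (s : Lt → K) (g : Lt) (u : Loc261.Q P) :
    dq P g (sc P s u) = s g • sc P s (dq P g u) := by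
  revert g
  induction u using Q_ind P with
  | one => intro g; simp
  | add u v hu hv => intro g; simp only [map_add, hu, hv, smul_add]
  | smul r u hu => intro g; simp only [map_smul, hu]; rw [smul_comm]
  | mul l u hu =>
    intro g
    rw [map_mul, sc_li, smul_mul_assoc, map_smul]
    by_cases hl : l = .x
    · subst hl
      cases g
      · rw [dq_xx, dq_xx, hu, map_sub, map_mul, sc_li, smul_mul_assoc, mul_smul_comm]
      · rw [dq_xa, dq_xa, map_zero, smul_zero, smul_zero]
      · rw [dq_xx', dq_xx', hu, map_smul, map_mul, sc_li, smul_mul_assoc, mul_smul_comm]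
        simp only [smul_smul]
        congr 1
        ring
      · rw [dq_xb, dq_xb, map_zero, smul_zero, smul_zero]
    · rw [dq_ne P hl, dq_ne P hl]
      by_cases h : l = g
      · subst h; rw [if_pos rfl, if_pos rfl]
      · rw [if_neg h, if_neg h, map_zero, smul_zero, smul_zero]

theorem eps_wp (w : List Lt) (hw : w ≠ []) : eps P (wp P w) = 0 := by
  cases w with
  | nil => exact absurd rfl hw
  | cons l w => rw [wp_cons, eps_mul]

theorem eps_Qc {m : Multiset Lt} (hm : m ≠ 0) {u : Loc261.Q P} (hu : u ∈ Qc P m) :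
    eps P u = 0 := by
  have h : Qc P m ≤ LinearMap.ker (eps P) := by
    refine Qc_le P ?_
    intro w hw
    rw [LinearMap.mem_ker]
    apply eps_wp
    rintro rfl
    exact hm (by rw [← hw]; rfl)
  exact h hu

theorem dq_wp_mem (g : Lt) (w : List Lt) : dq P g (wp P w) ∈ Qg P (w : Multiset Lt) g := by
  revert g
  induction w with
  | nil => intro g; rw [wp_nil, dq_one]; exact Submodule.zero_mem _
  | cons l w ih =>
    intro g
    rw [wp_cons]
    have hx' : li P .x' * dq P .x' (wp P w) ∈ Qc P (w : Multiset Lt) := by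
      have h := ih .x'
      unfold Qg at h
      split_ifs at h with hg
      · have h2 := li_mul_mem P .x' h
        rwa [Multiset.cons_erase hg] at h2
      · have h0 : dq P .x' (wp P w) = 0 := h
        rw [h0, mul_zero]; exact Submodule.zero_mem _
    have e0 : ((l :: w : List Lt) : Multiset Lt) = l ::ₘ (w : Multiset Lt) := rfl
    rw [e0]
    by_cases hl : l = .x
    · subst hl
      cases g
      · rw [dq_xx]
        unfold Qg
        rw [if_pos (Multiset.mem_cons_self _ _), Multiset.erase_cons_head]
        exact Submodule.sub_mem _ (wp_mem P w) hx'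
      · rw [dq_xa]; exact Submodule.zero_mem _
      · rw [dq_xx']
        refine Submodule.smul_mem _ _ ?_
        have h := ih .x'
        unfold Qg at h ⊢
        split_ifs at h with hg
        · rw [if_pos (Multiset.mem_cons_of_mem hg), Multiset.erase_cons_tail _ (by decide)]
          exact li_mul_mem P .x h
        · have h0 : dq P .x' (wp P w) = 0 := h
          rw [h0, mul_zero]; exact Submodule.zero_mem _
      · rw [dq_xb]; exact Submodule.zero_mem _
    · rw [dq_ne P hl]
      by_cases h : l = g
      · subst h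
        rw [if_pos rfl]
        unfold Qg
        rw [if_pos (Multiset.mem_cons_self _ _), Multiset.erase_cons_head]
        exact wp_mem P w
      · rw [if_neg h]; exact Submodule.zero_mem _

theorem dq_mem (g : Lt) {m : Multiset Lt} {u : Loc261.Q P} (hu : u ∈ Qc P m) :
    dq P g u ∈ Qg P m g := by
  have h : Qc P m ≤ (Qg P m g).comap (dq P g) := by
    refine Qc_le P ?_
    intro w hw
    rw [Submodule.mem_comap, ← hw]
    exact dq_wp_mem P g w
  exact h hu

end loc

end Crest.Agent.R186.KosQ307
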