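import Mathlib

/-!
Row 186 (S0281), helper417: Koszul lemmas in the two commuting operators `x0, x1` for a filtered
right module (`F P` = the lattice of degree `P`, the order fixed).

`ev n m = ∑_{a ≤ n} x0^a x1^(n-a) m_a` is the map `M_P ⊗ k[x]_n → M_{P+n}`; it is surjective for
`0 ≤ P` and its kernel is the image of `κ : M_{P-1} ⊗ k[x]_{n-1} → M_P ⊗ k[x]_n`,
`(κ r)_a = x1 r_{a-1} - x0 r_a`, which is injective.
-/

set_option autoImplicit false

namespace Crest.Agent.R186.KosX417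

open Finset

variable {K 𝓜 : Type*} [Ring K] [AddCommGroup 𝓜] [Module K 𝓜]

/-- two commuting operators and the lattices `F P`, Koszul in degrees `≥ 0` -/
structure Kos (x0 x1 : 𝓜 →ₗ[K] 𝓜) (F : ℤ → Submodule K 𝓜) : Prop where
  comm : ∀ m, x0 (x1 m) = x1 (x0 m)
  m0 : ∀ P m, m ∈ F P → x0 m ∈ F (P + 1)
  m1 : ∀ P m, m ∈ F P → x1 m ∈ F (P + 1)
  inj0 : ∀ m, x0 m = 0 → m = 0
  inj1 : ∀ m, x1 m = 0 → m = 0
  surj : ∀ P : ℤ, 0 ≤ P → ∀ m ∈ F (P + 1), ∃ a ∈ F P, ∃ b ∈ F P, m = x0 a + x1 b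
  ker : ∀ P : ℤ, 0 ≤ P → ∀ a ∈ F P, ∀ b ∈ F P, x0 a + x1 b = 0 →
    ∃ n ∈ F (P - 1), a = x1 n ∧ b = - x0 n

variable {x0 x1 : 𝓜 →ₗ[K] 𝓜} {F : ℤ → Submodule K 𝓜}

/-- `∑_{a ≤ n} x0^a x1^(n-a) m_a` -/
def ev (x0 x1 : 𝓜 →ₗ[K] 𝓜) (n : ℕ) (m : ℕ → 𝓜) : 𝓜 :=
  ∑ a ∈ range (n + 1), (x0 ^ a) ((x1 ^ (n - a)) (m a))

theorem pow_comm (h : Kos x0 x1 F) (j : ℕ) (m : 𝓜) : x0 ((x1 ^ j) m) = (x1 ^ j) (x0 m) := by
  induction j generalizing m with
  | zero => rfl
  | succ j ih => rw [pow_succ, Module.End.mul_apply, ih, h.comm]; rfl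

theorem pow_comm' (h : Kos x0 x1 F) (j : ℕ) (m : 𝓜) : x1 ((x0 ^ j) m) = (x0 ^ j) (x1 m) := by
  induction j generalizing m with
  | zero => rfl
  | succ j ih => rw [pow_succ, Module.End.mul_apply, ih, ← h.comm]; rfl

theorem mem_pow0 (h : Kos x0 x1 F) {P : ℤ} {m : 𝓜} (hm : m ∈ F P) (j : ℕ) :
    (x0 ^ j) m ∈ F (P + j) := by
  induction j with
  | zero => simpa using hm
  | succ j ih =>
    rw [pow_succ', Module.End.mul_apply]
    have := h.m0 _ _ ih
    rwa [show P + ((j + 1 : ℕ) : ℤ) = P + j + 1 by push_cast; ring]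

theorem mem_pow1 (h : Kos x0 x1 F) {P : ℤ} {m : 𝓜} (hm : m ∈ F P) (j : ℕ) :
    (x1 ^ j) m ∈ F (P + j) := by
  induction j with
  | zero => simpa using hm
  | succ j ih =>
    rw [pow_succ', Module.End.mul_apply]
    have := h.m1 _ _ ih
    rwa [show P + ((j + 1 : ℕ) : ℤ) = P + j + 1 by push_cast; ring]

theorem ev_zero (m : ℕ → 𝓜) : ev x0 x1 0 m = m 0 := by simp [ev]

/-- split off the term `a = 0` -/
theorem ev_succ (n : ℕ) (m : ℕ → 𝓜) :
    ev x0 x1 (n + 1) m = (x1 ^ (n + 1)) (m 0) + x0 (ev x0 x1 n fun a => m (a + 1)) := by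
  unfold ev
  rw [sum_range_succ' _ (n + 1), map_sum, add_comm]
  congr 1
  refine sum_congr rfl fun a _ => ?_
  rw [Nat.add_sub_add_right, pow_succ', Module.End.mul_apply]

theorem ev_mem (h : Kos x0 x1 F) {P : ℤ} (n : ℕ) {m : ℕ → 𝓜} (hm : ∀ a ≤ n, m a ∈ F P) :
    ev x0 x1 n m ∈ F (P + n) := by
  unfold ev
  refine Submodule.sum_mem _ fun a ha => ?_
  have ha' : a ≤ n := by simpa [Nat.lt_succ_iff] using ha
  have := mem_pow0 h (mem_pow1 h (hm a ha') (n - a)) a
  rwa [show P + ((n - a : ℕ) : ℤ) + (a : ℤ) = P + n by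
    rw [Nat.cast_sub ha']; ring] at this

theorem ev_surj (h : Kos x0 x1 F) {P : ℤ} (hP : 0 ≤ P) (n : ℕ) :
    ∀ y ∈ F (P + n), ∃ m : ℕ → 𝓜, (∀ a, m a ∈ F P) ∧ (∀ a, n < a → m a = 0) ∧
      ev x0 x1 n m = y := by
  induction n with
  | zero =>
    intro y hy
    refine ⟨fun a => if a = 0 then y else 0, fun a => ?_, fun a ha => ?_, ?_⟩
    · dsimp only
      split_ifs
      · simpa using hy
      · exact zero_mem _
    · dsimp only
      rw [if_neg (by omega)]
    · simp [ev]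
  | succ n ih =>
    intro y hy
    -- first the pure power part: `y = x0 y' + x1^(n+1) b`
    have key : ∀ j : ℕ, ∀ y ∈ F (P + (j : ℤ) + 1 ), ∃ a ∈ F (P + (j : ℤ)), ∃ b ∈ F P,
        y = x0 a + (x1 ^ (j + 1)) b := by
      intro j
      induction j with
      | zero =>
        intro y hy
        obtain ⟨a, ha, b, hb, e⟩ := h.surj P hP y (by simpa using hy)
        exact ⟨a, by simpa using ha, b, hb, by simpa using e⟩
      | succ j ihj =>
        intro y hy
        obtain ⟨a, ha, b, hb, e⟩ := h.surj (P + ((j + 1 : ℕ) : ℤ)) (by positivity) y hy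
        have hb' : b ∈ F (P + (j : ℤ) + 1) := by
          rwa [show P + ((j + 1 : ℕ) : ℤ) = P + j + 1 by push_cast; ring] at hb
        obtain ⟨a', ha', b', hb', e'⟩ := ihj b hb'
        refine ⟨a + x1 a', Submodule.add_mem _ ha ?_, b', hb', ?_⟩
        · have := h.m1 _ _ ha'
          rwa [show P + ((j + 1 : ℕ) : ℤ) = P + j + 1 by push_cast; ring]
        · rw [e, e', map_add, map_add, h.comm, pow_succ' x1 (j + 1), Module.End.mul_apply]
          abel
    have hy' : y ∈ F (P + (n : ℤ) + 1) := by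
      rwa [show P + ((n + 1 : ℕ) : ℤ) = P + n + 1 by push_cast; ring] at hy
    obtain ⟨a, ha, b, hb, e⟩ := key n y hy'
    obtain ⟨m, hm, hm0, hme⟩ := ih a ha
    refine ⟨fun c => if c = 0 then b else m (c - 1), fun c => ?_, fun c hc => ?_, ?_⟩
    · dsimp only
      split_ifs
      · exact hb
      · exact hm _
    · dsimp only
      rw [if_neg (by omega)]
      exact hm0 _ (by omega)
    · rw [ev_succ]
      simp only [if_true, Nat.add_sub_cancel, Nat.succ_ne_zero, if_false]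
      rw [hme, e]
      abel

/-- `x1^j m + x0 e = 0` -/
theorem ker_pow (h : Kos x0 x1 F) {P : ℤ} (hP : 0 ≤ P) (j : ℕ) :
    ∀ m ∈ F P, ∀ e ∈ F (P + j), x0 e + (x1 ^ (j + 1)) m = 0 →
      ∃ w ∈ F (P - 1), m = - x0 w ∧ e = (x1 ^ (j + 1)) w := by
  induction j with
  | zero =>
    intro m hm e he h0
    obtain ⟨n, hn, e1, e2⟩ := h.ker P hP e (by simpa using he) m hm (by simpa using h0)
    exact ⟨n, hn, e2, by simpa using e1⟩
  | succ j ih =>
    intro m hm e he h0
    have hx : (x1 ^ (j + 1)) m ∈ F (P + ((j + 1 : ℕ) : ℤ)) := mem_pow1 h hm _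
    have h0' : x0 e + x1 ((x1 ^ (j + 1)) m) = 0 := by
      rw [← Module.End.mul_apply, ← pow_succ']; exact h0
    obtain ⟨n, hn, e1, e2⟩ := h.ker _ (by positivity) e he _ hx h0'
    have hn' : n ∈ F (P + j) := by
      rwa [show P + ((j + 1 : ℕ) : ℤ) - 1 = P + j by push_cast; ring] at hn
    obtain ⟨w, hw, e3, e4⟩ := ih m hm n hn' (by rw [e2]; abel)
    exact ⟨w, hw, e3, by rw [e1, e4, pow_succ' x1 (j + 1), Module.End.mul_apply]⟩

/-- `(κ r)_a = x1 r_{a-1} - x0 r_a` -/
def kap (x0 x1 : 𝓜 →ₗ[K] 𝓜) (r : ℕ → 𝓜) (a : ℕ) : 𝓜 :=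
  (if a = 0 then 0 else x1 (r (a - 1))) - x0 (r a)

@[simp] theorem kap_zero (r : ℕ → 𝓜) : kap x0 x1 r 0 = - x0 (r 0) := by simp [kap]
@[simp] theorem kap_succ (r : ℕ → 𝓜) (a : ℕ) :
    kap x0 x1 r (a + 1) = x1 (r a) - x0 (r (a + 1)) := by simp [kap]

theorem kap_mem (h : Kos x0 x1 F) {P : ℤ} {r : ℕ → 𝓜} (hr : ∀ a, r a ∈ F (P - 1)) (a : ℕ) :
    kap x0 x1 r a ∈ F P := by
  unfold kap
  refine Submodule.sub_mem _ ?_ ?_
  · split_ifs
    · exact zero_mem _
    · simpa using h.m1 _ _ (hr (a - 1))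
  · simpa using h.m0 _ _ (hr a)

/-- injectivity of `κ` -/
theorem kap_inj (h : Kos x0 x1 F) {r : ℕ → 𝓜} (n : ℕ) (hk : ∀ a < n, kap x0 x1 r a = 0) :
    ∀ a < n, r a = 0 := by
  intro a
  induction a with
  | zero =>
    intro hn
    have := hk 0 hn
    rw [kap_zero, neg_eq_zero] at this
    exact h.inj0 _ this
  | succ a ih =>
    intro hn
    have := hk (a + 1) hn
    rw [kap_succ, ih (by omega), map_zero, zero_sub, neg_eq_zero] at this
    exact h.inj0 _ this

/-- `ev ∘ κ = 0` -/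
theorem ev_kap (h : Kos x0 x1 F) (n : ℕ) (r : ℕ → 𝓜) (hr : ∀ a, n ≤ a → r a = 0) :
    ev x0 x1 n (kap x0 x1 r) = 0 := by
  have : ∀ n : ℕ, ∀ r : ℕ → 𝓜, ev x0 x1 n (kap x0 x1 r) = - x0 ((x0 ^ n) (r n)) := by
    intro n
    unfold ev
    intro r
    -- telescoping
    have tel : ∀ j ≤ n, ∑ a ∈ range (j + 1), (x0 ^ a) ((x1 ^ (n - a)) (kap x0 x1 r a))
        = - (x0 ^ (j + 1)) ((x1 ^ (n - j)) (r j)) := by
      intro j
      induction j with
      | zero =>
        intro _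
        simp only [zero_add, range_one, sum_singleton, pow_zero, Module.End.one_apply,
          kap_zero, map_neg, pow_one]
        rw [pow_comm h]
      | succ j ih =>
        intro hj
        rw [sum_range_succ, ih (by omega), kap_succ, map_sub, map_sub]
        have e1 : (x1 ^ (n - (j + 1))) (x1 (r j)) = (x1 ^ (n - j)) (r j) := by
          rw [← Module.End.mul_apply, ← pow_succ]
          congr 2
          omega
        have e2 : (x0 ^ (j + 1)) ((x1 ^ (n - (j + 1))) (x0 (r (j + 1)))) =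
            (x0 ^ (j + 1 + 1)) ((x1 ^ (n - (j + 1))) (r (j + 1))) := by
          rw [← pow_comm h, ← Module.End.mul_apply, ← pow_succ]
        rw [e1, e2]
        abel
    have := tel n le_rfl
    rw [this, Nat.sub_self, pow_zero, Module.End.one_apply, pow_succ', Module.End.mul_apply]
  rw [this, hr n le_rfl, map_zero, map_zero, neg_zero]

/-- the kernel of `ev` -/
theorem ev_ker (h : Kos x0 x1 F) {P : ℤ} (hP : 0 ≤ P) (n : ℕ) :
    ∀ m : ℕ → 𝓜, (∀ a ≤ n, m a ∈ F P) → ev x0 x1 n m = 0 →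
      ∃ r : ℕ → 𝓜, (∀ a, r a ∈ F (P - 1)) ∧ (∀ a, n ≤ a → r a = 0) ∧
        ∀ a ≤ n, m a = kap x0 x1 r a := by
  induction n with
  | zero =>
    intro m _ h0
    refine ⟨0, fun a => zero_mem _, fun a _ => rfl, fun a ha => ?_⟩
    obtain rfl : a = 0 := by omega
    simpa [ev] using h0
  | succ n ih =>
    intro m hm h0
    rw [ev_succ, add_comm] at h0
    have he : (ev x0 x1 n fun a => m (a + 1)) ∈ F (P + n) :=
      ev_mem h n fun a ha => hm (a + 1) (by omega)
    obtain ⟨w, hw, e1, e2⟩ := ker_pow h hP n (m 0) (hm 0 (by omega)) _ he h0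
    -- subtract
    let m' : ℕ → 𝓜 := fun a => if a = 0 then m 1 - x1 w else m (a + 1)
    have hm' : ∀ a ≤ n, m' a ∈ F P := by
      intro a ha
      by_cases h0 : a = 0
      · simp only [m', h0, if_true]
        refine Submodule.sub_mem _ (hm 1 (by omega)) ?_
        simpa using h.m1 _ _ hw
      · simp only [m', h0, if_false]
        exact hm _ (by omega)
    have hev : ev x0 x1 n m' = 0 := by
      have : ev x0 x1 n m' = ev x0 x1 n (fun a => m (a + 1)) - (x1 ^ n) (x1 w) := by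
        unfold ev
        rw [sum_range_succ' _ n, sum_range_succ' _ n]
        simp only [m', Nat.succ_ne_zero, if_false, if_true, pow_zero, Module.End.one_apply,
          Nat.sub_zero, map_sub, zero_add]
        abel
      rw [this, e2, ← Module.End.mul_apply, ← pow_succ, sub_self]
    obtain ⟨r, hr, hr0, hrm⟩ := ih m' hm' hev
    refine ⟨fun a => if a = 0 then w else r (a - 1), fun a => ?_, fun a ha => ?_, fun a ha => ?_⟩
    · dsimp only
      split_ifs
      · exact hw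
      · exact hr _
    · dsimp only
      rw [if_neg (by omega)]
      exact hr0 _ (by omega)
    · rcases a with _ | a
      · simp [e1]
      · rcases a with _ | a
        · have := hrm 0 (by omega)
          simp only [m', if_true, kap_zero] at this
          simp only [zero_add, kap, Nat.one_ne_zero, if_false, Nat.sub_self, if_true]
          rw [sub_eq_iff_eq_add] at this
          rw [this]
          abel
        · have := hrm (a + 1) (by omega)
          simp only [m', Nat.succ_ne_zero, if_false, kap_succ] at this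
          simp only [kap_succ, Nat.succ_ne_zero, if_false, Nat.add_sub_cancel]
          exact this

end Crest.Agent.R186.KosX417
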