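import Crest.Agent.R186.KzE_890
import Crest.Agent.R186.C1b_328

/-!
Row 186 (A), (c1), helper671: the instance `Kz (WL π).dga (tLW π s)` (extra hand).
-/

set_option autoImplicit false
set_option linter.style.haveILetI false
set_option linter.unusedSectionVars false

noncomputable section

open MulOpposite

namespace Crest.Agent.R186.KzI671

open Hat827 Hat827.DGA Win810 Win810.WD Frame515 WBM163 FinV988 Core890 SExt44 DefsQ830 WL221 GrP44
open C2b44 SM890 KzE890

variable {K : Type} [Field K] (π : Par K) (s : ℕ)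

/-- the sparse matrix with `x` at the places `((p, b), (q, b))` -/
def Sp (p q : Fin 2) (x : (WL π).S) (a b : Ob) : (WL π).S :=
  if a = (p, b.2) ∧ b.1 = q then x else 0

theorem Sp_mem {p q : Fin 2} {x : (WL π).S} {e d : ℤ} (hx : x ∈ (WL π).pc (((p.val : ℕ) : ℤ) - ((q.val : ℕ) : ℤ) + e) 0 d)
    (i j : Ob) : Sp π p q x i j ∈ (WL π).pc ((WL π).P i - (WL π).P j + e) ((WL π).A i - (WL π).A j) d := by
  unfold Sp
  split_ifs with h
  · obtain ⟨h1, h2⟩ := h
    have e1 : (WL π).P i - (WL π).P j = ((p.val : ℕ) : ℤ) - ((q.val : ℕ) : ℤ) := by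
      change ((i.1.val : ℕ) : ℤ) - ((j.1.val : ℕ) : ℤ) = _
      rw [h1, h2]
    have e2 : (WL π).A i - (WL π).A j = 0 := by
      change ((i.2.val : ℕ) : ℤ) - ((j.2.val : ℕ) : ℤ) = 0
      rw [h1, sub_self]
    rw [e1, e2]
    exact hx
  · exact Submodule.zero_mem _

theorem sumR (p q : Fin 2) (x : (WL π).S) (f : Ob → (WL π).S) (j : Ob) :
    ∑ t : Ob, f t * Sp π p q x t j = if j.1 = q then f (p, j.2) * x else 0 := by
  rw [Finset.sum_eq_single (p, j.2)]
  · unfold Sp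
    by_cases h : j.1 = q
    · rw [if_pos ⟨rfl, h⟩, if_pos h]
    · rw [if_neg fun h' => h h'.2, if_neg h, mul_zero]
  · intro t _ ht
    unfold Sp
    rw [if_neg fun h' => ht h'.1, mul_zero]
  · intro h
    exact absurd (Finset.mem_univ _) h

theorem sumL (p q : Fin 2) (x : (WL π).S) (f : Ob → (WL π).S) (i : Ob) :
    ∑ t : Ob, Sp π p q x i t * f t = if i.1 = p then x * f (q, i.2) else 0 := by
  rw [Finset.sum_eq_single (q, i.2)]
  · unfold Sp
    by_cases h : i.1 = p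
    · rw [if_pos ⟨Prod.ext h rfl, rfl⟩, if_pos h]
    · rw [if_neg fun h' => h (congrArg Prod.fst h'.1), if_neg h, zero_mul]
  · intro t _ ht
    unfold Sp
    rw [if_neg fun h' => ht (Prod.ext (show t.1 = q from h'.2)
      (show t.2 = i.2 by rw [h'.1])), zero_mul]
  · intro h
    exact absurd (Finset.mem_univ _) h

/-- element of `L` -/
def aE (p q : Fin 2) (x : (WL π).S) : (WL π).dga.C := toW π (Sp π p q x)

/-- element of `tL` -/
def aT (p q : Fin 2) (x : (WL π).S) : (tLW π s).X := toT π s (Sp π p q x)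

section letters

variable {p q : Fin 2} {x : (WL π).S}

theorem aE_h (hx : x ∈ (WL π).pc (((p.val : ℕ) : ℤ) - ((q.val : ℕ) : ℤ)) 0 0) (i j : Ob) :
    Sp π p q x i j ∈ (WL π).pc ((WL π).P i - (WL π).P j) ((WL π).A i - (WL π).A j) 0 := by
  have := Sp_mem π (e := 0) (d := 0) (p := p) (q := q) (x := x) (by rwa [add_zero]) i j
  rwa [add_zero] at this

theorem aT_h (hx : x ∈ (WL π).pc (((p.val : ℕ) : ℤ) - ((q.val : ℕ) : ℤ) + 1) 0 0) (i j : Ob) :
    Sp π p q x i j ∈
      (WL π).pc ((WL π).P i - (WL π).P j + 1) ((WL π).A i - (WL π).A j) ((s : ℤ) - s) := by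
  have := Sp_mem π (e := 1) (d := 0) (p := p) (q := q) (x := x) hx i j
  rwa [sub_self]

theorem en_mul (a b : (WL π).dga.C) (i j : Ob) :
    en π (a * b) i j = ∑ t : Ob, en π a i t * en π b t j := rfl

theorem mulE (hx : x ∈ (WL π).pc (((p.val : ℕ) : ℤ) - ((q.val : ℕ) : ℤ)) 0 0) (z : (WL π).dga.C)
    (i j : Ob) : en π (z * aE π p q x) i j = if j.1 = q then en π z i (p, j.2) * x else 0 := by
  rw [en_mul]
  exact (Finset.sum_congr rfl fun t _ => congrArg _ (toW_en π (aE_h π hx) t j)).trans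
    (sumR π p q x (fun t => en π z i t) j)

theorem Emul (hx : x ∈ (WL π).pc (((p.val : ℕ) : ℤ) - ((q.val : ℕ) : ℤ)) 0 0) (z : (WL π).dga.C)
    (i j : Ob) : en π (aE π p q x * z) i j = if i.1 = p then x * en π z (q, i.2) j else 0 := by
  rw [en_mul]
  exact (Finset.sum_congr rfl fun t _ => congrArg (· * _) (toW_en π (aE_h π hx) i t)).trans
    (sumL π p q x (fun t => en π z t j) i)

/-- left action of `L` on `tL` -/
theorem smulT (hx : x ∈ (WL π).pc (((p.val : ℕ) : ℤ) - ((q.val : ℕ) : ℤ) + 1) 0 0)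
    (z : (WL π).dga.C) (i j : Ob) :
    et π (z • aT π s p q x) i j = if j.1 = q then en π z i (p, j.2) * x else 0 := by
  rw [et_smul]
  exact (Finset.sum_congr rfl fun t _ => congrArg _ (et_toT π (aT_h π s hx) t j)).trans
    (sumR π p q x (fun t => en π z i t) j)

theorem opT (hx : x ∈ (WL π).pc (((p.val : ℕ) : ℤ) - ((q.val : ℕ) : ℤ) + 1) 0 0)
    (z : (WL π).dga.C) (i j : Ob) :
    et π (op z • aT π s p q x) i j = if i.1 = p then x * en π z (q, i.2) j else 0 := by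
  rw [et_op]
  exact (Finset.sum_congr rfl fun t _ => congrArg (· * _) (et_toT π (aT_h π s hx) i t)).trans
    (sumL π p q x (fun t => en π z t j) i)

theorem Esmul (hx : x ∈ (WL π).pc (((p.val : ℕ) : ℤ) - ((q.val : ℕ) : ℤ)) 0 0)
    (z : (tLW π s).X) (i j : Ob) :
    et π (aE π p q x • z) i j = if i.1 = p then x * et π z (q, i.2) j else 0 := by
  rw [et_smul]
  exact (Finset.sum_congr rfl fun t _ => congrArg (· * _) (toW_en π (aE_h π hx) i t)).trans
    (sumL π p q x (fun t => et π z t j) i)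

theorem opE (hx : x ∈ (WL π).pc (((p.val : ℕ) : ℤ) - ((q.val : ℕ) : ℤ)) 0 0)
    (z : (tLW π s).X) (i j : Ob) :
    et π (op (aE π p q x) • z) i j = if j.1 = q then et π z i (p, j.2) * x else 0 := by
  rw [et_op]
  exact (Finset.sum_congr rfl fun t _ => congrArg _ (toW_en π (aE_h π hx) t j)).trans
    (sumR π p q x (fun t => et π z i t) j)

theorem aE_mem (hx : x ∈ (WL π).pc (((p.val : ℕ) : ℤ) - ((q.val : ℕ) : ℤ)) 0 0) :
    aE π p q x ∈ (WL π).dga.G 0 := toW_mem π (aE_h π hx)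

theorem aT_mem (hx : x ∈ (WL π).pc (((p.val : ℕ) : ℤ) - ((q.val : ℕ) : ℤ) + 1) 0 0) :
    aT π s p q x ∈ (tLW π s).gr s := toT_mem π (aT_h π s hx)

theorem en_aE (hx : x ∈ (WL π).pc (((p.val : ℕ) : ℤ) - ((q.val : ℕ) : ℤ)) 0 0) (i j : Ob) :
    en π (aE π p q x) i j = Sp π p q x i j := toW_en π (aE_h π hx) i j

theorem et_aT (hx : x ∈ (WL π).pc (((p.val : ℕ) : ℤ) - ((q.val : ℕ) : ℤ) + 1) 0 0) (i j : Ob) :
    et π (aT π s p q x) i j = Sp π p q x i j := et_toT π (aT_h π s hx) i j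

theorem aT_d (hx : x ∈ (WL π).pc (((p.val : ℕ) : ℤ) - ((q.val : ℕ) : ℤ) + 1) 0 0)
    (h : (WL π).D x = 0) : (tLW π s).d (aT π s p q x) = 0 := by
  refine et_ext π fun i j => ?_
  rw [et_d, et_aT π s hx]
  unfold Sp
  split_ifs
  · exact h
  · exact map_zero _

end letters

theorem one_mem' : (1 : (WL π).S) ∈ (WL π).pc 0 0 0 := (WL π).one_mem

theorem one_h (i : Fin 2) : (1 : (WL π).S) ∈ (WL π).pc (((i.val : ℕ) : ℤ) - ((i.val : ℕ) : ℤ)) 0 0 := by
  rw [sub_self]
  exact one_mem' π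

theorem x_h (c : Fin 2) : xL π c ∈ (WL π).pc ((((1 : Fin 2).val : ℕ) : ℤ) - (((0 : Fin 2).val : ℕ) : ℤ)) 0 0 :=
  xL_mem π c

theorem x_t (c : Fin 2) :
    xL π c ∈ (WL π).pc ((((0 : Fin 2).val : ℕ) : ℤ) - (((0 : Fin 2).val : ℕ) : ℤ) + 1) 0 0 :=
  xL_mem π c

theorem one_t : (1 : (WL π).S) ∈ (WL π).pc ((((0 : Fin 2).val : ℕ) : ℤ) - (((1 : Fin 2).val : ℕ) : ℤ) + 1) 0 0 :=
  one_mem' π

theorem D_one' : (WL π).D (1 : (WL π).S) = 0 := by
  have h := (WL π).D_mul 1 1
  rw [mul_one, mul_one, one_mul] at h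
  exact h.trans ((WL π).two _)

theorem fin2 (a : Fin 2) (h : a ≠ 0) : a = 1 := by omega

theorem fin2' (a : Fin 2) (h : a ≠ 1) : a = 0 := by omega

abbrev E0 : (WL π).dga.C := aE π 0 0 1
abbrev E1 : (WL π).dga.C := aE π 1 1 1
abbrev X0 : (WL π).dga.C := aE π 1 0 (xL π 0)
abbrev X1 : (WL π).dga.C := aE π 1 0 (xL π 1)
abbrev T0 : (tLW π s).X := aT π s 0 0 (xL π 0)
abbrev T1 : (tLW π s).X := aT π s 0 0 (xL π 1)
abbrev U : (tLW π s).X := aT π s 0 1 1

theorem enE (i : Fin 2) (z : (WL π).dga.C) (a b : Ob) :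
    en π (z * aE π i i 1) a b = if b.1 = i then en π z a b else 0 := by
  rw [mulE π (one_h π i)]
  split_ifs with h
  · rw [mul_one, ← h]
  · rfl

theorem Een (i : Fin 2) (z : (WL π).dga.C) (a b : Ob) :
    en π (aE π i i 1 * z) a b = if a.1 = i then en π z a b else 0 := by
  rw [Emul π (one_h π i)]
  split_ifs with h
  · rw [one_mul, ← h]
  · rfl

theorem etE (i : Fin 2) (z : (tLW π s).X) (a b : Ob) :
    et π (op (aE π i i 1) • z) a b = if b.1 = i then et π z a b else 0 := by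
  rw [opE π s (one_h π i)]
  split_ifs with h
  · rw [mul_one, ← h]
  · rfl

theorem Eet (i : Fin 2) (z : (tLW π s).X) (a b : Ob) :
    et π (aE π i i 1 • z) a b = if a.1 = i then et π z a b else 0 := by
  rw [Esmul π s (one_h π i)]
  split_ifs with h
  · rw [one_mul, ← h]
  · rfl

theorem colz {i : Fin 2} {z : (WL π).dga.C} (h : z * aE π i i 1 = z) {a b : Ob} (hb : b.1 ≠ i) :
    en π z a b = 0 := by
  have := congrArg (fun y => en π y a b) h
  simp only [enE, if_neg hb] at this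
  exact this.symm

theorem rowz {i : Fin 2} {z : (WL π).dga.C} (h : aE π i i 1 * z = z) {a b : Ob} (ha : a.1 ≠ i) :
    en π z a b = 0 := by
  have := congrArg (fun y => en π y a b) h
  simp only [Een, if_neg ha] at this
  exact this.symm

theorem colT {i : Fin 2} {z : (tLW π s).X} (h : op (aE π i i 1) • z = z) {a b : Ob}
    (hb : b.1 ≠ i) : et π z a b = 0 := by
  have := congrArg (fun y => et π y a b) h
  simp only [etE, if_neg hb] at this
  exact this.symm

theorem rowT {i : Fin 2} {z : (tLW π s).X} (h : aE π i i 1 • z = z) {a b : Ob} (ha : a.1 ≠ i) :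
    et π z a b = 0 := by
  have := congrArg (fun y => et π y a b) h
  simp only [Eet, if_neg ha] at this
  exact this.symm

theorem en_zero (a b : Ob) : en π 0 a b = 0 := rfl
theorem et_zero (a b : Ob) : et π (0 : (tLW π s).X) a b = 0 := rfl
theorem en_add (u v : (WL π).dga.C) (a b : Ob) : en π (u + v) a b = en π u a b + en π v a b := rfl
theorem et_add (u v : (tLW π s).X) (a b : Ob) : et π (u + v) a b = et π u a b + et π v a b := rfl

theorem P_eq (o : Ob) (i : Fin 2) (h : o.1 = i) : (WL π).P o = ((i.val : ℕ) : ℤ) := by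
  rw [← h]
  rfl

theorem P_pos (o : Ob) : 0 ≤ (WL π).P o := Int.natCast_nonneg _

theorem P_le (o : Ob) : (WL π).P o ≤ 1 := by
  have : o.1.val ≤ 1 := by omega
  change ((o.1.val : ℕ) : ℤ) ≤ 1
  exact_mod_cast this

theorem pcast {P A C P' A' C' : ℤ} {b : (WL π).S} (h : b ∈ (WL π).pc P A C) (e1 : P = P')
    (e2 : A = A') (e3 : C = C') : b ∈ (WL π).pc P' A' C' := by
  subst e1 e2 e3
  exact h

/-- an element of `L` from its entries in the columns `i` -/
theorem exC {k : ℤ} (i : Fin 2) (c : Ob → Fin 4 → (WL π).S)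
    (h : ∀ a b, c a b ∈ (WL π).pc ((WL π).P a - ((i.val : ℕ) : ℤ)) ((WL π).A a - ((b.val : ℕ) : ℤ)) k) :
    ∃ z ∈ (WL π).dga.G k, z * aE π i i 1 = z ∧ ∀ a b, en π z a b = if b.1 = i then c a b.2 else 0 := by
  have h' : ∀ a b : Ob, (if b.1 = i then c a b.2 else 0) ∈
      (WL π).pc ((WL π).P a - (WL π).P b) ((WL π).A a - (WL π).A b) k := by
    intro a b
    split_ifs with hb
    · exact pcast π (h a b.2) (by rw [P_eq π b i hb]) rfl rfl
    · exact Submodule.zero_mem _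
  refine ⟨toW π (fun a b => if b.1 = i then c a b.2 else 0), toW_mem π h', ?_, fun a b => toW_en π h' a b⟩
  refine en_ext π fun a b => ?_
  rw [enE]
  refine (congrArg (fun t => if b.1 = i then t else 0) (toW_en π h' a b)).trans
    (Eq.trans ?_ (toW_en π h' a b).symm)
  by_cases hb : b.1 = i
  · simp only [if_pos hb]
  · simp only [if_neg hb]

/-- an element of `L` from its entries in the rows `i` -/
theorem exR {k : ℤ} (i : Fin 2) (c : Fin 4 → Ob → (WL π).S)
    (h : ∀ a b, c a b ∈ (WL π).pc (((i.val : ℕ) : ℤ) - (WL π).P b) (((a.val : ℕ) : ℤ) - (WL π).A b) k) :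
    ∃ z ∈ (WL π).dga.G k, aE π i i 1 * z = z ∧ ∀ a b, en π z a b = if a.1 = i then c a.2 b else 0 := by
  have h' : ∀ a b : Ob, (if a.1 = i then c a.2 b else 0) ∈
      (WL π).pc ((WL π).P a - (WL π).P b) ((WL π).A a - (WL π).A b) k := by
    intro a b
    split_ifs with hb
    · exact pcast π (h a.2 b) (by rw [P_eq π a i hb]) rfl rfl
    · exact Submodule.zero_mem _
  refine ⟨toW π (fun a b => if a.1 = i then c a.2 b else 0), toW_mem π h', ?_, fun a b => toW_en π h' a b⟩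
  refine en_ext π fun a b => ?_
  rw [Een]
  refine (congrArg (fun t => if a.1 = i then t else 0) (toW_en π h' a b)).trans
    (Eq.trans ?_ (toW_en π h' a b).symm)
  by_cases hb : a.1 = i
  · simp only [if_pos hb]
  · simp only [if_neg hb]

/-- an element of `tL` from its entries in the rows `i` -/
theorem exT {k : ℤ} (i : Fin 2) (c : Fin 4 → Ob → (WL π).S)
    (h : ∀ a b, c a b ∈
      (WL π).pc (((i.val : ℕ) : ℤ) - (WL π).P b + 1) (((a.val : ℕ) : ℤ) - (WL π).A b) (k - s)) :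
    ∃ z ∈ (tLW π s).gr k, aE π i i 1 • z = z ∧ ∀ a b, et π z a b = if a.1 = i then c a.2 b else 0 := by
  have h' : ∀ a b : Ob, (if a.1 = i then c a.2 b else 0) ∈
      (WL π).pc ((WL π).P a - (WL π).P b + 1) ((WL π).A a - (WL π).A b) (k - s) := by
    intro a b
    split_ifs with hb
    · exact pcast π (h a.2 b) (by rw [P_eq π a i hb]) rfl rfl
    · exact Submodule.zero_mem _
  refine ⟨toT π s (fun a b => if a.1 = i then c a.2 b else 0), toT_mem π h', ?_, fun a b => et_toT π h' a b⟩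
  refine et_ext π fun a b => ?_
  rw [Eet]
  refine (congrArg (fun t => if a.1 = i then t else 0) (et_toT π h' a b)).trans
    (Eq.trans ?_ (et_toT π h' a b).symm)
  by_cases hb : a.1 = i
  · simp only [if_pos hb]
  · simp only [if_neg hb]

theorem cI {z : (WL π).dga.C} (h1 : z * E1 π = z) (h2 : z * X1 π = 0) : z = 0 := by
  refine en_ext π fun a b => ?_
  rw [en_zero]
  by_cases hb : b.1 = 1
  · have h3 := congrArg (fun y => en π y a (0, b.2)) h2
    simp only [mulE π (x_h π 1), if_true] at h3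
    have e : ((1 : Fin 2), b.2) = b := Prod.ext hb.symm rfl
    rw [e] at h3
    exact rinj π 1 h3
  · exact colz π h1 hb

theorem cE {k : ℤ} {u0 u1 : (WL π).dga.C} (hu1 : u1 ∈ (WL π).dga.G k) (h0 : u0 * E0 π = u0)
    (h1 : u1 * E0 π = u1) (h : u0 • T0 π s + u1 • T1 π s = 0) :
    ∃ z ∈ (WL π).dga.G k, z * E1 π = z ∧ u0 = z * X1 π ∧ u1 = z * X0 π := by
  have key : ∀ (a : Ob) (b : Fin 4), ∃ c ∈ (WL π).pc ((WL π).P a - (((1 : Fin 2).val : ℕ) : ℤ))
      ((WL π).A a - ((b.val : ℕ) : ℤ)) k,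
      en π u0 a (0, b) = c * xL π 1 ∧ en π u1 a (0, b) = c * xL π 0 := by
    intro a b
    have h3 := congrArg (fun y => et π y a (0, b)) h
    simp only [et_add, smulT π s (x_t π _), if_true] at h3
    obtain ⟨c, hc, e1, e2⟩ := rker π ((mem_G π).1 hu1 a (0, b)) h3
    refine ⟨c, pcast π hc ?_ rfl rfl, e1, e2⟩
    change (WL π).P a - 0 - 1 = (WL π).P a - 1
    ring
  choose c hc e1 e2 using key
  obtain ⟨z, hz, hz1, hz2⟩ := exC π 1 c hc
  refine ⟨z, hz, hz1, en_ext π fun a b => ?_, en_ext π fun a b => ?_⟩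
  · rw [mulE π (x_h π 1)]
    split_ifs with hb
    · rw [hz2, if_pos rfl, ← e1]
      congr 1
      exact Prod.ext hb rfl
    · exact colz π h0 hb
  · rw [mulE π (x_h π 0)]
    split_ifs with hb
    · rw [hz2, if_pos rfl, ← e2]
      congr 1
      exact Prod.ext hb rfl
    · exact colz π h1 hb

theorem cS {k : ℤ} {x : (tLW π s).X} (hx : x ∈ (tLW π s).gr (k + s)) (h : op (E0 π) • x = x) :
    ∃ u0 ∈ (WL π).dga.G k, ∃ u1 ∈ (WL π).dga.G k, u0 * E0 π = u0 ∧ u1 * E0 π = u1 ∧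
      x = u0 • T0 π s + u1 • T1 π s := by
  have key : ∀ (a : Ob) (b : Fin 4), ∃ c ∈ (WL π).pc ((WL π).P a - (((0 : Fin 2).val : ℕ) : ℤ))
      ((WL π).A a - ((b.val : ℕ) : ℤ)) k, ∃ d ∈ (WL π).pc ((WL π).P a - (((0 : Fin 2).val : ℕ) : ℤ))
      ((WL π).A a - ((b.val : ℕ) : ℤ)) k, et π x a (0, b) = c * xL π 0 + d * xL π 1 := by
    intro a b
    have h3 := (mem_gT π).1 hx a (0, b)
    have e : ((WL π).P a - (WL π).P (0, b) + 1 - 1) = (WL π).P a - (((0 : Fin 2).val : ℕ) : ℤ) := by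
      change (WL π).P a - 0 + 1 - 1 = (WL π).P a - 0
      ring
    obtain ⟨c, hc, d, hd, e1⟩ := rsur π (by
      change 1 ≤ (WL π).P a - 0 + 1
      have := P_pos π a
      omega) h3
    exact ⟨c, pcast π hc e rfl (add_sub_cancel_right _ _), d, pcast π hd e rfl
      (add_sub_cancel_right _ _), e1⟩
  choose c hc d hd e1 using key
  obtain ⟨u0, hu0, h01, h02⟩ := exC π 0 c hc
  obtain ⟨u1, hu1, h11, h12⟩ := exC π 0 d hd
  refine ⟨u0, hu0, u1, hu1, h01, h11, et_ext π fun a b => ?_⟩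
  rw [et_add, smulT π s (x_t π 0), smulT π s (x_t π 1)]
  split_ifs with hb
  · rw [h02, h12, if_pos rfl, if_pos rfl, ← e1]
    congr 1
    exact Prod.ext hb rfl
  · rw [add_zero]
    exact colT π s h hb

theorem rI {r : (WL π).dga.C} (h1 : E0 π * r = r) (h2 : op r • T0 π s = 0) : r = 0 := by
  refine en_ext π fun a b => ?_
  rw [en_zero]
  by_cases ha : a.1 = 0
  · have h3 := congrArg (fun y => et π y a b) h2
    simp only [opT π s (x_t π 0), if_pos ha] at h3
    have e : ((0 : Fin 2), a.2) = a := Prod.ext ha.symm rfl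
    rw [e] at h3
    exact linj π 0 h3
  · exact rowz π h1 ha

theorem rE {m : ℤ} {w0 w1 : (tLW π s).X} (hw0 : w0 ∈ (tLW π s).gr m)
    (h0 : E0 π • w0 = w0) (h1 : E0 π • w1 = w1) (h : X1 π • w0 + X0 π • w1 = 0) :
    ∃ r ∈ (WL π).dga.G (m - s), E0 π * r = r ∧ w0 = op r • T0 π s ∧ w1 = op r • T1 π s := by
  have key : ∀ (a : Fin 4) (b : Ob), ∃ c ∈ (WL π).pc ((((0 : Fin 2).val : ℕ) : ℤ) - (WL π).P b)
      (((a.val : ℕ) : ℤ) - (WL π).A b) (m - s),
      et π w0 (0, a) b = xL π 0 * c ∧ et π w1 (0, a) b = xL π 1 * c := by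
    intro a b
    have h3 := congrArg (fun y => et π y (1, a) b) h
    simp only [et_add, Esmul π s (x_h π _), if_true] at h3
    obtain ⟨c, hc, e1, e2⟩ := lker π ((mem_gT π).1 hw0 (0, a) b) h3
    refine ⟨c, pcast π hc ?_ rfl rfl, e1, e2⟩
    change 0 - (WL π).P b + 1 - 1 = 0 - (WL π).P b
    ring
  choose c hc e1 e2 using key
  obtain ⟨z, hz, hz1, hz2⟩ := exR π 0 c hc
  refine ⟨z, hz, hz1, et_ext π fun a b => ?_, et_ext π fun a b => ?_⟩
  · rw [opT π s (x_t π 0)]
    split_ifs with ha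
    · rw [hz2, if_pos rfl, ← e1]
      congr 1
      exact Prod.ext ha rfl
    · exact rowT π s h0 ha
  · rw [opT π s (x_t π 1)]
    split_ifs with ha
    · rw [hz2, if_pos rfl, ← e2]
      congr 1
      exact Prod.ext ha rfl
    · exact rowT π s h1 ha

theorem rS {m : ℤ} {w : (tLW π s).X} (hw : w ∈ (tLW π s).gr m) (h : E1 π • w = w) :
    ∃ w0 ∈ (tLW π s).gr m, ∃ w1 ∈ (tLW π s).gr m, E0 π • w0 = w0 ∧ E0 π • w1 = w1 ∧
      w = X1 π • w0 + X0 π • w1 := by
  have key : ∀ (a : Fin 4) (b : Ob), ∃ c ∈ (WL π).pc ((((0 : Fin 2).val : ℕ) : ℤ) - (WL π).P b + 1)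
      (((a.val : ℕ) : ℤ) - (WL π).A b) (m - s),
      ∃ d ∈ (WL π).pc ((((0 : Fin 2).val : ℕ) : ℤ) - (WL π).P b + 1)
      (((a.val : ℕ) : ℤ) - (WL π).A b) (m - s), et π w (1, a) b = xL π 1 * c + xL π 0 * d := by
    intro a b
    have h3 := (mem_gT π).1 hw (1, a) b
    have e : ((WL π).P (1, a) - (WL π).P b + 1 - 1) = (((0 : Fin 2).val : ℕ) : ℤ) - (WL π).P b + 1 := by
      change 1 - (WL π).P b + 1 - 1 = 0 - (WL π).P b + 1
      ring
    obtain ⟨c, hc, d, hd, e1⟩ := lsur π (by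
      change 1 ≤ 1 - (WL π).P b + 1
      have := P_le π b
      omega) h3
    exact ⟨c, pcast π hc e rfl rfl, d, pcast π hd e rfl rfl, e1⟩
  choose c hc d hd e1 using key
  obtain ⟨w0, hw0, h01, h02⟩ := exT π s 0 c hc
  obtain ⟨w1, hw1, h11, h12⟩ := exT π s 0 d hd
  refine ⟨w0, hw0, w1, hw1, h01, h11, et_ext π fun a b => ?_⟩
  rw [et_add, Esmul π s (x_h π 1), Esmul π s (x_h π 0)]
  split_ifs with ha
  · rw [h02, h12, if_pos rfl, if_pos rfl, ← e1]
    congr 1
    exact Prod.ext ha rfl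
  · rw [add_zero]
    exact rowT π s h ha

theorem uX {k : ℤ} {x : (tLW π s).X} (hx : x ∈ (tLW π s).gr (k + s)) (h : op (E1 π) • x = x) :
    ∃ u ∈ (WL π).dga.G k, u * E0 π = u ∧ x = u • U π s := by
  obtain ⟨u, hu, h1, h2⟩ := exC π (k := k) 0 (fun a b => et π x a (1, b)) fun a b =>
    pcast π ((mem_gT π).1 hx a (1, b)) (by
      change (WL π).P a - 1 + 1 = (WL π).P a - 0
      ring) rfl (add_sub_cancel_right _ _)
  refine ⟨u, hu, h1, et_ext π fun a b => ?_⟩
  rw [smulT π s (one_t π)]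
  split_ifs with hb
  · rw [h2, if_pos rfl, mul_one]
    congr 1
    exact Prod.ext hb rfl
  · exact colT π s h hb

theorem uI {u : (WL π).dga.C} (h1 : u * E0 π = u) (h2 : u • U π s = 0) : u = 0 := by
  refine en_ext π fun a b => ?_
  rw [en_zero]
  by_cases hb : b.1 = 0
  · have h3 := congrArg (fun y => et π y a (1, b.2)) h2
    simp only [smulT π s (one_t π), if_true, mul_one] at h3
    have e : ((0 : Fin 2), b.2) = b := Prod.ext hb.symm rfl
    rw [e] at h3
    exact h3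
  · exact colz π h1 hb

theorem uW {m : ℤ} {w : (tLW π s).X} (hw : w ∈ (tLW π s).gr m) (h : E0 π • w = w) :
    ∃ r ∈ (WL π).dga.G (m - s), E1 π * r = r ∧ w = op r • U π s := by
  obtain ⟨u, hu, h1, h2⟩ := exR π (k := m - s) 1 (fun a b => et π w (0, a) b) fun a b =>
    pcast π ((mem_gT π).1 hw (0, a) b) (by
      change 0 - (WL π).P b + 1 = 1 - (WL π).P b
      ring) rfl rfl
  refine ⟨u, hu, h1, et_ext π fun a b => ?_⟩
  rw [opT π s (one_t π)]
  split_ifs with ha
  · rw [h2, if_pos rfl, one_mul]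
    congr 1
    exact Prod.ext ha rfl
  · exact rowT π s h ha

theorem uJ {r : (WL π).dga.C} (h1 : E1 π * r = r) (h2 : op r • U π s = 0) : r = 0 := by
  refine en_ext π fun a b => ?_
  rw [en_zero]
  by_cases ha : a.1 = 1
  · have h3 := congrArg (fun y => et π y (0, a.2) b) h2
    simp only [opT π s (one_t π), if_true, one_mul] at h3
    have e : ((1 : Fin 2), a.2) = a := Prod.ext ha.symm rfl
    rw [e] at h3
    exact h3
  · exact rowz π h1 ha

/-! ### products of the letters -/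

theorem Sp_entry (p q : Fin 2) (x : (WL π).S) (a b : Ob) (h : b.1 ≠ q) : Sp π p q x a b = 0 := by
  unfold Sp
  rw [if_neg fun h' => h h'.2]

theorem EE (i : Fin 2) : aE π i i 1 * aE π i i 1 = aE π i i 1 := by
  refine en_ext π fun a b => ?_
  rw [enE, en_aE π (one_h π i)]
  split_ifs with h
  · rfl
  · exact (Sp_entry π i i 1 a b h).symm

theorem E_add : E0 π + E1 π = 1 := by
  refine en_ext π fun a b => ?_
  rw [en_add, en_aE π (one_h π 0), en_aE π (one_h π 1)]
  have h1 : en π 1 a b = if a = b then 1 else 0 := rfl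
  rw [h1]
  unfold Sp
  by_cases h : a = b
  · subst h
    rw [if_pos rfl]
    rcases (show a.1 = 0 ∨ a.1 = 1 by omega) with h0 | h0
    · rw [if_pos ⟨Prod.ext h0 rfl, h0⟩, if_neg (fun h' => by
        have := h'.2
        omega), add_zero]
    · rw [if_neg (fun h' => by
        have := h'.2
        omega), if_pos ⟨Prod.ext h0 rfl, h0⟩, zero_add]
  · rw [if_neg h, if_neg (fun h' => h (h'.1.trans (Prod.ext h'.2.symm rfl))),
      if_neg (fun h' => h (h'.1.trans (Prod.ext h'.2.symm rfl))), add_zero]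

section prods

variable {p q : Fin 2} {x : (WL π).S}

theorem mul_E (hx : x ∈ (WL π).pc (((p.val : ℕ) : ℤ) - ((q.val : ℕ) : ℤ)) 0 0) :
    aE π p q x * aE π q q 1 = aE π p q x := by
  refine en_ext π fun a b => ?_
  rw [enE, en_aE π hx]
  split_ifs with h
  · rfl
  · exact (Sp_entry π p q x a b h).symm

theorem E_mul (hx : x ∈ (WL π).pc (((p.val : ℕ) : ℤ) - ((q.val : ℕ) : ℤ)) 0 0) :
    aE π p p 1 * aE π p q x = aE π p q x := by
  refine en_ext π fun a b => ?_
  rw [Een, en_aE π hx]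
  split_ifs with h
  · rfl
  · unfold Sp
    rw [if_neg fun h' => h (by rw [h'.1])]

theorem T_E (hx : x ∈ (WL π).pc (((p.val : ℕ) : ℤ) - ((q.val : ℕ) : ℤ) + 1) 0 0) :
    op (aE π q q 1) • aT π s p q x = aT π s p q x := by
  refine et_ext π fun a b => ?_
  rw [etE, et_aT π s hx]
  split_ifs with h
  · rfl
  · exact (Sp_entry π p q x a b h).symm

theorem E_T (hx : x ∈ (WL π).pc (((p.val : ℕ) : ℤ) - ((q.val : ℕ) : ℤ) + 1) 0 0) :
    aE π p p 1 • aT π s p q x = aT π s p q x := by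
  refine et_ext π fun a b => ?_
  rw [Eet, et_aT π s hx]
  split_ifs with h
  · rfl
  · unfold Sp
    rw [if_neg fun h' => h (by rw [h'.1])]

end prods

theorem comm : X1 π • T0 π s + X0 π • T1 π s = 0 := by
  refine et_ext π fun a b => ?_
  rw [et_add, smulT π s (x_t π 0), smulT π s (x_t π 1), et_zero]
  split_ifs with hb
  · rw [en_aE π (x_h π 1), en_aE π (x_h π 0)]
    unfold Sp
    by_cases ha : a = (1, b.2)
    · rw [if_pos ⟨ha, rfl⟩, if_pos ⟨ha, rfl⟩, xx π]
      exact (WL π).two _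
    · rw [if_neg fun h' => ha h'.1, if_neg fun h' => ha h'.1, zero_mul, zero_mul, add_zero]
  · exact add_zero _

/-- **the Koszul data of `tL`** -/
def kz : C1b328.Kz (WL π).dga (tLW π s) where
  s := s
  E0 := E0 π
  E1 := E1 π
  E0_mem := aE_mem π (one_h π 0)
  E1_mem := aE_mem π (one_h π 1)
  E00 := EE π 0
  E11 := EE π 1
  E_add := E_add π
  X0 := X0 π
  X1 := X1 π
  X0_mem := aE_mem π (x_h π 0)
  X1_mem := aE_mem π (x_h π 1)
  E1X0 := E_mul π (x_h π 0)
  E1X1 := E_mul π (x_h π 1)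
  X0E0 := mul_E π (x_h π 0)
  X1E0 := mul_E π (x_h π 1)
  T0 := T0 π s
  T1 := T1 π s
  T0_mem := aT_mem π s (x_t π 0)
  T1_mem := aT_mem π s (x_t π 1)
  dT0 := aT_d π s (x_t π 0) (xL_D π 0)
  dT1 := aT_d π s (x_t π 1) (xL_D π 1)
  E0T0 := E_T π s (x_t π 0)
  E0T1 := E_T π s (x_t π 1)
  T0E0 := T_E π s (x_t π 0)
  T1E0 := T_E π s (x_t π 1)
  U := U π s
  U_mem := aT_mem π s (one_t π)
  dU := aT_d π s (one_t π) (D_one' π)
  E0U := E_T π s (one_t π)
  UE1 := T_E π s (one_t π)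
  comm := comm π s
  cI := fun _ h1 h2 => cI π h1 h2
  cE := fun _ hu1 h0 h1 h => cE π s hu1 h0 h1 h
  cS := fun hx h => cS π s hx h
  rI := fun _ h1 h2 => rI π s h1 h2
  rE := fun hw0 _ h0 h1 h => rE π s hw0 h0 h1 h
  rS := fun hw h => rS π s hw h
  uX := fun hx h => uX π s hx h
  uI := fun _ h1 h2 => uI π s h1 h2
  uW := fun hw h => uW π s hw h
  uJ := fun _ h1 h2 => uJ π s h1 h2

end Crest.Agent.R186.KzI671
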