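import Crest.Agent.R186.TLW_890
import Crest.Agent.R186.KosJ_374
import Crest.Agent.R186.KOSZ_296
import Crest.Agent.R186.C1b_328

/-!
Row 186 (A), leaf A.C1 (helper462): the instance `Kz (WL π).dga (tLW π s)` of 328's Koszul data.
-/

set_option autoImplicit false
set_option linter.style.haveILetI false
set_option linter.unusedSectionVars false

noncomputable section

open MulOpposite

namespace Crest.Agent.R186.KzW462

open Hat827 Win810 Win810.WD Frame515 WBM163 Core890 DefsQ830 WL221 SM890 C2b44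

variable {K : Type} [Field K] (π : Par K)

/-! ### `R'` -/

/-- the letters `x_c` of `R'` -/
def xl (c : Fin 2) : RL π := prL π (X π (.x c))

theorem xl_mem (c : Fin 2) : xl π c ∈ pcL π 1 0 0 := by
  have h := PBW128.X_mem_pc π (.x c)
  rw [← pcZ_nat] at h
  exact prL_mem h

theorem xx : xl π 1 * xl π 0 = xl π 0 * xl π 1 := by
  have h := congrArg (prL π) (PBW128.rxx π)
  rw [map_mul, map_mul] at h
  exact h.symm

variable {π}

theorem two (a : RL π) : a + a = 0 := (WL π).two a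

theorem eq_of_add {a b : RL π} (h : a + b = 0) : a = b := by
  have h1 := two b
  calc a = a + (b + b) := by rw [h1, add_zero]
    _ = (a + b) + b := by rw [add_assoc]
    _ = b := by rw [h, zero_add]

theorem xl_val (c : Fin 2) : (xl π c : R π) = X π (.x c) := kill_x π c

theorem mem_pz {P A C : ℤ} {r : RL π} : r ∈ pcL π P A C ↔ r.1 ∈ C2b362.pz π P A C := by
  rw [mem_pcL, KOS296.pcZ_eq_pz]

theorem r_inj (c : Fin 2) {r : RL π} (h : r * xl π c = 0) : r = 0 := by
  have h1 := congrArg Subtype.val h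
  change r.1 * (xl π c : R π) = 0 at h1
  rw [xl_val] at h1
  exact Subtype.ext (KOS296.K0 π c h1)

theorem r_ker {P A C : ℤ} {a b : RL π} (ha : a ∈ pcL π P A C) (h : a * xl π 1 = b * xl π 0) :
    ∃ c ∈ pcL π (P - 1) A C, a = c * xl π 0 ∧ b = c * xl π 1 := by
  have h1 := congrArg Subtype.val h
  change a.1 * (xl π 1 : R π) = b.1 * (xl π 0 : R π) at h1
  rw [xl_val, xl_val] at h1
  obtain ⟨c, hc, hk, e1, e2⟩ := KOS296.kr_ker π (mem_pz.1 ha) a.2 h1
  refine ⟨⟨c, hk⟩, mem_pz.2 hc, Subtype.ext ?_, Subtype.ext ?_⟩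
  · change a.1 = c * (xl π 0 : R π)
    rw [xl_val, e1]
  · change b.1 = c * (xl π 1 : R π)
    rw [xl_val, e2]

theorem r_sur {P A C : ℤ} (hP : 1 ≤ P) {r : RL π} (hr : r ∈ pcL π P A C) :
    ∃ a ∈ pcL π (P - 1) A C, ∃ b ∈ pcL π (P - 1) A C, r = a * xl π 0 + b * xl π 1 := by
  obtain ⟨a, ha, b, hb, ka, kb, e⟩ := KOS296.kr_sur π hP (mem_pz.1 hr) r.2
  refine ⟨⟨a, ka⟩, mem_pz.2 ha, ⟨b, kb⟩, mem_pz.2 hb, Subtype.ext ?_⟩
  change r.1 = a * (xl π 0 : R π) + b * (xl π 1 : R π)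
  rw [xl_val, xl_val, e]

theorem l_inj (c : Fin 2) {r : RL π} (h : xl π c * r = 0) : r = 0 := by
  have h1 := congrArg Subtype.val h
  change (xl π c : R π) * r.1 = 0 at h1
  rw [xl_val] at h1
  exact Subtype.ext (Kos374.xl_inj π c h1)

theorem l_ker {P A C : ℤ} {a b : RL π} (ha : a ∈ pcL π P A C) (h : xl π 1 * a = xl π 0 * b) :
    ∃ c ∈ pcL π (P - 1) A C, a = xl π 0 * c ∧ b = xl π 1 * c := by
  have h1 := congrArg Subtype.val h
  change (xl π 1 : R π) * a.1 = (xl π 0 : R π) * b.1 at h1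
  rw [xl_val, xl_val] at h1
  obtain ⟨c, hc, e1, e2⟩ := Kos374.xl_kerZ π (mem_pz.1 ha) h1
  refine ⟨prL π c, prL_mem ((KOS296.pcZ_eq_pz π _ _ _).symm ▸ hc), ?_, ?_⟩
  · have h2 := congrArg (prL π) e1
    rw [prL_inL, map_mul] at h2
    exact h2
  · have h2 := congrArg (prL π) e2
    rw [prL_inL, map_mul] at h2
    exact h2

theorem l_sur {P A C : ℤ} (hP : 1 ≤ P) {r : RL π} (hr : r ∈ pcL π P A C) :
    ∃ a ∈ pcL π (P - 1) A C, ∃ b ∈ pcL π (P - 1) A C, r = xl π 0 * a + xl π 1 * b := by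
  obtain ⟨a, ha, b, hb, e⟩ := Kos374.xl_surZ π hP (mem_pz.1 hr)
  refine ⟨prL π a, prL_mem ((KOS296.pcZ_eq_pz π _ _ _).symm ▸ ha), prL π b,
    prL_mem ((KOS296.pcZ_eq_pz π _ _ _).symm ▸ hb), ?_⟩
  have h2 := congrArg (prL π) e
  rw [prL_inL, map_add, map_mul, map_mul] at h2
  exact h2

/-! ### matrices -/

/-- positions -/
def PP (i : Ob) : ℤ := (i.1.val : ℤ)
def AA (i : Ob) : ℤ := (i.2.val : ℤ)

/-- the flip of the two rows of vertices -/
def fl (i : Ob) : Ob := (1 - i.1, i.2)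

theorem fl_fl (i : Ob) : fl (fl i) = i := by
  have h : ∀ a : Fin 2, 1 - (1 - a) = a := by decide
  exact Prod.ext (h i.1) rfl

theorem fin2' : ∀ a : Fin 2, a = 0 ∨ a = 1 := by decide

theorem fl0 {i : Ob} : (fl i).1 = 0 ↔ i.1 = 1 := by
  have h : ∀ a : Fin 2, 1 - a = 0 ↔ a = 1 := by decide
  exact h i.1

theorem fl1 {i : Ob} : (fl i).1 = 1 ↔ i.1 = 0 := by
  have h : ∀ a : Fin 2, 1 - a = 1 ↔ a = 0 := by decide
  exact h i.1

theorem AA_fl (i : Ob) : AA (fl i) = AA i := rfl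

theorem PP0 {i : Ob} (h : i.1 = 0) : PP i = 0 := by
  unfold PP
  rw [h]
  rfl

theorem PP1 {i : Ob} (h : i.1 = 1) : PP i = 1 := by
  unfold PP
  rw [h]
  rfl

theorem PP_fl (i : Ob) : PP (fl i) = 1 - PP i := by
  rcases fin2' i.1 with h | h
  · rw [PP0 h, PP1 (fl1.2 h)]; rfl
  · rw [PP1 h, PP0 (fl0.2 h)]; rfl

theorem PP_nn (i : Ob) : 0 ≤ PP i := Int.natCast_nonneg _

theorem PP_le (i : Ob) : PP i ≤ 1 := by
  rcases fin2' i.1 with h | h
  · rw [PP0 h]; norm_num
  · rw [PP1 h]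

theorem pcL_cast {P A C P' A' C' : ℤ} {r : RL π} (h : r ∈ pcL π P A C) (e1 : P = P') (e2 : A = A')
    (e3 : C = C') : r ∈ pcL π P' A' C' := by
  subst e1 e2 e3; exact h

/-- entries -/
def en (a : (WL π).Win) (i j : Ob) : RL π := a.1 i j

theorem en_ext {a b : (WL π).Win} (h : ∀ i j, en a i j = en b i j) : a = b := by
  apply Subtype.ext
  ext i j : 2
  exact h i j

theorem en_mul (a b : (WL π).Win) (i j : Ob) :
    en (a * b) i j = ∑ l, en a i l * en b l j := Matrix.mul_apply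

theorem en_add (a b : (WL π).Win) (i j : Ob) : en (a + b) i j = en a i j + en b i j := rfl

theorem en_one (i j : Ob) : en (1 : (WL π).Win) i j = if i = j then 1 else 0 := Matrix.one_apply

theorem mem_en {k : ℤ} {a : (WL π).Win} (h : a ∈ (WL π).G k) (i j : Ob) :
    en a i j ∈ pcL π (PP i - PP j) (AA i - AA j) k := h i j

/-- constructor -/
def mkA (k : ℤ) (f : Ob → Ob → RL π) (hf : ∀ i j, f i j ∈ pcL π (PP i - PP j) (AA i - AA j) k) :
    (WL π).Win := ⟨Matrix.of f, fun i j => q_le (w := WL π) i j k (hf i j)⟩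

theorem mkA_mem {k : ℤ} {f : Ob → Ob → RL π}
    (hf : ∀ i j, f i j ∈ pcL π (PP i - PP j) (AA i - AA j) k) : mkA k f hf ∈ (WL π).G k := hf

theorem en_mkA {k : ℤ} {f : Ob → Ob → RL π}
    (hf : ∀ i j, f i j ∈ pcL π (PP i - PP j) (AA i - AA j) k) (i j : Ob) :
    en (mkA k f hf) i j = f i j := rfl

variable {s : ℕ}

/-- entries of `tL` -/
def et (z : (tLW π s).X) (i j : Ob) : RL π := z.1 i j

theorem et_ext {a b : (tLW π s).X} (h : ∀ i j, et a i j = et b i j) : a = b := by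
  apply Subtype.ext
  funext i j
  exact h i j

theorem et_add (a b : (tLW π s).X) (i j : Ob) : et (a + b) i j = et a i j + et b i j := rfl

theorem et_zero (i j : Ob) : et (0 : (tLW π s).X) i j = 0 := rfl

theorem et_smul (a : (WL π).Win) (z : (tLW π s).X) (i j : Ob) :
    et ((show (WL π).dga.C from a) • z) i j = ∑ l, en a i l * et z l j := rfl

theorem et_op (a : (WL π).Win) (z : (tLW π s).X) (i j : Ob) :
    et (op (show (WL π).dga.C from a) • z) i j = ∑ l, et z i l * en a l j := rfl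

theorem mem_et {k : ℤ} {z : (tLW π s).X} (h : z ∈ (tLW π s).gr k) (i j : Ob) :
    et z i j ∈ pcL π (PP i - PP j + 1) (AA i - AA j) (k - s) := mem_grtL.1 h i j

/-- constructor -/
def mkT (k : ℤ) (f : Ob → Ob → RL π)
    (hf : ∀ i j, f i j ∈ pcL π (PP i - PP j + 1) (AA i - AA j) (k - s)) : (tLW π s).X :=
  (⟨f, fun i j => q_le_E (tLT π s) i j k ((le_of_eq (q_tLT π s i j k).symm) (hf i j))⟩ :
    Xs (tLT π s))

theorem mkT_mem {k : ℤ} {f : Ob → Ob → RL π}
    (hf : ∀ i j, f i j ∈ pcL π (PP i - PP j + 1) (AA i - AA j) (k - s)) :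
    mkT (s := s) k f hf ∈ (tLW π s).gr k := mem_grtL.2 hf

theorem et_mkT {k : ℤ} {f : Ob → Ob → RL π}
    (hf : ∀ i j, f i j ∈ pcL π (PP i - PP j + 1) (AA i - AA j) (k - s)) (i j : Ob) :
    et (mkT (s := s) k f hf) i j = f i j := rfl

/-! ### monomial matrices -/

/-- monomial matrix -/
def sp (σ : Ob → Ob) (a : Fin 2) (v : RL π) (i j : Ob) : RL π := if j = σ i ∧ i.1 = a then v else 0

theorem sumL {σ : Ob → Ob} (a : Fin 2) (v : RL π) (g : Ob → RL π) (i : Ob) :
    ∑ l, sp σ a v i l * g l = if i.1 = a then v * g (σ i) else 0 := by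
  rw [Finset.sum_eq_single (σ i)]
  · unfold sp
    by_cases h : i.1 = a
    · rw [if_pos ⟨rfl, h⟩, if_pos h]
    · rw [if_neg fun h' => h h'.2, if_neg h, zero_mul]
  · intro l _ hl
    unfold sp
    rw [if_neg fun h' => hl h'.1, zero_mul]
  · intro h
    exact absurd (Finset.mem_univ _) h

theorem sumR {σ : Ob → Ob} (hσ : ∀ i, σ (σ i) = i) (a : Fin 2) (v : RL π) (g : Ob → RL π) (j : Ob) :
    ∑ l, g l * sp σ a v l j = if (σ j).1 = a then g (σ j) * v else 0 := by
  rw [Finset.sum_eq_single (σ j)]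
  · unfold sp
    by_cases h : (σ j).1 = a
    · rw [if_pos ⟨(hσ j).symm, h⟩, if_pos h]
    · rw [if_neg fun h' => h h'.2, if_neg h, mul_zero]
  · intro l _ hl
    unfold sp
    rw [if_neg fun h' => hl (by rw [h'.1, hσ]), mul_zero]
  · intro h
    exact absurd (Finset.mem_univ _) h

theorem idid (i : Ob) : id (id i) = i := rfl

variable (π) in
/-- the idempotents -/
def Em (c : Fin 2) : (WL π).Win := mkA 0 (sp id c 1) fun i j => by
  unfold sp
  split_ifs with h
  · obtain ⟨rfl, -⟩ := h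
    exact pcL_cast pcL_one (by simp) (by simp) rfl
  · exact Submodule.zero_mem _

variable (π) in
/-- the matrices of `x_c` -/
def Xm (c : Fin 2) : (WL π).Win := mkA 0 (sp fl 1 (xl π c)) fun i j => by
  unfold sp
  split_ifs with h
  · obtain ⟨rfl, h1⟩ := h
    refine pcL_cast (xl_mem π c) ?_ ?_ rfl
    · rw [PP_fl, PP1 h1]; rfl
    · rw [AA_fl, sub_self]
  · exact Submodule.zero_mem _

variable (π s) in
/-- the elements `T_c` -/
def Tm (c : Fin 2) : (tLW π s).X := mkT (s := s) s (sp id 0 (xl π c)) fun i j => by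
  unfold sp
  split_ifs with h
  · obtain ⟨rfl, h1⟩ := h
    exact pcL_cast (xl_mem π c) (by simp) (by simp) (by simp)
  · exact Submodule.zero_mem _

variable (π s) in
/-- the element `U` -/
def Um : (tLW π s).X := mkT (s := s) s (sp fl 0 1) fun i j => by
  unfold sp
  split_ifs with h
  · obtain ⟨rfl, h1⟩ := h
    refine pcL_cast pcL_one ?_ ?_ (by simp)
    · rw [PP_fl, PP0 h1]; rfl
    · rw [AA_fl, sub_self]
  · exact Submodule.zero_mem _

theorem en_Em (c : Fin 2) (i j : Ob) : en (Em π c) i j = sp id c 1 i j := rfl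
theorem en_Xm (c : Fin 2) (i j : Ob) : en (Xm π c) i j = sp fl 1 (xl π c) i j := rfl
theorem et_Tm (c : Fin 2) (i j : Ob) : et (Tm π s c) i j = sp id 0 (xl π c) i j := rfl
theorem et_Um (i j : Ob) : et (Um π s) i j = sp fl 0 1 i j := rfl

theorem en_mulE (a : (WL π).Win) (c : Fin 2) (i j : Ob) :
    en (a * Em π c) i j = if j.1 = c then en a i j else 0 := by
  rw [en_mul]
  simp only [en_Em]
  rw [sumR idid, mul_one]
  rfl

theorem en_Emul (a : (WL π).Win) (c : Fin 2) (i j : Ob) :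
    en (Em π c * a) i j = if i.1 = c then en a i j else 0 := by
  rw [en_mul]
  simp only [en_Em]
  rw [sumL c 1 (fun l => en a l j) i, one_mul]
  rfl

theorem en_mulX (a : (WL π).Win) (c : Fin 2) (i j : Ob) :
    en (a * Xm π c) i j = if j.1 = 0 then en a i (fl j) * xl π c else 0 := by
  rw [en_mul]
  simp only [en_Xm]
  rw [sumR fl_fl]
  simp only [fl1]

theorem en_Xmul (a : (WL π).Win) (c : Fin 2) (i j : Ob) :
    en (Xm π c * a) i j = if i.1 = 1 then xl π c * en a (fl i) j else 0 := by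
  rw [en_mul]
  simp only [en_Xm]
  exact sumL 1 (xl π c) (fun l => en a l j) i

theorem et_smulT (a : (WL π).Win) (c : Fin 2) (i j : Ob) :
    et ((show (WL π).dga.C from a) • Tm π s c) i j = if j.1 = 0 then en a i j * xl π c else 0 := by
  rw [et_smul]
  simp only [et_Tm]
  rw [sumR idid]
  rfl

theorem et_opT (a : (WL π).Win) (c : Fin 2) (i j : Ob) :
    et (op (show (WL π).dga.C from a) • Tm π s c) i j = if i.1 = 0 then xl π c * en a i j else 0 := by
  rw [et_op]
  simp only [et_Tm]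
  exact sumL 0 (xl π c) (fun l => en a l j) i

theorem et_smulU (a : (WL π).Win) (i j : Ob) :
    et ((show (WL π).dga.C from a) • Um π s) i j = if j.1 = 1 then en a i (fl j) else 0 := by
  rw [et_smul]
  simp only [et_Um]
  rw [sumR fl_fl, mul_one]
  simp only [fl0]

theorem et_opU (a : (WL π).Win) (i j : Ob) :
    et (op (show (WL π).dga.C from a) • Um π s) i j = if i.1 = 0 then en a (fl i) j else 0 := by
  rw [et_op]
  simp only [et_Um]
  rw [sumL 0 1 (fun l => en a l j) i, one_mul]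

theorem et_X (c : Fin 2) (w : (tLW π s).X) (i j : Ob) :
    et ((show (WL π).dga.C from Xm π c) • w) i j = if i.1 = 1 then xl π c * et w (fl i) j else 0 := by
  rw [et_smul]
  simp only [en_Xm]
  exact sumL 1 (xl π c) (fun l => et w l j) i

theorem et_E (c : Fin 2) (w : (tLW π s).X) (i j : Ob) :
    et ((show (WL π).dga.C from Em π c) • w) i j = if i.1 = c then et w i j else 0 := by
  rw [et_smul]
  simp only [en_Em]
  rw [sumL c 1 (fun l => et w l j) i, one_mul]
  rfl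

theorem et_opE (c : Fin 2) (w : (tLW π s).X) (i j : Ob) :
    et (op (show (WL π).dga.C from Em π c) • w) i j = if j.1 = c then et w i j else 0 := by
  rw [et_op]
  simp only [en_Em]
  rw [sumR idid, mul_one]
  rfl

/-! ### the fields -/

theorem n01 {a : Fin 2} (h : a ≠ 0) : a = 1 := (fin2' a).resolve_left h
theorem n10 {a : Fin 2} (h : a ≠ 1) : a = 0 := (fin2' a).resolve_right h
theorem z1 {a : Fin 2} (h : a = 1) : a ≠ 0 := by rw [h]; decide
theorem z0 {a : Fin 2} (h : a = 0) : a ≠ 1 := by rw [h]; decide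

/-- entries outside of the columns `c` -/
theorem col0 {a : (WL π).Win} {c : Fin 2} (h : a * Em π c = a) {i j : Ob} (hj : j.1 ≠ c) :
    en a i j = 0 := by
  rw [← h, en_mulE, if_neg hj]

theorem row0 {a : (WL π).Win} {c : Fin 2} (h : Em π c * a = a) {i j : Ob} (hi : i.1 ≠ c) :
    en a i j = 0 := by
  rw [← h, en_Emul, if_neg hi]

theorem tcol0 {z : (tLW π s).X} {c : Fin 2} (h : op (show (WL π).dga.C from Em π c) • z = z)
    {i j : Ob} (hj : j.1 ≠ c) : et z i j = 0 := by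
  rw [← h, et_opE, if_neg hj]

theorem trow0 {z : (tLW π s).X} {c : Fin 2} (h : (show (WL π).dga.C from Em π c) • z = z)
    {i j : Ob} (hi : i.1 ≠ c) : et z i j = 0 := by
  rw [← h, et_E, if_neg hi]

theorem colE {a : (WL π).Win} {c : Fin 2} (h : ∀ i j : Ob, j.1 ≠ c → en a i j = 0) :
    a * Em π c = a := en_ext fun i j => by
  rw [en_mulE]
  split_ifs with hj
  · rfl
  · exact (h i j hj).symm

theorem rowE {a : (WL π).Win} {c : Fin 2} (h : ∀ i j : Ob, i.1 ≠ c → en a i j = 0) :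
    Em π c * a = a := en_ext fun i j => by
  rw [en_Emul]
  split_ifs with hj
  · rfl
  · exact (h i j hj).symm

theorem trowE {z : (tLW π s).X} {c : Fin 2} (h : ∀ i j : Ob, i.1 ≠ c → et z i j = 0) :
    (show (WL π).dga.C from Em π c) • z = z := et_ext fun i j => by
  rw [et_E]
  split_ifs with hj
  · rfl
  · exact (h i j hj).symm

theorem cI {z : (WL π).Win} (h1 : z * Em π 1 = z) (h2 : z * Xm π 1 = 0) : z = 0 := by
  refine en_ext fun i j => ?_
  by_cases hj : j.1 = 1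
  · have h : en (z * Xm π 1) i (fl j) = en (0 : (WL π).Win) i (fl j) := by rw [h2]
    rw [en_mulX, if_pos (fl0.2 hj), fl_fl] at h
    exact r_inj 1 h
  · exact col0 h1 hj

theorem cE {k : ℤ} {u0 u1 : (WL π).Win} (m0 : u0 ∈ (WL π).G k) (m1 : u1 ∈ (WL π).G k)
    (e0 : u0 * Em π 0 = u0) (e1 : u1 * Em π 0 = u1)
    (h : (show (WL π).dga.C from u0) • Tm π s 0 + (show (WL π).dga.C from u1) • Tm π s 1 = 0) :
    ∃ z ∈ (WL π).G k, z * Em π 1 = z ∧ u0 = z * Xm π 1 ∧ u1 = z * Xm π 0 := by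
  have key : ∀ i j : Ob, ∃ c, c ∈ pcL π (PP i - PP j) (AA i - AA j) k ∧ (j.1 ≠ 1 → c = 0) ∧
      (j.1 = 1 → en u0 i (fl j) = c * xl π 1 ∧ en u1 i (fl j) = c * xl π 0) := by
    intro i j
    by_cases hj : j.1 = 1
    · have h3 := congrArg (fun a => et a i (fl j)) h
      simp only at h3
      rw [et_add, et_smulT, et_smulT, if_pos (fl0.2 hj), if_pos (fl0.2 hj)] at h3
      obtain ⟨c, hc, k1, k2⟩ := r_ker (mem_en m1 i (fl j)) (eq_of_add h3).symm
      refine ⟨c, pcL_cast hc ?_ ?_ rfl, fun h' => absurd hj h', fun _ => ⟨k2, k1⟩⟩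
      · rw [PP_fl, PP1 hj]; ring
      · rw [AA_fl]
    · exact ⟨0, Submodule.zero_mem _, fun _ => rfl, fun h' => absurd h' hj⟩
  choose c hc hc0 hc1 using key
  refine ⟨mkA k c hc, mkA_mem hc, colE fun i j hj => hc0 i j hj, en_ext fun i j => ?_,
    en_ext fun i j => ?_⟩
  · rw [en_mulX]
    by_cases hj : j.1 = 0
    · rw [if_pos hj]
      have h3 := (hc1 i (fl j) (fl1.2 hj)).1
      rw [fl_fl] at h3
      exact h3
    · rw [if_neg hj]
      exact col0 e0 hj
  · rw [en_mulX]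
    by_cases hj : j.1 = 0
    · rw [if_pos hj]
      have h3 := (hc1 i (fl j) (fl1.2 hj)).2
      rw [fl_fl] at h3
      exact h3
    · rw [if_neg hj]
      exact col0 e1 hj

theorem cS {k : ℤ} {x : (tLW π s).X} (m : x ∈ (tLW π s).gr (k + s))
    (e : op (show (WL π).dga.C from Em π 0) • x = x) :
    ∃ u0 ∈ (WL π).G k, ∃ u1 ∈ (WL π).G k, u0 * Em π 0 = u0 ∧ u1 * Em π 0 = u1 ∧
      x = (show (WL π).dga.C from u0) • Tm π s 0 + (show (WL π).dga.C from u1) • Tm π s 1 := by
  have key : ∀ i j : Ob, ∃ a b, a ∈ pcL π (PP i - PP j) (AA i - AA j) k ∧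
      b ∈ pcL π (PP i - PP j) (AA i - AA j) k ∧ (j.1 ≠ 0 → a = 0 ∧ b = 0) ∧
      (j.1 = 0 → et x i j = a * xl π 0 + b * xl π 1) := by
    intro i j
    by_cases hj : j.1 = 0
    · have hm := mem_et m i j
      obtain ⟨a, ha, b, hb, h⟩ := r_sur (by rw [PP0 hj]; have := PP_nn i; omega) hm
      exact ⟨a, b, pcL_cast ha (by ring) rfl (by ring), pcL_cast hb (by ring) rfl (by ring),
        fun h' => absurd hj h', fun _ => h⟩
    · exact ⟨0, 0, Submodule.zero_mem _, Submodule.zero_mem _, fun _ => ⟨rfl, rfl⟩,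
        fun h' => absurd h' hj⟩
  choose a b ha hb h0 h1 using key
  refine ⟨mkA k a ha, mkA_mem ha, mkA k b hb, mkA_mem hb, colE fun i j hj => (h0 i j hj).1,
    colE fun i j hj => (h0 i j hj).2, et_ext fun i j => ?_⟩
  rw [et_add, et_smulT, et_smulT]
  by_cases hj : j.1 = 0
  · rw [if_pos hj, if_pos hj]
    exact h1 i j hj
  · rw [if_neg hj, if_neg hj, add_zero]
    exact tcol0 e hj

theorem rI {r : (WL π).Win} (e : Em π 0 * r = r)
    (h : op (show (WL π).dga.C from r) • Tm π s 0 = 0) : r = 0 := by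
  refine en_ext fun i j => ?_
  by_cases hi : i.1 = 0
  · have h3 := congrArg (fun a => et a i j) h
    simp only at h3
    rw [et_opT, if_pos hi] at h3
    exact l_inj 0 h3
  · exact row0 e hi

theorem rE {m : ℤ} {w0 w1 : (tLW π s).X} (m0 : w0 ∈ (tLW π s).gr m) (m1 : w1 ∈ (tLW π s).gr m)
    (e0 : (show (WL π).dga.C from Em π 0) • w0 = w0)
    (e1 : (show (WL π).dga.C from Em π 0) • w1 = w1)
    (h : (show (WL π).dga.C from Xm π 1) • w0 + (show (WL π).dga.C from Xm π 0) • w1 = 0) :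
    ∃ r ∈ (WL π).G (m - s), Em π 0 * r = r ∧ w0 = op (show (WL π).dga.C from r) • Tm π s 0 ∧
      w1 = op (show (WL π).dga.C from r) • Tm π s 1 := by
  have key : ∀ i j : Ob, ∃ c, c ∈ pcL π (PP i - PP j) (AA i - AA j) (m - s) ∧ (i.1 ≠ 0 → c = 0) ∧
      (i.1 = 0 → et w0 i j = xl π 0 * c ∧ et w1 i j = xl π 1 * c) := by
    intro i j
    by_cases hi : i.1 = 0
    · have h3 := congrArg (fun a => et a (fl i) j) h
      simp only at h3
      rw [et_add, et_X, et_X, if_pos (fl1.2 hi), if_pos (fl1.2 hi), fl_fl] at h3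
      obtain ⟨c, hc, k1, k2⟩ := l_ker (mem_et m0 i j) (eq_of_add h3)
      exact ⟨c, pcL_cast hc (by ring) rfl rfl, fun h' => absurd hi h', fun _ => ⟨k1, k2⟩⟩
    · exact ⟨0, Submodule.zero_mem _, fun _ => rfl, fun h' => absurd h' hi⟩
  choose c hc hc0 hc1 using key
  refine ⟨mkA (m - s) c hc, mkA_mem hc, rowE fun i j hi => hc0 i j hi, et_ext fun i j => ?_,
    et_ext fun i j => ?_⟩
  · rw [et_opT]
    by_cases hi : i.1 = 0
    · rw [if_pos hi]
      exact (hc1 i j hi).1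
    · rw [if_neg hi]
      exact trow0 e0 hi
  · rw [et_opT]
    by_cases hi : i.1 = 0
    · rw [if_pos hi]
      exact (hc1 i j hi).2
    · rw [if_neg hi]
      exact trow0 e1 hi

theorem rS {m : ℤ} {w : (tLW π s).X} (mw : w ∈ (tLW π s).gr m)
    (e : (show (WL π).dga.C from Em π 1) • w = w) :
    ∃ w0 ∈ (tLW π s).gr m, ∃ w1 ∈ (tLW π s).gr m, (show (WL π).dga.C from Em π 0) • w0 = w0 ∧
      (show (WL π).dga.C from Em π 0) • w1 = w1 ∧
      w = (show (WL π).dga.C from Xm π 1) • w0 + (show (WL π).dga.C from Xm π 0) • w1 := by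
  have key : ∀ i j : Ob, ∃ a b, a ∈ pcL π (PP i - PP j + 1) (AA i - AA j) (m - s) ∧
      b ∈ pcL π (PP i - PP j + 1) (AA i - AA j) (m - s) ∧ (i.1 ≠ 0 → a = 0 ∧ b = 0) ∧
      (i.1 = 0 → et w (fl i) j = xl π 0 * a + xl π 1 * b) := by
    intro i j
    by_cases hi : i.1 = 0
    · have hm := mem_et mw (fl i) j
      obtain ⟨a, ha, b, hb, h⟩ := l_sur
        (by rw [PP_fl, PP0 hi]; have := PP_le j; omega) hm
      have e1 : PP (fl i) - PP j + 1 - 1 = PP i - PP j + 1 := by rw [PP_fl, PP0 hi]; ring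
      exact ⟨a, b, pcL_cast ha e1 rfl rfl, pcL_cast hb e1 rfl rfl, fun h' => absurd hi h', fun _ => h⟩
    · exact ⟨0, 0, Submodule.zero_mem _, Submodule.zero_mem _, fun _ => ⟨rfl, rfl⟩,
        fun h' => absurd h' hi⟩
  choose a b ha hb h0 h1 using key
  refine ⟨mkT m b hb, mkT_mem hb, mkT m a ha, mkT_mem ha, trowE fun i j hi => (h0 i j hi).2,
    trowE fun i j hi => (h0 i j hi).1, et_ext fun i j => ?_⟩
  rw [et_add, et_X, et_X]
  by_cases hi : i.1 = 1
  · rw [if_pos hi, if_pos hi]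
    have h3 := h1 (fl i) j (fl0.2 hi)
    rw [fl_fl] at h3
    rw [h3, add_comm]
    rfl
  · rw [if_neg hi, if_neg hi, add_zero]
    exact trow0 e hi

theorem uX {k : ℤ} {x : (tLW π s).X} (m : x ∈ (tLW π s).gr (k + s))
    (e : op (show (WL π).dga.C from Em π 1) • x = x) :
    ∃ u ∈ (WL π).G k, u * Em π 0 = u ∧ x = (show (WL π).dga.C from u) • Um π s := by
  have hf : ∀ i j : Ob, (if j.1 = 0 then et x i (fl j) else 0) ∈
      pcL π (PP i - PP j) (AA i - AA j) k := by
    intro i j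
    split_ifs with hj
    · refine pcL_cast (mem_et m i (fl j)) ?_ (by rw [AA_fl]) (by ring)
      rw [PP_fl, PP0 hj]; ring
    · exact Submodule.zero_mem _
  refine ⟨mkA k _ hf, mkA_mem hf, colE fun i j hj => if_neg hj, et_ext fun i j => ?_⟩
  rw [et_smulU]
  by_cases hj : j.1 = 1
  · rw [if_pos hj]
    change _ = if (fl j).1 = 0 then et x i (fl (fl j)) else 0
    rw [if_pos (fl0.2 hj), fl_fl]
  · rw [if_neg hj]
    exact tcol0 e hj

theorem uI {u : (WL π).Win} (e : u * Em π 0 = u)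
    (h : (show (WL π).dga.C from u) • Um π s = 0) : u = 0 := by
  refine en_ext fun i j => ?_
  by_cases hj : j.1 = 0
  · have h3 := congrArg (fun a => et a i (fl j)) h
    simp only at h3
    rw [et_smulU, if_pos (fl1.2 hj), fl_fl] at h3
    exact h3
  · exact col0 e hj

theorem uW {m : ℤ} {w : (tLW π s).X} (mw : w ∈ (tLW π s).gr m)
    (e : (show (WL π).dga.C from Em π 0) • w = w) :
    ∃ r ∈ (WL π).G (m - s), Em π 1 * r = r ∧ w = op (show (WL π).dga.C from r) • Um π s := by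
  have hf : ∀ i j : Ob, (if i.1 = 1 then et w (fl i) j else 0) ∈
      pcL π (PP i - PP j) (AA i - AA j) (m - s) := by
    intro i j
    split_ifs with hi
    · refine pcL_cast (mem_et mw (fl i) j) ?_ (by rw [AA_fl]) rfl
      rw [PP_fl, PP1 hi]; ring
    · exact Submodule.zero_mem _
  refine ⟨mkA (m - s) _ hf, mkA_mem hf, rowE fun i j hi => if_neg hi, et_ext fun i j => ?_⟩
  rw [et_opU]
  by_cases hi : i.1 = 0
  · rw [if_pos hi]
    change _ = if (fl i).1 = 1 then et w (fl (fl i)) j else 0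
    rw [if_pos (fl1.2 hi), fl_fl]
  · rw [if_neg hi]
    exact trow0 e hi

theorem uJ {r : (WL π).Win} (e : Em π 1 * r = r)
    (h : op (show (WL π).dga.C from r) • Um π s = 0) : r = 0 := by
  refine en_ext fun i j => ?_
  by_cases hi : i.1 = 1
  · have h3 := congrArg (fun a => et a (fl i) j) h
    simp only at h3
    rw [et_opU, if_pos (fl0.2 hi), fl_fl] at h3
    exact h3
  · exact row0 e hi

/-! ### the instance -/

theorem EE (c : Fin 2) : Em π c * Em π c = Em π c := en_ext fun i j => by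
  rw [en_mulE, en_Em]
  unfold sp
  by_cases h : j = id i ∧ i.1 = c
  · rw [if_pos h, if_pos (by rw [h.1]; exact h.2)]
  · rw [if_neg h, ite_self]

theorem E_add : Em π 0 + Em π 1 = 1 := en_ext fun i j => by
  rw [en_add, en_one, en_Em, en_Em]
  unfold sp
  by_cases h : i = j
  · subst h
    rcases fin2' i.1 with h | h
    · rw [if_pos ⟨rfl, h⟩, if_neg (fun h' => z0 h h'.2), if_pos rfl, add_zero]
    · rw [if_neg (fun h' => z1 h h'.2), if_pos ⟨rfl, h⟩, if_pos rfl, zero_add]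
  · rw [if_neg (fun h' => h h'.1.symm), if_neg (fun h' => h h'.1.symm), if_neg h, add_zero]

theorem E1X (c : Fin 2) : Em π 1 * Xm π c = Xm π c := rowE fun i j hi => by
  rw [en_Xm]
  exact if_neg fun h => hi h.2

theorem XE0 (c : Fin 2) : Xm π c * Em π 0 = Xm π c := colE fun i j hj => by
  rw [en_Xm]
  exact if_neg fun h => hj (by rw [h.1]; exact fl0.2 h.2)

theorem E0T (c : Fin 2) : (show (WL π).dga.C from Em π 0) • Tm π s c = Tm π s c :=
  trowE fun i j hi => by
    rw [et_Tm]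
    exact if_neg fun h => hi h.2

theorem T0E (c : Fin 2) : op (show (WL π).dga.C from Em π 0) • Tm π s c = Tm π s c :=
  et_ext fun i j => by
    rw [et_opE]
    split_ifs with hj
    · rfl
    · rw [et_Tm]
      exact (if_neg fun h => hj (by rw [h.1]; exact h.2)).symm

theorem E0U : (show (WL π).dga.C from Em π 0) • Um π s = Um π s :=
  trowE fun i j hi => by
    rw [et_Um]
    exact if_neg fun h => hi h.2

theorem UE1 : op (show (WL π).dga.C from Em π 1) • Um π s = Um π s :=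
  et_ext fun i j => by
    rw [et_opE]
    split_ifs with hj
    · rfl
    · rw [et_Um]
      exact (if_neg fun h => hj (by rw [h.1]; exact fl1.2 h.2)).symm

theorem et_d (z : (tLW π s).X) (i j : Ob) : et ((tLW π s).d z) i j = WL221.DL π (et z i j) := rfl

theorem D_xl (c : Fin 2) : WL221.DL π (xl π c) = 0 := by
  have ha : dGen π (.x c) = 0 := rfl
  unfold xl
  rw [DL_prL, Der580.D_X, ha, map_zero, map_zero]

theorem dT (c : Fin 2) : (tLW π s).d (Tm π s c) = 0 := et_ext fun i j => by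
  rw [et_d, et_Tm, et_zero]
  unfold sp
  split_ifs
  · exact D_xl c
  · exact map_zero _

theorem dU : (tLW π s).d (Um π s) = 0 := et_ext fun i j => by
  rw [et_d, et_Um, et_zero]
  unfold sp
  split_ifs
  · have h : (WL π).D 1 = 0 := by
      have h1 := (WL π).D_mul 1 1
      rw [mul_one, mul_one, one_mul] at h1
      exact left_eq_add.1 h1
    exact h
  · exact map_zero _

theorem comm : (show (WL π).dga.C from Xm π 1) • Tm π s 0 +
    (show (WL π).dga.C from Xm π 0) • Tm π s 1 = 0 := et_ext fun i j => by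
  rw [et_add, et_X, et_X, et_Tm, et_Tm, et_zero]
  unfold sp
  split_ifs
  · rw [xx]
    exact two _
  · rw [mul_zero, mul_zero, add_zero]
  · rw [add_zero]

variable (π s)

/-- **the Koszul data of `tL`** -/
def kz : C1b328.Kz (WL π).dga (tLW π s) where
  s := s
  E0 := Em π 0
  E1 := Em π 1
  E0_mem := mkA_mem _
  E1_mem := mkA_mem _
  E00 := EE 0
  E11 := EE 1
  E_add := E_add
  X0 := Xm π 0
  X1 := Xm π 1
  X0_mem := mkA_mem _
  X1_mem := mkA_mem _
  E1X0 := E1X 0
  E1X1 := E1X 1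
  X0E0 := XE0 0
  X1E0 := XE0 1
  T0 := Tm π s 0
  T1 := Tm π s 1
  T0_mem := mkT_mem _
  T1_mem := mkT_mem _
  dT0 := dT 0
  dT1 := dT 1
  E0T0 := E0T 0
  E0T1 := E0T 1
  T0E0 := T0E 0
  T1E0 := T0E 1
  U := Um π s
  U_mem := mkT_mem _
  dU := dU
  E0U := E0U
  UE1 := UE1
  comm := comm
  cI _ h1 h2 := cI h1 h2
  cE m0 m1 e0 e1 h := cE m0 m1 e0 e1 h
  cS m e := cS m e
  rI _ e h := rI e h
  rE m0 m1 e0 e1 h := rE m0 m1 e0 e1 h
  rS m e := rS m e
  uX m e := uX m e
  uI _ e h := uI e h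
  uW m e := uW m e
  uJ _ e h := uJ e h

end Crest.Agent.R186.KzW462
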