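import Mathlib

/-!
# Row 186, S0281 base, block LC for `s = 1` (helper113): the `h = 0` complexes `Hom(K'(n), D)` are exact

Abstract form, parallel to `LC_369` (`s = 0`): seven modules `A0 = N(a,b)`, `A1 = N(a+1,b)`,
`A2 = N(a+2,b)`, `B1 = N(a+1,b+1)`, `B2 = N(a+2,b+1)`, `C1 = N(a+1,b+2)`, `C2 = N(a+2,b+2)` with maps
`x i`, `d i`.  The monomials of `k[x]_m` are indexed by `j` = exponent of `x1` (`j ≤ m`),
`lam m = c_m`, `D_i x_i^m = lam m x_i^(m-1)`.

The complex (525's formulas, `s = 1`, modulo `h`; `Hom(K₂, D) = C1 × A1`, `Hom(K₁', D) = C1 × B2`,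
`Hom(O(-1), D) = B1`):

`φ : A0^(n+1) → (ζ : C1^n, μ : A1^n, ψ : (B1^(n+2))^2) → (Z : (C1^(n+1))^2, M : (B2^(n+1))^2) → C2^(n+1)`.
-/

set_option autoImplicit false

namespace Crest.Agent.R186.LC113

/-- the pieces of a `q`-commutative bigraded module which are used for `s = 1` -/
structure Sq (K : Type*) [Field K] (g : K) (A0 A1 A2 B1 B2 C1 C2 : Type*)
    [AddCommGroup A0] [Module K A0] [AddCommGroup A1] [Module K A1]
    [AddCommGroup A2] [Module K A2] [AddCommGroup B1] [Module K B1]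
    [AddCommGroup B2] [Module K B2] [AddCommGroup C1] [Module K C1]
    [AddCommGroup C2] [Module K C2] where
  xa : Fin 2 → A0 →ₗ[K] A1
  xb : Fin 2 → A1 →ₗ[K] A2
  xc : Fin 2 → B1 →ₗ[K] B2
  xd : Fin 2 → C1 →ₗ[K] C2
  da : Fin 2 → A1 →ₗ[K] B1
  db : Fin 2 → B1 →ₗ[K] C1
  dc : Fin 2 → A2 →ₗ[K] B2
  dd : Fin 2 → B2 →ₗ[K] C2
  /-- `x_i d_i = g d_i x_i`, `x_i d_j = d_j x_i` -/
  ra : ∀ i j u, xc j (da i u) = (if i = j then g else 1) • dc i (xb j u)
  rb : ∀ i j u, xd j (db i u) = (if i = j then g else 1) • dd i (xc j u)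
  /-- `d_0 d_1 = d_1 d_0` -/
  rd : ∀ u, db 0 (da 1 u) = db 1 (da 0 u)
  /-- injectivity -/
  xa_inj : ∀ u, xa 0 u = 0 → u = 0
  da_inj : ∀ u, da 0 u = 0 → u = 0
  dc_inj : ∀ u, dc 0 u = 0 → u = 0
  /-- Koszul in `d` -/
  dk : ∀ u v, db 0 u = db 1 v → ∃ w, u = da 1 w ∧ v = da 0 w
  ds : ∀ w, ∃ u v, w = db 0 u - db 1 v
  dk' : ∀ u v, dd 0 u = dd 1 v → ∃ w, u = dc 1 w ∧ v = dc 0 w
  ds' : ∀ w, ∃ u v, w = dd 0 u - dd 1 v
  /-- Koszul in `x` -/
  xk : ∀ u v, xb 0 u = xb 1 v → ∃ w, u = xa 1 w ∧ v = xa 0 w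
  xs : ∀ w, ∃ u v, w = xb 0 u - xb 1 v

variable {K : Type*} [Field K] {g : K} {A0 A1 A2 B1 B2 C1 C2 : Type*}
    [AddCommGroup A0] [Module K A0] [AddCommGroup A1] [Module K A1]
    [AddCommGroup A2] [Module K A2] [AddCommGroup B1] [Module K B1]
    [AddCommGroup B2] [Module K B2] [AddCommGroup C1] [Module K C1]
    [AddCommGroup C2] [Module K C2] (S : Sq K g A0 A1 A2 B1 B2 C1 C2) (lam : ℕ → K)

/-! ## the differentials, in coordinates -/

/-- `Φ_j = x0 φ_j` (`j ≤ n`), `Φ_(n+1) = x1 φ_n` -/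
def Phi (n : ℕ) (φ : ℕ → A0) (j : ℕ) : A1 := if j ≤ n then S.xa 0 (φ j) else S.xa 1 (φ n)

/-- `μ_j = x0 φ_(j+1) - x1 φ_j` -/
def mu0 (φ : ℕ → A0) (j : ℕ) : A1 := S.xa 0 (φ (j + 1)) - S.xa 1 (φ j)

/-- `ψ^e_j = d_e Φ_j` -/
def psi0 (n : ℕ) (φ : ℕ → A0) (e : Fin 2) (j : ℕ) : B1 := S.da e (Phi S n φ j)

/-- `θ_j = d_0 ψ^1_j - d_1 ψ^0_j` -/
def th (ψ : Fin 2 → ℕ → B1) (j : ℕ) : C1 := S.db 0 (ψ 1 j) - S.db 1 (ψ 0 j)

/-- the `ζ`-part of the second term -/
def ZZ (n : ℕ) (ζ : ℕ → C1) (ψ : Fin 2 → ℕ → B1) (e : Fin 2) (j : ℕ) : C1 :=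
  if e = 0 then
    (if j < n then -(lam (n - j) • ζ j) else (lam (n + 1))⁻¹ • th S ψ (n + 1))
  else -(lam j • ζ (j - 1)) - (lam (n + 1 - j))⁻¹ • th S ψ j

/-- the `μ`-part of the second term -/
def MM (n : ℕ) (μ : ℕ → A1) (ψ : Fin 2 → ℕ → B1) (e : Fin 2) (j : ℕ) : B2 :=
  if e = 0 then
    (if j < n then S.xc 0 (S.da 0 (μ j)) else 0) + g • S.xc 1 (ψ 0 j) - S.xc 0 (ψ 0 (j + 1))
  else
    (if j < n then g • S.xc 0 (S.da 1 (μ j)) else 0) + S.xc 1 (ψ 1 j) - g • S.xc 0 (ψ 1 (j + 1))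

/-- the last differential -/
def chi (n : ℕ) (Z : Fin 2 → ℕ → C1) (M : Fin 2 → ℕ → B2) (j : ℕ) : C2 :=
  S.dd 1 (M 0 j) - S.dd 0 (M 1 j) - lam (j + 1) • S.xd 0 (Z 0 j) + lam j • S.xd 1 (Z 0 (j - 1)) +
    lam (n - j) • S.xd 0 (Z 1 (j + 1)) - lam (n + 1 - j) • S.xd 1 (Z 1 j)

section
variable {lam}

/-- exactness at degree `0` -/
theorem H0 (n : ℕ) (φ : ℕ → A0) (h : ∀ j ≤ n, psi0 S n φ 0 j = 0) : ∀ j ≤ n, φ j = 0 := by
  intro j hj
  have h1 := h j hj
  simp only [psi0, Phi, if_pos hj] at h1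
  exact S.xa_inj _ (S.da_inj _ h1)

/-- exactness at degree `1` -/
theorem H1 (hg : g ≠ 0) (n : ℕ) (hlam : ∀ m, 0 < m → m ≤ n + 1 → lam m ≠ 0) (h0 : lam 0 = 0)
    (ζ : ℕ → C1) (μ : ℕ → A1) (ψ : Fin 2 → ℕ → B1)
    (hZ : ∀ e, ∀ j ≤ n, ZZ S lam n ζ ψ e j = 0) (hM : ∀ e, ∀ j ≤ n, MM S n μ ψ e j = 0) :
    ∃ φ : ℕ → A0, (∀ j < n, ζ j = 0) ∧ (∀ j < n, μ j = mu0 S φ j) ∧
      (∀ e, ∀ j ≤ n + 1, ψ e j = psi0 S n φ e j) := by
  have hζ : ∀ j < n, ζ j = 0 := by
    intro j hj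
    have h1 := hZ 0 j hj.le
    simp only [ZZ, if_true, if_pos hj, neg_eq_zero] at h1
    exact (smul_eq_zero.mp h1).resolve_left (hlam _ (by omega) (by omega))
  have hth : ∀ j ≤ n + 1, th S ψ j = 0 := by
    intro j hj
    rcases Nat.lt_or_ge n j with hlt | hge
    · obtain rfl : j = n + 1 := by omega
      have h1 := hZ 0 n le_rfl
      simp only [ZZ, if_true, lt_irrefl, if_false] at h1
      exact (smul_eq_zero.mp h1).resolve_left (inv_ne_zero (hlam _ (by omega) le_rfl))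
    · have h1 := hZ 1 j hge
      simp only [ZZ, one_ne_zero, if_false, Fin.isValue] at h1
      have h2 : lam j • ζ (j - 1) = 0 := by
        rcases j with _ | j
        · rw [h0, zero_smul]
        · rw [Nat.add_sub_cancel, hζ j (by omega), smul_zero]
      rw [h2, neg_zero, zero_sub, neg_eq_zero] at h1
      exact (smul_eq_zero.mp h1).resolve_left (inv_ne_zero (hlam _ (by omega) (by omega)))
  have key : ∀ j, ∃ w, j ≤ n + 1 → (ψ 1 j = S.da 1 w ∧ ψ 0 j = S.da 0 w) := by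
    intro j
    by_cases hj : j ≤ n + 1
    · obtain ⟨w, h1, h2⟩ := S.dk _ _ (sub_eq_zero.mp (hth j hj))
      exact ⟨w, fun _ => ⟨h1, h2⟩⟩
    · exact ⟨0, fun h => absurd h hj⟩
  choose Φ hΦ using key
  have key2 : ∀ j, ∃ w, (j < n → Φ (j + 1) - μ j = S.xa 1 w ∧ Φ j = S.xa 0 w) ∧
      (j = n → Φ (n + 1) = S.xa 1 w ∧ Φ n = S.xa 0 w) := by
    intro j
    rcases Nat.lt_trichotomy j n with hj | hj | hj
    · have h1 := hM 0 j hj.le
      simp only [MM, if_true, if_pos hj] at h1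
      rw [(hΦ j (by omega)).2, (hΦ (j + 1) (by omega)).2, S.ra 0 0, S.ra 0 1, S.ra 0 0] at h1
      simp only [if_true, zero_ne_one, if_false, one_smul, Fin.isValue] at h1
      have h2 : S.dc 0 (S.xb 0 (μ j) + S.xb 1 (Φ j) - S.xb 0 (Φ (j + 1))) = 0 := by
        have h3 : g • S.dc 0 (S.xb 0 (μ j) + S.xb 1 (Φ j) - S.xb 0 (Φ (j + 1))) = 0 := by
          rw [map_sub, map_add, smul_sub, smul_add]
          exact h1
        exact (smul_eq_zero.mp h3).resolve_left hg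
      have h4 := S.dc_inj _ h2
      obtain ⟨w, hw1, hw2⟩ := S.xk (Φ (j + 1) - μ j) (Φ j) (by
        rw [map_sub, sub_eq_iff_eq_add, ← sub_eq_zero, ← neg_eq_zero, ← h4]
        abel)
      exact ⟨w, fun _ => ⟨hw1, hw2⟩, fun h => absurd h hj.ne⟩
    · subst hj
      have h1 := hM 0 j le_rfl
      simp only [MM, if_true, lt_irrefl, if_false, zero_add] at h1
      rw [(hΦ j (by omega)).2, (hΦ (j + 1) (by omega)).2, S.ra 0 1, S.ra 0 0] at h1
      simp only [if_true, zero_ne_one, if_false, one_smul, Fin.isValue] at h1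
      have h2 : S.dc 0 (S.xb 1 (Φ j) - S.xb 0 (Φ (j + 1))) = 0 := by
        have h3 : g • S.dc 0 (S.xb 1 (Φ j) - S.xb 0 (Φ (j + 1))) = 0 := by
          rw [map_sub, smul_sub]
          exact h1
        exact (smul_eq_zero.mp h3).resolve_left hg
      obtain ⟨w, hw1, hw2⟩ := S.xk (Φ (j + 1)) (Φ j) (sub_eq_zero.mp (S.dc_inj _ h2)).symm
      exact ⟨w, fun h => absurd h (lt_irrefl _), fun _ => ⟨hw1, hw2⟩⟩
    · exact ⟨0, fun h => absurd h (by omega), fun h => absurd h (by omega)⟩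
  choose φ hφ using key2
  have hΦφ : ∀ j ≤ n + 1, Φ j = Phi S n φ j := by
    intro j hj
    unfold Phi
    split_ifs with h
    · rcases Nat.lt_or_ge j n with h1 | h1
      · exact ((hφ j).1 h1).2
      · obtain rfl : j = n := by omega
        exact ((hφ j).2 rfl).2
    · obtain rfl : j = n + 1 := by omega
      exact ((hφ n).2 rfl).1
  refine ⟨φ, hζ, ?_, ?_⟩
  · intro j hj
    have h1 := ((hφ j).1 hj).1
    have h2 : Φ (j + 1) = S.xa 0 (φ (j + 1)) := by
      rw [hΦφ (j + 1) (by omega), Phi, if_pos (by omega)]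
    rw [mu0, ← h2, ← h1]
    abel
  · intro e j hj
    rw [psi0, ← hΦφ j hj]
    fin_cases e
    · exact (hΦ j hj).2
    · exact (hΦ j hj).1

/-- exactness at degree `2` -/
theorem H2 (hg : g ≠ 0) (n : ℕ) (hlam : ∀ m, 0 < m → m ≤ n + 1 → lam m ≠ 0) (h0 : lam 0 = 0)
    (Z : Fin 2 → ℕ → C1) (M : Fin 2 → ℕ → B2) (hχ : ∀ j ≤ n, chi S lam n Z M j = 0) :
    ∃ (ζ : ℕ → C1) (μ : ℕ → A1) (ψ : Fin 2 → ℕ → B1),
      (∀ e, ∀ j ≤ n, Z e j = ZZ S lam n ζ ψ e j) ∧ (∀ e, ∀ j ≤ n, M e j = MM S n μ ψ e j) := by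
  -- the wanted values of `θ`
  let t : ℕ → C1 := fun j => lam j • Z 0 (j - 1) - lam (n + 1 - j) • Z 1 j
  choose P1 P0 hP using fun j => S.ds (t j)
  -- the residual of the `M`-part
  let M0 : ℕ → B2 := fun j => M 0 j - g • S.xc 1 (P0 j) + S.xc 0 (P0 (j + 1))
  let M1 : ℕ → B2 := fun j => M 1 j - S.xc 1 (P1 j) + g • S.xc 0 (P1 (j + 1))
  have key : ∀ j, ∃ w, j ≤ n → (M1 j = S.dc 1 w ∧ M0 j = S.dc 0 w) := by
    intro j
    by_cases hj : j ≤ n
    · have h1 := hχ j hj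
      have e1 := congrArg (S.xd 0) (hP (j + 1))
      have e2 := congrArg (S.xd 1) (hP j)
      simp only [t, Nat.add_sub_cancel, map_sub, map_smul] at e1 e2
      have r1 := S.rb 0 0 (P1 (j + 1))
      have r2 := S.rb 1 0 (P0 (j + 1))
      have r3 := S.rb 0 1 (P1 j)
      have r4 := S.rb 1 1 (P0 j)
      simp only [if_true, zero_ne_one, one_ne_zero, if_false, one_smul, Fin.isValue] at r1 r2 r3 r4
      rw [r1, r2] at e1
      rw [r3, r4] at e2
      obtain ⟨w, hw1, hw2⟩ := S.dk' (M1 j) (M0 j) (by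
        simp only [M0, M1, map_add, map_sub, map_smul]
        simp only [chi] at h1
        rw [← sub_eq_zero, ← neg_eq_zero, ← h1]
        have e1' : lam (n - j) • S.xd 0 (Z 1 (j + 1)) = lam (j + 1) • S.xd 0 (Z 0 j) -
            (g • S.dd 0 (S.xc 0 (P1 (j + 1))) - S.dd 1 (S.xc 0 (P0 (j + 1)))) := by
          rw [← e1, show n + 1 - (j + 1) = n - j by omega]
          abel
        have e2' : lam (n + 1 - j) • S.xd 1 (Z 1 j) = lam j • S.xd 1 (Z 0 (j - 1)) -
            (S.dd 0 (S.xc 1 (P1 j)) - g • S.dd 1 (S.xc 1 (P0 j))) := by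
          rw [← e2]
          abel
        rw [e1', e2']
        abel)
      exact ⟨w, fun _ => ⟨hw1, hw2⟩⟩
    · exact ⟨0, fun h => absurd h hj⟩
  choose ω hω using key
  choose u v huv using fun j => S.xs (g⁻¹ • ω j)
  let F : ℕ → A1 := fun j => if j ≤ n then -v j else -u n
  have hωF : ∀ j < n, ω j = g • (S.xb 0 (u j + F (j + 1)) + S.xb 1 (F j) - S.xb 0 (F (j + 1))) := by
    intro j hj
    have h1 : S.xb 0 (u j + F (j + 1)) + S.xb 1 (F j) - S.xb 0 (F (j + 1)) =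
        S.xb 0 (u j) - S.xb 1 (v j) := by
      simp only [F, if_pos (show j ≤ n by omega), map_add, map_neg]
      abel
    rw [h1, ← huv j, smul_smul, mul_inv_cancel₀ hg, one_smul]
  have hωn : ω n = g • (S.xb 1 (F n) - S.xb 0 (F (n + 1))) := by
    have h1 : S.xb 1 (F n) - S.xb 0 (F (n + 1)) = S.xb 0 (u n) - S.xb 1 (v n) := by
      simp only [F, le_refl, if_true, if_neg (show ¬ n + 1 ≤ n by omega), map_neg]
      abel
    rw [h1, ← huv n, smul_smul, mul_inv_cancel₀ hg, one_smul]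
  let ψ : Fin 2 → ℕ → B1 := fun e j => if e = 0 then P0 j + S.da 0 (F j) else P1 j + S.da 1 (F j)
  have hψ0 : ∀ j, ψ 0 j = P0 j + S.da 0 (F j) := fun j => by simp only [ψ, if_true]
  have hψ1 : ∀ j, ψ 1 j = P1 j + S.da 1 (F j) := fun j => by
    simp only [ψ, one_ne_zero, if_false, Fin.isValue]
  have hth : ∀ j, th S ψ j = t j := by
    intro j
    rw [th, hψ0, hψ1, map_add, map_add, S.rd, hP j]
    abel
  refine ⟨fun j => -((lam (n - j))⁻¹ • Z 0 j), fun j => u j + F (j + 1), ψ, ?_, ?_⟩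
  · intro e j hj
    fin_cases e
    · simp only [ZZ, Fin.zero_eta, if_true, Fin.isValue]
      split_ifs with h
      · have hl : lam (n - j) ≠ 0 := hlam _ (by omega) (by omega)
        rw [smul_neg, neg_neg, smul_smul, mul_inv_cancel₀ hl, one_smul]
      · obtain rfl : j = n := by omega
        have hl : lam (j + 1) ≠ 0 := hlam _ (by omega) le_rfl
        rw [hth]
        simp only [t, Nat.add_sub_cancel, Nat.sub_self, h0, zero_smul, sub_zero]
        rw [smul_smul, inv_mul_cancel₀ hl, one_smul]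
    · simp only [ZZ, Fin.mk_one, one_ne_zero, if_false, Fin.isValue]
      have hl : lam (n + 1 - j) ≠ 0 := hlam _ (by omega) (by omega)
      rw [hth]
      simp only [t]
      rcases j with _ | j
      · simp only [h0, zero_smul, neg_zero, zero_sub, smul_neg, neg_neg]
        rw [smul_smul, inv_mul_cancel₀ hl, one_smul]
      · rw [Nat.add_sub_cancel, show n + 1 - (j + 1) = n - j by omega] at *
        rw [smul_neg, neg_neg, smul_sub, smul_smul _ _ (Z 1 (j + 1)), inv_mul_cancel₀ hl, one_smul,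
          smul_smul, smul_smul, mul_comm]
        abel
  · intro e j hj
    have hra := S.ra
    fin_cases e
    · simp only [MM, Fin.zero_eta, if_true, Fin.isValue]
      have h1 : M 0 j = S.dc 0 (ω j) + g • S.xc 1 (P0 j) - S.xc 0 (P0 (j + 1)) := by
        rw [← (hω j hj).2]
        simp only [M0]
        abel
      rw [h1, hψ0, hψ0]
      split_ifs with h
      · rw [hωF j h, map_add (S.xc 1), map_add (S.xc 0), hra 0 0, hra 0 1, hra 0 0]
        simp only [if_true, zero_ne_one, if_false, one_smul, Fin.isValue, map_smul, map_sub, map_add,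
          smul_add, smul_sub]
        abel
      · obtain rfl : j = n := by omega
        rw [hωn, map_add (S.xc 1), map_add (S.xc 0), hra 0 1, hra 0 0]
        simp only [if_true, zero_ne_one, if_false, one_smul, Fin.isValue, map_smul, map_sub,
          smul_add, smul_sub]
        abel
    · simp only [MM, Fin.mk_one, one_ne_zero, if_false, Fin.isValue]
      have h1 : M 1 j = S.dc 1 (ω j) + S.xc 1 (P1 j) - g • S.xc 0 (P1 (j + 1)) := by
        rw [← (hω j hj).1]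
        simp only [M1]
        abel
      rw [h1, hψ1, hψ1]
      split_ifs with h
      · rw [hωF j h, map_add (S.xc 1), map_add (S.xc 0), hra 1 0, hra 1 1, hra 1 0]
        simp only [if_true, one_ne_zero, if_false, one_smul, Fin.isValue, map_smul, map_sub, map_add,
          smul_add, smul_sub]
        abel
      · obtain rfl : j = n := by omega
        rw [hωn, map_add (S.xc 1), map_add (S.xc 0), hra 1 1, hra 1 0]
        simp only [if_true, one_ne_zero, if_false, one_smul, Fin.isValue, map_smul, map_sub,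
          smul_add, smul_sub]
        abel

/-- exactness at degree `3` -/
theorem H3 (n : ℕ) (χ : ℕ → C2) :
    ∃ (Z : Fin 2 → ℕ → C1) (M : Fin 2 → ℕ → B2), ∀ j ≤ n, χ j = chi S lam n Z M j := by
  choose u v huv using fun j => S.ds' (-χ j)
  refine ⟨fun _ _ => 0, fun e j => if e = 0 then v j else u j, ?_⟩
  intro j _
  simp only [chi, if_true, one_ne_zero, if_false, Fin.isValue, map_zero, smul_zero, sub_zero,
    add_zero]
  have h := huv j
  rw [← neg_neg (χ j), h]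
  abel

end

end Crest.Agent.R186.LC113
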