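import Mathlib

/-!
Row 186 (S0281), helper371: the contravariant `h = 0` complexes for `s = 1` (275's `T_1`).

`Hom (K'(n), Q)` with `K'(n) : O2 [n] -> K1' k^2 [n] -> K2 [n-1] + O1 k^2 [n+1] -> O0 [n]`
(525's closed formulas, monomial sections), `Q` an `h`-torsion module with pieces
`N (a, b)`, maps `x_i : N (a, b) -> N (a+1, b)`, `d_i : N (a, b) -> N (a, b+1)`,
`x_i d_i = g d_i x_i`, the rest commutes.

`A_i = N (p+i, q)`, `B_i = N (p+i, q+1)`, `C_i = N (p+i, q+2)`.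
Cochains are written by their values on the monomials `x0^a x1^(m-a)` (functions on `ℕ`, only
the indices `a ≤ m` matter).
-/

set_option autoImplicit false

namespace Crest.Agent.R186.LC1_371

variable {K : Type*} [Field K]
variable {A0 A1 A2 B1 B2 C1 C2 : Type*}
variable [AddCommGroup A0] [Module K A0] [AddCommGroup A1] [Module K A1]
variable [AddCommGroup A2] [Module K A2] [AddCommGroup B1] [Module K B1]
variable [AddCommGroup B2] [Module K B2] [AddCommGroup C1] [Module K C1]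
variable [AddCommGroup C2] [Module K C2]

/-- the maps -/
structure Maps (K A0 A1 A2 B1 B2 C1 C2 : Type*) [Field K]
    [AddCommGroup A0] [Module K A0] [AddCommGroup A1] [Module K A1]
    [AddCommGroup A2] [Module K A2] [AddCommGroup B1] [Module K B1]
    [AddCommGroup B2] [Module K B2] [AddCommGroup C1] [Module K C1]
    [AddCommGroup C2] [Module K C2] where
  x0a : A0 →ₗ[K] A1
  x1a : A0 →ₗ[K] A1
  x0b : A1 →ₗ[K] A2
  x1b : A1 →ₗ[K] A2
  x0c : B1 →ₗ[K] B2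
  x1c : B1 →ₗ[K] B2
  x0e : C1 →ₗ[K] C2
  x1e : C1 →ₗ[K] C2
  d0a : A1 →ₗ[K] B1
  d1a : A1 →ₗ[K] B1
  d0b : A2 →ₗ[K] B2
  d1b : A2 →ₗ[K] B2
  d0c : B1 →ₗ[K] C1
  d1c : B1 →ₗ[K] C1
  d0e : B2 →ₗ[K] C2
  d1e : B2 →ₗ[K] C2

namespace Maps

variable (D : Maps K A0 A1 A2 B1 B2 C1 C2)

/-- the relations and the exactness facts -/
structure Facts (g : K) : Prop where
  g0 : g ≠ 0
  /-- `x0 x1 = x1 x0 : A0 → A2` -/
  xx : ∀ u, D.x0b (D.x1a u) = D.x1b (D.x0a u)
  /-- `A1 → C1` -/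
  ddA : ∀ u, D.d0c (D.d1a u) = D.d1c (D.d0a u)
  /-- `A2 → C2` -/
  ddB : ∀ u, D.d0e (D.d1b u) = D.d1e (D.d0b u)
  /-- `A1 → B2` -/
  r00 : ∀ u, D.x0c (D.d0a u) = g • D.d0b (D.x0b u)
  r10 : ∀ u, D.x1c (D.d0a u) = D.d0b (D.x1b u)
  r01 : ∀ u, D.x0c (D.d1a u) = D.d1b (D.x0b u)
  r11 : ∀ u, D.x1c (D.d1a u) = g • D.d1b (D.x1b u)
  /-- `B1 → C2` -/
  s00 : ∀ u, D.x0e (D.d0c u) = g • D.d0e (D.x0c u)
  s10 : ∀ u, D.x1e (D.d0c u) = D.d0e (D.x1c u)
  s01 : ∀ u, D.x0e (D.d1c u) = D.d1e (D.x0c u)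
  s11 : ∀ u, D.x1e (D.d1c u) = g • D.d1e (D.x1c u)
  /-- injectivity -/
  ix : ∀ u, D.x0a u = 0 → u = 0
  ida : ∀ u, D.d0a u = 0 → u = 0
  idb : ∀ u, D.d0b u = 0 → u = 0
  /-- Koszul in `x`, `A0 → A1² → A2` -/
  Xk : ∀ u v, D.x0b u = D.x1b v → ∃ w, u = D.x1a w ∧ v = D.x0a w
  Xs : ∀ z, ∃ u v, z = D.x0b u + D.x1b v
  /-- Koszul in `d`, `A1 → B1² → C1` and `A2 → B2² → C2` -/
  DkA : ∀ u v, D.d0c u = D.d1c v → ∃ w, u = D.d1a w ∧ v = D.d0a w
  DsA : ∀ z, ∃ u v, z = D.d0c u + D.d1c v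
  DkB : ∀ u v, D.d0e u = D.d1e v → ∃ w, u = D.d1b w ∧ v = D.d0b w
  DsB : ∀ z, ∃ u v, z = D.d0e u + D.d1e v

/-- `x ∧ φ`, the `m`-component of `δ⁰ φ` (indices `a < n`) -/
def m' (φ : ℕ → A0) (a : ℕ) : A1 := D.x0a (φ a) - D.x1a (φ (a + 1))

/-- `j = 0`: the `w_0`-component of `δ⁰ φ` (indices `a ≤ n+1`) -/
def w0' (φ : ℕ → A0) : ℕ → B1
  | 0 => D.d0a (D.x1a (φ 0))
  | a + 1 => D.d0a (D.x0a (φ a))

/-- the `w_1`-component of `δ⁰ φ` -/
def w1' (φ : ℕ → A0) : ℕ → B1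
  | 0 => D.d1a (D.x1a (φ 0))
  | a + 1 => D.d1a (D.x0a (φ a))

/-- the `m_0`-component of `δ¹ (m, ζ, w0, w1)` (indices `a ≤ n`) -/
def m0' (g : K) (m : ℕ → A1) (w0 : ℕ → B1) : ℕ → B2
  | 0 => g • D.x1c (w0 1) - D.x0c (w0 0)
  | a + 1 => g • D.d0b (D.x0b (m a)) + (g • D.x1c (w0 (a + 2)) - D.x0c (w0 (a + 1)))

/-- the `m_1`-component of `δ¹` -/
def m1' (g : K) (m : ℕ → A1) (w1 : ℕ → B1) : ℕ → B2
  | 0 => D.x1c (w1 1) - g • D.x0c (w1 0)
  | a + 1 => g • D.d1b (D.x0b (m a)) + (D.x1c (w1 (a + 2)) - g • D.x0c (w1 (a + 1)))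

/-- the `ζ_0`-component of `δ¹` -/
def z0' (c : ℕ → K) (n : ℕ) (z : ℕ → C1) (w0 w1 : ℕ → B1) : ℕ → C1
  | 0 => (c (n + 1))⁻¹ • (D.d0c (w1 0) - D.d1c (w0 0))
  | a + 1 => -(c (a + 1) • z a)

/-- the `ζ_1`-component of `δ¹` -/
def z1' (c : ℕ → K) (n : ℕ) (z : ℕ → C1) (w0 w1 : ℕ → B1) (a : ℕ) : C1 :=
  (c (a + 1))⁻¹ • (D.d1c (w0 (a + 1)) - D.d0c (w1 (a + 1))) - c (n - a) • z a

/-- `δ²` (indices `a ≤ n`) -/
def t' (c : ℕ → K) (n : ℕ) (m0 m1 : ℕ → B2) (z0 z1 : ℕ → C1) (a : ℕ) : C2 :=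
  D.d1e (m0 a) - D.d0e (m1 a) - c (n + 1 - a) • D.x0e (z0 a) + c (n - a) • D.x1e (z0 (a + 1))
    + (if a = 0 then 0 else c a • D.x0e (z1 (a - 1))) - c (a + 1) • D.x1e (z1 a)

variable {D} {g : K} {c : ℕ → K} {n : ℕ}

theorem H0 (F : D.Facts g) (φ : ℕ → A0) (h : ∀ a ≤ n, D.w0' φ (a + 1) = 0) :
    ∀ a ≤ n, φ a = 0 := fun a ha => F.ix _ (F.ida _ (h a ha))

/-- `δ² δ¹ = 0` -/
theorem dd (F : D.Facts g) (hc : ∀ a, a ≤ n → c (a + 1) ≠ 0)
    (m : ℕ → A1) (z : ℕ → C1) (w0 w1 : ℕ → B1) (a : ℕ) (ha : a ≤ n) :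
    D.t' c n (D.m0' g m w0) (D.m1' g m w1) (D.z0' c n z w0 w1) (D.z1' c n z w0 w1) a = 0 := by
  rcases a with _ | a
  · have h1 := hc 0 (by omega)
    have hn := hc n le_rfl
    simp only [t', m0', m1', z0', z1', if_true, Nat.sub_zero, map_sub, map_smul, map_neg,
      smul_sub, smul_smul, smul_neg, F.s00, F.s10, F.s01, F.s11, zero_add]
    simp only [zero_add] at h1
    match_scalars <;> field_simp <;> ring
  · have h1 := hc (a + 1) ha
    have h2 := hc a (by omega)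
    have e : n + 1 - (a + 1) = n - a := by omega
    simp only [t', m0', m1', z0', z1', Nat.succ_ne_zero, if_false, Nat.add_sub_cancel, e, map_sub,
      map_smul, map_neg, map_add, smul_sub, smul_smul, smul_neg, F.ddB, F.s00, F.s10, F.s01,
      F.s11]
    match_scalars <;> field_simp <;> ring

theorem H1 (F : D.Facts g) (hc0 : c 0 = 0) (hc : ∀ a, a ≤ n → c (a + 1) ≠ 0)
    (m : ℕ → A1) (z : ℕ → C1) (w0 w1 : ℕ → B1)
    (e0 : ∀ a ≤ n, D.m0' g m w0 a = 0)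
    (f0 : ∀ a ≤ n, D.z0' c n z w0 w1 a = 0) (f1 : ∀ a ≤ n, D.z1' c n z w0 w1 a = 0) :
    (∀ a < n, z a = 0) ∧ ∃ φ : ℕ → A0, (∀ a < n, m a = D.m' φ a) ∧
      (∀ a ≤ n + 1, w0 a = D.w0' φ a) ∧ (∀ a ≤ n + 1, w1 a = D.w1' φ a) := by
  have hz : ∀ a < n, z a = 0 := by
    intro a ha
    have := f0 (a + 1) (by omega)
    simp only [z0', neg_eq_zero, smul_eq_zero] at this
    exact this.resolve_left (hc a (by omega))
  refine ⟨hz, ?_⟩
  -- the potentials `θ_a`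
  have hθ : ∀ a ≤ n + 1, ∃ t : A1, w0 a = D.d0a t ∧ w1 a = D.d1a t := by
    intro a ha
    have key : D.d0c (w1 a) = D.d1c (w0 a) := by
      rcases a with _ | a
      · have := f0 0 (by omega)
        simp only [z0', smul_eq_zero, inv_eq_zero] at this
        exact sub_eq_zero.1 (this.resolve_left (hc n le_rfl))
      · have h := f1 a (by omega)
        have h0 : c (n - a) • z a = 0 := by
          rcases Nat.lt_or_ge a n with h' | h'
          · rw [hz a h', smul_zero]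
          · rw [show n - a = 0 by omega, hc0, zero_smul]
        simp only [z1', h0, sub_zero, smul_eq_zero, inv_eq_zero] at h
        exact (sub_eq_zero.1 (h.resolve_left (hc a (by omega)))).symm
    obtain ⟨t, h1, h2⟩ := F.DkA _ _ key
    exact ⟨t, h2, h1⟩
  choose! θ h0 h1 using hθ
  -- the equations `x_0 (θ_a - m_(a-1)) = x_1 θ_(a+1)`
  have k0 : D.x0b (θ 0) = D.x1b (θ 1) := by
    have h := e0 0 (by omega)
    simp only [m0'] at h
    rw [h0 0 (by omega), h0 1 (by omega), F.r00, F.r10, ← smul_sub, ← map_sub] at h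
    have := F.idb _ ((smul_eq_zero.1 h).resolve_left F.g0)
    exact (sub_eq_zero.1 this).symm
  have kS : ∀ a, a + 1 ≤ n → D.x0b (θ (a + 1) - m a) = D.x1b (θ (a + 2)) := by
    intro a ha
    have h := e0 (a + 1) ha
    simp only [m0'] at h
    rw [h0 (a + 1) (by omega), h0 (a + 2) (by omega), F.r00, F.r10, ← smul_sub, ← smul_add,
      ← map_sub, ← map_add] at h
    have := F.idb _ ((smul_eq_zero.1 h).resolve_left F.g0)
    rw [map_sub]
    rw [← sub_eq_zero]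
    rw [← neg_eq_zero, ← this]
    abel
  have hφ : ∀ a ≤ n, ∃ w : A0, θ (a + 1) = D.x0a w ∧
      ((a = 0 → θ 0 = D.x1a w) ∧ ∀ b, a = b + 1 → θ a - m b = D.x1a w) := by
    intro a ha
    rcases a with _ | a
    · obtain ⟨w, h1, h2⟩ := F.Xk _ _ k0
      exact ⟨w, h2, fun _ => h1, fun b hb => by omega⟩
    · obtain ⟨w, h1, h2⟩ := F.Xk _ _ (kS a ha)
      refine ⟨w, h2, fun h => by omega, fun b hb => ?_⟩
      obtain rfl : b = a := by omega
      exact h1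
  choose! φ p0 p1 using hφ
  refine ⟨φ, ?_, ?_, ?_⟩
  · intro a ha
    have e1 := (p1 (a + 1) (by omega)).2 a rfl
    have e2 := p0 a (by omega)
    simp only [m']
    rw [← e1, ← e2]
    abel
  · intro a ha
    rcases a with _ | a
    · simp only [w0']
      rw [h0 0 (by omega), (p1 0 (by omega)).1 rfl]
    · simp only [w0']
      rw [h0 (a + 1) ha, p0 a (by omega)]
  · intro a ha
    rcases a with _ | a
    · simp only [w1']
      rw [h1 0 (by omega), (p1 0 (by omega)).1 rfl]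
    · simp only [w1']
      rw [h1 (a + 1) ha, p0 a (by omega)]

theorem H2 (F : D.Facts g) (hc0 : c 0 = 0) (hc : ∀ a, a ≤ n → c (a + 1) ≠ 0)
    (m0 m1 : ℕ → B2) (z0 z1 : ℕ → C1) (e : ∀ a ≤ n, D.t' c n m0 m1 z0 z1 a = 0) :
    ∃ (m : ℕ → A1) (z : ℕ → C1) (w0 w1 : ℕ → B1), ∀ a ≤ n,
      m0 a = D.m0' g m w0 a ∧ m1 a = D.m1' g m w1 a ∧
      z0 a = D.z0' c n z w0 w1 a ∧ z1 a = D.z1' c n z w0 w1 a := by
  -- step 1: `z`
  let z : ℕ → C1 := fun a => -((c (a + 1))⁻¹ • z0 (a + 1))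
  -- step 2: `w`
  have hw : ∀ a, ∃ p : B1 × B1, D.d0c p.2 - D.d1c p.1 =
      (if a = 0 then c (n + 1) • z0 0 else -(c a • (z1 (a - 1) + c (n - (a - 1)) • z (a - 1)))) := by
    intro a
    obtain ⟨u, v, h⟩ := F.DsA (if a = 0 then c (n + 1) • z0 0
      else -(c a • (z1 (a - 1) + c (n - (a - 1)) • z (a - 1))))
    refine ⟨(-v, u), ?_⟩
    rw [h]
    simp
  choose p hp using hw
  -- the rest
  have hz0 : ∀ a ≤ n, z0 a = D.z0' c n z (fun a => (p a).1) (fun a => (p a).2) a := by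
    intro a ha
    rcases a with _ | a
    · have := hp 0
      simp only [if_true] at this
      simp only [z0']
      rw [this, smul_smul, inv_mul_cancel₀ (hc n le_rfl), one_smul]
    · simp only [z0', z]
      rw [smul_neg, neg_neg, smul_smul, mul_inv_cancel₀ (hc a (by omega)), one_smul]
  have hz1 : ∀ a ≤ n, z1 a = D.z1' c n z (fun a => (p a).1) (fun a => (p a).2) a := by
    intro a ha
    have := hp (a + 1)
    simp only [Nat.succ_ne_zero, if_false, Nat.add_sub_cancel] at this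
    simp only [z1']
    have e : D.d1c (p (a + 1)).1 - D.d0c (p (a + 1)).2 =
        c (a + 1) • (z1 a + c (n - a) • z a) := by
      rw [← neg_sub, this, neg_neg]
    rw [e, smul_smul, inv_mul_cancel₀ (hc a ha), one_smul]
    abel
  -- the remainder is a `d`-cocycle
  have hμ : ∀ a ≤ n, ∃ t : A2,
      m0 a - D.m0' g (fun _ => 0) (fun a => (p a).1) a = D.d0b t ∧
      m1 a - D.m1' g (fun _ => 0) (fun a => (p a).2) a = D.d1b t := by
    intro a ha
    have h1 := e a ha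
    have h2 := dd F hc (fun _ => 0) z (fun a => (p a).1) (fun a => (p a).2) a ha
    have e0 := hz0 a ha
    have e1 := hz1 a ha
    have key : D.d0e (m1 a - D.m1' g (fun _ => 0) (fun a => (p a).2) a) =
        D.d1e (m0 a - D.m0' g (fun _ => 0) (fun a => (p a).1) a) := by
      simp only [t'] at h1 h2
      rw [← e0, ← e1] at h2
      have e2 : c (n - a) • D.x1e (D.z0' c n z (fun a => (p a).1) (fun a => (p a).2) (a + 1)) =
          c (n - a) • D.x1e (z0 (a + 1)) := by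
        rcases Nat.lt_or_ge a n with h' | h'
        · rw [← hz0 (a + 1) (by omega)]
        · rw [show n - a = 0 by omega, hc0, zero_smul, zero_smul]
      have e3 : (if a = 0 then 0 else c a •
          D.x0e (D.z1' c n z (fun a => (p a).1) (fun a => (p a).2) (a - 1))) =
          (if a = 0 then 0 else c a • D.x0e (z1 (a - 1))) := by
        by_cases h' : a = 0
        · simp [h']
        · rw [← hz1 (a - 1) (by omega)]
      rw [e2, e3] at h2
      rw [map_sub, map_sub]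
      have h3 := h1.trans h2.symm
      rw [← sub_eq_zero] at h3 ⊢
      rw [← neg_eq_zero, ← h3]
      abel
    obtain ⟨t, h3, h4⟩ := F.DkB _ _ key
    exact ⟨t, h4, h3⟩
  choose! μ q0 q1 using hμ
  have hs : ∀ a, ∃ r : A1 × A1, g⁻¹ • μ a = D.x0b r.1 + D.x1b r.2 := by
    intro a
    obtain ⟨u, v, h⟩ := F.Xs (g⁻¹ • μ a)
    exact ⟨(u, v), h⟩
  choose r hr using hs
  let θ : ℕ → A1 := fun a => if a = 0 then -(r 0).1 else (r (a - 1)).2
  let m : ℕ → A1 := fun a => (r (a + 1)).1 + θ (a + 1)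
  have hμ0 : μ 0 = g • (D.x1b (θ 1) - D.x0b (θ 0)) := by
    have : D.x1b (θ 1) - D.x0b (θ 0) = g⁻¹ • μ 0 := by
      rw [hr 0]
      simp only [θ, if_true, Nat.one_ne_zero, if_false, Nat.sub_self, map_neg]
      abel
    rw [this, smul_smul, mul_inv_cancel₀ F.g0, one_smul]
  have hμS : ∀ a, μ (a + 1) = g • (D.x0b (m a) + D.x1b (θ (a + 2)) - D.x0b (θ (a + 1))) := by
    intro a
    have : D.x0b (m a) + D.x1b (θ (a + 2)) - D.x0b (θ (a + 1)) = g⁻¹ • μ (a + 1) := by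
      rw [hr (a + 1)]
      simp only [m, map_add]
      have : θ (a + 2) = (r (a + 1)).2 := by simp [θ]
      rw [this]
      abel
    rw [this, smul_smul, mul_inv_cancel₀ F.g0, one_smul]
  refine ⟨m, z, fun a => (p a).1 + D.d0a (θ a), fun a => (p a).2 + D.d1a (θ a), ?_⟩
  intro a ha
  refine ⟨?_, ?_, ?_, ?_⟩
  · have h := q0 a ha
    rcases a with _ | a
    · rw [sub_eq_iff_eq_add] at h
      rw [h, hμ0]
      simp only [m0', map_add, map_sub, map_smul, F.r00, F.r10]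
      module
    · rw [sub_eq_iff_eq_add] at h
      rw [h, hμS]
      simp only [m0', map_add, map_sub, map_smul, F.r00, F.r10, map_zero]
      module
  · have h := q1 a ha
    rcases a with _ | a
    · rw [sub_eq_iff_eq_add] at h
      rw [h, hμ0]
      simp only [m1', map_add, map_sub, map_smul, F.r01, F.r11]
      module
    · rw [sub_eq_iff_eq_add] at h
      rw [h, hμS]
      simp only [m1', map_add, map_sub, map_smul, F.r01, F.r11, map_zero]
      module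
  · rw [hz0 a ha]
    rcases a with _ | a
    · simp only [z0', map_add, F.ddA]
      congr 1
      abel
    · simp only [z0']
  · rw [hz1 a ha]
    simp only [z1', map_add, F.ddA]
    congr 2
    abel

theorem H3 (F : D.Facts g) (t : ℕ → C2) :
    ∃ (m0 m1 : ℕ → B2), ∀ a, t a = D.t' c n m0 m1 (fun _ => 0) (fun _ => 0) a := by
  have : ∀ a, ∃ p : B2 × B2, t a = D.d1e p.1 - D.d0e p.2 := by
    intro a
    obtain ⟨u, v, h⟩ := F.DsB (t a)
    refine ⟨(v, -u), ?_⟩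
    rw [h, map_neg]
    abel
  choose p hp using this
  refine ⟨fun a => (p a).1, fun a => (p a).2, fun a => ?_⟩
  rw [hp a]
  simp [t']

end Maps

end Crest.Agent.R186.LC1_371
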