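import Mathlib

/-!
# Row 186, S0281 base, block LC for `s = 1` (helper442): the `h = 0` complexes `Hom(K'(n), D)` are exact

Right (conull) side, 275's `T_1 = (O(0), O(-1), O(-2), K1(-1), K2)`, maps of 525 (#31909, `s = 1`):
`O2 [n] -> K1' k^2 [n] -> K2 [n-1] + O1 k^2 [n+1] -> O0 [n]`.
Abstract form: eight modules `N00 = N(a,b)`, `N10 = N(a+1,b)`, `N20 = N(a+2,b)`, `N11`, `N21`, `N12`, `N22`
with maps `x i`, `d i` (same conventions as `LC_369`): the monomials of `k[x]_m` are indexed by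
`j` = exponent of `x1` (`j ≤ m`), `lam m = c_m`.
A map `K2 -> D` is a pair (`ν : N10`, `ζ : N12`), a map `K1' -> D` is a pair (`ν' : N21`, `ζ' : N12`)
(`ν` = value on `(x1,-x0)`, `x_i ζ` = values on `(1,0)`, `(0,1)`).
-/

set_option autoImplicit false

namespace Crest.Agent.R186.LC442

/-- the bigraded piece of a `q`-commutative bigraded module, shape needed for `s = 1` -/
structure Sq1 (K : Type*) [Field K] (g : K) (N00 N10 N20 N11 N21 N12 N22 : Type*)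
    [AddCommGroup N00] [Module K N00] [AddCommGroup N10] [Module K N10]
    [AddCommGroup N20] [Module K N20] [AddCommGroup N11] [Module K N11]
    [AddCommGroup N21] [Module K N21] [AddCommGroup N12] [Module K N12]
    [AddCommGroup N22] [Module K N22] where
  /-- `N(a,b) → N(a+1,b)` -/
  xa : Fin 2 → N00 →ₗ[K] N10
  /-- `N(a+1,b) → N(a+2,b)` -/
  xe : Fin 2 → N10 →ₗ[K] N20
  /-- `N(a+1,b+1) → N(a+2,b+1)` -/
  xf : Fin 2 → N11 →ₗ[K] N21
  /-- `N(a+1,b+2) → N(a+2,b+2)` -/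
  xd : Fin 2 → N12 →ₗ[K] N22
  /-- `N(a+1,b) → N(a+1,b+1)` -/
  dc : Fin 2 → N10 →ₗ[K] N11
  /-- `N(a+1,b+1) → N(a+1,b+2)` -/
  dd : Fin 2 → N11 →ₗ[K] N12
  /-- `N(a+2,b) → N(a+2,b+1)` -/
  de : Fin 2 → N20 →ₗ[K] N21
  /-- `N(a+2,b+1) → N(a+2,b+2)` -/
  df : Fin 2 → N21 →ₗ[K] N22
  /-- `x_i d_i = g d_i x_i`, `x_i d_j = d_j x_i` -/
  rc : ∀ i j u, xf j (dc i u) = (if i = j then g else 1) • de i (xe j u)
  rd : ∀ i j u, xd j (dd i u) = (if i = j then g else 1) • df i (xf j u)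
  /-- `d_0 d_1 = d_1 d_0` -/
  dcomm : ∀ u, dd 0 (dc 1 u) = dd 1 (dc 0 u)
  /-- injectivity of `x_0`, `d_0` -/
  xa_inj : ∀ u, xa 0 u = 0 → u = 0
  dc_inj : ∀ u, dc 0 u = 0 → u = 0
  de_inj : ∀ u, de 0 u = 0 → u = 0
  /-- Koszul in `d` -/
  dk : ∀ u v, dd 0 u = dd 1 v → ∃ w, u = dc 1 w ∧ v = dc 0 w
  dk' : ∀ u v, df 0 u = df 1 v → ∃ w, u = de 1 w ∧ v = de 0 w
  ds : ∀ w, ∃ u v, w = dd 0 u - dd 1 v
  ds' : ∀ w, ∃ u v, w = df 0 u - df 1 v
  /-- Koszul in `x` -/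
  xk : ∀ u v, xe 0 u = xe 1 v → ∃ w, u = xa 1 w ∧ v = xa 0 w
  xs : ∀ w, ∃ u v, w = xe 0 u - xe 1 v

variable {K : Type*} [Field K] {g : K} {N00 N10 N20 N11 N21 N12 N22 : Type*}
    [AddCommGroup N00] [Module K N00] [AddCommGroup N10] [Module K N10]
    [AddCommGroup N20] [Module K N20] [AddCommGroup N11] [Module K N11]
    [AddCommGroup N21] [Module K N21] [AddCommGroup N12] [Module K N12]
    [AddCommGroup N22] [Module K N22] (S : Sq1 K g N00 N10 N20 N11 N21 N12 N22) (lam : ℕ → K)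

/-! ## the differentials, in coordinates -/

/-- `K2`-part of `δ φ`: `ν(u) = x0 φ(x1 u) - x1 φ(x0 u)` (`j < n`); its `ζ`-part is `0` -/
def nu (φ : ℕ → N00) (j : ℕ) : N10 := S.xa 0 (φ (j + 1)) - S.xa 1 (φ j)

/-- `Φ(x0 v) = x0 φ(v)`, `Φ(x1^(n+1)) = x1 φ(x1^n)` (`j ≤ n+1`) -/
def Phi (n : ℕ) (φ : ℕ → N00) (j : ℕ) : N10 := if j ≤ n then S.xa 0 (φ j) else S.xa 1 (φ n)

/-- `O(-1)`-part of `δ φ`: `ψ_e = d_e Φ` (`j ≤ n+1`) -/
def psi (n : ℕ) (φ : ℕ → N00) (e : Fin 2) (j : ℕ) : N11 := S.dc e (Phi S n φ j)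

/-- `Ω = d0 ψ_1 - d1 ψ_0` (`j ≤ n+1`) -/
def Om (ψ : Fin 2 → ℕ → N11) (j : ℕ) : N12 := S.dd 0 (ψ 1 j) - S.dd 1 (ψ 0 j)

/-- `ζ'`-part of `δ (ν, ζ, ψ)`: `ζ'_0(v) = -ζ(∂0 v) + Ω(J v)`, `ζ'_1(v) = -ζ(∂1 v) - Ω(I v)` (`j ≤ n`) -/
def zt (n : ℕ) (ζ : ℕ → N12) (ψ : Fin 2 → ℕ → N11) (e : Fin 2) (j : ℕ) : N12 :=
  if e = 0 then -(lam (n - j) • ζ j) + (if j = n then (lam (n + 1))⁻¹ • Om S ψ (n + 1) else 0)
  else -(lam j • ζ (j - 1)) - (lam (n + 1 - j))⁻¹ • Om S ψ j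

/-- `ν'`-part of `δ (ν, ζ, ψ)` (`j ≤ n`):
`ν'_0(v) = x0 d0 ν(ρ v) + g x1 ψ_0(x0 v) - x0 ψ_0(x1 v)`,
`ν'_1(v) = g x0 d1 ν(ρ v) + x1 ψ_1(x0 v) - g x0 ψ_1(x1 v)` -/
def nup (n : ℕ) (ν : ℕ → N10) (ψ : Fin 2 → ℕ → N11) (e : Fin 2) (j : ℕ) : N21 :=
  if e = 0 then (if j < n then S.xf 0 (S.dc 0 (ν j)) else 0) + g • S.xf 1 (ψ 0 j) - S.xf 0 (ψ 0 (j + 1))
  else (if j < n then g • S.xf 0 (S.dc 1 (ν j)) else 0) + S.xf 1 (ψ 1 j) - g • S.xf 0 (ψ 1 (j + 1))

/-- last differential (`j ≤ n`):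
`τ(v) = d1 ν'_0 - d0 ν'_1 - x0 ζ'_0(∂1 x1 v) + x1 ζ'_0(∂1 x0 v) + x0 ζ'_1(∂0 x1 v) - x1 ζ'_1(∂0 x0 v)` -/
def tau (n : ℕ) (ν' : Fin 2 → ℕ → N21) (ζ' : Fin 2 → ℕ → N12) (j : ℕ) : N22 :=
  S.df 1 (ν' 0 j) - S.df 0 (ν' 1 j) - lam (j + 1) • S.xd 0 (ζ' 0 j) + lam j • S.xd 1 (ζ' 0 (j - 1))
    + lam (n - j) • S.xd 0 (ζ' 1 (j + 1)) - lam (n + 1 - j) • S.xd 1 (ζ' 1 j)

section
variable {lam}

/-- exactness at degree `0` -/
theorem H0 (n : ℕ) (φ : ℕ → N00) (h : ∀ e, ∀ j ≤ n + 1, psi S n φ e j = 0) : ∀ j ≤ n, φ j = 0 := by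
  intro j hj
  have h1 := h 0 j (by omega)
  simp only [psi, Phi, if_pos hj] at h1
  exact S.xa_inj _ (S.dc_inj _ h1)

/-- exactness at degree `1` -/
theorem H1 (hg : g ≠ 0) (n : ℕ) (hlam : ∀ m, 0 < m → m ≤ n + 1 → lam m ≠ 0) (h0 : lam 0 = 0)
    (ν : ℕ → N10) (ζ : ℕ → N12) (ψ : Fin 2 → ℕ → N11)
    (hζ : ∀ e, ∀ j ≤ n, zt S lam n ζ ψ e j = 0) (hν : ∀ e, ∀ j ≤ n, nup S n ν ψ e j = 0) :
    ∃ φ : ℕ → N00, (∀ j < n, ν j = nu S φ j) ∧ (∀ j < n, ζ j = 0) ∧
      (∀ e, ∀ j ≤ n + 1, ψ e j = psi S n φ e j) := by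
  have z0 : ∀ j < n, ζ j = 0 := by
    intro j hj
    have h1 := hζ 0 j (by omega)
    simp only [zt, if_true, if_neg (show ¬ j = n by omega), add_zero, neg_eq_zero] at h1
    exact (smul_eq_zero.mp h1).resolve_left (hlam _ (by omega) (by omega))
  have om : ∀ j ≤ n + 1, Om S ψ j = 0 := by
    intro j hj
    rcases Nat.lt_or_ge j (n + 1) with hlt | hge
    · have h1 := hζ 1 j (by omega)
      have hl : (lam (n + 1 - j))⁻¹ ≠ 0 := inv_ne_zero (hlam _ (by omega) (by omega))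
      have h2 : lam j • ζ (j - 1) = 0 := by
        rcases j with _ | j
        · rw [h0, zero_smul]
        · rw [Nat.add_sub_cancel, z0 j (by omega), smul_zero]
      simp only [zt, one_ne_zero, if_false, Fin.isValue, h2, neg_zero, zero_sub, neg_eq_zero] at h1
      exact (smul_eq_zero.mp h1).resolve_left hl
    · have hjn : j = n + 1 := by omega
      subst hjn
      have h1 := hζ 0 n le_rfl
      have hl : (lam (n + 1))⁻¹ ≠ 0 := inv_ne_zero (hlam _ (by omega) le_rfl)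
      simp only [zt, if_true, Nat.sub_self, h0, zero_smul, neg_zero, zero_add] at h1
      exact (smul_eq_zero.mp h1).resolve_left hl
  have key : ∀ j, ∃ w, j ≤ n + 1 → (ψ 1 j = S.dc 1 w ∧ ψ 0 j = S.dc 0 w) := by
    intro j
    by_cases hj : j ≤ n + 1
    · have h1 := om j hj
      simp only [Om] at h1
      obtain ⟨w, hw1, hw2⟩ := S.dk _ _ (sub_eq_zero.mp h1)
      exact ⟨w, fun _ => ⟨hw1, hw2⟩⟩
    · exact ⟨0, fun h => absurd h hj⟩
  choose Φ hΦ using key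
  have key2 : ∀ j, ∃ w, j ≤ n → (Φ (j + 1) - (if j < n then ν j else 0) = S.xa 1 w ∧ Φ j = S.xa 0 w) := by
    intro j
    by_cases hj : j ≤ n
    · have h1 := hν 0 j hj
      simp only [nup, if_true] at h1
      rw [(hΦ j (by omega)).2, (hΦ (j + 1) (by omega)).2] at h1
      have h2 : g • S.de 0 (S.xe 0 (if j < n then ν j else 0) + S.xe 1 (Φ j) - S.xe 0 (Φ (j + 1))) = 0 := by
        have e1 := S.rc 0 0 (if j < n then ν j else 0)
        have e2 := S.rc 0 1 (Φ j)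
        have e3 := S.rc 0 0 (Φ (j + 1))
        simp only [if_true, zero_ne_one, if_false, one_smul, Fin.isValue] at e1 e2 e3
        rw [map_sub, map_add, smul_sub, smul_add, ← e1, ← e3, ← e2, ← h1]
        by_cases hjn : j < n
        · simp only [if_pos hjn]
        · simp only [if_neg hjn, map_zero]
      have h3 := S.de_inj _ ((smul_eq_zero.mp h2).resolve_left hg)
      obtain ⟨w, hw1, hw2⟩ := S.xk (Φ (j + 1) - (if j < n then ν j else 0)) (Φ j) (by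
        rw [map_sub, ← sub_eq_zero, ← neg_eq_zero, ← h3]
        abel)
      exact ⟨w, fun _ => ⟨hw1, hw2⟩⟩
    · exact ⟨0, fun h => absurd h hj⟩
  choose φ hφ using key2
  have hPhi : ∀ j ≤ n + 1, Φ j = Phi S n φ j := by
    intro j hj
    rcases Nat.lt_or_ge n j with hlt | hge
    · have hjn : j = n + 1 := by omega
      subst hjn
      have h1 := (hφ n le_rfl).1
      simp only [lt_irrefl, if_false, sub_zero] at h1
      simp only [Phi, if_neg (show ¬ n + 1 ≤ n by omega), h1]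
    · simp only [Phi, if_pos hge]
      exact (hφ j hge).2
  refine ⟨φ, ?_, z0, ?_⟩
  · intro j hj
    have h1 := (hφ j (by omega)).1
    have h2 := (hφ (j + 1) (by omega)).2
    rw [if_pos hj, h2] at h1
    simp only [nu]
    rw [← h1]
    abel
  · intro e j hj
    simp only [psi]
    rw [← hPhi j hj]
    fin_cases e
    · exact (hΦ j hj).2
    · exact (hΦ j hj).1

/-- exactness at degree `2` -/
theorem H2 (hg : g ≠ 0) (n : ℕ) (hlam : ∀ m, 0 < m → m ≤ n + 1 → lam m ≠ 0) (h0 : lam 0 = 0)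
    (ν' : Fin 2 → ℕ → N21) (ζ' : Fin 2 → ℕ → N12)
    (hτ : ∀ j ≤ n, tau S lam n ν' ζ' j = 0) :
    ∃ (ν : ℕ → N10) (ζ : ℕ → N12) (ψ : Fin 2 → ℕ → N11),
      (∀ e, ∀ j ≤ n, ζ' e j = zt S lam n ζ ψ e j) ∧ (∀ e, ∀ j ≤ n, ν' e j = nup S n ν ψ e j) := by
  -- step 1: `Ω`
  let Ω : ℕ → N12 := fun j => lam j • ζ' 0 (j - 1) - lam (n + 1 - j) • ζ' 1 j
  choose P Q hPQ using fun j => S.ds (Ω j)
  -- step 2: the residual `ν''`
  have key : ∀ j, ∃ w, j ≤ n → (ν' 1 j - (S.xf 1 (P j) - g • S.xf 0 (P (j + 1))) = S.de 1 w ∧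
      ν' 0 j - (g • S.xf 1 (Q j) - S.xf 0 (Q (j + 1))) = S.de 0 w) := by
    intro j
    by_cases hj : j ≤ n
    · have h1 := hτ j hj
      simp only [tau] at h1
      have e1 := S.rd 0 1 (P j)
      have e2 := S.rd 0 0 (P (j + 1))
      have e3 := S.rd 1 1 (Q j)
      have e4 := S.rd 1 0 (Q (j + 1))
      simp only [if_true, zero_ne_one, one_ne_zero, if_false, one_smul, Fin.isValue] at e1 e2 e3 e4
      have h2 : S.df 1 (ν' 0 j) - S.df 0 (ν' 1 j) = S.xd 0 (Ω (j + 1)) - S.xd 1 (Ω j) := by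
        simp only [Ω, Nat.add_sub_cancel, show n + 1 - (j + 1) = n - j by omega, map_sub, map_smul]
        rw [← sub_eq_zero, ← h1]
        abel
      obtain ⟨w, hw1, hw2⟩ := S.dk' (ν' 1 j - (S.xf 1 (P j) - g • S.xf 0 (P (j + 1))))
        (ν' 0 j - (g • S.xf 1 (Q j) - S.xf 0 (Q (j + 1)))) (by
          simp only [map_sub, map_smul]
          rw [← e1, ← e2, ← e3, ← e4, ← sub_eq_zero]
          have h3 := hPQ j
          have h4 := hPQ (j + 1)
          rw [h3, h4] at h2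
          simp only [map_sub] at h2
          have h5 := sub_eq_zero.mpr h2
          rw [← neg_eq_zero, ← h5]
          abel)
      exact ⟨w, fun _ => ⟨hw1, hw2⟩⟩
    · exact ⟨0, fun h => absurd h hj⟩
  choose L hL using key
  -- step 3
  choose B' A' hBA using fun j => S.xs (g⁻¹ • L j)
  let A : ℕ → N10 := fun j => -(A' j)
  let B : ℕ → N10 := fun j => -(B' j)
  have hAB : ∀ j, L j = g • (S.xe 1 (A j) - S.xe 0 (B j)) := by
    intro j
    have := hBA j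
    simp only [A, B, map_neg]
    rw [show - S.xe 1 (A' j) - - S.xe 0 (B' j) = S.xe 0 (B' j) - S.xe 1 (A' j) by abel, ← this,
      smul_smul, mul_inv_cancel₀ hg, one_smul]
  let Φ : ℕ → N10 := fun j => if j ≤ n then A j else B n
  let ν : ℕ → N10 := fun j => A (j + 1) - B j
  let ζ : ℕ → N12 := fun j => -((lam (n - j))⁻¹ • ζ' 0 j)
  let ψ : Fin 2 → ℕ → N11 := fun e j => if e = 0 then Q j + S.dc 0 (Φ j) else P j + S.dc 1 (Φ j)
  have hOm : ∀ j, Om S ψ j = Ω j := by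
    intro j
    simp only [Om, ψ, if_true, one_ne_zero, if_false, Fin.isValue, map_add]
    rw [S.dcomm, hPQ j]
    abel
  have hYY : ∀ j ≤ n, S.xe 0 (if j < n then ν j else 0) + S.xe 1 (Φ j) - S.xe 0 (Φ (j + 1)) =
      S.xe 1 (A j) - S.xe 0 (B j) := by
    intro j hj
    by_cases hjn : j < n
    · simp only [if_pos hjn, Φ, if_pos hj, if_pos (show j + 1 ≤ n by omega), ν, map_sub]
      abel
    · have : j = n := by omega
      subst this
      simp only [lt_irrefl, if_false, map_zero, Φ, le_refl, if_true,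
        if_neg (show ¬ j + 1 ≤ j by omega)]
      abel
  refine ⟨ν, ζ, ψ, ?_, ?_⟩
  · intro e j hj
    have hl : lam (n + 1 - j) ≠ 0 := hlam _ (by omega) (by omega)
    fin_cases e
    · simp only [zt, Fin.zero_eta, if_true, Fin.isValue]
      by_cases hjn : j = n
      · subst hjn
        have hl' : lam (j + 1) ≠ 0 := hlam _ (by omega) le_rfl
        rw [hOm, Nat.sub_self, h0, zero_smul, neg_zero, zero_add, if_pos rfl]
        simp only [Ω, Nat.add_sub_cancel, Nat.sub_self, h0, zero_smul, sub_zero, smul_smul,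
          inv_mul_cancel₀ hl', one_smul]
      · have hl' : lam (n - j) ≠ 0 := hlam _ (by omega) (by omega)
        simp only [if_neg hjn, add_zero, ζ, smul_neg, neg_neg, smul_smul, mul_inv_cancel₀ hl', one_smul]
    · simp only [zt, Fin.mk_one, one_ne_zero, if_false, Fin.isValue]
      rw [hOm]
      rcases j with _ | j
      · simp only [Ω, h0, zero_smul, neg_zero, zero_sub, smul_neg, smul_smul, Nat.sub_zero,
          neg_neg] at hl ⊢
        rw [inv_mul_cancel₀ hl, one_smul]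
      · simp only [Ω, ζ, Nat.add_sub_cancel, show n + 1 - (j + 1) = n - j by omega] at hl ⊢
        rw [smul_neg, neg_neg, smul_sub, smul_smul, smul_smul, smul_smul, inv_mul_cancel₀ hl, one_smul,
          mul_comm]
        abel
  · intro e j hj
    obtain ⟨h1, h2⟩ := hL j hj
    have h3 := hYY j hj
    rw [hAB j, ← h3] at h1 h2
    fin_cases e
    · simp only [nup, Fin.zero_eta, if_true, Fin.isValue, ψ, map_add, smul_add]
      rw [sub_eq_iff_eq_add] at h2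
      rw [h2]
      have e1 := S.rc 0 0 (if j < n then ν j else 0)
      have e2 := S.rc 0 1 (Φ j)
      have e3 := S.rc 0 0 (Φ (j + 1))
      simp only [if_true, zero_ne_one, if_false, one_smul, Fin.isValue] at e1 e2 e3
      rw [map_smul, map_sub, map_add, smul_sub, smul_add, ← e1, ← e3, ← e2]
      by_cases hjn : j < n
      · simp only [if_pos hjn]
        abel
      · simp only [if_neg hjn, map_zero]
        abel
    · simp only [nup, Fin.mk_one, if_true, one_ne_zero, if_false, Fin.isValue, ψ, map_add, smul_add]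
      rw [sub_eq_iff_eq_add] at h1
      rw [h1]
      have e1 := S.rc 1 0 (if j < n then ν j else 0)
      have e2 := S.rc 1 1 (Φ j)
      have e3 := S.rc 1 0 (Φ (j + 1))
      simp only [if_true, one_ne_zero, if_false, one_smul, Fin.isValue] at e1 e2 e3
      rw [map_smul, map_sub, map_add, smul_sub, smul_add, ← e1, ← e3, ← e2]
      by_cases hjn : j < n
      · simp only [if_pos hjn]
        abel
      · simp only [if_neg hjn, map_zero, smul_zero]
        abel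

/-- exactness at degree `3` -/
theorem H3 (n : ℕ) (τ : ℕ → N22) :
    ∃ (ν' : Fin 2 → ℕ → N21) (ζ' : Fin 2 → ℕ → N12), ∀ j ≤ n, τ j = tau S lam n ν' ζ' j := by
  choose C D hCD using fun j => S.ds' (τ j)
  refine ⟨fun e j => if e = 0 then -(D j) else -(C j), fun _ _ => 0, ?_⟩
  intro j _
  simp only [tau, if_true, one_ne_zero, if_false, Fin.isValue, map_zero, smul_zero, sub_zero,
    add_zero, map_neg]
  rw [hCD j]
  abel

end

end Crest.Agent.R186.LC442
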