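import Crest.Agent.R186.LCS_369

/-!
# Row 186, S0281 base (helper369): the filtered LC theorem (`h = 1`, `s = 0`), elementwise
-/

set_option autoImplicit false

namespace Crest.Agent.R186.LC369

namespace Dict

variable {K : Type*} [Field K] {g : K} {N00 N01 N02 N10 N11 N12 N22 : Type*}
    [AddCommGroup N00] [Module K N00] [AddCommGroup N01] [Module K N01]
    [AddCommGroup N02] [Module K N02] [AddCommGroup N10] [Module K N10]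
    [AddCommGroup N11] [Module K N11] [AddCommGroup N12] [Module K N12]
    [AddCommGroup N22] [Module K N22]
    {S : Sq K g N00 N01 N02 N10 N11 N12 N22} {U : Type*} [AddCommGroup U] [Module K U]
    (T : Dict S U) (lam : ℕ → K)

/-! ## total symbol functions -/

open Classical in
noncomputable def q1 (u : U) : N11 := if h : u ∈ T.L1 then T.p1 ⟨u, h⟩ else 0
open Classical in
noncomputable def q2 (u : U) : N22 := if h : u ∈ T.L2 then T.p2 ⟨u, h⟩ else 0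
open Classical in
noncomputable def qp (u : U) : N10 := if h : u ∈ T.Lp then T.pp ⟨u, h⟩ else 0

theorem q1_of {u : U} (h : u ∈ T.L1) : T.q1 u = T.p1 ⟨u, h⟩ := dif_pos h
theorem q2_of {u : U} (h : u ∈ T.L2) : T.q2 u = T.p2 ⟨u, h⟩ := dif_pos h
theorem qp_of {u : U} (h : u ∈ T.Lp) : T.qp u = T.pp ⟨u, h⟩ := dif_pos h

theorem q1_add {u v : U} (hu : u ∈ T.L1) (hv : v ∈ T.L1) : T.q1 (u + v) = T.q1 u + T.q1 v := by
  rw [T.q1_of hu, T.q1_of hv, T.q1_of (add_mem hu hv), ← map_add]; rfl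
theorem q1_sub {u v : U} (hu : u ∈ T.L1) (hv : v ∈ T.L1) : T.q1 (u - v) = T.q1 u - T.q1 v := by
  rw [T.q1_of hu, T.q1_of hv, T.q1_of (sub_mem hu hv), ← map_sub]; rfl
theorem q1_smul {u : U} (c : K) (hu : u ∈ T.L1) : T.q1 (c • u) = c • T.q1 u := by
  rw [T.q1_of hu, T.q1_of (Submodule.smul_mem _ c hu), ← map_smul]; rfl
theorem q1_neg {u : U} (hu : u ∈ T.L1) : T.q1 (-u) = -T.q1 u := by
  rw [T.q1_of hu, T.q1_of (neg_mem hu), ← map_neg]; rfl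
theorem q1_low {u : U} (hu : u ∈ T.L0) : T.q1 u = 0 := by
  rw [T.q1_of (T.h01 u hu)]; exact T.k01 u hu

theorem q2_add {u v : U} (hu : u ∈ T.L2) (hv : v ∈ T.L2) : T.q2 (u + v) = T.q2 u + T.q2 v := by
  rw [T.q2_of hu, T.q2_of hv, T.q2_of (add_mem hu hv), ← map_add]; rfl
theorem q2_sub {u v : U} (hu : u ∈ T.L2) (hv : v ∈ T.L2) : T.q2 (u - v) = T.q2 u - T.q2 v := by
  rw [T.q2_of hu, T.q2_of hv, T.q2_of (sub_mem hu hv), ← map_sub]; rfl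
theorem q2_smul {u : U} (c : K) (hu : u ∈ T.L2) : T.q2 (c • u) = c • T.q2 u := by
  rw [T.q2_of hu, T.q2_of (Submodule.smul_mem _ c hu), ← map_smul]; rfl
theorem q2_low {u : U} (hu : u ∈ T.L1) : T.q2 u = 0 := by
  rw [T.q2_of (T.h12 u hu)]; exact T.k12 u hu

theorem qp_add {u v : U} (hu : u ∈ T.Lp) (hv : v ∈ T.Lp) : T.qp (u + v) = T.qp u + T.qp v := by
  rw [T.qp_of hu, T.qp_of hv, T.qp_of (add_mem hu hv), ← map_add]; rfl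
theorem qp_sub {u v : U} (hu : u ∈ T.Lp) (hv : v ∈ T.Lp) : T.qp (u - v) = T.qp u - T.qp v := by
  rw [T.qp_of hu, T.qp_of hv, T.qp_of (sub_mem hu hv), ← map_sub]; rfl
theorem qp_smul {u : U} (c : K) (hu : u ∈ T.Lp) : T.qp (c • u) = c • T.qp u := by
  rw [T.qp_of hu, T.qp_of (Submodule.smul_mem _ c hu), ← map_smul]; rfl

theorem M1_iff {u : U} : u ∈ T.M1 ↔ u ∈ T.L1 ∧ T.q1 u = 0 := by
  rw [mem_M1]
  exact ⟨fun ⟨h, h0⟩ => ⟨h, by rw [T.q1_of h]; exact h0⟩, fun ⟨h, h0⟩ => ⟨h, by rwa [T.q1_of h] at h0⟩⟩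
theorem M2_iff {u : U} : u ∈ T.M2 ↔ u ∈ T.L2 ∧ T.q2 u = 0 := by
  rw [mem_M2]
  exact ⟨fun ⟨h, h0⟩ => ⟨h, by rw [T.q2_of h]; exact h0⟩, fun ⟨h, h0⟩ => ⟨h, by rwa [T.q2_of h] at h0⟩⟩
theorem Mp_iff {u : U} : u ∈ T.Mp ↔ u ∈ T.Lp ∧ T.qp u = 0 := by
  rw [mem_Mp]
  exact ⟨fun ⟨h, h0⟩ => ⟨h, by rw [T.qp_of h]; exact h0⟩, fun ⟨h, h0⟩ => ⟨h, by rwa [T.qp_of h] at h0⟩⟩

/-- the `μ`-part of a `K`-vertex element -/
def mu (u v : U) : U := T.x 1 u - T.x 0 v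

/-! ## the differentials of `Hom(K(n), -)`, `581`'s maps, `j` = exponent of `x1` -/

def D1u (n : ℕ) (φ : ℕ → U) (e : Fin 2) (j : ℕ) : U :=
  if e = 0 then T.x 0 (T.d 0 (φ j)) - lam (n - j) • φ j
  else T.x 0 (T.d 1 (φ j)) - lam j • φ (j - 1)

def D1v (n : ℕ) (φ : ℕ → U) (e : Fin 2) (j : ℕ) : U :=
  if e = 0 then T.x 1 (T.d 0 (φ j)) - lam (n - j) • φ (j + 1)
  else T.x 1 (T.d 1 (φ j)) - lam j • φ j

def D2u (n : ℕ) (u v : Fin 2 → ℕ → U) : ℕ → U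
  | 0 => -(lam (n + 1) • u 1 0) - g⁻¹ • T.x 0 (T.d 1 (u 0 0)) + T.x 0 (T.d 0 (u 1 0))
  | j + 1 => lam (j + 1) • u 0 j - lam (n - j) • u 1 (j + 1) + g⁻¹ • T.x 0 (T.d 0 (v 1 j))
      - T.x 0 (T.d 1 (v 0 j))

def D2v (n : ℕ) (u v : Fin 2 → ℕ → U) : ℕ → U
  | 0 => -(lam (n + 1) • v 1 0) - g⁻¹ • T.x 1 (T.d 1 (u 0 0)) + T.x 1 (T.d 0 (u 1 0))
  | j + 1 => lam (j + 1) • v 0 j - lam (n - j) • v 1 (j + 1) + g⁻¹ • T.x 1 (T.d 0 (v 1 j))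
      - T.x 1 (T.d 1 (v 0 j))

def D2p (n : ℕ) (u v : Fin 2 → ℕ → U) (e : Fin 2) (j : ℕ) : U :=
  if e = 0 then -(g⁻¹ • u 0 (j + 1)) + v 0 j + (lam (n - j))⁻¹ • T.d 0 (T.mu (u 0 j) (v 0 j))
  else -(u 1 (j + 1)) + g⁻¹ • v 1 j + (lam (n - j))⁻¹ • T.d 1 (T.mu (u 0 j) (v 0 j))

/-- the part of `D3` coming from the `K₂`-slots and from `-D_0` on the second `O(-1)`-slot -/
def D3a (n : ℕ) (a b : ℕ → U) (ψ : Fin 2 → ℕ → U) (j : ℕ) : U :=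
  a (j + 1) - b j - (lam (n + 1 - j))⁻¹ • T.d 0 (T.mu (a j) (b j))
    - (if j = n then (lam (n + 1))⁻¹ • T.d 1 (T.mu (a (n + 1)) (b (n + 1))) else 0)
    - lam (n - j) • ψ 1 j

def D3 (n : ℕ) (a b : ℕ → U) (ψ : Fin 2 → ℕ → U) : ℕ → U
  | 0 => T.D3a lam n a b ψ 0
  | j + 1 => T.D3a lam n a b ψ (j + 1) + (lam (j + 1) - 1) • ψ 0 j - g • T.d 1 (T.x 1 (ψ 0 j))
      + T.d 0 (T.x 1 (ψ 1 j))

/-- `K₁`-vertex elements -/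
def C1 (n : ℕ) (u v : Fin 2 → ℕ → U) : Prop :=
  ∀ e, ∀ j ≤ n, u e j ∈ T.L1 ∧ v e j ∈ T.L1 ∧ T.mu (u e j) (v e j) ∈ T.Lp
def C1' (n : ℕ) (u v : Fin 2 → ℕ → U) : Prop :=
  ∀ e, ∀ j ≤ n, u e j ∈ T.M1 ∧ v e j ∈ T.M1 ∧ T.mu (u e j) (v e j) ∈ T.Mp
/-- `K₂`-vertex elements -/
def C2 (n : ℕ) (a b : ℕ → U) : Prop :=
  ∀ j ≤ n + 1, a j ∈ T.L2 ∧ b j ∈ T.L2 ∧ T.mu (a j) (b j) ∈ T.Lp
def C2' (n : ℕ) (a b : ℕ → U) : Prop :=
  ∀ j ≤ n + 1, a j ∈ T.M2 ∧ b j ∈ T.M2 ∧ T.mu (a j) (b j) ∈ T.Mp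

/-! ## symbols of the differentials -/

section symb
variable {lam}

theorem q1_xd {u : U} (h : u ∈ T.L0) (j i : Fin 2) :
    T.q1 (T.x j (T.d i u)) = S.xb j (S.da i (T.p0 ⟨u, h⟩)) := by
  rw [T.q1_of (T.xdm0 j i u h)]; exact T.pxd0 j i u h

theorem q2_xd {u : U} (h : u ∈ T.L1) (j i : Fin 2) :
    T.q2 (T.x j (T.d i u)) = S.xd j (S.dd i (T.q1 u)) := by
  rw [T.q2_of (T.xdm1 j i u h), T.q1_of h]; exact T.pxd1 j i u h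

theorem q1_d {u : U} (h : u ∈ T.Lp) (i : Fin 2) : T.q1 (T.d i u) = S.dc i (T.qp u) := by
  rw [T.q1_of (T.dm i u h), T.qp_of h]; exact T.pd i u h

theorem qp_x {u : U} (h : u ∈ T.L0) (i : Fin 2) : T.qp (T.x i u) = S.xa i (T.p0 ⟨u, h⟩) := by
  rw [T.qp_of (T.xm i u h)]; exact T.px i u h

/-- `D1` lands in `C1` -/
theorem D1_C1 (n : ℕ) {φ : ℕ → U} (hφ : ∀ j, φ j ∈ T.L0) : T.C1 n (T.D1u lam n φ) (T.D1v lam n φ) := by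
  have hm : ∀ (c : K) (j : ℕ), c • φ j ∈ T.L1 := fun c j => T.h01 _ (Submodule.smul_mem _ c (hφ j))
  have hx : ∀ (a b : Fin 2) (j : ℕ), T.x a (T.d b (φ j)) ∈ T.L1 := fun a b j => T.xdm0 a b _ (hφ j)
  intro e j _
  fin_cases e
  · refine ⟨?_, ?_, ?_⟩
    · simp only [D1u, Fin.zero_eta, if_true]; exact sub_mem (hx _ _ _) (hm _ _)
    · simp only [D1v, Fin.zero_eta, if_true]; exact sub_mem (hx _ _ _) (hm _ _)
    · simp only [mu, D1u, D1v, Fin.zero_eta, if_true, map_sub, map_smul, T.xx]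
      rw [sub_sub_sub_cancel_left]
      exact sub_mem (Submodule.smul_mem _ _ (T.xm _ _ (hφ _))) (Submodule.smul_mem _ _ (T.xm _ _ (hφ _)))
  · refine ⟨?_, ?_, ?_⟩
    · simp only [D1u, Fin.mk_one, one_ne_zero, if_false]; exact sub_mem (hx _ _ _) (hm _ _)
    · simp only [D1v, Fin.mk_one, one_ne_zero, if_false]; exact sub_mem (hx _ _ _) (hm _ _)
    · simp only [mu, D1u, D1v, Fin.mk_one, one_ne_zero, if_false, map_sub, map_smul, T.xx]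
      rw [sub_sub_sub_cancel_left]
      exact sub_mem (Submodule.smul_mem _ _ (T.xm _ _ (hφ _))) (Submodule.smul_mem _ _ (T.xm _ _ (hφ _)))

theorem q_D1 (n : ℕ) {φ : ℕ → U} (hφ : ∀ j, φ j ∈ T.L0) (e : Fin 2) (j : ℕ) :
    T.q1 (T.D1u lam n φ e j) = S.xb 0 (zeta S (fun j => T.p0 ⟨φ j, hφ j⟩) e j) ∧
    T.q1 (T.D1v lam n φ e j) = S.xb 1 (zeta S (fun j => T.p0 ⟨φ j, hφ j⟩) e j) ∧
    T.qp (T.mu (T.D1u lam n φ e j) (T.D1v lam n φ e j)) =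
      mm S lam n (fun j => T.p0 ⟨φ j, hφ j⟩) e j := by
  have hm : ∀ (c : K) (j : ℕ), c • φ j ∈ T.L0 := fun c j => Submodule.smul_mem _ c (hφ j)
  have hx : ∀ (a b : Fin 2) (j : ℕ), T.x a (T.d b (φ j)) ∈ T.L1 := fun a b j => T.xdm0 a b _ (hφ j)
  fin_cases e
  · refine ⟨?_, ?_, ?_⟩
    · simp only [D1u, Fin.zero_eta, if_true]
      rw [T.q1_sub (hx _ _ _) (T.h01 _ (hm _ _)), T.q1_low (hm _ _), sub_zero, T.q1_xd (hφ j)]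
      rfl
    · simp only [D1v, Fin.zero_eta, if_true]
      rw [T.q1_sub (hx _ _ _) (T.h01 _ (hm _ _)), T.q1_low (hm _ _), sub_zero, T.q1_xd (hφ j)]
      rfl
    · simp only [mu, D1u, D1v, Fin.zero_eta, if_true, map_sub, map_smul, T.xx]
      rw [sub_sub_sub_cancel_left, ← smul_sub, T.qp_smul _ (sub_mem (T.xm _ _ (hφ _)) (T.xm _ _ (hφ _))),
        T.qp_sub (T.xm _ _ (hφ _)) (T.xm _ _ (hφ _)), T.qp_x (hφ _), T.qp_x (hφ _)]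
      simp [mm]
  · refine ⟨?_, ?_, ?_⟩
    · simp only [D1u, Fin.mk_one, one_ne_zero, if_false]
      rw [T.q1_sub (hx _ _ _) (T.h01 _ (hm _ _)), T.q1_low (hm _ _), sub_zero, T.q1_xd (hφ j)]
      rfl
    · simp only [D1v, Fin.mk_one, one_ne_zero, if_false]
      rw [T.q1_sub (hx _ _ _) (T.h01 _ (hm _ _)), T.q1_low (hm _ _), sub_zero, T.q1_xd (hφ j)]
      rfl
    · simp only [mu, D1u, D1v, Fin.mk_one, one_ne_zero, if_false, map_sub, map_smul, T.xx]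
      rw [sub_sub_sub_cancel_left, ← smul_sub, T.qp_smul _ (sub_mem (T.xm _ _ (hφ _)) (T.xm _ _ (hφ _))),
        T.qp_sub (T.xm _ _ (hφ _)) (T.xm _ _ (hφ _)), T.qp_x (hφ _), T.qp_x (hφ _)]
      simp [mm]

theorem mu_add (u v u' v' : U) : T.mu (u + u') (v + v') = T.mu u v + T.mu u' v' := by
  simp only [mu, map_add]; abel
theorem mu_sub (u v u' v' : U) : T.mu (u - u') (v - v') = T.mu u v - T.mu u' v' := by
  simp only [mu, map_sub]; abel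

theorem mu_D2_zero (n : ℕ) (u v : Fin 2 → ℕ → U) :
    T.mu (T.D2u lam n u v 0) (T.D2v lam n u v 0) = -(lam (n + 1) • T.mu (u 1 0) (v 1 0)) := by
  simp only [mu, D2u, D2v, map_add, map_sub, map_neg, map_smul, T.xx, smul_sub]
  abel

theorem mu_D2_succ (n j : ℕ) (u v : Fin 2 → ℕ → U) :
    T.mu (T.D2u lam n u v (j + 1)) (T.D2v lam n u v (j + 1)) =
      lam (j + 1) • T.mu (u 0 j) (v 0 j) - lam (n - j) • T.mu (u 1 (j + 1)) (v 1 (j + 1)) := by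
  simp only [mu, D2u, D2v, map_add, map_sub, map_smul, T.xx, smul_sub]
  abel

/-- the junk term -/
theorem junk (h0 : lam 0 = 0) {n : ℕ} {M : Submodule K U} {w : ℕ → U} (hw : ∀ j ≤ n, w j ∈ M) {j : ℕ}
    (hj : j ≤ n) : lam (n - j) • w (j + 1) ∈ M := by
  rcases Nat.lt_or_ge j n with h | h
  · exact Submodule.smul_mem _ _ (hw _ h)
  · rw [Nat.sub_eq_zero_of_le h, h0, zero_smul]; exact zero_mem _

theorem q2_eq4 {a b c d : U} (ha : a ∈ T.L1) (hb : b ∈ T.L1) (hc : c ∈ T.L2) (hd : d ∈ T.L2) :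
    T.q2 (a - b + c - d) = T.q2 c - T.q2 d := by
  have h1 : a - b ∈ T.L1 := sub_mem ha hb
  rw [T.q2_sub (add_mem (T.h12 _ h1) hc) hd, T.q2_add (T.h12 _ h1) hc, T.q2_low h1, zero_add]

variable {n : ℕ} {u v : Fin 2 → ℕ → U} {ζ : Fin 2 → ℕ → N01}

/-- symbols of `D2` on the `K₂`-slots -/
theorem q_D2 (hg : g ≠ 0) (h0 : lam 0 = 0) (hC : T.C1 n u v)
    (hu : ∀ e, ∀ j ≤ n, T.q1 (u e j) = S.xb 0 (ζ e j)) (hv : ∀ e, ∀ j ≤ n, T.q1 (v e j) = S.xb 1 (ζ e j)) :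
    ∀ j ≤ n + 1, T.D2u lam n u v j ∈ T.L2 ∧ T.D2v lam n u v j ∈ T.L2 ∧
      T.q2 (T.D2u lam n u v j) = S.xd 0 (ZZ S ζ j) ∧ T.q2 (T.D2v lam n u v j) = S.xd 1 (ZZ S ζ j) := by
  intro j hj
  rcases j with _ | j
  · obtain ⟨a0, b0, _⟩ := hC 0 0 (Nat.zero_le _)
    obtain ⟨a1, b1, _⟩ := hC 1 0 (Nat.zero_le _)
    have m1 : ∀ i, g⁻¹ • T.x i (T.d 1 (u 0 0)) ∈ T.L2 := fun i => Submodule.smul_mem _ _ (T.xdm1 _ _ _ a0)
    have m2 : ∀ i, T.x i (T.d 0 (u 1 0)) ∈ T.L2 := fun i => T.xdm1 _ _ _ a1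
    have k1 : ∀ w, w ∈ T.L1 → ∀ i, T.q2 (-(lam (n + 1) • w) - g⁻¹ • T.x i (T.d 1 (u 0 0)) +
        T.x i (T.d 0 (u 1 0))) = S.xd i (ZZ S ζ 0) := by
      intro w hw i
      have m3 : -(lam (n + 1) • w) ∈ T.L1 := neg_mem (Submodule.smul_mem _ _ hw)
      rw [T.q2_add (sub_mem (T.h12 _ m3) (m1 i)) (m2 i), T.q2_sub (T.h12 _ m3) (m1 i), T.q2_low m3,
        T.q2_smul _ (T.xdm1 _ _ _ a0), T.q2_xd a0, T.q2_xd a1, hu 0 0 (Nat.zero_le _),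
        hu 1 0 (Nat.zero_le _)]
      simp only [ZZ, map_smul, map_sub, S.rb, if_true, one_ne_zero, if_false, smul_sub, smul_smul,
        inv_mul_cancel₀ hg, one_smul, Fin.isValue]
      abel
    refine ⟨?_, ?_, k1 _ a1 0, k1 _ b1 1⟩
    · exact add_mem (sub_mem (T.h12 _ (neg_mem (Submodule.smul_mem _ _ a1))) (m1 0)) (m2 0)
    · exact add_mem (sub_mem (T.h12 _ (neg_mem (Submodule.smul_mem _ _ b1))) (m1 1)) (m2 1)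
  · have hjn : j ≤ n := by omega
    obtain ⟨a0, b0, _⟩ := hC 0 j hjn
    obtain ⟨a1, b1, _⟩ := hC 1 j hjn
    have m1 : ∀ i, g⁻¹ • T.x i (T.d 0 (v 1 j)) ∈ T.L2 := fun i => Submodule.smul_mem _ _ (T.xdm1 _ _ _ b1)
    have m2 : ∀ i, T.x i (T.d 1 (v 0 j)) ∈ T.L2 := fun i => T.xdm1 _ _ _ b0
    have ju : lam (n - j) • u 1 (j + 1) ∈ T.L1 := junk h0 (fun j hj => (hC 1 j hj).1) hjn
    have jv : lam (n - j) • v 1 (j + 1) ∈ T.L1 := junk h0 (fun j hj => (hC 1 j hj).2.1) hjn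
    have k1 : ∀ w w', w ∈ T.L1 → w' ∈ T.L1 → ∀ i, T.q2 (w - w' + g⁻¹ • T.x i (T.d 0 (v 1 j)) -
        T.x i (T.d 1 (v 0 j))) = S.xd i (ZZ S ζ (j + 1)) := by
      intro w w' hw hw' i
      rw [T.q2_eq4 hw hw' (m1 i) (m2 i), T.q2_smul _ (T.xdm1 _ _ _ b1), T.q2_xd b1, T.q2_xd b0,
        hv 0 j hjn, hv 1 j hjn]
      simp only [ZZ, map_smul, map_sub, S.rb, if_true, zero_ne_one, if_false, smul_sub, smul_smul,
        inv_mul_cancel₀ hg, one_smul, Fin.isValue]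
    refine ⟨?_, ?_, k1 _ _ (Submodule.smul_mem _ _ a0) ju 0, k1 _ _ (Submodule.smul_mem _ _ b0) jv 1⟩
    · exact sub_mem (add_mem (T.h12 _ (sub_mem (Submodule.smul_mem _ _ a0) ju)) (m1 0)) (m2 0)
    · exact sub_mem (add_mem (T.h12 _ (sub_mem (Submodule.smul_mem _ _ b0) jv)) (m1 1)) (m2 1)

theorem qp_D2 (h0 : lam 0 = 0) (hC : T.C1 n u v) :
    ∀ j ≤ n + 1, T.mu (T.D2u lam n u v j) (T.D2v lam n u v j) ∈ T.Lp ∧
      T.qp (T.mu (T.D2u lam n u v j) (T.D2v lam n u v j)) =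
        MM lam n (fun e j => T.qp (T.mu (u e j) (v e j))) j := by
  intro j hj
  rcases j with _ | j
  · obtain ⟨_, _, a1⟩ := hC 1 0 (Nat.zero_le _)
    rw [T.mu_D2_zero]
    refine ⟨neg_mem (Submodule.smul_mem _ _ a1), ?_⟩
    rw [← neg_smul, T.qp_smul _ a1]
    simp [MM, h0]
  · have hjn : j ≤ n := by omega
    obtain ⟨_, _, a0⟩ := hC 0 j hjn
    have ju : lam (n - j) • T.mu (u 1 (j + 1)) (v 1 (j + 1)) ∈ T.Lp :=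
      junk (w := fun j => T.mu (u 1 j) (v 1 j)) h0 (fun j hj => (hC 1 j hj).2.2) hjn
    rw [T.mu_D2_succ]
    refine ⟨sub_mem (Submodule.smul_mem _ _ a0) ju, ?_⟩
    rw [T.qp_sub (Submodule.smul_mem _ _ a0) ju, T.qp_smul _ a0]
    simp only [MM, Nat.add_sub_cancel, Nat.succ_sub_succ_eq_sub, Nat.sub_zero]
    rcases Nat.lt_or_ge j n with h | h
    · rw [T.qp_smul _ (hC 1 (j + 1) h).2.2]
    · rw [Nat.sub_eq_zero_of_le h, h0, zero_smul, zero_smul, T.qp_of (zero_mem _)]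
      congr 1
      exact map_zero _

theorem q_D2p (hg : g ≠ 0) (hC : T.C1 n u v)
    (hu : ∀ e, ∀ j ≤ n, T.q1 (u e j) = S.xb 0 (ζ e j)) (hv : ∀ e, ∀ j ≤ n, T.q1 (v e j) = S.xb 1 (ζ e j))
    (e : Fin 2) {j : ℕ} (hj : j < n) :
    T.D2p lam n u v e j ∈ T.L1 ∧ T.q1 (T.D2p lam n u v e j) =
      psi S lam n ζ (fun e j => T.qp (T.mu (u e j) (v e j))) e j := by
  obtain ⟨a0, b0, c0⟩ := hC 0 j hj.le
  obtain ⟨a1, b1, _⟩ := hC 1 j hj.le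
  obtain ⟨a0', _, _⟩ := hC 0 (j + 1) hj
  obtain ⟨a1', _, _⟩ := hC 1 (j + 1) hj
  fin_cases e
  · have m1 : -(g⁻¹ • u 0 (j + 1)) ∈ T.L1 := neg_mem (Submodule.smul_mem _ _ a0')
    have m2 : T.d 0 (T.mu (u 0 j) (v 0 j)) ∈ T.L1 := T.dm _ _ c0
    simp only [D2p, Fin.zero_eta, if_true]
    refine ⟨add_mem (add_mem m1 b0) (Submodule.smul_mem _ _ m2), ?_⟩
    rw [T.q1_add (add_mem m1 b0) (Submodule.smul_mem _ _ m2), T.q1_add m1 b0, T.q1_smul _ m2,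
      T.q1_d c0, T.q1_neg (Submodule.smul_mem _ _ a0'), T.q1_smul _ a0', hu 0 _ hj, hv 0 _ hj.le]
    simp [psi]
  · have m1 : -(u 1 (j + 1)) ∈ T.L1 := neg_mem a1'
    have m2 : T.d 1 (T.mu (u 0 j) (v 0 j)) ∈ T.L1 := T.dm _ _ c0
    have m3 : g⁻¹ • v 1 j ∈ T.L1 := Submodule.smul_mem _ _ b1
    simp only [D2p, Fin.mk_one, one_ne_zero, if_false]
    refine ⟨add_mem (add_mem m1 m3) (Submodule.smul_mem _ _ m2), ?_⟩
    rw [T.q1_add (add_mem m1 m3) (Submodule.smul_mem _ _ m2), T.q1_add m1 m3, T.q1_smul _ m2,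
      T.q1_d c0, T.q1_neg a1', T.q1_smul _ b1, hu 1 _ hj, hv 1 _ hj.le]
    simp [psi]

/-! ## exactness in degrees `0`, `1` -/

theorem exact0 (n : ℕ) {φ : ℕ → U} (hφ : ∀ j, φ j ∈ T.L0)
    (h : T.C1' n (T.D1u lam n φ) (T.D1v lam n φ)) : ∀ j ≤ n, φ j ∈ T.M0 := by
  intro j hj
  rw [T.mem_M0]
  refine ⟨hφ j, H0 S n (fun j => T.p0 ⟨φ j, hφ j⟩) ?_ j hj⟩
  intro e j hj
  obtain ⟨h1, h2, h3⟩ := h e j hj
  obtain ⟨s1, s2, s3⟩ := T.q_D1 (lam := lam) n hφ e j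
  have e1 := (T.M1_iff.1 h1).2
  have e2 := (T.M1_iff.1 h2).2
  rw [s2] at e2
  exact T.xbi _ e2

theorem xdi (z : N12) (h : S.xd 1 z = 0) : z = 0 := by
  obtain ⟨w, h1, h2⟩ := S.xk 0 z (by rw [h, map_zero])
  rw [S.xc_inj w h1.symm, map_zero] at h2
  exact h2

theorem exact1 (hg : g ≠ 0) (n : ℕ) (hlam : ∀ m, 0 < m → m ≤ n + 1 → lam m ≠ 0) (h0 : lam 0 = 0)
    {u v : Fin 2 → ℕ → U} (hC : T.C1 n u v)
    (h2 : T.C2' n (T.D2u lam n u v) (T.D2v lam n u v))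
    (hp : ∀ e, ∀ j < n, T.D2p lam n u v e j ∈ T.M1) :
    ∃ φ : ℕ → U, (∀ j, φ j ∈ T.L0) ∧
      T.C1' n (fun e j => u e j - T.D1u lam n φ e j) (fun e j => v e j - T.D1v lam n φ e j) := by
  have key : ∀ e j, ∃ z : N01, j ≤ n → T.q1 (u e j) = S.xb 0 z ∧ T.q1 (v e j) = S.xb 1 z := by
    intro e j
    by_cases hj : j ≤ n
    · obtain ⟨a, b, c⟩ := hC e j hj
      obtain ⟨z, hz1, hz2⟩ := T.k1 _ _ a b c
      exact ⟨z, fun _ => ⟨by rw [T.q1_of a, hz1], by rw [T.q1_of b, hz2]⟩⟩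
    · exact ⟨0, fun h => absurd h hj⟩
  choose ζ hζ using key
  have hu : ∀ e, ∀ j ≤ n, T.q1 (u e j) = S.xb 0 (ζ e j) := fun e j hj => (hζ e j hj).1
  have hv : ∀ e, ∀ j ≤ n, T.q1 (v e j) = S.xb 1 (ζ e j) := fun e j hj => (hζ e j hj).2
  obtain ⟨φ', hφ1, hφ2⟩ := H1 S hg n hlam h0 ζ (fun e j => T.qp (T.mu (u e j) (v e j)))
    (fun j hj => by
      obtain ⟨_, _, _, h4⟩ := T.q_D2 hg h0 hC hu hv j hj
      rw [(T.M2_iff.1 (h2 j hj).2.1).2] at h4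
      exact xdi (S := S) _ h4.symm)
    (fun j hj => by
      rw [← (T.qp_D2 h0 hC j hj).2]
      exact (T.Mp_iff.1 (h2 j hj).2.2).2)
    (fun e j hj => by
      rw [← (T.q_D2p hg hC hu hv e hj).2]
      exact (T.M1_iff.1 (hp e j hj)).2)
  choose ψ hψ using fun j => T.s0 (φ' j)
  refine ⟨fun j => (ψ j : U), fun j => (ψ j).2, ?_⟩
  intro e j hj
  have hφ : ∀ j, (ψ j : U) ∈ T.L0 := fun j => (ψ j).2
  obtain ⟨a, b, c⟩ := hC e j hj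
  obtain ⟨a', b', c'⟩ := T.D1_C1 (lam := lam) n hφ e j hj
  obtain ⟨s1, s2, s3⟩ := T.q_D1 (lam := lam) n hφ e j
  have hφ' : (fun j => T.p0 ⟨(ψ j : U), hφ j⟩) = φ' := funext fun j => hψ j
  rw [hφ'] at s1 s2 s3
  refine ⟨T.M1_iff.2 ⟨sub_mem a a', ?_⟩, T.M1_iff.2 ⟨sub_mem b b', ?_⟩, T.Mp_iff.2 ⟨?_, ?_⟩⟩
  · rw [T.q1_sub a a', s1, hu e j hj, hφ1 e j hj, sub_self]
  · rw [T.q1_sub b b', s2, hv e j hj, hφ1 e j hj, sub_self]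
  · rw [T.mu_sub]; exact sub_mem c c'
  · rw [T.mu_sub, T.qp_sub c c', s3]
    exact sub_eq_zero.2 (hφ2 e j hj)

/-! ## degrees `2`, `3` -/

variable {a b : ℕ → U} {ψ : Fin 2 → ℕ → U} {Z : ℕ → N12}

theorem q_D3 (h0 : lam 0 = 0) (hC : T.C2 n a b) (hψ : ∀ e, ∀ j < n, ψ e j ∈ T.L1)
    (ha : ∀ j ≤ n + 1, T.q2 (a j) = S.xd 0 (Z j)) (hb : ∀ j ≤ n + 1, T.q2 (b j) = S.xd 1 (Z j)) :
    ∀ j ≤ n, T.D3 lam n a b ψ j ∈ T.L2 ∧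
      T.q2 (T.D3 lam n a b ψ j) = tau S Z (fun e j => T.q1 (ψ e j)) j := by
  have base : ∀ j ≤ n, T.D3a lam n a b ψ j ∈ T.L2 ∧
      T.q2 (T.D3a lam n a b ψ j) = S.xd 0 (Z (j + 1)) - S.xd 1 (Z j) := by
    intro j hj
    obtain ⟨a1, _, _⟩ := hC (j + 1) (by omega)
    obtain ⟨_, b2, c2⟩ := hC j (by omega)
    obtain ⟨_, _, c3⟩ := hC (n + 1) le_rfl
    have m1 : (lam (n + 1 - j))⁻¹ • T.d 0 (T.mu (a j) (b j)) ∈ T.L1 :=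
      Submodule.smul_mem _ _ (T.dm _ _ c2)
    have m2 : (if j = n then (lam (n + 1))⁻¹ • T.d 1 (T.mu (a (n + 1)) (b (n + 1))) else 0) ∈ T.L1 := by
      split_ifs
      · exact Submodule.smul_mem _ _ (T.dm _ _ c3)
      · exact zero_mem _
    have m3 : lam (n - j) • ψ 1 j ∈ T.L1 := by
      rcases Nat.lt_or_ge j n with h | h
      · exact Submodule.smul_mem _ _ (hψ 1 j h)
      · rw [Nat.sub_eq_zero_of_le h, h0, zero_smul]; exact zero_mem _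
    have m0 : a (j + 1) - b j ∈ T.L2 := sub_mem a1 b2
    unfold D3a
    refine ⟨sub_mem (sub_mem (sub_mem m0 (T.h12 _ m1)) (T.h12 _ m2)) (T.h12 _ m3), ?_⟩
    rw [T.q2_sub (sub_mem (sub_mem m0 (T.h12 _ m1)) (T.h12 _ m2)) (T.h12 _ m3),
      T.q2_sub (sub_mem m0 (T.h12 _ m1)) (T.h12 _ m2), T.q2_sub m0 (T.h12 _ m1), T.q2_low m1,
      T.q2_low m2, T.q2_low m3, T.q2_sub a1 b2, ha _ (by omega), hb _ (by omega), sub_zero, sub_zero,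
      sub_zero]
  intro j hj
  rcases j with _ | j
  · exact base 0 hj
  · obtain ⟨h1, h2⟩ := base (j + 1) hj
    have p0 := hψ 0 j hj
    have p1 := hψ 1 j hj
    have e1 : T.D3 lam n a b ψ (j + 1) = T.D3a lam n a b ψ (j + 1) + lam (j + 1) • ψ 0 j
        - T.x 1 (T.d 1 (ψ 0 j)) + T.x 1 (T.d 0 (ψ 1 j)) := by
      simp only [D3]
      rw [T.xd0 1 (ψ 0 j), T.xd1 1 0 (ψ 1 j) (by decide), sub_smul, one_smul]
      abel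
    have m1 : lam (j + 1) • ψ 0 j ∈ T.L1 := Submodule.smul_mem _ _ p0
    have m2 : T.x 1 (T.d 1 (ψ 0 j)) ∈ T.L2 := T.xdm1 _ _ _ p0
    have m3 : T.x 1 (T.d 0 (ψ 1 j)) ∈ T.L2 := T.xdm1 _ _ _ p1
    rw [e1]
    refine ⟨add_mem (sub_mem (add_mem h1 (T.h12 _ m1)) m2) m3, ?_⟩
    rw [T.q2_add (sub_mem (add_mem h1 (T.h12 _ m1)) m2) m3, T.q2_sub (add_mem h1 (T.h12 _ m1)) m2,
      T.q2_add h1 (T.h12 _ m1), T.q2_low m1, add_zero, h2, T.q2_xd p0, T.q2_xd p1]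
    rfl

theorem exact2 (hg : g ≠ 0) (n : ℕ) (hlam : ∀ m, 0 < m → m ≤ n + 1 → lam m ≠ 0) (h0 : lam 0 = 0)
    {a b : ℕ → U} {ψ : Fin 2 → ℕ → U} (hC : T.C2 n a b) (hψ : ∀ e, ∀ j < n, ψ e j ∈ T.L1)
    (h3 : ∀ j ≤ n, T.D3 lam n a b ψ j ∈ T.M2) :
    ∃ u v : Fin 2 → ℕ → U, (∀ e j, u e j ∈ T.L1 ∧ v e j ∈ T.L1 ∧ T.mu (u e j) (v e j) ∈ T.Lp) ∧
      T.C2' n (fun j => a j - T.D2u lam n u v j) (fun j => b j - T.D2v lam n u v j) ∧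
      ∀ e, ∀ j < n, ψ e j - T.D2p lam n u v e j ∈ T.M1 := by
  have key : ∀ j, ∃ z : N12, j ≤ n + 1 → T.q2 (a j) = S.xd 0 z ∧ T.q2 (b j) = S.xd 1 z := by
    intro j
    by_cases hj : j ≤ n + 1
    · obtain ⟨a, b, c⟩ := hC j hj
      obtain ⟨z, hz1, hz2⟩ := T.k2 _ _ a b c
      exact ⟨z, fun _ => ⟨by rw [T.q2_of a, hz1], by rw [T.q2_of b, hz2]⟩⟩
    · exact ⟨0, fun h => absurd h hj⟩
  choose Z hZ using key
  have ha : ∀ j ≤ n + 1, T.q2 (a j) = S.xd 0 (Z j) := fun j hj => (hZ j hj).1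
  have hb : ∀ j ≤ n + 1, T.q2 (b j) = S.xd 1 (Z j) := fun j hj => (hZ j hj).2
  obtain ⟨ζ, m, g1, g2, g3⟩ := H2 S hg n hlam h0 Z (fun j => T.qp (T.mu (a j) (b j)))
    (fun e j => T.q1 (ψ e j)) (fun j hj => by
      rw [← (T.q_D3 h0 hC hψ ha hb j hj).2]
      exact (T.M2_iff.1 (h3 j hj)).2)
  choose u v hu hv hm su sv sm using fun e j => T.l1 (ζ e j) (m e j)
  have hC1 : ∀ e j, u e j ∈ T.L1 ∧ v e j ∈ T.L1 ∧ T.mu (u e j) (v e j) ∈ T.Lp :=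
    fun e j => ⟨hu e j, hv e j, hm e j⟩
  have hC1' : T.C1 n u v := fun e j _ => hC1 e j
  have su' : ∀ e, ∀ j ≤ n, T.q1 (u e j) = S.xb 0 (ζ e j) := fun e j _ => by rw [T.q1_of (hu e j), su]
  have sv' : ∀ e, ∀ j ≤ n, T.q1 (v e j) = S.xb 1 (ζ e j) := fun e j _ => by rw [T.q1_of (hv e j), sv]
  have sm' : (fun e j => T.qp (T.mu (u e j) (v e j))) = m := by
    funext e j
    exact (T.qp_of (hm e j)).trans (sm e j)
  refine ⟨u, v, hC1, ?_, ?_⟩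
  · intro j hj
    obtain ⟨a1, b1, c1⟩ := hC j hj
    obtain ⟨t1, t2, t3, t4⟩ := T.q_D2 hg h0 hC1' su' sv' j hj
    obtain ⟨t5, t6⟩ := T.qp_D2 (lam := lam) h0 hC1' j hj
    rw [sm'] at t6
    refine ⟨T.M2_iff.2 ⟨sub_mem a1 t1, ?_⟩, T.M2_iff.2 ⟨sub_mem b1 t2, ?_⟩, T.Mp_iff.2 ⟨?_, ?_⟩⟩
    · rw [T.q2_sub a1 t1, t3, ha j hj, g1 j hj, sub_self]
    · rw [T.q2_sub b1 t2, t4, hb j hj, g1 j hj, sub_self]
    · rw [T.mu_sub]; exact sub_mem c1 t5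
    · rw [T.mu_sub, T.qp_sub c1 t5, t6]
      exact sub_eq_zero.2 (g2 j hj)
  · intro e j hj
    obtain ⟨t1, t2⟩ := T.q_D2p (lam := lam) hg hC1' su' sv' e hj
    rw [sm'] at t2
    refine T.M1_iff.2 ⟨sub_mem (hψ e j hj) t1, ?_⟩
    rw [T.q1_sub (hψ e j hj) t1, t2]
    exact sub_eq_zero.2 (g3 e j hj)

theorem exact3 (n : ℕ) (h0 : lam 0 = 0) {τ : ℕ → U} (hτ : ∀ j ≤ n, τ j ∈ T.L2) :
    ∃ (a b : ℕ → U) (ψ : Fin 2 → ℕ → U),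
      (∀ j, a j ∈ T.L2 ∧ b j ∈ T.L2 ∧ T.mu (a j) (b j) ∈ T.Lp) ∧ (∀ e j, ψ e j ∈ T.L1) ∧
      ∀ j ≤ n, τ j - T.D3 lam n a b ψ j ∈ T.M2 := by
  obtain ⟨Z, ψ', hZ⟩ := H3 S n (fun j => T.q2 (τ j))
  choose a b ha hb hm sa sb sm using fun j => T.l2 (Z j) 0
  choose ψ hψ using fun e j => T.s1 (ψ' e j)
  have hC : ∀ j, a j ∈ T.L2 ∧ b j ∈ T.L2 ∧ T.mu (a j) (b j) ∈ T.Lp := fun j => ⟨ha j, hb j, hm j⟩
  have hψ2 : ∀ e j, (ψ e j : U) ∈ T.L1 := fun e j => (ψ e j).2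
  have hψ3 : (fun e j => T.q1 (ψ e j : U)) = ψ' := by
    funext e j
    rw [T.q1_of (hψ2 e j)]
    exact hψ e j
  refine ⟨a, b, fun e j => (ψ e j : U), hC, hψ2, ?_⟩
  intro j hj
  obtain ⟨t1, t2⟩ := T.q_D3 (lam := lam) h0 (fun j _ => hC j) (fun e j _ => hψ2 e j)
    (fun j _ => by rw [T.q2_of (ha j), sa]) (fun j _ => by rw [T.q2_of (hb j), sb]) j hj
  rw [hψ3] at t2
  refine T.M2_iff.2 ⟨sub_mem (hτ j hj) t1, ?_⟩
  rw [T.q2_sub (hτ j hj) t1, t2, ← hZ j hj, sub_self]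

end symb

end Dict

end Crest.Agent.R186.LC369
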