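import Crest.Agent.R186.KL_355
import Crest.Agent.R186.LCT_369

/-!
# Row 186, S0281 base (helper369): transposition of the maps `KN.D1, D2, D3` (`s = 0`)

`b0 b1 b2` : the left `Op K`-linear maps with given values on the units, `U` an `Op K`-module;
`A1 : b0 φ ∘ D1 = b1 (D1u φ) (D1v φ)`, `A2 : b1 u v ∘ D2 = b2 (D2u ..) (D2v ..) (D2p ..)`,
`A3 : b2 a b ψ ∘ D3 = b0 (D3 a b ψ)`.
-/

set_option autoImplicit false

namespace Crest.Agent.R186.LC369

open Crest.Agent.R186.B281 Crest.Agent.R186.B281.KN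

variable {K : Type} [Field K] {U : Type} [AddCommGroup U] [Module (Op K) U]

section builders

variable (n : ℕ)

/-- `x ↦ ∑ x_j • φ_j` -/
noncomputable def b0 (φ : ℕ → U) : (Fin (n + 1) → Op K) →ₗ[Op K] U where
  toFun x := ∑ j : Fin (n + 1), x j • φ j
  map_add' x y := by simp only [Pi.add_apply, add_smul, Finset.sum_add_distrib]
  map_smul' T x := by
    simp only [Pi.smul_apply, smul_eq_mul, mul_smul, RingHom.id_apply, Finset.smul_sum]

/-- the `K₁`-slots -/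
noncomputable def b1 (u v : Fin 2 → ℕ → U) : (Fin 2 → Fin (n + 1) → Fin 2 → Op K) →ₗ[Op K] U where
  toFun w := ∑ j : Fin (n + 1), (w 0 j 0 • u 0 j + w 0 j 1 • v 0 j) +
    ∑ j : Fin (n + 1), (w 1 j 0 • u 1 j + w 1 j 1 • v 1 j)
  map_add' x y := by
    simp only [Pi.add_apply, add_smul, Finset.sum_add_distrib]
    abel
  map_smul' T x := by
    simp only [Pi.smul_apply, smul_eq_mul, mul_smul, RingHom.id_apply, Finset.smul_sum, smul_add]

/-- the `K₂`-slots and the `O(-1)`-slots -/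
noncomputable def b2 (a b : ℕ → U) (ψ : Fin 2 → ℕ → U) :
    ((Fin (n + 2) → Fin 2 → Op K) × (Fin 2 → Fin n → Op K)) →ₗ[Op K] U where
  toFun p := ∑ j : Fin (n + 2), (p.1 j 0 • a j + p.1 j 1 • b j) +
    (∑ j : Fin n, p.2 0 j • ψ 0 j + ∑ j : Fin n, p.2 1 j • ψ 1 j)
  map_add' x y := by
    simp only [Prod.fst_add, Prod.snd_add, Pi.add_apply, add_smul, Finset.sum_add_distrib]
    abel
  map_smul' T x := by
    simp only [Prod.smul_fst, Prod.smul_snd, Pi.smul_apply, smul_eq_mul, mul_smul,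
      RingHom.id_apply, Finset.smul_sum, smul_add]

theorem b0_apply (φ : ℕ → U) (x : Fin (n + 1) → Op K) :
    b0 n φ x = ∑ j ∈ Finset.range (n + 1), ez x j • φ j := by
  rw [← Fin.sum_univ_eq_sum_range (fun j => ez x j • φ j)]
  simp only [ez_fin]
  rfl

theorem b1_apply (u v : Fin 2 → ℕ → U) (w : Fin 2 → Fin (n + 1) → Fin 2 → Op K) :
    b1 n u v w = ∑ j ∈ Finset.range (n + 1), (ez2 w 0 j 0 • u 0 j + ez2 w 0 j 1 • v 0 j) +
      ∑ j ∈ Finset.range (n + 1), (ez2 w 1 j 0 • u 1 j + ez2 w 1 j 1 • v 1 j) := by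
  rw [← Fin.sum_univ_eq_sum_range (fun j => ez2 w 0 j 0 • u 0 j + ez2 w 0 j 1 • v 0 j),
    ← Fin.sum_univ_eq_sum_range (fun j => ez2 w 1 j 0 • u 1 j + ez2 w 1 j 1 • v 1 j)]
  simp only [ez2, ez_fin]
  rfl

theorem b2_apply (a b : ℕ → U) (ψ : Fin 2 → ℕ → U)
    (p : (Fin (n + 2) → Fin 2 → Op K) × (Fin 2 → Fin n → Op K)) :
    b2 n a b ψ p = ∑ j ∈ Finset.range (n + 2), (ez p.1 j 0 • a j + ez p.1 j 1 • b j) +
      (∑ j ∈ Finset.range n, ez2 p.2 0 j • ψ 0 j + ∑ j ∈ Finset.range n, ez2 p.2 1 j • ψ 1 j) := by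
  rw [← Fin.sum_univ_eq_sum_range (fun j => ez p.1 j 0 • a j + ez p.1 j 1 • b j),
    ← Fin.sum_univ_eq_sum_range (fun j => ez2 p.2 0 j • ψ 0 j),
    ← Fin.sum_univ_eq_sum_range (fun j => ez2 p.2 1 j • ψ 1 j)]
  simp only [ez2, ez_fin]
  rfl

end builders

section sums

variable {g : K} {M : Type*} [AddCommGroup M]

theorem sum_sh (n : ℕ) (F G : ℕ → M) (h0 : F 0 = 0) (h : ∀ j, j < n → F (j + 1) = G j)
    (hn : G n = 0) : ∑ j ∈ Finset.range (n + 1), F j = ∑ j ∈ Finset.range (n + 1), G j := by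
  rw [Finset.sum_range_succ', h0, add_zero, Finset.sum_range_succ, hn, add_zero]
  exact Finset.sum_congr rfl fun j hj => h j (Finset.mem_range.1 hj)

end sums

section transp

variable {g : K} {N00 N01 N02 N10 N11 N12 N22 : Type*}
    [AddCommGroup N00] [Module K N00] [AddCommGroup N01] [Module K N01]
    [AddCommGroup N02] [Module K N02] [AddCommGroup N10] [Module K N10]
    [AddCommGroup N11] [Module K N11] [AddCommGroup N12] [Module K N12]
    [AddCommGroup N22] [Module K N22]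
    {S : Sq K g N00 N01 N02 N10 N11 N12 N22} [Module K U] [IsScalarTower K (Op K) U]
    (T : Dict S U)

/-- `T` is literal -/
structure Lit (T : Dict S U) : Prop where
  x : ∀ i u, T.x i u = (X i : Op K) • u
  d : ∀ i u, T.d i u = D g i • u

/-- the constants -/
noncomputable def cl' (g : K) (m : ℕ) : K := cq g (m : ℤ)

theorem cl'_zero : cl' g 0 = 0 := by simp [cl', cq_zero]

theorem ez_sup {M : Type*} [Zero M] {m : ℕ} (x : Fin m → M) : ez x m = 0 := ez_of_ge x le_rfl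

theorem sA (c : K) (A : Op K) (u : U) : (c • A) • u = A • (c • u) := by
  rw [smul_assoc, ← algebraMap_smul (Op K) c (A • u), ← algebraMap_smul (Op K) c u, smul_smul,
    smul_smul, Algebra.commutes]

theorem sB (c : K) (A : Op K) (u : U) : A • (c • u) = c • (A • u) := by
  rw [← sA, smul_assoc]

theorem A1 (hT : Lit T) (n : ℕ) (φ : ℕ → U) :
    b0 n φ ∘ₗ D1 g n = b1 n (T.D1u (cl' g) n φ) (T.D1v (cl' g) n φ) := by
  refine LinearMap.ext fun v => ?_
  have hD : ez (D1 g n v) = fun j => if j < n + 1 then d1f g n (ez2 v) j else 0 := by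
    funext j
    unfold ez
    split_ifs
    · rfl
    · rfl
  rw [LinearMap.comp_apply, b0_apply, b1_apply, hD]
  set w := ez2 v with hw
  have h1 : w 1 (n + 1) = 0 := ez_sup _
  have e1 : ∀ j, (cc (w 0 j) * D g 0 + cc (w 1 j) * D g 1) • φ j =
      w 0 j 0 • (X 0 : Op K) • D g 0 • φ j + w 0 j 1 • (X 1 : Op K) • D g 0 • φ j +
      (w 1 j 0 • (X 0 : Op K) • D g 1 • φ j + w 1 j 1 • (X 1 : Op K) • D g 1 • φ j) := by
    intro j
    simp only [cc, add_mul, add_smul, mul_smul]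
  have s1 := sum_sh n (fun j => (cl' g (n + 1 - j) • sh (w 0) j 1) • φ j)
    (fun j => w 0 j 1 • (cl' g (n - j) • φ (j + 1)))
    (by simp) (fun j hj => by
      simp only [sh_succ, Nat.add_sub_add_right]
      exact sA _ _ _)
    (by simp [cl'_zero])
  have s2 := sum_sh n (fun j => w 1 j 0 • (cl' g j • φ (j - 1)))
    (fun j => (cl' g (j + 1) • w 1 (j + 1) 0) • φ j)
    (by simp [cl'_zero]) (fun j hj => by
      simp only [Nat.add_sub_cancel]
      exact (sA _ _ _).symm)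
    (by simp [h1])
  have key : ∀ j ∈ Finset.range (n + 1), (if j < n + 1 then d1f g n w j else 0) • φ j =
      (w 0 j 0 • T.D1u (cl' g) n φ 0 j + w 0 j 1 • T.D1v (cl' g) n φ 0 j) +
      (w 1 j 0 • T.D1u (cl' g) n φ 1 j + w 1 j 1 • T.D1v (cl' g) n φ 1 j) +
      (w 0 j 1 • (cl' g (n - j) • φ (j + 1)) - (cl' g (n + 1 - j) • sh (w 0) j 1) • φ j) +
      (w 1 j 0 • (cl' g j • φ (j - 1)) - (cl' g (j + 1) • w 1 (j + 1) 0) • φ j) := by
    intro j hj
    rw [if_pos (Finset.mem_range.1 hj)]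
    simp only [d1f, Dict.D1u, Dict.D1v, sub_smul, e1, hT.x, hT.d, if_true, if_false, one_ne_zero,
      smul_sub]
    rw [show cq g ((n - j : ℕ) : ℤ) = cl' g (n - j) from rfl,
      show cq g ((n + 1 - j : ℕ) : ℤ) = cl' g (n + 1 - j) from rfl,
      show cq g ((j : ℕ) : ℤ) = cl' g j from rfl,
      show cq g ((j + 1 : ℕ) : ℤ) = cl' g (j + 1) from rfl, sA (cl' g (n - j)) (w 0 j 0),
      sA (cl' g j) (w 1 j 1)]
    abel
  rw [Finset.sum_congr rfl key, Finset.sum_add_distrib, Finset.sum_add_distrib,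
    Finset.sum_add_distrib, Finset.sum_sub_distrib, Finset.sum_sub_distrib]
  rw [s1, s2]
  abel

theorem sum_sh' {M : Type*} [AddCommGroup M] (n : ℕ) (F G : ℕ → M)
    (h : ∀ j, j < n → F (j + 1) = G j) (hn : G n = 0) :
    ∑ j ∈ Finset.range (n + 1), F j = F 0 + ∑ j ∈ Finset.range (n + 1), G j := by
  rw [Finset.sum_range_succ', Finset.sum_range_succ G, hn, add_zero, add_comm]
  congr 1
  exact Finset.sum_congr rfl fun j hj => h j (Finset.mem_range.1 hj)

omit [Module K U] [IsScalarTower K (Op K) U] in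
theorem ccD (v : Fin 2 → Op K) (A : Op K) (x : U) : (cc v * A) • x =
    v 0 • (X 0 : Op K) • A • x + v 1 • (X 1 : Op K) • A • x := by
  simp only [cc, add_mul, add_smul, mul_smul]

theorem A2w (hT : Lit T) (n : ℕ) (u v : Fin 2 → ℕ → U) (w : ℕ → Fin 2 → Op K) :
    ∑ j ∈ Finset.range (n + 1), (d2w0 g w j 0 • u 0 j + d2w0 g w j 1 • v 0 j) +
      ∑ j ∈ Finset.range (n + 1), (d2w1 g n w j 0 • u 1 j + d2w1 g n w j 1 • v 1 j) =
    ∑ j ∈ Finset.range (n + 2), (w j 0 • T.D2u (cl' g) n u v j + w j 1 • T.D2v (cl' g) n u v j) := by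
  have s1 := sum_sh' n (fun j => cl' g (n + 1 - j) • (w j 0 • u 1 j + w j 1 • v 1 j))
    (fun j => cl' g (n - j) • (w (j + 1) 0 • u 1 (j + 1) + w (j + 1) 1 • v 1 (j + 1)))
    (fun j hj => by simp only [Nat.add_sub_add_right]) (by simp [cl'_zero])
  have key : ∀ j ∈ Finset.range (n + 1),
      (d2w0 g w j 0 • u 0 j + d2w0 g w j 1 • v 0 j) +
        (d2w1 g n w j 0 • u 1 j + d2w1 g n w j 1 • v 1 j) =
      (w (j + 1) 0 • T.D2u (cl' g) n u v (j + 1) + w (j + 1) 1 • T.D2v (cl' g) n u v (j + 1)) +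
      cl' g (n - j) • (w (j + 1) 0 • u 1 (j + 1) + w (j + 1) 1 • v 1 (j + 1)) -
      cl' g (n + 1 - j) • (w j 0 • u 1 j + w j 1 • v 1 j) +
      (if j = 0 then -(g⁻¹ • (cc (w 0) * D g 1) • u 0 0) + (cc (w 0) * D g 0) • u 1 0 else 0) := by
    intro j hj
    have q1 : d2w0 g w j 0 = cl' g (j + 1) • w (j + 1) 0 -
        (if j = 0 then g⁻¹ • (cc (w 0) * D g 1) else 0) := by
      unfold d2w0
      split_ifs
      · exact sub_zero _
      · exact sub_zero _
    have q2 : d2w0 g w j 1 = cl' g (j + 1) • w (j + 1) 1 - cc (w (j + 1)) * D g 1 := by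
      unfold d2w0
      split_ifs
      · show _ - g⁻¹ • (0 : Op K) - _ = _
        rw [smul_zero, sub_zero]
        rfl
      · show _ - (0 : Op K) - _ = _
        rw [sub_zero]
        rfl
    have q3 : d2w1 g n w j 0 = -(cl' g (n + 1 - j) • w j 0) +
        (if j = 0 then cc (w 0) * D g 0 else 0) := by
      unfold d2w1
      split_ifs
      · show _ + _ + g⁻¹ • (0 : Op K) = _
        rw [smul_zero, add_zero]
        rfl
      · show _ + _ + g⁻¹ • (0 : Op K) = _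
        rw [smul_zero, add_zero]
        rfl
    have q4 : d2w1 g n w j 1 = -(cl' g (n + 1 - j) • w j 1) +
        g⁻¹ • (cc (w (j + 1)) * D g 0) := by
      unfold d2w1
      split_ifs
      · show _ + (0 : Op K) + _ = _
        rw [add_zero]
        rfl
      · show _ + (0 : Op K) + _ = _
        rw [add_zero]
        rfl
    rw [q1, q2, q3, q4]
    simp only [Dict.D2u, Dict.D2v, hT.x, hT.d]
    by_cases hj0 : j = 0
    · subst hj0
      simp only [if_true, sub_smul, add_smul, neg_smul, smul_add, smul_sub,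
        smul_assoc, ccD, sB]
      abel
    · simp only [hj0, if_false, sub_smul, add_smul, neg_smul, smul_add, smul_sub,
        smul_assoc, ccD, sB, sub_zero, add_zero]
      abel
  rw [← Finset.sum_add_distrib, Finset.sum_congr rfl key, Finset.sum_add_distrib,
    Finset.sum_sub_distrib, Finset.sum_add_distrib, s1, Finset.sum_range_succ' _ (n + 1),
    Finset.sum_ite_eq' (Finset.range (n + 1)) 0, if_pos (Finset.mem_range.2 (Nat.succ_pos n))]
  simp only [Dict.D2u, Dict.D2v, hT.x, hT.d, ccD, smul_add, smul_sub, smul_neg, sB,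
    Finset.sum_add_distrib, Finset.sum_sub_distrib, Nat.sub_zero]
  abel

theorem A2h (hT : Lit T) (n : ℕ) (u v : Fin 2 → ℕ → U) (h : Fin 2 → ℕ → Op K) (h0 : h 0 n = 0)
    (h1 : h 1 n = 0) :
    ∑ j ∈ Finset.range (n + 1), (d2h0 g n h j 0 • u 0 j + d2h0 g n h j 1 • v 0 j) +
      ∑ j ∈ Finset.range (n + 1), (d2h1 g h j 0 • u 1 j + d2h1 g h j 1 • v 1 j) =
    ∑ j ∈ Finset.range n, h 0 j • T.D2p (cl' g) n u v 0 j +
      ∑ j ∈ Finset.range n, h 1 j • T.D2p (cl' g) n u v 1 j := by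
  have s1 : ∑ j ∈ Finset.range (n + 1), sh (h 0) j • u 0 j =
      ∑ j ∈ Finset.range n, h 0 j • u 0 (j + 1) := by
    rw [Finset.sum_range_succ', sh_zero, zero_smul, add_zero]
    rfl
  have s2 : ∑ j ∈ Finset.range (n + 1), sh (h 1) j • u 1 j =
      ∑ j ∈ Finset.range n, h 1 j • u 1 (j + 1) := by
    rw [Finset.sum_range_succ', sh_zero, zero_smul, add_zero]
    rfl
  obtain ⟨F, hF⟩ : ∃ F : ℕ → U, ∀ j, F j = h 0 j • v 0 j + g⁻¹ • h 1 j • v 1 j +
        (cl' g (n - j))⁻¹ • (h 0 j • D g 0 • T.mu (u 0 j) (v 0 j) +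
          h 1 j • D g 1 • T.mu (u 0 j) (v 0 j)) := ⟨_, fun _ => rfl⟩
  have s3 : ∑ j ∈ Finset.range (n + 1), F j = ∑ j ∈ Finset.range n, F j := by
    rw [Finset.sum_range_succ, hF n, h0, h1]
    simp only [zero_smul, smul_zero, add_zero]
  have key : ∀ j ∈ Finset.range (n + 1),
      (d2h0 g n h j 0 • u 0 j + d2h0 g n h j 1 • v 0 j) +
        (d2h1 g h j 0 • u 1 j + d2h1 g h j 1 • v 1 j) =
      -(g⁻¹ • (sh (h 0) j • u 0 j)) - sh (h 1) j • u 1 j + F j := by
    intro j hj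
    have q1 : d2h0 g n h j 0 = -(g⁻¹ • sh (h 0) j) +
        (cl' g (n - j))⁻¹ • ((h 0 j * D g 0 + h 1 j * D g 1) * X 1) := rfl
    have q2 : d2h0 g n h j 1 = h 0 j +
        (cl' g (n - j))⁻¹ • (-((h 0 j * D g 0 + h 1 j * D g 1) * X 0)) := rfl
    have q3 : d2h1 g h j 0 = -sh (h 1) j := rfl
    have q4 : d2h1 g h j 1 = g⁻¹ • h 1 j := rfl
    rw [q1, q2, q3, q4, hF]
    simp only [Dict.mu, hT.x, add_smul, neg_smul, smul_add, smul_sub, smul_neg, smul_assoc, add_mul,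
      mul_smul]
    abel
  have key2 : ∀ j ∈ Finset.range n, h 0 j • T.D2p (cl' g) n u v 0 j +
        h 1 j • T.D2p (cl' g) n u v 1 j =
      -(g⁻¹ • (h 0 j • u 0 (j + 1))) - h 1 j • u 1 (j + 1) + F j := by
    intro j hj
    rw [hF]
    simp only [Dict.D2p, hT.d, if_true, one_ne_zero, if_false, smul_add, smul_neg, sB]
    abel
  rw [← Finset.sum_add_distrib, ← Finset.sum_add_distrib, Finset.sum_congr rfl key,
    Finset.sum_congr rfl key2]
  simp only [Finset.sum_add_distrib, Finset.sum_sub_distrib, Finset.sum_neg_distrib,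
    ← Finset.smul_sum]
  rw [s1, s2, s3]

theorem A2 (hT : Lit T) (n : ℕ) (u v : Fin 2 → ℕ → U) :
    b1 n u v ∘ₗ D2 g n = b2 n (T.D2u (cl' g) n u v) (T.D2v (cl' g) n u v) (T.D2p (cl' g) n u v) := by
  refine LinearMap.ext fun p => ?_
  rw [LinearMap.comp_apply, b2_apply, ← A2w T hT, ← A2h T hT n u v (ez2 p.2) (ez_sup _) (ez_sup _)]
  have e0 : ∀ j ∈ Finset.range (n + 1), ez2 (D2 g n p) 0 j =
      d2w0 g (ez p.1) j + d2h0 g n (ez2 p.2) j := by
    intro j hj
    exact ez_of_lt _ (Finset.mem_range.1 hj)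
  have e1 : ∀ j ∈ Finset.range (n + 1), ez2 (D2 g n p) 1 j =
      d2w1 g n (ez p.1) j + d2h1 g (ez2 p.2) j := by
    intro j hj
    exact ez_of_lt _ (Finset.mem_range.1 hj)
  have f0 : ∀ j ∈ Finset.range (n + 1), ez2 (D2 g n p) 0 j 0 • u 0 j + ez2 (D2 g n p) 0 j 1 • v 0 j =
      (d2w0 g (ez p.1) j 0 • u 0 j + d2w0 g (ez p.1) j 1 • v 0 j) +
      (d2h0 g n (ez2 p.2) j 0 • u 0 j + d2h0 g n (ez2 p.2) j 1 • v 0 j) := by
    intro j hj
    rw [e0 j hj, Pi.add_apply, Pi.add_apply, add_smul, add_smul]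
    abel
  have f1 : ∀ j ∈ Finset.range (n + 1), ez2 (D2 g n p) 1 j 0 • u 1 j + ez2 (D2 g n p) 1 j 1 • v 1 j =
      (d2w1 g n (ez p.1) j 0 • u 1 j + d2w1 g n (ez p.1) j 1 • v 1 j) +
      (d2h1 g (ez2 p.2) j 0 • u 1 j + d2h1 g (ez2 p.2) j 1 • v 1 j) := by
    intro j hj
    rw [e1 j hj, Pi.add_apply, Pi.add_apply, add_smul, add_smul]
    abel
  rw [b1_apply, Finset.sum_congr rfl f0, Finset.sum_congr rfl f1]
  simp only [Finset.sum_add_distrib]
  abel

theorem A3 (hT : Lit T) (n : ℕ) (a b : ℕ → U) (ψ : Fin 2 → ℕ → U) :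
    b2 n a b ψ ∘ₗ D3 g n = b0 n (T.D3 (cl' g) n a b ψ) := by
  refine LinearMap.ext fun x => ?_
  rw [LinearMap.comp_apply, b2_apply, b0_apply]
  set y := ez x with hy
  have hy1 : y (n + 1) = 0 := ez_sup _
  have ew : ∀ j ∈ Finset.range (n + 2), ez (D3 g n x).1 j = d3w g n y j := fun j hj =>
    ez_of_lt _ (Finset.mem_range.1 hj)
  have eh0 : ∀ j ∈ Finset.range n, ez2 (D3 g n x).2 0 j • ψ 0 j = d3h0 g y j • ψ 0 j := fun j hj => by
    rw [show ez2 (D3 g n x).2 0 j = d3h0 g y j from ez_of_lt _ (Finset.mem_range.1 hj)]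
  have eh1 : ∀ j ∈ Finset.range n, ez2 (D3 g n x).2 1 j • ψ 1 j = d3h1 g n y j • ψ 1 j := fun j hj => by
    rw [show ez2 (D3 g n x).2 1 j = d3h1 g n y j from ez_of_lt _ (Finset.mem_range.1 hj)]
  have k1 : ∀ j ∈ Finset.range (n + 2), ez (D3 g n x).1 j 0 • a j + ez (D3 g n x).1 j 1 • b j =
      (sh y j • a j - y j • b j - (cl' g (n + 1 - j))⁻¹ • (y j • D g 0 • T.mu (a j) (b j))) -
      (if j = n + 1 then (cl' g (n + 1))⁻¹ • (y n • D g 1 • T.mu (a (n + 1)) (b (n + 1))) else 0) := by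
    intro j hj
    rw [ew j hj]
    have q1 : d3w g n y j 0 = sh y j - (cl' g (n + 1 - j))⁻¹ • (y j * D g 0 * X 1) -
        (if j = n + 1 then (cl' g (n + 1))⁻¹ • (y n * D g 1 * X 1) else 0) := by
      unfold d3w
      split_ifs <;> rfl
    have q2 : d3w g n y j 1 = -y j - (cl' g (n + 1 - j))⁻¹ • (-(y j * D g 0 * X 0)) -
        (if j = n + 1 then (cl' g (n + 1))⁻¹ • (-(y n * D g 1 * X 0)) else 0) := by
      unfold d3w
      split_ifs <;> rfl
    rw [q1, q2]
    split_ifs with hj'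
    · subst hj'
      simp only [Dict.mu, hT.x, sub_smul, neg_smul, smul_sub, smul_neg, smul_assoc, mul_smul]
      abel
    · simp only [Dict.mu, hT.x, sub_smul, neg_smul, smul_sub, smul_neg, smul_assoc, mul_smul,
        sub_zero]
      abel
  obtain ⟨E, hE0, hE⟩ : ∃ E : ℕ → U, E 0 = 0 ∧ ∀ j, E (j + 1) = (cl' g (j + 1) - 1) • ψ 0 j
      - g • D g 1 • (X 1 : Op K) • ψ 0 j + D g 0 • (X 1 : Op K) • ψ 1 j :=
    ⟨fun j => Nat.casesOn j 0 fun j => (cl' g (j + 1) - 1) • ψ 0 j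
      - g • D g 1 • (X 1 : Op K) • ψ 0 j + D g 0 • (X 1 : Op K) • ψ 1 j, rfl, fun _ => rfl⟩
  have hD3 : ∀ j, T.D3 (cl' g) n a b ψ j = T.D3a (cl' g) n a b ψ j + E j := by
    intro j
    rcases j with _ | j
    · rw [hE0, add_zero]
      rfl
    · rw [hE]
      simp only [Dict.D3, hT.x, hT.d]
      abel
  have k2 : ∀ j ∈ Finset.range (n + 1), y j • T.D3 (cl' g) n a b ψ j =
      y j • a (j + 1) - y j • b j - (cl' g (n + 1 - j))⁻¹ • (y j • D g 0 • T.mu (a j) (b j)) -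
      (if j = n then (cl' g (n + 1))⁻¹ • (y n • D g 1 • T.mu (a (n + 1)) (b (n + 1))) else 0) -
      cl' g (n - j) • (y j • ψ 1 j) + y j • E j := by
    intro j hj
    rw [hD3]
    simp only [Dict.D3a, hT.d]
    split_ifs with hj'
    · subst hj'
      simp only [smul_add, smul_sub, sB]
    · simp only [smul_add, smul_sub, sB, sub_zero]
  have t1 : ∑ j ∈ Finset.range (n + 1 + 1), sh y j • a j = ∑ j ∈ Finset.range (n + 1), y j • a (j + 1) := by
    rw [Finset.sum_range_succ', sh_zero, zero_smul, add_zero]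
    rfl
  have t2 : ∑ j ∈ Finset.range (n + 1 + 1), y j • b j = ∑ j ∈ Finset.range (n + 1), y j • b j := by
    rw [Finset.sum_range_succ _ (n + 1), hy1, zero_smul, add_zero]
  have t3 : ∑ j ∈ Finset.range (n + 1 + 1), (cl' g (n + 1 - j))⁻¹ • (y j • D g 0 • T.mu (a j) (b j)) =
      ∑ j ∈ Finset.range (n + 1), (cl' g (n + 1 - j))⁻¹ • (y j • D g 0 • T.mu (a j) (b j)) := by
    rw [Finset.sum_range_succ _ (n + 1), hy1, zero_smul, smul_zero, add_zero]
  have t4 : ∑ j ∈ Finset.range (n + 1), cl' g (n - j) • (y j • ψ 1 j) =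
      ∑ j ∈ Finset.range n, cl' g (n - j) • (y j • ψ 1 j) := by
    rw [Finset.sum_range_succ, Nat.sub_self, cl'_zero, zero_smul, add_zero]
  have t5 : ∑ j ∈ Finset.range (n + 1), y j • E j = ∑ j ∈ Finset.range n, y (j + 1) • E (j + 1) := by
    rw [Finset.sum_range_succ', hE0, smul_zero, add_zero]
  have k3 : ∀ j ∈ Finset.range n, d3h0 g y j • ψ 0 j + d3h1 g n y j • ψ 1 j =
      y (j + 1) • E (j + 1) - cl' g (n - j) • (y j • ψ 1 j) := by
    intro j hj
    have q1 : d3h0 g y j = (cl' g (j + 1) - 1) • y (j + 1) - g • (y (j + 1) * D g 1 * X 1) := rfl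
    have q2 : d3h1 g n y j = y (j + 1) * D g 0 * X 1 - cl' g (n - j) • y j := rfl
    rw [q1, q2, hE]
    generalize cl' g (j + 1) - 1 = c
    simp only [sub_smul, smul_add, smul_sub, sB, smul_assoc, mul_smul]
    abel
  rw [Finset.sum_congr rfl k1, Finset.sum_congr rfl eh0, Finset.sum_congr rfl eh1,
    Finset.sum_congr rfl k2, ← Finset.sum_add_distrib (s := Finset.range n), Finset.sum_congr rfl k3]
  simp only [Finset.sum_add_distrib, Finset.sum_sub_distrib, Finset.sum_ite_eq', Finset.mem_range]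
  rw [if_pos (by omega : n + 1 < n + 2), if_pos (by omega : n < n + 1)]
  rw [show n + 2 = n + 1 + 1 from rfl, t1, t2, t3, t4, t5]
  abel

end transp

end Crest.Agent.R186.LC369
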