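import Crest.Agent.R186.LCA_369
import Crest.Agent.R186.LCE_229
import Crest.Agent.R186.KR_355

/-!
# Row 186, S0281 base (helper369): LCQ0, the filtered exactness statements of `LCA_229` for `s = 0`

`Mt T F F' e` : the dictionary `T` is the lattice family `F` with subfamily `F'` in degree `e`;
`ex0 ex1 ex2 ex3` : the hypotheses of `H0_of, H1_of, H3_of` for `355`'s maps `g1 g2 g3`.
-/

set_option autoImplicit false
set_option linter.unusedSectionVars false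

namespace Crest.Agent.R186.LC369

open Crest.Agent.R186.B281 Crest.Agent.R186.B281.KN Crest.Agent.R186.B281.KR FamX823

variable {K : Type} [Field K] {g : K}

section hf

variable {N : Type} [AddCommGroup N] [Module K N] [Module (Op K) N]

theorem HF_pi2 {T : Fam g} {e : ℤ} {L : ℤ → ℤ → Submodule K N} (f0 f1 : T.N →ₗ[Op K] N)
    (Φ : (Fin 2 → T.N) →ₗ[Op K] N) (hΦ : ∀ x, Φ x = f0 (x 0) + f1 (x 1)) :
    HF e (pi T (Fin 2)) L Φ ↔ HF e T L f0 ∧ HF e T L f1 := by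
  constructor
  · intro h
    constructor
    · intro k P n hn
      have h1 : (![n, 0] : Fin 2 → T.N) ∈ (pi T (Fin 2)).L k P :=
        mem_pi.2 (Fin.forall_fin_two.2 ⟨hn, zero_mem _⟩)
      have h2 : Φ ![n, 0] ∈ L k (P + e) := h h1
      rw [hΦ] at h2
      have h3 : f0 n + f1 0 ∈ L k (P + e) := h2
      rwa [map_zero, add_zero] at h3
    · intro k P n hn
      have h1 : (![0, n] : Fin 2 → T.N) ∈ (pi T (Fin 2)).L k P :=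
        mem_pi.2 (Fin.forall_fin_two.2 ⟨zero_mem _, hn⟩)
      have h2 : Φ ![0, n] ∈ L k (P + e) := h h1
      rw [hΦ] at h2
      have h3 : f0 0 + f1 n ∈ L k (P + e) := h2
      rwa [map_zero, zero_add] at h3
  · rintro ⟨h0, h1⟩ k P x hx
    have hx' := mem_pi.1 hx
    change Fin 2 → T.N at x
    have h2 : Φ x ∈ L k (P + e) := by
      rw [hΦ]
      exact add_mem (h0 (hx' 0)) (h1 (hx' 1))
    exact h2

theorem HF_prod2 {S T : Fam g} {e : ℤ} {L : ℤ → ℤ → Submodule K N} (f0 : S.N →ₗ[Op K] N)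
    (f1 : T.N →ₗ[Op K] N) (Φ : (S.N × T.N) →ₗ[Op K] N) (hΦ : ∀ x, Φ x = f0 x.1 + f1 x.2) :
    HF e (prod S T) L Φ ↔ HF e S L f0 ∧ HF e T L f1 := by
  constructor
  · intro h
    constructor
    · intro k P n hn
      have h1 : ((n, 0) : S.N × T.N) ∈ (prod S T).L k P := mem_prod.2 ⟨hn, zero_mem _⟩
      have h2 : Φ (n, 0) ∈ L k (P + e) := h h1
      rw [hΦ] at h2
      have h3 : f0 n + f1 0 ∈ L k (P + e) := h2
      rwa [map_zero, add_zero] at h3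
    · intro k P n hn
      have h1 : ((0, n) : S.N × T.N) ∈ (prod S T).L k P := mem_prod.2 ⟨zero_mem _, hn⟩
      have h2 : Φ (0, n) ∈ L k (P + e) := h h1
      rw [hΦ] at h2
      have h3 : f0 0 + f1 n ∈ L k (P + e) := h2
      rwa [map_zero, zero_add] at h3
  · rintro ⟨h0, h1⟩ k P x hx
    have hx' := mem_prod.1 hx
    change S.N × T.N at x
    have h2 : Φ x ∈ L k (P + e) := by
      rw [hΦ]
      exact add_mem (h0 hx'.1) (h1 hx'.2)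
    exact h2

variable {L : ℤ → ℤ → Submodule K N}

/-- filtered maps out of `K₀` -/
theorem HF_G0 (hg : Gen g) (e : ℤ) (hL : SM g L) (n : ℕ) (φ : ℕ → N) :
    HF e (G0 hg n) L (b0 n φ) ↔ ∀ j ≤ n, φ j ∈ L 0 e := by
  have h := HF_tO hg 0 e hL (n + 1) φ
  have h2 : HF e (G0 hg n) L (b0 n φ) ↔ HF e (pi (TO hg 0) (Fin (n + 1))) L (tO (n + 1) φ) :=
    Iff.rfl
  rw [h2, h]
  exact forall_congr' fun j => by rw [Nat.lt_succ_iff]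

/-- filtered maps out of `K₃` -/
theorem HF_G3 (hg : Gen g) (e : ℤ) (hL : SM g L) (n : ℕ) (φ : ℕ → N) :
    HF e (G3 hg n) L (b0 n φ) ↔ ∀ j ≤ n, φ j ∈ L 2 e := by
  have h := HF_tO hg 2 e hL (n + 1) φ
  have h2 : HF e (G3 hg n) L (b0 n φ) ↔ HF e (pi (TO hg 2) (Fin (n + 1))) L (tO (n + 1) φ) :=
    Iff.rfl
  rw [h2, h]
  exact forall_congr' fun j => by rw [Nat.lt_succ_iff]

/-- filtered maps out of `K₁` -/
theorem HF_G1 (hg : Gen g) (e : ℤ) (hL : SM g L) (n : ℕ) (u v : Fin 2 → ℕ → N) :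
    HF e (G1 hg n) L (b1 n u v) ↔ ∀ i, ∀ j ≤ n, u i j ∈ L 1 e ∧ v i j ∈ L 1 e ∧
      (X 1 : Op K) • u i j - (X 0 : Op K) • v i j ∈ L 0 (e + 1) := by
  have h := fun i => HF_tK hg 0 e 1 hL (n + 1) (u i) (v i)
  rw [show (0 : ℤ) + ((1 : ℕ) : ℤ) = 0 + 1 from rfl] at h
  have h2 : HF e (G1 hg n) L (b1 n u v) ↔
      HF e (pi (TK hg 0 (0 + 1)) (Fin (n + 1))) L (tK (n + 1) (u 0) (v 0)) ∧
      HF e (pi (TK hg 0 (0 + 1)) (Fin (n + 1))) L (tK (n + 1) (u 1) (v 1)) :=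
    HF_pi2 (T := pi (TV hg 0 3) (Fin (n + 1))) (tK (n + 1) (u 0) (v 0)) (tK (n + 1) (u 1) (v 1))
      (b1 n u v) (fun x => rfl)
  rw [h2, h 0, h 1, Fin.forall_fin_two, zero_add]
  exact and_congr (forall_congr' fun j => by rw [Nat.lt_succ_iff])
    (forall_congr' fun j => by rw [Nat.lt_succ_iff])

theorem b2_eq (n : ℕ) (a b : ℕ → N) (ψ : Fin 2 → ℕ → N)
    (p : (Fin (n + 2) → Fin 2 → Op K) × (Fin 2 → Fin n → Op K)) :
    b2 n a b ψ p = tK (n + 2) a b p.1 + (tO n (ψ 0) (p.2 0) + tO n (ψ 1) (p.2 1)) := rfl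

theorem HF_G2_iff (hg : Gen g) (e : ℤ) (n : ℕ)
    (Φ : ((Fin (n + 2) → Fin 2 → Op K) × (Fin 2 → Fin n → Op K)) →ₗ[Op K] N) :
    HF e (G2 hg n) L Φ ↔ ∀ k P (p : (Fin (n + 2) → Fin 2 → Op K) × (Fin 2 → Fin n → Op K)),
      (∀ j, RK g 0 2 k P (p.1 j)) → (∀ i j, p.2 i j ∈ Fil g (k - 1) P) → Φ p ∈ L k (P + e) :=
  ⟨fun h _ _ p h1 h2 => h ((mem_G2 hg n p).2 ⟨h1, h2⟩),
    fun h k P p hp => h k P p ((mem_G2 hg n p).1 hp).1 ((mem_G2 hg n p).1 hp).2⟩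

/-- filtered maps out of `K₂` -/
theorem HF_G2 (hg : Gen g) (e : ℤ) (hL : SM g L) (n : ℕ) (a b : ℕ → N) (ψ : Fin 2 → ℕ → N) :
    HF e (G2 hg n) L (b2 n a b ψ) ↔ (∀ j ≤ n + 1, a j ∈ L 2 e ∧ b j ∈ L 2 e ∧
      (X 1 : Op K) • a j - (X 0 : Op K) • b j ∈ L 0 (e + 1)) ∧ ∀ i, ∀ j < n, ψ i j ∈ L 1 e := by
  have h := HF_tK hg 0 e 2 hL (n + 2) a b
  rw [show (0 : ℤ) + ((2 : ℕ) : ℤ) = 2 from rfl] at h
  have h' := fun i => HF_tO hg 1 e hL n (ψ i)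
  have hK : (∀ j ≤ n + 1, a j ∈ L 2 e ∧ b j ∈ L 2 e ∧
      (X 1 : Op K) • a j - (X 0 : Op K) • b j ∈ L 0 (e + 1)) ↔
      HF e (pi (TK hg 0 2) (Fin (n + 2))) L (tK (n + 2) a b) := by
    rw [h]
    exact forall_congr' fun j => by rw [Nat.lt_succ_iff]
  rw [hK, HF_G2_iff]
  constructor
  · intro H
    constructor
    · intro k P x hx
      have h1 := H k P (x, 0) (fun j => mem_pi.1 hx j) (fun i j => zero_mem _)
      rw [b2_eq] at h1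
      have h2 : tK (n + 2) a b x + (tO n (ψ 0) 0 + tO n (ψ 1) 0) ∈ L k (P + e) := h1
      rwa [map_zero, map_zero, add_zero, add_zero] at h2
    · refine Fin.forall_fin_two.2 ⟨?_, ?_⟩
      · refine (h' 0).1 ?_
        intro k P x hx
        have h1 := H k P (0, ![x, 0]) (fun j => RK.zero)
          (Fin.forall_fin_two.2 ⟨fun j => mem_pi.1 hx j, fun j => zero_mem _⟩)
        rw [b2_eq] at h1
        have h2 : tK (n + 2) a b 0 + (tO n (ψ 0) x + tO n (ψ 1) 0) ∈ L k (P + e) := h1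
        rwa [map_zero, map_zero, zero_add, add_zero] at h2
      · refine (h' 1).1 ?_
        intro k P x hx
        have h1 := H k P (0, ![0, x]) (fun j => RK.zero)
          (Fin.forall_fin_two.2 ⟨fun j => zero_mem _, fun j => mem_pi.1 hx j⟩)
        rw [b2_eq] at h1
        have h2 : tK (n + 2) a b 0 + (tO n (ψ 0) 0 + tO n (ψ 1) x) ∈ L k (P + e) := h1
        rwa [map_zero, map_zero, zero_add, zero_add] at h2
  · rintro ⟨H1, H2⟩ k P p hp1 hp2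
    rw [b2_eq]
    refine add_mem (H1 (mem_pi.2 hp1)) (add_mem ?_ ?_)
    · exact (h' 0).2 (H2 0) (mem_pi.2 (hp2 0))
    · exact (h' 1).2 (H2 1) (mem_pi.2 (hp2 1))

theorem exists_b1 {n : ℕ} (Φ : (Fin 2 → Fin (n + 1) → Fin 2 → Op K) →ₗ[Op K] N) :
    ∃ u v : Fin 2 → ℕ → N, Φ = b1 n u v := by
  obtain ⟨Y00, Y01, Y10, Y11, h⟩ := exists_tP2 Φ
  exact ⟨![Y00, Y10], ![Y01, Y11], h.trans (LinearMap.ext fun w => rfl)⟩

theorem exists_b2 {n : ℕ}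
    (Φ : ((Fin (n + 2) → Fin 2 → Op K) × (Fin 2 → Fin n → Op K)) →ₗ[Op K] N) :
    ∃ (a b : ℕ → N) (ψ : Fin 2 → ℕ → N), Φ = b2 n a b ψ := by
  classical
  obtain ⟨y0, y1, h1, h2⟩ := exists_tK (Φ ∘ₗ LinearMap.inl (Op K) _ _)
  obtain ⟨w0, h3, -⟩ := exists_tO (Φ ∘ₗ LinearMap.inr (Op K) _ _ ∘ₗ
    LinearMap.single (Op K) (fun _ : Fin 2 => Fin n → Op K) 0)
  obtain ⟨w1, h4, -⟩ := exists_tO (Φ ∘ₗ LinearMap.inr (Op K) _ _ ∘ₗ
    LinearMap.single (Op K) (fun _ : Fin 2 => Fin n → Op K) 1)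
  refine ⟨y0, y1, ![w0, w1], ?_⟩
  apply LinearMap.ext
  rintro ⟨w, q⟩
  have e1 := LinearMap.congr_fun h1 w
  have e3 := LinearMap.congr_fun h3 (q 0)
  have e4 := LinearMap.congr_fun h4 (q 1)
  rw [b2_eq]
  show _ = tK (n + 2) y0 y1 w + (tO n w0 (q 0) + tO n w1 (q 1))
  rw [← e1, ← e3, ← e4]
  show Φ (w, q) = Φ (w, 0) + (Φ (0, Pi.single 0 (q 0)) + Φ (0, Pi.single 1 (q 1)))
  rw [← map_add, ← map_add]
  congr 1
  refine Prod.ext ?_ ?_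
  · show w = w + (0 + 0)
    rw [add_zero, add_zero]
  · show q = 0 + (Pi.single 0 (q 0) + Pi.single 1 (q 1))
    rw [zero_add]
    have := Finset.univ_sum_single q
    rw [Fin.sum_univ_two] at this
    exact this.symm

theorem b0_sub (n : ℕ) (φ φ' : ℕ → N) : b0 (K := K) n φ - b0 n φ' = b0 n (fun j => φ j - φ' j) := by
  refine LinearMap.ext fun x => ?_
  rw [LinearMap.sub_apply]
  show (∑ j : Fin (n + 1), x j • φ j) - (∑ j : Fin (n + 1), x j • φ' j) =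
    ∑ j : Fin (n + 1), x j • (φ j - φ' j)
  simp only [smul_sub, Finset.sum_sub_distrib]

theorem b1_sub (n : ℕ) (u v u' v' : Fin 2 → ℕ → N) : b1 (K := K) n u v - b1 n u' v' =
    b1 n (fun i j => u i j - u' i j) (fun i j => v i j - v' i j) := by
  refine LinearMap.ext fun x => ?_
  rw [LinearMap.sub_apply]
  show (∑ j : Fin (n + 1), (x 0 j 0 • u 0 j + x 0 j 1 • v 0 j) +
    ∑ j : Fin (n + 1), (x 1 j 0 • u 1 j + x 1 j 1 • v 1 j)) -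
    (∑ j : Fin (n + 1), (x 0 j 0 • u' 0 j + x 0 j 1 • v' 0 j) +
    ∑ j : Fin (n + 1), (x 1 j 0 • u' 1 j + x 1 j 1 • v' 1 j)) =
    ∑ j : Fin (n + 1), (x 0 j 0 • (u 0 j - u' 0 j) + x 0 j 1 • (v 0 j - v' 0 j)) +
    ∑ j : Fin (n + 1), (x 1 j 0 • (u 1 j - u' 1 j) + x 1 j 1 • (v 1 j - v' 1 j))
  simp only [smul_sub, Finset.sum_add_distrib, Finset.sum_sub_distrib]
  abel

theorem b2_sub (n : ℕ) (a b a' b' : ℕ → N) (ψ ψ' : Fin 2 → ℕ → N) :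
    b2 (K := K) n a b ψ - b2 n a' b' ψ' =
    b2 n (fun j => a j - a' j) (fun j => b j - b' j) (fun i j => ψ i j - ψ' i j) := by
  refine LinearMap.ext fun x => ?_
  rw [LinearMap.sub_apply]
  show (∑ j : Fin (n + 2), (x.1 j 0 • a j + x.1 j 1 • b j) +
    (∑ j : Fin n, x.2 0 j • ψ 0 j + ∑ j : Fin n, x.2 1 j • ψ 1 j)) -
    (∑ j : Fin (n + 2), (x.1 j 0 • a' j + x.1 j 1 • b' j) +
    (∑ j : Fin n, x.2 0 j • ψ' 0 j + ∑ j : Fin n, x.2 1 j • ψ' 1 j)) =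
    ∑ j : Fin (n + 2), (x.1 j 0 • (a j - a' j) + x.1 j 1 • (b j - b' j)) +
    (∑ j : Fin n, x.2 0 j • (ψ 0 j - ψ' 0 j) + ∑ j : Fin n, x.2 1 j • (ψ 1 j - ψ' 1 j))
  simp only [smul_sub, Finset.sum_add_distrib, Finset.sum_sub_distrib]
  abel

end hf

section main

variable {N00 N01 N02 N10 N11 N12 N22 : Type*}
    [AddCommGroup N00] [Module K N00] [AddCommGroup N01] [Module K N01]
    [AddCommGroup N02] [Module K N02] [AddCommGroup N10] [Module K N10]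
    [AddCommGroup N11] [Module K N11] [AddCommGroup N12] [Module K N12]
    [AddCommGroup N22] [Module K N22]
    {S : Sq K g N00 N01 N02 N10 N11 N12 N22} {F : Fam g} {F' : F.Sub}

/-- the dictionary `T` is `(F, F')` in degree `e` -/
structure Mt (T : Dict S F.N) (F' : F.Sub) (e : ℤ) : Prop where
  x : ∀ i u, T.x i u = (X i : Op K) • u
  d : ∀ i u, T.d i u = D g i • u
  l0 : ∀ u, u ∈ T.L0 ↔ u ∈ F.L 0 e
  l1 : ∀ u, u ∈ T.L1 ↔ u ∈ F.L 1 e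
  l2 : ∀ u, u ∈ T.L2 ↔ u ∈ F.L 2 e
  lp : ∀ u, u ∈ T.Lp ↔ u ∈ F.L 0 (e + 1)
  m0 : ∀ u, u ∈ T.M0 ↔ u ∈ F'.L 0 e
  m1 : ∀ u, u ∈ T.M1 ↔ u ∈ F'.L 1 e
  m2 : ∀ u, u ∈ T.M2 ↔ u ∈ F'.L 2 e
  mp : ∀ u, u ∈ T.Mp ↔ u ∈ F'.L 0 (e + 1)

variable {T : Dict S F.N} {e : ℤ}

theorem Mt.lit (M : Mt T F' e) : Lit T := ⟨M.x, M.d⟩

theorem smF : SM g F.L := fun _ _ _ _ _ _ => F.smul

theorem smF' (F' : F.Sub) : SM g F'.L := fun _ _ _ _ _ _ => F'.smul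

theorem cl'_ne (hg : Gen g) {m : ℕ} (hm : 0 < m) : cl' g m ≠ 0 :=
  cq_ne hg (by exact_mod_cast hm.ne')

theorem ex0 (hg : Gen g) (M : Mt T F' e) (n : ℕ) (Φ : (G0 hg n).N →ₗ[Op K] F.N)
    (h : HF e (G0 hg n) F.L Φ) (h' : HF e (G1 hg n) F'.L (Φ ∘ₗ (g1 hg n).f)) :
    HF e (G0 hg n) F'.L Φ := by
  obtain ⟨φ, hφ, hφ0⟩ := exists_tO (m := n + 1) Φ
  have hφ' : Φ = b0 n φ := hφ
  have h1 : HF e (G0 hg n) F.L (b0 n φ) := hφ' ▸ h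
  rw [HF_G0 hg e smF] at h1
  have h2 : HF e (G1 hg n) F'.L (b0 n φ ∘ₗ (g1 hg n).f) := hφ' ▸ h'
  have hA : b0 n φ ∘ₗ (g1 hg n).f = b1 n (T.D1u (cl' g) n φ) (T.D1v (cl' g) n φ) := A1 T M.lit n φ
  rw [hA, HF_G1 hg e (smF' F')] at h2
  have hL : ∀ j, φ j ∈ T.L0 := by
    intro j
    rcases Nat.lt_or_ge j (n + 1) with hj | hj
    · exact (M.l0 _).2 (h1 j (Nat.lt_succ_iff.1 hj))
    · rw [hφ0 j hj]
      exact zero_mem _
  have h3 : T.C1' n (T.D1u (cl' g) n φ) (T.D1v (cl' g) n φ) := by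
    intro i j hj
    obtain ⟨a, b, c⟩ := h2 i j hj
    refine ⟨(M.m1 _).2 a, (M.m1 _).2 b, (M.mp _).2 ?_⟩
    rw [Dict.mu, M.x, M.x]
    exact c
  have h4 := T.exact0 (lam := cl' g) n hL h3
  have h5 : HF e (G0 hg n) F'.L (b0 n φ) := (HF_G0 hg e (smF' F') n φ).2 fun j hj =>
    (M.m0 _).1 (h4 j hj)
  exact hφ' ▸ h5

theorem ex1 (hg : Gen g) (M : Mt T F' e) (n : ℕ) (Φ : (G1 hg n).N →ₗ[Op K] F.N)
    (h : HF e (G1 hg n) F.L Φ) (h' : HF e (G2 hg n) F'.L (Φ ∘ₗ (g2 hg n).f)) :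
    ∃ Γ : (G0 hg n).N →ₗ[Op K] F.N, HF e (G0 hg n) F.L Γ ∧
      HF e (G1 hg n) F'.L (Φ - Γ ∘ₗ (g1 hg n).f) := by
  obtain ⟨u, v, hΦ⟩ := exists_b1 (n := n) Φ
  have h1 : HF e (G1 hg n) F.L (b1 n u v) := hΦ ▸ h
  rw [HF_G1 hg e smF] at h1
  have h2 : HF e (G2 hg n) F'.L (b1 n u v ∘ₗ (g2 hg n).f) := hΦ ▸ h'
  have hA : b1 n u v ∘ₗ (g2 hg n).f =
      b2 n (T.D2u (cl' g) n u v) (T.D2v (cl' g) n u v) (T.D2p (cl' g) n u v) := A2 T M.lit n u v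
  rw [hA, HF_G2 hg e (smF' F')] at h2
  have hC : T.C1 n u v := by
    intro i j hj
    obtain ⟨a, b, c⟩ := h1 i j hj
    refine ⟨(M.l1 _).2 a, (M.l1 _).2 b, (M.lp _).2 ?_⟩
    rw [Dict.mu, M.x, M.x]
    exact c
  have hC2 : T.C2' n (T.D2u (cl' g) n u v) (T.D2v (cl' g) n u v) := by
    intro j hj
    obtain ⟨a, b, c⟩ := h2.1 j hj
    refine ⟨(M.m2 _).2 a, (M.m2 _).2 b, (M.mp _).2 ?_⟩
    rw [Dict.mu, M.x, M.x]
    exact c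
  obtain ⟨φ, hφ, hC3⟩ := T.exact1 (lam := cl' g) hg.ne n (fun m hm _ => cl'_ne hg hm) cl'_zero hC
    hC2 (fun i j hj => (M.m1 _).2 (h2.2 i j hj))
  refine ⟨b0 n φ, (HF_G0 hg e smF n φ).2 fun j _ => (M.l0 _).1 (hφ j), ?_⟩
  have hA1 : b0 n φ ∘ₗ (g1 hg n).f = b1 n (T.D1u (cl' g) n φ) (T.D1v (cl' g) n φ) := A1 T M.lit n φ
  have hS : Φ - b0 n φ ∘ₗ (g1 hg n).f = b1 n (fun i j => u i j - T.D1u (cl' g) n φ i j)
      (fun i j => v i j - T.D1v (cl' g) n φ i j) := by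
    rw [hA1, hΦ]
    exact b1_sub n u v _ _
  refine (congrArg (HF e (G1 hg n) F'.L) hS).mpr ((HF_G1 hg e (smF' F') n _ _).2 ?_)
  intro i j hj
  obtain ⟨a, b, c⟩ := hC3 i j hj
  refine ⟨(M.m1 _).1 a, (M.m1 _).1 b, ?_⟩
  have c' := (M.mp _).1 c
  rw [Dict.mu, M.x, M.x] at c'
  exact c'

theorem ex2 (hg : Gen g) (M : Mt T F' e) (n : ℕ) (Φ : (G2 hg n).N →ₗ[Op K] F.N)
    (h : HF e (G2 hg n) F.L Φ) (h' : HF e (G3 hg n) F'.L (Φ ∘ₗ (g3 hg n).f)) :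
    ∃ Γ : (G1 hg n).N →ₗ[Op K] F.N, HF e (G1 hg n) F.L Γ ∧
      HF e (G2 hg n) F'.L (Φ - Γ ∘ₗ (g2 hg n).f) := by
  obtain ⟨a, b, ψ, hΦ⟩ := exists_b2 (n := n) Φ
  have h1 : HF e (G2 hg n) F.L (b2 n a b ψ) := hΦ ▸ h
  rw [HF_G2 hg e smF] at h1
  have h2 : HF e (G3 hg n) F'.L (b2 n a b ψ ∘ₗ (g3 hg n).f) := hΦ ▸ h'
  have hA : b2 n a b ψ ∘ₗ (g3 hg n).f = b0 n (T.D3 (cl' g) n a b ψ) := A3 T M.lit n a b ψ
  rw [hA, HF_G3 hg e (smF' F')] at h2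
  have hC : T.C2 n a b := by
    intro j hj
    obtain ⟨a, b, c⟩ := h1.1 j hj
    refine ⟨(M.l2 _).2 a, (M.l2 _).2 b, (M.lp _).2 ?_⟩
    rw [Dict.mu, M.x, M.x]
    exact c
  obtain ⟨u, v, hC1, hC2, hC3⟩ := T.exact2 (lam := cl' g) hg.ne n (fun m hm _ => cl'_ne hg hm)
    cl'_zero hC (fun i j hj => (M.l1 _).2 (h1.2 i j hj)) (fun j hj => (M.m2 _).2 (h2 j hj))
  refine ⟨b1 n u v, (HF_G1 hg e smF n u v).2 fun i j _ => ?_, ?_⟩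
  · obtain ⟨a, b, c⟩ := hC1 i j
    refine ⟨(M.l1 _).1 a, (M.l1 _).1 b, ?_⟩
    have c' := (M.lp _).1 c
    rw [Dict.mu, M.x, M.x] at c'
    exact c'
  · have hA1 : b1 n u v ∘ₗ (g2 hg n).f =
        b2 n (T.D2u (cl' g) n u v) (T.D2v (cl' g) n u v) (T.D2p (cl' g) n u v) := A2 T M.lit n u v
    have hS : Φ - b1 n u v ∘ₗ (g2 hg n).f = b2 n (fun j => a j - T.D2u (cl' g) n u v j)
        (fun j => b j - T.D2v (cl' g) n u v j) (fun i j => ψ i j - T.D2p (cl' g) n u v i j) := by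
      rw [hA1, hΦ]
      exact b2_sub n a b _ _ ψ _
    refine (congrArg (HF e (G2 hg n) F'.L) hS).mpr ((HF_G2 hg e (smF' F') n _ _ _).2 ?_)
    refine ⟨fun j hj => ?_, fun i j hj => (M.m1 _).1 (hC3 i j hj)⟩
    obtain ⟨a, b, c⟩ := hC2 j hj
    refine ⟨(M.m2 _).1 a, (M.m2 _).1 b, ?_⟩
    have c' := (M.mp _).1 c
    rw [Dict.mu, M.x, M.x] at c'
    exact c'

theorem ex3 (hg : Gen g) (M : Mt T F' e) (n : ℕ) (Φ : (G3 hg n).N →ₗ[Op K] F.N)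
    (h : HF e (G3 hg n) F.L Φ) :
    ∃ Γ : (G2 hg n).N →ₗ[Op K] F.N, HF e (G2 hg n) F.L Γ ∧
      HF e (G3 hg n) F'.L (Φ - Γ ∘ₗ (g3 hg n).f) := by
  obtain ⟨φ, hφ, hφ0⟩ := exists_tO (m := n + 1) Φ
  have hφ' : Φ = b0 n φ := hφ
  have h1 : HF e (G3 hg n) F.L (b0 n φ) := hφ' ▸ h
  rw [HF_G3 hg e smF] at h1
  obtain ⟨a, b, ψ, hC1, hC2, hC3⟩ := T.exact3 (lam := cl' g) n cl'_zero
    (fun j hj => (M.l2 _).2 (h1 j hj))
  refine ⟨b2 n a b ψ, (HF_G2 hg e smF n a b ψ).2 ⟨fun j _ => ?_, fun i j _ => (M.l1 _).1 (hC2 i j)⟩,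
    ?_⟩
  · obtain ⟨a, b, c⟩ := hC1 j
    refine ⟨(M.l2 _).1 a, (M.l2 _).1 b, ?_⟩
    have c' := (M.lp _).1 c
    rw [Dict.mu, M.x, M.x] at c'
    exact c'
  · have hA1 : b2 n a b ψ ∘ₗ (g3 hg n).f = b0 n (T.D3 (cl' g) n a b ψ) := A3 T M.lit n a b ψ
    have hS : Φ - b2 n a b ψ ∘ₗ (g3 hg n).f = b0 n (fun j => φ j - T.D3 (cl' g) n a b ψ j) := by
      rw [hA1, hφ']
      exact b0_sub n φ _
    exact (congrArg (HF e (G3 hg n) F'.L) hS).mpr ((HF_G3 hg e (smF' F') n _).2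
      fun j hj => (M.m2 _).1 (hC3 j hj))

end main

end Crest.Agent.R186.LC369
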