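import Mathlib

/-!
# Row 186, S0281 base, block LC, `s = 1`, FILTERED (operator) form (helper442)

`Fl K M`: a filtered left module `M` over the `q`-Weyl algebra (`x_i d_i = 1 + g d_i x_i`), pieces
`F k P` (order `≤ k`, degree `P`, same order of the arguments as `B281.Fil`), the Koszul facts only
modulo lower order.  The maps are the full transposes of 525's `s = 1` maps (#31909); functions on
`[m] = K[x]_m` are indexed by `a` = exponent of `x0`.
For every `n`, `k ≥ -1`, `P + k ≥ 0` or `k < 0`: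
`f ∈ C^i(k)`, `δ f ∈ C^(i+1)(k-1)` ⟹ `∃ g ∈ C^(i-1)(k)`, `f - δ g ∈ C^i(k-1)`.
-/

set_option autoImplicit false

namespace Crest.Agent.R186.LCF442

/-- filtered left module over the `q`-Weyl algebra, Koszul facts modulo lower order -/
structure Fl (K M : Type*) [Field K] [AddCommGroup M] [Module K M] where
  g : K
  g0 : g ≠ 0
  /-- left multiplication by `x_i` -/
  X : Fin 2 → M →ₗ[K] M
  /-- left multiplication by `d_i` -/
  D : Fin 2 → M →ₗ[K] M
  /-- order `≤ k`, degree `P` -/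
  F : ℤ → ℤ → Submodule K M
  r0 : ∀ m, X 0 (D 0 m) = m + g • D 0 (X 0 m)
  r1 : ∀ m, X 1 (D 1 m) = m + g • D 1 (X 1 m)
  r01 : ∀ m, X 0 (D 1 m) = D 1 (X 0 m)
  r10 : ∀ m, X 1 (D 0 m) = D 0 (X 1 m)
  rx : ∀ m, X 0 (X 1 m) = X 1 (X 0 m)
  rd : ∀ m, D 0 (D 1 m) = D 1 (D 0 m)
  mono : ∀ {k l P : ℤ}, k ≤ l → F k P ≤ F l P
  Xm : ∀ (i : Fin 2) {k P Q : ℤ} {m : M}, Q = P + 1 → m ∈ F k P → X i m ∈ F k Q
  Dm : ∀ (i : Fin 2) {k l P Q : ℤ} {m : M}, l = k + 1 → Q = P - 1 → m ∈ F k P → D i m ∈ F l Q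
  xinj : ∀ {k l P Q : ℤ} {m : M}, l = k - 1 → Q = P + 1 → m ∈ F k P → X 0 m ∈ F l Q → m ∈ F l P
  dinj : ∀ {k l P Q : ℤ} {m : M}, l = k - 1 → Q = P - 1 → m ∈ F k P → D 0 m ∈ F k Q → m ∈ F l P
  kx : ∀ {k l P Q R : ℤ} {u v : M}, l = k - 1 → Q = P + 1 → R = P - 1 → u ∈ F k P → v ∈ F k P →
    X 0 u - X 1 v ∈ F l Q → ∃ w ∈ F k R, u - X 1 w ∈ F l P ∧ v - X 0 w ∈ F l P
  kd : ∀ {k l P Q R : ℤ} {u v : M}, l = k - 1 → Q = P - 1 → R = P + 1 → u ∈ F k P → v ∈ F k P →
    D 0 u - D 1 v ∈ F k Q → ∃ w ∈ F l R, u - D 1 w ∈ F l P ∧ v - D 0 w ∈ F l P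
  sx : ∀ {k l P R : ℤ} {m : M}, l = k - 1 → R = P - 1 → (P + k ≠ 0 ∨ k < 0) → m ∈ F k P →
    ∃ u ∈ F k R, ∃ v ∈ F k R, m - X 0 u - X 1 v ∈ F l P
  sd : ∀ {k l P R : ℤ} {m : M}, l = k - 1 → R = P + 1 → k ≠ 0 → m ∈ F k P →
    ∃ u ∈ F l R, ∃ v ∈ F l R, m - D 0 u - D 1 v ∈ F l P

variable {K M : Type*} [Field K] [AddCommGroup M] [Module K M] (S : Fl K M) (c : ℕ → K)

/-! ## the differentials -/

/-- `K2`-column of `δ φ` (`a < n`) -/
def dn (φ : ℕ → M) (i : Fin 2) (a : ℕ) : M :=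
  if i = 0 then S.X 0 (S.D 0 ((c (a + 1))⁻¹ • φ (a + 1))) - φ (a + 1)
  else S.X 1 (S.D 0 ((c (a + 1))⁻¹ • φ (a + 1))) - φ a

/-- `O(-1)`-part of `δ φ` (`a ≤ n+1`) -/
def dps (n : ℕ) (φ : ℕ → M) (e : Fin 2) : ℕ → M
  | 0 => if e = 0 then S.X 1 (S.D 0 (φ 0)) else S.g⁻¹ • (S.X 1 (S.D 1 (φ 0)) - c n • φ 0)
  | b + 1 => if e = 0 then S.g⁻¹ • (S.X 0 (S.D 0 (φ b)) - c b • φ b)
      else S.X 0 (S.D 1 (φ b)) - c (n - b) • φ (b + 1)

/-- `x1 n_0 - x0 n_1` -/
def nu (m : Fin 2 → ℕ → M) (a : ℕ) : M := S.X 1 (m 0 a) - S.X 0 (m 1 a)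

/-- `d0 ψ_1 - d1 ψ_0` -/
def Om (ψ : Fin 2 → ℕ → M) (a : ℕ) : M := S.D 0 (ψ 1 a) - S.D 1 (ψ 0 a)

/-- `K1'`-columns of `δ (m, ψ)`, slot `e`, entry `i` (`a ≤ n`) -/
def dk (n : ℕ) (m ψ : Fin 2 → ℕ → M) (e i : Fin 2) (a : ℕ) : M :=
  if e = 0 then
    if i = 0 then -(c a • m 0 (a - 1)) + S.g • ψ 0 (a + 1)
        + S.X 0 (if a = 0 then (c (n + 1))⁻¹ • Om S ψ 0 else 0)
    else -(c a • m 1 (a - 1)) - (if a = 0 then 0 else S.D 0 (nu S m (a - 1))) + ψ 0 a
        + S.X 1 (if a = 0 then (c (n + 1))⁻¹ • Om S ψ 0 else 0)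
  else
    if i = 0 then -(c (n - a) • m 0 a) + ψ 1 (a + 1) - S.X 0 ((c (a + 1))⁻¹ • Om S ψ (a + 1))
    else -(c (n - a) • m 1 a) - (if a = 0 then 0 else S.g • S.D 1 (nu S m (a - 1))) + S.g • ψ 1 a
        - S.X 1 ((c (a + 1))⁻¹ • Om S ψ (a + 1))

/-- the last differential (`a ≤ n`); `m e i` = entry `i` of slot `e` -/
def tau (n : ℕ) (m : Fin 2 → Fin 2 → ℕ → M) (a : ℕ) : M :=
  S.D 1 (S.X 1 (m 0 0 a)) - c (n + 1 - a) • m 0 0 a - S.D 1 (S.X 0 (m 0 1 a)) + c (n - a) • m 0 1 (a + 1)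
    - S.D 0 (S.X 1 (m 1 0 a)) + c a • m 1 0 (a - 1) + S.D 0 (S.X 0 (m 1 1 a)) - c (a + 1) • m 1 1 a

variable {S c}

theorem smem {N : Submodule K M} {r : K} {m : M} (hr : r ≠ 0) (h : r • m ∈ N) : m ∈ N :=
  (Submodule.smul_mem_iff N hr).1 h

theorem mem_of {N : Submodule K M} {x y : M} (h : y ∈ N) (e : x = y) : x ∈ N := e ▸ h

/-- exactness at degree `0` -/
theorem H0 {k P : ℤ} (n : ℕ) (φ : ℕ → M) (hφ : ∀ a ≤ n, φ a ∈ S.F k P)
    (h : ∀ a ≤ n + 1, dps S c n φ 0 a ∈ S.F k P) : ∀ a ≤ n, φ a ∈ S.F (k - 1) P := by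
  intro a ha
  have h1 := smem (inv_ne_zero S.g0) (h (a + 1) (by omega))
  have h2 : S.D 0 (S.X 0 (φ a)) ∈ S.F k P := by
    refine smem S.g0 (mem_of (Submodule.sub_mem _ (Submodule.add_mem _ h1
      (Submodule.smul_mem _ (c a) (hφ a ha))) (hφ a ha)) ?_)
    rw [S.r0]
    abel
  exact S.xinj rfl rfl (hφ a ha) (S.dinj rfl (by ring) (S.Xm 0 rfl (hφ a ha)) h2)

/-- exactness at degree `1` -/
theorem H1 {k P : ℤ} (n : ℕ) (hc : ∀ m, 0 < m → m ≤ n + 1 → c m ≠ 0) (h0 : c 0 = 0)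
    (m ψ : Fin 2 → ℕ → M)
    (_hm : ∀ i, ∀ a < n, m i a ∈ S.F (k + 2) P) (hν : ∀ a < n, nu S m a ∈ S.F k (P + 1))
    (hψ : ∀ e, ∀ a ≤ n + 1, ψ e a ∈ S.F (k + 1) P)
    (hd : ∀ e i, ∀ a ≤ n, dk S c n m ψ e i a ∈ S.F (k + 1) P)
    (hdν : ∀ e, ∀ a ≤ n, nu S (dk S c n m ψ e) a ∈ S.F k (P + 1)) :
    ∃ φ : ℕ → M, (∀ a ≤ n, φ a ∈ S.F k P) ∧ (∀ i, ∀ a < n, m i a - dn S c φ i a ∈ S.F (k + 1) P) ∧
      (∀ a < n, nu S (fun i a => m i a - dn S c φ i a) a ∈ S.F (k - 1) (P + 1)) ∧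
      ∀ e, ∀ a ≤ n + 1, ψ e a - dps S c n φ e a ∈ S.F k P := by
  -- (1)
  have m1 : ∀ i, ∀ a < n, m i a ∈ S.F (k + 1) P := by
    intro i a ha
    have hl : c (a + 1) ≠ 0 := hc _ (by omega) (by omega)
    have h1 := hd 0 i (a + 1) (by omega)
    have h2 := hψ 0 (a + 1 + 1) (by omega)
    have h3 := hψ 0 (a + 1) (by omega)
    have h4 : S.D 0 (nu S m a) ∈ S.F (k + 1) P := S.Dm 0 rfl (by ring) (hν a ha)
    fin_cases i
    · simp only [dk, Fin.zero_eta, if_true, Fin.isValue, Nat.add_sub_cancel,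
        if_neg (Nat.succ_ne_zero a), map_zero, add_zero] at h1
      refine smem hl (mem_of (Submodule.sub_mem _ (Submodule.smul_mem _ S.g h2) h1) ?_)
      show c (a + 1) • m 0 a = _
      abel
    · simp only [dk, Fin.mk_one, one_ne_zero, if_false, if_true, Fin.isValue, Nat.add_sub_cancel,
        if_neg (Nat.succ_ne_zero a), map_zero, add_zero] at h1
      refine smem hl (mem_of (Submodule.sub_mem _ (Submodule.sub_mem _ h3 h4) h1) ?_)
      abel
  -- (2)
  have om : ∀ a ≤ n + 1, Om S ψ a ∈ S.F (k + 1) (P - 1) := by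
    intro a ha
    have hOm : Om S ψ a ∈ S.F (k + 2) (P - 1) :=
      Submodule.sub_mem _ (S.Dm 0 (by ring) rfl (hψ 1 a ha)) (S.Dm 1 (by ring) rfl (hψ 0 a ha))
    refine S.xinj (k := k + 2) (by ring) (Q := P) (by ring) hOm ?_
    rcases a with _ | a
    · have h1 := hd 0 0 0 (by omega)
      have h2 := hψ 0 1 (by omega)
      simp only [dk, if_true, h0, zero_smul, neg_zero, zero_add, map_smul] at h1
      refine smem (inv_ne_zero (hc (n + 1) (by omega) le_rfl))
        (mem_of (Submodule.sub_mem _ h1 (Submodule.smul_mem _ S.g h2)) ?_)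
      abel
    · have h1 := hd 1 0 a (by omega)
      have h2 := hψ 1 (a + 1) (by omega)
      have h3 : c (n - a) • m 0 a ∈ S.F (k + 1) P := by
        by_cases hn : a < n
        · exact Submodule.smul_mem _ _ (m1 0 a hn)
        · rw [show n - a = 0 by omega, h0, zero_smul]
          exact Submodule.zero_mem _
      simp only [dk, one_ne_zero, if_false, if_true, Fin.isValue, map_smul] at h1
      refine smem (inv_ne_zero (hc (a + 1) (by omega) (by omega)))
        (mem_of (Submodule.sub_mem _ (Submodule.sub_mem _ h2 h3) h1) ?_)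
      abel
  -- (3)
  have key : ∀ a, ∃ w, a ≤ n + 1 → (w ∈ S.F k (P + 1) ∧ ψ 1 a - S.D 1 w ∈ S.F k P ∧
      ψ 0 a - S.D 0 w ∈ S.F k P) := by
    intro a
    by_cases ha : a ≤ n + 1
    · obtain ⟨w, hw, hw1, hw2⟩ := S.kd (k := k + 1) (l := k) (by ring) rfl rfl (hψ 1 a ha) (hψ 0 a ha)
        (om a ha)
      exact ⟨w, fun _ => ⟨hw, hw1, hw2⟩⟩
    · exact ⟨0, fun h => absurd h ha⟩
  choose Φ hΦ using key
  -- (4)
  have key2 : ∀ a, ∃ w, a ≤ n → (w ∈ S.F k P ∧
      Φ a - (if a = 0 then 0 else nu S m (a - 1)) - S.X 1 w ∈ S.F (k - 1) (P + 1) ∧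
      Φ (a + 1) - S.X 0 w ∈ S.F (k - 1) (P + 1)) := by
    intro a
    by_cases ha : a ≤ n
    · let N : M := if a = 0 then 0 else nu S m (a - 1)
      have hN : N ∈ S.F k (P + 1) := by
        simp only [N]
        split_ifs with h
        · exact Submodule.zero_mem _
        · exact hν _ (by omega)
      obtain ⟨a1, a2, a3⟩ := hΦ a (by omega)
      obtain ⟨b1, b2, b3⟩ := hΦ (a + 1) (by omega)
      have h1 := hdν 0 a ha
      have hca : c a • nu S m (a - 1) ∈ S.F k (P + 1) := by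
        by_cases h : a = 0
        · rw [h, h0, zero_smul]
          exact Submodule.zero_mem _
        · exact Submodule.smul_mem _ _ (hν _ (by omega))
      have e1 : nu S (dk S c n m ψ 0) a = -(c a • nu S m (a - 1)) + S.g • S.X 1 (ψ 0 (a + 1))
          - S.X 0 (ψ 0 a) + S.X 0 (S.D 0 N) := by
        have e2 : (if a = 0 then (0 : M) else S.D 0 (S.X 1 (m 0 (a - 1))) - S.D 0 (S.X 0 (m 1 (a - 1)))) =
            S.D 0 N := by
          simp only [N, nu]
          split_ifs <;> simp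
        simp only [nu, dk, if_true, one_ne_zero, if_false, Fin.isValue, map_add, map_sub, map_neg,
          map_smul, S.rx]
        rw [e2]
        simp only [smul_sub]
        abel
      have hD0N : S.D 0 N ∈ S.F (k + 1) P := S.Dm 0 rfl (by ring) hN
      have h2 : S.D 0 (S.X 1 (Φ (a + 1)) - S.X 0 (Φ a) + S.X 0 N) ∈ S.F k (P + 1) := by
        refine smem S.g0 ?_
        have t1 : S.g • S.X 1 (ψ 0 (a + 1) - S.D 0 (Φ (a + 1))) ∈ S.F k (P + 1) :=
          Submodule.smul_mem _ _ (S.Xm 1 rfl b3)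
        have t2 : S.X 0 (ψ 0 a - S.D 0 (Φ a)) ∈ S.F k (P + 1) := S.Xm 0 rfl a3
        have t3 := Submodule.add_mem _ (Submodule.sub_mem _ (Submodule.add_mem _ (Submodule.sub_mem _
          (Submodule.add_mem _ h1 hca) t1) t2) hN) a1
        refine mem_of t3 ?_
        rw [e1]
        simp only [map_sub, map_add, smul_sub, smul_add, S.r10, S.r0]
        abel
      have h3 := S.dinj (k := k) (l := k - 1) (P := P + 2) (Q := P + 1) rfl (by ring)
        (Submodule.add_mem _ (Submodule.sub_mem _ (S.Xm 1 (by ring) b1) (S.Xm 0 (by ring) a1))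
          (S.Xm 0 (by ring) hN)) h2
      obtain ⟨w, hw, hw1, hw2⟩ := S.kx (k := k) (l := k - 1) (P := P + 1) (Q := P + 2) (R := P)
        (u := Φ a - N) (v := Φ (a + 1)) rfl (by ring) (by ring) (Submodule.sub_mem _ a1 hN) b1
        (mem_of (Submodule.neg_mem _ h3) (by rw [map_sub]; abel))
      exact ⟨w, fun _ => ⟨hw, hw1, hw2⟩⟩
    · exact ⟨0, fun h => absurd h ha⟩
  choose φ hφ using key2
  have hDφ : ∀ b ≤ n, S.D 0 (φ b) ∈ S.F (k + 1) (P - 1) := fun b hb => S.Dm 0 rfl rfl (hφ b hb).1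
  refine ⟨φ, fun a ha => (hφ a ha).1, ?_, ?_, ?_⟩
  · intro i a ha
    have t1 := hDφ (a + 1) (by omega)
    have t2 : ∀ l ≤ n, φ l ∈ S.F (k + 1) P := fun l hl => S.mono (by omega) (hφ l hl).1
    fin_cases i
    · simp only [dn, Fin.zero_eta, if_true, Fin.isValue]
      refine Submodule.sub_mem _ (m1 0 a ha) (Submodule.sub_mem _ ?_ (t2 _ (by omega)))
      rw [map_smul, map_smul]
      exact Submodule.smul_mem _ _ (S.Xm 0 (by ring) t1)
    · simp only [dn, Fin.mk_one, one_ne_zero, if_false, Fin.isValue]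
      refine Submodule.sub_mem _ (m1 1 a ha) (Submodule.sub_mem _ ?_ (t2 _ (by omega)))
      rw [map_smul, map_smul]
      exact Submodule.smul_mem _ _ (S.Xm 1 (by ring) t1)
  · intro a ha
    have t1 := (hφ (a + 1) (by omega)).2.1
    have t2 := (hφ a (by omega)).2.2
    rw [if_neg (Nat.succ_ne_zero a), Nat.add_sub_cancel] at t1
    refine mem_of (Submodule.sub_mem _ t2 t1) ?_
    simp only [nu, dn, if_true, one_ne_zero, if_false, Fin.isValue, map_sub, map_smul, S.rx]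
    abel
  · intro e a ha
    rcases a with _ | b
    · obtain ⟨a1, a2, a3⟩ := hΦ 0 (by omega)
      obtain ⟨w1, w2, w3⟩ := hφ 0 (by omega)
      rw [if_pos rfl, sub_zero] at w2
      have w4 : S.D e (Φ 0) - S.D e (S.X 1 (φ 0)) ∈ S.F k P := by
        rw [← map_sub]
        exact S.Dm e (by ring) (by ring) w2
      fin_cases e
      · simp only [dps, Fin.zero_eta, if_true, Fin.isValue] at w4 ⊢
        refine mem_of (Submodule.add_mem _ a3 w4) ?_
        rw [S.r10]
        abel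
      · simp only [dps, Fin.mk_one, one_ne_zero, if_false, Fin.isValue] at w4 ⊢
        refine mem_of (Submodule.add_mem _ (Submodule.sub_mem _ (Submodule.add_mem _ a2 w4)
          (Submodule.smul_mem _ S.g⁻¹ w1)) (Submodule.smul_mem _ (S.g⁻¹ * c n) w1)) ?_
        rw [S.r1, smul_sub, smul_add, smul_smul, smul_smul, inv_mul_cancel₀ S.g0, one_smul]
        abel
    · obtain ⟨a1, a2, a3⟩ := hΦ (b + 1) (by omega)
      obtain ⟨w1, w2, w3⟩ := hφ b (by omega)
      have w4 : S.D e (Φ (b + 1)) - S.D e (S.X 0 (φ b)) ∈ S.F k P := by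
        rw [← map_sub]
        exact S.Dm e (by ring) (by ring) w3
      fin_cases e
      · simp only [dps, Fin.zero_eta, if_true, Fin.isValue] at w4 ⊢
        refine mem_of (Submodule.add_mem _ (Submodule.sub_mem _ (Submodule.add_mem _ a3 w4)
          (Submodule.smul_mem _ S.g⁻¹ w1)) (Submodule.smul_mem _ (S.g⁻¹ * c b) w1)) ?_
        rw [S.r0, smul_sub, smul_add, smul_smul, smul_smul, inv_mul_cancel₀ S.g0, one_smul]
        abel
      · have w5 : c (n - b) • φ (b + 1) ∈ S.F k P := by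
          by_cases h : b < n
          · exact Submodule.smul_mem _ _ (hφ (b + 1) (by omega)).1
          · rw [show n - b = 0 by omega, h0, zero_smul]
            exact Submodule.zero_mem _
        simp only [dps, Fin.mk_one, one_ne_zero, if_false, Fin.isValue] at w4 ⊢
        refine mem_of (Submodule.add_mem _ (Submodule.add_mem _ a2 w4) w5) ?_
        rw [S.r01]
        abel

/-- exactness at degree `2` -/
theorem H2 {k P : ℤ} (hk : -1 ≤ k) (hP : 0 ≤ P + k ∨ k < 0) (n : ℕ)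
    (hc : ∀ m, 0 < m → m ≤ n + 1 → c m ≠ 0) (h0 : c 0 = 0) (m : Fin 2 → Fin 2 → ℕ → M)
    (hm : ∀ e i, ∀ a ≤ n, m e i a ∈ S.F (k + 2) P)
    (hν : ∀ e, ∀ a ≤ n, nu S (m e) a ∈ S.F (k + 1) (P + 1))
    (hτ : ∀ a ≤ n, tau S c n m a ∈ S.F (k + 1) P) :
    ∃ (l ψ : Fin 2 → ℕ → M), (∀ i, ∀ a < n, l i a ∈ S.F (k + 2) P) ∧
      (∀ a < n, nu S l a ∈ S.F k (P + 1)) ∧ (∀ e, ∀ a ≤ n + 1, ψ e a ∈ S.F (k + 1) P) ∧
      (∀ e i, ∀ a ≤ n, m e i a - dk S c n l ψ e i a ∈ S.F (k + 1) P) ∧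
      ∀ e, ∀ a ≤ n, nu S (fun i a => m e i a - dk S c n l ψ e i a) a ∈ S.F k (P + 1) := by
  -- symbols of the columns
  have key : ∀ e a, ∃ w, a ≤ n → (w ∈ S.F (k + 2) (P - 1) ∧ m e 1 a - S.X 1 w ∈ S.F (k + 1) P ∧
      m e 0 a - S.X 0 w ∈ S.F (k + 1) P) := by
    intro e a
    by_cases ha : a ≤ n
    · obtain ⟨w, hw, hw1, hw2⟩ := S.kx (k := k + 2) (l := k + 1) (P := P) (Q := P + 1) (R := P - 1)
        (u := m e 1 a) (v := m e 0 a) (by ring) rfl rfl (hm e 1 a ha) (hm e 0 a ha)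
        (mem_of (Submodule.neg_mem _ (hν e a ha)) (by simp only [nu]; abel))
      exact ⟨w, fun _ => ⟨hw, hw1, hw2⟩⟩
    · exact ⟨0, fun h => absurd h ha⟩
  choose Z hZ using key
  let Ω : ℕ → M := fun a => c (n + 1 - a) • Z 0 a - c a • Z 1 (a - 1)
  have hΩ : ∀ a ≤ n + 1, Ω a ∈ S.F (k + 2) (P - 1) := by
    intro a ha
    refine Submodule.sub_mem _ ?_ ?_
    · by_cases h : a ≤ n
      · exact Submodule.smul_mem _ _ (hZ 0 a h).1
      · rw [show n + 1 - a = 0 by omega, h0, zero_smul]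
        exact Submodule.zero_mem _
    · by_cases h : a = 0
      · rw [h, h0, zero_smul]
        exact Submodule.zero_mem _
      · exact Submodule.smul_mem _ _ (hZ 1 (a - 1) (by omega)).1
  have key1 : ∀ a, ∃ u v, a ≤ n + 1 → (u ∈ S.F (k + 1) P ∧ v ∈ S.F (k + 1) P ∧
      Ω a - S.D 0 u + S.D 1 v ∈ S.F (k + 1) (P - 1)) := by
    intro a
    by_cases ha : a ≤ n + 1
    · obtain ⟨u, hu, v, hv, h⟩ := S.sd (k := k + 2) (l := k + 1) (P := P - 1) (R := P) (by ring)
        (by ring) (by omega) (hΩ a ha)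
      refine ⟨u, -v, fun _ => ⟨hu, Submodule.neg_mem _ hv, mem_of h ?_⟩⟩
      rw [map_neg]
      abel
    · exact ⟨0, 0, fun h => absurd h ha⟩
  choose p q hpq using key1
  have hE : ∀ a ≤ n + 1, Ω a - (S.D 0 (p a) - S.D 1 (q a)) ∈ S.F (k + 1) (P - 1) := by
    intro a ha
    exact mem_of (hpq a ha).2.2 (by abel)
  -- `ν''`
  let ν0 : ℕ → M := fun a => nu S (m 0) a - (S.g • S.X 1 (q (a + 1)) - S.X 0 (q a))
  let ν1 : ℕ → M := fun a => nu S (m 1) a - (S.X 1 (p (a + 1)) - S.g • S.X 0 (p a))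
  have hν0 : ∀ a ≤ n, ν0 a ∈ S.F (k + 1) (P + 1) := fun a ha =>
    Submodule.sub_mem _ (hν 0 a ha) (Submodule.sub_mem _
      (Submodule.smul_mem _ _ (S.Xm 1 rfl (hpq (a + 1) (by omega)).2.1)) (S.Xm 0 rfl (hpq a (by omega)).2.1))
  have hν1 : ∀ a ≤ n, ν1 a ∈ S.F (k + 1) (P + 1) := fun a ha =>
    Submodule.sub_mem _ (hν 1 a ha) (Submodule.sub_mem _ (S.Xm 1 rfl (hpq (a + 1) (by omega)).1)
      (Submodule.smul_mem _ _ (S.Xm 0 rfl (hpq a (by omega)).1)))
  have key2 : ∀ a, ∃ w, a ≤ n → (w ∈ S.F k (P + 2) ∧ ν1 a - S.D 1 w ∈ S.F k (P + 1) ∧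
      ν0 a - S.D 0 w ∈ S.F k (P + 1)) := by
    intro a
    by_cases ha : a ≤ n
    · have h1 := hτ a ha
      -- lower order terms of `τ`
      have z00 := (hZ 0 a ha).2.2
      have z11 := (hZ 1 a ha).2.1
      have z01 : c (n - a) • (m 0 1 (a + 1) - S.X 1 (Z 0 (a + 1))) ∈ S.F (k + 1) P := by
        by_cases h : a < n
        · exact Submodule.smul_mem _ _ (hZ 0 (a + 1) (by omega)).2.1
        · rw [show n - a = 0 by omega, h0, zero_smul]
          exact Submodule.zero_mem _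
      have z10 : c a • (m 1 0 (a - 1) - S.X 0 (Z 1 (a - 1))) ∈ S.F (k + 1) P := by
        by_cases h : a = 0
        · rw [h, h0, zero_smul]
          exact Submodule.zero_mem _
        · exact Submodule.smul_mem _ _ (hZ 1 (a - 1) (by omega)).2.2
      have h2 : S.D 1 (nu S (m 0) a) - S.D 0 (nu S (m 1) a) - (S.X 0 (Ω a) - S.X 1 (Ω (a + 1))) ∈
          S.F (k + 1) P := by
        have t := Submodule.add_mem _ (Submodule.sub_mem _ (Submodule.sub_mem _ (Submodule.add_mem _ h1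
          (Submodule.smul_mem _ (c (n + 1 - a)) z00)) z01) z10) (Submodule.smul_mem _ (c (a + 1)) z11)
        refine mem_of t ?_
        simp only [tau, nu, Ω, Nat.add_sub_cancel, show n + 1 - (a + 1) = n - a by omega, map_sub,
          map_smul, smul_sub]
        abel
      have h3 := S.Xm 0 (Q := P) (by ring) (hE a (by omega))
      have h4 := S.Xm 1 (Q := P) (by ring) (hE (a + 1) (by omega))
      have q1 := (hpq a (by omega)).1
      have q2 := (hpq a (by omega)).2.1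
      have q3 := (hpq (a + 1) (by omega)).1
      have q4 := (hpq (a + 1) (by omega)).2.1
      have h5 : S.D 0 (ν1 a) - S.D 1 (ν0 a) ∈ S.F (k + 1) P := by
        have t := Submodule.sub_mem _ (Submodule.sub_mem _ (Submodule.add_mem _ (Submodule.neg_mem _
          (Submodule.add_mem _ h2 h3)) h4) q1) q4
        refine mem_of t ?_
        have r1 : S.D 1 (S.X 1 (q (a + 1))) = S.g⁻¹ • (S.X 1 (S.D 1 (q (a + 1))) - q (a + 1)) := by
          rw [S.r1, add_sub_cancel_left, smul_smul, inv_mul_cancel₀ S.g0, one_smul]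
        have r2 : S.D 0 (S.X 0 (p a)) = S.g⁻¹ • (S.X 0 (S.D 0 (p a)) - p a) := by
          rw [S.r0, add_sub_cancel_left, smul_smul, inv_mul_cancel₀ S.g0, one_smul]
        simp only [ν0, ν1, map_sub, map_smul]
        rw [r1, r2, ← S.r01, ← S.r10]
        simp only [smul_smul, mul_inv_cancel₀ S.g0, one_smul]
        abel
      obtain ⟨w, hw, hw1, hw2⟩ := S.kd (k := k + 1) (l := k) (P := P + 1) (Q := P) (R := P + 2)
        (u := ν1 a) (v := ν0 a) (by ring) (by ring) (by ring) (hν1 a ha) (hν0 a ha) h5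
      exact ⟨w, fun _ => ⟨hw, hw1, hw2⟩⟩
    · exact ⟨0, fun h => absurd h ha⟩
  choose L hL using key2
  have key3 : ∀ a, ∃ u v, a ≤ n → (u ∈ S.F k (P + 1) ∧ v ∈ S.F k (P + 1) ∧
      S.g⁻¹ • L a - (S.X 1 u - S.X 0 v) ∈ S.F (k - 1) (P + 2)) := by
    intro a
    by_cases ha : a ≤ n
    · obtain ⟨u, hu, v, hv, h⟩ := S.sx (k := k) (l := k - 1) (P := P + 2) (R := P + 1)
        (m := S.g⁻¹ • L a) rfl (by ring) (by omega) (Submodule.smul_mem _ _ (hL a ha).1)
      refine ⟨v, -u, fun _ => ⟨hv, Submodule.neg_mem _ hu, mem_of h ?_⟩⟩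
      rw [map_neg]
      abel
    · exact ⟨0, 0, fun h => absurd h ha⟩
  choose A B hAB using key3
  -- `Φ`, `ν`
  let Φ : ℕ → M := fun a => if a = 0 then B 0 else A (a - 1)
  have hΦ : ∀ a ≤ n + 1, Φ a ∈ S.F k (P + 1) := by
    intro a ha
    simp only [Φ]
    split_ifs with h
    · exact (hAB 0 (by omega)).2.1
    · exact (hAB (a - 1) (by omega)).1
  have key4 : ∀ a, ∃ u v, a < n → (u ∈ S.F k P ∧ v ∈ S.F k P ∧
      A a - B (a + 1) - (S.X 1 u - S.X 0 v) ∈ S.F (k - 1) (P + 1)) := by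
    intro a
    by_cases ha : a < n
    · obtain ⟨u, hu, v, hv, h⟩ := S.sx (k := k) (l := k - 1) (P := P + 1) (R := P)
        (m := A a - B (a + 1)) rfl (by ring) (by omega)
        (Submodule.sub_mem _ (hAB a (by omega)).1 (hAB (a + 1) (by omega)).2.1)
      refine ⟨v, -u, fun _ => ⟨hv, Submodule.neg_mem _ hu, mem_of h ?_⟩⟩
      rw [map_neg]
      abel
    · exact ⟨0, 0, fun h => absurd h ha⟩
  choose G0 G1 hG using key4
  let z : ℕ → M := fun a => -((c (a + 1))⁻¹ • Z 0 (a + 1))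
  let l : Fin 2 → ℕ → M := fun i a => S.X i (z a) + (if i = 0 then G0 a else G1 a)
  let ψ : Fin 2 → ℕ → M := fun e a => if e = 0 then q a + S.D 0 (Φ a) else p a + S.D 1 (Φ a)
  have hz : ∀ a < n, z a ∈ S.F (k + 2) (P - 1) := fun a ha =>
    Submodule.neg_mem _ (Submodule.smul_mem _ _ (hZ 0 (a + 1) (by omega)).1)
  have hνl : ∀ a, nu S l a = S.X 1 (G0 a) - S.X 0 (G1 a) := by
    intro a
    simp only [nu, l, if_true, one_ne_zero, if_false, Fin.isValue, map_add, S.rx]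
    abel
  have hνl' : ∀ a < n, nu S l a ∈ S.F k (P + 1) := by
    intro a ha
    rw [hνl]
    exact Submodule.sub_mem _ (S.Xm 1 rfl (hG a ha).1) (S.Xm 0 rfl (hG a ha).2.1)
  have hOm : ∀ a, Om S ψ a = S.D 0 (p a) - S.D 1 (q a) := by
    intro a
    simp only [Om, ψ, if_true, one_ne_zero, if_false, Fin.isValue, map_add, S.rd]
    abel
  have hψ : ∀ e, ∀ a ≤ n + 1, ψ e a ∈ S.F (k + 1) P := by
    intro e a ha
    fin_cases e
    · exact Submodule.add_mem _ (hpq a ha).2.1 (S.Dm 0 rfl (by ring) (hΦ a ha))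
    · exact Submodule.add_mem _ (hpq a ha).1 (S.Dm 1 rfl (by ring) (hΦ a ha))
  have hGm : ∀ i : Fin 2, ∀ a < n, (if i = 0 then G0 a else G1 a) ∈ S.F (k + 1) P := by
    intro i a ha
    split_ifs
    · exact S.mono (by omega) (hG a ha).1
    · exact S.mono (by omega) (hG a ha).2.1
  have hcG : ∀ i : Fin 2, ∀ a ≤ n, c a • (if i = 0 then G0 (a - 1) else G1 (a - 1)) ∈ S.F (k + 1) P := by
    intro i a ha
    by_cases h : a = 0
    · rw [h, h0, zero_smul]
      exact Submodule.zero_mem _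
    · exact Submodule.smul_mem _ _ (hGm i (a - 1) (by omega))
  have hcG' : ∀ i : Fin 2, ∀ a ≤ n, c (n - a) • (if i = 0 then G0 a else G1 a) ∈ S.F (k + 1) P := by
    intro i a ha
    by_cases h : a < n
    · exact Submodule.smul_mem _ _ (hGm i a h)
    · rw [show n - a = 0 by omega, h0, zero_smul]
      exact Submodule.zero_mem _
  -- the symbols agree
  have C0 : ∀ a ≤ n, Z 0 a + c a • z (a - 1) - (if a = 0 then (c (n + 1))⁻¹ • Om S ψ 0 else 0) ∈
      S.F (k + 1) (P - 1) := by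
    intro a ha
    rcases a with _ | a
    · have hl := hc (n + 1) (by omega) le_rfl
      have t := Submodule.smul_mem _ (c (n + 1))⁻¹ (hE 0 (by omega))
      refine mem_of t ?_
      rw [hOm]
      simp only [Ω, h0, zero_smul, sub_zero, add_zero, if_true, Nat.sub_zero, smul_sub, smul_smul,
        inv_mul_cancel₀ hl, one_smul]
    · have hl := hc (a + 1) (by omega) (by omega)
      refine mem_of (Submodule.zero_mem _) ?_
      simp only [if_neg (Nat.succ_ne_zero a), sub_zero, z, Nat.add_sub_cancel, smul_neg, smul_smul,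
        mul_inv_cancel₀ hl, one_smul, add_neg_cancel]
  have C1 : ∀ a ≤ n, Z 1 a + c (n - a) • z a + (c (a + 1))⁻¹ • Om S ψ (a + 1) ∈
      S.F (k + 1) (P - 1) := by
    intro a ha
    have hl := hc (a + 1) (by omega) (by omega)
    have t := Submodule.neg_mem _ (Submodule.smul_mem _ (c (a + 1))⁻¹ (hE (a + 1) (by omega)))
    refine mem_of t ?_
    rw [hOm]
    simp only [Ω, Nat.add_sub_cancel, show n + 1 - (a + 1) = n - a by omega, smul_sub, smul_smul, z,
      smul_neg, inv_mul_cancel₀ hl, one_smul, mul_comm (c (n - a))]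
    abel
  let N : ℕ → M := fun a => if a = 0 then 0 else nu S l (a - 1)
  have hN : ∀ a ≤ n, N a ∈ S.F k (P + 1) := by
    intro a ha
    simp only [N]
    split_ifs with h
    · exact Submodule.zero_mem _
    · exact hνl' _ (by omega)
  have C2 : ∀ a ≤ n, L a - S.g • (S.X 1 (Φ (a + 1)) - S.X 0 (Φ a) + S.X 0 (N a)) ∈
      S.F (k - 1) (P + 2) := by
    intro a ha
    have t1 := Submodule.smul_mem _ S.g (hAB a ha).2.2
    rcases a with _ | a
    · refine mem_of t1 ?_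
      simp only [Φ, N, if_true, zero_add, if_neg one_ne_zero, Nat.sub_self, map_zero, add_zero,
        smul_sub, smul_smul, mul_inv_cancel₀ S.g0, one_smul]
    · have t2 := Submodule.smul_mem _ S.g (S.Xm 0 (Q := P + 2) (by ring) (hG a (by omega)).2.2)
      refine mem_of (Submodule.add_mem _ t1 t2) ?_
      simp only [Φ, N, if_neg (Nat.succ_ne_zero _), Nat.add_sub_cancel, hνl, map_sub, smul_sub,
        smul_add, smul_smul, mul_inv_cancel₀ S.g0, one_smul]
      abel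
  have hcN : ∀ a ≤ n, c a • nu S l (a - 1) ∈ S.F k (P + 1) := by
    intro a ha
    by_cases h : a = 0
    · rw [h, h0, zero_smul]
      exact Submodule.zero_mem _
    · exact Submodule.smul_mem _ _ (hνl' _ (by omega))
  have hcN' : ∀ a ≤ n, c (n - a) • nu S l a ∈ S.F k (P + 1) := by
    intro a ha
    by_cases h : a < n
    · exact Submodule.smul_mem _ _ (hνl' _ h)
    · rw [show n - a = 0 by omega, h0, zero_smul]
      exact Submodule.zero_mem _
  have eN : ∀ a, (if a = 0 then (0 : M) else S.D 0 (nu S l (a - 1))) = S.D 0 (N a) := by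
    intro a
    simp only [N]
    split_ifs <;> simp
  have eN' : ∀ a, (if a = 0 then (0 : M) else S.g • S.D 1 (nu S l (a - 1))) = S.g • S.D 1 (N a) := by
    intro a
    simp only [N]
    split_ifs <;> simp
  refine ⟨l, ψ, ?_, hνl', hψ, ?_, ?_⟩
  · intro i a ha
    exact Submodule.add_mem _ (S.Xm i (by ring) (hz a ha)) (S.mono (by omega) (hGm i a ha))
  · intro e i a ha
    have t0 := S.Xm i (Q := P) (by ring) (C0 a ha)
    have t1 := S.Xm i (Q := P) (by ring) (C1 a ha)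
    have t2 := hcG i a ha
    have t3 := hcG' i a ha
    have t4 := hψ 0 (a + 1) (by omega)
    have t5 := hψ 0 a (by omega)
    have t6 := hψ 1 (a + 1) (by omega)
    have t7 := hψ 1 a (by omega)
    have t8 : S.D 0 (N a) ∈ S.F (k + 1) P := S.Dm 0 rfl (by ring) (hN a ha)
    have t9 : S.D 1 (N a) ∈ S.F (k + 1) P := S.Dm 1 rfl (by ring) (hN a ha)
    have s0 := (hZ e a ha).2.2
    have s1 := (hZ e a ha).2.1
    fin_cases e
    · fin_cases i
      · refine mem_of (Submodule.sub_mem _ (Submodule.add_mem _ (Submodule.add_mem _ s0 t0) t2)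
          (Submodule.smul_mem _ S.g t4)) ?_
        simp only [dk, l, Fin.zero_eta, Fin.isValue, if_true, map_add, map_sub, map_smul, smul_add]
        abel
      · refine mem_of (Submodule.sub_mem _ (Submodule.add_mem _ (Submodule.add_mem _
          (Submodule.add_mem _ s1 t0) t2) t8) t5) ?_
        simp only [dk, Fin.zero_eta, Fin.mk_one, Fin.isValue, if_true, one_ne_zero, if_false, eN]
        simp only [l, one_ne_zero, if_false, Fin.isValue, map_add, map_sub, map_smul, smul_add]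
        abel
    · fin_cases i
      · refine mem_of (Submodule.sub_mem _ (Submodule.add_mem _ (Submodule.add_mem _ s0 t1) t3) t6) ?_
        simp only [dk, l, Fin.zero_eta, Fin.mk_one, Fin.isValue, if_true, one_ne_zero, if_false,
          map_add, map_sub, map_smul, smul_add]
        abel
      · refine mem_of (Submodule.sub_mem _ (Submodule.add_mem _ (Submodule.add_mem _
          (Submodule.add_mem _ s1 t1) t3) (Submodule.smul_mem _ S.g t9))
          (Submodule.smul_mem _ S.g t7)) ?_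
        simp only [dk, Fin.zero_eta, Fin.mk_one, Fin.isValue, one_ne_zero, if_false, eN']
        simp only [l, one_ne_zero, if_false, Fin.isValue, map_add, map_sub, map_smul, smul_add]
        abel
  · intro e a ha
    obtain ⟨l1, l2, l3⟩ := hL a ha
    have u0 := hΦ a (by omega)
    have u1 := hΦ (a + 1) (by omega)
    fin_cases e
    · have t := S.Dm 0 (l := k) (Q := P + 1) (by ring) (by ring) (C2 a ha)
      refine mem_of (Submodule.add_mem _ (Submodule.sub_mem _ (Submodule.add_mem _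
        (Submodule.add_mem _ l3 (hcN a ha)) u0) (hN a ha)) t) ?_
      have e1 : nu S (dk S c n l ψ 0) a = -(c a • nu S l (a - 1)) + S.g • S.X 1 (ψ 0 (a + 1))
          - S.X 0 (ψ 0 a) + S.X 0 (S.D 0 (N a)) := by
        rw [← eN]
        simp only [nu, dk, if_true, one_ne_zero, if_false, Fin.isValue, map_add, map_sub, map_neg,
          map_smul, S.rx, smul_sub]
        abel
      have e2 : nu S (fun i a => m 0 i a - dk S c n l ψ 0 i a) a =
          nu S (m 0) a - nu S (dk S c n l ψ 0) a := by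
        simp only [nu, map_sub]
        abel
      show nu S (fun i a => m 0 i a - dk S c n l ψ 0 i a) a = _
      rw [e2, e1]
      simp only [ν0, ψ, if_true, map_add, map_sub, map_smul, S.r0, S.r10, smul_add, smul_sub]
      abel
    · have t := S.Dm 1 (l := k) (Q := P + 1) (by ring) (by ring) (C2 a ha)
      refine mem_of (Submodule.add_mem _ (Submodule.sub_mem _ (Submodule.add_mem _ l2 (hcN' a ha)) u1)
        t) ?_
      have e1 : nu S (dk S c n l ψ 1) a = -(c (n - a) • nu S l a) + S.X 1 (ψ 1 (a + 1))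
          - S.g • S.X 0 (ψ 1 a) + S.g • S.X 0 (S.D 1 (N a)) := by
        rw [← map_smul (S.X 0) S.g (S.D 1 (N a)), ← eN']
        simp only [nu, dk, if_true, one_ne_zero, if_false, Fin.isValue, map_add, map_sub, map_neg,
          map_smul, S.rx, smul_sub]
        abel
      have e2 : nu S (fun i a => m 1 i a - dk S c n l ψ 1 i a) a =
          nu S (m 1) a - nu S (dk S c n l ψ 1) a := by
        simp only [nu, map_sub]
        abel
      show nu S (fun i a => m 1 i a - dk S c n l ψ 1 i a) a = _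
      rw [e2, e1]
      simp only [ν1, ψ, one_ne_zero, if_false, Fin.isValue, map_add, map_sub, map_smul, S.r1, S.r01,
        smul_add, smul_sub]
      abel

/-- exactness at degree `3` -/
theorem H3 {k P : ℤ} (hk : -1 ≤ k) (hP : -1 ≤ P + k) (n : ℕ) (h0 : c 0 = 0) (t : ℕ → M)
    (ht : ∀ a ≤ n, t a ∈ S.F (k + 2) P) :
    ∃ m : Fin 2 → Fin 2 → ℕ → M, (∀ e i, ∀ a ≤ n, m e i a ∈ S.F (k + 2) P) ∧
      (∀ e, ∀ a ≤ n, nu S (m e) a ∈ S.F (k + 1) (P + 1)) ∧
      ∀ a ≤ n, t a - tau S c n m a ∈ S.F (k + 1) P := by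
  have key : ∀ a, ∃ u v : M, ∃ m : Fin 2 → Fin 2 → M, a ≤ n →
      (t a - S.D 0 u - S.D 1 v ∈ S.F (k + 1) P ∧ (∀ e i, m e i ∈ S.F (k + 1) P) ∧
        u + (S.X 1 (m 1 0) - S.X 0 (m 1 1)) ∈ S.F k (P + 1) ∧
        v - (S.X 1 (m 0 0) - S.X 0 (m 0 1)) ∈ S.F k (P + 1)) := by
    intro a
    by_cases ha : a ≤ n
    · obtain ⟨u, hu, v, hv, h⟩ := S.sd (k := k + 2) (l := k + 1) (P := P) (R := P + 1) (by ring) rfl
        (by omega) (ht a ha)
      obtain ⟨u1, hu1, u2, hu2, h2⟩ := S.sx (k := k + 1) (l := k) (P := P + 1) (R := P) (by ring)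
        (by ring) (by omega) hu
      obtain ⟨v1, hv1, v2, hv2, h3⟩ := S.sx (k := k + 1) (l := k) (P := P + 1) (R := P) (by ring)
        (by ring) (by omega) hv
      refine ⟨u, v, fun e i => if e = 0 then (if i = 0 then v2 else -v1) else (if i = 0 then -u2 else u1),
        fun _ => ⟨h, ?_, ?_, ?_⟩⟩
      · intro e i
        fin_cases e <;> fin_cases i
        · exact hv2
        · exact Submodule.neg_mem _ hv1
        · exact Submodule.neg_mem _ hu2
        · exact hu1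
      · refine mem_of h2 ?_
        simp only [one_ne_zero, if_false, if_true, Fin.isValue, map_neg]
        abel
      · refine mem_of h3 ?_
        simp only [one_ne_zero, if_false, if_true, Fin.isValue, map_neg]
        abel
    · exact ⟨0, 0, fun _ _ => 0, fun h => absurd h ha⟩
  choose u v m hm using key
  have hm1 : ∀ e i, ∀ a ≤ n, m a e i ∈ S.F (k + 1) P := fun e i a ha => (hm a ha).2.1 e i
  refine ⟨fun e i a => m a e i, fun e i a ha => S.mono (by omega) (hm1 e i a ha), ?_, ?_⟩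
  · intro e a ha
    exact Submodule.sub_mem _ (S.Xm 1 rfl (hm1 e 0 a ha)) (S.Xm 0 rfl (hm1 e 1 a ha))
  · intro a ha
    obtain ⟨h1, h2, h3, h4⟩ := hm a ha
    have t1 := S.Dm 0 (l := k + 1) (Q := P) rfl (by ring) h3
    have t2 := S.Dm 1 (l := k + 1) (Q := P) rfl (by ring) h4
    have z01 : c (n - a) • m (a + 1) 0 1 ∈ S.F (k + 1) P := by
      by_cases h : a < n
      · exact Submodule.smul_mem _ _ (hm1 0 1 (a + 1) (by omega))
      · rw [show n - a = 0 by omega, h0, zero_smul]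
        exact Submodule.zero_mem _
    have z10 : c a • m (a - 1) 1 0 ∈ S.F (k + 1) P := by
      by_cases h : a = 0
      · rw [h, h0, zero_smul]
        exact Submodule.zero_mem _
      · exact Submodule.smul_mem _ _ (hm1 1 0 (a - 1) (by omega))
    refine mem_of (Submodule.add_mem _ (Submodule.sub_mem _ (Submodule.sub_mem _ (Submodule.add_mem _
      (Submodule.add_mem _ (Submodule.add_mem _ h1 t1) t2)
      (Submodule.smul_mem _ (c (n + 1 - a)) (h2 0 0))) z01) z10)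
      (Submodule.smul_mem _ (c (a + 1)) (h2 1 1))) ?_
    simp only [tau, map_add, map_sub]
    abel

end Crest.Agent.R186.LCF442
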