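import Crest.Agent.R186.LC_369

/-!
# Row 186, S0281 base (helper369): the filtered (`h = 1`) form of the LC theorem, `s = 0`

`U` a left module over the operators (`x i`, `d i`, `x_i d_i = 1 + g d_i x_i`), `L0 = L 0 e`,
`L1 = L 1 e`, `L2 = L 2 e`, `Lp = L 0 (e+1)` the lattices of the column, `p0, p1, p2, pp` the
symbol maps onto the `h = 0` pieces `N00, N11, N22, N10` of `S : LC369.Sq`.
-/

set_option autoImplicit false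

namespace Crest.Agent.R186.LC369

variable {K : Type*} [Field K] {g : K} {N00 N01 N02 N10 N11 N12 N22 : Type*}
    [AddCommGroup N00] [Module K N00] [AddCommGroup N01] [Module K N01]
    [AddCommGroup N02] [Module K N02] [AddCommGroup N10] [Module K N10]
    [AddCommGroup N11] [Module K N11] [AddCommGroup N12] [Module K N12]
    [AddCommGroup N22] [Module K N22]

/-- the dictionary between lattices and symbols -/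
structure Dict (S : Sq K g N00 N01 N02 N10 N11 N12 N22) (U : Type*) [AddCommGroup U] [Module K U] where
  x : Fin 2 → U →ₗ[K] U
  d : Fin 2 → U →ₗ[K] U
  xx : ∀ u, x 0 (x 1 u) = x 1 (x 0 u)
  xd0 : ∀ i u, x i (d i u) = u + g • d i (x i u)
  xd1 : ∀ i j u, i ≠ j → x i (d j u) = d j (x i u)
  L0 : Submodule K U
  L1 : Submodule K U
  L2 : Submodule K U
  Lp : Submodule K U
  p0 : L0 →ₗ[K] N00
  p1 : L1 →ₗ[K] N11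
  p2 : L2 →ₗ[K] N22
  pp : Lp →ₗ[K] N10
  h01 : ∀ u, u ∈ L0 → u ∈ L1
  h12 : ∀ u, u ∈ L1 → u ∈ L2
  k01 : ∀ u (h : u ∈ L0), p1 ⟨u, h01 u h⟩ = 0
  k12 : ∀ u (h : u ∈ L1), p2 ⟨u, h12 u h⟩ = 0
  xm : ∀ i u, u ∈ L0 → x i u ∈ Lp
  px : ∀ i u (h : u ∈ L0), pp ⟨x i u, xm i u h⟩ = S.xa i (p0 ⟨u, h⟩)
  dm : ∀ i u, u ∈ Lp → d i u ∈ L1
  pd : ∀ i u (h : u ∈ Lp), p1 ⟨d i u, dm i u h⟩ = S.dc i (pp ⟨u, h⟩)
  xdm0 : ∀ j i u, u ∈ L0 → x j (d i u) ∈ L1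
  pxd0 : ∀ j i u (h : u ∈ L0), p1 ⟨x j (d i u), xdm0 j i u h⟩ = S.xb j (S.da i (p0 ⟨u, h⟩))
  xdm1 : ∀ j i u, u ∈ L1 → x j (d i u) ∈ L2
  pxd1 : ∀ j i u (h : u ∈ L1), p2 ⟨x j (d i u), xdm1 j i u h⟩ = S.xd j (S.dd i (p1 ⟨u, h⟩))
  /-- `x`-Koszul at the `K`-vertices -/
  k1 : ∀ u v (hu : u ∈ L1) (hv : v ∈ L1), x 1 u - x 0 v ∈ Lp →
    ∃ z, p1 ⟨u, hu⟩ = S.xb 0 z ∧ p1 ⟨v, hv⟩ = S.xb 1 z
  k2 : ∀ u v (hu : u ∈ L2) (hv : v ∈ L2), x 1 u - x 0 v ∈ Lp →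
    ∃ z, p2 ⟨u, hu⟩ = S.xd 0 z ∧ p2 ⟨v, hv⟩ = S.xd 1 z
  xbi : ∀ z : N01, S.xb 1 z = 0 → z = 0
  /-- surjectivity of the dictionary -/
  s0 : Function.Surjective p0
  s1 : Function.Surjective p1
  l1 : ∀ (z : N01) (m : N10), ∃ (u v : U) (hu : u ∈ L1) (hv : v ∈ L1) (hm : x 1 u - x 0 v ∈ Lp),
    p1 ⟨u, hu⟩ = S.xb 0 z ∧ p1 ⟨v, hv⟩ = S.xb 1 z ∧ pp ⟨x 1 u - x 0 v, hm⟩ = m
  l2 : ∀ (z : N12) (m : N10), ∃ (u v : U) (hu : u ∈ L2) (hv : v ∈ L2) (hm : x 1 u - x 0 v ∈ Lp),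
    p2 ⟨u, hu⟩ = S.xd 0 z ∧ p2 ⟨v, hv⟩ = S.xd 1 z ∧ pp ⟨x 1 u - x 0 v, hm⟩ = m

variable {S : Sq K g N00 N01 N02 N10 N11 N12 N22} {U : Type*} [AddCommGroup U] [Module K U]
  (T : Dict S U) (lam : ℕ → K)

namespace Dict

/-- the submodule of `L_i` of elements of symbol `0` -/
def M0 : Submodule K U := (LinearMap.ker T.p0).map T.L0.subtype
def M1 : Submodule K U := (LinearMap.ker T.p1).map T.L1.subtype
def M2 : Submodule K U := (LinearMap.ker T.p2).map T.L2.subtype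
def Mp : Submodule K U := (LinearMap.ker T.pp).map T.Lp.subtype

theorem mem_M0 {u : U} : u ∈ T.M0 ↔ ∃ h : u ∈ T.L0, T.p0 ⟨u, h⟩ = 0 := by
  simp [M0, Submodule.mem_map, LinearMap.mem_ker]

theorem mem_M1 {u : U} : u ∈ T.M1 ↔ ∃ h : u ∈ T.L1, T.p1 ⟨u, h⟩ = 0 := by
  simp [M1, Submodule.mem_map, LinearMap.mem_ker]

theorem mem_M2 {u : U} : u ∈ T.M2 ↔ ∃ h : u ∈ T.L2, T.p2 ⟨u, h⟩ = 0 := by
  simp [M2, Submodule.mem_map, LinearMap.mem_ker]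

theorem mem_Mp {u : U} : u ∈ T.Mp ↔ ∃ h : u ∈ T.Lp, T.pp ⟨u, h⟩ = 0 := by
  simp [Mp, Submodule.mem_map, LinearMap.mem_ker]

theorem sub_M1 {u v : U} (hu : u ∈ T.L1) (hv : v ∈ T.L1) :
    u - v ∈ T.M1 ↔ T.p1 ⟨u, hu⟩ = T.p1 ⟨v, hv⟩ := by
  rw [mem_M1]
  constructor
  · rintro ⟨h, h0⟩
    rw [← sub_eq_zero, ← map_sub]
    exact h0
  · intro h
    refine ⟨sub_mem hu hv, ?_⟩
    have : (⟨u - v, sub_mem hu hv⟩ : T.L1) = ⟨u, hu⟩ - ⟨v, hv⟩ := rfl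
    rw [this, map_sub, h, sub_self]

theorem sub_M2 {u v : U} (hu : u ∈ T.L2) (hv : v ∈ T.L2) :
    u - v ∈ T.M2 ↔ T.p2 ⟨u, hu⟩ = T.p2 ⟨v, hv⟩ := by
  rw [mem_M2]
  constructor
  · rintro ⟨h, h0⟩
    rw [← sub_eq_zero, ← map_sub]
    exact h0
  · intro h
    refine ⟨sub_mem hu hv, ?_⟩
    have : (⟨u - v, sub_mem hu hv⟩ : T.L2) = ⟨u, hu⟩ - ⟨v, hv⟩ := rfl
    rw [this, map_sub, h, sub_self]

theorem sub_Mp {u v : U} (hu : u ∈ T.Lp) (hv : v ∈ T.Lp) :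
    u - v ∈ T.Mp ↔ T.pp ⟨u, hu⟩ = T.pp ⟨v, hv⟩ := by
  rw [mem_Mp]
  constructor
  · rintro ⟨h, h0⟩
    rw [← sub_eq_zero, ← map_sub]
    exact h0
  · intro h
    refine ⟨sub_mem hu hv, ?_⟩
    have : (⟨u - v, sub_mem hu hv⟩ : T.Lp) = ⟨u, hu⟩ - ⟨v, hv⟩ := rfl
    rw [this, map_sub, h, sub_self]

end Dict

end Crest.Agent.R186.LC369
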