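import Crest.Agent.R186.LCA_229
import Crest.Agent.R186.B281P_128
import Crest.Agent.R186.FamX2_823

/-!
Row 186, S0281 base (helper229): the families `TV`, `pi`, `prod` are `Good` (see `LCA_229`).
-/

set_option autoImplicit false
set_option linter.unusedSectionVars false

open Matrix

noncomputable section

namespace Crest.Agent.R186.B281

open FamX823

variable {K : Type} [Field K] {g : K}

/-- a cell from a block -/
def cellOf {T : Fam g} {s : ℤ} {B : Fin 7 → Bool} (e : Emb T s B)
    (h : ∀ k P r, r ∈ Lat g s k P → e.π r ∈ T.L k P) : Cell s T where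
  inc := e.ι
  col := fun i => e.π (Pi.single i 1)
  inc_mem hn := (e.mem _ _ _).1 hn
  pair_mem {k P r} hr := by
    have h1 : pair r (fun i => e.π (Pi.single i 1)) = e.π r := by
      rw [pair_map]
      congr 1
      funext j
      show (∑ i, r i • (Pi.single i (1 : Op K) : Fin 7 → Op K)) j = r j
      rw [Finset.sum_apply, Finset.sum_eq_single j]
      · rw [Pi.smul_apply, Pi.single_eq_same, smul_eq_mul, mul_one]
      · intro b _ hb
        rw [Pi.smul_apply, Pi.single_eq_of_ne (Ne.symm hb), smul_zero]
      · intro hj
        exact absurd (Finset.mem_univ j) hj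
    rw [h1]
    exact h k P r hr
  pair_inc n := by
    have h1 : ∀ r, pair r (fun i => e.π (Pi.single i 1)) = e.π r := by
      intro r
      rw [pair_map]
      congr 1
      funext j
      show (∑ i, r i • (Pi.single i (1 : Op K) : Fin 7 → Op K)) j = r j
      rw [Finset.sum_apply, Finset.sum_eq_single j]
      · rw [Pi.smul_apply, Pi.single_eq_same, smul_eq_mul, mul_one]
      · intro b _ hb
        rw [Pi.smul_apply, Pi.single_eq_of_ne (Ne.symm hb), smul_zero]
      · intro hj
        exact absurd (Finset.mem_univ j) hj
    rw [h1, e.πι]

/-- the vertex families are good -/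
theorem good_TV (hg : Gen g) (s : ℤ) (v : Fin 5) : Good s (TV hg s v) := by
  refine (cellOf (emb hg s v) ?_).good
  intro k P r hr
  obtain ⟨h0, h1, h2, ⟨h3, h4, h34⟩, h5, h6, h56⟩ := hr
  fin_cases v
  · show r 0 ∈ Fil g (k - (0 : ℕ)) P
    rw [Nat.cast_zero, sub_zero]
    exact h0
  · exact h1
  · exact h2
  · refine ⟨h3, h4, ?_⟩
    rw [show k - (s + 1) = k - s - 1 by omega]
    exact h34
  · refine ⟨?_, ?_, h56⟩
    · rw [sub_zero]; exact h5
    · rw [sub_zero]; exact h6

/-- powers -/
theorem good_pi {s : ℤ} {F : Fam g} (h : Good s F) (ι : Type) [Fintype ι] [DecidableEq ι] :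
    Good s (pi F ι) := by
  refine good_of_decomp (fun _ : ι => F)
    (fun i =>
      { f := LinearMap.single (Op K) (fun _ : ι => F.N) i
        map := fun {k P n} hn => mem_pi.2 fun j => by
          by_cases hj : j = i
          · subst hj
            show (Pi.single j n : ι → F.N) j ∈ _
            rw [Pi.single_eq_same]
            exact hn
          · show (Pi.single i n : ι → F.N) j ∈ _
            rw [Pi.single_eq_of_ne hj]
            exact zero_mem _ })
    (fun i =>
      { f := LinearMap.proj i
        map := fun hn => mem_pi.1 hn i })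
    ?_ (fun _ => h)
  intro n
  exact Finset.univ_sum_single n

/-- products -/
theorem good_prod {s : ℤ} {F G : Fam g} (hF : Good s F) (hG : Good s G) : Good s (prod F G) := by
  refine good_of_decomp (fun i : Bool => if i then F else G)
    (fun i => match i with
      | true =>
        { f := LinearMap.inl (Op K) F.N G.N
          map := fun hn => mem_prod.2 ⟨hn, zero_mem _⟩ }
      | false =>
        { f := LinearMap.inr (Op K) F.N G.N
          map := fun hn => mem_prod.2 ⟨zero_mem _, hn⟩ })
    (fun i => match i with
      | true =>
        { f := LinearMap.fst (Op K) F.N G.N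
          map := fun hn => (mem_prod.1 hn).1 }
      | false =>
        { f := LinearMap.snd (Op K) F.N G.N
          map := fun hn => (mem_prod.1 hn).2 })
    ?_ (fun i => match i with
      | true => hF
      | false => hG)
  intro n
  rw [Fintype.sum_bool]
  exact Prod.ext (add_zero _) (zero_add _)

end Crest.Agent.R186.B281
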