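import Crest.Agent.R186.Sym_461
import Crest.Agent.R186.LCD_369
import Crest.Agent.R186.LCT_369

/-!
# Row 186, S0281 base (helper369): the two literal instances of `Pr` on `Op K`, `Fin 2 → Op K`
-/

set_option autoImplicit false

namespace Crest.Agent.R186.LC369

open Crest.Agent.R186.B281

variable {K : Type} [Field K] {g : K}

/-- left multiplication -/
noncomputable abbrev lm (T : Op K) : Op K →ₗ[K] Op K := LinearMap.mulLeft K T

/-- the filtration pair `(Fil k P, Fil (k-1) P)` -/
noncomputable def filPr (hg : Gen g) : Pr K g (Op K) where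
  x i := lm (X i)
  d i := lm (D g i)
  xx u := by simp only [LinearMap.mulLeft_apply, ← mul_assoc, X_comm 0 1]
  xd0 i u := by
    simp only [LinearMap.mulLeft_apply]
    rw [← mul_assoc, X_D_self hg i, add_mul, one_mul, smul_mul_assoc, mul_assoc]
  xd1 i j u h := by
    simp only [LinearMap.mulLeft_apply]
    rw [← mul_assoc, X_D g h, mul_assoc]
  L k P := Fil g k P
  L' k P := Fil g (k - 1) P
  le k P u h := Fil_mono g (by omega) h
  h k P u h := by rwa [add_sub_cancel_right]
  xL i k P u h := Sym461.X_mem hg i h
  xL' i k P u h := Sym461.X_mem hg i h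
  dL i k P u h := Sym461.D_mem hg i h
  dL' i k P u h := by
    have := Sym461.D_mem hg i h
    rwa [sub_add_cancel, ← add_sub_cancel_right k 1] at this
  XK k P u v hu hv h := Sym461.XK hg hu hv h
  XI k P u hu h := Sym461.XI hg 1 hu h
  DK k P u v hu hv h := by
    rw [add_sub_cancel_right] at h
    exact Sym461.DK hg hu hv h
  DI k P u hu h := by
    refine Sym461.DI hg 0 (k := k - 1) hu ?_
    rwa [sub_add_cancel, ← add_sub_cancel_right k 1]

end Crest.Agent.R186.LC369
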