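import Crest.Agent.R186.KL_355
import Crest.Agent.R186.LCF1_371

/-!
# Row 186, S0281 base, LCQ `s = 1` (helper442): the transposition of 355's `E1, E2, E3`

`U` a left `Op`-module.  `tO Γ`, `tW Ψ i`, `tQ Ψ l`, `tV χ l i : ℕ → U` = the values of an
`Op`-linear map on the units (zero outside the range); `lx i`, `ld g i : U →ₗ[K] U` = the left
multiplications.
* `T1w0, T1w1, T1q0, T1q1` : the tuple of `Γ ∘ E1` = 371's `y0' y1' w0' w1'` of `tO Γ`;
* `T200, T201, T210, T211` : the tuple of `Ψ ∘ E2` = 371's `Y00' Y01' Y10' Y11'`;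
* `T3` : the tuple of `χ ∘ E3` = 371's `t'`.
-/

set_option autoImplicit false
set_option linter.unusedSectionVars false

namespace Crest.Agent.R186.TrE442

open Crest.Agent.R186.B281 Crest.Agent.R186.B281.KN

/-! ### sequences supported at one index -/

/-- the sequence with the only entry `a` at `j` -/
def dl {A : Type*} [Zero A] (j : ℕ) (a : A) (i : ℕ) : A := if i = j then a else 0

section
variable {A B : Type*}

theorem dl_self [Zero A] (j : ℕ) (a : A) : dl j a j = a := if_pos rfl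

theorem dl_ne [Zero A] {i j : ℕ} (h : i ≠ j) (a : A) : dl j a i = 0 := if_neg h

theorem dl_zero [Zero A] (j i : ℕ) : dl j (0 : A) i = 0 := by
  unfold dl
  split_ifs <;> rfl

theorem dl_app [Zero A] [Zero B] (F : ℕ → A → B) (h0 : ∀ i, F i 0 = 0) (j i : ℕ) (a : A) :
    F i (dl j a i) = dl j (F j a) i := by
  unfold dl
  split_ifs with h
  · rw [h]
  · exact h0 _

theorem sh_dl [Zero A] (j : ℕ) (a : A) : sh (dl j a) = dl (j + 1) a := by
  funext i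
  cases i with
  | zero => exact (dl_ne (by omega) a).symm
  | succ i =>
    show dl j a i = dl (j + 1) a (i + 1)
    unfold dl
    simp only [Nat.add_right_cancel_iff]

theorem ez_single [Zero A] {m : ℕ} (j : Fin m) (a : A) :
    ez (Function.update (0 : Fin m → A) j a) = dl (j : ℕ) a := by
  funext i
  unfold ez dl
  by_cases h : i < m
  · rw [dif_pos h]
    by_cases h2 : i = j
    · rw [if_pos h2]
      have : (⟨i, h⟩ : Fin m) = j := Fin.ext h2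
      rw [this, Function.update_self]
    · rw [if_neg h2, Function.update_of_ne]
      · rfl
      · intro h3
        exact h2 (congrArg Fin.val h3)
  · rw [dif_neg h, if_neg]
    intro h2
    exact h (h2 ▸ j.2)

end

variable {K : Type} [Field K] {g : K}

/-- the restriction of a sequence -/
def rs {A : Type*} (m : ℕ) (f : ℕ → A) : Fin m → A := fun j => f j

theorem rs_dl {A : Type*} [Zero A] {m j : ℕ} (h : j < m) (a : A) :
    rs m (dl j a) = Function.update (0 : Fin m → A) ⟨j, h⟩ a := by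
  funext i
  unfold rs dl
  by_cases h2 : (i : ℕ) = j
  · rw [if_pos h2]
    have : i = ⟨j, h⟩ := Fin.ext h2
    rw [this, Function.update_self]
  · rw [if_neg h2, Function.update_of_ne]
    · rfl
    · intro h3
      exact h2 (congrArg Fin.val h3)

theorem rs_dl_ge {A : Type*} [Zero A] {m j : ℕ} (h : m ≤ j) (a : A) :
    rs m (dl j a) = 0 := by
  funext i
  exact dl_ne (by have := i.2; omega) a

theorem ez_rs {A : Type*} [Zero A] {m j : ℕ} (h : j < m) (a : A) :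
    ez (rs m (dl j a)) = dl j a :=
  ez_restrict fun i hi => dl_ne (by omega) a

/-! ### the maps on sequences supported at one index -/

theorem e1w_dl (n j i : ℕ) (w : Fin 2 → Op K) : e1w g n (dl j w) i =
    dl j ((cq g (n - j : ℕ))⁻¹ • (cc w * D g 0)) i - dl j (w 0) i - dl (j + 1) (w 1) i := by
  unfold e1w
  rw [sh_dl]
  have h1 := dl_app (fun i v => (cq g (n - i : ℕ))⁻¹ • (cc v * D g 0))
    (by intro i; rw [cc_zero, zero_mul, smul_zero]) j i w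
  have h2 := dl_app (fun _ (v : Fin 2 → Op K) => v 0) (fun _ => rfl) j i w
  have h3 := dl_app (fun _ (v : Fin 2 → Op K) => v 1) (fun _ => rfl) (j + 1) i w
  rw [h1, h2, h3]

/-- `c_(i+1) u_(i+1)` for `u` supported at `j` -/
theorem cq_dl {A : Type*} [AddCommGroup A] [Module K A] (j i : ℕ) (a : A) :
    cq g (i + 1 : ℕ) • dl j a (i + 1) = dl (j - 1) (cq g (j : ℕ) • a) i := by
  unfold dl
  by_cases h : i + 1 = j
  · rw [if_pos h, if_pos (by omega), h]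
  · rw [if_neg h, smul_zero]
    by_cases h2 : i = j - 1
    · rw [if_pos h2]
      have : j = 0 := by omega
      rw [this, Nat.cast_zero, cq_zero, zero_smul]
    · rw [if_neg h2]

theorem e1q_dl0 (n j i : ℕ) (T : Op K) : e1q g n ![dl j T, 0] i =
    dl j (T * D g 0 * X 0 - cq g (n + 1 - j : ℕ) • T) i +
      (if j = n + 1 then dl n (T * D g 0 * X 1) i else 0) := by
  have h1 := dl_app (fun i (T : Op K) => T * D g 0 * X 0 - cq g (n + 1 - i : ℕ) • T)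
    (by intro i; rw [zero_mul, zero_mul, smul_zero, sub_zero]) j i T
  unfold e1q
  show dl j T i * D g 0 * X 0 - cq g (n + 1 - i : ℕ) • dl j T i
    + (if i = n then dl j T (n + 1) * D g 0 * X 1 else 0)
    + ((0 : Op K) * D g 1 * X 0 - cq g (i + 1 : ℕ) • (0 : Op K)
      + (if i = n then (0 : Op K) * D g 1 * X 1 else 0)) = _
  rw [h1, zero_mul, zero_mul, smul_zero, zero_mul, ite_self, sub_zero, add_zero, add_zero]
  congr 1
  unfold dl
  by_cases h : n + 1 = j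
  · rw [if_pos h, if_pos h.symm]
  · have h' : ¬ j = n + 1 := fun h' => h h'.symm
    rw [if_neg h, if_neg h', zero_mul, zero_mul, ite_self]

theorem e1q_dl1 (n j i : ℕ) (T : Op K) : e1q g n ![0, dl j T] i =
    dl j (T * D g 1 * X 0) i - dl (j - 1) (cq g (j : ℕ) • T) i +
      (if j = n + 1 then dl n (T * D g 1 * X 1) i else 0) := by
  have h1 := dl_app (fun i (T : Op K) => T * D g 1 * X 0)
    (by intro i; rw [zero_mul, zero_mul]) j i T
  unfold e1q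
  show (0 : Op K) * D g 0 * X 0 - cq g (n + 1 - i : ℕ) • (0 : Op K)
    + (if i = n then (0 : Op K) * D g 0 * X 1 else 0)
    + (dl j T i * D g 1 * X 0 - cq g (i + 1 : ℕ) • dl j T (i + 1)
      + (if i = n then dl j T (n + 1) * D g 1 * X 1 else 0)) = _
  rw [h1, cq_dl, zero_mul, zero_mul, smul_zero, zero_mul, ite_self, sub_zero, add_zero, zero_add]
  congr 1
  unfold dl
  by_cases h : n + 1 = j
  · rw [if_pos h, if_pos h.symm]
  · have h' : ¬ j = n + 1 := fun h' => h h'.symm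
    rw [if_neg h, if_neg h', zero_mul, zero_mul, ite_self]

theorem syz_zero : syz (0 : Op K) = 0 := by
  unfold syz
  funext i
  fin_cases i <;> simp

theorem e2w_dl0 (n j i : ℕ) (w : Fin 2 → Op K) : e2w g n ![dl j w, 0] i =
    dl j (-(cq g (n - j : ℕ) • w) - syz (w 1 * D g 0)) i := by
  have h1 := dl_app (fun i (v : Fin 2 → Op K) => -(cq g (n - i : ℕ) • v) - syz (v 1 * D g 0))
    (by intro i; rw [smul_zero, neg_zero, Pi.zero_apply, zero_mul, syz_zero, sub_zero]) j i w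
  unfold e2w
  show -(cq g (n - i : ℕ) • dl j w i) - syz (dl j w i 1 * D g 0)
    + (-(cq g (i + 1 : ℕ) • (0 : Fin 2 → Op K)) - g • syz ((0 : Fin 2 → Op K) 1 * D g 1)) = _
  rw [h1, smul_zero, neg_zero, Pi.zero_apply, zero_mul, syz_zero, smul_zero, sub_zero, add_zero]

theorem e2w_dl1 (n j i : ℕ) (w : Fin 2 → Op K) : e2w g n ![0, dl j w] i =
    -dl (j - 1) (cq g (j : ℕ) • w) i - dl j (g • syz (w 1 * D g 1)) i := by
  have h1 := dl_app (fun _ (v : Fin 2 → Op K) => g • syz (v 1 * D g 1))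
    (by intro i; rw [Pi.zero_apply, zero_mul, syz_zero, smul_zero]) j i w
  unfold e2w
  show -(cq g (n - i : ℕ) • (0 : Fin 2 → Op K)) - syz ((0 : Fin 2 → Op K) 1 * D g 0)
    + (-(cq g (i + 1 : ℕ) • dl j w (i + 1)) - g • syz (dl j w i 1 * D g 1)) = _
  rw [h1, cq_dl, smul_zero, neg_zero, Pi.zero_apply, zero_mul, syz_zero, sub_zero, zero_add]

theorem e2q0_dl0 (n j i : ℕ) (w : Fin 2 → Op K) : e2q0 g n ![dl j w, 0] i =
    dl j (g • w 0) i + dl (j + 1) (w 1) i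
      - (if j = n then dl (n + 1) ((cq g (n + 1 : ℕ))⁻¹ • (cc w * D g 1)) i else 0) := by
  have h1 := dl_app (fun _ (v : Fin 2 → Op K) => g • v 0)
    (by intro i; rw [Pi.zero_apply, smul_zero]) j i w
  have h3 := dl_app (fun _ (v : Fin 2 → Op K) => v 1) (fun _ => rfl) (j + 1) i w
  unfold e2q0
  show g • dl j w i 0 + sh (dl j w) i 1
    - (if i = n + 1 then (cq g (n + 1 : ℕ))⁻¹ • (cc (dl j w n) * D g 1) else 0)
    + (cq g (n + 1 - i : ℕ))⁻¹ • (cc (0 : Fin 2 → Op K) * D g 1) = _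
  rw [h1, sh_dl, h3, cc_zero, zero_mul, smul_zero, add_zero]
  congr 1
  unfold dl
  by_cases h : n = j
  · rw [if_pos h, if_pos h.symm]
  · have h' : ¬ j = n := fun h' => h h'.symm
    rw [if_neg h, if_neg h', cc_zero, zero_mul, smul_zero, ite_self]

theorem e2q0_dl1 (n j i : ℕ) (w : Fin 2 → Op K) : e2q0 g n ![0, dl j w] i =
    dl j ((cq g (n + 1 - j : ℕ))⁻¹ • (cc w * D g 1)) i := by
  have h1 := dl_app (fun i (v : Fin 2 → Op K) => (cq g (n + 1 - i : ℕ))⁻¹ • (cc v * D g 1))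
    (by intro i; rw [cc_zero, zero_mul, smul_zero]) j i w
  unfold e2q0
  show g • (0 : Fin 2 → Op K) 0 + sh (0 : ℕ → Fin 2 → Op K) i 1
    - (if i = n + 1 then (cq g (n + 1 : ℕ))⁻¹ • (cc (0 : Fin 2 → Op K) * D g 1) else 0)
    + (cq g (n + 1 - i : ℕ))⁻¹ • (cc (dl j w i) * D g 1) = _
  have h2 : sh (0 : ℕ → Fin 2 → Op K) i 1 = 0 := by cases i <;> rfl
  rw [h1, h2, cc_zero, zero_mul, smul_zero, ite_self, Pi.zero_apply, smul_zero, add_zero, sub_zero,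
    zero_add]

theorem e2q1_dl0 (n j i : ℕ) (w : Fin 2 → Op K) : e2q1 g n ![dl j w, 0] i =
    (if j = n then dl (n + 1) ((cq g (n + 1 : ℕ))⁻¹ • (cc w * D g 0)) i else 0) := by
  unfold e2q1
  show (if i = n + 1 then (cq g (n + 1 : ℕ))⁻¹ • (cc (dl j w n) * D g 0) else 0)
    + ((0 : Fin 2 → Op K) 0 + g • sh (0 : ℕ → Fin 2 → Op K) i 1
      - (cq g (n + 1 - i : ℕ))⁻¹ • (cc (0 : Fin 2 → Op K) * D g 0)) = _
  have h2 : sh (0 : ℕ → Fin 2 → Op K) i 1 = 0 := by cases i <;> rfl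
  rw [h2, cc_zero, zero_mul, smul_zero, Pi.zero_apply, smul_zero, add_zero, sub_zero, add_zero]
  unfold dl
  by_cases h : n = j
  · rw [if_pos h, if_pos h.symm]
  · have h' : ¬ j = n := fun h' => h h'.symm
    rw [if_neg h, if_neg h', cc_zero, zero_mul, smul_zero, ite_self]

theorem e2q1_dl1 (n j i : ℕ) (w : Fin 2 → Op K) : e2q1 g n ![0, dl j w] i =
    dl j (w 0 - (cq g (n + 1 - j : ℕ))⁻¹ • (cc w * D g 0)) i + dl (j + 1) (g • w 1) i := by
  have h1 := dl_app (fun i (v : Fin 2 → Op K) => v 0 - (cq g (n + 1 - i : ℕ))⁻¹ • (cc v * D g 0))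
    (by intro i; rw [cc_zero, zero_mul, smul_zero, Pi.zero_apply, sub_zero]) j i w
  have h3 := dl_app (fun _ (v : Fin 2 → Op K) => g • v 1)
    (by intro i; rw [Pi.zero_apply, smul_zero]) (j + 1) i w
  unfold e2q1
  show (if i = n + 1 then (cq g (n + 1 : ℕ))⁻¹ • (cc (0 : Fin 2 → Op K) * D g 0) else 0)
    + (dl j w i 0 + g • sh (dl j w) i 1
      - (cq g (n + 1 - i : ℕ))⁻¹ • (cc (dl j w i) * D g 0)) = _
  rw [sh_dl, h3, cc_zero, zero_mul, smul_zero, ite_self, zero_add, ← h1]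
  abel

theorem e3v00_dl (j i : ℕ) (T : Op K) : e3v0 g (dl j T) i 0 =
    dl j (T * D g 1 * X 1 - cq g (j + 1 : ℕ) • T) i := by
  have h1 := dl_app (fun i (T : Op K) => T * D g 1 * X 1 - cq g (i + 1 : ℕ) • T)
    (by intro i; rw [zero_mul, zero_mul, smul_zero, sub_zero]) j i T
  exact h1

theorem e3v01_dl (j i : ℕ) (T : Op K) : e3v0 g (dl j T) i 1 =
    -dl j (T * D g 1 * X 0) i + dl (j - 1) (cq g (j : ℕ) • T) i := by
  have h1 := dl_app (fun _ (T : Op K) => T * D g 1 * X 0)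
    (by intro i; rw [zero_mul, zero_mul]) j i T
  show -(dl j T i * D g 1 * X 0) + cq g (i + 1 : ℕ) • dl j T (i + 1) = _
  rw [h1, cq_dl]

theorem e3v10_dl (n j i : ℕ) (T : Op K) : e3v1 g n (dl j T) i 0 =
    -dl j (T * D g 0 * X 1) i + dl (j + 1) (cq g (n - j : ℕ) • T) i := by
  have h1 := dl_app (fun _ (T : Op K) => T * D g 0 * X 1)
    (by intro i; rw [zero_mul, zero_mul]) j i T
  have h2 := dl_app (fun i (T : Op K) => cq g (n + 1 - i : ℕ) • T)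
    (by intro i; rw [smul_zero]) (j + 1) i T
  show -(dl j T i * D g 0 * X 1) + cq g (n + 1 - i : ℕ) • sh (dl j T) i = _
  rw [h1, sh_dl, h2, Nat.add_sub_add_right]

theorem e3v11_dl (n j i : ℕ) (T : Op K) : e3v1 g n (dl j T) i 1 =
    dl j (T * D g 0 * X 0 - cq g (n + 1 - j : ℕ) • T) i := by
  have h1 := dl_app (fun i (T : Op K) => T * D g 0 * X 0 - cq g (n + 1 - i : ℕ) • T)
    (by intro i; rw [zero_mul, zero_mul, smul_zero, sub_zero]) j i T
  exact h1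

/-! ### the tuples -/

section tuples

variable {U : Type*} [AddCommGroup U] [Module K U] [Module (Op K) U] [IsScalarTower K (Op K) U]

/-- left multiplication by `x_i` -/
noncomputable def lx (i : Fin 2) : U →ₗ[K] U where
  toFun u := (X i : Op K) • u
  map_add' := smul_add _
  map_smul' _ _ := smul_comm _ _ _

/-- left multiplication by `d_i` -/
noncomputable def ld (g : K) (i : Fin 2) : U →ₗ[K] U where
  toFun u := (D g i : Op K) • u
  map_add' := smul_add _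
  map_smul' _ _ := smul_comm _ _ _

theorem lx_apply (i : Fin 2) (u : U) : lx (K := K) i u = (X i : Op K) • u := rfl
theorem ld_apply (i : Fin 2) (u : U) : ld g i u = (D g i : Op K) • u := rfl

/-- the values on the units of `Fin m → Op K` -/
noncomputable def tO {m : ℕ} (Γ : (Fin m → Op K) →ₗ[Op K] U) (j : ℕ) : U := Γ (rs m (dl j 1))

/-- the values on the units of the `K`-part of `K₁` -/
noncomputable def tW {n m : ℕ}
    (Ψ : ((Fin n → Fin 2 → Op K) × (Fin 2 → Fin m → Op K)) →ₗ[Op K] U) (i : Fin 2) (j : ℕ) : U :=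
  Ψ (rs n (dl j (Pi.single i 1)), 0)

/-- the values on the units of the `O`-part of `K₁` -/
noncomputable def tQ {n m : ℕ}
    (Ψ : ((Fin n → Fin 2 → Op K) × (Fin 2 → Fin m → Op K)) →ₗ[Op K] U) (l : Fin 2) (j : ℕ) : U :=
  Ψ (0, Pi.single l (rs m (dl j 1)))

/-- the values on the units of `K₂` -/
noncomputable def tV {m : ℕ} (χ : (Fin 2 → Fin m → Fin 2 → Op K) →ₗ[Op K] U) (l i : Fin 2)
    (j : ℕ) : U := χ (Pi.single l (rs m (dl j (Pi.single i 1))))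

theorem rs_smul1 (m j : ℕ) (T : Op K) : rs m (dl j T) = T • rs m (dl j (1 : Op K)) := by
  funext i
  show dl j T i = T • dl j (1 : Op K) i
  unfold dl
  split_ifs
  · rw [smul_eq_mul, mul_one]
  · rw [smul_zero]

theorem rs_smul2 (m j : ℕ) (v : Fin 2 → Op K) : rs m (dl j v) =
    v 0 • rs m (dl j (Pi.single 0 (1 : Op K))) + v 1 • rs m (dl j (Pi.single 1 (1 : Op K))) := by
  funext i
  show dl j v i = v 0 • dl j (Pi.single 0 (1 : Op K)) i + v 1 • dl j (Pi.single 1 (1 : Op K)) i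
  unfold dl
  split_ifs
  · funext l
    fin_cases l
    · show v 0 = v 0 * 1 + v 1 * 0
      rw [mul_one, mul_zero, add_zero]
    · show v 1 = v 0 * 0 + v 1 * 1
      rw [mul_one, mul_zero, zero_add]
  · rw [smul_zero, smul_zero, add_zero]

theorem tO_dl {m : ℕ} (Γ : (Fin m → Op K) →ₗ[Op K] U) (j : ℕ) (T : Op K) :
    Γ (rs m (dl j T)) = T • tO Γ j := by
  rw [rs_smul1, map_smul]
  rfl

theorem tW_dl {n m : ℕ} (Ψ : ((Fin n → Fin 2 → Op K) × (Fin 2 → Fin m → Op K)) →ₗ[Op K] U)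
    (j : ℕ) (v : Fin 2 → Op K) : Ψ (rs n (dl j v), 0) = v 0 • tW Ψ 0 j + v 1 • tW Ψ 1 j := by
  have h : ((rs n (dl j v), 0) : (Fin n → Fin 2 → Op K) × (Fin 2 → Fin m → Op K)) =
      v 0 • (rs n (dl j (Pi.single 0 (1 : Op K))), 0) +
        v 1 • (rs n (dl j (Pi.single 1 (1 : Op K))), 0) := by
    rw [rs_smul2, Prod.smul_mk, Prod.smul_mk, Prod.mk_add_mk, smul_zero, smul_zero, add_zero]
  rw [h, map_add, map_smul, map_smul]
  rfl

theorem tQ_dl {n m : ℕ} (Ψ : ((Fin n → Fin 2 → Op K) × (Fin 2 → Fin m → Op K)) →ₗ[Op K] U)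
    (l : Fin 2) (j : ℕ) (T : Op K) : Ψ (0, Pi.single l (rs m (dl j T))) = T • tQ Ψ l j := by
  have h : ((0, Pi.single l (rs m (dl j T))) : (Fin n → Fin 2 → Op K) × (Fin 2 → Fin m → Op K)) =
      T • (0, Pi.single l (rs m (dl j (1 : Op K)))) := by
    rw [rs_smul1, Prod.smul_mk, smul_zero, Pi.single_smul]
  rw [h, map_smul]
  rfl

theorem tV_dl {m : ℕ} (χ : (Fin 2 → Fin m → Fin 2 → Op K) →ₗ[Op K] U) (l : Fin 2) (j : ℕ)
    (v : Fin 2 → Op K) :
    χ (Pi.single l (rs m (dl j v))) = v 0 • tV χ l 0 j + v 1 • tV χ l 1 j := by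
  rw [rs_smul2, Pi.single_add, Pi.single_smul, Pi.single_smul, map_add, map_smul, map_smul]
  rfl

theorem tO_fin {m : ℕ} (Γ : (Fin m → Op K) →ₗ[Op K] U) (j : Fin m) :
    tO Γ j = Γ (Pi.single j 1) := by
  unfold tO
  rw [rs_dl j.2]
  rfl

theorem tO_ge {m : ℕ} (Γ : (Fin m → Op K) →ₗ[Op K] U) {j : ℕ} (h : m ≤ j) : tO Γ j = 0 := by
  unfold tO
  rw [rs_dl_ge h, map_zero]

theorem tW_ge {n m : ℕ} (Ψ : ((Fin n → Fin 2 → Op K) × (Fin 2 → Fin m → Op K)) →ₗ[Op K] U)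
    (i : Fin 2) {j : ℕ} (h : n ≤ j) : tW Ψ i j = 0 := by
  unfold tW
  rw [rs_dl_ge h]
  exact map_zero Ψ

theorem tQ_ge {n m : ℕ} (Ψ : ((Fin n → Fin 2 → Op K) × (Fin 2 → Fin m → Op K)) →ₗ[Op K] U)
    (l : Fin 2) {j : ℕ} (h : m ≤ j) : tQ Ψ l j = 0 := by
  unfold tQ
  rw [rs_dl_ge h, Pi.single_zero]
  exact map_zero Ψ

theorem tV_ge {m : ℕ} (χ : (Fin 2 → Fin m → Fin 2 → Op K) →ₗ[Op K] U) (l i : Fin 2) {j : ℕ}
    (h : m ≤ j) : tV χ l i j = 0 := by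
  unfold tV
  rw [rs_dl_ge h, Pi.single_zero, map_zero]

/-! ### `E1` -/

theorem lin_zero {A B : Type*} [AddCommMonoid A] [Module (Op K) A] [AddCommMonoid B]
    [Module (Op K) B] {f : A → B} (h : Lin (K := K) f) : f 0 = 0 := by
  have := h.smul 0 0
  rwa [zero_smul, zero_smul] at this

theorem ez2_zero' {A : Type*} [Zero A] {m : ℕ} : ez2 (0 : Fin 2 → Fin m → A) = 0 :=
  funext fun _ => ez_zero

theorem ez2_0 {A : Type*} [Zero A] {m j : ℕ} (h : j < m) (a : A) :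
    ez2 (Pi.single 0 (rs m (dl j a))) = ![dl j a, 0] := by
  funext e
  fin_cases e
  · exact ez_rs h a
  · exact ez_zero

theorem ez2_1 {A : Type*} [Zero A] {m j : ℕ} (h : j < m) (a : A) :
    ez2 (Pi.single 1 (rs m (dl j a))) = ![0, dl j a] := by
  funext e
  fin_cases e
  · exact ez_zero
  · exact ez_rs h a

theorem E1_w {n j : ℕ} (h : j < n) (w : Fin 2 → Op K) : E1 g n (rs n (dl j w), 0) =
    rs (n + 1) (dl j ((cq g (n - j : ℕ))⁻¹ • (cc w * D g 0))) - rs (n + 1) (dl j (w 0)) -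
      rs (n + 1) (dl (j + 1) (w 1)) := by
  funext i
  show e1w g n (ez (rs n (dl j w))) i + e1q g n (ez2 0) i = _
  rw [ez_rs h, e1w_dl, ez2_zero', lin_zero (e1q_lin g n i), add_zero]
  rfl

theorem E1_q0 {n j : ℕ} (h : j < n + 2) (T : Op K) :
    E1 g n (0, Pi.single 0 (rs (n + 2) (dl j T))) =
    rs (n + 1) (dl j (T * D g 0 * X 0 - cq g (n + 1 - j : ℕ) • T)) +
      (if j = n + 1 then rs (n + 1) (dl n (T * D g 0 * X 1)) else 0) := by
  funext i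
  show e1w g n (ez 0) i + e1q g n (ez2 (Pi.single 0 (rs (n + 2) (dl j T)))) i = _
  rw [ez_zero, lin_zero (e1w_lin g n i), ez2_0 h, e1q_dl0, zero_add]
  split_ifs <;> rfl

theorem E1_q1 {n j : ℕ} (h : j < n + 2) (T : Op K) :
    E1 g n (0, Pi.single 1 (rs (n + 2) (dl j T))) =
    rs (n + 1) (dl j (T * D g 1 * X 0)) - rs (n + 1) (dl (j - 1) (cq g (j : ℕ) • T)) +
      (if j = n + 1 then rs (n + 1) (dl n (T * D g 1 * X 1)) else 0) := by
  funext i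
  show e1w g n (ez 0) i + e1q g n (ez2 (Pi.single 1 (rs (n + 2) (dl j T)))) i = _
  rw [ez_zero, lin_zero (e1w_lin g n i), ez2_1 h, e1q_dl1, zero_add]
  split_ifs <;> rfl

/-! ### algebra in `U` -/

theorem DX_smul (hg : Gen g) (i : Fin 2) (u : U) :
    (D g i * X i : Op K) • u = g⁻¹ • (lx (K := K) i (ld g i u) - u) := by
  have h : lx (K := K) i (ld g i u) = u + g • ((D g i * X i : Op K) • u) := by
    rw [lx_apply, ld_apply, ← mul_smul, X_D_self hg, add_smul, one_smul, smul_assoc]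
  rw [h, add_sub_cancel_left, smul_smul, inv_mul_cancel₀ hg.1, one_smul]

theorem DX_comm {i j : Fin 2} (hij : i ≠ j) (u : U) :
    (D g j * X i : Op K) • u = lx (K := K) i (ld g j u) := by
  rw [← X_D g hij, mul_smul]
  rfl

theorem DX_smul' (i j : Fin 2) (u : U) :
    (D g j * X i : Op K) • u = ld g j (lx (K := K) i u) := mul_smul _ _ _

theorem cq_succ (hg : Gen g) (m : ℕ) : cq g ((m + 1 : ℕ) : ℤ) = g⁻¹ * (cq g (m : ℤ) - 1) := by
  have h := cq_pred hg ((m + 1 : ℕ) : ℤ)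
  have h2 : ((m + 1 : ℕ) : ℤ) - 1 = (m : ℤ) := by push_cast; ring
  rw [h2] at h
  rw [h, add_sub_cancel_left, ← mul_assoc, inv_mul_cancel₀ hg.1, one_mul]

theorem cc_e0 : cc (Pi.single 0 (1 : Op K)) = X 0 := by
  show (1 : Op K) * X 0 + 0 * X 1 = X 0
  rw [one_mul, zero_mul, add_zero]

theorem cc_e1 : cc (Pi.single 1 (1 : Op K)) = X 1 := by
  show (0 : Op K) * X 0 + 1 * X 1 = X 1
  rw [one_mul, zero_mul, zero_add]

/-! ### (T1) -/

theorem T1w {n j : ℕ} (h : j < n) (w : Fin 2 → Op K) (Γ : (Fin (n + 1) → Op K) →ₗ[Op K] U) :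
    (Γ ∘ₗ E1 g n) (rs n (dl j w), 0) =
      (cq g (n - j : ℕ))⁻¹ • ((cc w * D g 0) • tO Γ j) - w 0 • tO Γ j - w 1 • tO Γ (j + 1) := by
  rw [LinearMap.comp_apply, E1_w h, map_sub, map_sub, tO_dl, tO_dl, tO_dl, smul_assoc]

open LCF1_371 in
theorem T1w0 {n j : ℕ} (h : j < n) (Γ : (Fin (n + 1) → Op K) →ₗ[Op K] U) :
    tW (Γ ∘ₗ E1 g n) 0 j = y0' lx (ld g) (fun m => cq g (m : ℤ)) n (tO Γ) j := by
  show (Γ ∘ₗ E1 g n) (rs n (dl j (Pi.single 0 1)), 0) = _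
  rw [T1w h, cc_e0, mul_smul]
  show _ - (1 : Op K) • tO Γ j - (0 : Op K) • tO Γ (j + 1) = _
  rw [one_smul, zero_smul, sub_zero]
  rfl

open LCF1_371 in
theorem T1w1 {n j : ℕ} (h : j < n) (Γ : (Fin (n + 1) → Op K) →ₗ[Op K] U) :
    tW (Γ ∘ₗ E1 g n) 1 j = y1' lx (ld g) (fun m => cq g (m : ℤ)) n (tO Γ) j := by
  show (Γ ∘ₗ E1 g n) (rs n (dl j (Pi.single 1 1)), 0) = _
  rw [T1w h, cc_e1, mul_smul]
  show _ - (0 : Op K) • tO Γ j - (1 : Op K) • tO Γ (j + 1) = _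
  rw [one_smul, zero_smul, sub_zero]
  rfl

open LCF1_371 in
theorem T1q0 (hg : Gen g) {n j : ℕ} (h : j ≤ n + 1) (Γ : (Fin (n + 1) → Op K) →ₗ[Op K] U) :
    tQ (Γ ∘ₗ E1 g n) 0 j = w0' g lx (ld g) (fun m => cq g (m : ℤ)) n (tO Γ) j := by
  show Γ (E1 g n (0, Pi.single 0 (rs (n + 2) (dl j 1)))) = _
  rw [E1_q0 (by omega), map_add, tO_dl, one_mul, sub_smul, smul_assoc, one_smul]
  unfold w0'
  by_cases hj : j = n + 1
  · subst hj
    rw [if_pos rfl, if_pos rfl, tO_dl, tO_ge Γ (le_refl _), smul_zero, smul_zero, sub_zero,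
      zero_add]
    exact DX_comm (by decide) _
  · have h2 : n + 1 - j = (n - j) + 1 := by omega
    rw [if_neg hj, if_neg hj, map_zero, add_zero, DX_smul hg, h2, cq_succ hg, mul_smul,
      ← smul_sub]
    congr 1
    simp only [sub_smul, one_smul]
    abel

open LCF1_371 in
theorem T1q1 (hg : Gen g) {n j : ℕ} (h : j ≤ n + 1) (Γ : (Fin (n + 1) → Op K) →ₗ[Op K] U) :
    tQ (Γ ∘ₗ E1 g n) 1 j = w1' g lx (ld g) (fun m => cq g (m : ℤ)) n (tO Γ) j := by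
  show Γ (E1 g n (0, Pi.single 1 (rs (n + 2) (dl j 1)))) = _
  rw [E1_q1 (by omega), map_add, map_sub, tO_dl, tO_dl, one_mul, smul_assoc, one_smul]
  unfold w1'
  by_cases hj : j = n + 1
  · subst hj
    rw [if_pos rfl, if_pos rfl, tO_dl, tO_ge Γ (le_refl _), smul_zero, zero_sub,
      show n + 1 - 1 = n by omega, DX_smul hg, cq_succ hg, mul_smul, ← smul_neg, ← smul_add]
    congr 1
    simp only [sub_smul, one_smul]
    abel
  · rw [if_neg hj, if_neg hj, map_zero, add_zero]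
    congr 1
    exact DX_comm (by decide) _

/-! ### (T2) -/

theorem split1 {n m : ℕ} (Ψ : ((Fin n → Fin 2 → Op K) × (Fin 2 → Fin m → Op K)) →ₗ[Op K] U)
    (x : Fin n → Fin 2 → Op K) (y0 y1 : Fin m → Op K) :
    Ψ (x, ![y0, y1]) = Ψ (x, 0) + Ψ (0, Pi.single 0 y0) + Ψ (0, Pi.single 1 y1) := by
  rw [← map_add, ← map_add, Prod.mk_add_mk, Prod.mk_add_mk]
  congr 1
  refine Prod.ext ?_ ?_
  · simp only [add_zero]
  · funext e
    fin_cases e
    · show y0 = 0 + y0 + 0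
      rw [zero_add, add_zero]
    · show y1 = 0 + 0 + y1
      rw [zero_add, zero_add]

theorem split2 {m : ℕ} (χ : (Fin 2 → Fin m → Fin 2 → Op K) →ₗ[Op K] U)
    (y0 y1 : Fin m → Fin 2 → Op K) :
    χ ![y0, y1] = χ (Pi.single 0 y0) + χ (Pi.single 1 y1) := by
  rw [← map_add]
  congr 1
  funext e
  fin_cases e
  · show y0 = y0 + 0
    rw [add_zero]
  · show y1 = 0 + y1
    rw [zero_add]

theorem qadd {n m : ℕ} (Ψ : ((Fin n → Fin 2 → Op K) × (Fin 2 → Fin m → Op K)) →ₗ[Op K] U)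
    (l : Fin 2) (y z : Fin m → Op K) :
    Ψ (0, Pi.single l (y + z)) = Ψ (0, Pi.single l y) + Ψ (0, Pi.single l z) := by
  rw [← map_add, Prod.mk_add_mk, ← Pi.single_add, add_zero]

theorem qsub {n m : ℕ} (Ψ : ((Fin n → Fin 2 → Op K) × (Fin 2 → Fin m → Op K)) →ₗ[Op K] U)
    (l : Fin 2) (y z : Fin m → Op K) :
    Ψ (0, Pi.single l (y - z)) = Ψ (0, Pi.single l y) - Ψ (0, Pi.single l z) := by
  rw [← map_sub, Prod.mk_sub_mk, ← Pi.single_sub, sub_zero]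

theorem qzero {n m : ℕ} (Ψ : ((Fin n → Fin 2 → Op K) × (Fin 2 → Fin m → Op K)) →ₗ[Op K] U)
    (l : Fin 2) : Ψ (0, Pi.single l 0) = 0 := by
  rw [Pi.single_zero]
  exact map_zero Ψ

theorem wadd {n m : ℕ} (Ψ : ((Fin n → Fin 2 → Op K) × (Fin 2 → Fin m → Op K)) →ₗ[Op K] U)
    (y z : Fin n → Fin 2 → Op K) : Ψ (y + z, 0) = Ψ (y, 0) + Ψ (z, 0) := by
  rw [← map_add, Prod.mk_add_mk, add_zero]

theorem wsub {n m : ℕ} (Ψ : ((Fin n → Fin 2 → Op K) × (Fin 2 → Fin m → Op K)) →ₗ[Op K] U)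
    (y z : Fin n → Fin 2 → Op K) : Ψ (y - z, 0) = Ψ (y, 0) - Ψ (z, 0) := by
  rw [← map_sub, Prod.mk_sub_mk, sub_zero]

theorem wneg {n m : ℕ} (Ψ : ((Fin n → Fin 2 → Op K) × (Fin 2 → Fin m → Op K)) →ₗ[Op K] U)
    (y : Fin n → Fin 2 → Op K) : Ψ (-y, 0) = -Ψ (y, 0) := by
  rw [← map_neg, Prod.neg_mk, neg_zero]

theorem E2_0 {n j : ℕ} (h : j < n + 1) (w : Fin 2 → Op K) :
    E2 g n (Pi.single 0 (rs (n + 1) (dl j w))) =
      (rs n (dl j (-(cq g (n - j : ℕ) • w) - syz (w 1 * D g 0))),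
        ![rs (n + 2) (dl j (g • w 0)) + rs (n + 2) (dl (j + 1) (w 1)) -
          (if j = n then rs (n + 2) (dl (n + 1) ((cq g (n + 1 : ℕ))⁻¹ • (cc w * D g 1))) else 0),
        (if j = n then rs (n + 2) (dl (n + 1) ((cq g (n + 1 : ℕ))⁻¹ • (cc w * D g 0)))
          else 0)]) := by
  refine Prod.ext ?_ ?_
  · funext i
    show e2w g n (ez2 (Pi.single 0 (rs (n + 1) (dl j w)))) i = _
    rw [ez2_0 h, e2w_dl0]
    rfl
  · funext e
    fin_cases e
    · funext i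
      show e2q0 g n (ez2 (Pi.single 0 (rs (n + 1) (dl j w)))) i = _
      rw [ez2_0 h, e2q0_dl0]
      split_ifs with h1 <;> rfl
    · funext i
      show e2q1 g n (ez2 (Pi.single 0 (rs (n + 1) (dl j w)))) i = _
      rw [ez2_0 h, e2q1_dl0]
      split_ifs with h1 <;> rfl

theorem E2_1 {n j : ℕ} (h : j < n + 1) (w : Fin 2 → Op K) :
    E2 g n (Pi.single 1 (rs (n + 1) (dl j w))) =
      (-rs n (dl (j - 1) (cq g (j : ℕ) • w)) - rs n (dl j (g • syz (w 1 * D g 1))),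
        ![rs (n + 2) (dl j ((cq g (n + 1 - j : ℕ))⁻¹ • (cc w * D g 1))),
        rs (n + 2) (dl j (w 0 - (cq g (n + 1 - j : ℕ))⁻¹ • (cc w * D g 0))) +
          rs (n + 2) (dl (j + 1) (g • w 1))]) := by
  refine Prod.ext ?_ ?_
  · funext i
    show e2w g n (ez2 (Pi.single 1 (rs (n + 1) (dl j w)))) i = _
    rw [ez2_1 h, e2w_dl1]
    rfl
  · funext e
    fin_cases e
    · funext i
      show e2q0 g n (ez2 (Pi.single 1 (rs (n + 1) (dl j w)))) i = _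
      rw [ez2_1 h, e2q0_dl1]
      rfl
    · funext i
      show e2q1 g n (ez2 (Pi.single 1 (rs (n + 1) (dl j w)))) i = _
      rw [ez2_1 h, e2q1_dl1]
      rfl

theorem T2_0 {n j : ℕ} (h : j < n + 1) (w : Fin 2 → Op K)
    (Ψ : ((Fin n → Fin 2 → Op K) × (Fin 2 → Fin (n + 2) → Op K)) →ₗ[Op K] U) :
    (Ψ ∘ₗ E2 g n) (Pi.single 0 (rs (n + 1) (dl j w))) =
      (-(cq g (n - j : ℕ) • w 0) - w 1 * D g 0 * X 1) • tW Ψ 0 j +
        (-(cq g (n - j : ℕ) • w 1) + w 1 * D g 0 * X 0) • tW Ψ 1 j +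
      (g • w 0) • tQ Ψ 0 j + w 1 • tQ Ψ 0 (j + 1) -
      (if j = n then ((cq g (n + 1 : ℕ))⁻¹ • (cc w * D g 1)) • tQ Ψ 0 (n + 1) else 0) +
      (if j = n then ((cq g (n + 1 : ℕ))⁻¹ • (cc w * D g 0)) • tQ Ψ 1 (n + 1) else 0) := by
  rw [LinearMap.comp_apply, E2_0 h, split1, tW_dl, qsub, qadd, tQ_dl, tQ_dl]
  have e0 : (-(cq g (n - j : ℕ) • w) - syz (w 1 * D g 0)) 0 =
      -(cq g (n - j : ℕ) • w 0) - w 1 * D g 0 * X 1 := rfl
  have e1 : (-(cq g (n - j : ℕ) • w) - syz (w 1 * D g 0)) 1 =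
      -(cq g (n - j : ℕ) • w 1) + w 1 * D g 0 * X 0 := by
    show -(cq g (n - j : ℕ) • w 1) - -(w 1 * D g 0 * X 0) = _
    rw [sub_neg_eq_add]
  rw [e0, e1]
  split_ifs with h1
  · rw [tQ_dl, tQ_dl]
    abel
  · rw [qzero, qzero]
    abel

theorem T2_1 {n j : ℕ} (h : j < n + 1) (w : Fin 2 → Op K)
    (Ψ : ((Fin n → Fin 2 → Op K) × (Fin 2 → Fin (n + 2) → Op K)) →ₗ[Op K] U) :
    (Ψ ∘ₗ E2 g n) (Pi.single 1 (rs (n + 1) (dl j w))) =
      -((cq g (j : ℕ) • w 0) • tW Ψ 0 (j - 1) + (cq g (j : ℕ) • w 1) • tW Ψ 1 (j - 1)) -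
      ((g • (w 1 * D g 1 * X 1)) • tW Ψ 0 j - (g • (w 1 * D g 1 * X 0)) • tW Ψ 1 j) +
      ((cq g (n + 1 - j : ℕ))⁻¹ • (cc w * D g 1)) • tQ Ψ 0 j +
      (w 0 - (cq g (n + 1 - j : ℕ))⁻¹ • (cc w * D g 0)) • tQ Ψ 1 j +
      (g • w 1) • tQ Ψ 1 (j + 1) := by
  rw [LinearMap.comp_apply, E2_1 h, split1, wsub, wneg, tW_dl, tW_dl, tQ_dl, qadd, tQ_dl, tQ_dl]
  have e0 : (g • syz (w 1 * D g 1)) 0 = g • (w 1 * D g 1 * X 1) := rfl
  have e1 : (g • syz (w 1 * D g 1)) 1 = -(g • (w 1 * D g 1 * X 0)) := by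
    show g • -(w 1 * D g 1 * X 0) = _
    rw [smul_neg]
  rw [e0, e1, neg_smul, Pi.smul_apply, Pi.smul_apply]
  abel

open LCF1_371 in
theorem T200 {n j : ℕ} (h : j ≤ n)
    (Ψ : ((Fin n → Fin 2 → Op K) × (Fin 2 → Fin (n + 2) → Op K)) →ₗ[Op K] U) :
    tV (Ψ ∘ₗ E2 g n) 0 0 j =
      Y00' g lx (ld g) (fun m => cq g (m : ℤ)) n (tW Ψ 0) (tQ Ψ 0) (tQ Ψ 1) j := by
  show (Ψ ∘ₗ E2 g n) (Pi.single 0 (rs (n + 1) (dl j (Pi.single 0 1)))) = _
  rw [T2_0 (by omega), cc_e0]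
  unfold Y00'
  show (-(cq g (n - j : ℕ) • (1 : Op K)) - (0 : Op K) * D g 0 * X 1) • tW Ψ 0 j +
        (-(cq g (n - j : ℕ) • (0 : Op K)) + (0 : Op K) * D g 0 * X 0) • tW Ψ 1 j +
      (g • (1 : Op K)) • tQ Ψ 0 j + (0 : Op K) • tQ Ψ 0 (j + 1) - _ + _ = _
  simp only [zero_mul, smul_zero, neg_zero, add_zero, sub_zero, zero_smul, neg_smul, smul_assoc,
    one_smul, mul_smul]
  split_ifs with h1
  · simp only [lx_apply, ld_apply, smul_sub, map_sub]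
    abel
  · abel

open LCF1_371 in
theorem T201 {n j : ℕ} (h : j ≤ n)
    (Ψ : ((Fin n → Fin 2 → Op K) × (Fin 2 → Fin (n + 2) → Op K)) →ₗ[Op K] U) :
    tV (Ψ ∘ₗ E2 g n) 0 1 j =
      Y01' lx (ld g) (fun m => cq g (m : ℤ)) n (tW Ψ 0) (tW Ψ 1) (tQ Ψ 0) (tQ Ψ 1) j := by
  show (Ψ ∘ₗ E2 g n) (Pi.single 0 (rs (n + 1) (dl j (Pi.single 1 1)))) = _
  rw [T2_0 (by omega), cc_e1]
  unfold Y01'
  show (-(cq g (n - j : ℕ) • (0 : Op K)) - (1 : Op K) * D g 0 * X 1) • tW Ψ 0 j +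
        (-(cq g (n - j : ℕ) • (1 : Op K)) + (1 : Op K) * D g 0 * X 0) • tW Ψ 1 j +
      (g • (0 : Op K)) • tQ Ψ 0 j + (1 : Op K) • tQ Ψ 0 (j + 1) - _ + _ = _
  simp only [one_mul, smul_zero, neg_zero, zero_sub, add_zero, zero_smul, add_smul, neg_smul,
    smul_assoc, one_smul, mul_smul]
  split_ifs with h1
  · simp only [lx_apply, ld_apply, smul_sub, map_sub]
    abel
  · simp only [lx_apply, ld_apply, smul_sub, map_sub]
    abel

open LCF1_371 in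
theorem T210 {n j : ℕ} (h : j ≤ n)
    (Ψ : ((Fin n → Fin 2 → Op K) × (Fin 2 → Fin (n + 2) → Op K)) →ₗ[Op K] U) :
    tV (Ψ ∘ₗ E2 g n) 1 0 j =
      Y10' lx (ld g) (fun m => cq g (m : ℤ)) n (tW Ψ 0) (tQ Ψ 0) (tQ Ψ 1) j := by
  show (Ψ ∘ₗ E2 g n) (Pi.single 1 (rs (n + 1) (dl j (Pi.single 0 1)))) = _
  rw [T2_1 (by omega), cc_e0]
  unfold Y10'
  show -((cq g (j : ℕ) • (1 : Op K)) • tW Ψ 0 (j - 1) + (cq g (j : ℕ) • (0 : Op K)) • tW Ψ 1 (j - 1)) -
      ((g • ((0 : Op K) * D g 1 * X 1)) • tW Ψ 0 j - (g • ((0 : Op K) * D g 1 * X 0)) • tW Ψ 1 j) +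
      _ + ((1 : Op K) - (cq g (n + 1 - j : ℕ))⁻¹ • (X 0 * D g 0)) • tQ Ψ 1 j +
      (g • (0 : Op K)) • tQ Ψ 1 (j + 1) = _
  simp only [zero_mul, smul_zero, sub_zero, add_zero, zero_smul, sub_smul,
    smul_assoc, one_smul, mul_smul, lx_apply, ld_apply, smul_sub, map_sub]
  abel

open LCF1_371 in
theorem T211 {n j : ℕ} (h : j ≤ n)
    (Ψ : ((Fin n → Fin 2 → Op K) × (Fin 2 → Fin (n + 2) → Op K)) →ₗ[Op K] U) :
    tV (Ψ ∘ₗ E2 g n) 1 1 j =
      Y11' g lx (ld g) (fun m => cq g (m : ℤ)) n (tW Ψ 0) (tW Ψ 1) (tQ Ψ 0) (tQ Ψ 1) j := by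
  show (Ψ ∘ₗ E2 g n) (Pi.single 1 (rs (n + 1) (dl j (Pi.single 1 1)))) = _
  rw [T2_1 (by omega), cc_e1]
  unfold Y11'
  show -((cq g (j : ℕ) • (0 : Op K)) • tW Ψ 0 (j - 1) + (cq g (j : ℕ) • (1 : Op K)) • tW Ψ 1 (j - 1)) -
      ((g • ((1 : Op K) * D g 1 * X 1)) • tW Ψ 0 j - (g • ((1 : Op K) * D g 1 * X 0)) • tW Ψ 1 j) +
      _ + ((0 : Op K) - (cq g (n + 1 - j : ℕ))⁻¹ • (X 1 * D g 0)) • tQ Ψ 1 j +
      (g • (1 : Op K)) • tQ Ψ 1 (j + 1) = _
  simp only [one_mul, smul_zero, zero_sub, zero_add, zero_smul, neg_smul,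
    smul_assoc, one_smul, mul_smul, lx_apply, ld_apply, smul_sub, map_sub]
  abel

/-! ### (T3) -/

theorem dl_apply2 (j i : ℕ) (v : Fin 2 → Op K) (l : Fin 2) : dl j v i l = dl j (v l) i := by
  unfold dl
  split_ifs <;> rfl

theorem E3_dl {n j : ℕ} (h : j < n + 1) (T : Op K) : E3 g n (rs (n + 1) (dl j T)) =
    ![rs (n + 1) (dl j ![T * D g 1 * X 1 - cq g (j + 1 : ℕ) • T, -(T * D g 1 * X 0)]) +
        rs (n + 1) (dl (j - 1) ![0, cq g (j : ℕ) • T]),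
      rs (n + 1) (dl j ![-(T * D g 0 * X 1), T * D g 0 * X 0 - cq g (n + 1 - j : ℕ) • T]) +
        rs (n + 1) (dl (j + 1) ![cq g (n - j : ℕ) • T, 0])] := by
  have hz : ∀ a i : ℕ, dl a (0 : Op K) i = 0 := fun a i => dl_zero a i
  have hn : ∀ (a i : ℕ) (S : Op K), dl a (-S) i = -dl a S i := by
    intro a i S
    unfold dl
    split_ifs
    · rfl
    · rw [neg_zero]
  funext e
  fin_cases e
  · funext i l
    show e3v0 g (ez (rs (n + 1) (dl j T))) i l =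
      dl j ![T * D g 1 * X 1 - cq g (j + 1 : ℕ) • T, -(T * D g 1 * X 0)] i l +
        dl (j - 1) ![0, cq g (j : ℕ) • T] i l
    rw [ez_rs h, dl_apply2, dl_apply2]
    fin_cases l
    · show e3v0 g (dl j T) i 0 = dl j (T * D g 1 * X 1 - cq g (j + 1 : ℕ) • T) i +
        dl (j - 1) (0 : Op K) i
      rw [e3v00_dl, hz, add_zero]
    · show e3v0 g (dl j T) i 1 = dl j (-(T * D g 1 * X 0)) i + dl (j - 1) (cq g (j : ℕ) • T) i
      rw [e3v01_dl, hn]
  · funext i l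
    show e3v1 g n (ez (rs (n + 1) (dl j T))) i l =
      dl j ![-(T * D g 0 * X 1), T * D g 0 * X 0 - cq g (n + 1 - j : ℕ) • T] i l +
        dl (j + 1) ![cq g (n - j : ℕ) • T, 0] i l
    rw [ez_rs h, dl_apply2, dl_apply2]
    fin_cases l
    · show e3v1 g n (dl j T) i 0 = dl j (-(T * D g 0 * X 1)) i + dl (j + 1) (cq g (n - j : ℕ) • T) i
      rw [e3v10_dl, hn]
    · show e3v1 g n (dl j T) i 1 = dl j (T * D g 0 * X 0 - cq g (n + 1 - j : ℕ) • T) i +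
        dl (j + 1) (0 : Op K) i
      rw [e3v11_dl, hz, add_zero]

open LCF1_371 in
theorem T3 {n j : ℕ} (h : j ≤ n) (χ : (Fin 2 → Fin (n + 1) → Fin 2 → Op K) →ₗ[Op K] U) :
    tO (χ ∘ₗ E3 g n) j = t' lx (ld g) (fun m => cq g (m : ℤ)) n (tV χ 0 0) (tV χ 0 1) (tV χ 1 0)
      (tV χ 1 1) j := by
  show χ (E3 g n (rs (n + 1) (dl j 1))) = _
  rw [E3_dl (by omega), split2, Pi.single_add, Pi.single_add, map_add, map_add, tV_dl, tV_dl,
    tV_dl, tV_dl]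
  unfold t'
  show ((1 : Op K) * D g 1 * X 1 - cq g (j + 1 : ℕ) • (1 : Op K)) • tV χ 0 0 j +
      (-((1 : Op K) * D g 1 * X 0)) • tV χ 0 1 j +
      ((0 : Op K) • tV χ 0 0 (j - 1) + (cq g (j : ℕ) • (1 : Op K)) • tV χ 0 1 (j - 1)) +
      ((-((1 : Op K) * D g 0 * X 1)) • tV χ 1 0 j +
      ((1 : Op K) * D g 0 * X 0 - cq g (n + 1 - j : ℕ) • (1 : Op K)) • tV χ 1 1 j +
      ((cq g (n - j : ℕ) • (1 : Op K)) • tV χ 1 0 (j + 1) + (0 : Op K) • tV χ 1 1 (j + 1))) = _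
  simp only [one_mul, zero_add, add_zero, zero_smul, neg_smul, sub_smul,
    smul_assoc, one_smul, mul_smul, lx_apply, ld_apply, smul_sub, map_sub]
  abel

end tuples

end Crest.Agent.R186.TrE442
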