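import Crest.Agent.R186.LCE_229
import Crest.Agent.R186.NullChain_538
import Crest.Agent.R186.ExtRes_700
import Crest.Agent.R186.TrE_442

/-!
Row 186, S0281 base (helper229): LCQ1, the join: the filtered Hom complex of `K'(n)` into a pair
`L' ≤ L` is exact (371's `F0 .. F3`), hence `Ext (E g 1 n, W(L)/W(L')) = 0`.
-/

set_option autoImplicit false
set_option linter.unusedSectionVars false

noncomputable section

namespace Crest.Agent.R186.B281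

open FamX823 LCF1_371

variable {K : Type} [Field K] {g : K}

/-! ### `HF` of products -/

section prodHF

variable {N : Type} [AddCommGroup N] [Module K N] [Module (Op K) N]

theorem HF_prod {e : ℤ} {F G : Fam g} {L : ℤ → ℤ → Submodule K N}
    (Ψ : (prod F G).N →ₗ[Op K] N) (Ψ1 : F.N →ₗ[Op K] N) (Ψ2 : G.N →ₗ[Op K] N)
    (h : ∀ (a : F.N) (b : G.N), Ψ ((a, b) : F.N × G.N) = Ψ1 a + Ψ2 b) :
    HF e (prod F G) L Ψ ↔ HF e F L Ψ1 ∧ HF e G L Ψ2 := by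
  constructor
  · intro h'
    refine ⟨fun k P n hn => ?_, fun k P n hn => ?_⟩
    · have h1 : Ψ ((n, 0) : F.N × G.N) ∈ L k (P + e) := h' (mem_prod.2 ⟨hn, zero_mem _⟩)
      rwa [h, map_zero, add_zero] at h1
    · have h1 : Ψ ((0, n) : F.N × G.N) ∈ L k (P + e) := h' (mem_prod.2 ⟨zero_mem _, hn⟩)
      rwa [h, map_zero, zero_add] at h1
  · rintro ⟨h1, h2⟩ k P ⟨a, b⟩ hn
    have h3 : Ψ ((a, b) : F.N × G.N) ∈ L k (P + e) := by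
      rw [h]
      exact add_mem (h1 (mem_prod.1 hn).1) (h2 (mem_prod.1 hn).2)
    exact h3

theorem HF_pi2 {e : ℤ} {F : Fam g} {L : ℤ → ℤ → Submodule K N}
    (Ψ : (pi F (Fin 2)).N →ₗ[Op K] N) (Ψ0 Ψ1 : F.N →ₗ[Op K] N)
    (h : ∀ x : Fin 2 → F.N, Ψ x = Ψ0 (x 0) + Ψ1 (x 1)) :
    HF e (pi F (Fin 2)) L Ψ ↔ HF e F L Ψ0 ∧ HF e F L Ψ1 := by
  constructor
  · intro h'
    have hs : ∀ (i : Fin 2) (k P : ℤ) (n : F.N), n ∈ F.L k P →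
        (Pi.single i n : Fin 2 → F.N) ∈ (pi F (Fin 2)).L k P := by
      intro i k P n hn
      refine mem_pi.2 fun j => ?_
      by_cases hj : j = i
      · subst hj
        rw [Pi.single_eq_same]
        exact hn
      · rw [Pi.single_eq_of_ne hj]
        exact zero_mem _
    refine ⟨fun k P n hn => ?_, fun k P n hn => ?_⟩
    · have h1 : Ψ (Pi.single 0 n : Fin 2 → F.N) ∈ L k (P + e) := h' (hs 0 k P n hn)
      rwa [h, Pi.single_eq_same, Pi.single_eq_of_ne (by decide), map_zero, add_zero] at h1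
    · have h1 : Ψ (Pi.single 1 n : Fin 2 → F.N) ∈ L k (P + e) := h' (hs 1 k P n hn)
      rwa [h, Pi.single_eq_same, Pi.single_eq_of_ne (by decide), map_zero, zero_add] at h1
  · rintro ⟨h1, h2⟩ k P x hn
    change Fin 2 → F.N at x
    have h3 : Ψ x ∈ L k (P + e) := by
      rw [h]
      exact add_mem (h1 (mem_pi.1 hn 0)) (h2 (mem_pi.1 hn 1))
    exact h3

end prodHF

theorem HF_tK' {N : Type} [AddCommGroup N] [Module K N] [Module (Op K) N]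
    (hg : Gen g) (c d e : ℤ) (i0 : ℕ) (hd : d = c + i0) {L : ℤ → ℤ → Submodule K N}
    (hL : SM g L) (m : ℕ) (y0 y1 : ℕ → N) :
    HF e (pi (TK hg c d) (Fin m)) L (tK m y0 y1) ↔
      ∀ j < m, y0 j ∈ L d e ∧ y1 j ∈ L d e ∧
        (X 1 : Op K) • y0 j - (X 0 : Op K) • y1 j ∈ L c (e + 1) := by
  subst hd
  exact HF_tK hg c e i0 hL m y0 y1

/-! ### the terms of `K'(n)` -/

abbrev S0 (hg : Gen g) (n : ℕ) : Fam g := pi (TV hg 1 0) (Fin (n + 1))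
abbrev S1 (hg : Gen g) (n : ℕ) : Fam g :=
  prod (pi (TV hg 1 4) (Fin n)) (pi (pi (TV hg 1 1) (Fin (n + 2))) (Fin 2))
abbrev S2 (hg : Gen g) (n : ℕ) : Fam g := pi (pi (TV hg 1 3) (Fin (n + 1))) (Fin 2)
abbrev S3 (hg : Gen g) (n : ℕ) : Fam g := pi (TV hg 1 2) (Fin (n + 1))

section HFS

variable {N : Type} [AddCommGroup N] [Module K N] [Module (Op K) N]
  (hg : Gen g) (n : ℕ) (e : ℤ) {L : ℤ → ℤ → Submodule K N} (hL : SM g L)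

include hL

theorem HF_S0 (φ : ℕ → N) : HF e (S0 hg n) L (tO (n + 1) φ) ↔ ∀ j ≤ n, φ j ∈ L 0 e := by
  have h := HF_tO hg ((0 : ℕ) : ℤ) e hL (n + 1) φ
  refine h.trans ?_
  rw [Nat.cast_zero]
  exact ⟨fun h j hj => h j (by omega), fun h j hj => h j (by omega)⟩

theorem HF_S3 (φ : ℕ → N) : HF e (S3 hg n) L (tO (n + 1) φ) ↔ ∀ j ≤ n, φ j ∈ L 2 e := by
  have h := HF_tO hg ((2 : ℕ) : ℤ) e hL (n + 1) φ
  refine h.trans ?_
  rw [Nat.cast_ofNat]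
  exact ⟨fun h j hj => h j (by omega), fun h j hj => h j (by omega)⟩

theorem HF_S1 (y0 y1 w0 w1 : ℕ → N) : HF e (S1 hg n) L (tP1 n y0 y1 w0 w1) ↔
    (∀ j < n, y0 j ∈ L 2 e ∧ y1 j ∈ L 2 e ∧
      (X 1 : Op K) • y0 j - (X 0 : Op K) • y1 j ∈ L 0 (e + 1)) ∧
    (∀ j ≤ n + 1, w0 j ∈ L 1 e ∧ w1 j ∈ L 1 e) := by
  have hK := HF_tK hg 0 e 2 hL n y0 y1
  have hw0 := HF_tO hg ((1 : ℕ) : ℤ) e hL (n + 2) w0
  have hw1 := HF_tO hg ((1 : ℕ) : ℤ) e hL (n + 2) w1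
  have e1 : (0 : ℤ) + ((2 : ℕ) : ℤ) = 2 := by norm_num
  rw [e1] at hK
  rw [Nat.cast_one] at hw0 hw1
  have h2 := HF_pi2 (F := pi (TV hg 1 1) (Fin (n + 2))) (e := e) (L := L)
    (tO (n + 2) w0 ∘ₗ LinearMap.proj 0 + tO (n + 2) w1 ∘ₗ LinearMap.proj 1)
    (tO (n + 2) w0) (tO (n + 2) w1) (fun x => rfl)
  have h1 := HF_prod (F := pi (TV hg 1 4) (Fin n)) (e := e) (L := L)
    (G := pi (pi (TV hg 1 1) (Fin (n + 2))) (Fin 2)) (tP1 n y0 y1 w0 w1) (tK n y0 y1)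
    (tO (n + 2) w0 ∘ₗ LinearMap.proj 0 + tO (n + 2) w1 ∘ₗ LinearMap.proj 1) (fun a b => rfl)
  refine h1.trans (and_congr hK (h2.trans ?_))
  refine (and_congr hw0 hw1).trans ?_
  exact ⟨fun h j hj => ⟨h.1 j (by omega), h.2 j (by omega)⟩,
    fun h => ⟨fun j hj => (h j (by omega)).1, fun j hj => (h j (by omega)).2⟩⟩

theorem HF_S2 (Y00 Y01 Y10 Y11 : ℕ → N) : HF e (S2 hg n) L (tP2 n Y00 Y01 Y10 Y11) ↔
    (∀ j ≤ n, Y00 j ∈ L 2 e ∧ Y01 j ∈ L 2 e ∧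
      (X 1 : Op K) • Y00 j - (X 0 : Op K) • Y01 j ∈ L 1 (e + 1)) ∧
    (∀ j ≤ n, Y10 j ∈ L 2 e ∧ Y11 j ∈ L 2 e ∧
      (X 1 : Op K) • Y10 j - (X 0 : Op K) • Y11 j ∈ L 1 (e + 1)) := by
  have hK0 := HF_tK' hg 1 2 e 1 (by norm_num) hL (n + 1) Y00 Y01
  have hK1 := HF_tK' hg 1 2 e 1 (by norm_num) hL (n + 1) Y10 Y11
  have h2 := HF_pi2 (F := pi (TV hg 1 3) (Fin (n + 1))) (e := e) (L := L)
    (tP2 n Y00 Y01 Y10 Y11) (tK (n + 1) Y00 Y01) (tK (n + 1) Y10 Y11) (fun x => rfl)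
  refine h2.trans ((and_congr hK0 hK1).trans ?_)
  exact ⟨fun h => ⟨fun j hj => h.1 j (by omega), fun j hj => h.2 j (by omega)⟩,
    fun h => ⟨fun j hj => h.1 j (by omega), fun j hj => h.2 j (by omega)⟩⟩

end HFS

/-! ### linear combinations of tuples -/

section sub

variable {N : Type} [AddCommGroup N] [Module (Op K) N]

theorem tO_sub (m : ℕ) (φ ψ : ℕ → N) : (tO m φ : (Fin m → Op K) →ₗ[Op K] N) - tO m ψ =
    tO m (fun j => φ j - ψ j) := by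
  apply LinearMap.ext
  intro u
  rw [LinearMap.sub_apply, tO_apply, tO_apply, tO_apply, ← Finset.sum_sub_distrib]
  exact Finset.sum_congr rfl fun j _ => (smul_sub _ _ _).symm

theorem tK_sub (m : ℕ) (y0 y1 z0 z1 : ℕ → N) :
    (tK m y0 y1 : (Fin m → Fin 2 → Op K) →ₗ[Op K] N) - tK m z0 z1 =
      tK m (fun j => y0 j - z0 j) (fun j => y1 j - z1 j) := by
  apply LinearMap.ext
  intro u
  rw [LinearMap.sub_apply, tK_apply, tK_apply, tK_apply, ← Finset.sum_sub_distrib]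
  refine Finset.sum_congr rfl fun j _ => ?_
  rw [smul_sub, smul_sub]
  abel

theorem tP1_sub (n : ℕ) (y0 y1 w0 w1 z0 z1 v0 v1 : ℕ → N) :
    (tP1 n y0 y1 w0 w1 : ((Fin n → Fin 2 → Op K) × (Fin 2 → Fin (n + 2) → Op K)) →ₗ[Op K] N) -
      tP1 n z0 z1 v0 v1 =
      tP1 n (fun j => y0 j - z0 j) (fun j => y1 j - z1 j) (fun j => w0 j - v0 j)
        (fun j => w1 j - v1 j) := by
  apply LinearMap.ext
  intro u
  rw [LinearMap.sub_apply, tP1_apply, tP1_apply, tP1_apply, ← tK_sub, ← tO_sub, ← tO_sub,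
    LinearMap.sub_apply, LinearMap.sub_apply, LinearMap.sub_apply]
  abel

theorem tP2_sub (n : ℕ) (y0 y1 w0 w1 z0 z1 v0 v1 : ℕ → N) :
    (tP2 n y0 y1 w0 w1 : (Fin 2 → Fin (n + 1) → Fin 2 → Op K) →ₗ[Op K] N) -
      tP2 n z0 z1 v0 v1 =
      tP2 n (fun j => y0 j - z0 j) (fun j => y1 j - z1 j) (fun j => w0 j - v0 j)
        (fun j => w1 j - v1 j) := by
  apply LinearMap.ext
  intro u
  rw [LinearMap.sub_apply, tP2_apply, tP2_apply, tP2_apply, ← tK_sub, ← tK_sub,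
    LinearMap.sub_apply, LinearMap.sub_apply]
  abel

end sub

theorem HF.congr {e : ℤ} {T : Fam g} {N : Type} [AddCommGroup N] [Module K N] [Module (Op K) N]
    {L : ℤ → ℤ → Submodule K N} {Φ Ψ : T.N →ₗ[Op K] N} (h : ∀ x, Φ x = Ψ x)
    (hΦ : HF e T L Φ) : HF e T L Ψ := fun k P n hn => by
  rw [← h]
  exact hΦ hn

theorem Fam.sm (F : Fam g) : SM g F.L := fun _ _ _ _ _ _ a b => F.smul a b

theorem Fam.Sub.sm {F : Fam g} (F' : F.Sub) : SM g F'.L := fun _ _ _ _ _ _ a b => F'.smul a b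

/-! ### the condition `HF` on the tuple of a map -/

section tup

variable {N : Type} [AddCommGroup N] [Module K N] [Module (Op K) N] [IsScalarTower K (Op K) N]

theorem rs_eq {A : Type} [Zero A] {m j : ℕ} (h : j < m) (a : A) :
    TrE442.rs m (TrE442.dl j a) = Pi.single (⟨j, h⟩ : Fin m) a := TrE442.rs_dl h a

variable (K) in
theorem tup_tO {m : ℕ} (φ : ℕ → N) {j : ℕ} (h : j < m) : TrE442.tO (tO m φ : (Fin m → Op K) →ₗ[Op K] N) j = φ j := by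
  unfold TrE442.tO
  rw [rs_eq h, tO_single, one_smul]

variable (K) in
theorem tup_W {n : ℕ} (y0 y1 w0 w1 : ℕ → N) {j : ℕ} (h : j < n) :
    TrE442.tW (tP1 n y0 y1 w0 w1 : ((Fin n → Fin 2 → Op K) × (Fin 2 → Fin (n + 2) → Op K)) →ₗ[Op K] N) 0 j = y0 j ∧
      TrE442.tW (tP1 n y0 y1 w0 w1 : ((Fin n → Fin 2 → Op K) × (Fin 2 → Fin (n + 2) → Op K)) →ₗ[Op K] N) 1 j = y1 j := by
  unfold TrE442.tW
  rw [rs_eq h, rs_eq h, tP1_apply, tP1_apply]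
  constructor
  · show tK n y0 y1 (Pi.single ⟨j, h⟩ (Pi.single 0 1)) + (tO (n + 2) w0 0 + tO (n + 2) w1 0) = y0 j
    rw [tK_single, map_zero, map_zero, add_zero, add_zero]
    show (1 : Op K) • y0 j + (0 : Op K) • y1 j = y0 j
    rw [one_smul, zero_smul, add_zero]
  · show tK n y0 y1 (Pi.single ⟨j, h⟩ (Pi.single 1 1)) + (tO (n + 2) w0 0 + tO (n + 2) w1 0) = y1 j
    rw [tK_single, map_zero, map_zero, add_zero, add_zero]
    show (0 : Op K) • y0 j + (1 : Op K) • y1 j = y1 j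
    rw [one_smul, zero_smul, zero_add]

variable (K) in
theorem tup_Q {n : ℕ} (y0 y1 w0 w1 : ℕ → N) {j : ℕ} (h : j < n + 2) :
    TrE442.tQ (tP1 n y0 y1 w0 w1 : ((Fin n → Fin 2 → Op K) × (Fin 2 → Fin (n + 2) → Op K)) →ₗ[Op K] N) 0 j = w0 j ∧
      TrE442.tQ (tP1 n y0 y1 w0 w1 : ((Fin n → Fin 2 → Op K) × (Fin 2 → Fin (n + 2) → Op K)) →ₗ[Op K] N) 1 j = w1 j := by
  unfold TrE442.tQ
  rw [rs_eq h, tP1_apply, tP1_apply]
  constructor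
  · show tK n y0 y1 0 + (tO (n + 2) w0 (Pi.single ⟨j, h⟩ 1) + tO (n + 2) w1 0) = w0 j
    rw [tO_single, map_zero, map_zero, add_zero, zero_add, one_smul]
  · show tK n y0 y1 0 + (tO (n + 2) w0 0 + tO (n + 2) w1 (Pi.single ⟨j, h⟩ 1)) = w1 j
    rw [tO_single, map_zero, map_zero, zero_add, zero_add, one_smul]

variable (K) in
theorem tup_V0 {n : ℕ} (Y00 Y01 Y10 Y11 : ℕ → N) {j : ℕ} (h : j < n + 1) :
    TrE442.tV (tP2 n Y00 Y01 Y10 Y11 : (Fin 2 → Fin (n + 1) → Fin 2 → Op K) →ₗ[Op K] N) 0 0 j = Y00 j ∧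
      TrE442.tV (tP2 n Y00 Y01 Y10 Y11 : (Fin 2 → Fin (n + 1) → Fin 2 → Op K) →ₗ[Op K] N) 0 1 j = Y01 j := by
  unfold TrE442.tV
  rw [rs_eq h, rs_eq h, tP2_apply, tP2_apply]
  constructor
  · show tK (n + 1) Y00 Y01 (Pi.single ⟨j, h⟩ (Pi.single 0 1)) + tK (n + 1) Y10 Y11 0 = Y00 j
    rw [tK_single, map_zero, add_zero]
    show (1 : Op K) • Y00 j + (0 : Op K) • Y01 j = Y00 j
    rw [one_smul, zero_smul, add_zero]
  · show tK (n + 1) Y00 Y01 (Pi.single ⟨j, h⟩ (Pi.single 1 1)) + tK (n + 1) Y10 Y11 0 = Y01 j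
    rw [tK_single, map_zero, add_zero]
    show (0 : Op K) • Y00 j + (1 : Op K) • Y01 j = Y01 j
    rw [one_smul, zero_smul, zero_add]

variable (K) in
theorem tup_V1 {n : ℕ} (Y00 Y01 Y10 Y11 : ℕ → N) {j : ℕ} (h : j < n + 1) :
    TrE442.tV (tP2 n Y00 Y01 Y10 Y11 : (Fin 2 → Fin (n + 1) → Fin 2 → Op K) →ₗ[Op K] N) 1 0 j = Y10 j ∧
      TrE442.tV (tP2 n Y00 Y01 Y10 Y11 : (Fin 2 → Fin (n + 1) → Fin 2 → Op K) →ₗ[Op K] N) 1 1 j = Y11 j := by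
  unfold TrE442.tV
  rw [rs_eq h, rs_eq h, tP2_apply, tP2_apply]
  constructor
  · show tK (n + 1) Y00 Y01 0 + tK (n + 1) Y10 Y11 (Pi.single ⟨j, h⟩ (Pi.single 0 1)) = Y10 j
    rw [tK_single, map_zero, zero_add]
    show (1 : Op K) • Y10 j + (0 : Op K) • Y11 j = Y10 j
    rw [one_smul, zero_smul, add_zero]
  · show tK (n + 1) Y00 Y01 0 + tK (n + 1) Y10 Y11 (Pi.single ⟨j, h⟩ (Pi.single 1 1)) = Y11 j
    rw [tK_single, map_zero, zero_add]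
    show (0 : Op K) • Y10 j + (1 : Op K) • Y11 j = Y11 j
    rw [one_smul, zero_smul, zero_add]

variable (hg : Gen g) (n : ℕ) (e : ℤ) {L : ℤ → ℤ → Submodule K N} (hL : SM g L)

include hL

theorem HFt_S0 (Φ : (Fin (n + 1) → Op K) →ₗ[Op K] N) :
    HF e (S0 hg n) L Φ ↔ ∀ j ≤ n, TrE442.tO Φ j ∈ L 0 e := by
  obtain ⟨φ, rfl, -⟩ := exists_tO Φ
  refine (HF_S0 hg n e hL φ).trans ?_
  refine forall_congr' fun j => forall_congr' fun hj => ?_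
  rw [tup_tO K φ (by omega)]

theorem HFt_S3 (Φ : (Fin (n + 1) → Op K) →ₗ[Op K] N) :
    HF e (S3 hg n) L Φ ↔ ∀ j ≤ n, TrE442.tO Φ j ∈ L 2 e := by
  obtain ⟨φ, rfl, -⟩ := exists_tO Φ
  refine (HF_S3 hg n e hL φ).trans ?_
  refine forall_congr' fun j => forall_congr' fun hj => ?_
  rw [tup_tO K φ (by omega)]

theorem HFt_S1 (Φ : ((Fin n → Fin 2 → Op K) × (Fin 2 → Fin (n + 2) → Op K)) →ₗ[Op K] N) :
    HF e (S1 hg n) L Φ ↔
    (∀ j < n, TrE442.tW Φ 0 j ∈ L 2 e ∧ TrE442.tW Φ 1 j ∈ L 2 e ∧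
      (X 1 : Op K) • TrE442.tW Φ 0 j - (X 0 : Op K) • TrE442.tW Φ 1 j ∈ L 0 (e + 1)) ∧
    (∀ j ≤ n + 1, TrE442.tQ Φ 0 j ∈ L 1 e ∧ TrE442.tQ Φ 1 j ∈ L 1 e) := by
  obtain ⟨y0, y1, w0, w1, rfl, -⟩ := exists_tP1 Φ
  refine (HF_S1 hg n e hL y0 y1 w0 w1).trans (and_congr ?_ ?_)
  · refine forall_congr' fun j => forall_congr' fun hj => ?_
    rw [(tup_W K y0 y1 w0 w1 hj).1, (tup_W K y0 y1 w0 w1 hj).2]
  · refine forall_congr' fun j => forall_congr' fun hj => ?_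
    rw [(tup_Q K y0 y1 w0 w1 (show j < n + 2 by omega)).1,
      (tup_Q K y0 y1 w0 w1 (show j < n + 2 by omega)).2]

theorem HFt_S2 (Φ : (Fin 2 → Fin (n + 1) → Fin 2 → Op K) →ₗ[Op K] N) : HF e (S2 hg n) L Φ ↔
    (∀ j ≤ n, TrE442.tV Φ 0 0 j ∈ L 2 e ∧ TrE442.tV Φ 0 1 j ∈ L 2 e ∧
      (X 1 : Op K) • TrE442.tV Φ 0 0 j - (X 0 : Op K) • TrE442.tV Φ 0 1 j ∈ L 1 (e + 1)) ∧
    (∀ j ≤ n, TrE442.tV Φ 1 0 j ∈ L 2 e ∧ TrE442.tV Φ 1 1 j ∈ L 2 e ∧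
      (X 1 : Op K) • TrE442.tV Φ 1 0 j - (X 0 : Op K) • TrE442.tV Φ 1 1 j ∈ L 1 (e + 1)) := by
  obtain ⟨Y00, Y01, Y10, Y11, rfl⟩ := exists_tP2 Φ
  refine (HF_S2 hg n e hL Y00 Y01 Y10 Y11).trans (and_congr ?_ ?_)
  · refine forall_congr' fun j => forall_congr' fun hj => ?_
    rw [(tup_V0 K Y00 Y01 Y10 Y11 (show j < n + 1 by omega)).1,
      (tup_V0 K Y00 Y01 Y10 Y11 (show j < n + 1 by omega)).2]
  · refine forall_congr' fun j => forall_congr' fun hj => ?_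
    rw [(tup_V1 K Y00 Y01 Y10 Y11 (show j < n + 1 by omega)).1,
      (tup_V1 K Y00 Y01 Y10 Y11 (show j < n + 1 by omega)).2]

end tup

theorem good_S0 (hg : Gen g) (n : ℕ) : Good 1 (S0 hg n) := good_pi (good_TV hg 1 0) _
theorem good_S1 (hg : Gen g) (n : ℕ) : Good 1 (S1 hg n) :=
  good_prod (good_pi (good_TV hg 1 4) _) (good_pi (good_pi (good_TV hg 1 1) _) _)
theorem good_S2 (hg : Gen g) (n : ℕ) : Good 1 (S2 hg n) :=
  good_pi (good_pi (good_TV hg 1 3) _) _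
theorem good_S3 (hg : Gen g) (n : ℕ) : Good 1 (S3 hg n) := good_pi (good_TV hg 1 2) _

/-! ### filtered exactness -/

section ex

open TrE442 (lx ld)

variable (hg : Gen g) {n : ℕ} {F : Fam g} {F' : F.Sub} {e : ℤ}
  (hP : Pair (U := F.N) g lx (ld g) F.L F'.L)

theorem cq0 (g : K) : cq g ((0 : ℕ) : ℤ) = 0 := by
  rw [Nat.cast_zero]
  exact cq_zero g

theorem cqs (hg : Gen g) (a : ℕ) : cq g ((a + 1 : ℕ) : ℤ) ≠ 0 :=
  cq_ne hg (by omega)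

include hP

theorem ex0 (Φ : (Fin (n + 1) → Op K) →ₗ[Op K] F.N) (h1 : HF e (S0 hg n) F.L Φ)
    (h2 : HF e (S1 hg n) F'.L (Φ ∘ₗ KN.E1 g n)) : HF e (S0 hg n) F'.L Φ := by
  have h1' := (HFt_S0 hg n e F.sm Φ).1 h1
  have h2' := (HFt_S1 hg n e F'.sm _).1 h2
  refine (HFt_S0 hg n e F'.sm Φ).2 ?_
  refine F0 hP (c := fun m => cq g (m : ℤ)) _ h1' (fun j hj => ?_)
  rw [← TrE442.T1q0 hg (by omega)]
  exact (h2'.2 j (by omega)).1

theorem ex1 (Φ : ((Fin n → Fin 2 → Op K) × (Fin 2 → Fin (n + 2) → Op K)) →ₗ[Op K] F.N)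
    (h1 : HF e (S1 hg n) F.L Φ) (h2 : HF e (S2 hg n) F'.L (Φ ∘ₗ KN.E2 g n)) :
    ∃ Γ : (Fin (n + 1) → Op K) →ₗ[Op K] F.N, HF e (S0 hg n) F.L Γ ∧
      HF e (S1 hg n) F'.L (Φ - Γ ∘ₗ KN.E1 g n) := by
  have h1' := (HFt_S1 hg n e F.sm _).1 h1
  have h2' := (HFt_S2 hg n e F'.sm _).1 h2
  obtain ⟨φ, hφ, hy, hw⟩ := F1 (e := e) (c := fun m => cq g (m : ℤ)) (n := n) hP (cq0 g)
    (fun a _ => cqs hg a) (TrE442.tW Φ 0) (TrE442.tW Φ 1) (TrE442.tQ Φ 0) (TrE442.tQ Φ 1)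
    (fun j hj => ⟨TrE442.tW_ge Φ 0 hj, TrE442.tW_ge Φ 1 hj⟩)
    (fun j => by
      rcases Nat.lt_or_ge j n with hj | hj
      · exact h1'.1 j hj
      · rw [TrE442.tW_ge Φ 0 hj, TrE442.tW_ge Φ 1 hj, map_zero, map_zero, sub_zero]
        exact ⟨zero_mem _, zero_mem _, zero_mem _⟩)
    h1'.2
    (fun j hj => by rw [← TrE442.T200 hj]; exact (h2'.1 j hj).1)
    (fun j hj => by rw [← TrE442.T200 hj, ← TrE442.T201 hj]; exact (h2'.1 j hj).2.2)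
    (fun j hj => by rw [← TrE442.T210 hj]; exact (h2'.2 j hj).1)
  have hφ' : ∀ j ≤ n, TrE442.tO (tO (n + 1) φ : (Fin (n + 1) → Op K) →ₗ[Op K] F.N) j = φ j :=
    fun j hj => tup_tO K φ (by omega)
  refine ⟨tO (n + 1) φ, (HF_S0 hg n e F.sm φ).2 hφ, ?_⟩
  refine (HFt_S1 hg n e F'.sm _).2 ⟨fun j hj => ?_, fun j hj => ?_⟩
  · have a0 : TrE442.tW (tO (n + 1) φ ∘ₗ KN.E1 g n) 0 j =
        y0' lx (ld g) (fun m => cq g (m : ℤ)) n φ j := by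
      rw [TrE442.T1w0 hj]
      simp only [y0', hφ' j (by omega)]
    have a1 : TrE442.tW (tO (n + 1) φ ∘ₗ KN.E1 g n) 1 j =
        y1' lx (ld g) (fun m => cq g (m : ℤ)) n φ j := by
      rw [TrE442.T1w1 hj]
      simp only [y1', hφ' j (by omega), hφ' (j + 1) (by omega)]
    obtain ⟨a, b, c⟩ := hy j hj
    have b0 : TrE442.tW (Φ - tO (n + 1) φ ∘ₗ KN.E1 g n) 0 j =
        TrE442.tW Φ 0 j - y0' lx (ld g) (fun m => cq g (m : ℤ)) n φ j := by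
      rw [← a0]
      rfl
    have b1 : TrE442.tW (Φ - tO (n + 1) φ ∘ₗ KN.E1 g n) 1 j =
        TrE442.tW Φ 1 j - y1' lx (ld g) (fun m => cq g (m : ℤ)) n φ j := by
      rw [← a1]
      rfl
    rw [b0, b1]
    refine ⟨a, b, ?_⟩
    rw [smul_sub, smul_sub, sub_sub_sub_comm]
    exact c
  · have a0 : TrE442.tQ (tO (n + 1) φ ∘ₗ KN.E1 g n) 0 j =
        w0' g lx (ld g) (fun m => cq g (m : ℤ)) n φ j := by
      rw [TrE442.T1q0 hg hj]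
      unfold w0'
      split_ifs with h
      · rw [hφ' n le_rfl]
      · rw [hφ' j (by omega)]
    have a1 : TrE442.tQ (tO (n + 1) φ ∘ₗ KN.E1 g n) 1 j =
        w1' g lx (ld g) (fun m => cq g (m : ℤ)) n φ j := by
      rw [TrE442.T1q1 hg hj]
      unfold w1'
      split_ifs with h
      · rw [hφ' n le_rfl]
      · rw [hφ' j (by omega), hφ' (j - 1) (by omega)]
    obtain ⟨a, b⟩ := hw j hj
    have b0 : TrE442.tQ (Φ - tO (n + 1) φ ∘ₗ KN.E1 g n) 0 j =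
        TrE442.tQ Φ 0 j - w0' g lx (ld g) (fun m => cq g (m : ℤ)) n φ j := by
      rw [← a0]
      rfl
    have b1 : TrE442.tQ (Φ - tO (n + 1) φ ∘ₗ KN.E1 g n) 1 j =
        TrE442.tQ Φ 1 j - w1' g lx (ld g) (fun m => cq g (m : ℤ)) n φ j := by
      rw [← a1]
      rfl
    rw [b0, b1]
    exact ⟨a, b⟩

theorem ex2 (hO : Onto (U := F.N) lx (ld g) F.L F'.L e)
    (Φ : (Fin 2 → Fin (n + 1) → Fin 2 → Op K) →ₗ[Op K] F.N)
    (h1 : HF e (S2 hg n) F.L Φ) (h2 : HF e (S3 hg n) F'.L (Φ ∘ₗ KN.E3 g n)) :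
    ∃ Γ : ((Fin n → Fin 2 → Op K) × (Fin 2 → Fin (n + 2) → Op K)) →ₗ[Op K] F.N,
      HF e (S1 hg n) F.L Γ ∧ HF e (S2 hg n) F'.L (Φ - Γ ∘ₗ KN.E2 g n) := by
  have h1' := (HFt_S2 hg n e F.sm _).1 h1
  have h2' := (HFt_S3 hg n e F'.sm _).1 h2
  obtain ⟨y0, y1, w0, w1, hz, hy, hw, hY0, hY1⟩ := F2 (e := e) (c := fun m => cq g (m : ℤ))
    (n := n) hP hO (cq0 g) (fun a _ => cqs hg a) (TrE442.tV Φ 0 0) (TrE442.tV Φ 0 1)
    (TrE442.tV Φ 1 0) (TrE442.tV Φ 1 1) h1'.1 h1'.2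
    (fun j hj => by rw [← TrE442.T3 hj]; exact h2' j hj)
  have k0 : ∀ j, TrE442.tW (tP1 n y0 y1 w0 w1 :
      ((Fin n → Fin 2 → Op K) × (Fin 2 → Fin (n + 2) → Op K)) →ₗ[Op K] F.N) 0 j = y0 j := by
    intro j
    rcases Nat.lt_or_ge j n with hj | hj
    · exact (tup_W K y0 y1 w0 w1 hj).1
    · rw [TrE442.tW_ge _ _ hj, (hz j hj).1]
  have k1 : ∀ j, TrE442.tW (tP1 n y0 y1 w0 w1 :
      ((Fin n → Fin 2 → Op K) × (Fin 2 → Fin (n + 2) → Op K)) →ₗ[Op K] F.N) 1 j = y1 j := by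
    intro j
    rcases Nat.lt_or_ge j n with hj | hj
    · exact (tup_W K y0 y1 w0 w1 hj).2
    · rw [TrE442.tW_ge _ _ hj, (hz j hj).2]
  have k2 : ∀ j ≤ n + 1, TrE442.tQ (tP1 n y0 y1 w0 w1 :
      ((Fin n → Fin 2 → Op K) × (Fin 2 → Fin (n + 2) → Op K)) →ₗ[Op K] F.N) 0 j = w0 j :=
    fun j hj => (tup_Q K y0 y1 w0 w1 (by omega)).1
  have k3 : ∀ j ≤ n + 1, TrE442.tQ (tP1 n y0 y1 w0 w1 :
      ((Fin n → Fin 2 → Op K) × (Fin 2 → Fin (n + 2) → Op K)) →ₗ[Op K] F.N) 1 j = w1 j :=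
    fun j hj => (tup_Q K y0 y1 w0 w1 (by omega)).2
  refine ⟨tP1 n y0 y1 w0 w1, (HF_S1 hg n e F.sm _ _ _ _).2 ⟨fun j _ => hy j, hw⟩, ?_⟩
  refine (HFt_S2 hg n e F'.sm _).2 ⟨fun j hj => ?_, fun j hj => ?_⟩
  · have b0 : TrE442.tV (Φ - tP1 n y0 y1 w0 w1 ∘ₗ KN.E2 g n) 0 0 j = TrE442.tV Φ 0 0 j -
        Y00' g lx (ld g) (fun m => cq g (m : ℤ)) n y0 w0 w1 j := by
      have : TrE442.tV (tP1 n y0 y1 w0 w1 ∘ₗ KN.E2 g n) 0 0 j =
          Y00' g lx (ld g) (fun m => cq g (m : ℤ)) n y0 w0 w1 j := by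
        rw [TrE442.T200 hj]
        simp only [Y00', k0, k2 j (by omega), k2 (n + 1) le_rfl, k3 (n + 1) le_rfl]
      rw [← this]
      rfl
    have b1 : TrE442.tV (Φ - tP1 n y0 y1 w0 w1 ∘ₗ KN.E2 g n) 0 1 j = TrE442.tV Φ 0 1 j -
        Y01' lx (ld g) (fun m => cq g (m : ℤ)) n y0 y1 w0 w1 j := by
      have : TrE442.tV (tP1 n y0 y1 w0 w1 ∘ₗ KN.E2 g n) 0 1 j =
          Y01' lx (ld g) (fun m => cq g (m : ℤ)) n y0 y1 w0 w1 j := by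
        rw [TrE442.T201 hj]
        simp only [Y01', k0, k1, k2 (j + 1) (by omega), k2 (n + 1) le_rfl, k3 (n + 1) le_rfl]
      rw [← this]
      rfl
    rw [b0, b1]
    exact hY0 j hj
  · have b0 : TrE442.tV (Φ - tP1 n y0 y1 w0 w1 ∘ₗ KN.E2 g n) 1 0 j = TrE442.tV Φ 1 0 j -
        Y10' lx (ld g) (fun m => cq g (m : ℤ)) n y0 w0 w1 j := by
      have : TrE442.tV (tP1 n y0 y1 w0 w1 ∘ₗ KN.E2 g n) 1 0 j =
          Y10' lx (ld g) (fun m => cq g (m : ℤ)) n y0 w0 w1 j := by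
        rw [TrE442.T210 hj]
        simp only [Y10', k0, k2 j (by omega), k3 j (by omega)]
      rw [← this]
      rfl
    have b1 : TrE442.tV (Φ - tP1 n y0 y1 w0 w1 ∘ₗ KN.E2 g n) 1 1 j = TrE442.tV Φ 1 1 j -
        Y11' g lx (ld g) (fun m => cq g (m : ℤ)) n y0 y1 w0 w1 j := by
      have : TrE442.tV (tP1 n y0 y1 w0 w1 ∘ₗ KN.E2 g n) 1 1 j =
          Y11' g lx (ld g) (fun m => cq g (m : ℤ)) n y0 y1 w0 w1 j := by
        rw [TrE442.T211 hj]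
        simp only [Y11', k0, k1, k2 j (by omega), k3 j (by omega), k3 (j + 1) (by omega)]
      rw [← this]
      rfl
    rw [b0, b1]
    exact hY1 j hj

theorem ex3 (hO : Onto (U := F.N) lx (ld g) F.L F'.L e)
    (Φ : (Fin (n + 1) → Op K) →ₗ[Op K] F.N) (h1 : HF e (S3 hg n) F.L Φ) :
    ∃ Γ : (Fin 2 → Fin (n + 1) → Fin 2 → Op K) →ₗ[Op K] F.N,
      HF e (S2 hg n) F.L Γ ∧ HF e (S3 hg n) F'.L (Φ - Γ ∘ₗ KN.E3 g n) := by
  have h1' := (HFt_S3 hg n e F.sm _).1 h1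
  obtain ⟨Y00, Y01, Y10, Y11, hY0, hY1, ht⟩ := F3 (e := e) (c := fun m => cq g (m : ℤ)) (n := n)
    hP hO (TrE442.tO Φ) (fun j => by
      rcases Nat.lt_or_ge n j with hj | hj
      · rw [TrE442.tO_ge Φ (show n + 1 ≤ j by omega)]
        exact zero_mem _
      · exact h1' j hj)
  refine ⟨tP2 n Y00 Y01 Y10 Y11,
    (HF_S2 hg n e F.sm _ _ _ _).2 ⟨fun j _ => hY0 j, fun j _ => hY1 j⟩, ?_⟩
  refine (HFt_S3 hg n e F'.sm _).2 (fun j hj => ?_)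
  have k : TrE442.tO ((tP2 n Y00 Y01 Y10 Y11 : (Fin 2 → Fin (n + 1) → Fin 2 → Op K) →ₗ[Op K] F.N)
      ∘ₗ KN.E3 g n) j = t' lx (ld g) (fun m => cq g (m : ℤ)) n Y00 Y01 Y10 Y11 j := by
    rw [TrE442.T3 hj]
    have a0 := tup_V0 K Y00 Y01 Y10 Y11 (show j < n + 1 by omega)
    have a1 := tup_V1 K Y00 Y01 Y10 Y11 (show j < n + 1 by omega)
    have a2 := tup_V0 K Y00 Y01 Y10 Y11 (show j - 1 < n + 1 by omega)
    have a3 : cq g ((n - j : ℕ) : ℤ) • TrE442.tV (tP2 n Y00 Y01 Y10 Y11 :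
        (Fin 2 → Fin (n + 1) → Fin 2 → Op K) →ₗ[Op K] F.N) 1 0 (j + 1) =
          cq g ((n - j : ℕ) : ℤ) • Y10 (j + 1) := by
      rcases Nat.lt_or_ge j n with hj' | hj'
      · rw [(tup_V1 K Y00 Y01 Y10 Y11 (show j + 1 < n + 1 by omega)).1]
      · rw [show n - j = 0 by omega, cq0, zero_smul, zero_smul]
    simp only [t', a0.1, a0.2, a1.1, a1.2, a2.2, a3]
  have b : TrE442.tO (Φ - tP2 n Y00 Y01 Y10 Y11 ∘ₗ KN.E3 g n) j = TrE442.tO Φ j -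
      t' lx (ld g) (fun m => cq g (m : ℤ)) n Y00 Y01 Y10 Y11 j := by
    rw [← k]
    rfl
  rw [b]
  exact ht j

end ex

end Crest.Agent.R186.B281
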