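import Crest.Agent.R186.HFel_862
import Crest.Agent.R186.LCA_369
import Crest.Agent.R186.LCI4_461
import Crest.Agent.R186.DevW_147
import Crest.Agent.R186.KRT_823

/-!
Row 186, S0281, base (helper862): LCQ, `s = 0`: the join. `Ext (E g 0 n, W(L)/W(L')) = 0` for the
four pairs `L' ≤ L` of `Dev147.PF0`.
-/

set_option autoImplicit false
set_option linter.unusedSectionVars false
set_option linter.unusedVariables false

noncomputable section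

namespace Crest.Agent.R186.B281.LCQ862

open LC369 HFel862 KR KN FamX823

variable {K : Type} [Field K] {g : K}

/-- the four exactness statements of a pair in degree `e`, `s = 0` -/
structure Ex4 (hg : Gen g) (n : ℕ) (F : Fam g) (F' : F.Sub) (e : ℤ) : Prop where
  x0 : ∀ Φ : (G0 hg n).N →ₗ[Op K] F.N, HF e (G0 hg n) F.L Φ →
    HF e (G1 hg n) F'.L (Φ ∘ₗ (g1 hg n).f) → HF e (G0 hg n) F'.L Φ
  x1 : ∀ Φ : (G1 hg n).N →ₗ[Op K] F.N, HF e (G1 hg n) F.L Φ →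
    HF e (G2 hg n) F'.L (Φ ∘ₗ (g2 hg n).f) → ∃ Γ : (G0 hg n).N →ₗ[Op K] F.N,
      HF e (G0 hg n) F.L Γ ∧ HF e (G1 hg n) F'.L (Φ - Γ ∘ₗ (g1 hg n).f)
  x2 : ∀ Φ : (G2 hg n).N →ₗ[Op K] F.N, HF e (G2 hg n) F.L Φ →
    HF e (G3 hg n) F'.L (Φ ∘ₗ (g3 hg n).f) → ∃ Γ : (G1 hg n).N →ₗ[Op K] F.N,
      HF e (G1 hg n) F.L Γ ∧ HF e (G2 hg n) F'.L (Φ - Γ ∘ₗ (g2 hg n).f)
  x3 : ∀ Φ : (G3 hg n).N →ₗ[Op K] F.N, HF e (G3 hg n) F.L Φ →
    ∃ Γ : (G2 hg n).N →ₗ[Op K] F.N,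
      HF e (G2 hg n) F.L Γ ∧ HF e (G3 hg n) F'.L (Φ - Γ ∘ₗ (g3 hg n).f)

section dict

variable {N00 N01 N02 N10 N11 N12 N22 : Type*}
    [AddCommGroup N00] [Module K N00] [AddCommGroup N01] [Module K N01]
    [AddCommGroup N02] [Module K N02] [AddCommGroup N10] [Module K N10]
    [AddCommGroup N11] [Module K N11] [AddCommGroup N12] [Module K N12]
    [AddCommGroup N22] [Module K N22]
    {S : Sq K g N00 N01 N02 N10 N11 N12 N22}

/-- `T` is the dictionary of the pair `F' ≤ F` in degree `e` -/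
structure Ad (F : Fam g) (F' : F.Sub) (e : ℤ) (T : Dict S F.N) : Prop where
  lit : Lit T
  L0 : ∀ u, u ∈ T.L0 ↔ u ∈ F.L 0 e
  L1 : ∀ u, u ∈ T.L1 ↔ u ∈ F.L 1 e
  L2 : ∀ u, u ∈ T.L2 ↔ u ∈ F.L 2 e
  Lp : ∀ u, u ∈ T.Lp ↔ u ∈ F.L 0 (e + 1)
  M0 : ∀ u, u ∈ T.M0 ↔ u ∈ F'.L 0 e
  M1 : ∀ u, u ∈ T.M1 ↔ u ∈ F'.L 1 e
  M2 : ∀ u, u ∈ T.M2 ↔ u ∈ F'.L 2 e
  Mp : ∀ u, u ∈ T.Mp ↔ u ∈ F'.L 0 (e + 1)

variable {F : Fam g} {F' : F.Sub} {e : ℤ} {T : Dict S F.N}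

theorem smF (F : Fam g) : SM g F.L := fun _ _ _ _ _ _ hT hn => F.smul hT hn
theorem smS {F : Fam g} (F' : F.Sub) : SM g F'.L := fun _ _ _ _ _ _ hT hn => F'.smul hT hn

theorem Ad.mu (h : Ad F F' e T) (u v : F.N) :
    T.mu u v = (X 1 : Op K) • u - (X 0 : Op K) • v := by
  show T.x 1 u - T.x 0 v = _
  rw [h.lit.x, h.lit.x]

theorem Ad.K1 (h : Ad F F' e T) (u v : F.N) :
    (u ∈ T.L1 ∧ v ∈ T.L1 ∧ T.mu u v ∈ T.Lp) ↔ KC F.L 1 0 e u v := by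
  rw [h.mu, h.L1, h.L1, h.Lp]; rfl
theorem Ad.K2 (h : Ad F F' e T) (u v : F.N) :
    (u ∈ T.L2 ∧ v ∈ T.L2 ∧ T.mu u v ∈ T.Lp) ↔ KC F.L 2 0 e u v := by
  rw [h.mu, h.L2, h.L2, h.Lp]; rfl
theorem Ad.K1' (h : Ad F F' e T) (u v : F.N) :
    (u ∈ T.M1 ∧ v ∈ T.M1 ∧ T.mu u v ∈ T.Mp) ↔ KC F'.L 1 0 e u v := by
  rw [h.mu, h.M1, h.M1, h.Mp]; rfl
theorem Ad.K2' (h : Ad F F' e T) (u v : F.N) :
    (u ∈ T.M2 ∧ v ∈ T.M2 ∧ T.mu u v ∈ T.Mp) ↔ KC F'.L 2 0 e u v := by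
  rw [h.mu, h.M2, h.M2, h.Mp]; rfl

theorem b1_eq (n : ℕ) {U : Type} [AddCommGroup U] [Module (Op K) U] (u v : Fin 2 → ℕ → U) :
    b1 (K := K) n u v = tP2 n (u 0) (v 0) (u 1) (v 1) := LinearMap.ext fun _ => rfl
theorem b0_eq (n : ℕ) {U : Type} [AddCommGroup U] [Module (Op K) U] (φ : ℕ → U) :
    b0 (K := K) n φ = tO (n + 1) φ := rfl
theorem b2_eq (n : ℕ) {U : Type} [AddCommGroup U] [Module (Op K) U] (a b : ℕ → U)
    (ψ : Fin 2 → ℕ → U) :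
    b2 (K := K) n a b ψ = tG2 n a b (ψ 0) (ψ 1) := LinearMap.ext fun _ => rfl

theorem tP2_sub (n : ℕ) {U : Type} [AddCommGroup U] [Module (Op K) U]
    (a b c d a' b' c' d' : ℕ → U) :
    tP2 (K := K) n a b c d - tP2 n a' b' c' d' =
      tP2 n (fun j => a j - a' j) (fun j => b j - b' j) (fun j => c j - c' j)
        (fun j => d j - d' j) := by
  refine LinearMap.ext fun w => ?_
  rw [LinearMap.sub_apply, tP2_apply, tP2_apply, tP2_apply]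
  simp only [tK_apply, smul_sub, Finset.sum_add_distrib, Finset.sum_sub_distrib]
  abel

theorem tG2_sub (n : ℕ) {U : Type} [AddCommGroup U] [Module (Op K) U]
    (a b c d a' b' c' d' : ℕ → U) :
    tG2 (K := K) n a b c d - tG2 n a' b' c' d' =
      tG2 n (fun j => a j - a' j) (fun j => b j - b' j) (fun j => c j - c' j)
        (fun j => d j - d' j) := by
  refine LinearMap.ext fun w => ?_
  rw [LinearMap.sub_apply, tG2_apply, tG2_apply, tG2_apply]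
  simp only [tK_apply, tO_apply, smul_sub, Finset.sum_add_distrib, Finset.sum_sub_distrib]
  abel

theorem tO_sub (n : ℕ) {U : Type} [AddCommGroup U] [Module (Op K) U] (a a' : ℕ → U) :
    tO (K := K) n a - tO n a' = tO n (fun j => a j - a' j) := by
  refine LinearMap.ext fun w => ?_
  rw [LinearMap.sub_apply]
  simp only [tO_apply, smul_sub, Finset.sum_sub_distrib]

theorem cl_ne (hg : Gen g) {m : ℕ} (hm : 0 < m) : cl' g m ≠ 0 :=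
  cq_ne hg (by omega)

variable (hg : Gen g) (n : ℕ)

theorem Ad.ex0 (h : Ad F F' e T) (Φ : (G0 hg n).N →ₗ[Op K] F.N) (h1 : HF e (G0 hg n) F.L Φ)
    (h2 : HF e (G1 hg n) F'.L (Φ ∘ₗ (g1 hg n).f)) : HF e (G0 hg n) F'.L Φ := by
  obtain ⟨φ, hφ, z⟩ := exists_tO (m := n + 1) (N := F.N) Φ
  subst hφ
  have k1 := (hf_G0 hg (smF F) n e φ).1 h1
  have k2 : HF e (G1 hg n) F'.L (tP2 n (T.D1u (cl' g) n φ 0) (T.D1v (cl' g) n φ 0)
      (T.D1u (cl' g) n φ 1) (T.D1v (cl' g) n φ 1)) := by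
    have := A1 T h.lit n φ
    rw [b1_eq] at this
    rw [← this]
    exact h2
  have k3 := (hf_G1 hg (smS F') n e _ _ _ _).1 k2
  have hφ : ∀ j, φ j ∈ T.L0 := by
    intro j
    by_cases hj : j < n + 1
    · exact (h.L0 _).2 (k1 j hj)
    · rw [z j (by omega)]
      exact zero_mem _
  have k4 := T.exact0 (lam := cl' g) n hφ (by
    intro i j hj
    fin_cases i
    · exact (h.K1' _ _).2 (k3.1 j (by omega))
    · exact (h.K1' _ _).2 (k3.2 j (by omega)))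
  exact (hf_G0 hg (smS F') n e φ).2 fun j hj => (h.M0 _).1 (k4 j (by omega))

theorem Ad.ex1 (h : Ad F F' e T) (Φ : (G1 hg n).N →ₗ[Op K] F.N) (h1 : HF e (G1 hg n) F.L Φ)
    (h2 : HF e (G2 hg n) F'.L (Φ ∘ₗ (g2 hg n).f)) : ∃ Γ : (G0 hg n).N →ₗ[Op K] F.N,
      HF e (G0 hg n) F.L Γ ∧ HF e (G1 hg n) F'.L (Φ - Γ ∘ₗ (g1 hg n).f) := by
  obtain ⟨u0, v0, u1, v1, hφ⟩ := exists_tP2 (n := n) (N := F.N) Φ
  subst hφ
  obtain ⟨k1, k1'⟩ := (hf_G1 hg (smF F) n e u0 v0 u1 v1).1 h1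
  obtain ⟨u, hu⟩ : ∃ u : Fin 2 → ℕ → F.N, u = ![u0, u1] := ⟨_, rfl⟩
  obtain ⟨v, hv⟩ : ∃ v : Fin 2 → ℕ → F.N, v = ![v0, v1] := ⟨_, rfl⟩
  have eu0 : u 0 = u0 := by rw [hu]; rfl
  have eu1 : u 1 = u1 := by rw [hu]; rfl
  have ev0 : v 0 = v0 := by rw [hv]; rfl
  have ev1 : v 1 = v1 := by rw [hv]; rfl
  have hΦ : tP2 (K := K) n u0 v0 u1 v1 = b1 n u v := by rw [b1_eq, eu0, eu1, ev0, ev1]
  have k2 : HF e (G2 hg n) F'.L (tG2 n (T.D2u (cl' g) n u v) (T.D2v (cl' g) n u v)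
      (T.D2p (cl' g) n u v 0) (T.D2p (cl' g) n u v 1)) := by
    have := A2 T h.lit n u v
    rw [b2_eq] at this
    rw [← this]
    rw [hΦ] at h2
    exact h2
  obtain ⟨k3, k4, k5⟩ := (hf_G2 hg (smS F') n e _ _ _ _).1 k2
  have hC : T.C1 n u v := by
    intro i j hj
    fin_cases i
    · show u 0 j ∈ T.L1 ∧ v 0 j ∈ T.L1 ∧ T.mu (u 0 j) (v 0 j) ∈ T.Lp
      rw [eu0, ev0]
      exact (h.K1 _ _).2 (k1 j (by omega))
    · show u 1 j ∈ T.L1 ∧ v 1 j ∈ T.L1 ∧ T.mu (u 1 j) (v 1 j) ∈ T.Lp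
      rw [eu1, ev1]
      exact (h.K1 _ _).2 (k1' j (by omega))
  obtain ⟨φ, hφ1, hφ2⟩ := T.exact1 (lam := cl' g) hg.ne n (fun m hm _ => cl_ne hg hm) cl'_zero hC
    (fun j hj => (h.K2' _ _).2 (k3 j (by omega))) (by
      intro i j hj
      fin_cases i
      · exact (h.M1 _).2 (k4 j hj)
      · exact (h.M1 _).2 (k5 j hj))
  refine ⟨tO (n + 1) φ, (hf_G0 hg (smF F) n e φ).2 fun j _ => (h.L0 _).1 (hφ1 j), ?_⟩
  have e1 : tP2 n u0 v0 u1 v1 - tO (n + 1) φ ∘ₗ D1 g n =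
      tP2 n (fun j => u0 j - T.D1u (cl' g) n φ 0 j) (fun j => v0 j - T.D1v (cl' g) n φ 0 j)
        (fun j => u1 j - T.D1u (cl' g) n φ 1 j) (fun j => v1 j - T.D1v (cl' g) n φ 1 j) := by
    have := A1 T h.lit n φ
    rw [b1_eq, b0_eq] at this
    rw [this, tP2_sub]
  have e2 := (hf_G1 hg (smS F') n e (fun j => u0 j - T.D1u (cl' g) n φ 0 j)
    (fun j => v0 j - T.D1v (cl' g) n φ 0 j) (fun j => u1 j - T.D1u (cl' g) n φ 1 j)
    (fun j => v1 j - T.D1v (cl' g) n φ 1 j)).2 (by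
      constructor
      · intro j hj
        have := hφ2 0 j (by omega)
        beta_reduce at this
        rw [eu0, ev0] at this
        exact (h.K1' _ _).1 this
      · intro j hj
        have := hφ2 1 j (by omega)
        beta_reduce at this
        rw [eu1, ev1] at this
        exact (h.K1' _ _).1 this)
  rw [← e1] at e2
  exact e2

theorem Ad.ex2 (h : Ad F F' e T) (Φ : (G2 hg n).N →ₗ[Op K] F.N) (h1 : HF e (G2 hg n) F.L Φ)
    (h2 : HF e (G3 hg n) F'.L (Φ ∘ₗ (g3 hg n).f)) : ∃ Γ : (G1 hg n).N →ₗ[Op K] F.N,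
      HF e (G1 hg n) F.L Γ ∧ HF e (G2 hg n) F'.L (Φ - Γ ∘ₗ (g2 hg n).f) := by
  obtain ⟨a, b, p0, p1, hφ, z⟩ := exists_tG2 (n := n) (N := F.N) Φ
  subst hφ
  obtain ⟨k1, k1', k1''⟩ := (hf_G2 hg (smF F) n e a b p0 p1).1 h1
  obtain ⟨ψ, hψ⟩ : ∃ ψ : Fin 2 → ℕ → F.N, ψ = ![p0, p1] := ⟨_, rfl⟩
  have ep0 : ψ 0 = p0 := by rw [hψ]; rfl
  have ep1 : ψ 1 = p1 := by rw [hψ]; rfl
  have hΦ : tG2 (K := K) n a b p0 p1 = b2 n a b ψ := by rw [b2_eq, ep0, ep1]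
  have k2 : HF e (G3 hg n) F'.L (tO (n + 1) (T.D3 (cl' g) n a b ψ)) := by
    have := A3 T h.lit n a b ψ
    rw [b0_eq] at this
    rw [← this]
    rw [hΦ] at h2
    exact h2
  have k3 := (hf_G3 hg (smS F') n e _).1 k2
  obtain ⟨u, v, q1, q2, q3⟩ := T.exact2 (lam := cl' g) hg.ne n (fun m hm _ => cl_ne hg hm)
    cl'_zero (a := a) (b := b) (ψ := ψ) (fun j hj => (h.K2 _ _).2 (k1 j (by omega))) (by
      intro i j hj
      fin_cases i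
      · show ψ 0 j ∈ _
        rw [ep0]
        exact (h.L1 _).2 (k1' j hj)
      · show ψ 1 j ∈ _
        rw [ep1]
        exact (h.L1 _).2 (k1'' j hj)) (fun j hj => (h.M2 _).2 (k3 j (by omega)))
  refine ⟨tP2 n (u 0) (v 0) (u 1) (v 1), (hf_G1 hg (smF F) n e _ _ _ _).2
    ⟨fun j _ => (h.K1 _ _).1 (q1 0 j), fun j _ => (h.K1 _ _).1 (q1 1 j)⟩, ?_⟩
  have e1 : tG2 n a b p0 p1 - tP2 n (u 0) (v 0) (u 1) (v 1) ∘ₗ D2 g n =
      tG2 n (fun j => a j - T.D2u (cl' g) n u v j) (fun j => b j - T.D2v (cl' g) n u v j)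
        (fun j => p0 j - T.D2p (cl' g) n u v 0 j) (fun j => p1 j - T.D2p (cl' g) n u v 1 j) := by
    have := A2 T h.lit n u v
    rw [b1_eq, b2_eq] at this
    rw [this, tG2_sub]
  have e2 := (hf_G2 hg (smS F') n e (fun j => a j - T.D2u (cl' g) n u v j)
    (fun j => b j - T.D2v (cl' g) n u v j) (fun j => p0 j - T.D2p (cl' g) n u v 0 j)
    (fun j => p1 j - T.D2p (cl' g) n u v 1 j)).2 (by
      refine ⟨?_, ?_, ?_⟩
      · intro j hj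
        exact (h.K2' _ _).1 (q2 j (by omega))
      · intro j hj
        have := q3 0 j hj
        rw [ep0] at this
        exact (h.M1 _).1 this
      · intro j hj
        have := q3 1 j hj
        rw [ep1] at this
        exact (h.M1 _).1 this)
  rw [← e1] at e2
  exact e2

theorem Ad.ex3 (h : Ad F F' e T) (Φ : (G3 hg n).N →ₗ[Op K] F.N) (h1 : HF e (G3 hg n) F.L Φ) :
    ∃ Γ : (G2 hg n).N →ₗ[Op K] F.N,
      HF e (G2 hg n) F.L Γ ∧ HF e (G3 hg n) F'.L (Φ - Γ ∘ₗ (g3 hg n).f) := by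
  obtain ⟨τ, hφ, z⟩ := exists_tO (m := n + 1) (N := F.N) Φ
  subst hφ
  have k1 := (hf_G3 hg (smF F) n e τ).1 h1
  obtain ⟨a, b, ψ, q1, q2, q3⟩ := T.exact3 (lam := cl' g) n cl'_zero (τ := τ)
    (fun j hj => (h.L2 _).2 (k1 j (by omega)))
  refine ⟨tG2 n a b (ψ 0) (ψ 1), (hf_G2 hg (smF F) n e _ _ _ _).2
    ⟨fun j _ => (h.K2 _ _).1 (q1 j), fun j _ => (h.L1 _).1 (q2 0 j),
      fun j _ => (h.L1 _).1 (q2 1 j)⟩, ?_⟩
  have e1 : tO (n + 1) τ - tG2 n a b (ψ 0) (ψ 1) ∘ₗ D3 g n =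
      tO (n + 1) (fun j => τ j - T.D3 (cl' g) n a b ψ j) := by
    have := A3 T h.lit n a b ψ
    rw [b2_eq, b0_eq] at this
    rw [this, tO_sub]
  have e2 := (hf_G3 hg (smS F') n e (fun j => τ j - T.D3 (cl' g) n a b ψ j)).2
    fun j hj => (h.M2 _).1 (q3 j (by omega))
  rw [← e1] at e2
  exact e2

/-- **the four statements from the dictionary** -/
theorem Ad.ex4 (h : Ad F F' e T) : Ex4 hg n F F' e where
  x0 := h.ex0 hg n
  x1 := h.ex1 hg n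
  x2 := h.ex2 hg n
  x3 := h.ex3 hg n

end dict


/-! ### the join -/

/-- exactness of the four degrees gives `E0` -/
theorem e0_of (hg : Gen g) (n : ℕ) {F : Fam g} {F' : F.Sub} {Y : Type} [AddCommGroup Y]
    [Module (A g 0) Y] {π : F.W 0 →ₗ[A g 0] Y} (hπ : IsQuo F F' 0 π) (h0 : Ex4 hg n F F' 0)
    (h1 : Ex4 hg n F F' 1) (q : ℕ) : ExtRes700.E0 (A g 0) (E g 0 n) Y q := by
  have k0 : Good 0 (G0 hg n) := good_pi (good_TV hg 0 0) _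
  have k1 : Good 0 (G1 hg n) := good_pi (good_pi (good_TV hg 0 3) _) _
  have k2 : Good 0 (G2 hg n) :=
    good_prod (good_pi (good_TV hg 0 4) _) (good_pi (good_pi (good_TV hg 0 1) _) _)
  have k3 : Good 0 (G3 hg n) := good_pi (good_TV hg 0 2) _
  refine (KRT823.mresW0 hg n).ext_all (Y := Y) ?_ ?_ ?_ ?_ q
  · intro f hf
    exact H0_of hπ k0 k1 (g1 hg n) (fun e he Φ => by
      rcases he with rfl | rfl
      · exact h0.x0 Φ
      · exact h1.x0 Φ) f hf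
  · intro f hf
    exact H1_of hπ k1 k2 (g1 hg n) (g2 hg n) (fun e he Φ => by
      rcases he with rfl | rfl
      · exact h0.x1 Φ
      · exact h1.x1 Φ) f hf
  · intro f hf
    exact H1_of hπ k2 k3 (g2 hg n) (g3 hg n) (fun e he Φ => by
      rcases he with rfl | rfl
      · exact h0.x2 Φ
      · exact h1.x2 Φ) f hf
  · intro f
    exact H3_of hπ k3 (g3 hg n) (fun e he Φ => by
      rcases he with rfl | rfl
      · exact h0.x3 Φ
      · exact h1.x3 Φ) f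


/-! ### the four pairs -/

section pr

variable {U : Type} [AddCommGroup U] [Module K U] (R : Pr K g U)

variable {k P : ℤ} {hDS : R.DS (k + 2)} {hXS : R.XS (k + 2) P} {hX1 : R.LX k (k + 1) P}
  {hX2 : R.LX k (k + 2) P} (u : U)

theorem pr_M0 : u ∈ (R.toDict k P hDS hXS hX1 hX2).M0 ↔ u ∈ R.L' k P := by
  rw [Dict.mem_M0]
  exact ⟨fun ⟨h, h0⟩ => (Pr.cl_zero_iff R h).1 h0,
    fun h => ⟨R.le _ _ _ h, (Pr.cl_zero_iff R (R.le _ _ _ h)).2 h⟩⟩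
theorem pr_M1 : u ∈ (R.toDict k P hDS hXS hX1 hX2).M1 ↔ u ∈ R.L' (k + 1) P := by
  rw [Dict.mem_M1]
  exact ⟨fun ⟨h, h0⟩ => (Pr.cl_zero_iff R h).1 h0,
    fun h => ⟨R.le _ _ _ h, (Pr.cl_zero_iff R (R.le _ _ _ h)).2 h⟩⟩
theorem pr_M2 : u ∈ (R.toDict k P hDS hXS hX1 hX2).M2 ↔ u ∈ R.L' (k + 2) P := by
  rw [Dict.mem_M2]
  exact ⟨fun ⟨h, h0⟩ => (Pr.cl_zero_iff R h).1 h0,
    fun h => ⟨R.le _ _ _ h, (Pr.cl_zero_iff R (R.le _ _ _ h)).2 h⟩⟩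
theorem pr_Mp : u ∈ (R.toDict k P hDS hXS hX1 hX2).Mp ↔ u ∈ R.L' k (P + 1) := by
  rw [Dict.mem_Mp]
  exact ⟨fun ⟨h, h0⟩ => (Pr.cl_zero_iff R h).1 h0,
    fun h => ⟨R.le _ _ _ h, (Pr.cl_zero_iff R (R.le _ _ _ h)).2 h⟩⟩

end pr

theorem fil_iff {k k' P P' : ℤ} (hk : k = k') (hP : P = P') (u : Op K) :
    u ∈ Fil g k P ↔ u ∈ Fil g k' P' := by rw [hk, hP]

/-- the dictionary of `(TO c, TO (c + 1))` -/
def dO (hg : Gen g) (k e : ℤ) (h1 : k + 2 ≠ 0) (h2 : e + (k + 2) ≠ 0 ∨ k + 2 < 0)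
    (h3 : e + 1 + k ≠ 0 ∨ k < 0) :=
  (Sym461.filPr hg).toDict k e (Sym461.filPr_DS hg h1) (Sym461.filPr_XS hg h2)
    (Sym461.filPr_LX hg (by omega) h3) (Sym461.filPr_LX hg (by omega) h3)

theorem ad0 (hg : Gen g) (e : ℤ) (he : 0 ≤ e) :
    Ad (Dev147.PF0 hg 0).F (Dev147.PF0 hg 0).S e
      (dO hg (-1) e (by norm_num) (Or.inl (by omega)) (Or.inr (by norm_num))) where
  lit := ⟨fun _ _ => rfl, fun _ _ => rfl⟩
  L0 u := fil_iff (by norm_num) rfl u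
  L1 u := fil_iff (by norm_num) rfl u
  L2 u := fil_iff (by norm_num) rfl u
  Lp u := fil_iff (by norm_num) rfl u
  M0 u := (pr_M0 (Sym461.filPr hg) u).trans (fil_iff (by norm_num) rfl u)
  M1 u := (pr_M1 (Sym461.filPr hg) u).trans (fil_iff (by norm_num) rfl u)
  M2 u := (pr_M2 (Sym461.filPr hg) u).trans (fil_iff (by norm_num) rfl u)
  Mp u := (pr_Mp (Sym461.filPr hg) u).trans (fil_iff (by norm_num) rfl u)

theorem ad1 (hg : Gen g) (e : ℤ) (he : 0 ≤ e) :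
    Ad (Dev147.PF0 hg 1).F (Dev147.PF0 hg 1).S e
      (dO hg 0 e (by norm_num) (Or.inl (by omega)) (Or.inl (by omega))) where
  lit := ⟨fun _ _ => rfl, fun _ _ => rfl⟩
  L0 u := fil_iff (by norm_num) rfl u
  L1 u := fil_iff (by norm_num) rfl u
  L2 u := fil_iff (by norm_num) rfl u
  Lp u := fil_iff (by norm_num) rfl u
  M0 u := (pr_M0 (Sym461.filPr hg) u).trans (fil_iff (by norm_num) rfl u)
  M1 u := (pr_M1 (Sym461.filPr hg) u).trans (fil_iff (by norm_num) rfl u)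
  M2 u := (pr_M2 (Sym461.filPr hg) u).trans (fil_iff (by norm_num) rfl u)
  Mp u := (pr_Mp (Sym461.filPr hg) u).trans (fil_iff (by norm_num) rfl u)

theorem rw_iff (hg : Gen g) {k k' c d P P' : ℤ} (hk : k = k' - c) (hd : k - 1 = k' - d)
    (hP : P = P') (v : Fin 2 → Op K) : v ∈ Sym461.Rw g k P ↔ v ∈ (TK hg c d).L k' P' :=
  and_congr (fil_iff hk hP (v 0)) (and_congr (fil_iff hk hP (v 1))
    (fil_iff hd (by rw [hP]) (v 0 * X 0 + v 1 * X 1)))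

theorem fp_iff {k k' P P' : ℤ} (hk : k = k') (hP : P = P') (v : Fin 2 → Op K) :
    v ∈ Sym461.Fp g k P ↔ v 0 ∈ Fil g k' P' ∧ v 1 ∈ Fil g k' P' := by
  rw [Sym461.mem_Fp, hk, hP]

theorem ad2 (hg : Gen g) (e : ℤ) (he : 0 ≤ e) :
    Ad (Dev147.PF0 hg 2).F (Dev147.PF0 hg 2).S e
      ((Sym461.rowPr hg).toDict 0 e (Sym461.rowPr_DS hg (by norm_num))
        (Sym461.rowPr_XS hg (Or.inl (by omega))) (Sym461.rowPr_LX hg (by norm_num)
          (Or.inl (by omega))) (Sym461.rowPr_LX hg (by norm_num) (Or.inl (by omega)))) where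
  lit := ⟨fun _ _ => rfl, fun _ _ => rfl⟩
  L0 u := rw_iff hg (by norm_num) (by norm_num) rfl u
  L1 u := rw_iff hg (by norm_num) (by norm_num) rfl u
  L2 u := rw_iff hg (by norm_num) (by norm_num) rfl u
  Lp u := rw_iff hg (by norm_num) (by norm_num) rfl u
  M0 u := (pr_M0 (Sym461.rowPr hg) u).trans (fp_iff (by norm_num) rfl u)
  M1 u := (pr_M1 (Sym461.rowPr hg) u).trans (fp_iff (by norm_num) rfl u)
  M2 u := (pr_M2 (Sym461.rowPr hg) u).trans (fp_iff (by norm_num) rfl u)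
  Mp u := (pr_Mp (Sym461.rowPr hg) u).trans (fp_iff (by norm_num) rfl u)

theorem rw2_iff (hg : Gen g) {k k' c d c' P P' : ℤ} (hk : k = k' - c) (hd : c' = k' - d)
    (hc : c' ≤ k - 1) (hP : P = P') (v : Fin 2 → Op K) :
    (v ∈ Sym461.Rw g k P ∧ v 0 * X 0 + v 1 * X 1 ∈ Fil g c' (P + 1)) ↔
      v ∈ (TK hg c d).L k' P' := by
  subst hk hd hP
  exact ⟨fun h => ⟨h.1.1, h.1.2.1, h.2⟩,
    fun h => ⟨⟨h.1, h.2.1, Fil_mono g hc h.2.2⟩, h.2.2⟩⟩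

theorem ad3 (hg : Gen g) (e : ℤ) (he : 0 ≤ e) :
    Ad (Dev147.PF0 hg 3).F (Dev147.PF0 hg 3).S e (Sym461.q4 hg he) where
  lit := ⟨fun _ _ => rfl, fun _ _ => rfl⟩
  L0 u := rw_iff hg (by norm_num) (by norm_num) rfl u
  L1 u := rw_iff hg (by norm_num) (by norm_num) rfl u
  L2 u := rw_iff hg (by norm_num) (by norm_num) rfl u
  Lp u := rw_iff hg (by norm_num) (by norm_num) rfl u
  M0 u := (Sym461.q4_M0 hg he).trans
    (rw2_iff hg (by norm_num) (by norm_num) (by norm_num) rfl u)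
  M1 u := (Sym461.q4_M1 hg he).trans
    (rw2_iff hg (by norm_num) (by norm_num) (by norm_num) rfl u)
  M2 u := (Sym461.q4_M2 hg he).trans
    (rw2_iff hg (by norm_num) (by norm_num) (by norm_num) rfl u)
  Mp u := (Sym461.q4_Mp hg he).trans
    (rw2_iff hg (by norm_num) (by norm_num) (by norm_num) rfl u)

/-- the four statements for the four pairs -/
theorem ex4 (hg : Gen g) (n : ℕ) (j : Fin 4) (e : ℤ) (he : 0 ≤ e) :
    Ex4 hg n (Dev147.PF0 hg j).F (Dev147.PF0 hg j).S e := by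
  fin_cases j
  · exact (ad0 hg e he).ex4 hg n
  · exact (ad1 hg e he).ex4 hg n
  · exact (ad2 hg e he).ex4 hg n
  · exact (ad3 hg e he).ex4 hg n

/-- **LCQ, `s = 0`** -/
theorem lcq0 (hg : Gen g) (n : ℕ) (j : Fin 4) (q : ℕ) :
    ExtRes700.E0 (A g 0) (E g 0 n) (Dev147.QT0 hg j) q :=
  e0_of hg n (Dev147.isQuo0 hg j) (ex4 hg n j 0 le_rfl) (ex4 hg n j 1 zero_le_one) q

end Crest.Agent.R186.B281.LCQ862
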