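import Crest.Agent.R186.PDef_580
import Crest.Agent.R186.LCI_369

/-!
# Row 186, S0281 base (helper369): realisation of a quotient `Q` of `Pv g 0 v` by rows

`Dict.Row` / `Dict.Row'` : the lattice conditions (resp. symbol `0`) on the seven rows;
`Rel T0 T1 Y` : `Y` is a quotient of a module `P` whose elements are the pairs of row families
satisfying `T0.Row`, `T1.Row`; the kernel is `T0.Row'`, `T1.Row'`.
-/

set_option autoImplicit false

namespace Crest.Agent.R186.LC369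

open Crest.Agent.R186.B281

section dict

variable {K : Type*} [Field K] {g : K} {N00 N01 N02 N10 N11 N12 N22 : Type*}
    [AddCommGroup N00] [Module K N00] [AddCommGroup N01] [Module K N01]
    [AddCommGroup N02] [Module K N02] [AddCommGroup N10] [Module K N10]
    [AddCommGroup N11] [Module K N11] [AddCommGroup N12] [Module K N12]
    [AddCommGroup N22] [Module K N22]
    {S : Sq K g N00 N01 N02 N10 N11 N12 N22} {U : Type*} [AddCommGroup U] [Module K U]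
    (T : Dict S U)

/-- the lattice conditions on the seven rows -/
def Dict.Row (ρ : Fin 7 → U) : Prop :=
  ρ 0 ∈ T.L0 ∧ ρ 1 ∈ T.L1 ∧ ρ 2 ∈ T.L2 ∧
    (ρ 3 ∈ T.L1 ∧ ρ 4 ∈ T.L1 ∧ T.mu (ρ 3) (ρ 4) ∈ T.Lp) ∧
    (ρ 5 ∈ T.L2 ∧ ρ 6 ∈ T.L2 ∧ T.mu (ρ 5) (ρ 6) ∈ T.Lp)

/-- the same with symbol `0` -/
def Dict.Row' (ρ : Fin 7 → U) : Prop :=
  ρ 0 ∈ T.M0 ∧ ρ 1 ∈ T.M1 ∧ ρ 2 ∈ T.M2 ∧
    (ρ 3 ∈ T.M1 ∧ ρ 4 ∈ T.M1 ∧ T.mu (ρ 3) (ρ 4) ∈ T.Mp) ∧
    (ρ 5 ∈ T.M2 ∧ ρ 6 ∈ T.M2 ∧ T.mu (ρ 5) (ρ 6) ∈ T.Mp)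

end dict

variable {K : Type} [Field K] {g : K} {N00 N01 N02 N10 N11 N12 N22 : Type}
    [AddCommGroup N00] [Module K N00] [AddCommGroup N01] [Module K N01]
    [AddCommGroup N02] [Module K N02] [AddCommGroup N10] [Module K N10]
    [AddCommGroup N11] [Module K N11] [AddCommGroup N12] [Module K N12]
    [AddCommGroup N22] [Module K N22]
    {N00' N01' N02' N10' N11' N12' N22' : Type}
    [AddCommGroup N00'] [Module K N00'] [AddCommGroup N01'] [Module K N01']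
    [AddCommGroup N02'] [Module K N02'] [AddCommGroup N10'] [Module K N10']
    [AddCommGroup N11'] [Module K N11'] [AddCommGroup N12'] [Module K N12']
    [AddCommGroup N22'] [Module K N22']

/-- `Y` realised by rows in the `Op K`-module `U` (`Op K` or `Fin 2 → Op K`) -/
structure Rel {S0 : Sq K g N00 N01 N02 N10 N11 N12 N22}
    {S1 : Sq K g N00' N01' N02' N10' N11' N12' N22'} {U : Type} [AddCommGroup U] [Module K U]
    [Module (Op K) U] (T0 : Dict S0 U) (T1 : Dict S1 U)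
    (Y : Type) [AddCommGroup Y] [Module (A g 0) Y] where
  P : Type
  [grp : AddCommGroup P]
  [mod : Module (A g 0) P]
  q : P →ₗ[A g 0] Y
  q_surj : Function.Surjective q
  r0 : P →+ (Fin 7 → U)
  r1 : P →+ (Fin 7 → U)
  sm0 : ∀ (a : A g 0) (x : P) (i : Fin 7), r0 (a • x) i = ∑ j, a.1.fst i j • r0 x j
  sm1 : ∀ (a : A g 0) (x : P) (i : Fin 7),
    r1 (a • x) i = ∑ j, (a.1.fst i j • r1 x j + a.1.snd i j • r0 x j)
  lat0 : ∀ x, T0.Row (r0 x)
  lat1 : ∀ x, T1.Row (r1 x)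
  ex : ∀ ρ0 ρ1, T0.Row ρ0 → T1.Row ρ1 → ∃ x, r0 x = ρ0 ∧ r1 x = ρ1
  ker : ∀ x, q x = 0 ↔ T0.Row' (r0 x) ∧ T1.Row' (r1 x)

end Crest.Agent.R186.LC369
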