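import Crest.Agent.R186.LCP_369

/-!
# Row 186, S0281 base (helper369): the `h = 0` square of a pair of families
-/

set_option autoImplicit false

namespace Crest.Agent.R186.LC369

namespace Pr

variable {K : Type*} [Field K] {g : K} {U : Type*} [AddCommGroup U] [Module K U] (R : Pr K g U)

/-- the quotient `L k P / L' k P` -/
abbrev N (k P : ℤ) : Type _ := ↥(R.L k P) ⧸ ((R.L' k P).comap (R.L k P).subtype)

/-- the class of an element -/
def cl (k P : ℤ) (u : U) (hu : u ∈ R.L k P) : R.N k P := Submodule.Quotient.mk ⟨u, hu⟩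

theorem cl_zero_iff {k P : ℤ} {u : U} (hu : u ∈ R.L k P) : R.cl k P u hu = 0 ↔ u ∈ R.L' k P := by
  rw [cl, Submodule.Quotient.mk_eq_zero]
  rfl

theorem cl_eq_iff {k P : ℤ} {u v : U} (hu : u ∈ R.L k P) (hv : v ∈ R.L k P) :
    R.cl k P u hu = R.cl k P v hv ↔ u - v ∈ R.L' k P := by
  rw [cl, cl, Submodule.Quotient.eq]
  rfl

theorem cl_surj {k P : ℤ} (w : R.N k P) : ∃ u, ∃ hu : u ∈ R.L k P, R.cl k P u hu = w := by
  obtain ⟨⟨u, hu⟩, rfl⟩ := Submodule.mkQ_surjective _ w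
  exact ⟨u, hu, rfl⟩

/-- induced maps -/
def mp (T : U →ₗ[K] U) (k P k' P' : ℤ) (hT : ∀ u, u ∈ R.L k P → T u ∈ R.L k' P')
    (hT' : ∀ u, u ∈ R.L' k P → T u ∈ R.L' k' P') : R.N k P →ₗ[K] R.N k' P' :=
  Submodule.mapQ _ _ (T.restrict hT) (fun u hu => hT' _ hu)

theorem mp_cl (T : U →ₗ[K] U) (k P k' P' : ℤ) (hT : ∀ u, u ∈ R.L k P → T u ∈ R.L k' P')
    (hT' : ∀ u, u ∈ R.L' k P → T u ∈ R.L' k' P') {u : U} (hu : u ∈ R.L k P) :
    R.mp T k P k' P' hT hT' (R.cl k P u hu) = R.cl k' P' (T u) (hT u hu) := rfl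

theorem cl_sub {k P : ℤ} {u v : U} (hu : u ∈ R.L k P) (hv : v ∈ R.L k P) :
    R.cl k P u hu - R.cl k P v hv = R.cl k P (u - v) (sub_mem hu hv) := rfl

theorem cl_add {k P : ℤ} {u v : U} (hu : u ∈ R.L k P) (hv : v ∈ R.L k P) :
    R.cl k P u hu + R.cl k P v hv = R.cl k P (u + v) (add_mem hu hv) := rfl

theorem cl_smul {k P : ℤ} {u : U} (c : K) (hu : u ∈ R.L k P) :
    c • R.cl k P u hu = R.cl k P (c • u) (Submodule.smul_mem _ c hu) := rfl

/-- the relation `x_i d_j = g^[i=j] d_j x_i` modulo lower order -/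
theorem rel (i j : Fin 2) (u : U) :
    R.x j (R.d i u) - (if i = j then g else 1) • R.d i (R.x j u) = if i = j then u else 0 := by
  by_cases hij : i = j
  · subst hij
    simp only [if_true]
    rw [R.xd0]
    abel
  · simp only [if_neg hij, one_smul]
    rw [R.xd1 j i u (fun h => hij h.symm), sub_self]

/-- the `h = 0` square of a pair of families -/
def toSq (k P : ℤ) (hDS : R.DS (k + 2)) (hXS : R.XS (k + 2) P) :
    Sq K g (R.N k P) (R.N (k + 1) (P - 1)) (R.N (k + 2) (P - 2)) (R.N k (P + 1))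
      (R.N (k + 1) P) (R.N (k + 2) (P - 1)) (R.N (k + 2) P) where
  xa i := R.mp (R.x i) k P k (P + 1) (R.xL i k P) (R.xL' i k P)
  xb i := R.mp (R.x i) (k + 1) (P - 1) (k + 1) P
    (fun u hu => by have := R.xL i _ _ u hu; rwa [sub_add_cancel] at this)
    (fun u hu => by have := R.xL' i _ _ u hu; rwa [sub_add_cancel] at this)
  xc i := R.mp (R.x i) (k + 2) (P - 2) (k + 2) (P - 1)
    (fun u hu => by have := R.xL i _ _ u hu; rwa [show P - 2 + 1 = P - 1 by ring] at this)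
    (fun u hu => by have := R.xL' i _ _ u hu; rwa [show P - 2 + 1 = P - 1 by ring] at this)
  xd i := R.mp (R.x i) (k + 2) (P - 1) (k + 2) P
    (fun u hu => by have := R.xL i _ _ u hu; rwa [sub_add_cancel] at this)
    (fun u hu => by have := R.xL' i _ _ u hu; rwa [sub_add_cancel] at this)
  da i := R.mp (R.d i) k P (k + 1) (P - 1) (R.dL i k P) (R.dL' i k P)
  db i := R.mp (R.d i) (k + 1) (P - 1) (k + 2) (P - 2)
    (fun u hu => by
      have := R.dL i _ _ u hu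
      rwa [show k + 1 + 1 = k + 2 by ring, show P - 1 - 1 = P - 2 by ring] at this)
    (fun u hu => by
      have := R.dL' i _ _ u hu
      rwa [show k + 1 + 1 = k + 2 by ring, show P - 1 - 1 = P - 2 by ring] at this)
  dc i := R.mp (R.d i) k (P + 1) (k + 1) P
    (fun u hu => by have := R.dL i _ _ u hu; rwa [add_sub_cancel_right] at this)
    (fun u hu => by have := R.dL' i _ _ u hu; rwa [add_sub_cancel_right] at this)
  dd i := R.mp (R.d i) (k + 1) P (k + 2) (P - 1)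
    (fun u hu => by have := R.dL i _ _ u hu; rwa [show k + 1 + 1 = k + 2 by ring] at this)
    (fun u hu => by have := R.dL' i _ _ u hu; rwa [show k + 1 + 1 = k + 2 by ring] at this)
  ra i j w := by
    obtain ⟨u, hu, rfl⟩ := R.cl_surj w
    rw [mp_cl, mp_cl, mp_cl, mp_cl, cl_smul, cl_eq_iff, R.rel]
    split_ifs
    · exact R.h _ _ _ hu
    · exact zero_mem _
  rb i j w := by
    obtain ⟨u, hu, rfl⟩ := R.cl_surj w
    rw [mp_cl, mp_cl, mp_cl, mp_cl, cl_smul, cl_eq_iff, R.rel]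
    split_ifs
    · have := R.h _ _ _ hu
      rwa [show k + 1 + 1 = k + 2 by ring] at this
    · exact zero_mem _
  da_inj w h := by
    obtain ⟨u, hu, rfl⟩ := R.cl_surj w
    rw [mp_cl, cl_zero_iff] at h
    rw [cl_zero_iff]
    exact R.DI _ _ _ hu h
  dc_inj w h := by
    obtain ⟨u, hu, rfl⟩ := R.cl_surj w
    rw [mp_cl, cl_zero_iff] at h
    rw [cl_zero_iff]
    refine R.DI _ _ _ hu ?_
    rwa [add_sub_cancel_right]
  xc_inj w h := by
    obtain ⟨u, hu, rfl⟩ := R.cl_surj w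
    rw [mp_cl, cl_zero_iff] at h
    rw [cl_zero_iff]
    refine R.XI _ _ _ hu ?_
    rwa [show P - 2 + 1 = P - 1 by ring]
  dk w w' h := by
    obtain ⟨u, hu, rfl⟩ := R.cl_surj w
    obtain ⟨v, hv, rfl⟩ := R.cl_surj w'
    rw [mp_cl, mp_cl, cl_eq_iff] at h
    obtain ⟨z, hz, h1, h2⟩ := R.DK (k + 1) (P - 1) u v hu hv (by
      rwa [show k + 1 + 1 = k + 2 by ring, show P - 1 - 1 = P - 2 by ring])
    rw [add_sub_cancel_right, sub_add_cancel] at hz
    refine ⟨R.cl k P z hz, ?_, ?_⟩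
    · rw [mp_cl, cl_eq_iff]; exact h1
    · rw [mp_cl, cl_eq_iff]; exact h2
  dk' w w' h := by
    obtain ⟨u, hu, rfl⟩ := R.cl_surj w
    obtain ⟨v, hv, rfl⟩ := R.cl_surj w'
    rw [mp_cl, mp_cl, cl_eq_iff] at h
    obtain ⟨z, hz, h1, h2⟩ := R.DK (k + 1) P u v hu hv (by
      rwa [show k + 1 + 1 = k + 2 by ring])
    rw [add_sub_cancel_right] at hz
    refine ⟨R.cl k (P + 1) z hz, ?_, ?_⟩
    · rw [mp_cl, cl_eq_iff]; exact h1
    · rw [mp_cl, cl_eq_iff]; exact h2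
  ds w := by
    obtain ⟨u, hu, rfl⟩ := R.cl_surj w
    obtain ⟨a, ha, b, hb, h⟩ := hDS (P - 2) u hu
    rw [show k + 2 - 1 = k + 1 by ring, show P - 2 + 1 = P - 1 by ring] at ha hb
    refine ⟨R.cl _ _ a ha, R.cl _ _ b hb, ?_⟩
    rw [mp_cl, mp_cl, cl_sub, cl_eq_iff]
    exact h
  ds' w := by
    obtain ⟨u, hu, rfl⟩ := R.cl_surj w
    obtain ⟨a, ha, b, hb, h⟩ := hDS (P - 1) u hu
    rw [show k + 2 - 1 = k + 1 by ring, show P - 1 + 1 = P by ring] at ha hb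
    refine ⟨R.cl _ _ a ha, R.cl _ _ b hb, ?_⟩
    rw [mp_cl, mp_cl, cl_sub, cl_eq_iff]
    exact h
  xk w w' h := by
    obtain ⟨u, hu, rfl⟩ := R.cl_surj w
    obtain ⟨v, hv, rfl⟩ := R.cl_surj w'
    rw [mp_cl, mp_cl, cl_eq_iff] at h
    obtain ⟨z, hz, h1, h2⟩ := R.XK (k + 2) (P - 1) v u hv hu (by
      rw [sub_add_cancel]
      have := neg_mem h
      rwa [neg_sub] at this)
    rw [show P - 1 - 1 = P - 2 by ring] at hz
    refine ⟨R.cl _ _ z hz, ?_, ?_⟩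
    · rw [mp_cl, cl_eq_iff]; exact h2
    · rw [mp_cl, cl_eq_iff]; exact h1
  xs w := by
    obtain ⟨u, hu, rfl⟩ := R.cl_surj w
    obtain ⟨a, ha, b, hb, h⟩ := hXS u hu
    refine ⟨R.cl _ _ a ha, R.cl _ _ b hb, ?_⟩
    rw [mp_cl, mp_cl, cl_sub, cl_eq_iff]
    exact h

end Pr

end Crest.Agent.R186.LC369
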