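import Mathlib

/-!
# Row 186, S0281 base, block LC (helper369): the `h = 0` complexes `Hom(K(n), D)` are exact

Abstract form: seven modules `N00 = N(a,b)`, `N01 = N(a,b+1)`, `N02 = N(a,b+2)`, `N10 = N(a+1,b)`,
`N11 = N(a+1,b+1)`, `N12 = N(a+1,b+2)`, `N22 = N(a+2,b+2)` with maps `x i`, `d i`.
The monomials of `k[x]_m` are indexed by `j` = exponent of `x1` (`j ≤ m`), `lam m = c_m`,
`D_i x_i^m = lam m x_i^(m-1)`.
-/

set_option autoImplicit false

namespace Crest.Agent.R186.LC369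

/-- the bigraded piece of a `q`-commutative bigraded module -/
structure Sq (K : Type*) [Field K] (g : K) (N00 N01 N02 N10 N11 N12 N22 : Type*)
    [AddCommGroup N00] [Module K N00] [AddCommGroup N01] [Module K N01]
    [AddCommGroup N02] [Module K N02] [AddCommGroup N10] [Module K N10]
    [AddCommGroup N11] [Module K N11] [AddCommGroup N12] [Module K N12]
    [AddCommGroup N22] [Module K N22] where
  xa : Fin 2 → N00 →ₗ[K] N10
  xb : Fin 2 → N01 →ₗ[K] N11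
  xc : Fin 2 → N02 →ₗ[K] N12
  xd : Fin 2 → N12 →ₗ[K] N22
  da : Fin 2 → N00 →ₗ[K] N01
  db : Fin 2 → N01 →ₗ[K] N02
  dc : Fin 2 → N10 →ₗ[K] N11
  dd : Fin 2 → N11 →ₗ[K] N12
  /-- `x_i d_i = g d_i x_i`, `x_i d_j = d_j x_i` -/
  ra : ∀ i j u, xb j (da i u) = (if i = j then g else 1) • dc i (xa j u)
  rb : ∀ i j u, xc j (db i u) = (if i = j then g else 1) • dd i (xb j u)
  /-- injectivity of `d_0`, `x_1` -/
  da_inj : ∀ u, da 0 u = 0 → u = 0
  dc_inj : ∀ u, dc 0 u = 0 → u = 0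
  xc_inj : ∀ u, xc 1 u = 0 → u = 0
  /-- Koszul in `d` -/
  dk : ∀ u v, db 0 u = db 1 v → ∃ w, u = da 1 w ∧ v = da 0 w
  dk' : ∀ u v, dd 0 u = dd 1 v → ∃ w, u = dc 1 w ∧ v = dc 0 w
  ds : ∀ w, ∃ u v, w = db 0 u - db 1 v
  ds' : ∀ w, ∃ u v, w = dd 0 u - dd 1 v
  /-- Koszul in `x` -/
  xk : ∀ u v, xd 0 u = xd 1 v → ∃ w, u = xc 1 w ∧ v = xc 0 w
  xs : ∀ w, ∃ u v, w = xd 0 u - xd 1 v

variable {K : Type*} [Field K] {g : K} {N00 N01 N02 N10 N11 N12 N22 : Type*}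
    [AddCommGroup N00] [Module K N00] [AddCommGroup N01] [Module K N01]
    [AddCommGroup N02] [Module K N02] [AddCommGroup N10] [Module K N10]
    [AddCommGroup N11] [Module K N11] [AddCommGroup N12] [Module K N12]
    [AddCommGroup N22] [Module K N22] (S : Sq K g N00 N01 N02 N10 N11 N12 N22) (lam : ℕ → K)

/-! ## the differentials, in coordinates -/

/-- `zeta(g) = Σ d_i phi(g_i)` -/
def zeta (φ : ℕ → N00) (e : Fin 2) (j : ℕ) : N01 := S.da e (φ j)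

/-- `m(g) = x0 phi(x1 G) - x1 phi(x0 G)`, `G = div g` -/
def mm (n : ℕ) (φ : ℕ → N00) (e : Fin 2) (j : ℕ) : N10 :=
  if e = 0 then lam (n - j) • (S.xa 0 (φ (j + 1)) - S.xa 1 (φ j))
  else lam j • (S.xa 0 (φ j) - S.xa 1 (φ (j - 1)))

/-- `M(f) = m(curl f)` -/
def MM (n : ℕ) (m : Fin 2 → ℕ → N10) (j : ℕ) : N10 :=
  lam j • m 0 (j - 1) - lam (n + 1 - j) • m 1 j

/-- `Z`-part -/
def ZZ (ζ : Fin 2 → ℕ → N01) : ℕ → N12
  | 0 => g⁻¹ • S.xc 0 (S.db 0 (ζ 1 0) - S.db 1 (ζ 0 0))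
  | j + 1 => g⁻¹ • S.xc 1 (S.db 0 (ζ 1 j) - S.db 1 (ζ 0 j))

/-- `psi`-part -/
def psi (n : ℕ) (ζ : Fin 2 → ℕ → N01) (m : Fin 2 → ℕ → N10) (e : Fin 2) (j : ℕ) : N11 :=
  if e = 0 then -(g⁻¹ • S.xb 0 (ζ 0 (j + 1))) + S.xb 1 (ζ 0 j) + (lam (n - j))⁻¹ • S.dc 0 (m 0 j)
  else -(S.xb 0 (ζ 1 (j + 1))) + g⁻¹ • S.xb 1 (ζ 1 j) + (lam (n - j))⁻¹ • S.dc 1 (m 0 j)

/-- `tau` -/
def tau (Z : ℕ → N12) (ψ : Fin 2 → ℕ → N11) : ℕ → N22
  | 0 => S.xd 0 (Z 1) - S.xd 1 (Z 0)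
  | j + 1 => S.xd 0 (Z (j + 2)) - S.xd 1 (Z (j + 1)) - S.xd 1 (S.dd 1 (ψ 0 j)) + S.xd 1 (S.dd 0 (ψ 1 j))

/-- `Y_0 = Z_0`, `Y_j = Z_j + d1 psi_0^(j-1) - d0 psi_1^(j-1)`: then `tau_j = x0 Z_(j+1) - x1 Y_j` -/
def YY (Z : ℕ → N12) (ψ : Fin 2 → ℕ → N11) : ℕ → N12
  | 0 => Z 0
  | i + 1 => Z (i + 1) + S.dd 1 (ψ 0 i) - S.dd 0 (ψ 1 i)

section
variable {lam}

/-- exactness at degree `0` -/
theorem H0 (n : ℕ) (φ : ℕ → N00) (h : ∀ e, ∀ j ≤ n, zeta S φ e j = 0) : ∀ j ≤ n, φ j = 0 :=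
  fun j hj => S.da_inj _ (h 0 j hj)

/-- exactness at degree `1` -/
theorem H1 (hg : g ≠ 0) (n : ℕ) (hlam : ∀ m, 0 < m → m ≤ n + 1 → lam m ≠ 0) (h0 : lam 0 = 0)
    (ζ : Fin 2 → ℕ → N01) (m : Fin 2 → ℕ → N10)
    (hZ : ∀ j ≤ n + 1, ZZ S ζ j = 0) (hM : ∀ j ≤ n + 1, MM lam n m j = 0)
    (hψ : ∀ e, ∀ j < n, psi S lam n ζ m e j = 0) :
    ∃ φ : ℕ → N00, (∀ e, ∀ j ≤ n, ζ e j = zeta S φ e j) ∧ (∀ e, ∀ j ≤ n, m e j = mm S lam n φ e j) := by
  have hginv : g⁻¹ ≠ 0 := inv_ne_zero hg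
  have key : ∀ j, ∃ w, j ≤ n → (ζ 1 j = S.da 1 w ∧ ζ 0 j = S.da 0 w) := by
    intro j
    by_cases hj : j ≤ n
    · have h1 := hZ (j + 1) (by omega)
      simp only [ZZ] at h1
      have h2 := S.xc_inj _ ((smul_eq_zero.mp h1).resolve_left hginv)
      obtain ⟨w, hw1, hw2⟩ := S.dk _ _ (sub_eq_zero.mp h2)
      exact ⟨w, fun _ => ⟨hw1, hw2⟩⟩
    · exact ⟨0, fun h => absurd h hj⟩
  choose φ hφ using key
  have hm0 : ∀ j ≤ n, m 0 j = lam (n - j) • (S.xa 0 (φ (j + 1)) - S.xa 1 (φ j)) := by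
    intro j hj
    rcases Nat.lt_or_ge j n with hlt | hge
    · have h1 := hψ 0 j hlt
      simp only [psi, if_true] at h1
      rw [(hφ (j + 1) (by omega)).2, (hφ j hj).2, S.ra 0 0, S.ra 0 1] at h1
      simp only [if_true, zero_ne_one, if_false, one_smul, smul_smul, inv_mul_cancel₀ hg,
        Fin.isValue] at h1
      have hl : lam (n - j) ≠ 0 := hlam _ (by omega) (by omega)
      have h2 : S.dc 0 ((lam (n - j))⁻¹ • m 0 j - (S.xa 0 (φ (j + 1)) - S.xa 1 (φ j))) = 0 := by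
        rw [map_sub, map_sub, map_smul, ← h1]
        abel
      have h3 := sub_eq_zero.mp (S.dc_inj _ h2)
      rw [← h3, smul_smul, mul_inv_cancel₀ hl, one_smul]
    · have hjn : j = n := by omega
      subst hjn
      have h1 := hM (j + 1) le_rfl
      simp only [MM, Nat.add_sub_cancel, Nat.sub_self, h0, zero_smul, sub_zero] at h1
      rw [(smul_eq_zero.mp h1).resolve_left (hlam _ (by omega) le_rfl), Nat.sub_self, h0, zero_smul]
  have hm1 : ∀ j ≤ n, m 1 j = lam j • (S.xa 0 (φ j) - S.xa 1 (φ (j - 1))) := by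
    intro j hj
    have hl : lam (n + 1 - j) ≠ 0 := hlam _ (by omega) (by omega)
    have h1 := hM j (by omega)
    simp only [MM] at h1
    rcases j with _ | j
    · simp only [h0, zero_smul, zero_sub, neg_eq_zero] at h1 ⊢
      exact (smul_eq_zero.mp h1).resolve_left hl
    · rw [Nat.add_sub_cancel, hm0 j (by omega), show n + 1 - (j + 1) = n - j by omega] at h1
      rw [show n + 1 - (j + 1) = n - j by omega] at hl
      rw [smul_comm, ← smul_sub] at h1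
      have h2 := sub_eq_zero.mp ((smul_eq_zero.mp h1).resolve_left hl)
      rw [← h2, Nat.add_sub_cancel]
  refine ⟨φ, ?_, ?_⟩
  · intro e j hj
    fin_cases e
    · exact (hφ j hj).2
    · exact (hφ j hj).1
  · intro e j hj
    fin_cases e
    · simpa [mm] using hm0 j hj
    · simpa [mm] using hm1 j hj

/-- exactness at degree `2` -/
theorem H2 (hg : g ≠ 0) (n : ℕ) (hlam : ∀ m, 0 < m → m ≤ n + 1 → lam m ≠ 0) (h0 : lam 0 = 0)
    (Z : ℕ → N12) (M : ℕ → N10) (ψ : Fin 2 → ℕ → N11)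
    (hτ : ∀ j ≤ n, tau S Z ψ j = 0) :
    ∃ (ζ : Fin 2 → ℕ → N01) (m : Fin 2 → ℕ → N10),
      (∀ j ≤ n + 1, Z j = ZZ S ζ j) ∧ (∀ j ≤ n + 1, M j = MM lam n m j) ∧
      (∀ e, ∀ j < n, ψ e j = psi S lam n ζ m e j) := by
  have hginv : g⁻¹ ≠ 0 := inv_ne_zero hg
  -- step 1
  have key : ∀ j, ∃ (z1 z0 : N01), j ≤ n →
      (Z (j + 1) = g⁻¹ • S.xc 1 (S.db 0 z1 - S.db 1 z0) ∧
        YY S Z ψ j = g⁻¹ • S.xc 0 (S.db 0 z1 - S.db 1 z0)) := by
    intro j
    by_cases hj : j ≤ n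
    · have h1 : S.xd 0 (Z (j + 1)) = S.xd 1 (YY S Z ψ j) := by
        have := hτ j hj
        rcases j with _ | i
        · simp only [tau] at this
          exact sub_eq_zero.mp this
        · simp only [tau] at this
          simp only [YY, map_sub, map_add]
          rw [← sub_eq_zero, ← this]
          abel
      obtain ⟨w, hw1, hw2⟩ := S.xk _ _ h1
      obtain ⟨z1, z0, hz⟩ := S.ds (g • w)
      refine ⟨z1, z0, fun _ => ⟨?_, ?_⟩⟩
      · rw [hw1, ← hz, map_smul, smul_smul, inv_mul_cancel₀ hg, one_smul]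
      · rw [hw2, ← hz, map_smul, smul_smul, inv_mul_cancel₀ hg, one_smul]
    · exact ⟨0, 0, fun h => absurd h hj⟩
  choose z1 z0 hz using key
  -- step 2
  have key2 : ∀ j, ∃ θ : N10, j < n →
      (ψ 1 j + S.xb 0 (z1 (j + 1)) - g⁻¹ • S.xb 1 (z1 j) = S.dc 1 θ ∧
        ψ 0 j + g⁻¹ • S.xb 0 (z0 (j + 1)) - S.xb 1 (z0 j) = S.dc 0 θ) := by
    intro j
    by_cases hj : j < n
    · have h1 := (hz (j + 1) (by omega)).2
      have h2 := (hz j (by omega)).1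
      simp only [YY] at h1
      rw [h2] at h1
      have e1 := S.rb 0 0 (z1 (j + 1))
      have e2 := S.rb 1 0 (z0 (j + 1))
      have e3 := S.rb 0 1 (z1 j)
      have e4 := S.rb 1 1 (z0 j)
      simp only [if_true, zero_ne_one, one_ne_zero, if_false, one_smul, Fin.isValue] at e1 e2 e3 e4
      simp only [map_sub, smul_sub, e1, e2, e3, e4, smul_smul, inv_mul_cancel₀ hg, one_smul] at h1
      obtain ⟨w, hw1, hw2⟩ := S.dk' (ψ 1 j + S.xb 0 (z1 (j + 1)) - g⁻¹ • S.xb 1 (z1 j))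
        (ψ 0 j + g⁻¹ • S.xb 0 (z0 (j + 1)) - S.xb 1 (z0 j)) (by
          simp only [map_sub, map_add, map_smul]
          rw [← sub_eq_zero]
          have h3 := sub_eq_zero.mpr h1
          rw [← neg_eq_zero, ← h3]
          abel)
      exact ⟨w, fun _ => ⟨hw1, hw2⟩⟩
    · exact ⟨0, fun h => absurd h hj⟩
  choose θ hθ using key2
  -- step 3
  let m0 : ℕ → N10 := fun j => if j < n then lam (n - j) • θ j else (lam (n + 1))⁻¹ • M (n + 1)
  let m1 : ℕ → N10 := fun j => (lam (n + 1 - j))⁻¹ • (lam j • m0 (j - 1) - M j)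
  refine ⟨fun e j => if e = 0 then z0 j else z1 j, fun e j => if e = 0 then m0 j else m1 j, ?_, ?_, ?_⟩
  · intro j hj
    rcases j with _ | j
    · have := (hz 0 (by omega)).2
      simpa [ZZ, YY] using this
    · have := (hz j (by omega)).1
      simpa [ZZ] using this
  · intro j hj
    simp only [MM, if_true, one_ne_zero, if_false, Fin.isValue]
    rcases Nat.lt_or_ge j (n + 1) with hlt | hge
    · have hl : lam (n + 1 - j) ≠ 0 := hlam _ (by omega) (by omega)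
      simp only [m1]
      rw [smul_smul, mul_inv_cancel₀ hl, one_smul]
      abel
    · have hjn : j = n + 1 := by omega
      subst hjn
      have hl : lam (n + 1) ≠ 0 := hlam _ (by omega) le_rfl
      simp only [m0, Nat.add_sub_cancel, lt_irrefl, if_false, Nat.sub_self, h0, zero_smul, sub_zero]
      rw [smul_smul, mul_inv_cancel₀ hl, one_smul]
  · intro e j hj
    have hl : lam (n - j) ≠ 0 := hlam _ (by omega) (by omega)
    obtain ⟨h1, h2⟩ := hθ j hj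
    fin_cases e
    · simp only [psi, Fin.zero_eta, if_true, Fin.isValue, m0, if_pos hj, map_smul, smul_smul,
        inv_mul_cancel₀ hl, one_smul]
      rw [← h2]
      abel
    · simp only [psi, Fin.mk_one, if_true, one_ne_zero, if_false, Fin.isValue, m0, if_pos hj, map_smul,
        smul_smul, inv_mul_cancel₀ hl, one_smul]
      rw [← h1]
      abel

/-- exactness at degree `3` -/
theorem H3 (n : ℕ) (τ : ℕ → N22) :
    ∃ (Z : ℕ → N12) (ψ : Fin 2 → ℕ → N11), ∀ j ≤ n, τ j = tau S Z ψ j := by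
  choose A B hAB using fun j => S.xs (τ j)
  choose C D hCD using fun j => S.ds' (A j - B (j + 1))
  refine ⟨fun j => Nat.rec (B 0) (fun i _ => A i) j, fun e j => if e = 0 then D j else C j, ?_⟩
  intro j _
  rcases j with _ | j
  · simpa [tau] using hAB 0
  · simp only [tau, if_true, one_ne_zero, if_false, Fin.isValue]
    have h1 := hCD j
    have h2 : S.dd 0 (C j) = A j - B (j + 1) + S.dd 1 (D j) := by rw [h1]; abel
    rw [h2, hAB (j + 1)]
    simp only [map_add, map_sub]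
    abel

end

end Crest.Agent.R186.LC369
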