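import Mathlib

/-!
# Row 186, S0281, base block (H): the ladder theorem (helper229)

The complexes `Hom(K(n), D(i,b))` (h = 0) are exact for every `n`, given only

* the d-Koszul sequences `0 → A0 → B0² → C0 → 0`, `0 → A1 → B1² → C1 → 0`,
* the x-Koszul sequence `0 → C0 → C1² → C2 → 0`,

where `A0 = Q_(i,b)`, `A1 = Q_(i+1,b)`, `B0 = Q_(i-1,b+1)`, `B1 = Q_(i,b+1)`, `C0 = Q_(i-2,b+2)`,
`C1 = Q_(i-1,b+2)`, `C2 = Q_(i,b+2)`, `x_i d_i = g d_i x_i`, all other pairs commute.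

Functions on `[n] = k[x]_n` are written by their values at `x^a y^(n-a)`, index `a ≤ n`.
-/

set_option autoImplicit false

namespace Crest.Agent.R186.Ladder229

/-- the seven pieces, the maps `x_l`, `d_j` between them, the relations and the Koszul facts -/
structure Lad (K : Type*) [Field K] (g : K) (A0 A1 B0 B1 C0 C1 C2 : Type*)
    [AddCommGroup A0] [AddCommGroup A1] [AddCommGroup B0] [AddCommGroup B1]
    [AddCommGroup C0] [AddCommGroup C1] [AddCommGroup C2]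
    [Module K A0] [Module K A1] [Module K B0] [Module K B1] [Module K C0] [Module K C1]
    [Module K C2] where
  /-- `x_l : Q_(i,b) → Q_(i+1,b)` -/
  xa0 : A0 →ₗ[K] A1
  xa1 : A0 →ₗ[K] A1
  /-- `x_l : Q_(i-1,b+1) → Q_(i,b+1)` -/
  xb0 : B0 →ₗ[K] B1
  xb1 : B0 →ₗ[K] B1
  /-- `x_l : Q_(i-2,b+2) → Q_(i-1,b+2)` -/
  xc0 : C0 →ₗ[K] C1
  xc1 : C0 →ₗ[K] C1
  /-- `x_l : Q_(i-1,b+2) → Q_(i,b+2)` -/
  xe0 : C1 →ₗ[K] C2
  xe1 : C1 →ₗ[K] C2
  /-- `d_j : Q_(i,b) → Q_(i-1,b+1)` -/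
  da0 : A0 →ₗ[K] B0
  da1 : A0 →ₗ[K] B0
  /-- `d_j : Q_(i+1,b) → Q_(i,b+1)` -/
  dA0 : A1 →ₗ[K] B1
  dA1 : A1 →ₗ[K] B1
  /-- `d_j : Q_(i-1,b+1) → Q_(i-2,b+2)` -/
  db0 : B0 →ₗ[K] C0
  db1 : B0 →ₗ[K] C0
  /-- `d_j : Q_(i,b+1) → Q_(i-1,b+2)` -/
  dB0 : B1 →ₗ[K] C1
  dB1 : B1 →ₗ[K] C1
  hg : g ≠ 0
  -- relations
  ra00 : ∀ v, xb0 (da0 v) = g • dA0 (xa0 v)
  ra11 : ∀ v, xb1 (da1 v) = g • dA1 (xa1 v)
  ra01 : ∀ v, xb0 (da1 v) = dA1 (xa0 v)
  ra10 : ∀ v, xb1 (da0 v) = dA0 (xa1 v)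
  rb00 : ∀ v, xc0 (db0 v) = g • dB0 (xb0 v)
  rb11 : ∀ v, xc1 (db1 v) = g • dB1 (xb1 v)
  rb01 : ∀ v, xc0 (db1 v) = dB1 (xb0 v)
  rb10 : ∀ v, xc1 (db0 v) = dB0 (xb1 v)
  rd : ∀ v, db0 (da1 v) = db1 (da0 v)
  rD : ∀ v, dB0 (dA1 v) = dB1 (dA0 v)
  rx : ∀ v, xe0 (xc1 v) = xe1 (xc0 v)
  -- Koszul facts
  a0 : ∀ v, da0 v = 0 → da1 v = 0 → v = 0
  a1 : ∀ c0 c1, db1 c0 = db0 c1 → ∃ v, c0 = da0 v ∧ c1 = da1 v
  a2 : ∀ e, ∃ c0 c1, e = db0 c1 - db1 c0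
  b0 : ∀ v, dA0 v = 0 → dA1 v = 0 → v = 0
  b1 : ∀ r0 r1, dB1 r0 = dB0 r1 → ∃ v, r0 = dA0 v ∧ r1 = dA1 v
  b2 : ∀ f, ∃ r0 r1, f = dB0 r1 - dB1 r0
  c0 : Function.Injective xc0
  c1 : ∀ u v, xe1 u = xe0 v → ∃ e, u = xc0 e ∧ v = xc1 e
  c2 : ∀ z, ∃ u v, z = xe0 u - xe1 v

namespace Lad

variable {K : Type*} [Field K] {g : K} {A0 A1 B0 B1 C0 C1 C2 : Type*}
    [AddCommGroup A0] [AddCommGroup A1] [AddCommGroup B0] [AddCommGroup B1]
    [AddCommGroup C0] [AddCommGroup C1] [AddCommGroup C2]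
    [Module K A0] [Module K A1] [Module K B0] [Module K B1] [Module K C0] [Module K C1]
    [Module K C2] (L : Lad K g A0 A1 B0 B1 C0 C1 C2)

/-- `ψ`-component of the differential of `φ` -/
def Psi (φ : ℕ → A0) (a : ℕ) : A1 := L.xa0 (φ a) - L.xa1 (φ (a + 1))

/-- `R0`-component -/
def R0 (ψ : ℕ → A1) (c0 : ℕ → B0) (a : ℕ) : B1 :=
  -(g⁻¹ • L.xb0 (c0 a)) + L.xb1 (c0 (a + 1)) + L.dA0 (ψ a)

/-- `R1`-component -/
def R1 (ψ : ℕ → A1) (c1 : ℕ → B0) (a : ℕ) : B1 :=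
  -(L.xb0 (c1 a)) + g⁻¹ • L.xb1 (c1 (a + 1)) + L.dA1 (ψ a)

/-- `C`-component (monomial section `x^a y^b ↦ (x^(a-1) y^b, 0)`, `y^b ↦ (0, y^(b-1))`) -/
def CC (c0 c1 : ℕ → B0) : ℕ → C1
  | 0 => g⁻¹ • L.dB0 (L.xb1 (c1 0)) - L.dB1 (L.xb1 (c0 0))
  | a + 1 => L.dB0 (L.xb0 (c1 a)) - g⁻¹ • L.dB1 (L.xb0 (c0 a))

/-- last differential -/
def Z (C : ℕ → C1) (r0 r1 : ℕ → B1) : ℕ → C2
  | 0 => L.xe0 (C 0) - L.xe1 (C 1)
  | a + 1 => L.xe0 (C (a + 1)) - L.xe1 (C (a + 2)) + L.xe0 (L.dB0 (r1 a) - L.dB1 (r0 a))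

include L in
theorem smul_inv_inj {M : Type*} [AddCommGroup M] [Module K M] {v : M} (h : g⁻¹ • v = 0) :
    v = 0 := (smul_eq_zero.1 h).resolve_left (inv_ne_zero L.hg)

theorem dB0_xb0 (v : B0) : L.dB0 (L.xb0 v) = g⁻¹ • L.xc0 (L.db0 v) := by
  rw [L.rb00, smul_smul, inv_mul_cancel₀ L.hg, one_smul]

theorem dB1_xb1 (v : B0) : L.dB1 (L.xb1 v) = g⁻¹ • L.xc1 (L.db1 v) := by
  rw [L.rb11, smul_smul, inv_mul_cancel₀ L.hg, one_smul]

theorem dA0_xa0 (v : A0) : L.dA0 (L.xa0 v) = g⁻¹ • L.xb0 (L.da0 v) := by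
  rw [L.ra00, smul_smul, inv_mul_cancel₀ L.hg, one_smul]

theorem dA1_xa1 (v : A0) : L.dA1 (L.xa1 v) = g⁻¹ • L.xb1 (L.da1 v) := by
  rw [L.ra11, smul_smul, inv_mul_cancel₀ L.hg, one_smul]

theorem CC_succ (c0 c1 : ℕ → B0) (a : ℕ) :
    L.CC c0 c1 (a + 1) = g⁻¹ • L.xc0 (L.db0 (c1 a) - L.db1 (c0 a)) := by
  show L.dB0 (L.xb0 (c1 a)) - g⁻¹ • L.dB1 (L.xb0 (c0 a)) = _
  rw [L.dB0_xb0, ← L.rb01, map_sub, smul_sub]

theorem CC_zero (c0 c1 : ℕ → B0) :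
    L.CC c0 c1 0 = g⁻¹ • L.xc1 (L.db0 (c1 0) - L.db1 (c0 0)) := by
  show g⁻¹ • L.dB0 (L.xb1 (c1 0)) - L.dB1 (L.xb1 (c0 0)) = _
  rw [L.dB1_xb1, ← L.rb10, map_sub, smul_sub]

/-! ### the composites are zero -/

theorem R0_Psi (φ : ℕ → A0) (a : ℕ) : L.R0 (L.Psi φ) (fun a => L.da0 (φ a)) a = 0 := by
  simp only [R0, Psi, map_sub, L.dA0_xa0, ← L.ra10]
  abel

theorem R1_Psi (φ : ℕ → A0) (a : ℕ) : L.R1 (L.Psi φ) (fun a => L.da1 (φ a)) a = 0 := by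
  simp only [R1, Psi, map_sub, L.dA1_xa1, ← L.ra01]
  abel

theorem CC_d (φ : ℕ → A0) (a : ℕ) : L.CC (fun a => L.da0 (φ a)) (fun a => L.da1 (φ a)) a = 0 := by
  cases a with
  | zero => rw [L.CC_zero, L.rd, sub_self, map_zero, smul_zero]
  | succ a => rw [L.CC_succ, L.rd, sub_self, map_zero, smul_zero]

/-- key identity for `Z ∘ (CC, R) = 0` and for the ladder step -/
theorem Z_aux (ψ : ℕ → A1) (c0 c1 : ℕ → B0) (a : ℕ) :
    L.Z (L.CC c0 c1) (L.R0 ψ c0) (L.R1 ψ c1) a = 0 := by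
  cases a with
  | zero =>
    show L.xe0 (L.CC c0 c1 0) - L.xe1 (L.CC c0 c1 1) = 0
    rw [L.CC_zero, L.CC_succ, map_smul, map_smul, L.rx, sub_self]
  | succ a =>
    show L.xe0 (L.CC c0 c1 (a + 1)) - L.xe1 (L.CC c0 c1 (a + 1 + 1)) +
      L.xe0 (L.dB0 (L.R1 ψ c1 a) - L.dB1 (L.R0 ψ c0 a)) = 0
    rw [L.CC_succ c0 c1 (a + 1), map_smul, ← L.rx, ← map_smul, ← map_sub, ← map_add]
    convert map_zero L.xe0
    rw [L.CC_succ, R0, R1]
    simp only [map_add, map_neg, map_smul, map_sub, smul_sub, L.rD, L.dB0_xb0, L.dB1_xb1,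
      ← L.rb01, ← L.rb10]
    abel

/-! ### exactness -/

theorem H0 {n : ℕ} {φ : ℕ → A0} (h0 : ∀ a ≤ n, L.da0 (φ a) = 0) (h1 : ∀ a ≤ n, L.da1 (φ a) = 0) :
    ∀ a ≤ n, φ a = 0 := fun a ha => L.a0 _ (h0 a ha) (h1 a ha)

theorem H1 {n : ℕ} {ψ : ℕ → A1} {c0 c1 : ℕ → B0} (hR0 : ∀ a < n, L.R0 ψ c0 a = 0)
    (hR1 : ∀ a < n, L.R1 ψ c1 a = 0) (hC : ∀ a ≤ n + 1, L.CC c0 c1 a = 0) :
    ∃ φ : ℕ → A0, (∀ a < n, ψ a = L.Psi φ a) ∧ (∀ a ≤ n, c0 a = L.da0 (φ a)) ∧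
      ∀ a ≤ n, c1 a = L.da1 (φ a) := by
  have key : ∀ a : ℕ, ∃ v : A0, a ≤ n → c0 a = L.da0 v ∧ c1 a = L.da1 v := by
    intro a
    by_cases ha : a ≤ n
    · have h := hC (a + 1) (by omega)
      rw [L.CC_succ] at h
      have h2 := L.c0 ((L.smul_inv_inj h).trans (map_zero _).symm)
      obtain ⟨v, hv⟩ := L.a1 (c0 a) (c1 a) (sub_eq_zero.1 h2).symm
      exact ⟨v, fun _ => hv⟩
    · exact ⟨0, fun h => absurd h ha⟩
  choose φ hφ using key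
  refine ⟨φ, fun a ha => ?_, fun a ha => (hφ a ha).1, fun a ha => (hφ a ha).2⟩
  have e0 := L.R0_Psi φ a
  have e1 := L.R1_Psi φ a
  have f0 := hR0 a ha
  have f1 := hR1 a ha
  have k0 : L.R0 ψ c0 a - L.R0 (L.Psi φ) (fun a => L.da0 (φ a)) a = L.dA0 (ψ a - L.Psi φ a) := by
    simp only [R0, ← (hφ a ha.le).1, ← (hφ (a + 1) ha).1, map_sub]
    abel
  have k1 : L.R1 ψ c1 a - L.R1 (L.Psi φ) (fun a => L.da1 (φ a)) a = L.dA1 (ψ a - L.Psi φ a) := by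
    simp only [R1, ← (hφ a ha.le).2, ← (hφ (a + 1) ha).2, map_sub]
    abel
  rw [e0, f0, sub_zero] at k0
  rw [e1, f1, sub_zero] at k1
  exact sub_eq_zero.1 (L.b0 _ k0.symm k1.symm)

/-- the step data: with `e` given, `c0 c1` such that `d0 c1 - d1 c0 = g e` -/
theorem exists_c (e : C0) : ∃ c0 c1, g⁻¹ • (L.db0 c1 - L.db1 c0) = e := by
  obtain ⟨c0, c1, h⟩ := L.a2 (g • e)
  exact ⟨c0, c1, by rw [← h, smul_smul, inv_mul_cancel₀ L.hg, one_smul]⟩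

theorem H2 (n : ℕ) {C : ℕ → C1} {r0 r1 : ℕ → B1} (hZ : ∀ a ≤ n, L.Z C r0 r1 a = 0) :
    ∃ (ψ : ℕ → A1) (c0 c1 : ℕ → B0), (∀ a < n, r0 a = L.R0 ψ c0 a) ∧
      (∀ a < n, r1 a = L.R1 ψ c1 a) ∧ ∀ a ≤ n + 1, C a = L.CC c0 c1 a := by
  induction n with
  | zero =>
    have h := hZ 0 le_rfl
    change L.xe0 (C 0) - L.xe1 (C 1) = 0 at h
    obtain ⟨e, he1, he0⟩ := L.c1 (C 1) (C 0) (sub_eq_zero.1 h).symm
    obtain ⟨c0, c1, hc⟩ := L.exists_c e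
    refine ⟨fun _ => 0, fun _ => c0, fun _ => c1, fun a ha => absurd ha (Nat.not_lt_zero _),
      fun a ha => absurd ha (Nat.not_lt_zero _), fun a ha => ?_⟩
    rcases a with _ | a
    · rw [L.CC_zero, ← map_smul, hc, he0]
    · obtain rfl : a = 0 := by omega
      rw [L.CC_succ, ← map_smul, hc, he1]
  | succ n ih =>
    obtain ⟨ψ, c0, c1, h0, h1, hC⟩ := ih (fun a ha => hZ a (by omega))
    have hz := hZ (n + 1) le_rfl
    change L.xe0 (C (n + 1)) - L.xe1 (C (n + 2)) + L.xe0 (L.dB0 (r1 n) - L.dB1 (r0 n)) = 0 at hz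
    rw [hC (n + 1) le_rfl] at hz
    have hz2 : L.xe1 (C (n + 2)) = L.xe0 (L.CC c0 c1 (n + 1) + (L.dB0 (r1 n) - L.dB1 (r0 n))) := by
      rw [map_add]
      rw [← sub_eq_zero] at hz ⊢
      rw [← neg_eq_zero, ← hz]
      abel
    obtain ⟨e, he1, he0⟩ := L.c1 _ _ hz2
    obtain ⟨u0, u1, hu⟩ := L.exists_c e
    -- the remaining `ρ`
    have hrho : L.dB1 (r0 n + g⁻¹ • L.xb0 (c0 n) - L.xb1 u0) =
        L.dB0 (r1 n + L.xb0 (c1 n) - g⁻¹ • L.xb1 u1) := by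
      have e2 : L.CC c0 c1 (n + 1) = L.dB0 (L.xb0 (c1 n)) - g⁻¹ • L.dB1 (L.xb0 (c0 n)) := rfl
      have e3 : L.xc1 e = g⁻¹ • L.dB0 (L.xb1 u1) - L.dB1 (L.xb1 u0) := by
        rw [← hu, map_smul, map_sub, L.dB1_xb1, ← L.rb10, smul_sub]
      rw [e2, e3] at he0
      simp only [map_add, map_sub, map_smul]
      rw [← sub_eq_zero] at he0 ⊢
      rw [← neg_eq_zero, ← he0]
      abel
    obtain ⟨p, hp0, hp1⟩ := L.b1 _ _ hrho
    refine ⟨Function.update ψ n p, Function.update c0 (n + 1) u0, Function.update c1 (n + 1) u1,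
      fun a ha => ?_, fun a ha => ?_, fun a ha => ?_⟩
    · rcases Nat.lt_succ_iff_lt_or_eq.1 ha with ha' | rfl
      · rw [h0 a ha']
        simp only [R0]
        rw [Function.update_of_ne (by omega), Function.update_of_ne (by omega),
          Function.update_of_ne (by omega)]
      · simp only [R0]
        rw [Function.update_self, Function.update_self, Function.update_of_ne (by omega), ← hp0]
        abel
    · rcases Nat.lt_succ_iff_lt_or_eq.1 ha with ha' | rfl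
      · rw [h1 a ha']
        simp only [R1]
        rw [Function.update_of_ne (by omega), Function.update_of_ne (by omega),
          Function.update_of_ne (by omega)]
      · simp only [R1]
        rw [Function.update_self, Function.update_self, Function.update_of_ne (by omega), ← hp1]
        abel
    · rcases a with _ | a
      · rw [hC 0 (by omega), L.CC_zero, L.CC_zero, Function.update_of_ne (by omega),
          Function.update_of_ne (by omega)]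
      · by_cases h : a = n + 1
        · subst h
          rw [L.CC_succ, Function.update_self, Function.update_self, ← map_smul, hu, ← he1]
        · rw [hC (a + 1) (by omega), L.CC_succ, L.CC_succ, Function.update_of_ne h,
            Function.update_of_ne h]

theorem H3 (n : ℕ) (z : ℕ → C2) :
    ∃ (C : ℕ → C1) (r0 r1 : ℕ → B1), ∀ a ≤ n, z a = L.Z C r0 r1 a := by
  induction n with
  | zero =>
    obtain ⟨u, v, h⟩ := L.c2 (z 0)
    refine ⟨fun a => if a = 0 then u else v, fun _ => 0, fun _ => 0, fun a ha => ?_⟩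
    obtain rfl : a = 0 := by omega
    show z 0 = L.xe0 (if (0 : ℕ) = 0 then u else v) - L.xe1 (if (1 : ℕ) = 0 then u else v)
    rw [if_pos rfl, if_neg one_ne_zero, h]
  | succ n ih =>
    obtain ⟨C, r0, r1, hZ⟩ := ih
    obtain ⟨u, v, h⟩ := L.c2 (z (n + 1) - L.xe0 (C (n + 1)))
    obtain ⟨s0, s1, hs⟩ := L.b2 u
    refine ⟨Function.update C (n + 2) v, Function.update r0 n s0, Function.update r1 n s1,
      fun a ha => ?_⟩
    rcases a with _ | a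
    · rw [hZ 0 (by omega)]
      show _ = L.xe0 (Function.update C (n + 2) v 0) - L.xe1 (Function.update C (n + 2) v 1)
      rw [Function.update_of_ne (by omega), Function.update_of_ne (by omega)]
      rfl
    · by_cases h' : a = n
      · subst h'
        show _ = L.xe0 (Function.update C (a + 2) v (a + 1)) -
          L.xe1 (Function.update C (a + 2) v (a + 2)) +
          L.xe0 (L.dB0 (Function.update r1 a s1 a) - L.dB1 (Function.update r0 a s0 a))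
        rw [Function.update_of_ne (by omega), Function.update_self, Function.update_self,
          Function.update_self, ← hs]
        rw [sub_eq_iff_eq_add] at h
        rw [h]
        abel
      · rw [hZ (a + 1) (by omega)]
        show _ = L.xe0 (Function.update C (n + 2) v (a + 1)) -
          L.xe1 (Function.update C (n + 2) v (a + 2)) +
          L.xe0 (L.dB0 (Function.update r1 n s1 a) - L.dB1 (Function.update r0 n s0 a))
        rw [Function.update_of_ne (by omega), Function.update_of_ne (by omega),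
          Function.update_of_ne h', Function.update_of_ne h']
        rfl

end Lad

end Crest.Agent.R186.Ladder229
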