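import Crest.Agent.R186.Inst_823

/-!
Row 186, S0281, leaf B281.D4 (helper881): right normal form `d^b x^a` of the operators, the rows
`(X1)`, `(X2)`, `(X3)` for right multiplication by `x₀, x₁`, and the lattices `K_j`.
-/

set_option autoImplicit false

open Matrix

namespace Crest.Agent.R186.LatK881

open B281

variable {K : Type} [Field K]

/-! ### shifts -/

/-- multiplication by `x^a`, `a ∈ ℤ × ℤ` -/
noncomputable def Sh (a : ℤ × ℤ) : Op K := Finsupp.lmapDomain K K (fun m => m + a)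

theorem Sh_single (a m : ℤ × ℤ) (c : K) :
    Sh a (Finsupp.single m c) = Finsupp.single (m + a) c := by
  simp [Sh]

theorem Sh_mul (a b : ℤ × ℤ) : (Sh a : Op K) * Sh b = Sh (a + b) := by
  apply op_ext
  intro m
  simp only [Module.End.mul_apply, Sh_single]
  congr 1
  abel

theorem Sh_zero : (Sh 0 : Op K) = 1 := by
  apply op_ext
  intro m
  simp [Sh_single]

theorem X_eq (i : Fin 2) : (X i : Op K) = Sh (ev i) := rfl

theorem X_pow (i : Fin 2) (n : ℕ) : (X i : Op K) ^ n = Sh (n • ev i) := by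
  induction n with
  | zero => simp [Sh_zero]
  | succ n ih => rw [pow_succ, ih, X_eq, Sh_mul, succ_nsmul]

/-- right normal monomials `d^b x^a`, `a ∈ ℤ × ℤ` -/
noncomputable def dm (g : K) (b : ℕ × ℕ) (a : ℤ × ℤ) : Op K := D g 0 ^ b.1 * D g 1 ^ b.2 * Sh a

/-- the index set of `Fil g k P` -/
def Idx (k P : ℤ) : Set ((ℕ × ℕ) × (ℤ × ℤ)) :=
  {p | 0 ≤ p.2.1 ∧ 0 ≤ p.2.2 ∧ (p.1.1 : ℤ) + p.1.2 ≤ k ∧ p.2.1 + p.2.2 - (p.1.1 + p.1.2) = P}

/-- span of the right normal monomials -/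
noncomputable def Nor (g : K) (k P : ℤ) : Submodule K (Op K) :=
  Submodule.span K ((fun p => dm g p.1 p.2) '' Idx k P)

theorem dm_mem (g : K) {k P : ℤ} {b : ℕ × ℕ} {a : ℤ × ℤ} (h : (b, a) ∈ Idx k P) :
    dm g b a ∈ Nor g k P := Submodule.subset_span ⟨(b, a), h, rfl⟩

/-! ### reordering -/

theorem X_Dpow {g : K} (hg : Gen g) (i : Fin 2) (n : ℕ) :
    ∃ c c' : K, (X i : Op K) * D g i ^ (n + 1) = c • (D g i ^ (n + 1) * X i) + c' • D g i ^ n := by
  induction n with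
  | zero => exact ⟨g, 1, by rw [zero_add, pow_one, pow_zero, X_D_self hg, one_smul, add_comm]⟩
  | succ n ih =>
    obtain ⟨c, c', h⟩ := ih
    refine ⟨c * g, c + c', ?_⟩
    rw [pow_succ, ← mul_assoc, h, add_mul, smul_mul_assoc, smul_mul_assoc, mul_assoc,
      X_D_self hg, mul_add, mul_one, mul_smul_comm, ← mul_assoc, ← pow_succ, ← pow_succ, smul_add,
      smul_smul, add_smul]
    abel

theorem D_X_self {g : K} (hg : Gen g) (i : Fin 2) :
    (D g i : Op K) * X i = g⁻¹ • (X i * D g i) + (-g⁻¹) • 1 := by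
  have h : g⁻¹ • (1 : Op K) + (-g⁻¹) • 1 = 0 := by rw [← add_smul, add_neg_cancel, zero_smul]
  rw [X_D_self hg, smul_add, smul_smul, inv_mul_cancel₀ hg.ne, one_smul, add_right_comm, h,
    zero_add]

theorem D_Xpow {g : K} (hg : Gen g) (i : Fin 2) (n : ℕ) :
    ∃ c c' : K, (D g i : Op K) * X i ^ (n + 1) = c • (X i ^ (n + 1) * D g i) + c' • X i ^ n := by
  induction n with
  | zero =>
    exact ⟨g⁻¹, -g⁻¹, by rw [zero_add, pow_one, pow_zero, D_X_self hg]⟩
  | succ n ih =>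
    obtain ⟨c, c', h⟩ := ih
    refine ⟨c * g⁻¹, c * -g⁻¹ + c', ?_⟩
    rw [pow_succ, ← mul_assoc, h, add_mul, smul_mul_assoc, smul_mul_assoc, mul_assoc,
      D_X_self hg, mul_add, mul_smul_comm, mul_smul_comm, mul_one, ← mul_assoc, ← pow_succ,
      ← pow_succ, smul_add, smul_smul, smul_smul, add_smul, add_assoc]

theorem D_X_ne (g : K) {i j : Fin 2} (h : i ≠ j) (n : ℕ) :
    (D g i : Op K) * X j ^ n = X j ^ n * D g i := by
  have h1 : Commute (D g i) (X j : Op K) := (X_D g (Ne.symm h)).symm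
  exact (h1.pow_right n)

theorem X_D_ne (g : K) {i j : Fin 2} (h : i ≠ j) (n : ℕ) :
    (X i : Op K) * D g j ^ n = D g j ^ n * X i := by
  have h1 : Commute (X i : Op K) (D g j) := X_D g h
  exact (h1.pow_right n)

theorem D_D_pow (g : K) (i j : Fin 2) (n : ℕ) :
    (D g i : Op K) * D g j ^ n = D g j ^ n * D g i := by
  have h1 : Commute (D g i : Op K) (D g j) := D_comm g i j
  exact (h1.pow_right n)

theorem X_X_pow (i j : Fin 2) (n : ℕ) :
    (X i : Op K) * X j ^ n = X j ^ n * X i := by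
  have h1 : Commute (X i : Op K) (X j) := X_comm i j
  exact (h1.pow_right n)

/-- left multiplication by `x_i` on the right normal form -/
theorem X_mul_Nor {g : K} (hg : Gen g) (i : Fin 2) {k P : ℤ} {T : Op K} (hT : T ∈ Nor g k P) :
    X i * T ∈ Nor g k (P + 1) := by
  induction hT using Submodule.span_induction with
  | mem x hx =>
    obtain ⟨⟨⟨b0, b1⟩, a0, a1⟩, ⟨h1, h2, h3, h4⟩, rfl⟩ := hx
    simp only at h1 h2 h3 h4
    show X i * dm g (b0, b1) (a0, a1) ∈ _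
    have e0 : i = 0 ∨ i = 1 := by fin_cases i <;> simp
    rcases e0 with rfl | rfl
    · rcases Nat.eq_zero_or_pos b0 with h0 | h0
      · subst h0
        have : X 0 * dm g (0, b1) (a0, a1) = dm g (0, b1) (a0 + 1, a1) := by
          simp only [dm, pow_zero, one_mul]
          rw [← mul_assoc, X_D_ne g (by decide), mul_assoc, X_eq, Sh_mul]
          congr 2
          simp [ev, add_comm]
        rw [this]
        apply dm_mem
        simp only [Idx, Set.mem_ofPred_eq]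
        omega
      · obtain ⟨n, rfl⟩ : ∃ n, b0 = n + 1 := ⟨b0 - 1, by omega⟩
        obtain ⟨c, c', h⟩ := X_Dpow hg 0 n
        have : X 0 * dm g (n + 1, b1) (a0, a1) =
            c • dm g (n + 1, b1) (a0 + 1, a1) + c' • dm g (n, b1) (a0, a1) := by
          simp only [dm]
          rw [← mul_assoc, ← mul_assoc, h, add_mul, add_mul, smul_mul_assoc, smul_mul_assoc,
            smul_mul_assoc, smul_mul_assoc, mul_assoc (D g 0 ^ (n + 1)) (X 0), X_D_ne g (by decide),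
            ← mul_assoc, mul_assoc _ (X 0), X_eq, Sh_mul]
          congr 4
          simp [ev, add_comm]
        rw [this]
        refine add_mem (Submodule.smul_mem _ _ (dm_mem g ?_)) (Submodule.smul_mem _ _ (dm_mem g ?_))
          <;> simp only [Idx, Set.mem_ofPred_eq] <;> push_cast at h3 h4 ⊢ <;> omega
    · rcases Nat.eq_zero_or_pos b1 with h0 | h0
      · subst h0
        have : X 1 * dm g (b0, 0) (a0, a1) = dm g (b0, 0) (a0, a1 + 1) := by
          simp only [dm, pow_zero, mul_one]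
          rw [← mul_assoc, X_D_ne g (by decide), mul_assoc, X_eq, Sh_mul]
          congr 2
          simp [ev, add_comm]
        rw [this]
        apply dm_mem
        simp only [Idx, Set.mem_ofPred_eq]
        omega
      · obtain ⟨n, rfl⟩ : ∃ n, b1 = n + 1 := ⟨b1 - 1, by omega⟩
        obtain ⟨c, c', h⟩ := X_Dpow hg 1 n
        have : X 1 * dm g (b0, n + 1) (a0, a1) =
            c • dm g (b0, n + 1) (a0, a1 + 1) + c' • dm g (b0, n) (a0, a1) := by
          simp only [dm]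
          rw [← mul_assoc, ← mul_assoc, X_D_ne g (by decide), mul_assoc (D g 0 ^ b0) (X 1), h,
            mul_add, add_mul, mul_smul_comm, mul_smul_comm, smul_mul_assoc, smul_mul_assoc,
            ← mul_assoc, mul_assoc _ (X 1), X_eq, Sh_mul]
          congr 4
          simp [ev, add_comm]
        rw [this]
        refine add_mem (Submodule.smul_mem _ _ (dm_mem g ?_)) (Submodule.smul_mem _ _ (dm_mem g ?_))
          <;> simp only [Idx, Set.mem_ofPred_eq] <;> push_cast at h3 h4 ⊢ <;> omega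
  | zero => rw [mul_zero]; exact zero_mem _
  | add x y _ _ hx hy => rw [mul_add]; exact add_mem hx hy
  | smul a x _ hx => rw [mul_smul_comm]; exact Submodule.smul_mem _ a hx

theorem Xpow_mul_Nor {g : K} (hg : Gen g) (i : Fin 2) (n : ℕ) {k P : ℤ} {T : Op K}
    (hT : T ∈ Nor g k P) : X i ^ n * T ∈ Nor g k (P + n) := by
  induction n with
  | zero => simpa using hT
  | succ n ih =>
    rw [pow_succ', mul_assoc]
    have := X_mul_Nor hg i ih
    rwa [show P + (n : ℤ) + 1 = P + ((n + 1 : ℕ) : ℤ) by push_cast; ring] at this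

theorem Nor_mono (g : K) {k l P : ℤ} (h : k ≤ l) : Nor g k P ≤ Nor g l P :=
  Submodule.span_mono (Set.image_mono fun _ ⟨h1, h2, h3, h4⟩ => ⟨h1, h2, h3.trans h, h4⟩)

theorem Fil_le_Nor {g : K} (hg : Gen g) (k P : ℤ) : Fil g k P ≤ Nor g k P := by
  refine Submodule.span_le.2 ?_
  rintro T ⟨a, b, h1, h2, rfl⟩
  have h0 : D g 0 ^ b.1 * D g 1 ^ b.2 ∈ Nor g k (-(b.1 + b.2)) := by
    have : D g 0 ^ b.1 * D g 1 ^ b.2 = dm g b 0 := by rw [dm, Sh_zero, mul_one]
    rw [this]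
    apply dm_mem
    simp only [Idx, Set.mem_ofPred_eq, Prod.fst_zero, Prod.snd_zero]
    omega
  have h3 := Xpow_mul_Nor hg 0 a.1 (Xpow_mul_Nor hg 1 a.2 h0)
  have e : mon g a b = X 0 ^ a.1 * (X 1 ^ a.2 * (D g 0 ^ b.1 * D g 1 ^ b.2)) := by
    simp only [mon, mul_assoc]
  rw [SetLike.mem_coe, e]
  rwa [show -((b.1 : ℤ) + b.2) + a.2 + a.1 = P by omega] at h3

/-- left multiplication by `d_i` on `Fil` -/
theorem D_mul_Fil {g : K} (hg : Gen g) (i : Fin 2) {k P : ℤ} {T : Op K} (hT : T ∈ Fil g k P) :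
    D g i * T ∈ Fil g (k + 1) (P - 1) := by
  induction hT using Submodule.span_induction with
  | mem x hx =>
    obtain ⟨⟨a0, a1⟩, ⟨b0, b1⟩, h1, h2, rfl⟩ := hx
    simp only at h1 h2
    have e0 : i = 0 ∨ i = 1 := by fin_cases i <;> simp
    rcases e0 with rfl | rfl
    · rcases Nat.eq_zero_or_pos a0 with h0 | h0
      · subst h0
        have : D g 0 * mon g (0, a1) (b0, b1) = mon g (0, a1) (b0 + 1, b1) := by
          simp only [mon, pow_zero, one_mul]
          rw [← mul_assoc, ← mul_assoc, D_X_ne g (by decide), mul_assoc (X 1 ^ a1), ← pow_succ']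
        rw [this]
        exact mon_mem g _ _ (by push_cast; omega) (by push_cast; omega)
      · obtain ⟨n, rfl⟩ : ∃ n, a0 = n + 1 := ⟨a0 - 1, by omega⟩
        obtain ⟨c, c', h⟩ := D_Xpow hg 0 n
        have : D g 0 * mon g (n + 1, a1) (b0, b1) =
            c • mon g (n + 1, a1) (b0 + 1, b1) + c' • mon g (n, a1) (b0, b1) := by
          simp only [mon]
          rw [← mul_assoc, ← mul_assoc, ← mul_assoc, h, add_mul, add_mul, add_mul, smul_mul_assoc,
            smul_mul_assoc, smul_mul_assoc, smul_mul_assoc, smul_mul_assoc, smul_mul_assoc,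
            mul_assoc (X 0 ^ (n + 1)) (D g 0), D_X_ne g (by decide), ← mul_assoc,
            mul_assoc _ (D g 0), ← pow_succ']
        rw [this]
        refine add_mem (Submodule.smul_mem _ _ (mon_mem g _ _ ?_ ?_))
          (Submodule.smul_mem _ _ (mon_mem g _ _ ?_ ?_)) <;> push_cast at h1 h2 ⊢ <;> omega
    · rcases Nat.eq_zero_or_pos a1 with h0 | h0
      · subst h0
        have : D g 1 * mon g (a0, 0) (b0, b1) = mon g (a0, 0) (b0, b1 + 1) := by
          simp only [mon, pow_zero, mul_one]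
          rw [← mul_assoc, ← mul_assoc, D_X_ne g (by decide), mul_assoc (X 0 ^ a0), D_D_pow,
            mul_assoc, mul_assoc, ← pow_succ', ← mul_assoc]
        rw [this]
        exact mon_mem g _ _ (by push_cast; omega) (by push_cast; omega)
      · obtain ⟨n, rfl⟩ : ∃ n, a1 = n + 1 := ⟨a1 - 1, by omega⟩
        obtain ⟨c, c', h⟩ := D_Xpow hg 1 n
        have : D g 1 * mon g (a0, n + 1) (b0, b1) =
            c • mon g (a0, n + 1) (b0, b1 + 1) + c' • mon g (a0, n) (b0, b1) := by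
          simp only [mon]
          rw [← mul_assoc, ← mul_assoc, ← mul_assoc, D_X_ne g (by decide), mul_assoc (X 0 ^ a0) (D g 1),
            h, mul_add, add_mul, add_mul, mul_smul_comm, mul_smul_comm, smul_mul_assoc,
            smul_mul_assoc, smul_mul_assoc, smul_mul_assoc, ← mul_assoc,
            mul_assoc _ (D g 1), D_D_pow, ← mul_assoc, mul_assoc _ (D g 1), ← pow_succ']
        rw [this]
        refine add_mem (Submodule.smul_mem _ _ (mon_mem g _ _ ?_ ?_))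
          (Submodule.smul_mem _ _ (mon_mem g _ _ ?_ ?_)) <;> push_cast at h1 h2 ⊢ <;> omega
  | zero => rw [mul_zero]; exact zero_mem _
  | add x y _ _ hx hy => rw [mul_add]; exact add_mem hx hy
  | smul a x _ hx => rw [mul_smul_comm]; exact Submodule.smul_mem _ a hx

theorem Dpow_mul_Fil {g : K} (hg : Gen g) (i : Fin 2) (n : ℕ) {k P : ℤ} {T : Op K}
    (hT : T ∈ Fil g k P) : D g i ^ n * T ∈ Fil g (k + n) (P - n) := by
  induction n with
  | zero => simpa using hT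
  | succ n ih =>
    rw [pow_succ', mul_assoc]
    have := D_mul_Fil hg i ih
    rwa [show k + (n : ℤ) + 1 = k + ((n + 1 : ℕ) : ℤ) by push_cast; ring,
      show P - (n : ℤ) - 1 = P - ((n + 1 : ℕ) : ℤ) by push_cast; ring] at this

theorem Nor_le_Fil {g : K} (hg : Gen g) (k P : ℤ) : Nor g k P ≤ Fil g k P := by
  refine Submodule.span_le.2 ?_
  rintro T ⟨⟨⟨b0, b1⟩, a0, a1⟩, ⟨h1, h2, h3, h4⟩, rfl⟩
  simp only at h1 h2 h3 h4
  obtain ⟨n0, rfl⟩ := Int.eq_ofNat_of_zero_le h1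
  obtain ⟨n1, rfl⟩ := Int.eq_ofNat_of_zero_le h2
  have h0 : (Sh ((n0 : ℤ), (n1 : ℤ)) : Op K) ∈ Fil g 0 (n0 + n1) := by
    have : (Sh ((n0 : ℤ), (n1 : ℤ)) : Op K) = mon g (n0, n1) (0, 0) := by
      simp only [mon, pow_zero, mul_one]
      rw [X_pow, X_pow, Sh_mul]
      congr 1
      simp [ev]
    rw [this]
    exact mon_mem g _ _ (by simp) (by simp)
  have h5 := Dpow_mul_Fil hg 0 b0 (Dpow_mul_Fil hg 1 b1 h0)
  show dm g (b0, b1) ((n0 : ℤ), (n1 : ℤ)) ∈ _
  rw [dm, mul_assoc]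
  refine Fil_mono g ?_ (?_ : _ ∈ Fil g (0 + b1 + b0) P)
  · omega
  · rwa [show (n0 : ℤ) + n1 - b1 - b0 = P by omega] at h5

theorem Fil_eq_Nor {g : K} (hg : Gen g) (k P : ℤ) : Fil g k P = Nor g k P :=
  le_antisymm (Fil_le_Nor hg k P) (Nor_le_Fil hg k P)

/-! ### linear independence of the right normal monomials -/

/-- the falling product of `q`-numbers -/
noncomputable def fall (g : K) (n : ℕ) (m : ℤ) : K := ∏ r ∈ Finset.range n, cq g (m - r)

theorem fall_succ (g : K) (n : ℕ) (m : ℤ) : fall g (n + 1) m = fall g n m * cq g (m - n) := by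
  rw [fall, fall, Finset.prod_range_succ]

theorem fall_ne {g : K} (hg : Gen g) {n : ℕ} {m : ℤ} (h : m < 0 ∨ (n : ℤ) ≤ m) :
    fall g n m ≠ 0 := by
  refine Finset.prod_ne_zero_iff.2 fun r hr => cq_ne hg ?_
  have := Finset.mem_range.1 hr
  omega

theorem fall_eq (g : K) {n : ℕ} {m : ℤ} (h0 : 0 ≤ m) (h : m < n) : fall g n m = 0 := by
  refine Finset.prod_eq_zero (i := m.toNat) (Finset.mem_range.2 (by omega)) ?_
  rw [show m - (m.toNat : ℤ) = 0 by omega, cq_zero]

theorem co_sub (i : Fin 2) (m : ℤ × ℤ) (n : ℕ) : co i (m - n • ev i) = co i m - n := by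
  fin_cases i <;> simp [co, ev]

theorem Dpow_single (g : K) (i : Fin 2) (n : ℕ) (m : ℤ × ℤ) (a : K) :
    (D g i ^ n : Op K) (Finsupp.single m a) =
      Finsupp.single (m - n • ev i) (fall g n (co i m) * a) := by
  induction n with
  | zero => simp [fall]
  | succ n ih =>
    rw [pow_succ', Module.End.mul_apply, ih, D_single, co_sub, fall_succ]
    congr 1
    · rw [succ_nsmul]; abel
    · ring

theorem dm_single (g : K) (b : ℕ × ℕ) (a m : ℤ × ℤ) :
    dm g b a (Finsupp.single m 1) = Finsupp.single (m + a - ((b.1 : ℤ), (b.2 : ℤ)))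
      (fall g b.1 (m.1 + a.1) * fall g b.2 (m.2 + a.2)) := by
  rw [dm, Module.End.mul_apply, Module.End.mul_apply, Sh_single, Dpow_single, Dpow_single]
  congr 1
  · ext <;> simp [ev]
  · simp [co, ev]

/-- the operator with given coordinates -/
noncomputable def nf (g : K) : ((ℕ × ℕ) × (ℤ × ℤ) →₀ K) →ₗ[K] Op K :=
  Finsupp.linearCombination K (fun p => dm g p.1 p.2)

theorem nf_single (g : K) (p : (ℕ × ℕ) × (ℤ × ℤ)) (c : K) :
    nf g (Finsupp.single p c) = c • dm g p.1 p.2 := by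
  simp [nf]

/-- evaluation: the coefficient of `x^(-1-b')` in `T x^m` -/
theorem nf_coeff (g : K) (f : (ℕ × ℕ) × (ℤ × ℤ) →₀ K) (m n : ℤ × ℤ) :
    (nf g f (Finsupp.single m 1)) n = f.sum (fun p c =>
      if m + p.2 - ((p.1.1 : ℤ), (p.1.2 : ℤ)) = n then
        c * (fall g p.1.1 (m.1 + p.2.1) * fall g p.1.2 (m.2 + p.2.2)) else 0) := by
  rw [nf, Finsupp.linearCombination_apply, Finsupp.sum, LinearMap.sum_apply, Finsupp.finsetSum_apply,
    Finsupp.sum]
  refine Finset.sum_congr rfl fun p _ => ?_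
  rw [LinearMap.smul_apply, dm_single, Finsupp.smul_single, Finsupp.single_apply, smul_eq_mul]

theorem nf_inj {g : K} (hg : Gen g) : Function.Injective (nf g) := by
  refine (injective_iff_map_eq_zero (nf g)).2 fun f hf => ?_
  -- all coordinates with `|b| = N` vanish, by induction
  have key : ∀ N : ℕ, ∀ p : (ℕ × ℕ) × (ℤ × ℤ), p.1.1 + p.1.2 = N → f p = 0 := by
    intro N
    induction N using Nat.strong_induction_on with
    | _ N ih =>
      rintro ⟨⟨b0, b1⟩, a0, a1⟩ hN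
      simp only at hN
      have h := nf_coeff g f (-1 - a0, -1 - a1) (-1 - b0, -1 - b1)
      rw [hf] at h
      have h2 : f.sum (fun p c =>
          if ((-1 - a0, -1 - a1) : ℤ × ℤ) + p.2 - ((p.1.1 : ℤ), (p.1.2 : ℤ)) = (-1 - (b0 : ℤ), -1 - (b1 : ℤ)) then
            c * (fall g p.1.1 (((-1 - a0, -1 - a1) : ℤ × ℤ).1 + p.2.1) *
              fall g p.1.2 (((-1 - a0, -1 - a1) : ℤ × ℤ).2 + p.2.2)) else 0) =
          f ((b0, b1), (a0, a1)) * (fall g b0 (-1) * fall g b1 (-1)) := by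
        rw [Finsupp.sum, Finset.sum_eq_single ((b0, b1), (a0, a1))]
        · rw [if_pos (by ext <;> simp)]
          simp
        · rintro ⟨⟨c0, c1⟩, e0, e1⟩ _ hne
          split_ifs with h3
          · have h4 := congrArg Prod.fst h3
            have h5 := congrArg Prod.snd h3
            simp at h4 h5
            simp only
            by_cases h6 : b0 < c0
            · rw [fall_eq g (n := c0) (by omega) (by omega)]; ring
            · by_cases h7 : b1 < c1
              · rw [fall_eq g (n := c1) (by omega) (by omega)]; ring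
              · have h8 : c0 + c1 < N := by
                  by_contra h9
                  have : c0 = b0 := by omega
                  have : c1 = b1 := by omega
                  apply hne
                  subst c0 c1
                  have : e0 = a0 := by omega
                  have : e1 = a1 := by omega
                  subst e0 e1
                  rfl
                rw [ih _ h8 ((c0, c1), (e0, e1)) rfl]; ring
          · rfl
        · intro h3
          rw [Finsupp.notMem_support_iff.1 h3]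
          simp
      rw [h2] at h
      have h3 : fall g b0 (-1) * fall g b1 (-1) ≠ 0 :=
        mul_ne_zero (fall_ne hg (Or.inl (by omega))) (fall_ne hg (Or.inl (by omega)))
      have h4 : f ((b0, b1), (a0, a1)) * (fall g b0 (-1) * fall g b1 (-1)) = 0 := by
        rw [← h]; rfl
      exact (mul_eq_zero.1 h4).resolve_right h3
  ext p
  exact key _ p rfl

theorem Nor_eq (g : K) (k P : ℤ) : Nor g k P = (Finsupp.supported K K (Idx k P)).map (nf g) := by
  rw [Nor, Finsupp.supported_eq_span_single, Submodule.map_span]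
  congr 1
  ext T
  constructor
  · rintro ⟨p, hp, rfl⟩
    exact ⟨_, ⟨p, hp, rfl⟩, by rw [nf_single, one_smul]⟩
  · rintro ⟨_, ⟨p, hp, rfl⟩, rfl⟩
    exact ⟨p, hp, by rw [nf_single, one_smul]⟩

/-- coordinates of the elements of `Fil` -/
theorem mem_Fil {g : K} (hg : Gen g) {k P : ℤ} {T : Op K} :
    T ∈ Fil g k P ↔ ∃ f : (ℕ × ℕ) × (ℤ × ℤ) →₀ K, (∀ p, f p ≠ 0 → p ∈ Idx k P) ∧ nf g f = T := by
  rw [Fil_eq_Nor hg, Nor_eq, Submodule.mem_map]
  constructor
  · rintro ⟨f, hf, rfl⟩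
    exact ⟨f, fun p hp => hf (Finsupp.mem_support_iff.2 hp), rfl⟩
  · rintro ⟨f, hf, rfl⟩
    exact ⟨f, fun p hp => hf p (Finsupp.mem_support_iff.1 hp), rfl⟩

/-! ### right multiplication by `x^a` -/

/-- shift of the index -/
def shI (a : ℤ × ℤ) : (ℕ × ℕ) × (ℤ × ℤ) ≃ (ℕ × ℕ) × (ℤ × ℤ) :=
  Equiv.prodCongr (Equiv.refl _) (Equiv.addRight a)

theorem nf_shift (g : K) (a : ℤ × ℤ) (f : (ℕ × ℕ) × (ℤ × ℤ) →₀ K) :
    nf g (Finsupp.equivMapDomain (shI a) f) = nf g f * Sh a := by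
  induction f using Finsupp.induction_linear with
  | zero => simp [Finsupp.equivMapDomain_zero]
  | add x y hx hy =>
    simp only [Finsupp.equivMapDomain_eq_mapDomain] at *
    rw [Finsupp.mapDomain_add, map_add, map_add, add_mul, hx, hy]
  | single p c =>
    rw [Finsupp.equivMapDomain_single, nf_single, nf_single, smul_mul_assoc]
    congr 1
    simp only [dm, shI, Equiv.prodCongr_apply, Prod.map, Equiv.coe_refl, id, Equiv.coe_addRight]
    rw [mul_assoc _ (Sh p.2) (Sh a), Sh_mul]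

theorem shift_apply (a : ℤ × ℤ) (f : (ℕ × ℕ) × (ℤ × ℤ) →₀ K) (b : ℕ × ℕ) (c : ℤ × ℤ) :
    Finsupp.equivMapDomain (shI a) f (b, c) = f (b, c - a) := by
  rw [Finsupp.equivMapDomain_apply]
  rfl


theorem nf_unshift (g : K) (a : ℤ × ℤ) (f : (ℕ × ℕ) × (ℤ × ℤ) →₀ K) :
    nf g (Finsupp.equivMapDomain (shI (-a)) f) * Sh a = nf g f := by
  rw [← nf_shift]
  congr 1
  ext ⟨b, c⟩
  rw [shift_apply, shift_apply, sub_neg_eq_add, sub_add_cancel]

theorem mul_X_mem {g : K} (hg : Gen g) (i : Fin 2) {k P : ℤ} {T : Op K} (hT : T ∈ Fil g k P) :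
    T * X i ∈ Fil g k (P + 1) := by
  obtain ⟨f, hf, rfl⟩ := (mem_Fil hg).1 hT
  refine (mem_Fil hg).2 ⟨_, ?_, nf_shift g (ev i) f⟩
  rintro ⟨⟨b0, b1⟩, c0, c1⟩ hp
  rw [shift_apply] at hp
  have h := hf _ hp
  simp only [Idx, Set.mem_ofPred_eq, Prod.fst_sub, Prod.snd_sub] at h ⊢
  have e0 : i = 0 ∨ i = 1 := by fin_cases i <;> simp
  rcases e0 with rfl | rfl <;> simp [ev] at h <;> omega

/-- `(X1)`: in `P`-degree `≥ 1` right multiplication by `x₀, x₁` is jointly onto -/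
theorem X1 {g : K} (hg : Gen g) {k P : ℤ} (hP : 1 ≤ P) {c : Op K} (hc : c ∈ Fil g k P) :
    ∃ a ∈ Fil g k (P - 1), ∃ b ∈ Fil g k (P - 1), c = a * X 0 + b * X 1 := by
  classical
  obtain ⟨f, hf, rfl⟩ := (mem_Fil hg).1 hc
  set q : (ℕ × ℕ) × (ℤ × ℤ) → Prop := fun p => 1 ≤ p.2.1 with hq
  refine ⟨nf g (Finsupp.equivMapDomain (shI (-ev 0)) (f.filter q)), ?_,
    nf g (Finsupp.equivMapDomain (shI (-ev 1)) (f.filter fun p => ¬ q p)), ?_, ?_⟩
  · refine (mem_Fil hg).2 ⟨_, ?_, rfl⟩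
    rintro ⟨⟨b0, b1⟩, c0, c1⟩ hp
    rw [shift_apply] at hp
    by_cases h1 : q ((b0, b1), ((c0, c1) - -ev 0))
    · rw [Finsupp.filter_apply_pos _ _ h1] at hp
      have h := hf _ hp
      simp only [hq, Idx, Set.mem_ofPred_eq, ev, Prod.fst_sub, Prod.snd_sub, Prod.fst_neg,
        Prod.snd_neg, if_true] at h h1 ⊢
      omega
    · exact absurd (Finsupp.filter_apply_neg _ _ h1) hp
  · refine (mem_Fil hg).2 ⟨_, ?_, rfl⟩
    rintro ⟨⟨b0, b1⟩, c0, c1⟩ hp
    rw [shift_apply] at hp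
    by_cases h1 : ¬ q ((b0, b1), ((c0, c1) - -ev 1))
    · rw [Finsupp.filter_apply_pos (fun p => ¬ q p) _ h1] at hp
      have h := hf _ hp
      simp [hq, Idx, ev] at h h1 ⊢
      omega
    · exact absurd (Finsupp.filter_apply_neg (fun p => ¬ q p) _ h1) hp
  · rw [X_eq, X_eq, nf_unshift, nf_unshift, ← map_add, Finsupp.filter_add_filter_not]

/-- `(X2)`: the syzygies of `x₀, x₁` -/
theorem X2 {g : K} (hg : Gen g) {k P : ℤ} {m0 m1 : Op K} (h0 : m0 ∈ Fil g k P)
    (h1 : m1 ∈ Fil g k P) (h : m0 * X 0 + m1 * X 1 = 0) :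
    ∃ e ∈ Fil g k (P - 1), m0 = e * X 1 ∧ m1 = -(e * X 0) := by
  obtain ⟨u, hu, rfl⟩ := (mem_Fil hg).1 h0
  obtain ⟨v, hv, rfl⟩ := (mem_Fil hg).1 h1
  rw [X_eq, X_eq, ← nf_shift, ← nf_shift, ← map_add] at h
  have h2 := nf_inj hg (h.trans (map_zero _).symm)
  have h3 : ∀ b c, u (b, c - ev 0) + v (b, c - ev 1) = 0 := fun b c => by
    have := DFunLike.congr_fun h2 (b, c)
    rwa [Finsupp.add_apply, shift_apply, shift_apply, Finsupp.zero_apply] at this
  refine ⟨nf g (Finsupp.equivMapDomain (shI (-ev 1)) u), ?_, ?_, ?_⟩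
  · refine (mem_Fil hg).2 ⟨_, ?_, rfl⟩
    rintro ⟨⟨b0, b1⟩, c0, c1⟩ hp
    rw [shift_apply] at hp
    have h4 := hu _ hp
    have h5 := h3 (b0, b1) ((c0, c1) + ev 1 + ev 0)
    rw [add_sub_cancel_right] at h5
    have h6 : v ((b0, b1), (c0, c1) + ev 1 + ev 0 - ev 1) ≠ 0 := by
      intro h7
      rw [h7, add_zero] at h5
      rw [sub_neg_eq_add] at hp
      exact hp h5
    have h7 := hv _ h6
    simp [Idx, ev] at h4 h7 ⊢
    omega
  · rw [X_eq, nf_unshift]
  · rw [X_eq, ← nf_shift, ← map_neg]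
    congr 1
    ext ⟨b, c⟩
    rw [Finsupp.neg_apply, shift_apply, shift_apply]
    have h5 := h3 b (c + ev 1)
    rw [add_sub_cancel_right] at h5
    rw [show c - ev 0 - -ev 1 = c + ev 1 - ev 0 by abel]
    exact eq_neg_of_add_eq_zero_right h5

/-- `(X3)`: strictness for the order filtration -/
theorem X3 {g : K} (hg : Gen g) {k l P : ℤ} {a b : Op K} (ha : a ∈ Fil g k P)
    (hb : b ∈ Fil g k P) (h : a * X 0 + b * X 1 ∈ Fil g l (P + 1)) :
    ∃ a2 ∈ Fil g l P, ∃ b2 ∈ Fil g l P, a * X 0 + b * X 1 = a2 * X 0 + b2 * X 1 := by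
  classical
  obtain ⟨u, hu, rfl⟩ := (mem_Fil hg).1 ha
  obtain ⟨v, hv, rfl⟩ := (mem_Fil hg).1 hb
  obtain ⟨w, hw, hw2⟩ := (mem_Fil hg).1 h
  set q : (ℕ × ℕ) × (ℤ × ℤ) → Prop := fun p => (p.1.1 : ℤ) + p.1.2 ≤ l with hq
  have key : ∀ (f : (ℕ × ℕ) × (ℤ × ℤ) →₀ K), (∀ p, f p ≠ 0 → p ∈ Idx k P) →
      nf g (f.filter q) ∈ Fil g l P := by
    intro f hf
    refine (mem_Fil hg).2 ⟨_, ?_, rfl⟩
    intro p hp
    by_cases h1 : q p
    · rw [Finsupp.filter_apply_pos _ _ h1] at hp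
      have h := hf _ hp
      exact ⟨h.1, h.2.1, h1, h.2.2.2⟩
    · exact absurd (Finsupp.filter_apply_neg _ _ h1) hp
  refine ⟨nf g (u.filter q), key u hu, nf g (v.filter q), key v hv, ?_⟩
  rw [← hw2]
  rw [X_eq, X_eq, ← nf_shift, ← nf_shift, ← map_add] at hw2 ⊢
  have h2 := nf_inj hg hw2
  congr 1
  ext ⟨b, c⟩
  rw [Finsupp.add_apply, shift_apply, shift_apply]
  by_cases h1 : (b.1 : ℤ) + b.2 ≤ l
  · rw [Finsupp.filter_apply_pos q _ (show q (b, c - ev 0) from h1),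
      Finsupp.filter_apply_pos q _ (show q (b, c - ev 1) from h1), h2, Finsupp.add_apply,
      shift_apply, shift_apply]
  · rw [Finsupp.filter_apply_neg q _ (show ¬ q (b, c - ev 0) from h1),
      Finsupp.filter_apply_neg q _ (show ¬ q (b, c - ev 1) from h1), add_zero]
    by_contra h3
    exact h1 (hw _ h3).2.2.1

/-- left multiplication by elements of `Fil` -/
theorem Fil_mul {g : K} (hg : Gen g) {k P l Q : ℤ} {S T : Op K} (hS : S ∈ Fil g k P)
    (hT : T ∈ Fil g l Q) : S * T ∈ Fil g (k + l) (P + Q) := by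
  induction hS using Submodule.span_induction with
  | mem x hx =>
    obtain ⟨a, b, h1, h2, rfl⟩ := hx
    have h3 := Dpow_mul_Fil hg 0 b.1 (Dpow_mul_Fil hg 1 b.2 hT)
    rw [Fil_eq_Nor hg] at h3
    have h4 := Xpow_mul_Nor hg 0 a.1 (Xpow_mul_Nor hg 1 a.2 h3)
    rw [← Fil_eq_Nor hg] at h4
    have e : mon g a b * T = X 0 ^ a.1 * (X 1 ^ a.2 * (D g 0 ^ b.1 * (D g 1 ^ b.2 * T))) := by
      simp only [mon, mul_assoc]
    rw [e]
    rw [show Q - (b.2 : ℤ) - b.1 + a.2 + a.1 = P + Q by omega] at h4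
    exact Fil_mono g (by omega) h4
  | zero => rw [zero_mul]; exact zero_mem _
  | add x y _ _ hx hy => rw [add_mul]; exact add_mem hx hy
  | smul a x _ hx => rw [smul_mul_assoc]; exact Submodule.smul_mem _ a hx

/-! ### the lattices `K_j` -/

/-- the rows at `K_j` -/
noncomputable def LK (g : K) (j k P : ℤ) : Submodule K (Op K × Op K) where
  carrier := {v | v.1 ∈ Fil g k P ∧ v.2 ∈ Fil g k P ∧ v.1 * X 0 + v.2 * X 1 ∈ Fil g (k - j) (P + 1)}
  zero_mem' := by simp
  add_mem' := by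
    rintro v w ⟨h1, h2, h3⟩ ⟨h4, h5, h6⟩
    refine ⟨add_mem h1 h4, add_mem h2 h5, ?_⟩
    have := add_mem h3 h6
    rwa [show v.1 * X 0 + v.2 * X 1 + (w.1 * X 0 + w.2 * X 1) =
      (v + w).1 * X 0 + (v + w).2 * X 1 by
        simp only [Prod.fst_add, Prod.snd_add, add_mul]; abel] at this
  smul_mem' := by
    rintro c v ⟨h1, h2, h3⟩
    refine ⟨Submodule.smul_mem _ c h1, Submodule.smul_mem _ c h2, ?_⟩
    have := Submodule.smul_mem _ c h3
    rwa [show c • (v.1 * X 0 + v.2 * X 1) = (c • v).1 * X 0 + (c • v).2 * X 1 by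
      simp only [Prod.smul_fst, Prod.smul_snd, smul_add, smul_mul_assoc]] at this

theorem mem_LK {g : K} {j k P : ℤ} {a b : Op K} :
    (a, b) ∈ LK g j k P ↔ a ∈ Fil g k P ∧ b ∈ Fil g k P ∧ a * X 0 + b * X 1 ∈ Fil g (k - j) (P + 1) :=
  Iff.rfl

theorem Lat_iff {g : K} {s k P : ℤ} {v : Fin 7 → Op K} :
    v ∈ Lat g s k P ↔ v 0 ∈ Fil g k P ∧ v 1 ∈ Fil g (k - 1) P ∧ v 2 ∈ Fil g (k - 2) P ∧
      (v 3, v 4) ∈ LK g 1 (k - s) P ∧ (v 5, v 6) ∈ LK g 2 k P := Iff.rfl

theorem LK_surj {g : K} (hg : Gen g) {j k P : ℤ} (hP : 0 ≤ P) (hj : 0 ≤ j) {c : Op K}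
    (hc : c ∈ Fil g (k - j) (P + 1)) : ∃ a b : Op K, a ∈ Fil g (k - j) P ∧ b ∈ Fil g (k - j) P ∧
      (a, b) ∈ LK g j k P ∧ a * X 0 + b * X 1 = c := by
  obtain ⟨a, ha, b, hb, rfl⟩ := X1 hg (by omega) hc
  rw [add_sub_cancel_right] at ha hb
  exact ⟨a, b, ha, hb, ⟨Fil_mono g (by omega) ha, Fil_mono g (by omega) hb, hc⟩, rfl⟩

theorem LK_ker {g : K} (hg : Gen g) {j k P : ℤ} {a b : Op K} (h : (a, b) ∈ LK g j k P)
    (h0 : a * X 0 + b * X 1 = 0) : ∃ e ∈ Fil g k (P - 1), a = e * X 1 ∧ b = -(e * X 0) :=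
  X2 hg h.1 h.2.1 h0

theorem kap_mem {g : K} (hg : Gen g) {j k P : ℤ} {e : Op K} (he : e ∈ Fil g k (P - 1)) :
    (e * X 1, -(e * X 0)) ∈ LK g j k P := by
  have h0 := mul_X_mem hg 0 he
  have h1 := mul_X_mem hg 1 he
  rw [sub_add_cancel] at h0 h1
  refine ⟨h1, neg_mem h0, ?_⟩
  have : e * X 1 * X 0 + -(e * X 0) * X 1 = (0 : Op K) := by
    rw [neg_mul, mul_assoc, mul_assoc, X_comm 1 0, add_neg_cancel]
  simp only [this, zero_mem]

theorem LK_gen {g : K} (hg : Gen g) {j k P : ℤ} (hj : 0 ≤ j) {a b : Op K}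
    (h : (a, b) ∈ LK g j k P) : ∃ a2 ∈ Fil g (k - j) P, ∃ b2 ∈ Fil g (k - j) P,
      ∃ e ∈ Fil g k (P - 1), a = a2 + e * X 1 ∧ b = b2 - e * X 0 := by
  obtain ⟨h1, h2, h3⟩ := h
  obtain ⟨a2, ha2, b2, hb2, h4⟩ := X3 hg h1 h2 h3
  have h5 : (a - a2) * X 0 + (b - b2) * X 1 = 0 := by
    rw [sub_mul, sub_mul, sub_add_sub_comm, sub_eq_zero]
    exact h4
  obtain ⟨e, he, h6, h7⟩ := X2 hg (sub_mem h1 (Fil_mono g (by omega) ha2))
    (sub_mem h2 (Fil_mono g (by omega) hb2)) h5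
  refine ⟨a2, ha2, b2, hb2, e, he, ?_, ?_⟩
  · rw [← h6]; abel
  · rw [sub_eq_add_neg, ← h7]; abel

theorem LK_of {g : K} (hg : Gen g) {j k P : ℤ} (hj : 0 ≤ j) {a2 b2 e : Op K}
    (ha : a2 ∈ Fil g (k - j) P) (hb : b2 ∈ Fil g (k - j) P) (he : e ∈ Fil g k (P - 1)) :
    (a2 + e * X 1, b2 - e * X 0) ∈ LK g j k P := by
  have h1 : (a2, b2) ∈ LK g j k P := ⟨Fil_mono g (by omega) ha, Fil_mono g (by omega) hb,
    add_mem (mul_X_mem hg 0 ha) (mul_X_mem hg 1 hb)⟩
  have := add_mem h1 (kap_mem hg he)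
  rwa [Prod.mk_add_mk, ← sub_eq_add_neg] at this

theorem LK_smul {g : K} (hg : Gen g) {j k P l Q : ℤ} {T a b : Op K} (hT : T ∈ Fil g l Q)
    (h : (a, b) ∈ LK g j k P) : (T * a, T * b) ∈ LK g j (l + k) (Q + P) := by
  refine ⟨Fil_mul hg hT h.1, Fil_mul hg hT h.2.1, ?_⟩
  have h3 := Fil_mul hg hT h.2.2
  simp only at h3 ⊢
  rw [mul_assoc, mul_assoc, ← mul_add, add_sub_assoc, add_assoc]
  exact h3

/-! ### the lattices `Lat` -/

/-- left multiplication on rows -/
theorem Lat_smul {g : K} (hg : Gen g) {s k P l Q : ℤ} {T : Op K} {v : Fin 7 → Op K}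
    (hT : T ∈ Fil g l Q) (hv : v ∈ Lat g s k P) : (fun i => T * v i) ∈ Lat g s (l + k) (Q + P) := by
  obtain ⟨h0, h1, h2, h3, h4⟩ := Lat_iff.1 hv
  refine Lat_iff.2 ⟨Fil_mul hg hT h0, ?_, ?_, ?_, LK_smul hg hT h4⟩
  · rw [add_sub_assoc]; exact Fil_mul hg hT h1
  · rw [add_sub_assoc]; exact Fil_mul hg hT h2
  · rw [add_sub_assoc]; exact LK_smul hg hT h3

theorem Lat_mono (g : K) {s k l P : ℤ} (h : k ≤ l) : Lat g s k P ≤ Lat g s l P := by
  rintro v ⟨h0, h1, h2, ⟨h3, h4, h5⟩, h6, h7, h8⟩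
  exact ⟨Fil_mono g (by omega) h0, Fil_mono g (by omega) h1, Fil_mono g (by omega) h2,
    ⟨Fil_mono g (by omega) h3, Fil_mono g (by omega) h4, Fil_mono g (by omega) h5⟩,
    Fil_mono g (by omega) h6, Fil_mono g (by omega) h7, Fil_mono g (by omega) h8⟩

theorem one_mem_Fil (g : K) {k : ℤ} (hk : 0 ≤ k) : (1 : Op K) ∈ Fil g k 0 := by
  have : (1 : Op K) = mon g (0, 0) (0, 0) := by simp [mon]
  rw [this]
  exact mon_mem g _ _ (by simpa using hk) (by simp)

theorem X_mem_Fil (g : K) (i : Fin 2) {k : ℤ} (hk : 0 ≤ k) : (X i : Op K) ∈ Fil g k 1 := by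
  have e0 : i = 0 ∨ i = 1 := by fin_cases i <;> simp
  rcases e0 with rfl | rfl
  · have : (X 0 : Op K) = mon g (1, 0) (0, 0) := by simp [mon]
    rw [this]
    exact mon_mem g _ _ (by simpa using hk) (by simp)
  · have : (X 1 : Op K) = mon g (0, 1) (0, 0) := by simp [mon]
    rw [this]
    exact mon_mem g _ _ (by simpa using hk) (by simp)

end Crest.Agent.R186.LatK881
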