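import Crest.Agent.R186.Lau_977
import Crest.Agent.R186.WL2_221

/-!
# Row 186, half (A), leaf S1 (helper977): Laurent module, inverse operators, splittings, exactness
-/

set_option autoImplicit false

namespace Crest.Agent.R186.Lau977

open Crest.Agent.R186.VOp220 Crest.Agent.R186.DefsQ830 Crest.Agent.R186.Vmod220
  Crest.Agent.R186.Inv439 Crest.Agent.R186.Win810 Crest.Agent.R186.PBW128
  Crest.Agent.R186.C2b44 Crest.Agent.R186.WL221

variable {K : Type} [Field K] (π : Par K)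

/-! ### the intertwiners, for all of `R''` -/

lemma inc_rep (r : R π) (v : Pol K) : inc (Vmod220.rep π r v) = repL π r (inc v) := by
  revert v
  refine PBW128.R_ind π (P := fun r => ∀ v, inc (Vmod220.rep π r v) = repL π r (inc v))
    ?_ ?_ ?_ ?_ r
  · intro c v
    rw [AlgHom.commutes, AlgHom.commutes, Module.algebraMap_end_apply,
      Module.algebraMap_end_apply, map_smul]
  · intro a v
    rw [Vmod220.rep_X, repL_X]
    exact inc_op π a v
  · intro a b ha hb v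
    rw [map_mul, map_mul, Module.End.mul_apply, Module.End.mul_apply, ha, hb]
  · intro a b ha hb v
    rw [map_add, map_add, LinearMap.add_apply, LinearMap.add_apply, map_add, ha, hb]

lemma prI_rep (r : R π) (v : Lau K) : prI (repL π r v) = repI π r (prI v) := by
  revert v
  refine PBW128.R_ind π (P := fun r => ∀ v, prI (repL π r v) = repI π r (prI v))
    ?_ ?_ ?_ ?_ r
  · intro c v
    rw [AlgHom.commutes, AlgHom.commutes, Module.algebraMap_end_apply,
      Module.algebraMap_end_apply, map_smul]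
  · intro a v
    rw [repI_X, repL_X]
    exact prI_op π a v
  · intro a b ha hb v
    rw [map_mul, map_mul, Module.End.mul_apply, Module.End.mul_apply, ha, hb]
  · intro a b ha hb v
    rw [map_add, map_add, LinearMap.add_apply, LinearMap.add_apply, map_add, ha, hb]

lemma opL_pos (g : K) {a : Gen} (h : 0 < a.dC) : opL g a = 0 := by
  cases a <;> simp_all [Gen.dC, opL]

lemma repL_wd_pos (w : List Gen) (h : 0 < wC w) : repL π (wd π w) = 0 := by
  induction w with
  | nil => simp [wC] at h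
  | cons a w ih =>
    have e1 : wd π (a :: w) = X π a * wd π w := by simp [wd]
    rw [e1, map_mul]
    by_cases h0 : 0 < a.dC
    · rw [repL_X, opL_pos _ h0, zero_mul]
    · have h2 : wC (a :: w) = a.dC + wC w := by simp [wC]
      rw [ih (by omega), mul_zero]

lemma repL_pc_pos {P : ℤ} {A C : ℕ} (hC : 0 < C) {a : R π} (ha : a ∈ pc π P A C) :
    repL π a = 0 := by
  have h : pc π P A C ≤ LinearMap.ker (repL π).toLinearMap := by
    rw [pc, Submodule.span_le]
    rintro r ⟨w, _, _, hw, rfl⟩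
    exact repL_wd_pos π w (by omega)
  exact h ha

lemma repL_pos {P A C : ℤ} {a : R π} (hC : 0 < C) (ha : a ∈ pcZ π P A C) : repL π a = 0 := by
  rcases pcZ_cases π ha with rfl | ⟨A1, C1, _, hC', ha⟩
  · exact map_zero _
  · exact repL_pc_pos π (by omega) ha

lemma repL_mem {P A C m : ℤ} {a : R π} {v : Lau K} (ha : a ∈ pcZ π P A C) (hv : v ∈ homL K m) :
    repL π a v ∈ homL K (m + P) := by
  rcases pcZ_cases π ha with rfl | ⟨A1, C1, _, _, ha⟩
  · rw [map_zero]
    exact Submodule.zero_mem _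
  · exact repL_pcB π (PBW128.pc_le_pcB π _ _ _ ha) hv

lemma repL_kill (r : R π) : repL π (kill π r) = repL π r := by
  refine PBW128.R_ind π (P := fun r => repL π (kill π r) = repL π r) ?_ ?_ ?_ ?_ r
  · intro c; rw [AlgHom.commutes]
  · intro a; cases a <;> simp [opL]
  · intro a b ha hb; rw [map_mul, map_mul, map_mul, ha, hb]
  · intro a b ha hb; rw [map_add, map_add, map_add, ha, hb]

lemma repL_Dz (r : R π) : repL π (Der580.D π r) = 0 := repL_D π (Der580.isDiff π) r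

/-! ### `x_i⁻¹` and projections -/

/-- `x_0⁻¹` -/
noncomputable def LY0 : Lau K →ₗ[K] Lau K := opl (fun _ _ => 1) (-1) 0
/-- `x_1⁻¹` -/
noncomputable def LY1 : Lau K →ₗ[K] Lau K := opl (fun _ _ => 1) 0 (-1)

@[simp] lemma LY0_lm (a b : ℤ) : LY0 (lm K a b) = lm K (a - 1) b := by simp [LY0, sub_eq_add_neg]
@[simp] lemma LY1_lm (a b : ℤ) : LY1 (lm K a b) = lm K a (b - 1) := by simp [LY1, sub_eq_add_neg]

lemma ext_lm' {M : Type*} [AddCommGroup M] [Module K M] {f h : Lau K →ₗ[K] M}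
    (H : ∀ a b, f (lm K a b) = h (lm K a b)) (v : Lau K) : f v = h v :=
  LinearMap.congr_fun (ext_lm H) v

lemma LX0_LY0 (v : Lau K) : LX0 (LY0 v) = v :=
  ext_lm' (f := LX0 ∘ₗ LY0) (h := LinearMap.id) (fun a b => by simp) v
lemma LY0_LX0 (v : Lau K) : LY0 (LX0 v) = v :=
  ext_lm' (f := LY0 ∘ₗ LX0) (h := LinearMap.id) (fun a b => by simp) v
lemma LX1_LY1 (v : Lau K) : LX1 (LY1 v) = v :=
  ext_lm' (f := LX1 ∘ₗ LY1) (h := LinearMap.id) (fun a b => by simp) v
lemma LY1_LX1 (v : Lau K) : LY1 (LX1 v) = v :=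
  ext_lm' (f := LY1 ∘ₗ LX1) (h := LinearMap.id) (fun a b => by simp) v
lemma LX0_LX1 (v : Lau K) : LX0 (LX1 v) = LX1 (LX0 v) :=
  ext_lm' (f := LX0 ∘ₗ LX1) (h := LX1 ∘ₗ LX0) (fun a b => by simp) v
lemma LY0_LX1 (v : Lau K) : LY0 (LX1 v) = LX1 (LY0 v) :=
  ext_lm' (f := LY0 ∘ₗ LX1) (h := LX1 ∘ₗ LY0) (fun a b => by simp) v
lemma LY1_LX0 (v : Lau K) : LY1 (LX0 v) = LX0 (LY1 v) :=
  ext_lm' (f := LY1 ∘ₗ LX0) (h := LX0 ∘ₗ LY1) (fun a b => by simp) v

/-- projection on `b ≥ 0` -/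
noncomputable def Q0 : Lau K →ₗ[K] Lau K := opl (fun _ b => if 0 ≤ b then 1 else 0) 0 0
/-- projection on `b < 0 ≤ a` -/
noncomputable def Q1 : Lau K →ₗ[K] Lau K := opl (fun a b => if b < 0 ∧ 0 ≤ a then 1 else 0) 0 0

lemma Q0_lm (a b : ℤ) : Q0 (lm K a b) = if 0 ≤ b then lm K a b else 0 := by
  simp only [Q0, opl_lm, add_zero]
  split_ifs <;> simp

lemma Q1_lm (a b : ℤ) : Q1 (lm K a b) = if b < 0 ∧ 0 ≤ a then lm K a b else 0 := by
  simp only [Q1, opl_lm, add_zero]
  split_ifs <;> simp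

/-- section of `prI` -/
noncomputable def secI : Pol K →ₗ[K] Lau K :=
  Finsupp.lsum K (fun p : ℕ × ℕ => LinearMap.toSpanSingleton K (Lau K)
    (lm K (-(p.1 : ℤ) - 1) (-(p.2 : ℤ) - 1)))

@[simp] lemma secI_mon (a b : ℕ) : secI (mon K a b) = lm K (-(a : ℤ) - 1) (-(b : ℤ) - 1) := by
  simp [secI, mon]

/-- retraction of `inc` -/
noncomputable def ret : Lau K →ₗ[K] Pol K :=
  Finsupp.lsum K (fun p : ℤ × ℤ => LinearMap.toSpanSingleton K (Pol K)
    (if 0 ≤ p.1 ∧ 0 ≤ p.2 then mon K p.1.toNat p.2.toNat else 0))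

@[simp] lemma ret_lm (a b : ℤ) :
    ret (lm K a b) = if 0 ≤ a ∧ 0 ≤ b then mon K a.toNat b.toNat else 0 := by
  simp [ret, lm]

lemma Pext {M : Type*} [AddCommGroup M] [Module K M] {f h : Pol K →ₗ[K] M}
    (H : ∀ a b, f (mon K a b) = h (mon K a b)) (v : Pol K) : f v = h v :=
  LinearMap.congr_fun (ext_mon H) v

lemma ret_inc (v : Pol K) : ret (inc v) = v :=
  Pext (f := ret ∘ₗ inc) (h := LinearMap.id) (fun a b => by simp) v

lemma prI_secI (v : Pol K) : prI (secI v) = v := by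
  refine Pext (f := prI ∘ₗ secI) (h := LinearMap.id) (fun a b => ?_) v
  rw [LinearMap.comp_apply, secI_mon, prI_lm, if_pos ⟨by omega, by omega⟩, LinearMap.id_apply]
  congr 1 <;> omega

lemma split3 (v : Lau K) : Q0 v + Q1 v + secI (prI v) = v := by
  refine ext_lm' (f := Q0 + Q1 + secI ∘ₗ prI) (h := LinearMap.id) (fun a b => ?_) v
  rw [LinearMap.add_apply, LinearMap.add_apply, LinearMap.comp_apply, LinearMap.id_apply,
    Q0_lm, Q1_lm, prI_lm]
  by_cases hb : 0 ≤ b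
  · rw [if_pos hb, if_neg (by omega), if_neg (by omega), map_zero, add_zero, add_zero]
  · by_cases ha : 0 ≤ a
    · rw [if_neg hb, if_pos ⟨by omega, ha⟩, if_neg (by omega), map_zero, add_zero, zero_add]
    · rw [if_neg hb, if_neg (by omega), if_pos ⟨by omega, by omega⟩, zero_add, zero_add, secI_mon]
      congr 1 <;> omega

/-! ### membership -/

/-- linear maps which agree on the basis vectors of `s` agree on `supported s` -/
lemma supp_eq {M : Type*} [AddCommGroup M] [Module K M] {f h : Lau K →ₗ[K] M} {s : Set (ℤ × ℤ)}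
    (H : ∀ q ∈ s, f (lm K q.1 q.2) = h (lm K q.1 q.2)) {v : Lau K}
    (hv : v ∈ Finsupp.supported K K s) : f v = h v := by
  have : Finsupp.supported K K s ≤ LinearMap.eqLocus f h := supp_le fun q hq => H q hq
  exact this hv

lemma supp_map {M : Type*} [AddCommGroup M] [Module K M] {f : Lau K →ₗ[K] M} {s : Set (ℤ × ℤ)}
    {p : Submodule K M} (H : ∀ q ∈ s, f (lm K q.1 q.2) ∈ p) {v : Lau K}
    (hv : v ∈ Finsupp.supported K K s) : f v ∈ p := by
  have : Finsupp.supported K K s ≤ p.comap f := supp_le fun q hq => H q hq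
  exact this hv

lemma A0_hom (m : ℤ) : A0 K ⊓ homL K m = Finsupp.supported K K {q : ℤ × ℤ | 0 ≤ q.2 ∧ q.1 + q.2 = m} := by
  unfold A0 homL
  rw [← Finsupp.supported_inter]
  rfl

lemma A1_hom (m : ℤ) : A1 K ⊓ homL K m = Finsupp.supported K K {q : ℤ × ℤ | 0 ≤ q.1 ∧ q.1 + q.2 = m} := by
  unfold A1 homL
  rw [← Finsupp.supported_inter]
  rfl

/-- the three families of submodules -/
noncomputable def Zs (K : Type) [Field K] : Fin 3 → Submodule K (Lau K)
  | 0 => A0 K
  | 1 => A1 K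
  | 2 => ⊤

/-- the index set of `Zs` in degree `m` -/
def Zset : Fin 3 → ℤ → Set (ℤ × ℤ)
  | 0, m => {q | 0 ≤ q.2 ∧ q.1 + q.2 = m}
  | 1, m => {q | 0 ≤ q.1 ∧ q.1 + q.2 = m}
  | 2, m => {q | q.1 + q.2 = m}

lemma Zs_hom (z : Fin 3) (m : ℤ) : Zs K z ⊓ homL K m = Finsupp.supported K K (Zset z m) := by
  fin_cases z
  · exact A0_hom m
  · exact A1_hom m
  · exact top_inf_eq _

lemma repL_Zs (z : Fin 3) (r : R π) {v : Lau K} (hv : v ∈ Zs K z) : repL π r v ∈ Zs K z := by
  fin_cases z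
  · exact repL_A0 π r hv
  · exact repL_A1 π r hv
  · exact Submodule.mem_top

/-- the degree `m` part of `Zs z` -/
noncomputable def ZH (K : Type) [Field K] (z : Fin 3) (m : ℤ) : Submodule K (Lau K) := Zs K z ⊓ homL K m

lemma ZH_eq (z : Fin 3) (m : ℤ) : ZH K z m = Finsupp.supported K K (Zset z m) := Zs_hom z m

lemma ZH_act (z : Fin 3) {P A C m : ℤ} {a : R π} {v : Lau K} (ha : a ∈ pcZ π P A C)
    (hv : v ∈ ZH K z m) : repL π a v ∈ ZH K z (m + P) :=
  ⟨repL_Zs π z a hv.1, repL_mem π ha hv.2⟩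

lemma ZH_map {z z' : Fin 3} {m m' : ℤ} {f : Lau K →ₗ[K] Lau K}
    (H : ∀ q ∈ Zset z m, f (lm K q.1 q.2) ∈ ZH K z' m') {v : Lau K} (hv : v ∈ ZH K z m) :
    f v ∈ ZH K z' m' := by
  rw [ZH_eq] at hv
  exact supp_map H hv

lemma lm_ZH {z : Fin 3} {m a b : ℤ} (h : (a, b) ∈ Zset z m) : lm K a b ∈ ZH K z m := by
  rw [ZH_eq]
  exact lm_mem_supp h

/-- the inverse of one of the two variables on `Zs z` -/
noncomputable def LY (K : Type) [Field K] : Fin 3 → (Lau K →ₗ[K] Lau K)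
  | 0 => LY0
  | 1 => LY1
  | 2 => LY0

lemma LX0_ZH (z : Fin 3) {m m' : ℤ} (hm : m' = m + 1) {v : Lau K} (hv : v ∈ ZH K z m) :
    LX0 v ∈ ZH K z m' := by
  subst hm
  refine ZH_map (fun q hq => ?_) hv
  rw [LX0_lm]
  apply lm_ZH
  fin_cases z <;> simp only [Zset, Set.mem_ofPred_eq] at hq ⊢ <;> omega

lemma LX1_ZH (z : Fin 3) {m m' : ℤ} (hm : m' = m + 1) {v : Lau K} (hv : v ∈ ZH K z m) :
    LX1 v ∈ ZH K z m' := by
  subst hm
  refine ZH_map (fun q hq => ?_) hv
  rw [LX1_lm]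
  apply lm_ZH
  fin_cases z <;> simp only [Zset, Set.mem_ofPred_eq] at hq ⊢ <;> omega

lemma LY_ZH (z : Fin 3) {m m' : ℤ} (hm : m = m' + 1) {v : Lau K} (hv : v ∈ ZH K z m) :
    LY K z v ∈ ZH K z m' := by
  subst hm
  refine ZH_map (fun q hq => ?_) hv
  fin_cases z
  · change LY0 _ ∈ _
    rw [LY0_lm]
    apply lm_ZH
    simp only [Zset, Set.mem_ofPred_eq] at hq ⊢
    omega
  · change LY1 _ ∈ _
    rw [LY1_lm]
    apply lm_ZH
    simp only [Zset, Set.mem_ofPred_eq] at hq ⊢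
    omega
  · change LY0 _ ∈ _
    rw [LY0_lm]
    apply lm_ZH
    simp only [Zset, Set.mem_ofPred_eq] at hq ⊢
    omega

/-! ### polynomials in Laurent polynomials -/

lemma inc_ZH (z : Fin 3) {m : ℤ} {v : Pol K} (hv : v ∈ hom K m) : inc v ∈ ZH K z m := by
  have : hom K m ≤ (ZH K z m).comap inc := hom_le fun a b hab => by
    rw [Submodule.mem_comap, inc_mon]
    apply lm_ZH
    fin_cases z <;> simp only [Zset, Set.mem_ofPred_eq] <;> omega
  exact this hv

lemma ret_hom {m : ℤ} {v : Lau K} (hv : v ∈ homL K m) : ret v ∈ hom K m := by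
  have : homL K m ≤ (hom K m).comap ret := homL_le fun a b hab => by
    rw [Submodule.mem_comap, ret_lm]
    split_ifs with h
    · exact mon_mem (by omega)
    · exact Submodule.zero_mem _
  exact this hv

lemma prI_homL {m : ℤ} {v : Lau K} (hv : v ∈ homL K m) : prI v ∈ homI K m := by
  have : homL K m ≤ (homI K m).comap prI := homL_le fun a b hab => by
    rw [Submodule.mem_comap, prI_lm]
    split_ifs with h
    · exact monI_mem (by omega)
    · exact Submodule.zero_mem _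
  exact this hv

lemma secI_homI {m : ℤ} {v : Pol K} (hv : v ∈ homI K m) : secI v ∈ homL K m := by
  have : homI K m ≤ (homL K m).comap secI := homI_le fun a b hab => by
    rw [Submodule.mem_comap, secI_mon]
    exact lm_mem (by omega)
  exact this hv

lemma prI_A0 {m : ℤ} {v : Lau K} (hv : v ∈ ZH K 0 m) : prI v = 0 := by
  rw [ZH_eq] at hv
  refine supp_eq (f := prI) (h := 0) (fun q hq => ?_) hv
  simp only [Zset, Set.mem_ofPred_eq] at hq
  rw [prI_lm, if_neg (by omega), LinearMap.zero_apply]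

lemma prI_A1 {m : ℤ} {v : Lau K} (hv : v ∈ ZH K 1 m) : prI v = 0 := by
  rw [ZH_eq] at hv
  refine supp_eq (f := prI) (h := 0) (fun q hq => ?_) hv
  simp only [Zset, Set.mem_ofPred_eq] at hq
  rw [prI_lm, if_neg (by omega), LinearMap.zero_apply]

lemma Q0_ZH {m : ℤ} {v : Lau K} (hv : v ∈ homL K m) : Q0 v ∈ ZH K 0 m := by
  have : homL K m ≤ (ZH K 0 m).comap Q0 := homL_le fun a b hab => by
    rw [Submodule.mem_comap, Q0_lm]
    split_ifs with h
    · exact lm_ZH ⟨h, hab⟩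
    · exact Submodule.zero_mem _
  exact this hv

lemma Q1_ZH {m : ℤ} {v : Lau K} (hv : v ∈ homL K m) : Q1 v ∈ ZH K 1 m := by
  have : homL K m ≤ (ZH K 1 m).comap Q1 := homL_le fun a b hab => by
    rw [Submodule.mem_comap, Q1_lm]
    split_ifs with h
    · exact lm_ZH ⟨h.2, hab⟩
    · exact Submodule.zero_mem _
  exact this hv

lemma Q0_A0 {m : ℤ} {v : Lau K} (hv : v ∈ ZH K 0 m) : Q0 v = v := by
  rw [ZH_eq] at hv
  refine supp_eq (f := Q0) (h := LinearMap.id) (fun q hq => ?_) hv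
  simp only [Zset, Set.mem_ofPred_eq] at hq
  rw [Q0_lm, if_pos hq.1, LinearMap.id_apply]

lemma Q1_A0 {m : ℤ} {v : Lau K} (hv : v ∈ ZH K 0 m) : Q1 v = 0 := by
  rw [ZH_eq] at hv
  refine supp_eq (f := Q1) (h := 0) (fun q hq => ?_) hv
  simp only [Zset, Set.mem_ofPred_eq] at hq
  rw [Q1_lm, if_neg (by omega), LinearMap.zero_apply]

/-- on `A1`, `Q0` lands in the polynomials -/
lemma Q0_A1 {m : ℤ} {v : Lau K} (hv : v ∈ ZH K 1 m) : Q0 v = inc (ret v) := by
  rw [ZH_eq] at hv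
  refine supp_eq (f := Q0) (h := inc ∘ₗ ret) (fun q hq => ?_) hv
  simp only [Zset, Set.mem_ofPred_eq] at hq
  rw [Q0_lm, LinearMap.comp_apply, ret_lm]
  by_cases h : 0 ≤ q.2
  · rw [if_pos h, if_pos ⟨hq.1, h⟩, inc_mon]
    congr 1 <;> omega
  · rw [if_neg h, if_neg (by omega), map_zero]

lemma Q01_A1 {m : ℤ} {v : Lau K} (hv : v ∈ ZH K 1 m) : Q0 v + Q1 v = v := by
  have h := split3 v
  rwa [prI_A1 hv, map_zero, add_zero] at h

lemma Q01_big {m : ℤ} (hm : -2 < m) {v : Lau K} (hv : v ∈ homL K m) : Q0 v + Q1 v = v := by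
  have h := split3 v
  have h2 : prI v = 0 := by
    have := prI_homL hv
    rw [homI_big hm] at this
    exact (Submodule.mem_bot K).1 this
  rwa [h2, map_zero, add_zero] at h

lemma ret_neg {m : ℤ} (hm : m < 0) {v : Lau K} (hv : v ∈ homL K m) : ret v = 0 := by
  have := ret_hom hv
  rw [hom_neg hm] at this
  exact (Submodule.mem_bot K).1 this

end Crest.Agent.R186.Lau977
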