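import Crest.Agent.R186.InvV_439

/-!
# Row 186, half (A), leaf S1 (helper977): the LAURENT module over `R''`

`Lau K = (ℤ × ℤ) →₀ K`, basis `lm a b ↔ x_0^a x_1^b`, P-degree `a + b`.
`x_i` shifts, `h ↦ 1`, `d_0 : lm a b ↦ cc a • lm (a-1) b`, `d_1 : lm a b ↦ (g^(-a-1) cc b) • lm a (b-1)`,
`cc a = (g^(-a) - 1) / (g - 1)`; the other letters act by `0`.
Submodules `A0` (`b ≥ 0`, `x_0` invertible), `A1` (`a ≥ 0`, `x_1` invertible).
`inc : Pol → Lau` intertwines `Vmod220.rep`, `prI : Lau → Pol` intertwines `Inv439.repI`.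
-/

set_option autoImplicit false

namespace Crest.Agent.R186.Lau977

open Crest.Agent.R186.VOp220 Crest.Agent.R186.DefsQ830 Crest.Agent.R186.Vmod220
  Crest.Agent.R186.Inv439

variable {K : Type} [Field K] (π : Par K)

/-- Laurent polynomials -/
abbrev Lau (K : Type) [Field K] : Type := (ℤ × ℤ) →₀ K

/-- the monomial `x^a y^b` -/
noncomputable def lm (K : Type) [Field K] (a b : ℤ) : Lau K := Finsupp.single (a, b) 1

/-- the diagonal-shift operator: `x^a y^b ↦ c(a,b) x^(a+s) y^(b+t)` -/
noncomputable def opl (c : ℤ → ℤ → K) (s t : ℤ) : Lau K →ₗ[K] Lau K :=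
  Finsupp.lsum K (fun p : ℤ × ℤ =>
    (LinearMap.toSpanSingleton K (Lau K) (c p.1 p.2 • lm K (p.1 + s) (p.2 + t))))

@[simp] lemma opl_lm (c : ℤ → ℤ → K) (s t : ℤ) (a b : ℤ) :
    opl c s t (lm K a b) = c a b • lm K (a + s) (b + t) := by
  simp [opl, lm]

lemma ext_lm {M : Type*} [AddCommGroup M] [Module K M] {f h : Lau K →ₗ[K] M}
    (H : ∀ a b, f (lm K a b) = h (lm K a b)) : f = h := by
  refine Finsupp.lhom_ext' fun p => LinearMap.ext_ring ?_
  simpa [lm] using H p.1 p.2

/-- `cc a = (g^(-a) - 1) / (g - 1)` -/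
noncomputable def cc (g : K) (a : ℤ) : K := (g ^ (-a) - 1) / (g - 1)

section ops
variable {g : K}

lemma cc_zero : cc g 0 = 0 := by simp [cc]

lemma cc_rec (hg : g ≠ 0) (h1 : g ≠ 1) (a : ℤ) : cc g a = 1 + g * cc g (a + 1) := by
  have h : g - 1 ≠ 0 := sub_ne_zero.2 h1
  unfold cc
  rw [show g ^ (-a) = g * g ^ (-(a + 1)) by
    rw [show -a = 1 + -(a + 1) by ring, zpow_add₀ hg, zpow_one]]
  field_simp
  ring

lemma cc_nat (hg : g ≠ 0) (h1 : g ≠ 1) (a : ℕ) : cc g (a : ℤ) = -(g⁻¹ * qn g⁻¹ a) := by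
  have h : g - 1 ≠ 0 := sub_ne_zero.2 h1
  have k := sub_mul_qn g⁻¹ a
  unfold cc
  rw [div_eq_iff h, zpow_neg, zpow_natCast, ← inv_pow]
  have hi : g * g⁻¹ = 1 := mul_inv_cancel₀ hg
  linear_combination -k + qn g⁻¹ a * hi

lemma cc_negS (hg : g ≠ 0) (h1 : g ≠ 1) (a : ℕ) :
    cc g (-(a : ℤ) - 1) = g ^ a * qn g⁻¹ (a + 1) := by
  have h : g - 1 ≠ 0 := sub_ne_zero.2 h1
  have k := sub_mul_qn g⁻¹ (a + 1)
  have e : g ^ (-(-(a : ℤ) - 1)) = g ^ (a + 1) := by
    rw [show -(-(a : ℤ) - 1) = ((a + 1 : ℕ) : ℤ) by push_cast; ring, zpow_natCast]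
  unfold cc
  rw [div_eq_iff h, e]
  have hi : g * g⁻¹ = 1 := mul_inv_cancel₀ hg
  have hp : g ^ (a + 1) * g⁻¹ ^ (a + 1) = 1 := by rw [← mul_pow, hi, one_pow]
  linear_combination (g ^ (a + 1)) * k + (-(g ^ a) * qn g⁻¹ (a + 1)) * hi + hp

/-- `x_0` -/
noncomputable def LX0 : Lau K →ₗ[K] Lau K := opl (fun _ _ => 1) 1 0
/-- `x_1` -/
noncomputable def LX1 : Lau K →ₗ[K] Lau K := opl (fun _ _ => 1) 0 1
/-- `d_0` -/
noncomputable def LD0 (g : K) : Lau K →ₗ[K] Lau K := opl (fun a _ => cc g a) (-1) 0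
/-- `d_1` -/
noncomputable def LD1 (g : K) : Lau K →ₗ[K] Lau K := opl (fun a b => g ^ (-a - 1) * cc g b) 0 (-1)

@[simp] lemma LX0_lm (a b : ℤ) : LX0 (lm K a b) = lm K (a + 1) b := by simp [LX0]
@[simp] lemma LX1_lm (a b : ℤ) : LX1 (lm K a b) = lm K a (b + 1) := by simp [LX1]
@[simp] lemma LD0_lm (a b : ℤ) : LD0 g (lm K a b) = cc g a • lm K (a - 1) b := by
  simp [LD0, sub_eq_add_neg]
@[simp] lemma LD1_lm (a b : ℤ) : LD1 g (lm K a b) = (g ^ (-a - 1) * cc g b) • lm K a (b - 1) := by
  simp [LD1, sub_eq_add_neg]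

lemma relL_x : (LX0 : Lau K →ₗ[K] Lau K) * LX1 = LX1 * LX0 := by
  apply ext_lm; intro a b; simp

lemma sL00 (hg : g ≠ 0) (h1 : g ≠ 1) :
    (LX0 : Lau K →ₗ[K] Lau K) * LD0 g = 1 + g • (LD0 g * LX0) := by
  apply ext_lm; intro a b
  simp only [Module.End.mul_apply, LinearMap.add_apply, LinearMap.smul_apply, LD0_lm, LX0_lm,
    map_smul, Module.End.one_apply, smul_smul, sub_add_cancel, add_sub_cancel_right]
  rw [cc_rec hg h1, add_smul, one_smul]

lemma sL01 (hg : g ≠ 0) : (LX0 : Lau K →ₗ[K] Lau K) * LD1 g = g • (LD1 g * LX0) := by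
  apply ext_lm; intro a b
  simp only [Module.End.mul_apply, LinearMap.smul_apply, LD1_lm, LX0_lm, map_smul, smul_smul]
  congr 1
  rw [show -a - 1 = 1 + (-(a + 1) - 1) by ring, zpow_add₀ hg, zpow_one]
  ring

lemma sL10 : (LX1 : Lau K →ₗ[K] Lau K) * LD0 g = LD0 g * LX1 := by
  apply ext_lm; intro a b; simp

lemma sL11 (hg : g ≠ 0) (h1 : g ≠ 1) :
    (LX1 : Lau K →ₗ[K] Lau K) * LD1 g = 1 + g • (LD1 g * LX1) + (g - 1) • (LD0 g * LX0) := by
  have h : g - 1 ≠ 0 := sub_ne_zero.2 h1
  apply ext_lm; intro a b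
  simp only [Module.End.mul_apply, LinearMap.add_apply, LinearMap.smul_apply, LD1_lm, LX1_lm, LX0_lm,
    LD0_lm, map_smul, Module.End.one_apply, smul_smul, sub_add_cancel, add_sub_cancel_right]
  rw [show lm K a b + (g * (g ^ (-a - 1) * cc g (b + 1))) • lm K a b
      + ((g - 1) * cc g (a + 1)) • lm K a b
      = (1 + g * (g ^ (-a - 1) * cc g (b + 1)) + (g - 1) * cc g (a + 1)) • lm K a b by
    rw [add_smul, add_smul, one_smul]]
  congr 1
  have e1 : (g - 1) * cc g (a + 1) = g ^ (-a - 1) - 1 := by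
    unfold cc
    rw [mul_div_cancel₀ _ h, show -(a + 1) = -a - 1 by ring]
  have e2 := cc_rec hg h1 b
  rw [e1, e2]
  ring

lemma sLdd (hg : g ≠ 0) : LD1 g * LD0 g = g • (LD0 g * LD1 g) := by
  apply ext_lm; intro a b
  simp only [Module.End.mul_apply, LinearMap.smul_apply, LD0_lm, LD1_lm, map_smul, smul_smul]
  congr 1
  rw [show -(a - 1) - 1 = 1 + (-a - 1) by ring, zpow_add₀ hg, zpow_one]
  ring

end ops

lemma par_ne_one : π.g ≠ 1 := by
  have := π.gn 1 one_pos
  rwa [pow_one] at this

/-! ## the representation -/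

/-- operators of the letters -/
noncomputable def opL (g : K) : Gen → Module.End K (Lau K)
  | .x i => if i = 0 then LX0 else LX1
  | .h => 1
  | .d j => if j = 0 then LD0 g else LD1 g
  | _ => 0

/-- lift to the free algebra -/
noncomputable def repLF (g : K) : F K →ₐ[K] Module.End K (Lau K) := FreeAlgebra.lift K (opL g)

@[simp] lemma repLF_L (g : K) (a : Gen) : repLF g (L K a) = opL g a := by
  simp [repLF, L]

lemma repLF_rel {a b : F K} (h : Rel π a b) : repLF π.g a = repLF π.g b := by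
  induction h with
  | xx => simp only [map_mul, repLF_L, opL]; exact relL_x
  | hc a => simp only [map_mul, repLF_L]; simp [opL]
  | x0d0 => simp only [map_mul, map_add, map_smul, repLF_L]; simpa [opL] using sL00 π.g0 (par_ne_one π)
  | x0d1 => simp only [map_mul, map_add, map_smul, repLF_L]; simpa [opL] using sL01 π.g0
  | x1d0 => simp only [map_mul, map_add, map_smul, repLF_L]; simpa [opL] using sL10
  | x1d1 => simp only [map_mul, map_add, map_smul, repLF_L]; simpa [opL] using sL11 π.g0 (par_ne_one π)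
  | _ => simp only [map_mul, map_add, map_smul, repLF_L, map_zero]; simp [opL]

/-- the representation of `R''` on the Laurent polynomials -/
noncomputable def repL : R π →ₐ[K] Module.End K (Lau K) :=
  RingQuot.liftAlgHom K ⟨repLF π.g, fun _ _ h => repLF_rel π h⟩

@[simp] lemma repL_mk (a : F K) : repL π (mk π a) = repLF π.g a := by
  simp [repL, mk]

@[simp] lemma repL_X (a : Gen) : repL π (X π a) = opL π.g a := by
  rw [X, repL_mk, repLF_L]

lemma repL_rF : repLF π.g (rF π) = 0 := by
  have h := sLdd (K := K) (g := π.g) π.g0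
  have h2 : (2 : K) = 0 := π.two
  simp only [rF, map_add, map_mul, map_smul, repLF_L]
  simp only [opL, if_true, if_neg (show ¬ ((1 : Fin 2) = 0) by decide)]
  rw [h, ← two_smul K, h2, zero_smul]

/-- the differential of a letter acts by zero -/
lemma repLF_dGen (a : Gen) : repLF π.g (dGen π a) = 0 := by
  cases a with
  | z j => simp only [dGen, map_mul, repL_rF, mul_zero]
  | zc => simp only [dGen, map_mul, map_add, map_smul, repLF_L]; simp [opL]
  | e j => simp only [dGen, map_mul, map_add, map_smul, repLF_L]; simp [opL]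
  | gj j => simp only [dGen, rhoF, map_mul, map_add, map_smul, repLF_L]; simp [opL]
  | gc => simp only [dGen, map_mul, map_add, map_smul, repLF_L]; simp [opL]
  | u s => simp only [dGen, map_mul, repLF_L]; simp [opL]
  | v s => simp only [dGen, map_mul, map_add, map_smul, repLF_L]; simp [opL]
  | _ => simp [dGen]

/-- `D r` acts by zero -/
lemma repL_D {D : R π →ₗ[K] R π} (hD : IsDiff π D) (r : R π) : repL π (D r) = 0 := by
  have hone : D 1 = 0 := by
    have := hD.leib 1 1
    rw [one_mul, mul_one, one_mul] at this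
    simpa using this
  obtain ⟨a, rfl⟩ := RingQuot.mkAlgHom_surjective K (Rel π) r
  induction a using FreeAlgebra.induction with
  | grade0 c =>
    rw [AlgHom.commutes, Algebra.algebraMap_eq_smul_one, map_smul, hone, smul_zero, map_zero]
  | grade1 a =>
    have := hD.gen a
    rw [X, mk, L] at this
    rw [this]
    have e := repL_mk π (dGen π a)
    rw [mk] at e
    rw [e, repLF_dGen]
  | mul a b ha hb =>
    rw [map_mul, hD.leib, map_add, map_mul, map_mul, ha, hb, zero_mul, mul_zero, add_zero]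
  | add a b ha hb =>
    rw [map_add, map_add, map_add, ha, hb, add_zero]

/-! ## degrees -/

/-- degree `m` part -/
def homL (K : Type) [Field K] (m : ℤ) : Submodule K (Lau K) :=
  Finsupp.supported K K {p : ℤ × ℤ | p.1 + p.2 = m}

lemma lm_mem {a b m : ℤ} (h : a + b = m) : lm K a b ∈ homL K m := by
  unfold homL lm
  exact Finsupp.single_mem_supported K 1 h

lemma homL_eq (m : ℤ) : homL K m = Submodule.span K {v | ∃ a b : ℤ, a + b = m ∧ v = lm K a b} := by
  unfold homL
  rw [Finsupp.supported_eq_span_single]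
  congr 1
  ext v
  constructor
  · rintro ⟨⟨a, b⟩, h, rfl⟩
    exact ⟨a, b, h, rfl⟩
  · rintro ⟨a, b, h, rfl⟩
    exact ⟨(a, b), h, rfl⟩

lemma homL_le {m : ℤ} {p : Submodule K (Lau K)} (H : ∀ a b : ℤ, a + b = m → lm K a b ∈ p) :
    homL K m ≤ p := by
  rw [homL_eq, Submodule.span_le]
  rintro v ⟨a, b, h, rfl⟩
  exact H a b h

/-- `b ≥ 0` (`x_0` invertible) -/
def A0 (K : Type) [Field K] : Submodule K (Lau K) :=
  Finsupp.supported K K {p : ℤ × ℤ | 0 ≤ p.2}

/-- `a ≥ 0` (`x_1` invertible) -/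
def A1 (K : Type) [Field K] : Submodule K (Lau K) :=
  Finsupp.supported K K {p : ℤ × ℤ | 0 ≤ p.1}

lemma supp_le {s : Set (ℤ × ℤ)} {p : Submodule K (Lau K)}
    (H : ∀ q ∈ s, lm K q.1 q.2 ∈ p) : Finsupp.supported K K s ≤ p := by
  rw [Finsupp.supported_eq_span_single, Submodule.span_le]
  rintro v ⟨q, h, rfl⟩
  exact H q h

lemma lm_mem_supp {s : Set (ℤ × ℤ)} {a b : ℤ} (h : (a, b) ∈ s) :
    lm K a b ∈ Finsupp.supported K K s :=
  Finsupp.single_mem_supported K 1 h

lemma opL_A0 (g : K) (a : Gen) {v : Lau K} (hv : v ∈ A0 K) : opL g a v ∈ A0 K := by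
  have key : A0 K ≤ (A0 K).comap (opL g a) := by
    refine supp_le fun q hq => ?_
    rw [Submodule.mem_comap]
    have hq' : 0 ≤ q.2 := hq
    cases a with
    | x i =>
      show (if i = 0 then LX0 else LX1 : Module.End K (Lau K)) _ ∈ _
      split_ifs
      · rw [LX0_lm]; exact lm_mem_supp hq'
      · rw [LX1_lm]; exact lm_mem_supp (show (0 : ℤ) ≤ q.2 + 1 by omega)
    | h => exact lm_mem_supp hq'
    | d j =>
      show (if j = 0 then LD0 g else LD1 g : Module.End K (Lau K)) _ ∈ _
      split_ifs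
      · rw [LD0_lm]; exact Submodule.smul_mem _ _ (lm_mem_supp hq')
      · rw [LD1_lm]
        rcases eq_or_lt_of_le hq' with h | h
        · rw [← h, cc_zero, mul_zero, zero_smul]; exact Submodule.zero_mem _
        · exact Submodule.smul_mem _ _ (lm_mem_supp (show (0 : ℤ) ≤ q.2 - 1 by omega))
    | _ => exact Submodule.zero_mem _
  exact key hv

lemma opL_A1 (g : K) (a : Gen) {v : Lau K} (hv : v ∈ A1 K) : opL g a v ∈ A1 K := by
  have key : A1 K ≤ (A1 K).comap (opL g a) := by
    refine supp_le fun q hq => ?_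
    rw [Submodule.mem_comap]
    have hq' : 0 ≤ q.1 := hq
    cases a with
    | x i =>
      show (if i = 0 then LX0 else LX1 : Module.End K (Lau K)) _ ∈ _
      split_ifs
      · rw [LX0_lm]; exact lm_mem_supp (show (0 : ℤ) ≤ q.1 + 1 by omega)
      · rw [LX1_lm]; exact lm_mem_supp hq'
    | h => exact lm_mem_supp hq'
    | d j =>
      show (if j = 0 then LD0 g else LD1 g : Module.End K (Lau K)) _ ∈ _
      split_ifs
      · rw [LD0_lm]
        rcases eq_or_lt_of_le hq' with h | h
        · rw [← h, cc_zero, zero_smul]; exact Submodule.zero_mem _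
        · exact Submodule.smul_mem _ _ (lm_mem_supp (show (0 : ℤ) ≤ q.1 - 1 by omega))
      · rw [LD1_lm]; exact Submodule.smul_mem _ _ (lm_mem_supp hq')
    | _ => exact Submodule.zero_mem _
  exact key hv

lemma opL_hom (g : K) (a : Gen) {m : ℤ} {v : Lau K} (hv : v ∈ homL K m) :
    opL g a v ∈ homL K (m + a.dP) := by
  have key : homL K m ≤ (homL K (m + a.dP)).comap (opL g a) := by
    refine homL_le fun p q hpq => ?_
    rw [Submodule.mem_comap]
    cases a with
    | x i =>
      show (if i = 0 then LX0 else LX1 : Module.End K (Lau K)) _ ∈ homL K (m + 1)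
      split_ifs
      · rw [LX0_lm]; exact lm_mem (by omega)
      · rw [LX1_lm]; exact lm_mem (by omega)
    | h => show lm K p q ∈ homL K (m + 0); exact lm_mem (by omega)
    | d j =>
      show (if j = 0 then LD0 g else LD1 g : Module.End K (Lau K)) _ ∈ homL K (m + -1)
      split_ifs
      · rw [LD0_lm]; exact Submodule.smul_mem _ _ (lm_mem (by omega))
      · rw [LD1_lm]; exact Submodule.smul_mem _ _ (lm_mem (by omega))
    | _ => exact Submodule.zero_mem _
  exact key hv

/-- a submodule stable under the letters is stable under `R''` -/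
lemma repL_stable {p : Submodule K (Lau K)} (H : ∀ a v, v ∈ p → opL π.g a v ∈ p) (r : R π)
    {v : Lau K} (hv : v ∈ p) : repL π r v ∈ p := by
  obtain ⟨a, rfl⟩ := RingQuot.mkAlgHom_surjective K (Rel π) r
  have e : repL π (RingQuot.mkAlgHom K (Rel π) a) = repLF π.g a := repL_mk π a
  rw [e]
  clear e
  induction a using FreeAlgebra.induction generalizing v with
  | grade0 c =>
    rw [AlgHom.commutes, Module.algebraMap_end_apply]
    exact p.smul_mem _ hv
  | grade1 a =>
    have := repLF_L (K := K) π.g a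
    rw [L] at this
    rw [this]
    exact H a v hv
  | mul a b ha hb => rw [map_mul, Module.End.mul_apply]; exact ha (hb hv)
  | add a b ha hb => rw [map_add, LinearMap.add_apply]; exact p.add_mem (ha hv) (hb hv)

lemma repL_A0 (r : R π) {v : Lau K} (hv : v ∈ A0 K) : repL π r v ∈ A0 K :=
  repL_stable π (fun a _ h => opL_A0 π.g a h) r hv

lemma repL_A1 (r : R π) {v : Lau K} (hv : v ∈ A1 K) : repL π r v ∈ A1 K :=
  repL_stable π (fun a _ h => opL_A1 π.g a h) r hv

lemma repL_wd (w : List Gen) {m : ℤ} {v : Lau K} (hv : v ∈ homL K m) :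
    repL π (wd π w) v ∈ homL K (m + wP w) := by
  induction w with
  | nil => simpa [wd, wP] using hv
  | cons a w ih =>
    have e1 : wd π (a :: w) = X π a * wd π w := by simp [wd]
    have e2 : wP (a :: w) = a.dP + wP w := by simp [wP]
    rw [e1, map_mul, Module.End.mul_apply, repL_X, e2, show m + (a.dP + wP w) = (m + wP w) + a.dP by ring]
    exact opL_hom _ a ih

/-- `R''_(P,A)` maps degree `m` to degree `m + P` -/
lemma repL_pcB {P : ℤ} {A : ℕ} {r : R π} (hr : r ∈ pcB π P A) {m : ℤ} {v : Lau K} (hv : v ∈ homL K m) :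
    repL π r v ∈ homL K (m + P) := by
  have : pcB π P A ≤ (homL K (m + P)).comap
      ((LinearMap.applyₗ (R := K) (M₂ := Lau K) v).comp (repL π).toLinearMap) := by
    rw [pcB, Submodule.span_le]
    rintro r ⟨w, hP, _, rfl⟩
    rw [← hP]
    exact repL_wd π w hv
  exact this hr

/-! ## polynomials inside, inverse polynomials outside -/

/-- `Pol → Lau` -/
noncomputable def inc : Pol K →ₗ[K] Lau K :=
  Finsupp.lsum K (fun p : ℕ × ℕ => LinearMap.toSpanSingleton K (Lau K) (lm K p.1 p.2))

@[simp] lemma inc_mon (a b : ℕ) : inc (mon K a b) = lm K a b := by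
  simp [inc, mon]

/-- `Lau → Inv` -/
noncomputable def prI : Lau K →ₗ[K] Pol K :=
  Finsupp.lsum K (fun p : ℤ × ℤ => LinearMap.toSpanSingleton K (Pol K)
    (if p.1 < 0 ∧ p.2 < 0 then mon K (-p.1 - 1).toNat (-p.2 - 1).toNat else 0))

@[simp] lemma prI_lm (a b : ℤ) :
    prI (lm K a b) = if a < 0 ∧ b < 0 then mon K (-a - 1).toNat (-b - 1).toNat else 0 := by
  simp [prI, lm]

lemma inc_op (a : Gen) (v : Pol K) : inc (opG π.g a v) = opL π.g a (inc v) := by
  have key : inc ∘ₗ (opG π.g a) = (opL π.g a) ∘ₗ inc := by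
    apply ext_mon; intro p q
    rw [LinearMap.comp_apply, LinearMap.comp_apply, inc_mon]
    cases a with
    | x i =>
      show inc ((if i = 0 then X0 else X1 : Module.End K (Pol K)) _)
        = (if i = 0 then LX0 else LX1 : Module.End K (Lau K)) _
      split_ifs
      · rw [X0_mon, inc_mon, LX0_lm]; push_cast; rfl
      · rw [X1_mon, inc_mon, LX1_lm]; push_cast; rfl
    | h => show inc (mon K p q) = lm K p q; simp
    | d j =>
      show inc ((if j = 0 then E0 π.g else E1 π.g : Module.End K (Pol K)) _)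
        = (if j = 0 then LD0 π.g else LD1 π.g : Module.End K (Lau K)) _
      split_ifs
      · rw [E0_mon, map_smul, inc_mon, LD0_lm, cc_nat π.g0 (par_ne_one π)]
        rcases p with _ | p
        · simp
        · simp
      · rw [E1_mon, map_smul, inc_mon, LD1_lm, cc_nat π.g0 (par_ne_one π)]
        rcases q with _ | q
        · simp
        · congr 1
          · rw [zpow_sub₀ π.g0, zpow_neg, zpow_natCast, zpow_one]
            simp only [one_div, inv_pow]
            ring
          · simp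
    | _ => show inc 0 = (0 : Lau K); simp
  exact congrArg (fun F : Pol K →ₗ[K] Lau K => F v) key

lemma toNat_aux {a : ℤ} (h : a < 0) : ((-a - 1).toNat : ℤ) = -a - 1 := Int.toNat_of_nonneg (by omega)

lemma prI_op (a : Gen) (v : Lau K) : prI (opL π.g a v) = opI π.g a (prI v) := by
  have key : prI ∘ₗ (opL π.g a) = (opI π.g a) ∘ₗ prI := by
    apply ext_lm; intro p q
    rw [LinearMap.comp_apply, LinearMap.comp_apply]
    have dich : (0 ≤ p ∨ 0 ≤ q) ∨ ∃ α β : ℕ, p = -(α : ℤ) - 1 ∧ q = -(β : ℤ) - 1 := by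
      by_cases h1 : 0 ≤ p
      · exact Or.inl (Or.inl h1)
      · by_cases h2 : 0 ≤ q
        · exact Or.inl (Or.inr h2)
        · exact Or.inr ⟨(-p - 1).toNat, (-q - 1).toNat, by omega, by omega⟩
    have pm : ∀ α β : ℕ, prI (lm K (-(α : ℤ) - 1) (-(β : ℤ) - 1)) = mon K α β := fun α β => by
      rw [prI_lm, if_pos ⟨by omega, by omega⟩]
      congr 1 <;> omega
    have pz : ∀ a b : ℤ, (0 ≤ a ∨ 0 ≤ b) → prI (lm K a b) = 0 := fun a b h => by
      rw [prI_lm, if_neg (by omega)]
    rcases dich with hpq | ⟨α, β, rfl, rfl⟩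
    · rw [pz p q hpq, map_zero]
      cases a with
      | x i =>
        show prI ((if i = 0 then LX0 else LX1 : Module.End K (Lau K)) _) = 0
        split_ifs
        · rw [LX0_lm]; exact pz _ _ (by omega)
        · rw [LX1_lm]; exact pz _ _ (by omega)
      | h => exact pz p q hpq
      | d j =>
        show prI ((if j = 0 then LD0 π.g else LD1 π.g : Module.End K (Lau K)) _) = 0
        split_ifs
        · rw [LD0_lm, map_smul]
          rcases hpq with h | h
          · rcases eq_or_lt_of_le h with h0 | h0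
            · rw [← h0, cc_zero, zero_smul]
            · rw [pz _ _ (by omega), smul_zero]
          · rw [pz _ _ (by omega), smul_zero]
        · rw [LD1_lm, map_smul]
          rcases hpq with h | h
          · rw [pz _ _ (by omega), smul_zero]
          · rcases eq_or_lt_of_le h with h0 | h0
            · rw [← h0, cc_zero, mul_zero, zero_smul]
            · rw [pz _ _ (by omega), smul_zero]
      | _ => show prI 0 = (0 : Pol K); simp
    · rw [pm]
      cases a with
      | x i =>
        show prI ((if i = 0 then LX0 else LX1 : Module.End K (Lau K)) _)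
          = (if i = 0 then S0 else S1 : Module.End K (Pol K)) _
        split_ifs
        · rw [LX0_lm, S0_mon]
          rcases α with _ | α
          · rw [pz _ _ (by simp)]; simp
          · rw [show -((α + 1 : ℕ) : ℤ) - 1 + 1 = -(α : ℤ) - 1 by push_cast; ring, pm]; simp
        · rw [LX1_lm, S1_mon]
          rcases β with _ | β
          · rw [pz _ _ (by simp)]; simp
          · rw [show -((β + 1 : ℕ) : ℤ) - 1 + 1 = -(β : ℤ) - 1 by push_cast; ring, pm]; simp
      | h => exact pm α β
      | d j =>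
        show prI ((if j = 0 then LD0 π.g else LD1 π.g : Module.End K (Lau K)) _)
          = (if j = 0 then F0 π.g else F1 π.g : Module.End K (Pol K)) _
        split_ifs
        · rw [LD0_lm, map_smul, F0_mon, cc_negS π.g0 (par_ne_one π),
            show -(α : ℤ) - 1 - 1 = -((α + 1 : ℕ) : ℤ) - 1 by push_cast; ring, pm]
        · rw [LD1_lm, map_smul, F1_mon, cc_negS π.g0 (par_ne_one π),
            show -(β : ℤ) - 1 - 1 = -((β + 1 : ℕ) : ℤ) - 1 by push_cast; ring, pm]
          congr 1
          rw [show -(-(α : ℤ) - 1) - 1 = (α : ℤ) by ring, zpow_natCast, pow_add]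
          ring
      | _ => show prI 0 = (0 : Pol K); simp
  exact congrArg (fun F : Lau K →ₗ[K] Pol K => F v) key

end Crest.Agent.R186.Lau977
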