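import Crest.Agent.R186.C1Q_611
import Crest.Agent.R186.C2W_655
import Crest.Agent.R186.WLM_982
import Crest.Agent.R186.KOSM_296
import Crest.Agent.R186.Ent_925

/-!
Row 186, half (A), leaf A.C1 (helper989): the layer structure `Lay` of helper134 between
`(M, L'')` and `(tL, L)`: six layers `one < y0 < y1 < yb0 < yb1 < pi`.
-/

set_option autoImplicit false
set_option linter.style.haveILetI false
set_option linter.unusedSectionVars false

noncomputable section

open MulOpposite

namespace Crest.Agent.R186.Lay989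

open Hat827 Win810 Win810.WD Frame515 WBM163 FinV988 Core890 SExt44 DefsQ830 WL221 SM890 Res255
open C1x134
open Crest.Agent.R186.PBW128 (Wb wq fin2 wq_one)
open Crest.Agent.R186.C2b44 (kill)
open Crest.Agent.R186.WLF296 (lq lev kill_lq lq_wq lq_wq_mul sum_lq lq_mem D_wq)

variable {K : Type} [Field K] (π : Par K)

/-! ### the letters -/

/-- the letters in order -/
def qj : ℕ → Wb
  | 0 => .one
  | 1 => .y 0
  | 2 => .y 1
  | 3 => .yb 0
  | 4 => .yb 1
  | _ => .pi

/-- the position of a letter -/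
def ix : Wb → ℕ
  | .one => 0
  | .y s => 1 + s.val
  | .yb s => 3 + s.val
  | .pi => 5

theorem qj_ix (q : Wb) : qj (ix q) = q := by
  cases q with
  | one => rfl
  | y s => rcases fin2 s with rfl | rfl <;> rfl
  | yb s => rcases fin2 s with rfl | rfl <;> rfl
  | pi => rfl

theorem ix_lt (q : Wb) : ix q < 6 := by
  cases q with
  | one => decide
  | y s => rcases fin2 s with rfl | rfl <;> decide
  | yb s => rcases fin2 s with rfl | rfl <;> decide
  | pi => decide

theorem ix_qj {j : ℕ} (hj : j < 6) : ix (qj j) = j := by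
  interval_cases j <;> rfl

theorem lev_mono {i j : ℕ} (hj : j < 6) (h : i < j) : lev (qj i) ≤ lev (qj j) := by
  interval_cases j <;> interval_cases i <;> decide

theorem qj_ne {i j : ℕ} (hj : j < 6) (h : i < j) : qj i ≠ qj j := by
  intro h1
  have h2 := congrArg ix h1
  rw [ix_qj (by omega), ix_qj hj] at h2
  omega

theorem sum_qj {M : Type*} [AddCommMonoid M] (f : Wb → M) :
    ∑ j ∈ Finset.range 6, f (qj j) = ∑ q, f q := by
  rw [C2W655.sum_Wb]
  simp only [Finset.sum_range_succ, Finset.sum_range_zero, zero_add, qj]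

theorem cW_self (q : Wb) : cW π q q = 1 := by
  cases q with
  | one => rfl
  | y s => simp [cW, dk]
  | yb s => simp [cW, dk]
  | pi => simp [cW, dk, dt]

theorem tW_self (q : Wb) : tW q q = .one := by
  cases q with
  | one => rfl
  | y s => rcases fin2 s with rfl | rfl <;> rfl
  | yb s => rcases fin2 s with rfl | rfl <;> rfl
  | pi => rfl

theorem cW_low {q q1 : Wb} (h : ix q < ix q1) : cW π q1 q = 0 := by
  revert h
  have h10 : (1 : Fin 2) ≠ 0 := by decide
  rcases q1 with _ | s | s | _ <;> rcases q with _ | s' | s' | _ <;>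
    (try rcases fin2 s with rfl | rfl) <;> (try rcases fin2 s' with rfl | rfl) <;>
    first
    | (intro h; exact absurd h (by decide))
    | (intro _; simp [cW, dk, dt, h10])

/-! ### entries of `M` -/

theorem oM_wq (q q1 : Wb) (r : R π) :
    oM π q (r * wq π q1) = cW π q1 q • oM π (tW q1 q) r := by
  change repM π (r * wq π q1) (oo K q) = cW π q1 q • repM π r (oo K (tW q1 q))
  rw [map_mul, Module.End.mul_apply, repM_wq, map_smul]

theorem op_wq (q q1 : Wb) : ∃ c : K, c ≠ 0 ∧ ∀ r : R π,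
    op (wq π q1) • oM π q r = (c * cW π q1 q) • oM π (tW q1 q) r := by
  obtain ⟨c, hc, h⟩ := WLM982.tau_wq π (Tq π q) q1
  refine ⟨c, hc, fun r => ?_⟩
  rw [op_smul_oM, h, mul_smul_comm, map_smul, oM_wq, smul_smul]

theorem lead (q1 : Wb) : ∃ k : K, k ≠ 0 ∧ ∀ m : MM π,
    (∀ q, ix q1 < ix q → KOSM296.cM π q m = 0) →
    op (wq π q1) • m = k • soc π (KOSM296.cM π q1 m) := by
  obtain ⟨c, hc, h⟩ := op_wq π q1 q1
  refine ⟨c * cW π q1 q1, ?_, fun m hm => ?_⟩
  · rw [cW_self, mul_one]; exact hc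
  · conv_lhs => rw [KOSM296.sum_cM π m]
    rw [Finset.smul_sum, Finset.sum_eq_single q1]
    · rw [h, tW_self]
    · intro q _ hq
      rcases lt_trichotomy (ix q) (ix q1) with h1 | h1 | h1
      · obtain ⟨c', _, h'⟩ := op_wq π q q1
        rw [h', cW_low π h1, mul_zero, zero_smul]
      · exact absurd (by rw [← qj_ix q, h1, qj_ix]) hq
      · rw [hm q h1, map_zero, smul_zero]
    · intro h; exact absurd (Finset.mem_univ _) h

/-- the leading coefficient -/
def kq (q : Wb) : K := Classical.choose (lead π q)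

theorem kq_ne (q : Wb) : kq π q ≠ 0 := (Classical.choose_spec (lead π q)).1

theorem kq_lead (q : Wb) {m : MM π} (hm : ∀ q', ix q < ix q' → KOSM296.cM π q' m = 0) :
    op (wq π q) • m = kq π q • soc π (KOSM296.cM π q m) :=
  (Classical.choose_spec (lead π q)).2 m hm

theorem retE_soc (r : R π) : retE π (soc π r) = prL π r := by
  rw [← socE_prL, retE_socE]

/-- `μ_q` on entries -/
def muE (q : Wb) : MM π →ₗ[K] RL π := retE π ∘ₗ rho π (wq π q)

theorem muE_apply (q : Wb) (m : MM π) : muE π q m = retE π (op (wq π q) • m) := rfl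

theorem op_eq (q : Wb) {m : MM π} (hm : ∀ q', ix q < ix q' → KOSM296.cM π q' m = 0) :
    op (wq π q) • m = socE π (muE π q m) := by
  have h1 := kq_lead π q hm
  rw [muE_apply, h1, ← map_smul, retE_soc, socE_prL]

theorem cM_of_mu {l : ℕ} {m : MM π} (h : ∀ i < 6, l ≤ i → muE π (qj i) m = 0) :
    ∀ q, l ≤ ix q → KOSM296.cM π q m = 0 := by
  have key : ∀ n : ℕ, ∀ q, l ≤ ix q → 6 - ix q = n → KOSM296.cM π q m = 0 := by
    intro n
    induction n using Nat.strong_induction_on with
    | _ n ih =>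
      intro q hl hn
      have hq : ∀ q', ix q < ix q' → KOSM296.cM π q' m = 0 := by
        intro q' h'
        have h6 := ix_lt q'
        exact ih (6 - ix q') (by omega) q' (by omega) rfl
      have h1 := h (ix q) (ix_lt q) hl
      rw [qj_ix, muE_apply, kq_lead π q hq, map_smul, retE_soc, smul_eq_zero] at h1
      rcases h1 with h1 | h1
      · exact absurd h1 (kq_ne π q)
      · rw [prL_eq_zero, KOSM296.kill_cM] at h1
        exact h1
  intro q hq
  exact key _ q hq rfl

/-- `ν_q` on entries -/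
def nuE (q : Wb) : RL π →ₗ[K] MM π := (kq π q)⁻¹ • (oM π q ∘ₗ (RL π).val.toLinearMap)

theorem nuE_apply (q : Wb) (z : RL π) : nuE π q z = (kq π q)⁻¹ • oM π q z.1 := rfl

theorem cM_nuE (q q' : Wb) (z : RL π) :
    KOSM296.cM π q' (nuE π q z) = if q = q' then (kq π q)⁻¹ • z.1 else 0 := by
  rw [nuE_apply, map_smul, KOSM296.cM_oM π q' q z.2]
  split_ifs
  · rfl
  · rw [smul_zero]

theorem op_nuE (q : Wb) (z : RL π) : op (wq π q) • nuE π q z = socE π z := by
  have h := kq_lead π q (m := nuE π q z) (fun q' h' => by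
    rw [cM_nuE, if_neg]
    rintro rfl
    omega)
  rw [h, cM_nuE, if_pos rfl, map_smul, smul_smul, mul_inv_cancel₀ (kq_ne π q), one_smul]
  rfl

theorem muE_nuE (q : Wb) (z : RL π) : muE π q (nuE π q z) = z := by
  rw [muE_apply, op_nuE, retE_socE]

theorem muE_nuE' {q q' : Wb} (h : ix q < ix q') (z : RL π) : muE π q' (nuE π q z) = 0 := by
  have h1 := kq_lead π q' (m := nuE π q z) (fun q'' h' => by
    rw [cM_nuE, if_neg]
    rintro rfl
    omega)
  rw [muE_apply, h1, cM_nuE, if_neg (by rintro rfl; omega), map_zero, smul_zero, map_zero]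

theorem nuE_mem (s : ℕ) {P A C : ℤ} (q : Wb) {z : RL π} (hz : z ∈ pcL π (P + 1) A (C - s)) :
    nuE π q z ∈ pcM π s P A (C - wC q.word) := by
  refine Submodule.smul_mem _ _ (mem_pcM π s q (C' := C - s) hz (by ring))

/-! ### entries of `L''` -/

/-- `λ_q` on entries -/
def lamE (q : Wb) : R π →ₗ[K] RL π := (prL π).toLinearMap ∘ₗ lq π q

theorem lamE_apply (q : Wb) (r : R π) : lamE π q r = prL π (lq π q r) := rfl

theorem lamE_val (q : Wb) (r : R π) : (lamE π q r : R π) = lq π q r := kill_lq π q r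

theorem lamE_mem {P A C : ℤ} {r : R π} (hr : r ∈ pcZ π P A C) (q : Wb) :
    lamE π q r ∈ pcL π P A (C - wC q.word) := by
  refine prL_mem ?_
  rw [KOS296.pcZ_eq_pz] at hr ⊢
  exact lq_mem π hr q

theorem lamE_wq (q q' : Wb) (h : lev q' ≤ lev q) (r : R π) :
    lamE π q' (wq π q * r) = if q' = q then prL π r else 0 := by
  rw [lamE_apply, lq_wq_mul π q q' r h]
  split_ifs
  · rw [prL_kill]
  · rw [map_zero]

/-! ### window part: `M` -/

/-- the letter as a diagonal matrix -/
def dq (q : Wb) : (WR π).Win := C2W655.dgw (WR π) (wq π q) (wC q.word) (Ent925.wq_mem π q)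

theorem dq_mem (q : Wb) : dq π q ∈ (WR π).dga.G (wC q.word) := C2W655.dgw_mem (w := WR π) _ _ _

theorem dq_D (q : Wb) : (WR π).dga.D (dq π q) = 0 := C2W655.dgw_D (w := WR π) _ _ _ (D_wq π q)

theorem dq_mul (q : Wb) (m : (WR π).Win) (i j : Ob) :
    (show R π from (dq π q * m : (WR π).Win).1 i j) = wq π q * (show R π from m.1 i j) :=
  C2W655.dgw_mul (w := WR π) m _ _ _ i j

/-- the letter as an element of `L''` -/
def dqA (q : Wb) : (WR π).dga.C := dq π q

section M

variable (s : ℕ) (hs : 2 ≤ s)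

theorem op_dq (q : Wb) (m : (MW π s hs).X) (i j : Ob) :
    (op (dqA π q) • m : (MW π s hs).X).1 i j = op (wq π q) • (show MM π from m.1 i j) := by
  refine ((tbOf (bdM π s hs)).op_smul_apply (dq π q) m.1 i j).trans ?_
  refine (Finset.sum_eq_single j ?_ ?_).trans ?_
  · intro l _ hl
    change rho π (Matrix.diagonal (fun _ => wq π q) l j) _ = 0
    rw [Matrix.diagonal_apply_ne _ hl, map_zero]
    rfl
  · intro h; exact absurd (Finset.mem_univ _) h
  · change rho π (Matrix.diagonal (fun _ => wq π q) j j) _ = _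
    rw [Matrix.diagonal_apply_eq]
    rfl

/-- `μ_q` -/
def muW (q : Wb) : (MW π s hs).X →ₗ[K] (tLW π s).X where
  toFun m := retW π s hs (op (dqA π q) • m)
  map_add' m m' := by rw [smul_add, map_add]
  map_smul' c m := by
    rw [RingHom.id_apply, ← map_smul]
    congr 1
    exact (rmul (MW π s hs).toRM (dqA π q)).map_smul c m

theorem muW_eq (q : Wb) (m : (MW π s hs).X) :
    muW π s hs q m = retW π s hs (op (dqA π q) • m) := rfl

theorem muW_apply (q : Wb) (m : (MW π s hs).X) (i j : Ob) :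
    (muW π s hs q m).1 i j = muE π q (m.1 i j) :=
  congrArg (retE π) (op_dq π s hs q m i j)

theorem cond {l : ℕ} {m : (MW π s hs).X} (h : ∀ i < 6, l ≤ i → muW π s hs (qj i) m = 0)
    (i j : Ob) (q : Wb) (hq : l ≤ ix q) : KOSM296.cM π q (show MM π from m.1 i j) = 0 := by
  refine cM_of_mu π (l := l) (fun i' h6 hl => ?_) q hq
  refine (muW_apply π s hs (qj i') m i j).symm.trans ?_
  exact congrArg (fun z : (tLW π s).X => z.1 i j) (h i' h6 hl)

theorem op_socW {j : ℕ} (hj : j < 6) {m : (MW π s hs).X}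
    (h : ∀ i < 6, j < i → muW π s hs (qj i) m = 0) :
    op (dqA π (qj j)) • m = socW π s hs (muW π s hs (qj j) m) := by
  apply Subtype.ext
  funext i k
  refine (op_dq π s hs (qj j) m i k).trans ?_
  refine Eq.trans ?_ (congrArg (socE π) (muW_apply π s hs (qj j) m i k)).symm
  refine op_eq π (qj j) fun q' h' => ?_
  rw [ix_qj hj] at h'
  exact cond π s hs (l := j + 1) (fun i' h6 hl => h i' h6 (by omega)) i k q' (by omega)

theorem nuE_E (q : Wb) {i j : Ob} {z : RL π} (hz : z ∈ E (tLT π s) i j) :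
    nuE π q z ∈ E (tbOf (bdM π s hs)) i j := by
  have h : E (tLT π s) i j ≤ (E (tbOf (bdM π s hs)) i j).comap (nuE π q) := by
    refine iSup_le fun k x hx => ?_
    refine q_le_E (tbOf (bdM π s hs)) i j (k - wC q.word) ?_
    exact (le_of_eq (q_tbOf (bdM π s hs) i j _).symm)
      (nuE_mem π s q ((le_of_eq (q_tLT π s i j k)) hx))
  exact h hz

/-- `ν_q` -/
def nuW (q : Wb) : (tLW π s).X →ₗ[K] (MW π s hs).X where
  toFun z := (⟨fun i j => nuE π q (z.1 i j), fun i j => nuE_E π s hs q (z.2 i j)⟩ :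
    Xs (tbOf (bdM π s hs)))
  map_add' z z' := by
    apply Subtype.ext
    funext i j
    exact map_add (nuE π q) _ _
  map_smul' c z := by
    apply Subtype.ext
    funext i j
    exact map_smul (nuE π q) _ _

theorem nuW_apply (q : Wb) (z : (tLW π s).X) (i j : Ob) :
    (nuW π s hs q z).1 i j = nuE π q (z.1 i j) := rfl

theorem nuW_mem (q : Wb) {k : ℤ} {z : (tLW π s).X} (hz : z ∈ (tLW π s).gr k) :
    nuW π s hs q z ∈ (MW π s hs).gr (k - wC q.word) :=
  (mem_grM (bdM π s hs)).2 fun i j => nuE_mem π s q (mem_grtL.1 hz i j)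

theorem muW_mem (q : Wb) {k : ℤ} {m : (MW π s hs).X} (hm : m ∈ (MW π s hs).gr k) :
    muW π s hs q m ∈ (tLW π s).gr (k + wC q.word) := by
  refine retW_mem ?_
  have h := (MW π s hs).smul_memR (dq_mem π q) hm
  rwa [add_comm] at h

theorem muW_nuW (q : Wb) (z : (tLW π s).X) : muW π s hs q (nuW π s hs q z) = z := by
  apply Subtype.ext
  funext i j
  exact (muW_apply π s hs q _ i j).trans (muE_nuE π q _)

theorem muW_nuW' {q q' : Wb} (h : ix q < ix q') (z : (tLW π s).X) :
    muW π s hs q' (nuW π s hs q z) = 0 := by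
  apply Subtype.ext
  funext i j
  exact (muW_apply π s hs q' _ i j).trans (muE_nuE' π h _)

end M

/-! ### window part: `L''` -/

theorem lamE_E (q : Wb) {i j : Ob} {r : R π} (hr : r ∈ (WR π).E i j) :
    lamE π q r ∈ (WL π).E i j := by
  have h : (WR π).E i j ≤ ((WL π).E i j).comap (lamE π q) := by
    refine iSup_le fun k x hx => ?_
    exact WD.q_le (w := WL π) i j (k - wC q.word) (lamE_mem π hx q)
  exact h hr

/-- `λ_q` -/
def lamW (q : Wb) : (WR π).Win →ₗ[K] (WL π).Win where
  toFun m := ⟨Matrix.of fun i j => lamE π q (m.1 i j), fun i j => lamE_E π q (m.2 i j)⟩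
  map_add' m m' := by
    apply Subtype.ext
    ext i j : 2
    exact map_add (lamE π q) _ _
  map_smul' c m := by
    apply Subtype.ext
    ext i j : 2
    exact map_smul (lamE π q) _ _

theorem lamW_apply (q : Wb) (m : (WR π).Win) (i j : Ob) :
    ((lamW π q m).1 i j : RL π) = lamE π q (m.1 i j) := rfl

/-- `ρ_q` -/
def rhoW (q : Wb) : (WL π).Win →ₗ[K] (WR π).Win :=
  (LinearMap.mulLeft K (dq π q)) ∘ₗ (inW π).toLinearMap

theorem rhoW_eq (q : Wb) (m : (WL π).Win) : rhoW π q m = dq π q * inW π m := rfl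

theorem rhoW_apply (q : Wb) (m : (WL π).Win) (i j : Ob) :
    ((rhoW π q m).1 i j : R π) = wq π q * (show RL π from m.1 i j).1 := by
  rw [rhoW_eq]
  exact dq_mul π q (inW π m) i j

theorem rhoW_mem (q : Wb) {k : ℤ} {m : (WL π).Win} (hm : m ∈ (WL π).G k) :
    rhoW π q m ∈ (WR π).G (k + wC q.word) := by
  have h := (WR π).dga.mul_mem (dq_mem π q) (inW_mem hm)
  rw [add_comm] at h
  exact h

theorem lamW_mem (q : Wb) {k : ℤ} {m : (WR π).Win} (hm : m ∈ (WR π).G k) :
    lamW π q m ∈ (WL π).G (k - wC q.word) := fun i j => lamE_mem π (hm i j) q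

theorem sum_lam (m : (WR π).Win) : m = ∑ j ∈ Finset.range 6, rhoW π (qj j) (lamW π (qj j) m) := by
  rw [sum_qj (fun q => rhoW π q (lamW π q m))]
  apply Subtype.ext
  ext i j : 2
  refine Eq.trans ?_ (C2W655.Win_sum Finset.univ (fun q => rhoW π q (lamW π q m)) i j).symm
  refine (sum_lq π (show R π from m.1 i j)).trans (Finset.sum_congr rfl fun q _ => ?_)
  refine Eq.trans ?_ (rhoW_apply π q _ i j).symm
  exact congrArg (wq π q * ·) (lamE_val π q _).symm

theorem lam_rho' (q : Wb) (m : (WL π).Win) : lamW π q (rhoW π q m) = m := by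
  apply Subtype.ext
  ext i j : 2
  refine (congrArg (lamE π q) (rhoW_apply π q m i j)).trans ?_
  rw [lamE_wq π q q le_rfl, if_pos rfl, prL_inL]

theorem D_rho (q : Wb) (m : (WL π).Win) (i j : Ob) :
    (show R π from ((WR π).DW (rhoW π q m)).1 i j) =
      wq π q * Der580.D π (show RL π from m.1 i j).1 := by
  change Der580.D π (show R π from (rhoW π q m).1 i j) = _
  rw [rhoW_apply, Der580.D_mul, WLF296.D_wq, zero_mul, zero_add]

theorem lam_d' (q : Wb) (m : (WL π).Win) : lamW π q ((WR π).DW (rhoW π q m)) = (WL π).DW m := by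
  apply Subtype.ext
  ext i j : 2
  refine (congrArg (lamE π q) (D_rho π q m i j)).trans ?_
  rw [lamE_wq π q q le_rfl, if_pos rfl]
  rfl

theorem lam_d0 {i' j' : ℕ} (hj : j' < 6) (h : i' < j') (m : (WL π).Win) :
    lamW π (qj i') ((WR π).DW (rhoW π (qj j') m)) = 0 := by
  apply Subtype.ext
  ext i j : 2
  refine (congrArg (lamE π (qj i')) (D_rho π (qj j') m i j)).trans ?_
  rw [lamE_wq π (qj j') (qj i') (lev_mono hj h), if_neg (qj_ne hj h)]
  rfl

/-! ### the structure -/

section Lay

variable (s : ℕ) (hs : 2 ≤ s) {Y : RCells (WR π).dga}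

/-- **the layers** -/
def lay (R : RRes Y (DM π s hs)) (R' : RRes (pushR (prHm π) Y) (DtL π s)) (hlo : R'.lo = R.lo)
    (hv : ∀ σ, R'.v σ = qD π s hs (R.v σ)) :
    Lay Y (MW π s hs).toLM (resL (prHm π) (tLW π s).toLM) (selfL (WR π).dga).toGC
      (selfL (WL π).dga).toGC where
  P := C1Q611.P π s hs R
  P0 := C1Q611.P0 π s R'
  r := 6
  μ j := muW π s hs (qj j)
  ν j := nuW π s hs (qj j)
  lam j := lamW π (qj j)
  rho j := rhoW π (qj j)
  c j := -(wC (qj j).word : ℤ)
  e j := (wC (qj j).word : ℤ)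
  hlo j _ := by
    change R'.lo = R.lo + _ + _
    rw [hlo, neg_add_cancel_right]
  μ_mem j _ k n hn := by
    have h := muW_mem π s hs (qj j) hn
    rw [sub_neg_eq_add]
    exact h
  ν_mem j _ k n hn := by
    have h := nuW_mem π s hs (qj j) hn
    rw [← sub_eq_add_neg]
    exact h
  zero {k n} _ h := by
    apply Subtype.ext
    funext i j
    exact KOSM296.eq_zero_of_cM π fun q =>
      cond π s hs (l := 0) (m := n) (fun i' h6 _ => h i' h6) i j q (Nat.zero_le _)
  μ_smul j hj k l a n _ _ h := by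
    have h1 := op_socW π s hs hj (m := n) h
    have h2 : op (dqA π (qj j)) • (a • n) = socW π s hs ((prHm π).f a • muW π s hs (qj j) n) := by
      rw [socW_l, ← h1]
      exact (smul_comm a (op (dqA π (qj j))) n).symm
    change muW π s hs (qj j) (a • n) = (prHm π).f a • muW π s hs (qj j) n
    rw [muW_eq, h2, retW_socW]
  μ_d j hj k n _ h := by
    have h1 := op_socW π s hs hj (m := n) h
    have h2 : op (dqA π (qj j)) • (MW π s hs).d n =
        socW π s hs ((tLW π s).d (muW π s hs (qj j) n)) := by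
      have h3 := (MW π s hs).leibR (dqA π (qj j)) n
      have h4 : (WR π).dga.D (dqA π (qj j)) = 0 := dq_D π (qj j)
      rw [h4, op_zero, zero_smul, zero_add] at h3
      rw [socW_d, ← h1]
      exact h3.symm
    change muW π s hs (qj j) ((MW π s hs).d n) = (tLW π s).d (muW π s hs (qj j) n)
    rw [muW_eq, h2, retW_socW]
  μ_ν j _ k n _ := muW_nuW π s hs (qj j) n
  μ_ν' j hj i hi h k n _ := muW_nuW' π s hs (by rw [ix_qj hj, ix_qj hi]; exact h) n
  lam_mem j _ k n hn := lamW_mem π (qj j) hn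
  rho_mem j _ k n hn := rhoW_mem π (qj j) hn
  sum {k n} _ := sum_lam π n
  lam_rho j _ k n _ := lam_rho' π (qj j) n
  lam_d j _ k n _ := lam_d' π (qj j) n
  lam_d' j hj i h k n _ := lam_d0 π hj h n
  f_rho σ j hj k l n z _ _ h := by
    have h1 := op_socW π s hs hj (m := n) h
    have h2 : op (show (WR π).dga.C from rhoW π (qj j) z) • n =
        socW π s hs (op (show (WL π).dga.C from z) • muW π s hs (qj j) n) := by
      have e1 : (show (WR π).dga.C from rhoW π (qj j) z) =
          dqA π (qj j) * (show (WR π).dga.C from inW π z) := rfl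
      have e2 : (prHm π).f (show (WR π).dga.C from inW π z) = z := prW_inW z
      rw [e1, op_mul, mul_smul, h1, ← socW_r, e2]
    change dev (MW π s hs).toLM (op (show (WR π).dga.C from rhoW π (qj j) z) • n) (R.v σ) =
      dev (tLW π s).toLM (op (show (WL π).dga.C from z) • muW π s hs (qj j) n) (R'.v σ)
    rw [h2, hv σ, qD_apply]

/-- **(c1) from (beta)** -/
theorem c1_of_beta (R : RRes Y (DM π s hs)) (R' : RRes (pushR (prHm π) Y) (DtL π s))
    (hlo : R'.lo = R.lo) (hv : ∀ σ, R'.v σ = qD π s hs (R.v σ)) (hb : C1Q611.Beta π s R') :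
    C1Q611.C1 π s hs R :=
  C1Q611.c1 π s hs R R' (lay π s hs R R' hlo hv) rfl rfl hb

end Lay

end Crest.Agent.R186.Lay989
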