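import Mathlib

/-!
Row 186 (helper113): vanishing forms of the long exact sequences of `Ext`, and realisation of
classes in `Ext^1` by short exact sequences.
-/

set_option autoImplicit false

universe w v u

open CategoryTheory CategoryTheory.Abelian CategoryTheory.Limits

namespace Crest.Agent.R186.Les113

section les

variable {C : Type u} [Category.{v} C] [Abelian C] [HasExt.{w} C]

/-- `Ext^n(X, Y) = 0` -/
abbrev EZ (X Y : C) (n : ℕ) : Prop := Subsingleton (Ext X Y n)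

theorem EZ.eq {X Y : C} {n : ℕ} (h : EZ X Y n) (x : Ext X Y n) : x = 0 := h.elim _ _

theorem EZ.mk {X Y : C} {n : ℕ} (h : ∀ x : Ext X Y n, x = 0) : EZ X Y n :=
  ⟨fun a b => by rw [h a, h b]⟩

theorem ez0_iff {X Y : C} : EZ X Y 0 ↔ ∀ f : X ⟶ Y, f = 0 := by
  constructor
  · intro h f
    have := h.eq (Ext.mk₀ f)
    exact Ext.mk₀_eq_zero_iff f |>.1 this
  · intro h
    refine EZ.mk fun x => ?_
    obtain ⟨f, rfl⟩ := (Ext.mk₀_bijective X Y).2 x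
    rw [h f, Ext.mk₀_zero]

variable {S : ShortComplex C}

theorem z2 (hS : S.ShortExact) {X : C} {n : ℕ} (h1 : EZ X S.X₁ n) (h3 : EZ X S.X₃ n) :
    EZ X S.X₂ n := by
  refine EZ.mk fun x => ?_
  obtain ⟨y, rfl⟩ := Ext.covariant_sequence_exact₂ X hS x (h3.eq _)
  rw [h1.eq y, Ext.zero_comp]

theorem z1 (hS : S.ShortExact) {X : C} {n : ℕ} (h3 : EZ X S.X₃ n) (h2 : EZ X S.X₂ (n + 1)) :
    EZ X S.X₁ (n + 1) := by
  refine EZ.mk fun x => ?_
  obtain ⟨y, rfl⟩ := Ext.covariant_sequence_exact₁ X hS x (h2.eq _) rfl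
  rw [h3.eq y, Ext.zero_comp]

theorem z10 (hS : S.ShortExact) {X : C} (h2 : EZ X S.X₂ 0) : EZ X S.X₁ 0 := by
  have := hS.mono_f
  rw [ez0_iff] at h2 ⊢
  intro f
  rw [← cancel_mono S.f, h2 (f ≫ S.f), zero_comp]

theorem z3 (hS : S.ShortExact) {X : C} {n : ℕ} (h2 : EZ X S.X₂ n) (h1 : EZ X S.X₁ (n + 1)) :
    EZ X S.X₃ n := by
  refine EZ.mk fun x => ?_
  obtain ⟨y, rfl⟩ := Ext.covariant_sequence_exact₃ X hS x rfl (h1.eq _)
  rw [h2.eq y, Ext.zero_comp]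

theorem y2 (hS : S.ShortExact) {Y : C} {n : ℕ} (h1 : EZ S.X₁ Y n) (h3 : EZ S.X₃ Y n) :
    EZ S.X₂ Y n := by
  refine EZ.mk fun x => ?_
  obtain ⟨y, rfl⟩ := Ext.contravariant_sequence_exact₂ hS Y x (h1.eq _)
  rw [h3.eq y, Ext.comp_zero]

theorem y3 (hS : S.ShortExact) {Y : C} {n : ℕ} (h1 : EZ S.X₁ Y n) (h2 : EZ S.X₂ Y (n + 1)) :
    EZ S.X₃ Y (n + 1) := by
  refine EZ.mk fun x => ?_
  obtain ⟨y, rfl⟩ := Ext.contravariant_sequence_exact₃ hS Y x (h2.eq _) (add_comm 1 n)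
  rw [h1.eq y, Ext.comp_zero]

theorem y30 (hS : S.ShortExact) {Y : C} (h2 : EZ S.X₂ Y 0) : EZ S.X₃ Y 0 := by
  have := hS.epi_g
  rw [ez0_iff] at h2 ⊢
  intro f
  rw [← cancel_epi S.g, h2 (S.g ≫ f), comp_zero]

theorem y1 (hS : S.ShortExact) {Y : C} {n : ℕ} (h2 : EZ S.X₂ Y n) (h3 : EZ S.X₃ Y (n + 1)) :
    EZ S.X₁ Y n := by
  refine EZ.mk fun x => ?_
  obtain ⟨y, rfl⟩ := Ext.contravariant_sequence_exact₁ hS Y x (add_comm 1 n) (h3.eq _)
  rw [h2.eq y, Ext.comp_zero]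

/-- transport along isomorphisms -/
theorem ez_iso_left {X X' Y : C} (e : X ≅ X') {n : ℕ} (h : EZ X Y n) : EZ X' Y n := by
  refine EZ.mk fun x => ?_
  have h1 : (Ext.mk₀ e.inv).comp ((Ext.mk₀ e.hom).comp x (zero_add n)) (zero_add n) = x := by
    rw [Ext.mk₀_comp_mk₀_assoc, e.inv_hom_id, Ext.mk₀_id_comp]
  rw [← h1, h.eq ((Ext.mk₀ e.hom).comp x (zero_add n)), Ext.comp_zero]

theorem ez_iso_right {X Y Y' : C} (f : Y ≅ Y') {n : ℕ} (h : EZ X Y n) : EZ X Y' n := by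
  refine EZ.mk fun x => ?_
  have h1 : (x.comp (Ext.mk₀ f.inv) (add_zero n)).comp (Ext.mk₀ f.hom) (add_zero n) = x := by
    rw [Ext.comp_assoc_of_third_deg_zero, Ext.mk₀_comp_mk₀, f.inv_hom_id, Ext.comp_mk₀_id]
  rw [← h1, h.eq (x.comp (Ext.mk₀ f.inv) (add_zero n)), Ext.zero_comp]

theorem ez_iso {X X' Y Y' : C} (e : X ≅ X') (f : Y ≅ Y') {n : ℕ} (h : EZ X Y n) :
    EZ X' Y' n := ez_iso_left e (ez_iso_right f h)

theorem ez_inj {X Y : C} [Injective Y] (n : ℕ) : EZ X Y (n + 1) :=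
  EZ.mk fun x => by
    haveI := Ext.subsingleton_of_injective X Y n
    exact Subsingleton.elim _ _

theorem ez_proj {X Y : C} [Projective X] (n : ℕ) : EZ X Y (n + 1) :=
  EZ.mk fun x => by
    haveI := Ext.subsingleton_of_projective X Y n
    exact Subsingleton.elim _ _

end les

end Crest.Agent.R186.Les113
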