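import Crest.Agent.R186.Cell_580
import Crest.Agent.R186.ExtRes_700
import Crest.Agent.R186.Coind_328

/-!
Row 186, S0281, block LINK (helper328): the `A`-level block of `LinkK_721`.

* `XX` : the module `X₀ = {(x, y) ∈ I₁ × J | d₁ x = t y}`; exact `0 → V → I₀ → X₀ → U₁ → 0`,
  `U₁ = ker (d₂ ∘ t)`, and `Ext^*(V', X₀) = 0`, `Ext^*(X₀, W) = 0`;
* `YY` : the module `Y₁ = (P₁ × Y) / P₂`; exact `0 → Y / λ P₃ → Y₁ → P₀ → W → 0`, and
  `Ext^*(V', Y₁) = 0`, `Ext^*(Y₁, W) = 0`.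
-/

set_option autoImplicit false
set_option linter.unusedSectionVars false
set_option linter.style.haveILetI false

universe u

open CategoryTheory CategoryTheory.Abelian

namespace Crest.Agent.R186.LinkA328

open ExtRes700

variable {A : Type u} [Ring A]

/-! ### two-term lemmas -/

section two

variable {X Y Z : Type u} [AddCommGroup X] [Module A X] [AddCommGroup Y] [Module A Y]
  [AddCommGroup Z] [Module A Z] (f : X →ₗ[A] Y) (g : Y →ₗ[A] Z)
  (hf : Function.Injective f) (hg : Function.Surjective g) (he : Function.Exact f g)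

include hf hg he

/-- `0 → X → Y → Z → 0` with `Ext^{>0}(N, Y) = 0 = Ext^{>0}(N, Z)` and `Hom(N, Y) ≃ Hom(N, Z)` -/
theorem ker_left {N : Type u} [AddCommGroup N] [Module A N]
    (hY : ∀ j, 0 < j → E0 A N Y j) (hZ : ∀ j, 0 < j → E0 A N Z j)
    (hi : ∀ φ : N →ₗ[A] Y, g ∘ₗ φ = 0 → φ = 0)
    (hs : ∀ φ : N →ₗ[A] Z, ∃ ψ : N →ₗ[A] Y, g ∘ₗ ψ = φ) (j : ℕ) : E0 A N X j := by
  rcases j with _ | _ | j
  · rw [zero_iff]
    intro φ
    have h1 : f ∘ₗ φ = 0 := by
      apply hi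
      rw [← LinearMap.comp_assoc, he.linearMap_comp_eq_zero, LinearMap.zero_comp]
    ext x
    apply hf
    rw [LinearMap.zero_apply, map_zero]
    exact LinearMap.congr_fun h1 x
  · exact (Coind328.ses_one f g hf hg he (hY 1 one_pos)).2 hs
  · exact cleft f g hf hg he (j + 1) (hZ _ (by omega)) (hY _ (by omega))

/-- `0 → X → Y → Z → 0` with `Ext^{>0}(Y, N) = 0 = Ext^{>0}(X, N)` and `Hom(Y, N) ≃ Hom(X, N)` -/
theorem coker_right {N : Type u} [AddCommGroup N] [Module A N]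
    (hY : ∀ j, 0 < j → E0 A Y N j) (hX : ∀ j, 0 < j → E0 A X N j)
    (hi : ∀ φ : Y →ₗ[A] N, φ ∘ₗ f = 0 → φ = 0)
    (hs : ∀ φ : X →ₗ[A] N, ∃ ψ : Y →ₗ[A] N, ψ ∘ₗ f = φ) (j : ℕ) : E0 A Z N j := by
  rcases j with _ | _ | j
  · rw [zero_iff]
    intro φ
    have h1 : φ ∘ₗ g = 0 := by
      apply hi
      rw [LinearMap.comp_assoc, he.linearMap_comp_eq_zero, LinearMap.comp_zero]
    ext x
    obtain ⟨y, rfl⟩ := hg x
    exact LinearMap.congr_fun h1 y
  · exact Cell580.ev_one he hf hg (hY 1 one_pos) hs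
  · exact right f g hf hg he (j + 1) (hX _ (by omega)) (hY _ (by omega))

/-- all three-term vanishing in the second variable, left term from the two others -/
theorem left_of {N : Type u} [AddCommGroup N] [Module A N]
    (hY : ∀ j, E0 A Y N j) (hZ : ∀ j, E0 A Z N j) (j : ℕ) : E0 A X N j :=
  left f g hf hg he j (hY j) (hZ (j + 1))

theorem right_of {N : Type u} [AddCommGroup N] [Module A N]
    (hX : ∀ j, E0 A X N j) (hY : ∀ j, E0 A Y N j) (j : ℕ) : E0 A Z N j := by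
  rcases j with _ | j
  · exact right0 g hg (hY 0)
  · exact right f g hf hg he j (hX j) (hY (j + 1))

theorem cright_of {N : Type u} [AddCommGroup N] [Module A N]
    (hX : ∀ j, E0 A N X j) (hY : ∀ j, E0 A N Y j) (j : ℕ) : E0 A N Z j :=
  cright f g hf hg he j (hY j) (hX (j + 1))

theorem cleft_of {N : Type u} [AddCommGroup N] [Module A N]
    (hY : ∀ j, E0 A N Y j) (hZ : ∀ j, E0 A N Z j) (j : ℕ) : E0 A N X j := by
  rcases j with _ | j
  · exact cleft0 f hf (hY 0)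
  · exact cleft f g hf hg he j (hZ j) (hY (j + 1))

end two

/-! ### `X₀` -/

section X0

variable {V I0 I1 I2 I3 J : Type u} [AddCommGroup V] [Module A V] [AddCommGroup I0] [Module A I0]
  [AddCommGroup I1] [Module A I1] [AddCommGroup I2] [Module A I2] [AddCommGroup I3] [Module A I3]
  [AddCommGroup J] [Module A J]
  (η : V →ₗ[A] I0) (d0 : I0 →ₗ[A] I1) (d1 : I1 →ₗ[A] I2) (d2 : I2 →ₗ[A] I3) (t : J →ₗ[A] I2)

/-- `{(x, y) | d₁ x = t y}` -/
def XX : Submodule A (I1 × J) where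
  carrier := {z | d1 z.1 = t z.2}
  zero_mem' := by simp
  add_mem' := fun {a b} ha hb => by
    simp only [Set.mem_setOf_eq, Prod.fst_add, Prod.snd_add, map_add] at *
    rw [ha, hb]
  smul_mem' := fun c a ha => by
    simp only [Set.mem_setOf_eq, Prod.smul_fst, Prod.smul_snd, map_smul] at *
    rw [ha]

/-- `I₁ × J → I₂` -/
def xq : I1 × J →ₗ[A] I2 := d1 ∘ₗ LinearMap.fst A I1 J - t ∘ₗ LinearMap.snd A I1 J

@[simp] theorem xq_apply (z : I1 × J) : xq d1 t z = d1 z.1 - t z.2 := rfl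

theorem xx_exact : Function.Exact (XX d1 t).subtype (xq d1 t) := by
  intro z
  rw [xq_apply, sub_eq_zero]
  constructor
  · intro h
    exact ⟨⟨z, h⟩, rfl⟩
  · rintro ⟨y, rfl⟩
    exact y.2

theorem xq_surj (h12 : Function.Exact d1 d2) (hr : Function.Surjective (d2 ∘ₗ t)) :
    Function.Surjective (xq d1 t) := by
  intro z
  obtain ⟨y, hy⟩ := hr (d2 z)
  have h1 : d2 (z - t y) = 0 := by
    rw [map_sub, sub_eq_zero]
    exact hy.symm
  obtain ⟨x, hx⟩ := (h12 _).1 h1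
  refine ⟨(x, -y), ?_⟩
  rw [xq_apply, hx, map_neg, sub_neg_eq_add, sub_add_cancel]

/-- `I₀ → X₀` -/
def xa (h01 : Function.Exact d0 d1) : I0 →ₗ[A] XX d1 t where
  toFun z := ⟨(d0 z, 0), by
    change d1 (d0 z) = t 0
    rw [map_zero]
    exact h01.apply_apply_eq_zero z⟩
  map_add' a b := by
    apply Subtype.ext
    apply Prod.ext
    · exact map_add d0 a b
    · exact (add_zero (0 : J)).symm
  map_smul' c a := by
    apply Subtype.ext
    apply Prod.ext
    · exact map_smul d0 c a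
    · exact (smul_zero c).symm

@[simp] theorem xa_fst (h01 : Function.Exact d0 d1) (z : I0) :
    (xa d0 d1 t h01 z).1.1 = d0 z := rfl
@[simp] theorem xa_snd (h01 : Function.Exact d0 d1) (z : I0) :
    (xa d0 d1 t h01 z).1.2 = 0 := rfl

/-- `X₀ → J` -/
def xb : XX d1 t →ₗ[A] J := LinearMap.snd A I1 J ∘ₗ (XX d1 t).subtype

@[simp] theorem xb_apply (z : XX d1 t) : xb d1 t z = z.1.2 := rfl

/-- exactness at `I₀` -/
theorem xa_exact (h : Function.Exact η d0) (h01 : Function.Exact d0 d1) :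
    Function.Exact η (xa d0 d1 t h01) := by
  intro z
  rw [← h z]
  constructor
  · intro e
    exact congrArg (fun w => w.1.1) e
  · intro e
    apply Subtype.ext
    apply Prod.ext
    · exact e
    · rfl

/-- exactness at `X₀` -/
theorem xb_exact (h01 : Function.Exact d0 d1) :
    Function.Exact (xa d0 d1 t h01) (xb d1 t) := by
  intro z
  constructor
  · intro e
    have h1 : d1 z.1.1 = 0 := by
      rw [z.2]
      change t (xb d1 t z) = 0
      rw [e, map_zero]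
    obtain ⟨y, hy⟩ := (h01 _).1 h1
    refine ⟨y, ?_⟩
    apply Subtype.ext
    apply Prod.ext
    · exact hy
    · exact e.symm
  · rintro ⟨y, rfl⟩
    rfl

/-- the range of `X₀ → J` is `U₁` -/
theorem xb_range (h12 : Function.Exact d1 d2) (y : J) :
    (∃ z, xb d1 t z = y) ↔ d2 (t y) = 0 := by
  constructor
  · rintro ⟨z, rfl⟩
    rw [xb_apply, ← z.2]
    exact h12.apply_apply_eq_zero _
  · intro h
    obtain ⟨x, hx⟩ := (h12 _).1 h
    exact ⟨⟨(x, y), hx⟩, rfl⟩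

/-- **(V1)** `Ext^*(N, X₀) = 0`. -/
theorem xx_left (h12 : Function.Exact d1 d2) (hr : Function.Surjective (d2 ∘ₗ t))
    {N : Type u} [AddCommGroup N] [Module A N]
    (h1 : ∀ j, 0 < j → E0 A N I1 j) (h2 : ∀ j, 0 < j → E0 A N I2 j) (hJ : ∀ j, E0 A N J j)
    (hi : ∀ φ : N →ₗ[A] I1, d1 ∘ₗ φ = 0 → φ = 0)
    (hs : ∀ φ : N →ₗ[A] I2, ∃ ψ : N →ₗ[A] I1, d1 ∘ₗ ψ = φ) (j : ℕ) : E0 A N (XX d1 t) j := by
  refine ker_left (XX d1 t).subtype (xq d1 t) (Submodule.injective_subtype _)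
    (xq_surj d1 d2 t h12 hr) (xx_exact d1 t)
    (fun j hj => prod_right j (h1 j hj) (hJ j)) h2 ?_ ?_ j
  · intro φ hφ
    have h3 : LinearMap.snd A I1 J ∘ₗ φ = 0 := zero_iff.1 (hJ 0) _
    have h4 : d1 ∘ₗ (LinearMap.fst A I1 J ∘ₗ φ) = 0 := by
      ext x
      have h5 := LinearMap.congr_fun hφ x
      rw [LinearMap.comp_apply, xq_apply, LinearMap.zero_apply] at h5
      have h6 : (φ x).2 = 0 := LinearMap.congr_fun h3 x
      rw [h6, map_zero, sub_zero] at h5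
      exact h5
    have h5 := hi _ h4
    ext x
    · exact LinearMap.congr_fun h5 x
    · exact LinearMap.congr_fun h3 x
  · intro φ
    obtain ⟨ψ, hψ⟩ := hs φ
    refine ⟨LinearMap.inl A I1 J ∘ₗ ψ, ?_⟩
    ext x
    have h5 := LinearMap.congr_fun hψ x
    rw [LinearMap.comp_apply, xq_apply]
    change d1 (ψ x) - t 0 = φ x
    rw [map_zero, sub_zero]
    exact h5

/-- **(V3)** `Ext^*(X₀, N) = 0`. -/
theorem xx_right (h12 : Function.Exact d1 d2) (hr : Function.Surjective (d2 ∘ₗ t))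
    {N : Type u} [AddCommGroup N] [Module A N]
    (h1 : ∀ j, E0 A I1 N j) (h2 : ∀ j, E0 A I2 N j) (hJ : ∀ j, E0 A J N j) (j : ℕ) :
    E0 A (XX d1 t) N j :=
  left_of (XX d1 t).subtype (xq d1 t) (Submodule.injective_subtype _)
    (xq_surj d1 d2 t h12 hr) (xx_exact d1 t) (fun j => prod_left j (h1 j) (hJ j)) h2 j

end X0

/-! ### `Y₁` -/

section Y1

variable {W P0 P1 P2 P3 Y : Type u} [AddCommGroup W] [Module A W] [AddCommGroup P0] [Module A P0]
  [AddCommGroup P1] [Module A P1] [AddCommGroup P2] [Module A P2] [AddCommGroup P3] [Module A P3]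
  [AddCommGroup Y] [Module A Y]
  (d3 : P3 →ₗ[A] P2) (d2 : P2 →ₗ[A] P1) (d1 : P1 →ₗ[A] P0) (ε : P0 →ₗ[A] W) (t : P2 →ₗ[A] Y)

/-- `P₂ → P₁ × Y` -/
def yq : P2 →ₗ[A] P1 × Y := d2.prod (-t)

@[simp] theorem yq_apply (x : P2) : yq d2 t x = (d2 x, -t x) := rfl

/-- `(P₁ × Y) / P₂` -/
abbrev YY : Type u := (P1 × Y) ⧸ LinearMap.range (yq d2 t)

theorem yq_inj (h32 : Function.Exact d3 d2) (hl : Function.Injective (t ∘ₗ d3)) :
    Function.Injective (yq d2 t) := by
  rw [injective_iff_map_eq_zero]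
  intro x hx
  rw [yq_apply] at hx
  have h1 : d2 x = 0 := congrArg Prod.fst hx
  have h2 : t x = 0 := neg_eq_zero.1 (congrArg Prod.snd hx)
  obtain ⟨z, rfl⟩ := (h32 _).1 h1
  have h3 : z = 0 := (injective_iff_map_eq_zero _).1 hl z h2
  rw [h3, map_zero]

theorem yq_exact : Function.Exact (yq d2 t) (LinearMap.range (yq d2 t)).mkQ := by
  intro x
  rw [Submodule.mkQ_apply, Submodule.Quotient.mk_eq_zero]
  rfl

/-- `Y → Y₁` -/
def ya : Y →ₗ[A] YY d2 t := (LinearMap.range (yq d2 t)).mkQ ∘ₗ LinearMap.inr A P1 Y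

theorem ya_apply (y : Y) : ya d2 t y = Submodule.Quotient.mk (0, y) := rfl

/-- the kernel of `Y → Y₁` is the range of `λ = t ∘ d₃` -/
theorem ya_ker (h32 : Function.Exact d3 d2) (y : Y) :
    ya d2 t y = 0 ↔ ∃ x, t (d3 x) = y := by
  rw [ya_apply, Submodule.Quotient.mk_eq_zero]
  constructor
  · rintro ⟨z, hz⟩
    rw [yq_apply] at hz
    have h1 : d2 z = 0 := congrArg Prod.fst hz
    have h2 : -t z = y := congrArg Prod.snd hz
    obtain ⟨x, rfl⟩ := (h32 _).1 h1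
    exact ⟨-x, by rw [map_neg, map_neg]; exact h2⟩
  · rintro ⟨x, rfl⟩
    refine ⟨-(d3 x), ?_⟩
    rw [yq_apply]
    apply Prod.ext
    · change d2 (-(d3 x)) = 0
      rw [map_neg, h32.apply_apply_eq_zero, neg_zero]
    · change -t (-(d3 x)) = t (d3 x)
      rw [map_neg, neg_neg]

/-- `Y₁ → P₀` -/
def yb (h21 : Function.Exact d2 d1) : YY d2 t →ₗ[A] P0 :=
  (LinearMap.range (yq d2 t)).liftQ (d1 ∘ₗ LinearMap.fst A P1 Y) (by
    rintro _ ⟨x, rfl⟩
    exact h21.apply_apply_eq_zero x)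

theorem yb_apply (h21 : Function.Exact d2 d1) (z : P1 × Y) :
    yb d2 d1 t h21 (Submodule.Quotient.mk z) = d1 z.1 := rfl

/-- exactness at `Y₁` -/
theorem yb_exact (h21 : Function.Exact d2 d1) :
    Function.Exact (ya d2 t) (yb d2 d1 t h21) := by
  intro z
  obtain ⟨z, rfl⟩ := Submodule.mkQ_surjective _ z
  constructor
  · intro h
    have h1 : d1 z.1 = 0 := h
    obtain ⟨x, hx⟩ := (h21 _).1 h1
    refine ⟨z.2 + t x, ?_⟩
    rw [ya_apply, Submodule.mkQ_apply, Submodule.Quotient.eq]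
    refine ⟨-x, ?_⟩
    rw [yq_apply]
    apply Prod.ext
    · change d2 (-x) = 0 - z.1
      rw [map_neg, hx, zero_sub]
    · change -t (-x) = (z.2 + t x) - z.2
      rw [map_neg, neg_neg, add_sub_cancel_left]
  · rintro ⟨y, hy⟩
    rw [← hy]
    change d1 (0 : P1) = 0
    exact map_zero d1

/-- exactness at `P₀` -/
theorem ye_exact (h21 : Function.Exact d2 d1) (h10 : Function.Exact d1 ε) :
    Function.Exact (yb d2 d1 t h21) ε := by
  intro z
  rw [h10 z]
  constructor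
  · rintro ⟨x, rfl⟩
    exact ⟨Submodule.Quotient.mk (x, 0), rfl⟩
  · rintro ⟨w, rfl⟩
    obtain ⟨w, rfl⟩ := Submodule.mkQ_surjective _ w
    exact ⟨w.1, rfl⟩

/-- **(V2)** `Ext^*(N, Y₁) = 0`. -/
theorem yy_left (h32 : Function.Exact d3 d2) (hl : Function.Injective (t ∘ₗ d3))
    {N : Type u} [AddCommGroup N] [Module A N]
    (h1 : ∀ j, E0 A N P1 j) (h2 : ∀ j, E0 A N P2 j) (hY : ∀ j, E0 A N Y j) (j : ℕ) :
    E0 A N (YY d2 t) j :=
  cright_of (yq d2 t) (LinearMap.range (yq d2 t)).mkQ (yq_inj d3 d2 t h32 hl)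
    (Submodule.mkQ_surjective _) (yq_exact d2 t) h2 (fun j => prod_right j (h1 j) (hY j)) j

/-- **(V4)** `Ext^*(Y₁, N) = 0`. -/
theorem yy_right (h32 : Function.Exact d3 d2) (hl : Function.Injective (t ∘ₗ d3))
    {N : Type u} [AddCommGroup N] [Module A N]
    (h1 : ∀ j, 0 < j → E0 A P1 N j) (h2 : ∀ j, 0 < j → E0 A P2 N j) (hY : ∀ j, E0 A Y N j)
    (hi : ∀ φ : P1 →ₗ[A] N, φ ∘ₗ d2 = 0 → φ = 0)
    (hs : ∀ φ : P2 →ₗ[A] N, ∃ ψ : P1 →ₗ[A] N, ψ ∘ₗ d2 = φ) (j : ℕ) :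
    E0 A (YY d2 t) N j := by
  refine coker_right (yq d2 t) (LinearMap.range (yq d2 t)).mkQ (yq_inj d3 d2 t h32 hl)
    (Submodule.mkQ_surjective _) (yq_exact d2 t)
    (fun j hj => prod_left j (h1 j hj) (hY j)) h2 ?_ ?_ j
  · intro φ hφ
    have h3 : φ ∘ₗ LinearMap.inr A P1 Y = 0 := zero_iff.1 (hY 0) _
    have h4 : (φ ∘ₗ LinearMap.inl A P1 Y) ∘ₗ d2 = 0 := by
      ext x
      have h5 := LinearMap.congr_fun hφ x
      have h6 : φ (0, t x) = 0 := LinearMap.congr_fun h3 (t x)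
      rw [LinearMap.comp_apply, yq_apply, LinearMap.zero_apply] at h5
      have h7 : ((d2 x, -t x) : P1 × Y) = (d2 x, 0) - (0, t x) := by
        apply Prod.ext
        · exact (sub_zero _).symm
        · exact (zero_sub _).symm
      rw [h7, map_sub, h6, sub_zero] at h5
      exact h5
    have h5 := hi _ h4
    ext x
    · exact LinearMap.congr_fun h5 x
    · exact LinearMap.congr_fun h3 x
  · intro φ
    obtain ⟨ψ, hψ⟩ := hs φ
    refine ⟨ψ ∘ₗ LinearMap.fst A P1 Y, ?_⟩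
    ext x
    exact LinearMap.congr_fun hψ x

end Y1

end Crest.Agent.R186.LinkA328
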