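import Crest.Agent.R186.Syz_700
import Crest.Agent.R186.ExtRes_700

/-!
Row 186, S0281, block LINK (helper721), part 1: the algebra `Gam = A ⋉ K`,
`K = {f : J →ₗ[k] Y | f U ⊆ P}`, its modules `GM`, and the coinduction lemma.
-/

set_option autoImplicit false
set_option linter.unusedSectionVars false
set_option linter.style.haveILetI false

universe u

open CategoryTheory CategoryTheory.Abelian

namespace Crest.Agent.R186.LinkK721

open ExtRes700

/-! ### the bimodule -/

section KK

variable (k : Type u) [Field k] {A : Type u} [Ring A] [Algebra k A]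
  {J Y : Type u} [AddCommGroup J] [Module k J] [Module A J] [IsScalarTower k A J]
  [AddCommGroup Y] [Module k Y] [Module A Y] [IsScalarTower k A Y]
  (U : Submodule A J) (P : Submodule A Y)

/-- `{f : J →ₗ[k] Y | f U ⊆ P}` -/
def KK : Submodule k (J →ₗ[k] Y) where
  carrier := {f | ∀ u ∈ U, f u ∈ P}
  zero_mem' := fun _ _ => by simp
  add_mem' := fun {f g} hf hg u hu => by
    rw [LinearMap.add_apply]
    exact P.add_mem (hf u hu) (hg u hu)
  smul_mem' := fun c f hf u hu => by
    rw [LinearMap.smul_apply]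
    exact P.smul_of_tower_mem c (hf u hu)

variable {k} {U P}

/-- left multiplication -/
def lK (a : A) (f : KK k U P) : KK k U P :=
  ⟨(Algebra.lsmul k k Y a) ∘ₗ f.1, fun u hu => P.smul_mem a (f.2 u hu)⟩

/-- right multiplication -/
def rK (f : KK k U P) (a : A) : KK k U P :=
  ⟨f.1 ∘ₗ (Algebra.lsmul k k J a), fun u hu => f.2 _ (U.smul_mem a hu)⟩

@[simp] theorem lK_apply (a : A) (f : KK k U P) (x : J) : (lK a f).1 x = a • f.1 x := rfl

@[simp] theorem rK_apply (a : A) (f : KK k U P) (x : J) : (rK f a).1 x = f.1 (a • x) := rfl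

variable (k A U P)

/-- `A ⋉ K` -/
def Gam : Type u := A × KK k U P

variable {k A U P}

instance : AddCommGroup (Gam k A U P) := inferInstanceAs (AddCommGroup (A × KK k U P))

instance : Module k (Gam k A U P) := inferInstanceAs (Module k (A × KK k U P))

theorem Gam.ext {x y : Gam k A U P} (h1 : x.1 = y.1) (h2 : ∀ j, x.2.1 j = y.2.1 j) : x = y :=
  Prod.ext h1 (Subtype.ext (LinearMap.ext h2))

instance : One (Gam k A U P) := ⟨(1, 0)⟩

instance : Mul (Gam k A U P) := ⟨fun x y => (x.1 * y.1, lK x.1 y.2 + rK x.2 y.1)⟩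

theorem mul_fst (x y : Gam k A U P) : (x * y).1 = x.1 * y.1 := rfl

theorem mul_snd (x y : Gam k A U P) : (x * y).2 = lK x.1 y.2 + rK x.2 y.1 := rfl

theorem mul_snd_apply (x y : Gam k A U P) (j : J) :
    (x * y).2.1 j = x.1 • y.2.1 j + x.2.1 (y.1 • j) := rfl

theorem one_fst : (1 : Gam k A U P).1 = 1 := rfl

theorem one_snd_apply (j : J) : (1 : Gam k A U P).2.1 j = 0 := rfl

theorem add_fst (x y : Gam k A U P) : (x + y).1 = x.1 + y.1 := rfl

theorem add_snd_apply (x y : Gam k A U P) (j : J) : (x + y).2.1 j = x.2.1 j + y.2.1 j := rfl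

theorem zero_fst : (0 : Gam k A U P).1 = 0 := rfl

theorem zero_snd_apply (j : J) : (0 : Gam k A U P).2.1 j = 0 := rfl

theorem smul_fst (c : k) (x : Gam k A U P) : (c • x).1 = c • x.1 := rfl

theorem smul_snd_apply (c : k) (x : Gam k A U P) (j : J) : (c • x).2.1 j = c • x.2.1 j := rfl

instance : Ring (Gam k A U P) :=
  { (inferInstance : AddCommGroup (Gam k A U P)) with
    one := 1
    mul := (· * ·)
    mul_assoc := fun x y z => by
      refine Gam.ext (mul_assoc _ _ _) fun j => ?_
      simp only [mul_snd_apply, mul_fst, smul_add, mul_smul, add_assoc]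
    one_mul := fun x => by
      refine Gam.ext (one_mul _) fun j => ?_
      simp only [mul_snd_apply, one_fst, one_snd_apply, one_smul, add_zero]
    mul_one := fun x => by
      refine Gam.ext (mul_one _) fun j => ?_
      simp only [mul_snd_apply, one_fst, one_snd_apply, one_smul, smul_zero, zero_add]
    left_distrib := fun x y z => by
      refine Gam.ext (mul_add _ _ _) fun j => ?_
      simp only [mul_snd_apply, add_fst, add_snd_apply, smul_add, add_smul, map_add]
      abel
    right_distrib := fun x y z => by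
      refine Gam.ext (add_mul _ _ _) fun j => ?_
      simp only [mul_snd_apply, add_fst, add_snd_apply, smul_add, add_smul]
      abel
    zero_mul := fun x => by
      refine Gam.ext (zero_mul _) fun j => ?_
      simp only [mul_snd_apply, zero_fst, zero_snd_apply, zero_smul, add_zero]
    mul_zero := fun x => by
      refine Gam.ext (mul_zero _) fun j => ?_
      simp only [mul_snd_apply, zero_fst, zero_snd_apply, zero_smul, smul_zero, map_zero,
        add_zero] }

instance : Algebra k (Gam k A U P) :=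
  Algebra.ofModule
    (fun c x y => by
      refine Gam.ext (smul_mul_assoc _ _ _) fun j => ?_
      simp only [mul_snd_apply, smul_snd_apply, smul_fst, smul_add, smul_assoc])
    (fun c x y => by
      refine Gam.ext (mul_smul_comm _ _ _) fun j => ?_
      show x.1 • (c • y.2.1 j) + x.2.1 ((c • y.1) • j) =
        c • (x.1 • y.2.1 j + x.2.1 (y.1 • j))
      rw [smul_add, smul_assoc c y.1 j, map_smul, smul_algebra_smul_comm])

/-- the inclusion `A → Gam` -/
def inc : A →ₐ[k] Gam k A U P where
  toFun a := (a, 0)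
  map_one' := rfl
  map_mul' a b := by
    refine Gam.ext rfl fun j => ?_
    simp only [mul_snd_apply]
    show (0 : Y) = a • (0 : Y) + 0
    simp
  map_zero' := rfl
  map_add' a b := by
    refine Gam.ext rfl fun j => ?_
    show (0 : Y) = 0 + 0
    simp
  commutes' c := by
    refine Gam.ext ?_ fun j => ?_
    · show algebraMap k A c = (c • (1 : Gam k A U P)).1
      rw [smul_fst, one_fst, Algebra.algebraMap_eq_smul_one]
    · show (0 : Y) = (c • (1 : Gam k A U P)).2.1 j
      rw [smul_snd_apply, one_snd_apply, smul_zero]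

/-- the projection `Gam → A` -/
def prj : Gam k A U P →ₐ[k] A where
  toFun x := x.1
  map_one' := rfl
  map_mul' _ _ := rfl
  map_zero' := rfl
  map_add' _ _ := rfl
  commutes' c := by
    show (c • (1 : Gam k A U P)).1 = algebraMap k A c
    rw [smul_fst, one_fst, Algebra.algebraMap_eq_smul_one]

/-- the element `(0, f)` -/
def el (f : KK k U P) : Gam k A U P := (0, f)

theorem inc_fst (a : A) : (inc a : Gam k A U P).1 = a := rfl

theorem inc_snd (a : A) : (inc a : Gam k A U P).2 = 0 := rfl

theorem el_fst (f : KK k U P) : (el f : Gam k A U P).1 = 0 := rfl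

theorem el_snd (f : KK k U P) : (el f : Gam k A U P).2 = f := rfl

theorem inc_mul_el (a : A) (f : KK k U P) : inc a * el f = (el (lK a f) : Gam k A U P) := by
  refine Gam.ext (mul_zero _) fun j => ?_
  rw [mul_snd_apply, el_snd, inc_fst, inc_snd, el_fst, zero_smul, map_zero, add_zero]
  rfl

theorem el_mul_inc (a : A) (f : KK k U P) : el f * inc a = (el (rK f a) : Gam k A U P) := by
  refine Gam.ext (zero_mul _) fun j => ?_
  rw [mul_snd_apply, el_snd, inc_fst, inc_snd, el_fst, zero_smul, zero_add]
  rfl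

theorem el_add (f g : KK k U P) : (el (f + g) : Gam k A U P) = el f + el g :=
  Gam.ext (add_zero _).symm fun _ => rfl

theorem inc_add_el (x : Gam k A U P) : x = inc x.1 + el x.2 :=
  Gam.ext (add_zero _).symm fun j => by
    rw [add_snd_apply, inc_snd, el_snd]
    exact (zero_add _).symm

/-! ### modules over `Gam` -/

/-- an action of `K` from `X₁` to `X₂` -/
structure Act (k : Type u) [Field k] {A : Type u} [Ring A] [Algebra k A]
    {J Y : Type u} [AddCommGroup J] [Module k J] [Module A J] [IsScalarTower k A J]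
    [AddCommGroup Y] [Module k Y] [Module A Y] [IsScalarTower k A Y]
    (U : Submodule A J) (P : Submodule A Y) (X₁ X₂ : Type u) [AddCommGroup X₁] [Module A X₁]
    [AddCommGroup X₂] [Module A X₂] where
  t : KK k U P →+ X₁ →+ X₂
  hl : ∀ (a : A) (f : KK k U P) (x : X₁), t (lK a f) x = a • t f x
  hr : ∀ (a : A) (f : KK k U P) (x : X₁), t (rK f a) x = t f (a • x)

variable {X₁ X₂ : Type u} [AddCommGroup X₁] [Module A X₁] [AddCommGroup X₂] [Module A X₂]

/-- the `Gam`-module `(X₁ ; X₂)` -/
def GM (_c : Act k U P X₁ X₂) : Type u := X₁ × X₂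

variable (c : Act k U P X₁ X₂)

instance : AddCommGroup (GM c) := inferInstanceAs (AddCommGroup (X₁ × X₂))

instance : Module (Gam k A U P) (GM c) where
  smul g x := (g.1 • x.1, c.t g.2 x.1 + g.1 • x.2)
  one_smul x := Prod.ext (one_smul _ _) (by
    show c.t (1 : Gam k A U P).2 x.1 + (1 : A) • x.2 = x.2
    have : (1 : Gam k A U P).2 = 0 := rfl
    rw [this, map_zero, AddMonoidHom.zero_apply, zero_add, one_smul])
  mul_smul g h x := Prod.ext (mul_smul _ _ _) (by
    show c.t (g * h).2 x.1 + (g.1 * h.1) • x.2 =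
      c.t g.2 (h.1 • x.1) + g.1 • (c.t h.2 x.1 + h.1 • x.2)
    rw [mul_snd, map_add, AddMonoidHom.add_apply, c.hl, c.hr, mul_smul, smul_add]
    abel)
  smul_zero g := Prod.ext (smul_zero _) (by
    show c.t g.2 0 + g.1 • (0 : X₂) = 0
    rw [map_zero, smul_zero, add_zero])
  smul_add g x y := Prod.ext (smul_add _ _ _) (by
    show c.t g.2 (x.1 + y.1) + g.1 • (x.2 + y.2) =
      (c.t g.2 x.1 + g.1 • x.2) + (c.t g.2 y.1 + g.1 • y.2)
    rw [map_add, smul_add]
    abel)
  add_smul g h x := Prod.ext (add_smul _ _ _) (by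
    show c.t (g + h).2 x.1 + (g.1 + h.1) • x.2 =
      (c.t g.2 x.1 + g.1 • x.2) + (c.t h.2 x.1 + h.1 • x.2)
    have : (g + h).2 = g.2 + h.2 := rfl
    rw [this, map_add, AddMonoidHom.add_apply, add_smul]
    abel)
  zero_smul x := Prod.ext (zero_smul _ _) (by
    show c.t (0 : Gam k A U P).2 x.1 + (0 : A) • x.2 = 0
    have : (0 : Gam k A U P).2 = 0 := rfl
    rw [this, map_zero, AddMonoidHom.zero_apply, zero_smul, add_zero])

theorem GM.smul_def (g : Gam k A U P) (x : GM c) :
    g • x = ((g.1 • x.1, c.t g.2 x.1 + g.1 • x.2) : X₁ × X₂) := rfl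

theorem GM.smul_fst (g : Gam k A U P) (x : GM c) : (g • x).1 = g.1 • x.1 := rfl

theorem GM.smul_snd (g : Gam k A U P) (x : GM c) : (g • x).2 = c.t g.2 x.1 + g.1 • x.2 := rfl

end KK

end Crest.Agent.R186.LinkK721
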