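import Crest.Agent.R186.LinkC_328
import Crest.Agent.R186.LinkK1_721

/-!
Row 186, S0281, block LINK (helper328): acts, maps and finite-dimensional structures of the
modules `GM` over `Gam = A ⋉ K`, `K = {f : J →ₗ Y | f U ⊆ P}` of 721's `LinkK1_721`.
-/

set_option autoImplicit false
set_option linter.unusedSectionVars false
set_option linter.style.haveILetI false

universe u

open CategoryTheory CategoryTheory.Abelian

namespace Crest.Agent.R186.LinkD328

open ExtRes700 LinkK721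

section act

variable {K : Type u} [Field K] {A : Type u} [Ring A] [Algebra K A]
  {J Y : Type u} [AddCommGroup J] [Module K J] [Module A J] [IsScalarTower K A J]
  [AddCommGroup Y] [Module K Y] [Module A Y] [IsScalarTower K A Y]
  {U : Submodule A J} {P : Submodule A Y}
  {X₁ X₂ : Type u} [AddCommGroup X₁] [Module A X₁] [AddCommGroup X₂] [Module A X₂]
  {X₁' X₂' : Type u} [AddCommGroup X₁'] [Module A X₁'] [AddCommGroup X₂'] [Module A X₂']
  {X₁'' X₂'' : Type u} [AddCommGroup X₁''] [Module A X₁''] [AddCommGroup X₂''] [Module A X₂'']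

/-- an act from a biadditive function -/
def mkAct (t : KK K U P → X₁ → X₂) (h1 : ∀ f x y, t f (x + y) = t f x + t f y)
    (h2 : ∀ f g x, t (f + g) x = t f x + t g x)
    (hl : ∀ (a : A) (f : KK K U P) (x : X₁), t (lK a f) x = a • t f x)
    (hr : ∀ (a : A) (f : KK K U P) (x : X₁), t (rK f a) x = t f (a • x)) :
    Act K U P X₁ X₂ where
  t := AddMonoidHom.mk' (fun f => AddMonoidHom.mk' (t f) (h1 f))
    (fun f g => AddMonoidHom.ext fun x => h2 f g x)
  hl := hl
  hr := hr

@[simp] theorem mkAct_t (t : KK K U P → X₁ → X₂) (h1 h2 hl hr) (f : KK K U P) (x : X₁) :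
    (mkAct t h1 h2 hl hr).t f x = t f x := rfl

/-- pre- and post-composition -/
def cmp (c : Act K U P X₁ X₂) (u : X₁' →ₗ[A] X₁) (v : X₂ →ₗ[A] X₂') : Act K U P X₁' X₂' :=
  mkAct (fun f x => v (c.t f (u x)))
    (fun f x y => by rw [map_add, map_add, map_add])
    (fun f g x => by rw [map_add, AddMonoidHom.add_apply, map_add])
    (fun a f x => by rw [c.hl, LinearMap.map_smul v])
    (fun a f x => by rw [c.hr, LinearMap.map_smul u])

@[simp] theorem cmp_t (c : Act K U P X₁ X₂) (u : X₁' →ₗ[A] X₁) (v : X₂ →ₗ[A] X₂')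
    (f : KK K U P) (x : X₁') : (cmp c u v).t f x = v (c.t f (u x)) := rfl

/-- `(U ; P)` -/
def actU : Act K U P U P :=
  mkAct (fun f x => ⟨f.1 x, f.2 x x.2⟩)
    (fun f x y => Subtype.ext (map_add f.1 (x : J) (y : J)))
    (fun _ _ _ => rfl)
    (fun _ _ _ => rfl)
    (fun _ _ _ => rfl)

@[simp] theorem actU_t (f : KK K U P) (x : U) : ((actU.t f x : P) : Y) = f.1 x := rfl

/-- `(J / U ; Z)` for `Y → Z` killing `P` -/
noncomputable def actQ {I Z : Type u} [AddCommGroup I] [Module A I] [AddCommGroup Z] [Module A Z]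
    (ρ : J →ₗ[A] I) (hρ : Function.Surjective ρ) (hU : ∀ x, ρ x = 0 → x ∈ U)
    (γ : Y →ₗ[A] Z) (hP : ∀ y ∈ P, γ y = 0) : Act K U P I Z := by
  have key : ∀ (f : KK K U P) (x y : J), ρ x = ρ y → γ (f.1 x) = γ (f.1 y) := by
    intro f x y h
    rw [← sub_eq_zero, ← map_sub, ← map_sub]
    refine hP _ (f.2 _ (hU _ ?_))
    rw [map_sub, h, sub_self]
  have hs : ∀ i, ρ (Function.surjInv hρ i) = i := Function.surjInv_eq hρ
  refine mkAct (fun f x => γ (f.1 (Function.surjInv hρ x))) ?_ ?_ ?_ ?_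
  · intro f x y
    rw [← map_add, ← map_add]
    refine key f _ _ ?_
    rw [map_add, hs, hs, hs]
  · intro f g x
    rw [← map_add]
    rfl
  · intro a f x
    rw [← map_smul]
    rfl
  · intro a f x
    refine key f (a • Function.surjInv hρ x) _ ?_
    rw [map_smul, hs, hs]

theorem actQ_t {I Z : Type u} [AddCommGroup I] [Module A I] [AddCommGroup Z] [Module A Z]
    (ρ : J →ₗ[A] I) (hρ : Function.Surjective ρ) (hU : ∀ x, ρ x = 0 → x ∈ U)
    (γ : Y →ₗ[A] Z) (hP : ∀ y ∈ P, γ y = 0) (f : KK K U P) (x : J) :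
    (actQ ρ hρ hU γ hP).t f (ρ x) = γ (f.1 x) := by
  change γ (f.1 (Function.surjInv hρ (ρ x))) = γ (f.1 x)
  rw [← sub_eq_zero, ← map_sub, ← map_sub]
  refine hP _ (f.2 _ (hU _ ?_))
  rw [map_sub, Function.surjInv_eq hρ, sub_self]

/-! ### maps -/

variable {c : Act K U P X₁ X₂} {c' : Act K U P X₁' X₂'} {c'' : Act K U P X₁'' X₂''}

/-- a pair of maps -/
def gmap (c : Act K U P X₁ X₂) (c' : Act K U P X₁' X₂') (u : X₁ →ₗ[A] X₁') (v : X₂ →ₗ[A] X₂')
    (h : ∀ f x, v (c.t f x) = c'.t f (u x)) : GM c →ₗ[Gam K A U P] GM c' where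
  toFun x := (u x.1, v x.2)
  map_add' x y := Prod.ext (map_add u _ _) (map_add v _ _)
  map_smul' g x := by
    refine Prod.ext (map_smul u _ _) ?_
    change v (c.t g.2 x.1 + g.1 • x.2) = c'.t g.2 (u x.1) + g.1 • v x.2
    rw [map_add, map_smul, h]

variable {u : X₁ →ₗ[A] X₁'} {v : X₂ →ₗ[A] X₂'} {u' : X₁' →ₗ[A] X₁''} {v' : X₂' →ₗ[A] X₂''}
  (h : ∀ f x, v (c.t f x) = c'.t f (u x)) (h' : ∀ f x, v' (c'.t f x) = c''.t f (u' x))

theorem gmap_fst (x : GM c) : (gmap c c' u v h x).1 = u x.1 := rfl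

theorem gmap_snd (x : GM c) : (gmap c c' u v h x).2 = v x.2 := rfl

theorem gmap_inj (hu : Function.Injective u) (hv : Function.Injective v) :
    Function.Injective (gmap c c' u v h) := fun _ _ e =>
  Prod.ext (hu (congrArg Prod.fst e)) (hv (congrArg Prod.snd e))

theorem gmap_surj (hu : Function.Surjective u) (hv : Function.Surjective v) :
    Function.Surjective (gmap c c' u v h) := fun y => by
  obtain ⟨a, ha⟩ := hu y.1
  obtain ⟨b, hb⟩ := hv y.2
  exact ⟨(a, b), Prod.ext ha hb⟩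

theorem gmap_exact (hu : Function.Exact u u') (hv : Function.Exact v v') :
    Function.Exact (gmap c c' u v h) (gmap c' c'' u' v' h') := fun x => by
  constructor
  · intro e
    obtain ⟨a, ha⟩ := (hu x.1).1 (congrArg Prod.fst e)
    obtain ⟨b, hb⟩ := (hv x.2).1 (congrArg Prod.snd e)
    exact ⟨(a, b), Prod.ext ha hb⟩
  · rintro ⟨y, rfl⟩
    exact Prod.ext (hu.apply_apply_eq_zero y.1) (hv.apply_apply_eq_zero y.2)

/-! ### scalars -/

theorem t_ksmul [Module K X₂] [IsScalarTower K A X₂] (c : Act K U P X₁ X₂) (κ : K) (f : KK K U P)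
    (x : X₁) : c.t (κ • f) x = κ • c.t f x := by
  have h1 : κ • f = lK (algebraMap K A κ) f := by
    apply Subtype.ext
    ext j
    rw [lK_apply, algebraMap_smul]
    rfl
  rw [h1, c.hl, algebraMap_smul]

instance [Module K X₁] [Module K X₂] (c : Act K U P X₁ X₂) : Module K (GM c) :=
  inferInstanceAs (Module K (X₁ × X₂))

theorem GM.ksmul_fst [Module K X₁] [Module K X₂] (c : Act K U P X₁ X₂) (κ : K) (x : GM c) :
    (κ • x).1 = κ • x.1 := rfl

theorem GM.ksmul_snd [Module K X₁] [Module K X₂] (c : Act K U P X₁ X₂) (κ : K) (x : GM c) :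
    (κ • x).2 = κ • x.2 := rfl

instance [Module K X₁] [Module K X₂] [IsScalarTower K A X₁] [IsScalarTower K A X₂]
    (c : Act K U P X₁ X₂) : IsScalarTower K (Gam K A U P) (GM c) := ⟨fun κ g x => by
  refine Prod.ext ?_ ?_
  · change (κ • g.1) • x.1 = κ • (g.1 • x.1)
    rw [smul_assoc]
  · change c.t (κ • g.2) x.1 + (κ • g.1) • x.2 = κ • (c.t g.2 x.1 + g.1 • x.2)
    rw [t_ksmul, smul_add, smul_assoc]⟩

instance [Module K X₁] [Module K X₂] [FiniteDimensional K X₁] [FiniteDimensional K X₂]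
    (c : Act K U P X₁ X₂) : FiniteDimensional K (GM c) :=
  inferInstanceAs (FiniteDimensional K (X₁ × X₂))

instance [FiniteDimensional K A] [FiniteDimensional K J] [FiniteDimensional K Y] :
    FiniteDimensional K (Gam K A U P) :=
  inferInstanceAs (FiniteDimensional K (A × KK K U P))

instance [Nontrivial X₁] (c : Act K U P X₁ X₂) : Nontrivial (GM c) :=
  inferInstanceAs (Nontrivial (X₁ × X₂))

theorem gm_nontrivial_snd [Nontrivial X₂] (c : Act K U P X₁ X₂) : Nontrivial (GM c) :=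
  inferInstanceAs (Nontrivial (X₁ × X₂))

end act

end Crest.Agent.R186.LinkD328
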