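import Crest.Agent.R186.Cell_580
import Crest.Agent.R186.ExtRes_700

/-!
Row 186, S0281, block LINK (helper721), part 2: the coinduction lemma.

`φ : A →+* G`, `W` an `A`-module, `M` a `G`-module with an `A`-linear `pr : M → W` which identifies
`M` with `Hom_A(G, W)`, and `Ext_A^{>0}(G, W) = 0`.  Then `Ext_A^i(Z, W) = 0 ⇒ Ext_G^i(Z, M) = 0`.
-/

set_option autoImplicit false
set_option linter.unusedSectionVars false
set_option linter.style.haveILetI false

universe u

open CategoryTheory CategoryTheory.Abelian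

namespace Crest.Agent.R186.LinkK721

open ExtRes700 Syz700

section coind

variable {A G : Type u} [Ring A] [Ring G] [IsNoetherianRing G] (φ : A →+* G)

/-- restriction of scalars along `φ : A → G` -/
def RA (_φ : A →+* G) (X : Type u) : Type u := X

variable {X X' : Type u} [AddCommGroup X] [AddCommGroup X'] [Module G X] [Module G X']

instance : AddCommGroup (RA φ X) := inferInstanceAs (AddCommGroup X)

instance : Module A (RA φ X) := Module.compHom X φ

/-- the identity -/
def toRA (x : X) : RA φ X := x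

theorem RA.smul_def (a : A) (x : X) : a • toRA φ x = toRA φ (φ a • x) := rfl

/-- a linear map, restricted -/
def RA.map (f : X →ₗ[G] X') : RA φ X →ₗ[A] RA φ X' where
  toFun x := f x
  map_add' x y := map_add f x y
  map_smul' a x := LinearMap.map_smul f (φ a) (show X from x)

theorem RA.map_apply (f : X →ₗ[G] X') (x : RA φ X) : RA.map φ f x = f x := rfl

/-- `RA` of a finite power -/
def raPi (n : ℕ) : (Fin n → RA φ G) ≃ₗ[A] RA φ (Fin n → G) where
  toFun x := x
  invFun x := x
  map_add' _ _ := rfl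
  map_smul' _ _ := rfl
  left_inv _ := rfl
  right_inv _ := rfl

/-- extension of maps from `Ext^1 = 0` -/
theorem ext_lift {B C D N : Type u} [AddCommGroup B] [AddCommGroup C] [AddCommGroup D]
    [AddCommGroup N] [Module A B] [Module A C] [Module A D] [Module A N]
    (f : B →ₗ[A] C) (g : C →ₗ[A] D) (hf : Function.Injective f) (hg : Function.Surjective g)
    (he : Function.Exact f g) (h : E0 A D N 1) (x : B →ₗ[A] N) :
    ∃ y : C →ₗ[A] N, y ∘ₗ f = x := by
  have hse := se f g hf hg he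
  let x' : Ext (ModuleCat.of A B) (ModuleCat.of A N) 0 := Ext.mk₀ (ModuleCat.ofHom x)
  have h0 : hse.extClass.comp x' (add_zero 1) = 0 := h.elim _ _
  obtain ⟨y, hy⟩ := Ext.contravariant_sequence_exact₁ hse (ModuleCat.of A N) x' (add_zero 1) h0
  obtain ⟨ψ, rfl⟩ := Ext.homEquiv₀.symm.surjective y
  rw [Ext.homEquiv₀_symm_apply, Ext.mk₀_comp_mk₀] at hy
  have h1 := Ext.homEquiv₀.symm.injective
    (a₁ := ModuleCat.ofHom f ≫ ψ) (a₂ := ModuleCat.ofHom x)
    (by simpa [Ext.homEquiv₀_symm_apply] using hy)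
  exact ⟨ψ.hom, congrArg ModuleCat.Hom.hom h1⟩

variable {M W : Type u} [AddCommGroup M] [Module G M] [AddCommGroup W] [Module A W]

/-- `M = Hom_A(G, W)` through `pr`. -/
structure CoI (φ : A →+* G) (M W : Type u) [AddCommGroup M] [Module G M] [AddCommGroup W]
    [Module A W] where
  pr : RA φ M →ₗ[A] W
  uni : ∀ m : M, (∀ g : G, pr (g • m : M) = 0) → m = 0
  exi : ∀ g : RA φ G →ₗ[A] W, ∃ m : M, ∀ x : G, pr (x • m : M) = g x
  ac : ∀ i : ℕ, E0 A (RA φ G) W (i + 1)

variable {φ} (c : CoI φ M W)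

include c

theorem CoI.hom_ext {Z : Type u} [AddCommGroup Z] [Module G Z] (f g : Z →ₗ[G] M)
    (h : ∀ z, c.pr (f z) = c.pr (g z)) : f = g := by
  refine LinearMap.ext fun z => sub_eq_zero.1 (c.uni _ fun x => ?_)
  have h1 := h (x • z)
  rw [map_smul, map_smul] at h1
  have h2 : c.pr (x • (f z - g z) : M) = c.pr (x • f z : M) - c.pr (x • g z : M) := by
    rw [smul_sub]
    exact map_sub c.pr _ _
  rw [h2, h1, sub_self]

theorem CoI.exi_free (n : ℕ) (g : RA φ (Fin n → G) →ₗ[A] W) :
    ∃ f : (Fin n → G) →ₗ[G] M, ∀ z : Fin n → G, c.pr (f z) = g z := by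
  have h : ∀ i : Fin n, ∃ m : M, ∀ x : G, c.pr (x • m : M) =
      g (Pi.single i x : Fin n → G) := by
    intro i
    exact c.exi (g ∘ₗ RA.map φ (LinearMap.single G (fun _ : Fin n => G) i))
  choose m hm using h
  refine ⟨∑ i, (LinearMap.proj (R := G) (φ := fun _ : Fin n => G) i).smulRight (m i), ?_⟩
  intro z
  have h1 : (∑ i, (LinearMap.proj (R := G) (φ := fun _ : Fin n => G) i).smulRight (m i)) z =
      ∑ i, (z i • m i) := by
    rw [LinearMap.sum_apply]
    rfl
  rw [h1]
  have h2 : c.pr (∑ i, (z i • m i) : M) = ∑ i, c.pr (z i • m i : M) :=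
    map_sum c.pr (fun i => (z i • m i : M)) Finset.univ
  rw [h2]
  have h3 : g z = ∑ i, g (Pi.single i (z i) : Fin n → G) := by
    have h4 : (∑ i, (Pi.single i (z i) : Fin n → G)) = z := Finset.univ_sum_single z
    have h5 : g (∑ i, (Pi.single i (z i) : Fin n → G)) =
        ∑ i, g (Pi.single i (z i) : Fin n → G) :=
      map_sum g (fun i => (Pi.single i (z i) : Fin n → G)) Finset.univ
    refine Eq.trans ?_ h5
    exact congrArg g h4.symm
  rw [h3]
  exact Finset.sum_congr rfl fun i _ => hm i (z i)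

omit c in
theorem cov_exact (Z : FM G) : Function.Exact Z.inc Z.cov := fun y =>
  ⟨fun hy => Z.exists_inc y hy, fun ⟨x, hx⟩ => by
    rw [← hx]; exact LinearMap.congr_fun Z.cov_inc x⟩

theorem CoI.coind (i : ℕ) : ∀ Z : FM G, E0 A (RA φ Z.X) W i → E0 G Z.X M i := by
  induction i with
  | zero =>
    intro Z h
    rw [zero_iff] at h ⊢
    intro f
    refine c.hom_ext f 0 fun z => ?_
    have h1 := LinearMap.congr_fun (h (c.pr ∘ₗ RA.map φ f)) z
    have h2 : c.pr ((0 : Z.X →ₗ[G] M) z) = 0 := map_zero c.pr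
    rw [h2]
    exact h1
  | succ i ih =>
    intro Z h
    have hex := cov_exact Z
    have hex' : Function.Exact (RA.map φ Z.inc) (RA.map φ Z.cov) := fun y => hex y
    rcases Nat.eq_zero_or_pos i with rfl | hi
    · refine Cell580.ev_one hex Z.inc_inj Z.cov_surj (ExtRes700.proj 0) fun f => ?_
      obtain ⟨g, hg⟩ := ext_lift (RA.map φ Z.inc) (RA.map φ Z.cov) Z.inc_inj Z.cov_surj hex' h
        (c.pr ∘ₗ RA.map φ f)
      obtain ⟨F, hF⟩ := c.exi_free Z.n g
      refine ⟨F, c.hom_ext _ _ fun z => ?_⟩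
      have h1 := LinearMap.congr_fun hg z
      exact (hF (Z.inc z)).trans h1
    · obtain ⟨i, rfl⟩ := Nat.exists_eq_add_of_le' hi
      refine right Z.inc Z.cov Z.inc_inj Z.cov_surj hex (i + 1) (ih Z.syz ?_)
        (ExtRes700.proj (i + 1))
      refine left (RA.map φ Z.inc) (RA.map φ Z.cov) Z.inc_inj Z.cov_surj hex' (i + 1) ?_ h
      exact iso_left (raPi φ Z.n) (i + 1) (pi_left (i + 1) Z.n (c.ac i))

end coind

end Crest.Agent.R186.LinkK721
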