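import Crest.Agent.R186.LinkK1_721
import Crest.Agent.R186.LinkK2_721
import Crest.Agent.R186.Dual_700

/-!
Row 186, S0281, block LINK (helper721), part 3: instances, the two kinds of actions, maps of pairs,
the two exact sequences for `Gam` as a left and as a right `A`-module.
-/

set_option autoImplicit false
set_option linter.unusedSectionVars false
set_option linter.style.haveILetI false

universe u

open CategoryTheory CategoryTheory.Abelian MulOpposite

namespace Crest.Agent.R186.LinkK721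

open ExtRes700 Dual700

/-! ### instances -/

section inst

variable {k : Type u} [Field k] {A : Type u} [Ring A] [Algebra k A]
  {J Y : Type u} [AddCommGroup J] [Module k J] [Module A J] [IsScalarTower k A J]
  [AddCommGroup Y] [Module k Y] [Module A Y] [IsScalarTower k A Y]
  {U : Submodule A J} {P : Submodule A Y}
  {X₁ X₂ : Type u} [AddCommGroup X₁] [Module A X₁] [AddCommGroup X₂] [Module A X₂]
  [Module k X₁] [Module k X₂] [IsScalarTower k A X₁] [IsScalarTower k A X₂]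
  (c : Act k U P X₁ X₂)

instance : Module k (GM c) := inferInstanceAs (Module k (X₁ × X₂))

theorem Act.t_smul (r : k) (f : KK k U P) (x : X₁) : c.t (r • f) x = r • c.t f x := by
  have h : r • f = lK (algebraMap k A r) f :=
    Subtype.ext (LinearMap.ext fun j => (algebraMap_smul A r _).symm)
  rw [h, c.hl, algebraMap_smul]

instance : IsScalarTower k (Gam k A U P) (GM c) := ⟨fun r g x => Prod.ext (smul_assoc _ _ _) (by
  show c.t (r • g.2) x.1 + (r • g.1) • x.2 = r • (c.t g.2 x.1 + g.1 • x.2)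
  rw [c.t_smul, smul_add, smul_assoc])⟩

instance [Module.Finite k X₁] [Module.Finite k X₂] : Module.Finite k (GM c) :=
  inferInstanceAs (Module.Finite k (X₁ × X₂))

instance [Module.Finite k A] [Module.Finite k J] [Module.Finite k Y] :
    Module.Finite k (Gam k A U P) :=
  inferInstanceAs (Module.Finite k (A × KK k U P))

/-- restriction of a pair -/
def raGM : RA (inc (k := k) (A := A) (U := U) (P := P)).toRingHom (GM c) ≃ₗ[A] X₁ × X₂ where
  toFun x := x
  invFun x := x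
  map_add' _ _ := rfl
  map_smul' a x := Prod.ext rfl (by
    show c.t (inc a : Gam k A U P).2 x.1 + a • x.2 = a • x.2
    rw [inc_snd, map_zero, AddMonoidHom.zero_apply, zero_add])
  left_inv _ := rfl
  right_inv _ := rfl

end inst

/-! ### maps of pairs -/

section hom

variable {k : Type u} [Field k] {A : Type u} [Ring A] [Algebra k A]
  {J Y : Type u} [AddCommGroup J] [Module k J] [Module A J] [IsScalarTower k A J]
  [AddCommGroup Y] [Module k Y] [Module A Y] [IsScalarTower k A Y]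
  {U : Submodule A J} {P : Submodule A Y}
  {X₁ X₂ X₁' X₂' X₁'' X₂'' : Type u} [AddCommGroup X₁] [Module A X₁] [AddCommGroup X₂]
  [Module A X₂] [AddCommGroup X₁'] [Module A X₁'] [AddCommGroup X₂'] [Module A X₂']
  [AddCommGroup X₁''] [Module A X₁''] [AddCommGroup X₂''] [Module A X₂'']

/-- a map of pairs -/
def GM.hom (c : Act k U P X₁ X₂) (c' : Act k U P X₁' X₂') (f₁ : X₁ →ₗ[A] X₁')
    (f₂ : X₂ →ₗ[A] X₂') (h : ∀ f x, f₂ (c.t f x) = c'.t f (f₁ x)) :
    GM c →ₗ[Gam k A U P] GM c' where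
  toFun x := ((f₁ x.1, f₂ x.2) : X₁' × X₂')
  map_add' x y := Prod.ext (map_add f₁ _ _) (map_add f₂ _ _)
  map_smul' g x := Prod.ext (f₁.map_smul _ _) (by
    show f₂ (c.t g.2 x.1 + g.1 • x.2) = c'.t g.2 (f₁ x.1) + g.1 • f₂ x.2
    rw [map_add, h, f₂.map_smul])

theorem GM.hom_fst {c : Act k U P X₁ X₂} {c' : Act k U P X₁' X₂'} {f₁ : X₁ →ₗ[A] X₁'}
    {f₂ : X₂ →ₗ[A] X₂'} (h : ∀ f x, f₂ (c.t f x) = c'.t f (f₁ x)) (x : GM c) :
    (GM.hom c c' f₁ f₂ h x).1 = f₁ x.1 := rfl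

theorem GM.hom_snd {c : Act k U P X₁ X₂} {c' : Act k U P X₁' X₂'} {f₁ : X₁ →ₗ[A] X₁'}
    {f₂ : X₂ →ₗ[A] X₂'} (h : ∀ f x, f₂ (c.t f x) = c'.t f (f₁ x)) (x : GM c) :
    (GM.hom c c' f₁ f₂ h x).2 = f₂ x.2 := rfl

theorem GM.hom_inj {c : Act k U P X₁ X₂} {c' : Act k U P X₁' X₂'} {f₁ : X₁ →ₗ[A] X₁'}
    {f₂ : X₂ →ₗ[A] X₂'} (h : ∀ f x, f₂ (c.t f x) = c'.t f (f₁ x)) (h₁ : Function.Injective f₁)
    (h₂ : Function.Injective f₂) : Function.Injective (GM.hom c c' f₁ f₂ h) := fun x y e =>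
  Prod.ext (h₁ (congrArg Prod.fst e)) (h₂ (congrArg Prod.snd e))

theorem GM.hom_surj {c : Act k U P X₁ X₂} {c' : Act k U P X₁' X₂'} {f₁ : X₁ →ₗ[A] X₁'}
    {f₂ : X₂ →ₗ[A] X₂'} (h : ∀ f x, f₂ (c.t f x) = c'.t f (f₁ x)) (h₁ : Function.Surjective f₁)
    (h₂ : Function.Surjective f₂) : Function.Surjective (GM.hom c c' f₁ f₂ h) := by
  intro y
  obtain ⟨x₁, e₁⟩ := h₁ y.1
  obtain ⟨x₂, e₂⟩ := h₂ y.2
  exact ⟨((x₁, x₂) : X₁ × X₂), Prod.ext e₁ e₂⟩

theorem GM.hom_exact {c : Act k U P X₁ X₂} {c' : Act k U P X₁' X₂'} {c'' : Act k U P X₁'' X₂''}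
    {f₁ : X₁ →ₗ[A] X₁'} {f₂ : X₂ →ₗ[A] X₂'} (h : ∀ f x, f₂ (c.t f x) = c'.t f (f₁ x))
    {g₁ : X₁' →ₗ[A] X₁''} {g₂ : X₂' →ₗ[A] X₂''} (h' : ∀ f x, g₂ (c'.t f x) = c''.t f (g₁ x))
    (e₁ : Function.Exact f₁ g₁) (e₂ : Function.Exact f₂ g₂) :
    Function.Exact (GM.hom c c' f₁ f₂ h) (GM.hom c' c'' g₁ g₂ h') := by
  intro y
  constructor
  · intro hy
    obtain ⟨x₁, r₁⟩ := (e₁ y.1).1 (congrArg Prod.fst hy)
    obtain ⟨x₂, r₂⟩ := (e₂ y.2).1 (congrArg Prod.snd hy)
    exact ⟨((x₁, x₂) : X₁ × X₂), Prod.ext r₁ r₂⟩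
  · rintro ⟨x, rfl⟩
    exact Prod.ext (e₁.apply_apply_eq_zero _) (e₂.apply_apply_eq_zero _)

end hom

/-! ### actions -/

section act

variable {k : Type u} [Field k] {A : Type u} [Ring A] [Algebra k A]
  {J Y : Type u} [AddCommGroup J] [Module k J] [Module A J] [IsScalarTower k A J]
  [AddCommGroup Y] [Module k Y] [Module A Y] [IsScalarTower k A Y]
  {X₁ X₂ : Type u} [AddCommGroup X₁] [Module A X₁] [AddCommGroup X₂] [Module A X₂]

/-- the second kind: `f x = j (f (π x))` -/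
def actP {U : Submodule A J} {P : Submodule A Y} (π : X₁ →ₗ[A] U) (j : P →ₗ[A] X₂) :
    Act k U P X₁ X₂ where
  t := AddMonoidHom.mk' (fun f => AddMonoidHom.mk'
      (fun x => j ⟨f.1 (π x : J), f.2 _ (π x).2⟩) (fun x y => by
        rw [← map_add]
        congr 1
        apply Subtype.ext
        show f.1 (π (x + y) : J) = f.1 (π x : J) + f.1 (π y : J)
        rw [map_add, Submodule.coe_add, map_add]))
    (fun f g => AddMonoidHom.ext fun x => by
      show j ⟨(f + g).1 (π x : J), _⟩ = j ⟨f.1 (π x : J), _⟩ + j ⟨g.1 (π x : J), _⟩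
      rw [← map_add]
      rfl)
  hl a f x := by
    show j ⟨(lK a f).1 (π x : J), _⟩ = a • j ⟨f.1 (π x : J), _⟩
    rw [← map_smul]
    rfl
  hr a f x := by
    show j ⟨(rK f a).1 (π x : J), _⟩ = j ⟨f.1 (π (a • x) : J), _⟩
    congr 1
    apply Subtype.ext
    show f.1 (a • (π x : J)) = f.1 (π (a • x) : J)
    rw [π.map_smul, Submodule.coe_smul]

theorem actP_t {U : Submodule A J} {P : Submodule A Y} (π : X₁ →ₗ[A] U) (j : P →ₗ[A] X₂)
    (f : KK k U P) (x : X₁) : (actP π j : Act k U P X₁ X₂).t f x =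
      j ⟨f.1 (π x : J), f.2 _ (π x).2⟩ := rfl

variable {Jq Yq : Type u} [AddCommGroup Jq] [Module k Jq] [Module A Jq] [IsScalarTower k A Jq]
  [AddCommGroup Yq] [Module k Yq] [Module A Yq] [IsScalarTower k A Yq]
  {πJ : J →ₗ[A] Jq} {πY : Y →ₗ[A] Yq} (hJ : Function.Surjective πJ)

theorem bar_aux (f : KK k (LinearMap.ker πJ) (LinearMap.ker πY)) {x y : J} (h : πJ x = πJ y) :
    πY (f.1 x) = πY (f.1 y) := by
  have h1 : x - y ∈ LinearMap.ker πJ := by
    rw [LinearMap.mem_ker, map_sub, h, sub_self]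
  have h2 : πY (f.1 (x - y)) = 0 := f.2 _ h1
  rw [map_sub, map_sub] at h2
  exact sub_eq_zero.1 h2

/-- the induced map `J/U → Y/P` -/
noncomputable def bar (f : KK k (LinearMap.ker πJ) (LinearMap.ker πY)) : Jq →ₗ[k] Yq where
  toFun x := πY (f.1 (Function.surjInv hJ x))
  map_add' x y := by
    rw [← map_add, ← map_add]
    apply bar_aux f
    rw [map_add, Function.surjInv_eq hJ, Function.surjInv_eq hJ, Function.surjInv_eq hJ]
  map_smul' r x := by
    have h1 : πY (f.1 (Function.surjInv hJ (r • x))) =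
        πY (f.1 (r • Function.surjInv hJ x)) := by
      apply bar_aux f
      rw [LinearMap.map_smul_of_tower, Function.surjInv_eq hJ, Function.surjInv_eq hJ]
    rw [h1, map_smul, LinearMap.map_smul_of_tower]
    rfl

theorem bar_apply (f : KK k (LinearMap.ker πJ) (LinearMap.ker πY)) (j : J) :
    bar hJ f (πJ j) = πY (f.1 j) := bar_aux f (Function.surjInv_eq hJ _)

theorem bar_add (f g : KK k (LinearMap.ker πJ) (LinearMap.ker πY)) (x : Jq) :
    bar hJ (f + g) x = bar hJ f x + bar hJ g x := by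
  obtain ⟨j, rfl⟩ := hJ x
  rw [bar_apply, bar_apply, bar_apply, ← map_add]
  rfl

theorem bar_lK (a : A) (f : KK k (LinearMap.ker πJ) (LinearMap.ker πY)) (x : Jq) :
    bar hJ (lK a f) x = a • bar hJ f x := by
  obtain ⟨j, rfl⟩ := hJ x
  rw [bar_apply, bar_apply, ← map_smul]
  rfl

theorem bar_rK (a : A) (f : KK k (LinearMap.ker πJ) (LinearMap.ker πY)) (x : Jq) :
    bar hJ (rK f a) x = bar hJ f (a • x) := by
  obtain ⟨j, rfl⟩ := hJ x
  rw [← map_smul, bar_apply, bar_apply]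
  rfl

/-- the first kind: `f x = j (f̄ (ρ x))` -/
noncomputable def actQ (ρ : X₁ →ₗ[A] Jq) (j : Yq →ₗ[A] X₂) :
    Act k (LinearMap.ker πJ) (LinearMap.ker πY) X₁ X₂ where
  t := AddMonoidHom.mk' (fun f => AddMonoidHom.mk' (fun x => j (bar hJ f (ρ x)))
      (fun x y => by rw [map_add, map_add, map_add]))
    (fun f g => AddMonoidHom.ext fun x => by
      show j (bar hJ (f + g) (ρ x)) = j (bar hJ f (ρ x)) + j (bar hJ g (ρ x))
      rw [bar_add, map_add])
  hl a f x := by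
    show j (bar hJ (lK a f) (ρ x)) = a • j (bar hJ f (ρ x))
    rw [bar_lK, map_smul]
  hr a f x := by
    show j (bar hJ (rK f a) (ρ x)) = j (bar hJ f (ρ (a • x)))
    rw [bar_rK, ρ.map_smul]

theorem actQ_t (ρ : X₁ →ₗ[A] Jq) (j : Yq →ₗ[A] X₂)
    (f : KK k (LinearMap.ker πJ) (LinearMap.ker πY)) (x : X₁) :
    (actQ hJ ρ j).t f x = j (bar hJ f (ρ x)) := rfl

end act

end Crest.Agent.R186.LinkK721
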