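import Crest.Agent.R186.LinkK3_721

/-!
Row 186, S0281, block LINK (helper721), part 4: `Gam` as a left and as a right `A`-module.
-/

set_option autoImplicit false
set_option linter.unusedSectionVars false
set_option linter.style.haveILetI false

universe u

open CategoryTheory CategoryTheory.Abelian MulOpposite

namespace Crest.Agent.R186.LinkK721

open ExtRes700 Dual700

section seq

variable {k : Type u} [Field k] {A : Type u} [Ring A] [Algebra k A]
  {J Y : Type u} [AddCommGroup J] [Module k J] [Module A J] [IsScalarTower k A J]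
  [AddCommGroup Y] [Module k Y] [Module A Y] [IsScalarTower k A Y]
  {Jq Yq : Type u} [AddCommGroup Jq] [Module k Jq] [Module A Jq] [IsScalarTower k A Jq]
  [AddCommGroup Yq] [Module k Yq] [Module A Yq] [IsScalarTower k A Yq]
  {πJ : J →ₗ[A] Jq} {πY : Y →ₗ[A] Yq}

theorem smul_comm' (a : A) (r : k) (y : Y) : r • (a • y) = a • (r • y) := by
  rw [← algebraMap_smul A r (a • y), ← algebraMap_smul A r y, smul_smul, smul_smul,
    Algebra.commutes]

/-- `(ξ ∘ πJ) ⊗ y` -/
def a1 (πJ : J →ₗ[A] Jq) (πY : Y →ₗ[A] Yq) (ξ : Jq →ₗ[k] k) (y : Y) :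
    KK k (LinearMap.ker πJ) (LinearMap.ker πY) :=
  ⟨(ξ ∘ₗ kl k πJ).smulRight y, fun u hu => by
    show ξ (πJ u) • y ∈ LinearMap.ker πY
    rw [LinearMap.mem_ker.1 hu, map_zero, zero_smul]
    exact Submodule.zero_mem _⟩

/-- `ξ ⊗ p` -/
def a2 (πJ : J →ₗ[A] Jq) (πY : Y →ₗ[A] Yq) (ξ : J →ₗ[k] k) (p : LinearMap.ker πY) :
    KK k (LinearMap.ker πJ) (LinearMap.ker πY) :=
  ⟨ξ.smulRight (p : Y), fun _ _ => Submodule.smul_of_tower_mem _ _ p.2⟩

theorem a1_apply (ξ : Jq →ₗ[k] k) (y : Y) (x : J) : (a1 πJ πY ξ y).1 x = ξ (πJ x) • y := rfl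

theorem a2_apply (ξ : J →ₗ[k] k) (p : LinearMap.ker πY) (x : J) :
    (a2 πJ πY ξ p).1 x = ξ x • (p : Y) := rfl

theorem KK.ext' {f g : KK k (LinearMap.ker πJ) (LinearMap.ker πY)} (h : ∀ x, f.1 x = g.1 x) :
    f = g := Subtype.ext (LinearMap.ext h)

theorem KK.add_apply (f g : KK k (LinearMap.ker πJ) (LinearMap.ker πY)) (x : J) :
    (f + g).1 x = f.1 x + g.1 x := rfl

theorem KK.sum_apply {ι : Type} (s : Finset ι)
    (f : ι → KK k (LinearMap.ker πJ) (LinearMap.ker πY)) (x : J) :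
    (∑ i ∈ s, f i).1 x = ∑ i ∈ s, (f i).1 x := by
  rw [AddSubmonoidClass.coe_finset_sum, LinearMap.sum_apply]

theorem a1_add (ξ : Jq →ₗ[k] k) (y y' : Y) :
    a1 πJ πY ξ (y + y') = a1 πJ πY ξ y + a1 πJ πY ξ y' :=
  KK.ext' fun x => smul_add _ _ _

theorem a1_smul (ξ : Jq →ₗ[k] k) (a : A) (y : Y) :
    a1 πJ πY ξ (a • y) = lK a (a1 πJ πY ξ y) :=
  KK.ext' fun x => smul_comm' a _ y

theorem a1_add' (ξ ξ' : Jq →ₗ[k] k) (y : Y) :
    a1 πJ πY (ξ + ξ') y = a1 πJ πY ξ y + a1 πJ πY ξ' y :=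
  KK.ext' fun x => add_smul _ _ _

theorem a1_smul' (ξ : Dl k Jq) (a : A) (y : Y) :
    a1 πJ πY (show Jq →ₗ[k] k from op a • ξ) y = rK (a1 πJ πY ξ y) a :=
  KK.ext' fun x => by
    show ξ (a • πJ x) • y = ξ (πJ (a • x)) • y
    rw [πJ.map_smul]

theorem a2_add (ξ : J →ₗ[k] k) (y y' : LinearMap.ker πY) :
    a2 πJ πY ξ (y + y') = a2 πJ πY ξ y + a2 πJ πY ξ y' :=
  KK.ext' fun x => smul_add _ _ _

theorem a2_smul (ξ : J →ₗ[k] k) (a : A) (y : LinearMap.ker πY) :
    a2 πJ πY ξ (a • y) = lK a (a2 πJ πY ξ y) :=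
  KK.ext' fun x => smul_comm' a _ (y : Y)

theorem a2_add' (ξ ξ' : J →ₗ[k] k) (y : LinearMap.ker πY) :
    a2 πJ πY (ξ + ξ') y = a2 πJ πY ξ y + a2 πJ πY ξ' y :=
  KK.ext' fun x => add_smul _ _ _

theorem a2_smul' (ξ : Dl k J) (a : A) (y : LinearMap.ker πY) :
    a2 πJ πY (show J →ₗ[k] k from op a • ξ) y = rK (a2 πJ πY ξ y) a := rfl

variable [Module.Finite k J] [Module.Finite k Y] [Module.Finite k Jq] [Module.Finite k Yq]

omit [Module.Finite k Y] [Module.Finite k Jq] [Module.Finite k Yq] in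
theorem finite_sub (U : Submodule A J) : Module.Finite k U :=
  inferInstanceAs (Module.Finite k (U.restrictScalars k))

variable (k) in
/-- a basis of a submodule -/
noncomputable def bS (U : Submodule A J) :
    Module.Basis (Fin (Module.finrank k U)) k U := by
  haveI := finite_sub (k := k) U
  exact Module.finBasis k U

theorem ext_coord (U : Submodule A J) (i : Fin (Module.finrank k U)) :
    ∃ ξ : J →ₗ[k] k, ∀ u : U, ξ u = (bS k U).coord i u := by
  obtain ⟨g, hg⟩ := LinearMap.exists_extend (p := U.restrictScalars k) ((bS k U).coord i)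
  exact ⟨g, fun u => LinearMap.congr_fun hg u⟩

variable (k) in
/-- the coordinates extended -/
noncomputable def xiS (U : Submodule A J) (i : Fin (Module.finrank k U)) : J →ₗ[k] k :=
  (ext_coord (k := k) U i).choose

theorem xiS_apply (U : Submodule A J) (i : Fin (Module.finrank k U)) (u : U) :
    xiS k U i u = (bS k U).coord i u := (ext_coord (k := k) U i).choose_spec u

theorem sum_bS (U : Submodule A J) (u : U) :
    (∑ i, (bS k U).coord i u • ((bS k U i : U) : J)) = u := by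
  have h := (bS k U).sum_repr u
  have h2 := congrArg (fun x : U => (x : J)) h
  simp only [Submodule.coe_sum] at h2
  exact h2

variable (hJ : Function.Surjective πJ) (hY : Function.Surjective πY)

/-- a map of `K` vanishing on `U` -/
theorem dec1 (f : KK k (LinearMap.ker πJ) (LinearMap.ker πY))
    (hf : ∀ u ∈ LinearMap.ker πJ, f.1 u = 0) :
    f = ∑ i, a1 πJ πY ((Module.finBasis k Jq).coord i)
      (f.1 (Function.surjInv hJ (Module.finBasis k Jq i))) := by
  refine KK.ext' fun x => ?_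
  rw [KK.sum_apply]
  simp only [a1_apply]
  have h1 : (∑ i, (Module.finBasis k Jq).coord i (πJ x) •
      f.1 (Function.surjInv hJ (Module.finBasis k Jq i))) =
      f.1 (∑ i, (Module.finBasis k Jq).coord i (πJ x) •
        (Function.surjInv hJ (Module.finBasis k Jq i))) := by
    rw [map_sum]
    exact Finset.sum_congr rfl fun i _ => (f.1.map_smul _ _).symm
  rw [h1, ← sub_eq_zero, ← map_sub]
  apply hf
  rw [LinearMap.mem_ker, map_sub, map_sum, sub_eq_zero]
  have h2 : ∀ i, πJ ((Module.finBasis k Jq).coord i (πJ x) •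
        (Function.surjInv hJ (Module.finBasis k Jq i))) =
      (Module.finBasis k Jq).repr (πJ x) i • Module.finBasis k Jq i := by
    intro i
    rw [LinearMap.map_smul_of_tower, Function.surjInv_eq hJ]
    rfl
  simp only [h2]
  exact ((Module.finBasis k Jq).sum_repr _).symm

/-- subtracting the values on `U` -/
theorem dec2 (f : KK k (LinearMap.ker πJ) (LinearMap.ker πY)) (u : J)
    (hu : u ∈ LinearMap.ker πJ) :
    (f - ∑ i, a2 πJ πY (xiS k (LinearMap.ker πJ) i)
      ⟨f.1 (bS k (LinearMap.ker πJ) i : J), f.2 _ (bS k (LinearMap.ker πJ) i).2⟩).1 u = 0 := by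
  have h0 : (f - ∑ i, a2 πJ πY (xiS k (LinearMap.ker πJ) i)
      ⟨f.1 (bS k (LinearMap.ker πJ) i : J), f.2 _ (bS k (LinearMap.ker πJ) i).2⟩).1 u =
      f.1 u - (∑ i, a2 πJ πY (xiS k (LinearMap.ker πJ) i)
      ⟨f.1 (bS k (LinearMap.ker πJ) i : J), f.2 _ (bS k (LinearMap.ker πJ) i).2⟩).1 u := rfl
  rw [h0, KK.sum_apply, sub_eq_zero]
  simp only [a2_apply]
  have h1 : ∀ i, xiS k (LinearMap.ker πJ) i u =
      (bS k (LinearMap.ker πJ)).coord i ⟨u, hu⟩ := fun i => xiS_apply _ i ⟨u, hu⟩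
  simp only [h1]
  have h2 := sum_bS (k := k) (LinearMap.ker πJ) ⟨u, hu⟩
  conv_lhs => rw [show u = _ from h2.symm]
  rw [map_sum]
  exact Finset.sum_congr rfl fun i _ => f.1.map_smul _ _

/-- a map of `K` with values in `P` -/
theorem dec3 (f : KK k (LinearMap.ker πJ) (LinearMap.ker πY))
    (hf : ∀ x, πY (f.1 x) = 0) :
    f = ∑ i, a2 πJ πY ((bS k (LinearMap.ker πY)).coord i ∘ₗ
      (f.1.codRestrict ((LinearMap.ker πY).restrictScalars k) hf))
      (bS k (LinearMap.ker πY) i) := by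
  refine KK.ext' fun x => ?_
  rw [KK.sum_apply]
  exact (sum_bS (k := k) (LinearMap.ker πY) ⟨f.1 x, hf x⟩).symm

/-- subtracting the induced map -/
theorem dec4 (f : KK k (LinearMap.ker πJ) (LinearMap.ker πY)) (x : J) :
    πY ((f - ∑ i, a1 πJ πY ((Module.finBasis k Yq).coord i ∘ₗ bar hJ f)
      (Function.surjInv hY (Module.finBasis k Yq i))).1 x) = 0 := by
  have h0 : (f - ∑ i, a1 πJ πY ((Module.finBasis k Yq).coord i ∘ₗ bar hJ f)
      (Function.surjInv hY (Module.finBasis k Yq i))).1 x = f.1 x -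
      (∑ i, a1 πJ πY ((Module.finBasis k Yq).coord i ∘ₗ bar hJ f)
      (Function.surjInv hY (Module.finBasis k Yq i))).1 x := rfl
  rw [h0, KK.sum_apply, map_sub, sub_eq_zero, map_sum]
  have h2 : ∀ i, πY ((a1 πJ πY ((Module.finBasis k Yq).coord i ∘ₗ bar hJ f)
      (Function.surjInv hY (Module.finBasis k Yq i))).1 x) =
      (Module.finBasis k Yq).repr (πY (f.1 x)) i • Module.finBasis k Yq i := by
    intro i
    rw [a1_apply, LinearMap.map_smul_of_tower, Function.surjInv_eq hY, LinearMap.comp_apply,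
      bar_apply]
    rfl
  simp only [h2]
  exact ((Module.finBasis k Yq).sum_repr _).symm

theorem bar_a1 (ξ : Jq →ₗ[k] k) (y : Y) (x : Jq) :
    bar hJ (a1 πJ πY ξ y) x = ξ x • πY y := by
  obtain ⟨j, rfl⟩ := hJ x
  rw [bar_apply, a1_apply, LinearMap.map_smul_of_tower]

end seq

end Crest.Agent.R186.LinkK721
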