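import Crest.Agent.R186.LinkK4_721

/-!
Row 186, S0281, block LINK (helper721), part 5: `Ext_A(Gam, N)`, `Ext_A(N, Gam)` on both sides, and
the two (co)induced modules.
-/

set_option autoImplicit false
set_option linter.unusedSectionVars false
set_option linter.style.haveILetI false
set_option linter.unusedVariables false

universe u

open CategoryTheory CategoryTheory.Abelian MulOpposite

namespace Crest.Agent.R186.LinkK721

open ExtRes700 Dual700

section seq

variable {k : Type u} [Field k] {A : Type u} [Ring A] [Algebra k A]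
  {J Y : Type u} [AddCommGroup J] [Module k J] [Module A J] [IsScalarTower k A J]
  [AddCommGroup Y] [Module k Y] [Module A Y] [IsScalarTower k A Y]
  {Jq Yq : Type u} [AddCommGroup Jq] [Module k Jq] [Module A Jq] [IsScalarTower k A Jq]
  [AddCommGroup Yq] [Module k Yq] [Module A Yq] [IsScalarTower k A Yq]
  (πJ : J →ₗ[A] Jq) (πY : Y →ₗ[A] Yq)
  [Module.Finite k J] [Module.Finite k Y] [Module.Finite k Jq] [Module.Finite k Yq]

/-- the ring `Gam` -/
abbrev GG (πJ : J →ₗ[A] Jq) (πY : Y →ₗ[A] Yq) : Type u :=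
  Gam k A (LinearMap.ker πJ) (LinearMap.ker πY)

variable (k) in
/-- the inclusion of `A` -/
abbrev phi (πJ : J →ₗ[A] Jq) (πY : Y →ₗ[A] Yq) : A →+* GG (k := k) πJ πY :=
  (inc (k := k) (A := A) (U := LinearMap.ker πJ) (P := LinearMap.ker πY)).toRingHom

variable (k) in
/-- the inclusion of `A^op` -/
abbrev phiOp (πJ : J →ₗ[A] Jq) (πY : Y →ₗ[A] Yq) : Aᵐᵒᵖ →+* (GG (k := k) πJ πY)ᵐᵒᵖ :=
  RingHom.op (phi k πJ πY)

/-- `Y^n → Gam` -/
noncomputable def alL : (Fin (Module.finrank k Jq) → Y) →ₗ[A] RA (phi k πJ πY) (GG (k := k) πJ πY)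
    where
  toFun y := toRA _ (el (∑ i, a1 πJ πY ((Module.finBasis k Jq).coord i) (y i)))
  map_add' y y' := by
    refine Gam.ext (add_zero (0 : A)).symm fun j => ?_
    show (∑ i, a1 πJ πY ((Module.finBasis k Jq).coord i) ((y + y') i)).1 j =
      (∑ i, a1 πJ πY ((Module.finBasis k Jq).coord i) (y i)).1 j +
      (∑ i, a1 πJ πY ((Module.finBasis k Jq).coord i) (y' i)).1 j
    simp only [KK.sum_apply, ← Finset.sum_add_distrib, Pi.add_apply, a1_add, KK.add_apply]
  map_smul' a y := by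
    refine Gam.ext (mul_zero a).symm fun j => ?_
    show (∑ i, a1 πJ πY ((Module.finBasis k Jq).coord i) ((a • y) i)).1 j =
      a • (∑ i, a1 πJ πY ((Module.finBasis k Jq).coord i) (y i)).1 j + (0 : Y)
    rw [add_zero]
    simp only [KK.sum_apply, Finset.smul_sum, Pi.smul_apply, a1_smul, lK_apply]

/-- `Gam → A × P^n` -/
noncomputable def beL : RA (phi k πJ πY) (GG (k := k) πJ πY) →ₗ[A]
    A × (Fin (Module.finrank k (LinearMap.ker πJ)) → LinearMap.ker πY) where
  toFun g := (g.1, fun i => ⟨g.2.1 (bS k (LinearMap.ker πJ) i : J),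
    g.2.2 _ (bS k (LinearMap.ker πJ) i).2⟩)
  map_add' g g' := rfl
  map_smul' a g := by
    refine Prod.ext rfl (funext fun i => Subtype.ext ?_)
    show a • g.2.1 (bS k (LinearMap.ker πJ) i : J) + (0 : Y) = a • g.2.1 _
    rw [add_zero]

variable (hJ : Function.Surjective πJ) (hY : Function.Surjective πY)

theorem alL_inj (hJ : Function.Surjective πJ) : Function.Injective (alL (k := k) πJ πY) := by
  rw [injective_iff_map_eq_zero]
  intro y hy
  funext j
  have h1 : (∑ i, a1 πJ πY ((Module.finBasis k Jq).coord i) (y i)).1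
      (Function.surjInv hJ (Module.finBasis k Jq j)) = 0 := by
    have h2 : (alL (k := k) πJ πY y : GG (k := k) πJ πY).2 = 0 := congrArg Prod.snd hy
    exact congrArg (fun f : KK k (LinearMap.ker πJ) (LinearMap.ker πY) =>
      f.1 (Function.surjInv hJ (Module.finBasis k Jq j))) h2
  rw [KK.sum_apply] at h1
  simp only [a1_apply, Function.surjInv_eq hJ, Module.Basis.coord_apply,
    Module.Basis.repr_self, Finsupp.single_apply, ite_smul, one_smul, zero_smul,
    Finset.sum_ite_eq, Finset.mem_univ, if_true] at h1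
  exact h1

theorem beL_surj : Function.Surjective (beL (k := k) πJ πY) := by
  rintro ⟨a, p⟩
  refine ⟨toRA _ ((a, ∑ i, a2 πJ πY (xiS k (LinearMap.ker πJ) i) (p i)) : GG πJ πY), ?_⟩
  refine Prod.ext rfl (funext fun j => Subtype.ext ?_)
  show (∑ i, a2 πJ πY (xiS k (LinearMap.ker πJ) i) (p i)).1 (bS k (LinearMap.ker πJ) j : J) = _
  rw [KK.sum_apply]
  simp only [a2_apply, xiS_apply, Module.Basis.coord_apply,
    Module.Basis.repr_self, Finsupp.single_apply, ite_smul, one_smul, zero_smul,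
    Finset.sum_ite_eq, Finset.mem_univ, if_true]

include hJ in
theorem exL : Function.Exact (alL (k := k) πJ πY) (beL (k := k) πJ πY) := by
  intro g
  constructor
  · intro hg
    have h1 : g.1 = 0 := congrArg Prod.fst hg
    have h2 : ∀ i, g.2.1 (bS k (LinearMap.ker πJ) i : J) = 0 := fun i =>
      congrArg (fun p : LinearMap.ker πY => (p : Y)) (congrFun (congrArg Prod.snd hg) i)
    have h3 : ∀ u ∈ LinearMap.ker πJ, g.2.1 u = 0 := by
      intro u hu
      have h4 := sum_bS (k := k) (LinearMap.ker πJ) ⟨u, hu⟩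
      have h5 : u = _ := h4.symm
      rw [h5, map_sum]
      refine Finset.sum_eq_zero fun i _ => ?_
      rw [map_smul, h2, smul_zero]
    refine ⟨fun i => g.2.1 (Function.surjInv hJ (Module.finBasis k Jq i)), ?_⟩
    refine Prod.ext h1.symm ?_
    exact (dec1 hJ g.2 h3).symm
  · rintro ⟨y, rfl⟩
    refine Prod.ext rfl (funext fun j => Subtype.ext ?_)
    show (∑ i, a1 πJ πY ((Module.finBasis k Jq).coord i) (y i)).1
      (bS k (LinearMap.ker πJ) j : J) = 0
    rw [KK.sum_apply]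
    refine Finset.sum_eq_zero fun i _ => ?_
    have h1 : πJ (bS k (LinearMap.ker πJ) j : J) = 0 := (bS k (LinearMap.ker πJ) j).2
    rw [a1_apply, h1, map_zero, zero_smul]

include hJ in
/-- `Ext_A(N, Gam) = 0` -/
theorem e0_left {N : Type u} [AddCommGroup N] [Module A N] (i : ℕ) (h1 : E0 A N A i)
    (h2 : E0 A N Y i) (h3 : E0 A N (LinearMap.ker πY) i) :
    E0 A N (RA (phi k πJ πY) (GG (k := k) πJ πY)) i :=
  cmid (alL (k := k) πJ πY) (beL (k := k) πJ πY) (alL_inj πJ πY hJ) (beL_surj πJ πY)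
    (exL πJ πY hJ) i (pi_right i _ h2) (prod_right i h1 (pi_right i _ h3))

include hJ in
/-- `Ext_A(Gam, N) = 0` -/
theorem e0_left' {N : Type u} [AddCommGroup N] [Module A N] (i : ℕ)
    (h2 : E0 A Y N (i + 1)) (h3 : E0 A (LinearMap.ker πY) N (i + 1)) :
    E0 A (RA (phi k πJ πY) (GG (k := k) πJ πY)) N (i + 1) :=
  mid (alL (k := k) πJ πY) (beL (k := k) πJ πY) (alL_inj πJ πY hJ) (beL_surj πJ πY)
    (exL πJ πY hJ) (i + 1) (pi_left _ _ h2) (prod_left _ (proj i) (pi_left _ _ h3))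

/-- `(DJ)^n → Gam` -/
noncomputable def alR : (Fin (Module.finrank k (LinearMap.ker πY)) → Dl k J) →ₗ[Aᵐᵒᵖ]
    RA (phiOp k πJ πY) (GG (k := k) πJ πY)ᵐᵒᵖ where
  toFun ξ := toRA _ (op (el (∑ i, a2 πJ πY (ξ i) (bS k (LinearMap.ker πY) i))))
  map_add' ξ ξ' := by
    refine congrArg op (Gam.ext (add_zero (0 : A)).symm fun j => ?_)
    show (∑ i, a2 πJ πY ((ξ + ξ') i) (bS k (LinearMap.ker πY) i)).1 j =
      (∑ i, a2 πJ πY (ξ i) (bS k (LinearMap.ker πY) i)).1 j +
      (∑ i, a2 πJ πY (ξ' i) (bS k (LinearMap.ker πY) i)).1 j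
    simp only [KK.sum_apply, ← Finset.sum_add_distrib]
    exact Finset.sum_congr rfl fun i _ => add_smul _ _ _
  map_smul' a ξ := by
    refine congrArg op (Gam.ext (zero_mul a.unop).symm fun j => ?_)
    show (∑ i, a2 πJ πY ((a • ξ) i) (bS k (LinearMap.ker πY) i)).1 j =
      (0 : A) • (0 : Y) +
      (∑ i, a2 πJ πY (ξ i) (bS k (LinearMap.ker πY) i)).1 (a.unop • j)
    rw [smul_zero, zero_add]
    simp only [KK.sum_apply]
    rfl

/-- `Gam → A × (D Jq)^n` -/
noncomputable def beR (hJ : Function.Surjective πJ) :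
    RA (phiOp k πJ πY) (GG (k := k) πJ πY)ᵐᵒᵖ →ₗ[Aᵐᵒᵖ]
    Aᵐᵒᵖ × (Fin (Module.finrank k Yq) → Dl k Jq) where
  toFun g := (op g.unop.1, fun i => (Module.finBasis k Yq).coord i ∘ₗ bar hJ g.unop.2)
  map_add' g g' := by
    refine Prod.ext rfl (funext fun i => Dl.ext fun x => ?_)
    show (Module.finBasis k Yq).coord i (bar hJ (g.unop.2 + g'.unop.2) x) =
      (Module.finBasis k Yq).coord i (bar hJ g.unop.2 x) +
      (Module.finBasis k Yq).coord i (bar hJ g'.unop.2 x)
    rw [bar_add, map_add]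
  map_smul' a g := by
    refine Prod.ext rfl (funext fun i => Dl.ext fun x => ?_)
    show (Module.finBasis k Yq).coord i (bar hJ (g.unop * inc a.unop).2 x) =
      (Module.finBasis k Yq).coord i (bar hJ g.unop.2 (a.unop • x))
    rw [← bar_rK]
    congr 1
    congr 1
    congr 1
    refine KK.ext' fun j => ?_
    show g.unop.1 • (0 : Y) + _ = _
    rw [smul_zero, zero_add]
    rfl

theorem alR_inj : Function.Injective (alR (k := k) πJ πY) := by
  rw [injective_iff_map_eq_zero]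
  intro ξ hξ
  have h0 : (∑ i, a2 πJ πY (ξ i) (bS k (LinearMap.ker πY) i)) = 0 :=
    congrArg (fun g : (GG (k := k) πJ πY)ᵐᵒᵖ => g.unop.2) hξ
  funext j
  refine Dl.ext fun x => ?_
  have h1 : (∑ i, (ξ i) x • (bS k (LinearMap.ker πY) i : LinearMap.ker πY)) = 0 := by
    apply Subtype.ext
    have h2 := congrArg (fun f : KK k (LinearMap.ker πJ) (LinearMap.ker πY) => f.1 x) h0
    simp only [KK.sum_apply] at h2
    rw [Submodule.coe_sum]
    exact h2
  exact Fintype.linearIndependent_iff.1 (bS k (LinearMap.ker πY)).linearIndependent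
    (fun i => ξ i x) h1 j

include hY in
theorem beR_surj : Function.Surjective (beR (k := k) πJ πY hJ) := by
  rintro ⟨a, p⟩
  refine ⟨toRA _ (op ((a.unop, ∑ i, a1 πJ πY (p i)
    (Function.surjInv hY (Module.finBasis k Yq i))) : GG πJ πY)), ?_⟩
  refine Prod.ext rfl (funext fun j => Dl.ext fun x => ?_)
  show (Module.finBasis k Yq).coord j (bar hJ (∑ i, a1 πJ πY (p i)
    (Function.surjInv hY (Module.finBasis k Yq i))) x) = p j x
  obtain ⟨x, rfl⟩ := hJ x
  rw [bar_apply, KK.sum_apply, map_sum, map_sum]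
  have h : ∀ i, (Module.finBasis k Yq).coord j (πY ((a1 πJ πY (p i)
      (Function.surjInv hY (Module.finBasis k Yq i))).1 x)) =
      if i = j then (p i) (πJ x) else 0 := by
    intro i
    have h2 : πY ((a1 πJ πY (p i) (Function.surjInv hY (Module.finBasis k Yq i))).1 x) =
        (p i) (πJ x) • Module.finBasis k Yq i := by
      have h3 : (a1 πJ πY (p i) (Function.surjInv hY (Module.finBasis k Yq i))).1 x =
        (p i) (πJ x) • (Function.surjInv hY (Module.finBasis k Yq i)) := rfl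
      rw [h3, LinearMap.map_smul_of_tower, Function.surjInv_eq hY]
    rw [h2, map_smul, Module.Basis.coord_apply, Module.Basis.repr_self, Finsupp.single_apply,
      smul_eq_mul, mul_ite, mul_one, mul_zero]
  refine (Finset.sum_congr rfl fun i _ => h i).trans ?_
  rw [Finset.sum_ite_eq']
  simp

theorem exR : Function.Exact (alR (k := k) πJ πY) (beR (k := k) πJ πY hJ) := by
  intro g
  constructor
  · intro hg
    have h1 : g.unop.1 = 0 := congrArg unop (congrArg Prod.fst hg)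
    have h2 : ∀ i x, (Module.finBasis k Yq).coord i (bar hJ g.unop.2 x) = 0 := fun i x =>
      congrArg (fun p : Dl k Jq => p x) (congrFun (congrArg Prod.snd hg) i)
    have h3 : ∀ x, πY (g.unop.2.1 x) = 0 := by
      intro x
      rw [← bar_apply hJ]
      exact (Module.finBasis k Yq).ext_elem fun i => by
        rw [map_zero]
        exact h2 i _
    refine ⟨fun i => (bS k (LinearMap.ker πY)).coord i ∘ₗ
      (g.unop.2.1.codRestrict ((LinearMap.ker πY).restrictScalars k) h3), ?_⟩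
    refine congrArg op (Prod.ext h1.symm ?_)
    exact (dec3 g.unop.2 h3).symm
  · rintro ⟨ξ, rfl⟩
    refine Prod.ext rfl (funext fun j => Dl.ext fun x => ?_)
    show (Module.finBasis k Yq).coord j (bar hJ
      (∑ i, a2 πJ πY (ξ i) (bS k (LinearMap.ker πY) i)) x) = 0
    obtain ⟨x, rfl⟩ := hJ x
    rw [bar_apply, KK.sum_apply, map_sum]
    have h1 : (∑ i, πY ((a2 πJ πY (ξ i) (bS k (LinearMap.ker πY) i)).1 x)) = 0 := by
      refine Finset.sum_eq_zero fun i _ => ?_
      have h2 : πY (bS k (LinearMap.ker πY) i : Y) = 0 := (bS k (LinearMap.ker πY) i).2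
      have h3 : (a2 πJ πY (ξ i) (bS k (LinearMap.ker πY) i)).1 x =
        (ξ i) x • (bS k (LinearMap.ker πY) i : Y) := rfl
      rw [h3, LinearMap.map_smul_of_tower, h2, smul_zero]
    rw [h1, map_zero]

include hJ hY in
/-- `Ext(N, Gam) = 0`, right modules -/
theorem e0_right {N : Type u} [AddCommGroup N] [Module Aᵐᵒᵖ N] (i : ℕ) (h1 : E0 Aᵐᵒᵖ N Aᵐᵒᵖ i)
    (h2 : E0 Aᵐᵒᵖ N (Dl k J) i) (h3 : E0 Aᵐᵒᵖ N (Dl k Jq) i) :
    E0 Aᵐᵒᵖ N (RA (phiOp k πJ πY) (GG (k := k) πJ πY)ᵐᵒᵖ) i :=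
  cmid (alR (k := k) πJ πY) (beR (k := k) πJ πY hJ) (alR_inj πJ πY) (beR_surj πJ πY hJ hY)
    (exR πJ πY hJ) i (pi_right i _ h2) (prod_right i h1 (pi_right i _ h3))

include hJ hY in
/-- `Ext(Gam, N) = 0`, right modules -/
theorem e0_right' {N : Type u} [AddCommGroup N] [Module Aᵐᵒᵖ N] (i : ℕ)
    (h2 : E0 Aᵐᵒᵖ (Dl k J) N (i + 1)) (h3 : E0 Aᵐᵒᵖ (Dl k Jq) N (i + 1)) :
    E0 Aᵐᵒᵖ (RA (phiOp k πJ πY) (GG (k := k) πJ πY)ᵐᵒᵖ) N (i + 1) :=
  mid (alR (k := k) πJ πY) (beR (k := k) πJ πY hJ) (alR_inj πJ πY) (beR_surj πJ πY hJ hY)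
    (exR πJ πY hJ) (i + 1) (pi_left _ _ h2) (prod_left _ (proj i) (pi_left _ _ h3))

end seq

end Crest.Agent.R186.LinkK721
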