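import Crest.Agent.R186.LinkK5_721

/-!
Row 186, S0281, block LINK (helper721), part 6: the coinduced module `M` and the dual of the
induced module `V`.
-/

set_option autoImplicit false
set_option linter.unusedSectionVars false
set_option linter.style.haveILetI false
set_option linter.unusedVariables false

universe u

open CategoryTheory CategoryTheory.Abelian MulOpposite

namespace Crest.Agent.R186.LinkK721

open ExtRes700 Dual700

section

variable {k : Type u} [Field k] {A : Type u} [Ring A] [Algebra k A]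
  {J Y : Type u} [AddCommGroup J] [Module k J] [Module A J] [IsScalarTower k A J]
  [AddCommGroup Y] [Module k Y] [Module A Y] [IsScalarTower k A Y]
  {Jq Yq : Type u} [AddCommGroup Jq] [Module k Jq] [Module A Jq] [IsScalarTower k A Jq]
  [AddCommGroup Yq] [Module k Yq] [Module A Yq] [IsScalarTower k A Yq]
  {πJ : J →ₗ[A] Jq} {πY : Y →ₗ[A] Yq}
  [Module.Finite k A] [Module.Finite k J] [Module.Finite k Y] [Module.Finite k Jq]
  [Module.Finite k Yq]

instance : IsNoetherianRing (GG (k := k) πJ πY) :=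
  isNoetherian_of_tower k (inferInstance : IsNoetherian k (GG (k := k) πJ πY))

instance : IsNoetherianRing (GG (k := k) πJ πY)ᵐᵒᵖ :=
  isNoetherian_of_tower k (inferInstance : IsNoetherian k (GG (k := k) πJ πY)ᵐᵒᵖ)

/-- a functional not vanishing -/
theorem exists_fun {X : Type u} [AddCommGroup X] [Module k X] (x : X) (hx : x ≠ 0) :
    ∃ ξ : X →ₗ[k] k, ξ x = 1 := by
  by_contra h
  push Not at h
  apply hx
  rw [← Module.forall_dual_apply_eq_zero_iff k]
  intro φ
  by_contra h1
  apply h ((φ x)⁻¹ • φ)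
  show (φ x)⁻¹ * φ x = 1
  exact inv_mul_cancel₀ h1

/-! ### the right-hand side -/

section M

variable {W : Type u} [AddCommGroup W] [Module k W] [Module A W] [IsScalarTower k A W]
  (ϖ : LinearMap.ker πY →ₗ[A] W)

/-- the action on `(U ; W)` -/
def actM : Act k (LinearMap.ker πJ) (LinearMap.ker πY) (LinearMap.ker πJ) W :=
  actP LinearMap.id ϖ

theorem actM_t (f : KK k (LinearMap.ker πJ) (LinearMap.ker πY)) (u : LinearMap.ker πJ) :
    (actM ϖ).t f u = ϖ ⟨f.1 u, f.2 _ u.2⟩ := rfl

/-- `f ↦ g (0, f)` is compatible with the left action -/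
theorem left_lin (g : RA (phi k πJ πY) (GG (k := k) πJ πY) →ₗ[A] W) (a : A)
    (f : KK k (LinearMap.ker πJ) (LinearMap.ker πY)) :
    g (toRA _ (el (lK a f))) = a • g (toRA _ (el f)) := by
  rw [← map_smul, RA.smul_def]
  congr 1
  exact (inc_mul_el a f).symm

/-- `M = Hom_A(Gam, W)` -/
noncomputable def coiM (hJ : Function.Surjective πJ) (hϖ : ϖ ≠ 0)
    (hPW : ∀ g : LinearMap.ker πY →ₗ[A] W, ∃ c : k, ∀ p, g p = c • ϖ p)
    (hYW : ∀ i, E0 A Y W i) (hP : ∀ i, E0 A (LinearMap.ker πY) W (i + 1)) :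
    CoI (phi k πJ πY) (GM (actM (k := k) (πJ := πJ) ϖ)) W where
  pr := (LinearMap.snd A (LinearMap.ker πJ) W) ∘ₗ
    (raGM (actM (k := k) (πJ := πJ) ϖ)).toLinearMap
  uni m hm := by
    have h1 : ∀ g : GG (k := k) πJ πY,
        ϖ ⟨g.2.1 (m.1 : LinearMap.ker πJ), g.2.2 _ (m.1 : LinearMap.ker πJ).2⟩ + g.1 • m.2 = 0 :=
      hm
    have h2 : m.2 = 0 := by
      have h3 := h1 (inc 1)
      have h4 : (⟨((inc 1 : GG (k := k) πJ πY).2.1 (m.1 : LinearMap.ker πJ) : Y),
        (inc 1 : GG (k := k) πJ πY).2.2 _ (m.1 : LinearMap.ker πJ).2⟩ : LinearMap.ker πY) = 0 :=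
        Subtype.ext rfl
      rw [h4, map_zero, zero_add, inc_fst, one_smul] at h3
      exact h3
    refine Prod.ext ?_ h2
    show (m.1 : LinearMap.ker πJ) = 0
    by_contra h3
    have h3' : ((m.1 : LinearMap.ker πJ) : J) ≠ 0 := fun h => h3 (Subtype.ext h)
    obtain ⟨ξ, hξ⟩ := exists_fun (k := k) _ h3'
    obtain ⟨p, hp⟩ : ∃ p, ϖ p ≠ 0 := by
      by_contra h4
      push Not at h4
      exact hϖ (LinearMap.ext h4)
    have h5 := h1 (el (a2 πJ πY ξ p))
    rw [el_fst, zero_smul, add_zero] at h5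
    apply hp
    have h6 : (⟨(a2 πJ πY ξ p).1 (m.1 : LinearMap.ker πJ),
        (a2 πJ πY ξ p).2 _ (m.1 : LinearMap.ker πJ).2⟩ : LinearMap.ker πY) = p := by
      apply Subtype.ext
      show ξ (m.1 : LinearMap.ker πJ) • (p : Y) = p
      rw [hξ, one_smul]
    rw [← h6]
    exact h5
  exi g := by
    -- `g` on `K`
    have hadd : ∀ f f' : KK k (LinearMap.ker πJ) (LinearMap.ker πY),
        g (toRA _ (el (f + f'))) = g (toRA _ (el f)) + g (toRA _ (el f')) := by
      intro f f'
      rw [← map_add]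
      congr 1
      exact el_add f f'
    let h : KK k (LinearMap.ker πJ) (LinearMap.ker πY) →+ W :=
      AddMonoidHom.mk' (fun f => g (toRA _ (el f))) hadd
    have hlin : ∀ (a : A) f, h (lK a f) = a • h f := fun a f => left_lin g a f
    -- step 1
    have s1 : ∀ f : KK k (LinearMap.ker πJ) (LinearMap.ker πY),
        (∀ u ∈ LinearMap.ker πJ, f.1 u = 0) → h f = 0 := by
      intro f hf
      rw [dec1 hJ f hf, map_sum]
      refine Finset.sum_eq_zero fun i _ => ?_
      let h' : Y →ₗ[A] W :=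
        { toFun := fun y => h (a1 πJ πY ((Module.finBasis k Jq).coord i) y)
          map_add' := fun y y' => by rw [a1_add, map_add]
          map_smul' := fun a y => by rw [a1_smul, hlin]; rfl }
      have h2 : h' = 0 := zero_iff.1 (hYW 0) h'
      exact LinearMap.congr_fun h2 _
    -- step 2
    have s2 : ∀ i, ∃ c : k, ∀ p : LinearMap.ker πY,
        h (a2 πJ πY (xiS k (LinearMap.ker πJ) i) p) = c • ϖ p := by
      intro i
      exact hPW
        { toFun := fun y => h (a2 πJ πY (xiS k (LinearMap.ker πJ) i) y)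
          map_add' := fun y y' => by rw [a2_add, map_add]
          map_smul' := fun a y => by rw [a2_smul, hlin]; rfl }
    choose c hc using s2
    let u : LinearMap.ker πJ := ∑ i, c i • bS k (LinearMap.ker πJ) i
    refine ⟨((u, g (toRA _ (inc 1))) : LinearMap.ker πJ × W), fun x => ?_⟩
    show ϖ ⟨x.2.1 u, x.2.2 _ u.2⟩ + x.1 • g (toRA _ (inc 1)) = g (toRA _ x)
    have h3 : h x.2 = ϖ ⟨x.2.1 u, x.2.2 _ u.2⟩ := by
      have h4 := s1 _ (fun u hu => dec2 x.2 u hu)
      rw [map_sub, sub_eq_zero, map_sum] at h4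
      rw [h4]
      simp only [hc]
      have h5 : (⟨x.2.1 u, x.2.2 _ u.2⟩ : LinearMap.ker πY) =
          ∑ i, c i • (⟨x.2.1 (bS k (LinearMap.ker πJ) i : J),
            x.2.2 _ (bS k (LinearMap.ker πJ) i).2⟩ : LinearMap.ker πY) := by
        apply Subtype.ext
        have h6 : ((∑ i, c i • (⟨x.2.1 (bS k (LinearMap.ker πJ) i : J),
            x.2.2 _ (bS k (LinearMap.ker πJ) i).2⟩ : LinearMap.ker πY) : LinearMap.ker πY) : Y) =
            ∑ i, c i • x.2.1 (bS k (LinearMap.ker πJ) i : J) := by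
          rw [Submodule.coe_sum]
          rfl
        refine Eq.trans ?_ h6.symm
        show x.2.1 ((∑ i, c i • bS k (LinearMap.ker πJ) i : LinearMap.ker πJ) : J) =
          ∑ i, c i • x.2.1 (bS k (LinearMap.ker πJ) i : J)
        rw [Submodule.coe_sum, map_sum]
        exact Finset.sum_congr rfl fun i _ => x.2.1.map_smul _ _
      rw [h5, map_sum]
      exact Finset.sum_congr rfl fun i _ => (LinearMap.map_smul_of_tower ϖ _ _).symm
    have h6 : g (toRA _ x) = g (toRA _ (inc x.1)) + h x.2 := by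
      show _ = g (toRA _ (inc x.1)) + g (toRA _ (el x.2))
      rw [← map_add]
      congr 1
      exact inc_add_el x
    have h7 : g (toRA _ (inc x.1)) = x.1 • g (toRA _ (inc 1)) := by
      rw [← map_smul, RA.smul_def]
      congr 1
      show (inc x.1 : GG (k := k) πJ πY) = inc x.1 * inc 1
      rw [map_one, mul_one]
    rw [h6, h7, h3, add_comm]
  ac i := e0_left' πJ πY hJ i (hYW (i + 1)) (hP i)

end M

end

end Crest.Agent.R186.LinkK721
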