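import Crest.Agent.R186.LinkK6_721

/-!
Row 186, S0281, block LINK (helper721), part 7: duality and (co)induction; the induced module `V`.
-/

set_option autoImplicit false
set_option linter.unusedSectionVars false
set_option linter.style.haveILetI false
set_option linter.unusedVariables false

universe u

open CategoryTheory CategoryTheory.Abelian MulOpposite

namespace Crest.Agent.R186.LinkK721

open ExtRes700 Dual700

/-! ### duality for restricted modules -/

section gen

variable {k : Type u} [Field k] {A G : Type u} [Ring A] [Algebra k A] [Ring G] [Algebra k G]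

instance (φ : A →+* G) (X : Type u) [AddCommGroup X] [Module k X] : Module k (RA φ X) :=
  inferInstanceAs (Module k X)

instance (φ : A →+* G) (X : Type u) [AddCommGroup X] [Module k X] [Module.Finite k X] :
    Module.Finite k (RA φ X) :=
  inferInstanceAs (Module.Finite k X)

variable (φ : A →ₐ[k] G)

instance (X : Type u) [AddCommGroup X] [Module k X] [Module G X] [IsScalarTower k G X] :
    IsScalarTower k A (RA φ.toRingHom X) := ⟨fun r a x => by
  show (φ (r • a) • (show X from x) : X) = r • (φ a • (show X from x) : X)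
  rw [map_smul, smul_assoc]⟩

/-- restriction and duals commute -/
def raDl (Z : Type u) [AddCommGroup Z] [Module k Z] [Module G Z] [IsScalarTower k G Z] :
    RA (RingHom.op φ.toRingHom) (Dl k Z) ≃ₗ[Aᵐᵒᵖ] Dl k (RA φ.toRingHom Z) where
  toFun x := x
  invFun x := x
  map_add' _ _ := rfl
  map_smul' a x := rfl
  left_inv _ := rfl
  right_inv _ := rfl

/-- the dual of a right module -/
def Dr (k : Type u) [Field k] (X : Type u) [AddCommGroup X] [Module k X] : Type u := X →ₗ[k] k

variable {X : Type u} [AddCommGroup X] [Module k X] [Module Gᵐᵒᵖ X] [IsScalarTower k Gᵐᵒᵖ X]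

instance : AddCommGroup (Dr k X) := inferInstanceAs (AddCommGroup (X →ₗ[k] k))
instance : Module k (Dr k X) := inferInstanceAs (Module k (X →ₗ[k] k))
instance [Module.Finite k X] : Module.Finite k (Dr k X) :=
  inferInstanceAs (Module.Finite k (X →ₗ[k] k))
instance [Module.Finite k X] : Module.Finite k (Dl k X) :=
  inferInstanceAs (Module.Finite k (X →ₗ[k] k))
instance : FunLike (Dr k X) X k := inferInstanceAs (FunLike (X →ₗ[k] k) X k)

instance : Module G (Dr k X) where
  smul a φ := (show X →ₗ[k] k from φ) ∘ₗ lm (A := Gᵐᵒᵖ) X (op a)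
  one_smul φ := LinearMap.ext fun x => by
    show φ ((1 : Gᵐᵒᵖ) • x) = φ x
    rw [one_smul]
  mul_smul a b φ := LinearMap.ext fun x => by
    show φ ((op (a * b)) • x) = φ (op b • (op a • x))
    rw [MulOpposite.op_mul, mul_smul]
  smul_zero a := LinearMap.ext fun x => rfl
  smul_add a φ ψ := LinearMap.ext fun x => rfl
  add_smul a b φ := LinearMap.ext fun x => by
    show φ (op (a + b) • x) = φ (op a • x) + φ (op b • x)
    rw [MulOpposite.op_add, add_smul]
    exact LinearMap.map_add φ _ _
  zero_smul φ := LinearMap.ext fun x => by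
    show φ (op (0 : G) • x) = 0
    rw [MulOpposite.op_zero, zero_smul]
    exact LinearMap.map_zero φ

theorem Dr.smul_apply (a : G) (φ : Dr k X) (x : X) : (a • φ) x = φ (op a • x) := rfl

instance : IsScalarTower k G (Dr k X) where
  smul_assoc c a φ := LinearMap.ext fun x => by
    show φ (op (c • a) • x) = c • φ (op a • x)
    rw [MulOpposite.op_smul, smul_assoc]
    exact LinearMap.map_smul φ _ _

variable [Module.Finite k X]

/-- biduality -/
noncomputable def bid : X ≃ₗ[Gᵐᵒᵖ] Dl k (Dr k X) :=
  { Module.evalEquiv k X with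
    map_smul' := fun a x => Dl.ext fun φ => rfl }

/-- biduality and restriction -/
noncomputable def bidR : RA (RingHom.op φ.toRingHom) X ≃ₗ[Aᵐᵒᵖ]
    Dl k (RA φ.toRingHom (Dr k X)) :=
  { Module.evalEquiv k X with
    map_smul' := fun a x => Dl.ext fun φ => rfl }

variable [Module.Finite k A] [Module.Finite k G]

theorem finiteG (Z : Type u) [AddCommGroup Z] [Module k Z] [Module G Z] [IsScalarTower k G Z]
    [Module.Finite k Z] : Module.Finite G Z := Module.Finite.of_restrictScalars_finite k G Z

theorem noethG (k : Type u) [Field k] (G : Type u) [Ring G] [Algebra k G] [Module.Finite k G] :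
    IsNoetherianRing G := isNoetherian_of_tower k (inferInstance : IsNoetherian k G)

/-- **induction**: `Ext_G(V, Z) = 0` from `Ext_A(V0, Z) = 0` -/
theorem ind {V V0 : Type u} [AddCommGroup V] [Module k V] [Module G V] [IsScalarTower k G V]
    [Module.Finite k V] [AddCommGroup V0] [Module k V0] [Module A V0] [IsScalarTower k A V0]
    [Module.Finite k V0] (c : CoI (RingHom.op φ.toRingHom) (Dl k V) (Dl k V0))
    (Z : Type u) [AddCommGroup Z] [Module k Z] [Module G Z] [IsScalarTower k G Z]
    [Module.Finite k Z] (i : ℕ) (h : E0 A V0 (RA φ.toRingHom Z) i) : E0 G V Z i := by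
  haveI : IsNoetherianRing A := noethG k A
  haveI : IsNoetherianRing G := noethG k G
  haveI : IsNoetherianRing Gᵐᵒᵖ := noethG k Gᵐᵒᵖ
  haveI : Module.Finite G V := finiteG (k := k) V
  haveI : Module.Finite A V0 := finiteG (k := k) V0
  haveI : Module.Finite Gᵐᵒᵖ (Dl k Z) := finiteG (k := k) (G := Gᵐᵒᵖ) (Dl k Z)
  rw [dual_iff (K := k) V Z i]
  refine c.coind i ⟨Dl k Z⟩ ?_
  exact iso_left (raDl φ Z).symm i ((dual_iff (K := k) V0 (RA φ.toRingHom Z) i).1 h)

/-- **coinduction, right modules**: `Ext(DM, X) = 0` from `Ext(DW, X) = 0` -/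
theorem coindR {M W : Type u} [AddCommGroup M] [Module k M] [Module G M] [IsScalarTower k G M]
    [Module.Finite k M] [AddCommGroup W] [Module k W] [Module A W] [IsScalarTower k A W]
    [Module.Finite k W] (c : CoI φ.toRingHom M W) (i : ℕ)
    (h : E0 Aᵐᵒᵖ (Dl k W) (RA (RingHom.op φ.toRingHom) X) i) : E0 Gᵐᵒᵖ (Dl k M) X i := by
  haveI : IsNoetherianRing A := noethG k A
  haveI : IsNoetherianRing G := noethG k G
  haveI : Module.Finite G (Dr k X) := finiteG (k := k) (Dr k X)
  haveI : Module.Finite A (RA φ.toRingHom (Dr k X)) :=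
    finiteG (k := k) (G := A) (RA φ.toRingHom (Dr k X))
  refine iso_right (bid (k := k) (G := G) (X := X)).symm i ?_
  rw [← dual_iff (K := k) (Dr k X) M i]
  refine c.coind i ⟨Dr k X⟩ ?_
  rw [dual_iff (K := k) (RA φ.toRingHom (Dr k X)) W i]
  exact iso_right (bidR φ) i h

end gen

end Crest.Agent.R186.LinkK721
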