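import Crest.Agent.R186.LinkK7_721

/-!
Row 186, S0281, block LINK (helper721), part 8: the induced module `V`.
-/

set_option autoImplicit false
set_option linter.unusedSectionVars false
set_option linter.style.haveILetI false
set_option linter.unusedVariables false

universe u

open CategoryTheory CategoryTheory.Abelian MulOpposite

namespace Crest.Agent.R186.LinkK721

open ExtRes700 Dual700

section

variable {k : Type u} [Field k] {A : Type u} [Ring A] [Algebra k A]
  {J Y : Type u} [AddCommGroup J] [Module k J] [Module A J] [IsScalarTower k A J]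
  [AddCommGroup Y] [Module k Y] [Module A Y] [IsScalarTower k A Y]
  {Jq Yq : Type u} [AddCommGroup Jq] [Module k Jq] [Module A Jq] [IsScalarTower k A Jq]
  [AddCommGroup Yq] [Module k Yq] [Module A Yq] [IsScalarTower k A Yq]
  {πJ : J →ₗ[A] Jq} {πY : Y →ₗ[A] Yq}
  [Module.Finite k A] [Module.Finite k J] [Module.Finite k Y] [Module.Finite k Jq]
  [Module.Finite k Yq]
  {V0 : Type u} [AddCommGroup V0] [Module k V0] [Module A V0] [IsScalarTower k A V0]
  [Module.Finite k V0] (hJ : Function.Surjective πJ) (hY : Function.Surjective πY)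
  (ι : V0 →ₗ[A] Jq)

/-- the action on `(V0 ; Y/P)` -/
noncomputable def actV : Act k (LinearMap.ker πJ) (LinearMap.ker πY) V0 Yq :=
  actQ hJ ι LinearMap.id

theorem actV_t (f : KK k (LinearMap.ker πJ) (LinearMap.ker πY)) (v : V0) :
    (actV hJ ι).t f v = bar hJ f (ι v) := rfl

/-- `v ↦ (v, 0)` -/
noncomputable def sV : V0 →ₗ[A] RA (phi k πJ πY) (GM (actV (k := k) (πY := πY) hJ ι)) :=
  (raGM (actV (k := k) (πY := πY) hJ ι)).symm.toLinearMap ∘ₗ (LinearMap.inl A V0 Yq)

/-- the element `(v, y)` -/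
def prV (v : V0) (y : Yq) : GM (actV (k := k) (πY := πY) hJ ι) := ((v, y) : V0 × Yq)

theorem smul_prV (g : GG (k := k) πJ πY) (v : V0) :
    g • prV (k := k) (πY := πY) hJ ι v 0 = prV hJ ι (g.1 • v) (bar hJ g.2 (ι v)) :=
  Prod.ext rfl (by
    show bar hJ g.2 (ι v) + g.1 • (0 : Yq) = bar hJ g.2 (ι v)
    rw [smul_zero, add_zero])

theorem right_lin {W : Type u} [AddCommGroup W] [Module Aᵐᵒᵖ W]
    (g : RA (phiOp k πJ πY) (GG (k := k) πJ πY)ᵐᵒᵖ →ₗ[Aᵐᵒᵖ] W) (a : A)
    (f : KK k (LinearMap.ker πJ) (LinearMap.ker πY)) :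
    g (toRA _ (op (el (rK f a)))) = op a • g (toRA _ (op (el f))) := by
  rw [← map_smul, RA.smul_def]
  congr 1
  exact congrArg op (el_mul_inc a f).symm

include hY in
/-- `DV = Hom(Gam, DV0)` -/
theorem exi_V (hVJ : ∀ f : V0 →ₗ[A] J, f = 0)
    (hVq : ∀ f : V0 →ₗ[A] Jq, ∃ c : k, ∀ v, f v = c • ι v)
    (g : RA (phiOp k πJ πY) (GG (k := k) πJ πY)ᵐᵒᵖ →ₗ[Aᵐᵒᵖ] Dl k V0) :
    ∃ m : Dl k (GM (actV (k := k) (πY := πY) hJ ι)), ∀ (x : GG (k := k) πJ πY) (v : V0),
      m (prV hJ ι (x.1 • v) (bar hJ x.2 (ι v))) = g (toRA _ (op x)) v := by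
  have hadd : ∀ f f' : KK k (LinearMap.ker πJ) (LinearMap.ker πY),
      g (toRA _ (op (el (f + f')))) = g (toRA _ (op (el f))) + g (toRA _ (op (el f'))) := by
    intro f f'
    rw [← map_add]
    congr 1
    exact congrArg op (el_add f f')
  let h : KK k (LinearMap.ker πJ) (LinearMap.ker πY) →+ Dl k V0 :=
    AddMonoidHom.mk' (fun f => g (toRA _ (op (el f)))) hadd
  have hlin : ∀ (a : A) f, h (rK f a) = op a • h f := fun a f => right_lin g a f
  -- step 1
  have s1 : ∀ f : KK k (LinearMap.ker πJ) (LinearMap.ker πY),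
      (∀ x, πY (f.1 x) = 0) → h f = 0 := by
    intro f hf
    rw [dec3 f hf, map_sum]
    refine Finset.sum_eq_zero fun i _ => ?_
    let F : Dl k J →ₗ[Aᵐᵒᵖ] Dl k V0 :=
      { toFun := fun ξ => h (a2 πJ πY ξ (bS k (LinearMap.ker πY) i))
        map_add' := fun ξ ξ' => by
          rw [← map_add]
          exact congrArg h (a2_add' _ _ _)
        map_smul' := fun a ξ => by
          show h (a2 πJ πY (show J →ₗ[k] k from op a.unop • ξ) _) = _
          rw [a2_smul', hlin]
          rfl }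
    obtain ⟨f0, hf0⟩ := dm_surjective F
    have h2 : F = 0 := by
      rw [← hf0, hVJ f0]
      exact dm_zero
    exact LinearMap.congr_fun h2 _
  -- step 2
  have s2 : ∀ i, ∃ c : k, ∀ (ξ : Jq →ₗ[k] k) (v : V0),
      h (a1 πJ πY ξ (Function.surjInv hY (Module.finBasis k Yq i))) v = c * ξ (ι v) := by
    intro i
    let F : Dl k Jq →ₗ[Aᵐᵒᵖ] Dl k V0 :=
      { toFun := fun ξ => h (a1 πJ πY ξ (Function.surjInv hY (Module.finBasis k Yq i)))
        map_add' := fun ξ ξ' => by
          rw [← map_add]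
          exact congrArg h (a1_add' _ _ _)
        map_smul' := fun a ξ => by
          show h (a1 πJ πY (show Jq →ₗ[k] k from op a.unop • ξ) _) = _
          rw [a1_smul', hlin]
          rfl }
    obtain ⟨f0, hf0⟩ := dm_surjective F
    obtain ⟨c, hc⟩ := hVq f0
    refine ⟨c, fun ξ v => ?_⟩
    have h2 : (dm k f0 (show Dl k Jq from ξ)) v = (F ξ) v := by rw [hf0]
    have h3 : (dm k f0 (show Dl k Jq from ξ)) v = ξ (f0 v) := rfl
    rw [hc, map_smul, smul_eq_mul] at h3
    exact (h2.symm.trans h3)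
  choose c hc using s2
  let lam : Yq →ₗ[k] k := ∑ i, c i • (Module.finBasis k Yq).coord i
  have hlam : ∀ y, lam y = ∑ i, c i * (Module.finBasis k Yq).coord i y := by
    intro y
    show (∑ i, c i • (Module.finBasis k Yq).coord i) y = _
    rw [LinearMap.sum_apply]
    rfl
  let g1 : V0 →ₗ[k] k := g (toRA _ (op (inc 1)))
  let m : V0 × Yq →ₗ[k] k := LinearMap.coprod g1 lam
  refine ⟨m, fun x v => ?_⟩
  have e1 : (show Dl k (GM (actV (k := k) (πY := πY) hJ ι)) from m)
      (prV hJ ι (x.1 • v) (bar hJ x.2 (ι v))) = g1 (x.1 • v) + lam (bar hJ x.2 (ι v)) :=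
    LinearMap.coprod_apply _ _ _
  rw [e1]
  have h3 : h x.2 v = lam (bar hJ x.2 (ι v)) := by
    have h4 := s1 _ (fun u => dec4 hJ hY x.2 u)
    rw [map_sub, sub_eq_zero, map_sum] at h4
    rw [h4, hlam]
    have h5 : ∀ (s : Finset (Fin (Module.finrank k Yq))) (F : Fin (Module.finrank k Yq) → Dl k V0),
        (∑ i ∈ s, F i) v = ∑ i ∈ s, (F i) v := by
      intro s F
      exact LinearMap.sum_apply s (fun i => (show V0 →ₗ[k] k from F i)) v
    rw [h5]
    exact Finset.sum_congr rfl fun i _ => hc i _ v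
  have h6 : g (toRA _ (op x)) = g (toRA _ (op (inc x.1))) + h x.2 := by
    show _ = g (toRA _ (op (inc x.1))) + g (toRA _ (op (el x.2)))
    rw [← map_add]
    congr 1
    exact congrArg op (inc_add_el x)
  have h7 : g (toRA _ (op (inc x.1))) = op x.1 • g (toRA _ (op (inc 1))) := by
    rw [← map_smul, RA.smul_def]
    congr 1
    refine congrArg op ?_
    show (inc x.1 : GG (k := k) πJ πY) = inc 1 * inc x.1
    rw [map_one, one_mul]
  rw [h6, h7, Dl.add_apply, h3]
  rfl

/-- `DV = Hom(Gam, DV0)` -/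
noncomputable def coiV (hY : Function.Surjective πY) (hι : ι ≠ 0)
    (hVq : ∀ f : V0 →ₗ[A] Jq, ∃ c : k, ∀ v, f v = c • ι v)
    (hVJ : ∀ i, E0 A V0 J i) (hVJq : ∀ i, E0 A V0 Jq (i + 1)) :
    CoI (phiOp k πJ πY) (Dl k (GM (actV (k := k) (πY := πY) hJ ι))) (Dl k V0) where
  pr := dm k (sV (k := k) (πY := πY) hJ ι) ∘ₗ
    (raDl (inc (k := k) (A := A) (U := LinearMap.ker πJ) (P := LinearMap.ker πY))
      (GM (actV (k := k) (πY := πY) hJ ι))).toLinearMap
  uni m hm := by
    have h1 : ∀ (g : GG (k := k) πJ πY) (v : V0),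
        m (prV hJ ι (g.1 • v) (bar hJ g.2 (ι v))) = 0 := by
      intro g v
      rw [← smul_prV]
      exact congrArg (fun χ : Dl k V0 => χ v) (hm (op g))
    obtain ⟨v, hv⟩ : ∃ v, ι v ≠ 0 := by
      by_contra h4
      push Not at h4
      exact hι (LinearMap.ext h4)
    obtain ⟨ξ, hξ⟩ := exists_fun (k := k) _ hv
    refine Dl.ext fun x => ?_
    have h2 : m (prV hJ ι x.1 0) = 0 := by
      have h3 := h1 1 x.1
      have h4 : bar hJ (1 : GG (k := k) πJ πY).2 (ι x.1) = 0 := by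
        obtain ⟨j, hj⟩ := hJ (ι x.1)
        rw [← hj, bar_apply]
        exact map_zero πY
      rw [h4, one_fst, one_smul] at h3
      exact h3
    have h5 : m (prV hJ ι 0 x.2) = 0 := by
      obtain ⟨y, hy⟩ := hY x.2
      have h3 := h1 (el (a1 πJ πY ξ y)) v
      rw [el_fst, zero_smul, el_snd, bar_a1, hξ, one_smul, hy] at h3
      exact h3
    have h6 : x = prV hJ ι x.1 0 + prV hJ ι 0 x.2 :=
      Prod.ext (add_zero _).symm (zero_add _).symm
    rw [h6, Dl.map_add, h2, h5, add_zero]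
    rfl
  exi g := by
    obtain ⟨m, hm⟩ := exi_V hJ hY ι (zero_iff.1 (hVJ 0)) hVq g
    refine ⟨m, fun x => Dl.ext fun v => ?_⟩
    have h1 := hm x.unop v
    rw [← smul_prV] at h1
    exact h1
  ac i := by
    haveI : IsNoetherianRing A := noethG k A
    haveI : Module.Finite A V0 := finiteG (k := k) V0
    haveI : Module.Finite A J := finiteG (k := k) J
    exact e0_right' πJ πY hJ hY i ((dual_iff (K := k) V0 J (i + 1)).1 (hVJ (i + 1)))
      ((dual_iff (K := k) V0 Jq (i + 1)).1 (hVJq i))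

end

end Crest.Agent.R186.LinkK721
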