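import Crest.Agent.R186.ExtRes_700

/-!
Row 186 (helper870): `E0` is invariant under ring isomorphisms with semilinear module
isomorphisms.
-/

set_option autoImplicit false
set_option linter.style.haveILetI false

universe u

open CategoryTheory CategoryTheory.Abelian

namespace Crest.Agent.R186.RingIso870

open ExtRes700

/-! ### the criterion for one short exact sequence with projective middle term -/

section one

variable {R : Type u} [Ring R] {Z P X N : Type u} [AddCommGroup Z] [Module R Z] [AddCommGroup P]
  [Module R P] [AddCommGroup X] [Module R X] [AddCommGroup N] [Module R N]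
  (f : Z →ₗ[R] P) (g : P →ₗ[R] X)

theorem one_iff (hf : Function.Injective f) (hg : Function.Surjective g)
    (he : Function.Exact f g) [Module.Projective R P] :
    E0 R X N 1 ↔ ∀ φ : Z →ₗ[R] N, ∃ ψ : P →ₗ[R] N, ψ ∘ₗ f = φ := by
  haveI hP : Projective (ModuleCat.of R P) :=
    (IsProjective.iff_projective (ModuleCat.of R P)).1 inferInstance
  have hse := se f g hf hg he
  constructor
  · intro h φ
    let x : Ext (ModuleCat.of R Z) (ModuleCat.of R N) 0 := Ext.mk₀ (ModuleCat.ofHom φ)
    have h0 : hse.extClass.comp x (add_zero 1) = 0 := h.elim _ _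
    obtain ⟨y, hy⟩ := Ext.contravariant_sequence_exact₁ hse (ModuleCat.of R N) x (add_zero 1) h0
    obtain ⟨ψ, rfl⟩ := Ext.homEquiv₀.symm.surjective y
    rw [Ext.homEquiv₀_symm_apply, Ext.mk₀_comp_mk₀] at hy
    have h1 := Ext.homEquiv₀.symm.injective
      (a₁ := ModuleCat.ofHom f ≫ ψ) (a₂ := ModuleCat.ofHom φ)
      (by simpa [Ext.homEquiv₀_symm_apply] using hy)
    exact ⟨ψ.hom, congrArg ModuleCat.Hom.hom h1⟩
  · intro h
    apply sub_of_zero
    intro x
    have h0 : (Ext.mk₀ (ModuleCat.ofHom g)).comp x (zero_add 1) = 0 :=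
      Ext.eq_zero_of_projective (P := ModuleCat.of R P) (n := 0) _
    obtain ⟨y, hy⟩ := Ext.contravariant_sequence_exact₃ hse (ModuleCat.of R N) x h0
      (add_comm 1 0)
    obtain ⟨φ, rfl⟩ := Ext.homEquiv₀.symm.surjective y
    obtain ⟨ψ, hψ⟩ := h φ.hom
    have h1 : φ = ModuleCat.ofHom f ≫ (ModuleCat.ofHom ψ) := by
      ext1
      exact hψ.symm
    rw [← hy, Ext.homEquiv₀_symm_apply, h1, ← Ext.mk₀_comp_mk₀]
    rw [← Ext.comp_assoc (hse.extClass) (Ext.mk₀ (ModuleCat.ofHom f))
      (Ext.mk₀ (ModuleCat.ofHom ψ)) (add_zero 1) (zero_add 0) (by omega)]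
    have h2 : hse.extClass.comp (Ext.mk₀ (ModuleCat.ofHom f))
      (add_zero 1) = 0 := hse.extClass_comp
    rw [h2, Ext.zero_comp]

end one

/-! ### twisting a module by a ring isomorphism -/

variable {R S : Type u} [Ring R] [Ring S] (φ : R ≃+* S)

/-- an `R`-module as an `S`-module, through `φ⁻¹` -/
def Tw (_φ : R ≃+* S) (X : Type u) : Type u := X

section Tw

variable {X : Type u} [AddCommGroup X] [Module R X]

instance : AddCommGroup (Tw φ X) := inferInstanceAs (AddCommGroup X)

instance : Module S (Tw φ X) := Module.compHom X (φ.symm : S →+* R)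

/-- the identity -/
def tw : X ≃+ Tw φ X := AddEquiv.refl X

theorem tw_smul (r : R) (x : X) : tw φ (r • x) = φ r • tw φ x := by
  show r • x = φ.symm (φ r) • x
  rw [φ.symm_apply_apply]

theorem tw_symm_smul (s : S) (x : Tw φ X) : (tw φ).symm (s • x) = φ.symm s • (tw φ).symm x := rfl

end Tw

/-- conjugation of a linear map by additive isomorphisms -/
def conj {X Y X' Y' : Type u} [AddCommGroup X] [Module R X] [AddCommGroup Y] [Module R Y]
    [AddCommGroup X'] [Module S X'] [AddCommGroup Y'] [Module S Y'] (e : X ≃+ X') (e' : Y ≃+ Y')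
    (he : ∀ (r : R) (x : X), e (r • x) = φ r • e x)
    (he' : ∀ (r : R) (x : Y), e' (r • x) = φ r • e' x) (f : X →ₗ[R] Y) : X' →ₗ[S] Y' where
  toFun x := e' (f (e.symm x))
  map_add' x y := by rw [map_add, map_add, map_add]
  map_smul' s x := by
    have h1 : e.symm (s • x) = φ.symm s • e.symm x := by
      apply e.injective
      rw [he, e.apply_symm_apply, e.apply_symm_apply, φ.apply_symm_apply]
    rw [h1, map_smul, he', φ.apply_symm_apply, RingHom.id_apply]

theorem symm_smul {X X' : Type u} [AddCommGroup X] [Module R X] [AddCommGroup X'] [Module S X']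
    (e : X ≃+ X') (he : ∀ (r : R) (x : X), e (r • x) = φ r • e x) (s : S) (x : X') :
    e.symm (s • x) = φ.symm s • e.symm x := by
  apply e.injective
  rw [he, e.apply_symm_apply, e.apply_symm_apply, φ.apply_symm_apply]

/-- a twisted projective module is projective -/
theorem projective {X X' : Type u} [AddCommGroup X] [Module R X] [AddCommGroup X'] [Module S X']
    (e : X ≃+ X') (he : ∀ (r : R) (x : X), e (r • x) = φ r • e x) [Module.Projective R X] :
    Module.Projective S X' := by
  refine Module.Projective.of_lifting_property'' fun f hf => ?_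
  let F : Tw φ.symm (X' →₀ S) →ₗ[R] X :=
    conj φ.symm (tw φ.symm) e.symm (tw_smul φ.symm) (symm_smul φ e he) f
  have hF : Function.Surjective F := by
    intro x
    obtain ⟨y, hy⟩ := hf (e x)
    exact ⟨tw φ.symm y, by
      show e.symm (f ((tw φ.symm).symm (tw φ.symm y))) = x
      rw [AddEquiv.symm_apply_apply, hy, e.symm_apply_apply]⟩
  obtain ⟨G, hG⟩ := Module.projective_lifting_property F LinearMap.id hF
  refine ⟨conj φ e (tw φ.symm).symm he (fun r x => ?_) G, ?_⟩
  · exact tw_symm_smul φ.symm r x
  · ext x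
    have h1 := LinearMap.congr_fun hG (e.symm x)
    have h2 : e.symm (f ((tw φ.symm).symm (G (e.symm x)))) = e.symm x := h1
    exact e.symm.injective h2

section main

/-- **`E0` is invariant under ring isomorphisms.** -/
theorem e0 (i : ℕ) : ∀ {X X' N N' : Type u} [AddCommGroup X] [Module R X] [AddCommGroup X']
    [Module S X'] [AddCommGroup N] [Module R N] [AddCommGroup N'] [Module S N']
    (e : X ≃+ X') (e' : N ≃+ N') (_he : ∀ (r : R) (x : X), e (r • x) = φ r • e x)
    (_he' : ∀ (r : R) (x : N), e' (r • x) = φ r • e' x), E0 R X N i → E0 S X' N' i := by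
  induction i with
  | zero =>
    intro X X' N N' _ _ _ _ _ _ _ _ e e' he he' h
    rw [zero_iff] at h ⊢
    intro f
    have h1 := h (conj φ.symm e.symm e'.symm (symm_smul φ e he) (symm_smul φ e' he') f)
    ext x
    have h2 : e'.symm (f (e.symm.symm (e.symm x))) = 0 := LinearMap.congr_fun h1 (e.symm x)
    rw [AddEquiv.symm_symm, e.apply_symm_apply] at h2
    exact e'.symm.injective (h2.trans (map_zero _).symm)
  | succ i ih =>
    intro X X' N N' _ _ _ _ _ _ _ _ e e' he he' h
    -- the free cover
    let P : Type u := X →₀ R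
    let g : P →ₗ[R] X := Finsupp.linearCombination R (fun x : X => x)
    have hg : Function.Surjective g := Finsupp.linearCombination_id_surjective R X
    let Z := LinearMap.ker g
    let f : Z →ₗ[R] P := Z.subtype
    have hf : Function.Injective f := Z.injective_subtype
    have hex : Function.Exact f g := LinearMap.exact_subtype_ker_map g
    haveI : Module.Projective S (Tw φ P) := projective φ (tw φ) (tw_smul φ)
    let f' : Tw φ Z →ₗ[S] Tw φ P := conj φ (tw φ) (tw φ) (tw_smul φ) (tw_smul φ) f
    let g' : Tw φ P →ₗ[S] X' := conj φ (tw φ) e (tw_smul φ) he g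
    have hf' : Function.Injective f' := fun x y hxy => hf hxy
    have hg' : Function.Surjective g' := by
      intro x
      obtain ⟨y, hy⟩ := hg (e.symm x)
      exact ⟨tw φ y, by
        show e (g ((tw φ).symm (tw φ y))) = x
        rw [AddEquiv.symm_apply_apply, hy, e.apply_symm_apply]⟩
    have hex' : Function.Exact f' g' := by
      intro x
      have h1 := hex ((tw φ).symm x)
      constructor
      · intro h2
        have h3 : e (g ((tw φ).symm x)) = 0 := h2
        have h4 : g ((tw φ).symm x) = 0 := by
          apply e.injective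
          rw [h3, map_zero]
        obtain ⟨z, hz⟩ := h1.1 h4
        exact ⟨tw φ z, hz⟩
      · rintro ⟨z, rfl⟩
        have h2 : g ((tw φ).symm (f' z)) = 0 := (hex _).2 ⟨(tw φ).symm z, rfl⟩
        show e (g ((tw φ).symm (f' z))) = 0
        rw [h2, map_zero]
    cases i with
    | zero =>
      rw [zero_add] at h ⊢
      replace h := (one_iff (Z := Z) (P := P) (N := N) f g hf hg hex).1 h
      refine (one_iff (Z := Tw φ Z) (P := Tw φ P) (N := N') f' g' hf' hg' hex').2 ?_
      intro a
      obtain ⟨ψ, hψ⟩ := h (conj φ.symm (tw φ).symm e'.symm (tw_symm_smul φ)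
        (symm_smul φ e' he') a)
      refine ⟨conj φ (tw φ) e' (tw_smul φ) he' ψ, ?_⟩
      ext z
      have h2 := LinearMap.congr_fun hψ ((tw φ).symm z)
      have h3 : ψ (f ((tw φ).symm z)) = e'.symm (a z) := h2
      show e' (ψ (f ((tw φ).symm z))) = a z
      rw [h3, e'.apply_symm_apply]
    | succ i =>
      have h1 : E0 R Z N (i + 1) := left f g hf hg hex (i + 1) (proj i) h
      have h2 : E0 S (Tw φ Z) N' (i + 1) := ih (tw φ) e' (tw_smul φ) he' h1
      exact right f' g' hf' hg' hex' (i + 1) h2 (proj (i + 1))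

/-- both directions -/
theorem e0_iff (i : ℕ) {X X' N N' : Type u} [AddCommGroup X] [Module R X] [AddCommGroup X']
    [Module S X'] [AddCommGroup N] [Module R N] [AddCommGroup N'] [Module S N']
    (e : X ≃+ X') (e' : N ≃+ N') (he : ∀ (r : R) (x : X), e (r • x) = φ r • e x)
    (he' : ∀ (r : R) (x : N), e' (r • x) = φ r • e' x) : E0 R X N i ↔ E0 S X' N' i :=
  ⟨e0 φ i e e' he he', e0 φ.symm i e.symm e'.symm (symm_smul φ e he) (symm_smul φ e' he')⟩

/-- the case of the regular module in the second variable -/
theorem e0_ring (i : ℕ) {X X' : Type u} [AddCommGroup X] [Module R X] [AddCommGroup X']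
    [Module S X'] (e : X ≃+ X') (he : ∀ (r : R) (x : X), e (r • x) = φ r • e x) :
    E0 R X R i ↔ E0 S X' S i :=
  e0_iff φ i e φ.toAddEquiv he fun r x => map_mul φ r x

end main

end Crest.Agent.R186.RingIso870
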