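import Crest.Agent.R186.LinkC_328
import Crest.Agent.R186.RingIso_870

/-!
Row 186, S0281 (helper721): the right-hand nullness `Ext_{A^op}(D W, A^op) = 0` from the left-hand
nullness of the other side.
-/

set_option autoImplicit false
set_option linter.unusedSectionVars false
set_option linter.style.haveILetI false

universe u

open CategoryTheory CategoryTheory.Abelian MulOpposite

namespace Crest.Agent.R186.LinkW721

open ExtRes700 LinkB328 LinkC328 Dual700

variable {K : Type u} [Field K] {A A' : Type u} [Ring A] [Algebra K A] [Ring A'] [Algebra K A']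

/-- `A' ≃ A^op` -/
def sig (τ : A ≃ₐ[K] A'ᵐᵒᵖ) : A' ≃+* Aᵐᵒᵖ where
  toFun a := op (τ.symm (op a))
  invFun x := (τ x.unop).unop
  left_inv a := by
    show (τ (τ.symm (op a))).unop = a
    rw [τ.apply_symm_apply, unop_op]
  right_inv x := by
    show op (τ.symm (op (τ x.unop).unop)) = x
    rw [op_unop, τ.symm_apply_apply, op_unop]
  map_mul' a b := by
    rw [MulOpposite.op_mul, map_mul, MulOpposite.op_mul]
  map_add' a b := by
    rw [MulOpposite.op_add, map_add, MulOpposite.op_add]

theorem sig_apply (τ : A ≃ₐ[K] A'ᵐᵒᵖ) (a : A') : sig τ a = op (τ.symm (op a)) := rfl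

variable (T : Two K A A')

/-- `V' → D W` -/
def vw : T.S'.V →+ Dl K T.S.W := AddMonoidHom.mk'
  (fun x => ({ toFun := fun w => Du.ev K T.τ (T.eW w) x
               map_add' := fun w w' => by rw [map_add, Du.ev_add]
               map_smul' := fun c w => by
                 rw [← algebraMap_smul A c w, map_smul, algebraMap_smul, Du.ev_ksmul]
                 rfl } : T.S.W →ₗ[K] K))
  (fun x y => by
    refine Dl.ext fun w => ?_
    exact LinearMap.map_add (Du.fn K T.τ (T.eW w)) x y)

theorem vw_apply (x : T.S'.V) (w : T.S.W) : vw T x w = Du.ev K T.τ (T.eW w) x := rfl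

theorem vw_bij : Function.Bijective (vw T) := by
  constructor
  · rw [injective_iff_map_eq_zero]
    intro x hx
    rw [← Module.forall_dual_apply_eq_zero_iff K]
    intro φ
    have h1 : vw T x (T.eW.symm (Du.mk K T.τ φ)) = 0 := by
      rw [hx]
      rfl
    rw [vw_apply, LinearEquiv.apply_symm_apply] at h1
    exact h1
  · intro ψ
    let F : Module.Dual K (Module.Dual K T.S'.V) :=
      { toFun := fun φ => ψ (T.eW.symm (Du.mk K T.τ φ))
        map_add' := fun φ φ' => by
          have h1 : T.eW.symm (Du.mk K T.τ (φ + φ')) =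
              T.eW.symm (Du.mk K T.τ φ) + T.eW.symm (Du.mk K T.τ φ') :=
            map_add T.eW.symm (Du.mk K T.τ φ) (Du.mk K T.τ φ')
          rw [h1]
          exact Dl.map_add _ _ _
        map_smul' := fun c φ => by
          have h1 : T.eW.symm (Du.mk K T.τ (c • φ)) = c • T.eW.symm (Du.mk K T.τ φ) := by
            have h2 : (c • Du.mk K T.τ φ) = (algebraMap K A c) • (Du.mk K T.τ φ) :=
              (algebraMap_smul A c (Du.mk K T.τ φ)).symm
            have h3 : Du.mk K T.τ (c • φ) = c • Du.mk K T.τ φ := rfl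
            rw [h3, h2, map_smul, algebraMap_smul]
          rw [h1]
          exact Dl.map_ksmul _ _ _ }
    refine ⟨(Module.evalEquiv K T.S'.V).symm F, Dl.ext fun w => ?_⟩
    have h1 : ∀ φ : Module.Dual K T.S'.V, φ ((Module.evalEquiv K T.S'.V).symm F) = F φ := by
      intro φ
      have h2 := (Module.evalEquiv K T.S'.V).apply_symm_apply F
      exact LinearMap.congr_fun h2 φ
    rw [vw_apply]
    refine (h1 (Du.fn K T.τ (T.eW w))).trans ?_
    show ψ (T.eW.symm (T.eW w)) = ψ w
    rw [LinearEquiv.symm_apply_apply]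

theorem vw_smul (a : A') (x : T.S'.V) : vw T (a • x) = sig T.τ a • vw T x := by
  refine Dl.ext fun w => ?_
  rw [vw_apply, Dl.smul_apply, vw_apply, sig_apply, unop_op, map_smul, Du.ev_smul,
    AlgEquiv.apply_symm_apply, unop_op]

/-- **`Ext_{A^op}(D W, A^op) = 0`** -/
theorem wA (i : ℕ) : E0 Aᵐᵒᵖ (Dl K T.S.W) Aᵐᵒᵖ i := by
  refine (RingIso870.e0_iff (sig T.τ) i (AddEquiv.ofBijective (vw T) (vw_bij T))
    (sig T.τ : A' ≃+ Aᵐᵒᵖ) (fun r x => vw_smul T r x) (fun r x => ?_)).1 (T.S'.null i)
  exact map_mul (sig T.τ) r x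

end Crest.Agent.R186.LinkW721
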