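import Crest.Agent.R186.Loc_261

/-!
Row 186, local Poincare lemma, part 2: surjectivity of `D x`, exactness of the presentation,
exactness at the middle of `0 -> Q_c -> ⊕ Q_(c-g) y_g -> Q_(c-x-x') π -> 0`.
-/

set_option autoImplicit false

namespace Crest.Agent.R186.Loc261

open TensorProduct

section

variable {K : Type*} [Field K]

theorem D_pow_mul (P : Par K) (j : ℕ) (v : Q P) :
    D P .x (li P .x ^ (j + 1) * v) = li P .x ^ (j + 1) * D P .x v +
      (∑ r ∈ Finset.range (j + 1), P.p ^ r) • (li P .x ^ j * kap P .x v) := by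
  induction j with
  | zero => simp [D_mul]
  | succ j ih =>
    rw [pow_succ' _ (j + 1), mul_assoc, D_mul, ih, if_pos rfl]
    have h1 : kap P .x (li P .x ^ (j + 1) * v) = P.p ^ (j + 1) • (li P .x ^ (j + 1) * kap P .x v) := by
      rw [map_mul, map_pow, sc_li, P.chi_x_x, smul_pow, smul_mul_assoc]
    rw [h1, mul_add, mul_smul_comm, ← mul_assoc, ← mul_assoc, ← pow_succ', add_assoc, ← pow_succ',
      ← add_smul, Finset.sum_range_succ _ (j + 1)]

theorem surj_aux (P : Par K) (hP : P.Ind) : ∀ (N : ℕ) (m : Multiset Lt) (v : Q P), v ∈ Qc P m →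
    ((D P .x) ^ N) v = 0 → ∀ j : ℕ,
    ∃ u ∈ Qc P (.x ::ₘ (Multiset.replicate j .x + m)), D P .x u = li P .x ^ j * v := by
  intro N
  induction N with
  | zero =>
    intro m v _ h j
    refine ⟨0, Submodule.zero_mem _, ?_⟩
    have : v = 0 := by simpa using h
    simp [this]
  | succ N ih =>
    intro m v hv h j
    have hpow : li P .x ^ (j + 1) * v ∈ Qc P (.x ::ₘ (Multiset.replicate j .x + m)) := by
      have hgen : ∀ k : ℕ, li P .x ^ k * v ∈ Qc P (Multiset.replicate k .x + m) := by
        intro k
        induction k with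
        | zero => simpa using hv
        | succ k ih2 =>
          rw [pow_succ', mul_assoc, Multiset.replicate_succ, Multiset.cons_add]
          exact li_mul_mem P _ ih2
      have := hgen (j + 1)
      rwa [Multiset.replicate_succ, Multiset.cons_add] at this
    obtain ⟨u', hu', hDu'⟩ : ∃ u' ∈ Qc P (.x ::ₘ (Multiset.replicate j .x + m)),
        D P .x u' = li P .x ^ (j + 1) * D P .x v := by
      have hm := D_mem P .x hv
      unfold Qg at hm
      split_ifs at hm with hx
      · obtain ⟨u', h1, h2⟩ := ih (m.erase .x) (D P .x v) hm (by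
          rw [pow_succ] at h; simpa using h) (j + 1)
        refine ⟨u', ?_, h2⟩
        rw [Multiset.replicate_succ, Multiset.cons_add, ← Multiset.add_cons,
          Multiset.cons_erase hx] at h1
        exact h1
      · refine ⟨0, Submodule.zero_mem _, ?_⟩
        have : D P .x v = 0 := by simpa using hm
        simp [this]
    have hk : kap P .x v = (m.map (fun l => P.chi .x l)).prod • v := sc_Qc P _ hv
    set c := (m.map (fun l => P.chi .x l)).prod with hc
    have hc0 : c ≠ 0 := by
      rw [hc]
      apply Multiset.prod_ne_zero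
      intro h0
      obtain ⟨l, _, hl⟩ := Multiset.mem_map.1 h0
      exact P.chi_ne _ _ hl
    set s := ∑ r ∈ Finset.range (j + 1), P.p ^ r with hs
    have hs0 : s ≠ 0 := geom_ne P hP j
    refine ⟨(s * c)⁻¹ • (li P .x ^ (j + 1) * v - u'),
      Submodule.smul_mem _ _ (Submodule.sub_mem _ hpow hu'), ?_⟩
    rw [map_smul, map_sub, D_pow_mul, hDu', add_sub_cancel_left, ← hs, hk, mul_smul_comm, smul_smul,
      smul_smul]
    rw [mul_assoc, inv_mul_cancel₀ (mul_ne_zero hs0 hc0), one_smul]

theorem D_nil (P : Par K) : ∀ (N : ℕ) (m : Multiset Lt) (v : Q P), v ∈ Qc P m →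
    m.count .x < N → ((D P .x) ^ N) v = 0 := by
  intro N
  induction N with
  | zero => intro m v _ h; omega
  | succ N ih =>
    intro m v hv h
    rw [pow_succ, Module.End.mul_apply]
    have hm := D_mem P .x hv
    unfold Qg at hm
    split_ifs at hm with hx
    · refine ih (m.erase .x) _ hm ?_
      rw [Multiset.count_erase_self]
      have := Multiset.count_pos.2 hx
      omega
    · have : D P .x v = 0 := by simpa using hm
      rw [this, map_zero]

/-- **surjectivity** of `D x` -/
theorem surj (P : Par K) (hP : P.Ind) {m : Multiset Lt} {v : Q P} (hv : v ∈ Qc P m) :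
    ∃ u ∈ Qc P (.x ::ₘ m), D P .x u = v := by
  obtain ⟨u, h1, h2⟩ := surj_aux P hP (m.count .x + 1) m v hv (D_nil P _ m v hv (by omega)) 0
  exact ⟨u, by simpa using h1, by simpa using h2⟩

/-! ### exactness of the presentation -/

/-- relation vector -/
noncomputable def nu (P : Par K) : Q P →ₗ[K] (Lt → Q P) :=
  LinearMap.pi (fun g => match g with
    | .x => - (P.p⁻¹ • LinearMap.mulRight K (li P .x'))
    | .a => 0
    | .x' => LinearMap.mulRight K (li P .x)
    | .b => 0)

theorem nu_x (P : Par K) (y : Q P) : nu P y .x = - (P.p⁻¹ • (y * li P .x')) := by simp [nu]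
theorem nu_x' (P : Par K) (y : Q P) : nu P y .x' = y * li P .x := by simp [nu]
theorem nu_a (P : Par K) (y : Q P) : nu P y .a = 0 := by simp [nu]
theorem nu_b (P : Par K) (y : Q P) : nu P y .b = 0 := by simp [nu]

/-- the left action of a letter on `K × (Lt → Q)` -/
noncomputable def act (P : Par K) (l : Lt) : Module.End K (K × (Lt → Q P)) :=
  LinearMap.prod 0
    ((LinearMap.pi (fun g => (LinearMap.mulLeft K (li P l)).comp
        ((LinearMap.proj g).comp (LinearMap.snd K K (Lt → Q P))))) +
      (LinearMap.toSpanSingleton K (Lt → Q P) (Pi.single l (1 : Q P))).comp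
        (LinearMap.fst K K (Lt → Q P)))

theorem act_apply (P : Par K) (l : Lt) (r : K) (b : Lt → Q P) :
    act P l (r, b) = (0, fun g => li P l * b g + r • (Pi.single l (1 : Q P) : Lt → Q P) g) := by
  refine Prod.ext (by simp [act]) ?_
  funext g
  simp [act]

noncomputable def rr (P : Par K) : Submodule K (K × (Lt → Q P)) :=
  LinearMap.range ((LinearMap.inr K K (Lt → Q P)).comp (nu P))

theorem nu_li (P : Par K) (l : Lt) (y : Q P) : nu P (li P l * y) = fun g => li P l * nu P y g := by
  funext g
  cases g <;> simp [nu_x, nu_x', nu_a, nu_b, mul_assoc]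

theorem act_rr (P : Par K) (l : Lt) : rr P ≤ (rr P).comap (act P l) := by
  rintro _ ⟨y, rfl⟩
  refine ⟨li P l * y, ?_⟩
  simp only [LinearMap.comp_apply, LinearMap.inr_apply, act_apply, nu_li, zero_smul, add_zero]

noncomputable def Eh (P : Par K) : Q P →ₐ[K] Module.End K ((K × (Lt → Q P)) ⧸ rr P) :=
  lft P (fun l => (rr P).mapQ (rr P) (act P l) (act_rr P l)) (by
    apply LinearMap.ext
    intro t
    obtain ⟨⟨r, b⟩, rfl⟩ := Submodule.mkQ_surjective _ t
    simp only [Module.End.mul_apply, LinearMap.smul_apply, Submodule.mkQ_apply, Submodule.mapQ_apply,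
      act_apply]
    rw [← Submodule.Quotient.mk_smul, Submodule.Quotient.eq]
    refine ⟨r • 1, ?_⟩
    simp only [LinearMap.comp_apply, LinearMap.inr_apply]
    refine Prod.ext (by simp) ?_
    funext g
    cases g
    · simp [nu_x, mul_add, smul_add, ← mul_assoc, rel, Pi.single_apply, smul_smul, mul_comm]
    · simp [nu_a, mul_add, ← mul_assoc, rel, Pi.single_apply]
    · simp [nu_x', mul_add, ← mul_assoc, rel, Pi.single_apply]
    · simp [nu_b, mul_add, ← mul_assoc, rel, Pi.single_apply])

theorem Eh_mul (P : Par K) (g : Lt) (b : Q P) :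
    Eh P (b * li P g) ((rr P).mkQ (1, 0)) = (rr P).mkQ (0, Pi.single g b) := by
  induction b using Q_ind P with
  | one =>
    simp only [one_mul, Eh, lft_li, Submodule.mkQ_apply, Submodule.mapQ_apply, act_apply]
    congr 2
    funext h
    simp
  | add u v hu hv =>
    rw [add_mul, map_add, LinearMap.add_apply, hu, hv, ← map_add]
    simp [← Pi.single_add]
  | smul r u hu =>
    rw [smul_mul_assoc, map_smul, LinearMap.smul_apply, hu, ← map_smul]
    congr 1
    simp [Pi.single_smul]
  | mul l u hu =>
    rw [mul_assoc, map_mul, Module.End.mul_apply, hu]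
    simp only [Eh, lft_li, Submodule.mkQ_apply, Submodule.mapQ_apply, act_apply]
    congr 2
    funext h
    by_cases hg : h = g
    · subst hg; simp
    · simp [Pi.single_eq_of_ne hg]

/-- **exactness of the presentation** -/
theorem pres (P : Par K) (b : Lt → Q P) (h : ∑ g, b g * li P g = 0) : ∃ y, b = nu P y := by
  have h1 : (rr P).mkQ (0, b) = 0 := by
    have h2 : Eh P (∑ g, b g * li P g) ((rr P).mkQ (1, 0)) = 0 := by rw [h]; simp
    rw [map_sum, LinearMap.sum_apply] at h2
    simp only [Eh_mul] at h2
    rw [← map_sum] at h2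
    convert h2 using 2
    refine Prod.ext (by rw [Prod.fst_sum]; simp) ?_
    rw [Prod.snd_sum]
    exact (Finset.univ_sum_single b).symm
  rw [Submodule.mkQ_apply, Submodule.Quotient.mk_eq_zero] at h1
  obtain ⟨y, hy⟩ := h1
  refine ⟨y, ?_⟩
  have := congrArg Prod.snd hy
  simpa using this.symm

/-! ### homogeneous version -/

theorem prj_mem (P : Par K) (m : Multiset Lt) (u : Q P) : prj P m u ∈ Qc P m := by
  have h := span_wp P u
  induction h using Submodule.span_induction with
  | mem u hu =>
    obtain ⟨w, rfl⟩ := hu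
    rw [prj_wp]
    split_ifs with h
    · rw [← h]; exact wp_mem P w
    · exact Submodule.zero_mem _
  | zero => rw [map_zero]; exact Submodule.zero_mem _
  | add u v _ _ hu hv => rw [map_add]; exact Submodule.add_mem _ hu hv
  | smul r u _ hu => rw [map_smul]; exact Submodule.smul_mem _ _ hu

theorem prj_id (P : Par K) {m : Multiset Lt} {u : Q P} (hu : u ∈ Qc P m) : prj P m u = u := by
  have : Qc P m ≤ LinearMap.eqLocus (prj P m) LinearMap.id := by
    apply Qc_le
    intro w hw
    subst hw
    simp [prj_wp]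
  simpa using this hu

theorem prj_ne (P : Par K) {m n : Multiset Lt} (hmn : m ≠ n) {u : Q P} (hu : u ∈ Qc P m) :
    prj P n u = 0 := by
  have : Qc P m ≤ LinearMap.ker (prj P n) := by
    apply Qc_le
    intro w hw
    subst hw
    simp [prj_wp, hmn]
  simpa using this hu

theorem coe_snoc (w : List Lt) (g : Lt) :
    ((w ++ [g] : List Lt) : Multiset Lt) = g ::ₘ (w : Multiset Lt) := by
  rw [← Multiset.coe_add, add_comm]; rfl

theorem prj_mul_li (P : Par K) (g : Lt) (n : Multiset Lt) (y : Q P) :
    prj P (g ::ₘ n) (y * li P g) = prj P n y * li P g := by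
  have : (prj P (g ::ₘ n)).comp (LinearMap.mulRight K (li P g)) =
      (LinearMap.mulRight K (li P g)).comp (prj P n) := by
    apply ext_wp
    intro w
    simp only [LinearMap.comp_apply, LinearMap.mulRight_apply, prj_wp]
    have h1 : wp P w * li P g = wp P (w ++ [g]) := by simp [wp_append]
    rw [h1, prj_wp, coe_snoc]
    by_cases h : (w : Multiset Lt) = n
    · simp [h, h1]
    · rw [if_neg, if_neg h, zero_mul]
      intro h2
      exact h ((Multiset.cons_inj_right g).1 h2)
  exact LinearMap.congr_fun this y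

theorem prj_mul_li' (P : Par K) (g : Lt) (m : Multiset Lt) (hg : g ∉ m) (y : Q P) :
    prj P m (y * li P g) = 0 := by
  have : (prj P m).comp (LinearMap.mulRight K (li P g)) = 0 := by
    apply ext_wp
    intro w
    simp only [LinearMap.comp_apply, LinearMap.mulRight_apply, LinearMap.zero_apply]
    have h1 : wp P w * li P g = wp P (w ++ [g]) := by simp [wp_append]
    rw [h1, prj_wp, coe_snoc, if_neg]
    rintro rfl
    exact hg (Multiset.mem_cons_self _ _)
  exact LinearMap.congr_fun this y

noncomputable def Q2 (P : Par K) (m : Multiset Lt) : Submodule K (Q P) :=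
  if .x ∈ m ∧ .x' ∈ m then Qc P ((m.erase .x').erase .x) else ⊥

theorem pres_hom (P : Par K) (m : Multiset Lt) (b : Lt → Q P) (hb : ∀ g, b g ∈ Qg P m g)
    (h : ∑ g, b g * li P g = 0) : ∃ y ∈ Q2 P m, b = nu P y := by
  obtain ⟨y, rfl⟩ := pres P b h
  have hx := hb .x
  have hx' := hb .x'
  rw [nu_x] at hx
  rw [nu_x'] at hx'
  unfold Qg at hx hx'
  unfold Q2
  have key : ∀ z : Q P, y * li P .x = z * li P .x → P.p⁻¹ • (y * li P .x') = P.p⁻¹ • (z * li P .x') →
      nu P y = nu P z := by
    intro z h1 h2
    funext g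
    cases g
    · rw [nu_x, nu_x, h2]
    · rw [nu_a, nu_a]
    · rw [nu_x', nu_x', h1]
    · rw [nu_b, nu_b]
  by_cases h1 : Lt.x ∈ m
  · by_cases h2 : Lt.x' ∈ m
    · rw [if_pos h1] at hx
      rw [if_pos h2] at hx'
      rw [if_pos ⟨h1, h2⟩]
      refine ⟨prj P ((m.erase .x').erase .x) y, prj_mem P _ _, ?_⟩
      have e1 : m.erase .x' = .x ::ₘ ((m.erase .x').erase .x) := by
        rw [Multiset.cons_erase]
        rw [Multiset.mem_erase_of_ne (by decide)]
        exact h1
      have e2 : m.erase .x = .x' ::ₘ ((m.erase .x').erase .x) := by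
        rw [Multiset.erase_comm, Multiset.cons_erase]
        rw [Multiset.mem_erase_of_ne (by decide)]
        exact h2
      refine key _ ?_ ?_
      · rw [← prj_mul_li, ← e1, prj_id P hx']
      · have hx2 : P.p⁻¹ • (y * li P .x') ∈ Qc P (m.erase .x) := by
          simpa using hx
        rw [← prj_id P hx2, map_smul]
        conv_lhs => rw [e2]
        rw [prj_mul_li]
    · refine ⟨0, Submodule.zero_mem _, key _ ?_ ?_⟩
      · rw [if_neg h2] at hx'
        simpa using hx'
      · rw [if_pos h1] at hx
        have hx2 : P.p⁻¹ • (y * li P .x') ∈ Qc P (m.erase .x) := by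
          simpa using hx
        rw [← prj_id P hx2, map_smul, prj_mul_li' P .x' _ (fun h3 => h2 (Multiset.mem_of_mem_erase h3))]
        simp
  · refine ⟨0, Submodule.zero_mem _, key _ ?_ ?_⟩
    · by_cases h2 : Lt.x' ∈ m
      · rw [if_pos h2] at hx'
        rw [← prj_id P hx', prj_mul_li' P .x _ (fun h3 => h1 (Multiset.mem_of_mem_erase h3))]
        simp
      · rw [if_neg h2] at hx'
        simpa using hx'
    · rw [if_neg h1] at hx
      simpa using hx

instance Qc_fd (P : Par K) (m : Multiset Lt) : FiniteDimensional K (Qc P m) := by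
  unfold Qc
  apply FiniteDimensional.span_of_finite
  have : {u | ∃ w : List Lt, (w : Multiset Lt) = m ∧ wp P w = u} ⊆
      wp P '' {w : List Lt | w.length = m.card} := by
    rintro u ⟨w, rfl, rfl⟩
    exact ⟨w, by simp, rfl⟩
  exact ((List.finite_length_eq Lt _).image _).subset this

instance Qg_fd (P : Par K) (m : Multiset Lt) (g : Lt) : FiniteDimensional K (Qg P m g) := by
  by_cases h : g ∈ m
  · rw [show Qg P m g = Qc P (m.erase g) from if_pos h]
    infer_instance
  · rw [show Qg P m g = ⊥ from if_neg h]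
    infer_instance

instance Q2_fd (P : Par K) (m : Multiset Lt) : FiniteDimensional K (Q2 P m) := by
  by_cases h : .x ∈ m ∧ .x' ∈ m
  · rw [show Q2 P m = Qc P ((m.erase .x').erase .x) from if_pos h]
    infer_instance
  · rw [show Q2 P m = ⊥ from if_neg h]
    infer_instance

/-- linear algebra -/
theorem lin_aux {V A B C : Type*} [AddCommGroup V] [Module K V] [FiniteDimensional K V]
    [AddCommGroup A] [Module K A] [AddCommGroup B] [Module K B] [AddCommGroup C] [Module K C]
    [FiniteDimensional K C] (μ : V →ₗ[K] A) (δ : V →ₗ[K] B) (d : C →ₗ[K] V) (q : ℕ)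
    (h1 : Module.finrank K (LinearMap.range μ) ≤ Module.finrank K C)
    (h2 : Module.finrank K (LinearMap.ker μ) ≤ q)
    (h3 : q ≤ Module.finrank K (LinearMap.range δ))
    (h4 : Function.Injective d) (h5 : ∀ c, δ (d c) = 0) :
    ∀ v, δ v = 0 → ∃ c, d c = v := by
  have e1 := LinearMap.finrank_range_add_finrank_ker μ
  have e2 := LinearMap.finrank_range_add_finrank_ker δ
  have e3 := LinearMap.finrank_range_of_inj h4
  have hle : LinearMap.range d ≤ LinearMap.ker δ := by
    rintro _ ⟨c, rfl⟩
    exact h5 c
  have heq : LinearMap.range d = LinearMap.ker δ :=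
    Submodule.eq_of_le_of_finrank_le hle (by omega)
  intro v hv
  have : v ∈ LinearMap.ker δ := hv
  rw [← heq] at this
  exact this

noncomputable def mu (P : Par K) (m : Multiset Lt) : ((g : Lt) → Qg P m g) →ₗ[K] Q P :=
  ∑ g, (LinearMap.mulRight K (li P g)).comp ((Qg P m g).subtype.comp (LinearMap.proj g))

theorem mu_apply (P : Par K) (m : Multiset Lt) (b : (g : Lt) → Qg P m g) :
    mu P m b = ∑ g, (b g : Q P) * li P g := by
  simp [mu]

noncomputable def del (P : Par K) (m : Multiset Lt) : ((g : Lt) → Qg P m g) →ₗ[K] Q P :=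
  (D P .x).comp ((Qg P m .x').subtype.comp (LinearMap.proj Lt.x')) -
    P.p • (D P .x').comp ((Qg P m .x).subtype.comp (LinearMap.proj Lt.x))

theorem del_apply (P : Par K) (m : Multiset Lt) (b : (g : Lt) → Qg P m g) :
    del P m b = D P .x (b .x' : Q P) - P.p • D P .x' (b .x : Q P) := by
  simp [del]

noncomputable def DD (P : Par K) (m : Multiset Lt) : Qc P m →ₗ[K] ((g : Lt) → Qg P m g) :=
  LinearMap.pi (fun g => ((D P g).comp (Qc P m).subtype).codRestrict (Qg P m g)
    (fun u => D_mem P g u.2))

theorem DD_apply (P : Par K) (m : Multiset Lt) (u : Qc P m) (g : Lt) :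
    (DD P m u g : Q P) = D P g u := rfl

theorem mu_mem (P : Par K) (m : Multiset Lt) (b : (g : Lt) → Qg P m g) : mu P m b ∈ Qc P m := by
  rw [mu_apply]
  refine Submodule.sum_mem _ (fun g _ => ?_)
  have h := (b g).2
  unfold Qg at h
  split_ifs at h with hg
  · have := mul_li_mem P g h
    rwa [Multiset.cons_erase hg] at this
  · have h0 : ((b g : Qg P m g) : Q P) = 0 := by simpa using h
    rw [h0, zero_mul]
    exact Submodule.zero_mem _

theorem ker_mu (P : Par K) (m : Multiset Lt) :
    Module.finrank K (LinearMap.ker (mu P m)) ≤ Module.finrank K (Q2 P m) := by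
  let ι : LinearMap.ker (mu P m) →ₗ[K] (Lt → Q P) :=
    (LinearMap.pi (fun g => (Qg P m g).subtype.comp (LinearMap.proj g))).comp
      (LinearMap.ker (mu P m)).subtype
  have hι : Function.Injective ι := by
    intro u v huv
    apply Subtype.ext
    funext g
    apply Subtype.ext
    exact congrFun huv g
  have hr : LinearMap.range ι ≤ (Q2 P m).map (nu P) := by
    rintro _ ⟨⟨b, hb⟩, rfl⟩
    have hb' : ∑ g, (b g : Q P) * li P g = 0 := by rw [← mu_apply]; exact hb
    obtain ⟨y, hy, hyb⟩ := pres_hom P m (fun g => (b g : Q P)) (fun g => (b g).2) hb'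
    exact ⟨y, hy, hyb.symm⟩
  calc Module.finrank K (LinearMap.ker (mu P m)) = Module.finrank K (LinearMap.range ι) :=
        (LinearMap.finrank_range_of_inj hι).symm
    _ ≤ Module.finrank K ((Q2 P m).map (nu P)) := Submodule.finrank_mono hr
    _ ≤ Module.finrank K (Q2 P m) := Submodule.finrank_map_le _ _

theorem range_del (P : Par K) (hP : P.Ind) (m : Multiset Lt) :
    Q2 P m ≤ LinearMap.range (del P m) := by
  intro v hv
  unfold Q2 at hv
  split_ifs at hv with h
  · obtain ⟨u, hu, hDu⟩ := surj P hP hv
    have e1 : .x ::ₘ ((m.erase .x').erase .x) = m.erase .x' := by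
      rw [Multiset.cons_erase]
      rw [Multiset.mem_erase_of_ne (by decide)]
      exact h.1
    rw [e1] at hu
    have hu' : u ∈ Qg P m .x' := by
      unfold Qg
      rw [if_pos h.2]
      exact hu
    refine ⟨fun g => if hg : g = .x' then ⟨u, by rw [hg]; exact hu'⟩ else 0, ?_⟩
    rw [del_apply]
    simp [hDu]
  · have : v = 0 := by simpa using hv
    rw [this]
    exact Submodule.zero_mem _

/-- **exactness in the middle** -/
theorem mid (P : Par K) (hP : P.Ind) (m : Multiset Lt) (b : Lt → Q P) (hb : ∀ g, b g ∈ Qg P m g)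
    (h : D P .x (b .x') = P.p • D P .x' (b .x)) : ∃ u ∈ Qc P m, ∀ g, D P g u = b g := by
  by_cases hm : m = 0
  · subst hm
    refine ⟨0, Submodule.zero_mem _, fun g => ?_⟩
    have := hb g
    simp only [Qg, Multiset.notMem_zero, if_false, Submodule.mem_bot] at this
    rw [this, map_zero]
  · have hinj : Function.Injective (DD P m) := by
      rw [injective_iff_map_eq_zero]
      intro u hu
      apply Subtype.ext
      refine inj P hP m.card m rfl hm u.1 u.2 (fun g => ?_)
      rw [← DD_apply, hu]
      rfl
    have hrm : Module.finrank K (LinearMap.range (mu P m)) ≤ Module.finrank K (Qc P m) := by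
      apply Submodule.finrank_mono
      rintro _ ⟨b, rfl⟩
      exact mu_mem P m b
    have : FiniteDimensional K (LinearMap.range (del P m)) := inferInstance
    obtain ⟨u, hu⟩ := lin_aux (mu P m) (del P m) (DD P m) (Module.finrank K (Q2 P m)) hrm
      (ker_mu P m) (Submodule.finrank_mono (range_del P hP m)) hinj
      (fun u => by
        rw [del_apply, DD_apply, DD_apply, D_D, sub_self])
      (fun g => ⟨b g, hb g⟩) (by
        rw [del_apply]
        simp [h])
    refine ⟨u.1, u.2, fun g => ?_⟩
    rw [← DD_apply, hu]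

end

end Crest.Agent.R186.Loc261
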