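import Mathlib

/-!
Row 186, local Poincare lemma (helper307 #25444).  Letters `x, a (= xh), x', b (= xh')`,
`Q = K<x,a,x',b>/(x x' = p⁻¹ x' x)`, right skew derivations `D g`.
-/

set_option autoImplicit false

namespace Crest.Agent.R186.Loc261

open TensorProduct

inductive Lt | x | a | x' | b
  deriving DecidableEq

instance : Fintype Lt := ⟨{.x, .a, .x', .b}, by intro g; cases g <;> decide⟩

/-- the weight -/
def wt : Lt → ℤ
  | .x => 1 | .a => 1 | .x' => -1 | .b => -1

structure Par (K : Type*) [Field K] where
  p : K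
  ca : K
  cb : K
  hp : p ≠ 0
  ha : ca ≠ 0
  hb : cb ≠ 0

section

variable {K : Type*} [Field K]

def Par.c (P : Par K) : Lt → K
  | .x => P.p | .a => P.ca | .x' => P.p | .b => P.cb

theorem Par.c_ne (P : Par K) (g : Lt) : P.c g ≠ 0 := by
  cases g
  · exact P.hp
  · exact P.ha
  · exact P.hp
  · exact P.hb

def Par.chi (P : Par K) (g l : Lt) : K := P.c g ^ wt l

theorem Par.chi_ne (P : Par K) (g l : Lt) : P.chi g l ≠ 0 := zpow_ne_zero _ (P.c_ne g)

@[simp] theorem Par.chi_x_x' (P : Par K) : P.chi .x .x' = P.p⁻¹ := by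
  simp [Par.chi, Par.c, wt]
@[simp] theorem Par.chi_x'_x (P : Par K) : P.chi .x' .x = P.p := by
  simp [Par.chi, Par.c, wt]
@[simp] theorem Par.chi_x_x (P : Par K) : P.chi .x .x = P.p := by
  simp [Par.chi, Par.c, wt]

inductive Rel (P : Par K) : FreeAlgebra K Lt → FreeAlgebra K Lt → Prop
  | mk : Rel P (FreeAlgebra.ι K Lt.x * FreeAlgebra.ι K Lt.x')
      (P.p⁻¹ • (FreeAlgebra.ι K Lt.x' * FreeAlgebra.ι K Lt.x))

/-- the local algebra -/
def Q (P : Par K) : Type _ := RingQuot (Rel P)

noncomputable instance (P : Par K) : Ring (Q P) := inferInstanceAs (Ring (RingQuot (Rel P)))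
noncomputable instance (P : Par K) : Algebra K (Q P) :=
  inferInstanceAs (Algebra K (RingQuot (Rel P)))

noncomputable def mk (P : Par K) : FreeAlgebra K Lt →ₐ[K] Q P := RingQuot.mkAlgHom K (Rel P)

theorem mk_surj (P : Par K) : Function.Surjective (mk P) := RingQuot.mkAlgHom_surjective K (Rel P)

/-- the letters in `Q` -/
noncomputable def li (P : Par K) (g : Lt) : Q P := mk P (FreeAlgebra.ι K g)

theorem rel (P : Par K) : li P .x * li P .x' = P.p⁻¹ • (li P .x' * li P .x) := by
  have h : mk P (FreeAlgebra.ι K Lt.x * FreeAlgebra.ι K Lt.x') =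
      mk P (P.p⁻¹ • (FreeAlgebra.ι K Lt.x' * FreeAlgebra.ι K Lt.x)) :=
    RingQuot.mkAlgHom_rel K (Rel.mk (P := P))
  simpa [li, map_mul, map_smul] using h

/-- universal property -/
noncomputable def lft (P : Par K) {A : Type*} [Semiring A] [Algebra K A] (f : Lt → A)
    (h : f .x * f .x' = P.p⁻¹ • (f .x' * f .x)) : Q P →ₐ[K] A :=
  RingQuot.liftAlgHom K ⟨FreeAlgebra.lift K f, by
    intro u v huv
    cases huv
    simpa [map_mul, map_smul] using h⟩

@[simp] theorem lft_li (P : Par K) {A : Type*} [Semiring A] [Algebra K A] (f : Lt → A)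
    (h : f .x * f .x' = P.p⁻¹ • (f .x' * f .x)) (g : Lt) : lft P f h (li P g) = f g := by
  have := RingQuot.liftAlgHom_mkAlgHom_apply (S := K) (FreeAlgebra.lift K f) (s := Rel P) (by
    intro u v huv
    cases huv
    simpa [map_mul, map_smul] using h) (FreeAlgebra.ι K g)
  exact this.trans (FreeAlgebra.lift_ι_apply _ _)

/-- induction on `Q` by left multiplication by letters -/
theorem Q_ind (P : Par K) {C : Q P → Prop} (one : C 1) (add : ∀ u v, C u → C v → C (u + v))
    (smul : ∀ (r : K) u, C u → C (r • u)) (mul : ∀ g u, C u → C (li P g * u)) : ∀ u, C u := by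
  have key : ∀ (f : FreeAlgebra K Lt) (u : Q P), C u → C (mk P f * u) := by
    intro f
    induction f using FreeAlgebra.induction with
    | grade0 r =>
      intro u hu
      have : mk P (algebraMap K _ r) * u = r • u := by
        rw [AlgHom.commutes, Algebra.smul_def]
      rw [this]; exact smul r u hu
    | grade1 g => intro u hu; exact mul g u hu
    | mul f g hf hg =>
      intro u hu
      rw [map_mul, mul_assoc]
      exact hf _ (hg _ hu)
    | add f g hf hg =>
      intro u hu
      rw [map_add, add_mul]
      exact add _ _ (hf _ hu) (hg _ hu)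
  intro u
  obtain ⟨f, rfl⟩ := mk_surj P u
  simpa using key f 1 one

/-- scaling automorphisms -/
noncomputable def sc (P : Par K) (s : Lt → K) : Q P →ₐ[K] Q P :=
  lft P (fun l => s l • li P l) (by
    simp only [smul_mul_smul_comm]
    rw [rel, smul_comm, mul_comm (s .x) (s .x')])

@[simp] theorem sc_li (P : Par K) (s : Lt → K) (l : Lt) : sc P s (li P l) = s l • li P l := by
  simp [sc]

theorem sc_sc (P : Par K) (s t : Lt → K) (u : Q P) :
    sc P s (sc P t u) = sc P (fun l => s l * t l) u := by
  induction u using Q_ind P with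
  | one => simp
  | add u v hu hv => simp [hu, hv]
  | smul r u hu => simp [hu]
  | mul g u hu => simp [hu, smul_smul, mul_comm]

theorem sc_comm (P : Par K) (s t : Lt → K) (u : Q P) :
    sc P s (sc P t u) = sc P t (sc P s u) := by
  rw [sc_sc, sc_sc]; congr 2; funext l; ring

/-- `κ_g` : multiplication by `χ(g, content)` -/
noncomputable abbrev kap (P : Par K) (g : Lt) : Q P →ₐ[K] Q P := sc P (fun l => P.chi g l)
/-- `κ'_g` : multiplication by `χ(content, g)` -/
noncomputable abbrev kap' (P : Par K) (g : Lt) : Q P →ₐ[K] Q P := sc P (fun l => P.chi l g)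

/-- the 2 × 2 trick for the skew derivation `D g` -/
noncomputable def U (P : Par K) (g l : Lt) : Module.End K (Q P × Q P) :=
  LinearMap.prod
    ((LinearMap.mulLeft K (li P l)).comp (LinearMap.fst K _ _) +
      (if g = l then (kap P g).toLinearMap.comp (LinearMap.snd K _ _) else 0))
    ((LinearMap.mulLeft K (li P l)).comp (LinearMap.snd K _ _))

theorem U_apply (P : Par K) (g l : Lt) (d v : Q P) :
    U P g l (d, v) = (li P l * d + (if g = l then kap P g v else 0), li P l * v) := by
  by_cases h : g = l <;> simp [U, h]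

noncomputable def Dh (P : Par K) (g : Lt) : Q P →ₐ[K] Module.End K (Q P × Q P) :=
  lft P (U P g) (by
    apply LinearMap.ext
    rintro ⟨d, v⟩
    simp only [Module.End.mul_apply, LinearMap.smul_apply, U_apply, ← mul_assoc, rel]
    cases g <;>
      simp [mul_add, ← mul_assoc, rel, smul_smul, P.hp])

/-- right skew derivation `D g` -/
noncomputable def D (P : Par K) (g : Lt) : Q P →ₗ[K] Q P :=
  (LinearMap.fst K (Q P) (Q P)).comp ((LinearMap.applyₗ ((0 : Q P), (1 : Q P))).comp (Dh P g).toLinearMap)

theorem D_apply (P : Par K) (g : Lt) (u : Q P) : D P g u = (Dh P g u (0, 1)).1 := rfl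

theorem Dh_snd (P : Par K) (g : Lt) (u : Q P) : (Dh P g u (0, 1)).2 = u := by
  induction u using Q_ind P with
  | one => simp
  | add u v hu hv => simp [hu, hv]
  | smul r u hu => simp [hu]
  | mul l u hu =>
    have h1 : Dh P g (li P l * u) (0, 1) = U P g l ((Dh P g u (0, 1)).1, (Dh P g u (0, 1)).2) := by
      rw [map_mul]
      simp [Dh]
    rw [h1, U_apply]
    simp [hu]

@[simp] theorem D_one (P : Par K) (g : Lt) : D P g 1 = 0 := by
  simp [D_apply]

theorem D_mul (P : Par K) (g l : Lt) (u : Q P) :
    D P g (li P l * u) = li P l * D P g u + (if g = l then kap P g u else 0) := by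
  have h1 : Dh P g (li P l * u) (0, 1) = U P g l ((Dh P g u (0, 1)).1, (Dh P g u (0, 1)).2) := by
    rw [map_mul]
    simp [Dh]
  rw [D_apply, h1, U_apply, Dh_snd]
  rfl

theorem D_sc (P : Par K) (g : Lt) (s : Lt → K) (u : Q P) :
    D P g (sc P s u) = s g • sc P s (D P g u) := by
  induction u using Q_ind P with
  | one => simp
  | add u v hu hv => simp [hu, hv]
  | smul r u hu => rw [map_smul, map_smul, map_smul, map_smul, hu, smul_comm]
  | mul l u hu =>
    rw [map_mul, sc_li, smul_mul_assoc, map_smul, D_mul, D_mul, hu, map_add, map_mul, sc_li]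
    by_cases h : g = l
    · subst h
      simp [smul_smul, sc_comm P s]
    · simp [h, smul_smul, mul_comm]

/-- `D_x D_x' = p D_x' D_x` -/
theorem D_D (P : Par K) (u : Q P) : D P .x (D P .x' u) = P.p • D P .x' (D P .x u) := by
  induction u using Q_ind P with
  | one => simp
  | add u v hu hv => simp [hu, hv]
  | smul r u hu => rw [map_smul, map_smul, map_smul, map_smul, hu, smul_comm]
  | mul l u hu =>
    rw [D_mul, D_mul, map_add, map_add, D_mul, D_mul, hu]
    cases l <;> simp [D_sc, smul_smul, P.hp]

/-- the antipode operators -/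
noncomputable def T (P : Par K) (l : Lt) : Module.End K (Q P) :=
  - ((LinearMap.mulRight K (li P l)).comp (kap P l).toLinearMap)

theorem T_apply (P : Par K) (l : Lt) (u : Q P) : T P l u = - (kap P l u * li P l) := by
  simp [T]

noncomputable def Sh (P : Par K) : Q P →ₐ[K] Module.End K (Q P) :=
  lft P (T P) (by
    apply LinearMap.ext
    intro u
    simp only [Module.End.mul_apply, LinearMap.smul_apply, T_apply, map_neg, map_mul, sc_li]
    simp only [mul_assoc, mul_smul_comm, smul_mul_assoc, rel, P.chi_x_x', P.chi_x'_x]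
    rw [sc_comm]
    simp [smul_smul, P.hp])

noncomputable def S (P : Par K) : Q P →ₗ[K] Q P :=
  (LinearMap.applyₗ (1 : Q P)).comp (Sh P).toLinearMap

theorem S_apply (P : Par K) (u : Q P) : S P u = Sh P u 1 := rfl

@[simp] theorem S_one (P : Par K) : S P 1 = 1 := by simp [S_apply]

theorem S_mul (P : Par K) (l : Lt) (u : Q P) : S P (li P l * u) = - (kap P l (S P u) * li P l) := by
  rw [S_apply, map_mul]
  simp [Sh, T_apply, S_apply]

theorem S_sc (P : Par K) (s : Lt → K) (u : Q P) : S P (sc P s u) = sc P s (S P u) := by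
  induction u using Q_ind P with
  | one => simp
  | add u v hu hv => simp [hu, hv]
  | smul r u hu => simp [hu]
  | mul l u hu =>
    rw [map_mul, sc_li, smul_mul_assoc, map_smul, S_mul, S_mul, hu, map_neg, map_mul, sc_li,
      sc_comm P s]
    simp

/-- `S (u l) = - l S (κ'_l u)` -/
theorem S_mul_right (P : Par K) (l : Lt) (u : Q P) :
    S P (u * li P l) = - (li P l * S P (kap' P l u)) := by
  induction u using Q_ind P with
  | one =>
    have := S_mul P l 1
    simpa using this
  | add u v hu hv => simp [add_mul, hu, hv, mul_add, add_comm]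
  | smul r u hu => simp [hu]
  | mul m u hu =>
    rw [mul_assoc, S_mul, hu, map_mul, sc_li, smul_mul_assoc, map_smul, S_mul, map_neg, map_mul, sc_li]
    simp [mul_assoc]

theorem SS_mul (P : Par K) (l : Lt) (u : Q P) :
    S P (S P (li P l * u)) = li P l * kap P l (kap' P l (S P (S P u))) := by
  rw [S_mul, map_neg, S_mul_right, neg_neg, sc_comm, S_sc, S_sc]

/-- the coproduct operators -/
noncomputable def Lop (P : Par K) (l : Lt) : Module.End K (Q P ⊗[K] Q P) :=
  TensorProduct.map (LinearMap.mulLeft K (li P l)) LinearMap.id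

noncomputable def Rop (P : Par K) (l : Lt) : Module.End K (Q P ⊗[K] Q P) :=
  TensorProduct.map (kap P l).toLinearMap (LinearMap.mulLeft K (li P l))

@[simp] theorem Lop_tmul (P : Par K) (l : Lt) (u v : Q P) :
    Lop P l (u ⊗ₜ v) = (li P l * u) ⊗ₜ v := by simp [Lop]
@[simp] theorem Rop_tmul (P : Par K) (l : Lt) (u v : Q P) :
    Rop P l (u ⊗ₜ v) = (kap P l u) ⊗ₜ (li P l * v) := by simp [Rop]

noncomputable def Ch (P : Par K) : Q P →ₐ[K] Module.End K (Q P ⊗[K] Q P) :=
  lft P (fun l => Lop P l + Rop P l) (by
    apply TensorProduct.ext'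
    intro u v
    simp only [Module.End.mul_apply, LinearMap.smul_apply, LinearMap.add_apply, map_add,
      Lop_tmul, Rop_tmul, map_mul, sc_li, P.chi_x_x', P.chi_x'_x]
    simp only [← mul_assoc, rel, smul_mul_assoc, TensorProduct.smul_tmul', TensorProduct.tmul_smul,
      smul_add, smul_smul]
    rw [inv_mul_cancel₀ P.hp, one_smul, sc_comm P _ _ u]
    abel)

noncomputable def cop (P : Par K) : Q P →ₗ[K] (Q P ⊗[K] Q P) :=
  (LinearMap.applyₗ ((1 : Q P) ⊗ₜ[K] (1 : Q P))).comp (Ch P).toLinearMap

theorem cop_apply (P : Par K) (u : Q P) : cop P u = Ch P u (1 ⊗ₜ 1) := rfl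

@[simp] theorem cop_one (P : Par K) : cop P 1 = 1 ⊗ₜ 1 := by simp [cop_apply]

theorem cop_mul (P : Par K) (l : Lt) (u : Q P) :
    cop P (li P l * u) = Lop P l (cop P u) + Rop P l (cop P u) := by
  rw [cop_apply, map_mul]
  simp [Ch, cop_apply]

theorem cop_sc (P : Par K) (s : Lt → K) (u : Q P) :
    cop P (sc P s u) = TensorProduct.map (sc P s).toLinearMap (sc P s).toLinearMap (cop P u) := by
  have hL : ∀ (l : Lt) (t : Q P ⊗[K] Q P),
      TensorProduct.map (sc P s).toLinearMap (sc P s).toLinearMap (Lop P l t) =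
        s l • Lop P l (TensorProduct.map (sc P s).toLinearMap (sc P s).toLinearMap t) := by
    intro l t
    induction t using TensorProduct.induction_on with
    | zero => simp
    | tmul u v => simp [TensorProduct.smul_tmul']
    | add u v hu hv => simp only [map_add, hu, hv, smul_add]
  have hR : ∀ (l : Lt) (t : Q P ⊗[K] Q P),
      TensorProduct.map (sc P s).toLinearMap (sc P s).toLinearMap (Rop P l t) =
        s l • Rop P l (TensorProduct.map (sc P s).toLinearMap (sc P s).toLinearMap t) := by
    intro l t
    induction t using TensorProduct.induction_on with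
    | zero => simp
    | tmul u v => simp [sc_comm P s]
    | add u v hu hv => simp only [map_add, hu, hv, smul_add]
  induction u using Q_ind P with
  | one => simp
  | add u v hu hv => simp [hu, hv]
  | smul r u hu => simp [hu]
  | mul l u hu =>
    rw [map_mul, sc_li, smul_mul_assoc, map_smul, cop_mul, cop_mul, hu, map_add, hL, hR, smul_add]

/-- `(id ⊗ D_g) Δ = Δ D_g` -/
theorem D_cop (P : Par K) (g : Lt) (u : Q P) :
    TensorProduct.map LinearMap.id (D P g) (cop P u) = cop P (D P g u) := by
  have hL : ∀ (l : Lt) (t : Q P ⊗[K] Q P),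
      TensorProduct.map LinearMap.id (D P g) (Lop P l t) =
        Lop P l (TensorProduct.map LinearMap.id (D P g) t) := by
    intro l t
    induction t using TensorProduct.induction_on with
    | zero => simp
    | tmul u v => simp
    | add u v hu hv => simp only [map_add, hu, hv]
  have hR : ∀ (l : Lt) (t : Q P ⊗[K] Q P),
      TensorProduct.map LinearMap.id (D P g) (Rop P l t) =
        Rop P l (TensorProduct.map LinearMap.id (D P g) t) +
        (if g = l then TensorProduct.map (kap P g).toLinearMap (kap P g).toLinearMap t else 0) := by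
    intro l t
    by_cases h : g = l
    · subst h
      simp only [if_true]
      induction t using TensorProduct.induction_on with
      | zero => simp
      | tmul u v => simp [D_mul, TensorProduct.tmul_add]
      | add u v hu hv => simp only [map_add, hu, hv]; abel
    · simp only [h, if_false, add_zero]
      induction t using TensorProduct.induction_on with
      | zero => simp
      | tmul u v => simp [D_mul, h]
      | add u v hu hv => simp only [map_add, hu, hv]
  induction u using Q_ind P with
  | one => simp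
  | add u v hu hv => simp [hu, hv]
  | smul r u hu => simp [hu]
  | mul l u hu =>
    rw [cop_mul, map_add, hL, hR, hu, D_mul, map_add, cop_mul]
    by_cases h : g = l
    · simp [h, cop_sc, add_assoc]
    · simp [h]

/-- `Θ (u ⊗ v) = S u * v` -/
noncomputable def Th (P : Par K) : (Q P ⊗[K] Q P) →ₗ[K] Q P :=
  TensorProduct.lift ((LinearMap.mul K (Q P)).comp (S P))

@[simp] theorem Th_tmul (P : Par K) (u v : Q P) : Th P (u ⊗ₜ v) = S P u * v := by simp [Th]

theorem Th_op (P : Par K) (l : Lt) (t : Q P ⊗[K] Q P) : Th P (Lop P l t + Rop P l t) = 0 := by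
  induction t using TensorProduct.induction_on with
  | zero => simp
  | tmul u v => simp [S_mul, S_sc, mul_assoc]
  | add u v hu hv =>
    rw [map_add, map_add]
    calc _ = Th P (Lop P l u + Rop P l u) + Th P (Lop P l v + Rop P l v) := by
            simp only [map_add]; abel
      _ = 0 := by rw [hu, hv, add_zero]

theorem Th_cop (P : Par K) (l : Lt) (u : Q P) : Th P (cop P (li P l * u)) = 0 := by
  rw [cop_mul, Th_op]

/-! ### words and contents -/

noncomputable def wp (P : Par K) (w : List Lt) : Q P := (w.map (li P)).prod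

@[simp] theorem wp_nil (P : Par K) : wp P [] = 1 := rfl
@[simp] theorem wp_cons (P : Par K) (l : Lt) (w : List Lt) : wp P (l :: w) = li P l * wp P w := by
  simp [wp]

theorem wp_append (P : Par K) (v w : List Lt) : wp P (v ++ w) = wp P v * wp P w := by
  simp [wp]

theorem sc_wp (P : Par K) (s : Lt → K) (w : List Lt) : sc P s (wp P w) = (w.map s).prod • wp P w := by
  induction w with
  | nil => simp
  | cons l w ih => simp [ih, smul_smul, mul_comm]

/-- span of the words of content `m` -/
noncomputable def Qc (P : Par K) (m : Multiset Lt) : Submodule K (Q P) :=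
  Submodule.span K {u | ∃ w : List Lt, (w : Multiset Lt) = m ∧ wp P w = u}

theorem wp_mem (P : Par K) (w : List Lt) : wp P w ∈ Qc P (w : Multiset Lt) :=
  Submodule.subset_span ⟨w, rfl, rfl⟩

theorem Qc_le (P : Par K) {m : Multiset Lt} {N : Submodule K (Q P)}
    (h : ∀ w : List Lt, (w : Multiset Lt) = m → wp P w ∈ N) : Qc P m ≤ N := by
  unfold Qc
  rw [Submodule.span_le]
  rintro u ⟨w, hw, rfl⟩
  exact h w hw

theorem sc_Qc (P : Par K) (s : Lt → K) {m : Multiset Lt} {u : Q P} (hu : u ∈ Qc P m) :
    sc P s u = (m.map s).prod • u := by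
  have : Qc P m ≤ LinearMap.eqLocus (sc P s).toLinearMap ((m.map s).prod • LinearMap.id) := by
    apply Qc_le
    intro w hw
    subst hw
    simp [sc_wp]
  simpa using this hu

theorem li_mul_mem (P : Par K) (g : Lt) {m : Multiset Lt} {u : Q P} (hu : u ∈ Qc P m) :
    li P g * u ∈ Qc P (g ::ₘ m) := by
  have : Qc P m ≤ (Qc P (g ::ₘ m)).comap (LinearMap.mulLeft K (li P g)) := by
    apply Qc_le
    intro w hw
    subst hw
    simpa using wp_mem P (g :: w)
  exact this hu

theorem mul_li_mem (P : Par K) (g : Lt) {m : Multiset Lt} {u : Q P} (hu : u ∈ Qc P m) :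
    u * li P g ∈ Qc P (g ::ₘ m) := by
  have : Qc P m ≤ (Qc P (g ::ₘ m)).comap (LinearMap.mulRight K (li P g)) := by
    apply Qc_le
    intro w hw
    subst hw
    have h1 := wp_mem P (w ++ [g])
    rw [wp_append] at h1
    have h2 : ((w ++ [g] : List Lt) : Multiset Lt) = g ::ₘ (w : Multiset Lt) := by
      rw [← Multiset.coe_add, add_comm]; rfl
    rw [h2] at h1
    simpa using h1
  exact this hu

/-- target of `D g` on `Qc m` -/
noncomputable def Qg (P : Par K) (m : Multiset Lt) (g : Lt) : Submodule K (Q P) :=
  if g ∈ m then Qc P (m.erase g) else ⊥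

theorem D_wp_mem (P : Par K) (g : Lt) (w : List Lt) : D P g (wp P w) ∈ Qg P (w : Multiset Lt) g := by
  induction w with
  | nil => simp [Qg]
  | cons l w ih =>
    rw [wp_cons, D_mul]
    by_cases h : g = l
    · subst h
      have h1 : Qg P (((g :: w : List Lt) : Multiset Lt)) g = Qc P (w : Multiset Lt) := by
        have : g ∈ ((g :: w : List Lt) : Multiset Lt) := by simp
        simp [Qg]
      rw [h1]
      simp only [if_true]
      refine Submodule.add_mem _ ?_ ?_
      · unfold Qg at ih
        split_ifs at ih with h2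
        · have := li_mul_mem P g ih
          rwa [Multiset.cons_erase h2] at this
        · simp only [Submodule.mem_bot] at ih
          rw [ih, mul_zero]; exact Submodule.zero_mem _
      · rw [sc_wp]; exact Submodule.smul_mem _ _ (wp_mem P w)
    · simp only [h, if_false, add_zero]
      unfold Qg at ih ⊢
      split_ifs at ih with h2
      · have h3 : g ∈ ((l :: w : List Lt) : Multiset Lt) := by
          have h2' : g ∈ w := by simpa using h2
          simp [h2']
        rw [if_pos h3]
        have := li_mul_mem P l ih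
        have h4 : ((l :: w : List Lt) : Multiset Lt).erase g = l ::ₘ (w : Multiset Lt).erase g := by
          rw [← Multiset.cons_coe, Multiset.erase_cons_tail]
          exact fun h' => h h'.symm
        rw [h4]; exact this
      · simp only [Submodule.mem_bot] at ih
        rw [ih, mul_zero]; exact Submodule.zero_mem _

theorem D_mem (P : Par K) (g : Lt) {m : Multiset Lt} {u : Q P} (hu : u ∈ Qc P m) :
    D P g u ∈ Qg P m g := by
  have : Qc P m ≤ (Qg P m g).comap (D P g) := by
    apply Qc_le
    intro w hw
    subst hw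
    exact D_wp_mem P g w
  exact this hu

/-! ### content projections -/

noncomputable def gr (P : Par K) : Q P →ₐ[K] AddMonoidAlgebra (Q P) (Multiset Lt) :=
  lft P (fun l => AddMonoidAlgebra.single {l} (li P l)) (by
    rw [AddMonoidAlgebra.single_mul_single, AddMonoidAlgebra.single_mul_single, rel,
      add_comm ({Lt.x} : Multiset Lt), AddMonoidAlgebra.smul_single])

theorem gr_wp (P : Par K) (w : List Lt) :
    gr P (wp P w) = AddMonoidAlgebra.single (w : Multiset Lt) (wp P w) := by
  induction w with
  | nil => simp [AddMonoidAlgebra.one_def]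
  | cons l w ih =>
    rw [wp_cons, map_mul, ih]
    simp [gr, AddMonoidAlgebra.single_mul_single]

noncomputable def prj (P : Par K) (m : Multiset Lt) : Q P →ₗ[K] Q P where
  toFun u := (gr P u).coeff m
  map_add' u v := by simp
  map_smul' r u := by simp

theorem prj_wp (P : Par K) (m : Multiset Lt) (w : List Lt) :
    prj P m (wp P w) = if (w : Multiset Lt) = m then wp P w else 0 := by
  show (gr P (wp P w)).coeff m = _
  rw [gr_wp]
  simp [Finsupp.single_apply]

/-- `Σ_{n+n'=m} Qc n ⊗ Qc n'` -/
noncomputable def Ht (P : Par K) (m : Multiset Lt) : Submodule K (Q P ⊗[K] Q P) :=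
  Submodule.span K {t | ∃ u v : List Lt, (u : Multiset Lt) + (v : Multiset Lt) = m ∧
    wp P u ⊗ₜ[K] wp P v = t}

theorem Ht_le (P : Par K) {m : Multiset Lt} {N : Submodule K (Q P ⊗[K] Q P)}
    (h : ∀ u v : List Lt, (u : Multiset Lt) + (v : Multiset Lt) = m → wp P u ⊗ₜ[K] wp P v ∈ N) :
    Ht P m ≤ N := by
  unfold Ht
  rw [Submodule.span_le]
  rintro t ⟨u, v, hw, rfl⟩
  exact h u v hw

theorem cop_wp_mem (P : Par K) (w : List Lt) : cop P (wp P w) ∈ Ht P (w : Multiset Lt) := by
  induction w with
  | nil =>
    rw [wp_nil, cop_one]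
    exact Submodule.subset_span ⟨[], [], by simp, by simp⟩
  | cons l w ih =>
    rw [wp_cons, cop_mul]
    refine Submodule.add_mem _ ?_ ?_
    · have : Ht P (w : Multiset Lt) ≤ (Ht P ((l :: w : List Lt) : Multiset Lt)).comap (Lop P l) := by
        apply Ht_le
        intro u v huv
        refine Submodule.subset_span ⟨l :: u, v, ?_, by simp⟩
        rw [← Multiset.cons_coe, ← Multiset.cons_coe, Multiset.cons_add, huv]
      exact this ih
    · have : Ht P (w : Multiset Lt) ≤ (Ht P ((l :: w : List Lt) : Multiset Lt)).comap (Rop P l) := by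
        apply Ht_le
        intro u v huv
        rw [Submodule.mem_comap, Rop_tmul, sc_wp, ← TensorProduct.smul_tmul']
        refine Submodule.smul_mem _ _ (Submodule.subset_span ⟨u, l :: v, ?_, by simp⟩)
        rw [← Multiset.cons_coe, ← Multiset.cons_coe, Multiset.add_cons, huv]
      exact this ih

theorem cop_mem (P : Par K) {m : Multiset Lt} {u : Q P} (hu : u ∈ Qc P m) : cop P u ∈ Ht P m := by
  have : Qc P m ≤ (Ht P m).comap (cop P) := by
    apply Qc_le
    intro w hw
    subst hw
    exact cop_wp_mem P w
  exact this hu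

/-- `φ ⊗ id` -/
noncomputable def lf (P : Par K) (φ : Q P →ₗ[K] K) : (Q P ⊗[K] Q P) →ₗ[K] Q P :=
  (TensorProduct.lid K (Q P)).toLinearMap.comp (TensorProduct.map φ LinearMap.id)

@[simp] theorem lf_tmul (P : Par K) (φ : Q P →ₗ[K] K) (u v : Q P) :
    lf P φ (u ⊗ₜ v) = φ u • v := by simp [lf]

theorem D_lf (P : Par K) (φ : Q P →ₗ[K] K) (g : Lt) (t : Q P ⊗[K] Q P) :
    D P g (lf P φ t) = lf P φ (TensorProduct.map LinearMap.id (D P g) t) := by
  induction t using TensorProduct.induction_on with
  | zero => simp
  | tmul u v => simp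
  | add u v hu hv => simp [hu, hv]

theorem eq_zero_of_lf (P : Par K) (t : Q P ⊗[K] Q P) (h : ∀ φ, lf P φ t = 0) : t = 0 := by
  classical
  let ℬ := Module.Basis.ofVectorSpace K (Q P)
  apply (TensorProduct.equivFinsuppOfBasisLeft (N := Q P) ℬ).injective
  rw [map_zero]
  apply Finsupp.ext
  intro i
  rw [TensorProduct.equivFinsuppOfBasisLeft_apply]
  have := h (ℬ.coord i)
  simpa [lf, LinearMap.rTensor] using this

/-- the component in `Qc n ⊗ Q` -/
noncomputable def pr (P : Par K) (n : Multiset Lt) : (Q P ⊗[K] Q P) →ₗ[K] (Q P ⊗[K] Q P) :=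
  TensorProduct.map (prj P n) LinearMap.id

theorem lf_pr (P : Par K) (φ : Q P →ₗ[K] K) (n : Multiset Lt) (t : Q P ⊗[K] Q P) :
    lf P φ (pr P n t) = lf P (φ.comp (prj P n)) t := by
  induction t using TensorProduct.induction_on with
  | zero => simp
  | tmul u v => simp [pr]
  | add u v hu hv => simp only [map_add, hu, hv]

theorem lf_mem (P : Par K) (φ : Q P →ₗ[K] K) {m : Multiset Lt} (n : Multiset Lt)
    {t : Q P ⊗[K] Q P} (ht : t ∈ Ht P m) : lf P (φ.comp (prj P n)) t ∈ Qc P (m - n) := by
  have : Ht P m ≤ (Qc P (m - n)).comap (lf P (φ.comp (prj P n))) := by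
    apply Ht_le
    intro u v huv
    rw [Submodule.mem_comap, lf_tmul, LinearMap.comp_apply, prj_wp]
    split_ifs with h
    · have : m - n = (v : Multiset Lt) := by
        rw [← huv, h, add_comm, Multiset.add_sub_cancel_right]
      rw [this]
      exact Submodule.smul_mem _ _ (wp_mem P v)
    · simp
  exact this ht

theorem sum_pr (P : Par K) {m : Multiset Lt} {t : Q P ⊗[K] Q P} (ht : t ∈ Ht P m) :
    ∑ n ∈ (Multiset.powerset m).toFinset, pr P n t = t := by
  have : Ht P m ≤ LinearMap.eqLocus (∑ n ∈ (Multiset.powerset m).toFinset, pr P n) LinearMap.id := by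
    apply Ht_le
    intro u v huv
    rw [LinearMap.mem_eqLocus, LinearMap.sum_apply, LinearMap.id_apply]
    rw [Finset.sum_eq_single (u : Multiset Lt)]
    · simp [pr, prj_wp]
    · intro n _ hn
      simp [pr, prj_wp, Ne.symm hn]
    · intro hn
      exfalso
      apply hn
      rw [Multiset.mem_toFinset, Multiset.mem_powerset, ← huv]
      exact Multiset.le_add_right _ _
  have h2 := this ht
  rw [LinearMap.mem_eqLocus, LinearMap.sum_apply, LinearMap.id_apply] at h2
  exact h2

theorem span_wp (P : Par K) (u : Q P) : u ∈ Submodule.span K (Set.range (wp P)) := by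
  induction u using Q_ind P with
  | one => exact Submodule.subset_span ⟨[], rfl⟩
  | add u v hu hv => exact Submodule.add_mem _ hu hv
  | smul r u hu => exact Submodule.smul_mem _ _ hu
  | mul l u hu =>
    have : Submodule.span K (Set.range (wp P)) ≤
        (Submodule.span K (Set.range (wp P))).comap (LinearMap.mulLeft K (li P l)) := by
      rw [Submodule.span_le]
      rintro _ ⟨w, rfl⟩
      exact Submodule.subset_span ⟨l :: w, by simp⟩
    exact this hu

theorem ext_wp (P : Par K) {M : Type*} [AddCommGroup M] [Module K M] {f g : Q P →ₗ[K] M}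
    (h : ∀ w, f (wp P w) = g (wp P w)) : f = g := by
  apply LinearMap.ext
  intro u
  have : Submodule.span K (Set.range (wp P)) ≤ LinearMap.eqLocus f g := by
    rw [Submodule.span_le]
    rintro _ ⟨w, rfl⟩
    exact h w
  exact this (span_wp P u)

theorem prj_zero_mul (P : Par K) (l : Lt) (u : Q P) : prj P 0 (li P l * u) = 0 := by
  have : (prj P 0).comp (LinearMap.mulLeft K (li P l)) = 0 := by
    apply ext_wp
    intro w
    have := prj_wp P 0 (l :: w)
    simpa using this
  exact LinearMap.congr_fun this u

theorem prj_zero_sc (P : Par K) (s : Lt → K) (u : Q P) : prj P 0 (sc P s u) = prj P 0 u := by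
  have : (prj P 0).comp (sc P s).toLinearMap = prj P 0 := by
    apply ext_wp
    intro w
    cases w with
    | nil => simp
    | cons l w =>
      rw [wp_cons, LinearMap.comp_apply, AlgHom.toLinearMap_apply, map_mul, sc_li, smul_mul_assoc,
        map_smul, prj_zero_mul, prj_zero_mul, smul_zero]
  exact LinearMap.congr_fun this u

@[simp] theorem prj_zero_one (P : Par K) : prj P 0 1 = 1 := by
  have := prj_wp P 0 []
  simpa using this

theorem pr_zero_cop (P : Par K) (u : Q P) : pr P 0 (cop P u) = 1 ⊗ₜ u := by
  induction u using Q_ind P with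
  | one => simp [pr]
  | add u v hu hv => simp [hu, hv, TensorProduct.tmul_add]
  | smul r u hu => simp [hu]
  | mul l u hu =>
    have hL : ∀ t, pr P 0 (Lop P l t) = 0 := by
      intro t
      induction t using TensorProduct.induction_on with
      | zero => simp
      | tmul u v => simp [pr, prj_zero_mul]
      | add u v hu hv => simp only [map_add, hu, hv, add_zero]
    have hR : ∀ t, pr P 0 (Rop P l t) =
        TensorProduct.map LinearMap.id (LinearMap.mulLeft K (li P l)) (pr P 0 t) := by
      intro t
      induction t using TensorProduct.induction_on with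
      | zero => simp
      | tmul u v => simp [pr, prj_zero_sc]
      | add u v hu hv => simp only [map_add, hu, hv]
    rw [cop_mul, map_add, hL, hR, hu]
    simp

theorem pr_last_cop (P : Par K) (u : Q P) :
    TensorProduct.map LinearMap.id (prj P 0) (cop P u) = u ⊗ₜ 1 := by
  induction u using Q_ind P with
  | one => simp
  | add u v hu hv => simp [hu, hv, TensorProduct.add_tmul]
  | smul r u hu => simp [hu, TensorProduct.smul_tmul']
  | mul l u hu =>
    have hL : ∀ t, TensorProduct.map LinearMap.id (prj P 0) (Lop P l t) =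
        Lop P l (TensorProduct.map LinearMap.id (prj P 0) t) := by
      intro t
      induction t using TensorProduct.induction_on with
      | zero => simp
      | tmul u v => simp
      | add u v hu hv => simp only [map_add, hu, hv]
    have hR : ∀ t, TensorProduct.map LinearMap.id (prj P 0) (Rop P l t) = 0 := by
      intro t
      induction t using TensorProduct.induction_on with
      | zero => simp
      | tmul u v => simp [prj_zero_mul]
      | add u v hu hv => simp only [map_add, hu, hv, add_zero]
    rw [cop_mul, map_add, hL, hR, hu]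
    simp

theorem pr_last (P : Par K) {m : Multiset Lt} {t : Q P ⊗[K] Q P} (ht : t ∈ Ht P m) :
    pr P m t = TensorProduct.map LinearMap.id (prj P 0) t := by
  have : Ht P m ≤ LinearMap.eqLocus (pr P m) (TensorProduct.map LinearMap.id (prj P 0)) := by
    apply Ht_le
    intro u v huv
    rw [LinearMap.mem_eqLocus]
    simp only [pr, TensorProduct.map_tmul, LinearMap.id_apply, prj_wp]
    by_cases h : v = []
    · subst h
      have : (u : Multiset Lt) = m := by simpa using huv
      simp [this]
    · have h1 : ¬ ((v : Multiset Lt) = 0) := by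
        intro h'; exact h (by simpa using h')
      have h2 : ¬ ((u : Multiset Lt) = m) := by
        intro h'
        rw [← huv] at h'
        exact h1 (add_left_cancel (a := (u : Multiset Lt)) (by rw [add_zero]; exact h'.symm))
      rw [if_neg h1, if_neg h2]
      simp
  exact this ht

theorem Th_zero (P : Par K) {m : Multiset Lt} (hm : m ≠ 0) {u : Q P} (hu : u ∈ Qc P m) :
    Th P (cop P u) = 0 := by
  have : Qc P m ≤ LinearMap.ker ((Th P).comp (cop P)) := by
    apply Qc_le
    intro w hw
    cases w with
    | nil => exact absurd hw.symm hm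
    | cons l w => simp [Th_cop]
  exact this hu

/-! ### the scalar of `S²` -/

/-- `(i,j,k,l) = (n_x, n_x', n_a, n_b)` -/
def Xs (P : Par K) (i j k l : ℤ) : K :=
  P.p ^ (i * (i + k - j - l - 1) + j * (i + k - j - l + 1)) * P.ca ^ (k * (i + k - j - l - 1)) *
    P.cb ^ (l * (i + k - j - l + 1))

def ct (w : List Lt) (g : Lt) : ℤ := (w.count g : ℤ)

theorem prod_chi_left (P : Par K) (g : Lt) (w : List Lt) :
    (w.map (fun k => P.chi g k)).prod = P.c g ^ (ct w .x + ct w .a - ct w .x' - ct w .b) := by
  induction w with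
  | nil => simp [ct]
  | cons l w ih =>
    rw [List.map_cons, List.prod_cons, ih, Par.chi, ← zpow_add₀ (P.c_ne g)]
    congr 1
    cases l <;> simp [ct, wt] <;> ring

theorem prod_c (P : Par K) (w : List Lt) :
    (w.map P.c).prod = P.p ^ (ct w .x + ct w .x') * P.ca ^ (ct w .a) * P.cb ^ (ct w .b) := by
  induction w with
  | nil => simp [ct]
  | cons l w ih =>
    rw [List.map_cons, List.prod_cons, ih]
    cases l <;> simp [ct, Par.c, zpow_add₀ P.hp, zpow_add₀ P.ha, zpow_add₀ P.hb] <;> ring

theorem prod_chi_right (P : Par K) (g : Lt) (w : List Lt) :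
    (w.map (fun k => P.chi k g)).prod =
      (P.p ^ (ct w .x + ct w .x') * P.ca ^ (ct w .a) * P.cb ^ (ct w .b)) ^ wt g := by
  rw [← prod_c]
  induction w with
  | nil => simp
  | cons l w ih => rw [List.map_cons, List.prod_cons, ih, List.map_cons, List.prod_cons, mul_zpow, Par.chi]

theorem zaux (P : Par K) (E1 E2 E3 n1 n2 n3 s W1 W2 W3 F1 F2 F3 : ℤ)
    (h1 : E1 + n1 * s + W1 = F1) (h2 : E2 + n2 * s + W2 = F2) (h3 : E3 + n3 * s + W3 = F3) :
    P.p ^ E1 * P.ca ^ E2 * P.cb ^ E3 * ((P.p ^ n1 * P.ca ^ n2 * P.cb ^ n3) ^ s *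
      (P.p ^ W1 * P.ca ^ W2 * P.cb ^ W3)) = P.p ^ F1 * P.ca ^ F2 * P.cb ^ F3 := by
  subst h1 h2 h3
  rw [mul_zpow, mul_zpow, ← zpow_mul, ← zpow_mul, ← zpow_mul, zpow_add₀ P.hp, zpow_add₀ P.hp,
    zpow_add₀ P.ha, zpow_add₀ P.ha, zpow_add₀ P.hb, zpow_add₀ P.hb]
  ring

theorem SS_wp (P : Par K) (w : List Lt) :
    S P (S P (wp P w)) = Xs P (ct w .x) (ct w .x') (ct w .a) (ct w .b) • wp P w := by
  induction w with
  | nil => simp [Xs, ct]
  | cons g w ih =>
    rw [wp_cons, SS_mul, ih, map_smul, map_smul, sc_wp, map_smul, sc_wp, prod_chi_left, prod_chi_right]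
    simp only [mul_smul_comm, smul_smul]
    congr 1
    have e : ∀ h : Lt, ct (g :: w) h = ct w h + (if g = h then 1 else 0) := by
      intro h; simp [ct, List.count_cons]
    simp only [e]
    generalize ct w .x = i
    generalize ct w .x' = j
    generalize ct w .a = k
    generalize ct w .b = l
    cases g
    · simp only [Par.c, wt, reduceCtorEq, if_true, if_false, add_zero, Xs]
      have := zaux P (i * (i + k - j - l - 1) + j * (i + k - j - l + 1)) (k * (i + k - j - l - 1))
        (l * (i + k - j - l + 1)) (i + j) k l 1 (i + k - j - l) 0 0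
        ((i + 1) * (i + 1 + k - j - l - 1) + j * (i + 1 + k - j - l + 1))
        (k * (i + 1 + k - j - l - 1)) (l * (i + 1 + k - j - l + 1)) (by ring) (by ring) (by ring)
      simpa using this
    · simp only [Par.c, wt, reduceCtorEq, if_true, if_false, add_zero, Xs]
      have := zaux P (i * (i + k - j - l - 1) + j * (i + k - j - l + 1)) (k * (i + k - j - l - 1))
        (l * (i + k - j - l + 1)) (i + j) k l 1 0 (i + k - j - l) 0
        (i * (i + (k + 1) - j - l - 1) + j * (i + (k + 1) - j - l + 1))
        ((k + 1) * (i + (k + 1) - j - l - 1)) (l * (i + (k + 1) - j - l + 1)) (by ring) (by ring) (by ring)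
      simpa using this
    · simp only [Par.c, wt, reduceCtorEq, if_true, if_false, add_zero, Xs]
      have := zaux P (i * (i + k - j - l - 1) + j * (i + k - j - l + 1)) (k * (i + k - j - l - 1))
        (l * (i + k - j - l + 1)) (i + j) k l (-1) (i + k - j - l) 0 0
        (i * (i + k - (j + 1) - l - 1) + (j + 1) * (i + k - (j + 1) - l + 1))
        (k * (i + k - (j + 1) - l - 1)) (l * (i + k - (j + 1) - l + 1)) (by ring) (by ring) (by ring)
      simpa using this
    · simp only [Par.c, wt, reduceCtorEq, if_true, if_false, add_zero, Xs]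
      have := zaux P (i * (i + k - j - l - 1) + j * (i + k - j - l + 1)) (k * (i + k - j - l - 1))
        (l * (i + k - j - l + 1)) (i + j) k l (-1) 0 0 (i + k - j - l)
        (i * (i + k - j - (l + 1) - 1) + j * (i + k - j - (l + 1) + 1))
        (k * (i + k - j - (l + 1) - 1)) ((l + 1) * (i + k - j - (l + 1) + 1)) (by ring) (by ring) (by ring)
      simpa using this

theorem SS_Qc (P : Par K) {m : Multiset Lt} {u : Q P} (hu : u ∈ Qc P m) :
    S P (S P u) = Xs P (m.count .x) (m.count .x') (m.count .a) (m.count .b) • u := by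
  have : Qc P m ≤ LinearMap.eqLocus ((S P).comp (S P))
      (Xs P (m.count .x) (m.count .x') (m.count .a) (m.count .b) • LinearMap.id) := by
    apply Qc_le
    intro w hw
    subst hw
    rw [LinearMap.mem_eqLocus]
    simpa [ct] using SS_wp P w
  exact this hu

/-- multiplicative independence of `p, ca, cb` -/
def Par.Ind (P : Par K) : Prop :=
  ∀ i j k : ℤ, P.p ^ i * P.ca ^ j * P.cb ^ k = 1 → i = 0 ∧ j = 0 ∧ k = 0

theorem Xs_one (P : Par K) (hP : P.Ind) {i j k l : ℤ} (h : Xs P i j k l = 1) :
    (k = 0 ∧ l = 0 ∧ i = j) ∨ i + j + k + l = 1 := by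
  obtain ⟨h1, h2, h3⟩ := hP _ _ _ h
  rcases mul_eq_zero.1 h2 with hk | hk
  · rcases mul_eq_zero.1 h3 with hl | hl
    · subst hk hl
      have h4 : (i - j) * (i + j - 1) = 0 := by
        have : (i - j) * (i + j - 1) = i * (i + 0 - j - 0 - 1) + j * (i + 0 - j - 0 + 1) := by ring
        rw [this, h1]
      rcases mul_eq_zero.1 h4 with h5 | h5
      · left; exact ⟨rfl, rfl, by linarith⟩
      · right; linarith
    · subst hk
      have h5 : i * (i + 0 - j - l - 1) + j * (i + 0 - j - l + 1) = -2 * i := by
        have e1 : i + 0 - j - l - 1 = -2 := by linarith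
        have e2 : i + 0 - j - l + 1 = 0 := by linarith
        rw [e1, e2]; ring
      rw [h5] at h1
      right; linarith
  · have h5 : i * (i + k - j - l - 1) + j * (i + k - j - l + 1) = 2 * j := by
      have e2 : i + k - j - l + 1 = 2 := by linarith
      rw [hk, e2]; ring
    rw [h5] at h1
    have h6 : l * 2 = 0 := by
      have e2 : i + k - j - l + 1 = 2 := by linarith
      rw [e2] at h3; exact h3
    right; linarith

/-! ### injectivity -/

theorem D_pow (P : Par K) (i : ℕ) :
    D P .x (li P .x ^ (i + 1)) = (∑ r ∈ Finset.range (i + 1), P.p ^ r) • li P .x ^ i := by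
  induction i with
  | zero =>
    have := D_mul P .x .x 1
    simpa using this
  | succ i ih =>
    rw [pow_succ' _ (i + 1), D_mul, ih]
    have h1 : kap P .x (li P .x ^ (i + 1)) = P.p ^ (i + 1) • li P .x ^ (i + 1) := by
      rw [map_pow, sc_li, P.chi_x_x, smul_pow]
    rw [if_pos rfl, h1, mul_smul_comm, ← pow_succ', ← add_smul, Finset.sum_range_succ _ (i + 1)]

theorem D_pow' (P : Par K) (i j : ℕ) :
    D P .x (li P .x' ^ j * li P .x ^ (i + 1)) =
      (∑ r ∈ Finset.range (i + 1), P.p ^ r) • (li P .x' ^ j * li P .x ^ i) := by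
  induction j with
  | zero => simp [D_pow]
  | succ j ih =>
    rw [pow_succ', mul_assoc, D_mul, ih]
    simp [mul_assoc]

theorem x_pow (P : Par K) (j : ℕ) :
    li P .x * li P .x' ^ j = (P.p⁻¹) ^ j • (li P .x' ^ j * li P .x) := by
  induction j with
  | zero => simp
  | succ j ih =>
    rw [pow_succ' (li P .x'), ← mul_assoc, rel, smul_mul_assoc, mul_assoc, ih]
    simp [smul_smul, mul_assoc, pow_succ']

theorem wp_xx' (P : Par K) (w : List Lt) (h1 : w.count .a = 0) (h2 : w.count .b = 0) :
    ∃ r : K, wp P w = r • (li P .x' ^ (w.count .x') * li P .x ^ (w.count .x)) := by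
  induction w with
  | nil => exact ⟨1, by simp⟩
  | cons g w ih =>
    cases g
    · obtain ⟨r, hr⟩ := ih (by simpa using h1) (by simpa using h2)
      refine ⟨r * (P.p⁻¹) ^ (w.count .x'), ?_⟩
      rw [wp_cons, hr, mul_smul_comm, ← mul_assoc, x_pow]
      simp [smul_smul, mul_assoc, pow_succ']
    · simp at h1
    · obtain ⟨r, hr⟩ := ih (by simpa using h1) (by simpa using h2)
      refine ⟨r, ?_⟩
      rw [wp_cons, hr, mul_smul_comm]
      simp [mul_assoc, pow_succ']
    · simp at h2

theorem geom_ne (P : Par K) (hP : P.Ind) (i : ℕ) : (∑ r ∈ Finset.range (i + 1), P.p ^ r) ≠ 0 := by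
  intro h
  have h1 := geom_sum_mul P.p (i + 1)
  rw [h, zero_mul] at h1
  have h2 : P.p ^ ((i + 1 : ℕ) : ℤ) * P.ca ^ (0 : ℤ) * P.cb ^ (0 : ℤ) = 1 := by
    rw [zpow_natCast]
    simp only [zpow_zero, mul_one]
    exact (sub_eq_zero.1 h1.symm)
  have := (hP _ _ _ h2).1
  omega

theorem card_ct (m : Multiset Lt) :
    m.card = m.count .x + m.count .x' + m.count .a + m.count .b := by
  rw [← Multiset.sum_count_eq_card (s := Finset.univ) (m := m) (by simp)]
  have h : (Finset.univ : Finset Lt) = {.x, .a, .x', .b} := rfl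
  rw [h]
  simp
  ring

/-- **injectivity** (Lemma 1 of #25444) -/
theorem inj (P : Par K) (hP : P.Ind) : ∀ (n : ℕ) (m : Multiset Lt), m.card = n → m ≠ 0 →
    ∀ u ∈ Qc P m, (∀ g, D P g u = 0) → u = 0 := by
  intro n
  induction n using Nat.strong_induction_on with
  | _ n IH =>
  intro m hn hm u hu hD
  -- the middle part of the coproduct vanishes
  have hmid : ∀ k ∈ (Multiset.powerset m).toFinset, k ≠ 0 → k ≠ m → pr P k (cop P u) = 0 := by
    intro k hk hk0 hkm
    rw [Multiset.mem_toFinset, Multiset.mem_powerset] at hk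
    apply eq_zero_of_lf
    intro φ
    rw [lf_pr]
    have hc : k.card + (m - k).card = m.card := by
      rw [← Multiset.card_add, add_comm, Multiset.sub_add_cancel hk]
    have hk1 : 0 < k.card := Multiset.card_pos.2 hk0
    refine IH (m - k).card (by omega) (m - k) rfl ?_ _ (lf_mem P φ k (cop_mem P hu)) ?_
    · intro h0
      apply hkm
      refine Multiset.eq_of_le_of_card_le hk ?_
      rw [h0] at hc
      simp at hc
      omega
    · intro g
      rw [D_lf, D_cop, hD g]
      simp
  have hcop : cop P u = 1 ⊗ₜ u + u ⊗ₜ 1 := by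
    rw [← sum_pr P (cop_mem P hu)]
    rw [← Finset.sum_subset (s₁ := {0, m})]
    · rw [Finset.sum_pair (Ne.symm hm), pr_zero_cop, pr_last P (cop_mem P hu), pr_last_cop]
    · intro k hk
      simp only [Finset.mem_insert, Finset.mem_singleton] at hk
      rw [Multiset.mem_toFinset, Multiset.mem_powerset]
      rcases hk with rfl | rfl
      · exact Multiset.zero_le _
      · exact le_refl _
    · intro k hk hk'
      simp only [Finset.mem_insert, Finset.mem_singleton, not_or] at hk'
      exact hmid k hk hk'.1 hk'.2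
  have hS : S P u = - u := by
    have h1 := Th_zero P hm hu
    rw [hcop, map_add, Th_tmul, Th_tmul, S_one, one_mul, mul_one] at h1
    exact eq_neg_of_add_eq_zero_right h1
  have hSS : Xs P (m.count .x) (m.count .x') (m.count .a) (m.count .b) • u = u := by
    rw [← SS_Qc P hu, hS, map_neg, hS, neg_neg]
  by_cases hX : Xs P (m.count .x) (m.count .x') (m.count .a) (m.count .b) = 1
  · rcases Xs_one P hP hX with ⟨hk, hl, hij⟩ | h1
    · -- content `i (x + x')`
      have hle : Qc P m ≤ Submodule.span K {li P .x' ^ (m.count .x') * li P .x ^ (m.count .x)} := by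
        apply Qc_le
        intro w hw
        subst hw
        obtain ⟨r, hr⟩ := wp_xx' P w (by simpa using hk) (by simpa using hl)
        rw [hr]
        exact Submodule.smul_mem _ _ (Submodule.subset_span (by simp))
      obtain ⟨r, rfl⟩ := Submodule.mem_span_singleton.1 (hle hu)
      have hpos : m.count .x ≠ 0 := by
        intro h0
        apply hm
        rw [← Multiset.card_eq_zero]
        have := card_ct m
        omega
      obtain ⟨i, hi⟩ := Nat.exists_eq_succ_of_ne_zero hpos
      have h2 := hD .x
      rw [hi, Nat.succ_eq_add_one, map_smul, D_pow', smul_smul, mul_comm, ← smul_smul,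
        smul_eq_zero] at h2
      have h3 := h2.resolve_left (geom_ne P hP i)
      rw [hi, Nat.succ_eq_add_one, pow_succ, ← mul_assoc, ← smul_mul_assoc, h3, zero_mul]
    · -- one letter
      have hcard : m.card = 1 := by
        have := card_ct m
        omega
      obtain ⟨g, rfl⟩ := Multiset.card_eq_one.1 hcard
      have hle : Qc P {g} ≤ Submodule.span K {li P g} := by
        apply Qc_le
        intro w hw
        have : w = [g] := by simpa using hw
        subst this
        exact Submodule.subset_span (by simp)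
      obtain ⟨r, rfl⟩ := Submodule.mem_span_singleton.1 (hle hu)
      have h2 := hD g
      have h4 : D P g (li P g) = 1 := by
        have := D_mul P g g 1
        simpa using this
      rw [map_smul, h4] at h2
      have : r • li P g = (r • (1 : Q P)) * li P g := by simp
      rw [this, h2, zero_mul]
  · have h5 : (Xs P (m.count .x) (m.count .x') (m.count .a) (m.count .b) - 1) • u = 0 := by
      rw [sub_smul, hSS, one_smul, sub_self]
    exact (smul_eq_zero.1 h5).resolve_left (sub_ne_zero.2 hX)

end

end Crest.Agent.R186.Loc261
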