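import Crest.Agent.R186.MCh_75
import Crest.Agent.R186.QF_354

/-!
Row 186 (A) (helper75): the M-chain on `tL = winS ((TB.self (WL π)).shift 1 0)` (no shift of the
degree), and the binding to 354's `KK0` / `XX`.

* `tL0 π`, `mlS π s hs : BLy (MW π s hs) 6`;
* `tLG π s hs : BM (Gm π s hs) (WR π).dga`;
* **`ac_hM : KK0 π (tQ Y (tLG π s hs)) → Ac (tG (tQ Y (resBL (HmP π s hs) (MW π s hs))) (XX π))`**.
-/

set_option autoImplicit false
set_option linter.style.haveILetI false
set_option linter.unusedSectionVars false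

noncomputable section

open MulOpposite

namespace Crest.Agent.R186.MCh75

open Hat827 Win810 Win810.WD Frame515 WBM163 FinV988 Core890 SExt44 DefsQ830 PBW128 WL221 C2b44
open Res255 SM890 KOSM296 MLay75 Chr763 QF354
open Crest.Agent.R186.Cells221 (Cell)
open Crest.Agent.R186.C2x354 (oc)

variable {K : Type} [Field K] (π : Par K)

/-- `tL` without shift of the degree, as window data -/
abbrev tT0 : TB (WL π) (WL π) := (TB.self (WL π)).shift 1 0

/-- `tL` without shift of the degree -/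
abbrev tL0 : BM (WL π).dga (WL π).dga := winS (tT0 π)

theorem q_tT0 (i j : DefsQ830.Ob) (k : ℤ) : (tT0 π).q i j k =
    pcL π ((WL π).P i - (WL π).P j + 1) ((WL π).A i - (WL π).A j) k := by
  change pcL π ((WL π).P i - (WL π).P j + (0 + 1)) ((WL π).A i - (WL π).A j + (0 + 0)) k = _
  rw [zero_add, add_zero, add_zero]

theorem mem_gr0 {k : ℤ} {z : (tL0 π).X} : z ∈ (tL0 π).gr k ↔ ∀ i j, (show RL π from z.1 i j) ∈
    pcL π ((WL π).P i - (WL π).P j + 1) ((WL π).A i - (WL π).A j) k := by
  constructor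
  · intro h i j
    exact (le_of_eq (q_tT0 π i j k)) (h i j)
  · intro h i j
    exact (le_of_eq (q_tT0 π i j k).symm) (h i j)

theorem gr0_neg {k : ℤ} (hk : k < 0) {z : (tL0 π).X} (hz : z ∈ (tL0 π).gr k) : z = 0 := by
  apply Subtype.ext
  funext i j
  have h := (mem_gr0 π).1 hz i j
  rw [pcL_neg (Or.inr hk), Submodule.mem_bot] at h
  exact h

section W

variable (s : ℕ) (hs : 2 ≤ s)

theorem co_E0 (q : Wb) {i j : DefsQ830.Ob} {m : MM π} (hm : m ∈ E (tbOf (bdM π s hs)) i j) :
    co π q m ∈ E (tT0 π) i j := by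
  have h : E (tbOf (bdM π s hs)) i j ≤ (E (tT0 π) i j).comap (co π q) := by
    refine iSup_le fun k x hx => ?_
    refine q_le_E (tT0 π) i j (k + wC q.word - s) ?_
    have h1 := co_mem π s ((le_of_eq (q_tbOf (bdM π s hs) i j k)) hx) q
    exact (le_of_eq (q_tT0 π i j (k + wC q.word - s)).symm) h1
  exact h hm

/-- the coordinate on windows -/
def co0 (q : Wb) : (MW π s hs).X →ₗ[K] (tL0 π).X where
  toFun m := (⟨fun i j => co π q (m.1 i j), fun i j => co_E0 π s hs q (m.2 i j)⟩ : Xs (tT0 π))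
  map_add' m n := by
    apply Subtype.ext
    funext i j
    exact map_add (co π q) _ _
  map_smul' c m := by
    apply Subtype.ext
    funext i j
    exact map_smul (co π q) _ _

theorem co0_zero {q : Wb} {m : (MW π s hs).X} (h : co0 π s hs q m = 0) (i j : DefsQ830.Ob) :
    cM π q (m.1 i j) = 0 :=
  co_zero π (congrFun (congrFun (congrArg Subtype.val h) i) j)

/-- the layer `tL · o_q` -/
abbrev D0 (q : Wb) : BM (WR π).dga (WR π).dga :=
  resBL (SM890.prHm π) (resBR (hq π q) (tL0 π))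

theorem upz0 {j : ℕ} (hj : j < 6) {m : (MW π s hs).X}
    (h : ∀ i < 6, j < i → co0 π s hs (lt i) m = 0) (q' : Wb) (hq' : idx (lt j) < idx q')
    (i k : DefsQ830.Ob) : cM π q' (m.1 i k) = 0 := by
  rw [idx_lt hj] at hq'
  have := h (idx q') (idx_lt6 q') hq'
  rw [lt_idx] at this
  exact co0_zero π s hs this i k

/-- **the six layers of `M`** -/
def mlS : BLy (MW π s hs) 6 where
  D j := D0 π (lt j)
  c j := wC (lt j).word - s
  μ j := co0 π s hs (lt j)
  mem j hj k x hx _ := (mem_gr0 π).2 fun i i' => by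
    have h := co_mem π s ((mem_grM (bdM π s hs)).1 hx i i') (lt j)
    rw [show k + (wC (lt j).word - (s : ℤ)) = k + wC (lt j).word - s by ring]
    exact h
  zero {k x} hx h := by
    apply Subtype.ext
    funext i i'
    refine eq_zero_of_cM π fun q => ?_
    have := h (idx q) (idx_lt6 q)
    rw [lt_idx] at this
    exact co0_zero π s hs this i i'
  md j hj x hx := by
    apply Subtype.ext
    funext i i'
    exact co_d π fun q' hq' => upz0 π s hs hj hx q' hq' i i'
  msL j hj a x hx := by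
    apply Subtype.ext
    funext i i'
    refine (map_sum (co π (lt j)) _ _).trans ?_
    exact Finset.sum_congr rfl fun l _ => co_l π (fun q' hq' => upz0 π s hs hj hx q' hq' l i') _
  msR j hj b x hx := by
    apply Subtype.ext
    funext i i'
    refine (map_sum (co π (lt j)) _ _).trans ?_
    exact Finset.sum_congr rfl fun l _ => co_r π (fun q' hq' => upz0 π s hs hj hx q' hq' i l) _
  sur j hj k y hy := by
    have hy' : ∀ i i', (show RL π from (show Xs (tT0 π) from y).1 i i') ∈
        pcL π ((WL π).P i - (WL π).P i' + 1) ((WL π).A i - (WL π).A i')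
          (k + (wC (lt j).word - s)) := (mem_gr0 π).1 hy
    have hx : ∀ i i', oM π (lt j) (show RL π from (show Xs (tT0 π) from y).1 i i').1 ∈
        pcM π s ((WR π).P i - (WR π).P i') ((WR π).A i - (WR π).A i') k := fun i i' =>
      mem_pcM π s (lt j) (hy' i i') (by ring)
    let x : (MW π s hs).X := ⟨fun i i' => oM π (lt j) (show RL π from (show Xs (tT0 π) from y).1 i i').1,
      fun i i' => q_le_E (tbOf (bdM π s hs)) i i' k
        ((le_of_eq (q_tbOf (bdM π s hs) i i' k).symm) (hx i i'))⟩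
    refine ⟨x, (mem_grM (bdM π s hs)).2 hx, ?_, ?_⟩
    · apply Subtype.ext
      funext i i'
      show co π (lt j) (oM π (lt j) (show RL π from (show Xs (tT0 π) from y).1 i i').1) = _
      rw [co_oM π le_rfl, if_pos rfl]
      exact prL_inL _
    · intro i hi hij
      apply Subtype.ext
      funext a b
      show co π (lt i) (oM π (lt j) (show RL π from (show Xs (tT0 π) from y).1 a b).1) = 0
      have h1 : idx (lt j) < idx (lt i) := by rw [idx_lt hj, idx_lt hi]; exact hij
      rw [co_oM π h1.le, if_neg]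
      intro h2
      rw [h2] at h1
      exact lt_irrefl _ h1

/-- **THE M-CHAIN over `L''`** -/
theorem ac_MW0 (Y : RCells (WR π).dga) (X : LCells (WR π).dga)
    (h : ∀ q : Wb, Ac (tG (tQ (pushR (SM890.prHm π) Y) (tL0 π)) (pushL (hq π q) X))) :
    Ac (tG (tQ Y (MW π s hs)) X) :=
  (mlS π s hs).ac Y X fun j _ => h (lt j)

/-- **THE M-CHAIN over `Γ`** -/
theorem ac_M0 (Y : RCells (Gm π s hs)) (X : LCells (WR π).dga)
    (h : ∀ q : Wb, Ac (tG (tQ (pushR ((SM890.prHm π).comp (HmP π s hs)) Y) (tL0 π))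
      (pushL (hq π q) X))) :
    Ac (tG (tQ Y (resBL (HmP π s hs) (MW π s hs))) X) :=
  ac_MW0 π s hs (pushR (HmP π s hs) Y) X h

end W

/-! ### the torus twists -/

section tw

variable (N : RM (WL π).dga)

theorem hq_zero (q : Wb) (a : (WR π).Win) (ha : ∀ i j, kill π (ent π a i j) = 0) :
    (hq π q).f a = 0 := by
  apply Subtype.ext
  ext i j
  show tauL π (Tq π q) (prL π (ent π a i j)) = 0
  rw [prL_eq_zero.2 (ha i j), map_zero]
theorem JZ_hq (q : Wb) : JZ π (resR (hq π q) N) := by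
  intro a ha x
  show op ((hq π q).f a) • (show N.X from x) = 0
  rw [hq_zero π q a ha, op_zero, zero_smul]

theorem hq_e (q : Wb) (i : DefsQ830.Ob) :
    (hq π q).f (WD.e (w := WR π) i) = (prH π).f (WD.e (w := WR π) i) := by
  have h1 : (prH π).f (WD.e (w := WR π) i) = WD.e (w := WL π) i :=
    prW_e i
  have h2 : (hq π q).f (WD.e (w := WR π) i) = (hL π (Tq π q)).f ((prH π).f (WD.e (w := WR π) i)) := rfl
  rw [h2, h1]
  exact hL_e π _ _

theorem hq_k (q : Wb) (a : (WR π).dga.C) :
    (hq π q).f a = (prH π).f ((hR π (Tq π q)).f a) := hL_hPr π _ a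
theorem rmul_res {A B : DGA K} (h h' : Hm A B) (N : RM B) (a a' : A.C) (e : h.f a = h'.f a') :
    (rmul (resR h N) a : N.X →ₗ[K] N.X) = rmul (resR h' N) a' := by
  refine LinearMap.ext fun x => ?_
  let x' : N.X := x
  change op (h.f a) • x' = op (h'.f a') • x'
  rw [e]

theorem KAc_congr {B : GC K} {p p' : Cell → (B.X →ₗ[K] B.X)} {m m' : Cell → Cell → (B.X →ₗ[K] B.X)}
    (hp : ∀ c, p c = p' c) (hm : ∀ c c', m c c' = m' c c') (h : KAc B p m) : KAc B p' m' := by
  have e1 : p = p' := funext hp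
  have e2 : m = m' := funext fun c => funext fun c' => hm c c'
  rw [← e1, ← e2]
  exact h

theorem KK0_hq (q : Wb) (h : KK0 π (resR (prH π) N)) : KK0 π (resR (hq π q) N) := by
  have key := KK0.twist π (JZ_resR π N) h (Tq π q) (tau π (Tq π q)) (fun a _ => tau_X π _ a)
    (fun c c' => (hR π (Tq π q)).f (k0 π c c')) (fun c c' i j => by
      show kill π (tau π (Tq π q) (ent π (k0 π c c') i j)) = _
      rw [k0_ent]
      split_ifs
      · rfl
      · rw [map_zero, map_zero])
  exact KAc_congr (B := N.toGC) (fun c => (rmul_res (hq π q) (prH π) N _ _ (hq_e π q (oc c))).symm)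
    (fun c c' => (rmul_res (hq π q) (prH π) N _ _ (hq_k π q (k0 π c c'))).symm) key

/-- acyclicity of `N ⊗ X''` for all twists from `KK0` of the untwisted module -/
theorem ac_hq (lo : ℤ) (hlo : ∀ k : ℤ, k < lo → ∀ x ∈ N.gr k, x = 0)
    (h : KK0 π (resR (prH π) N)) (q : Wb) : Ac (tG N (pushL (hq π q) (XX π))) :=
  ac_XX π (JZ_hq π N q) lo hlo (KK0_hq π N q h)

end tw

section fin

variable (s : ℕ) (hs : 2 ≤ s)

/-- `tL` as a `Γ`-`L''`-bimodule -/
def tLG : BM (Gm π s hs) (WR π).dga :=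
  resBL ((SM890.prHm π).comp (HmP π s hs)) (resBR (prH π) (tL0 π))

theorem tQ_low (Y : RCells (WL π).dga) (k : ℤ) (hk : k < 0) (x : (tQ Y (tL0 π)).X)
    (hx : x ∈ (tQ Y (tL0 π)).gr k) : x = 0 := by
  let x' : Y.ι →₀ (tL0 π).X := x
  show x' = 0
  refine Finsupp.ext fun σ => gr0_neg π (k := k - Y.s σ) (by omega) (hx σ).1

/-- **hM from `KK0` of `t(tL)`** -/
theorem ac_hM (Y : RCells (Gm π s hs)) (h : KK0 π (tQ Y (tLG π s hs))) :
    Ac (tG (tQ Y (resBL (HmP π s hs) (MW π s hs))) (XX π)) :=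
  ac_M0 π s hs Y (XX π) fun q =>
    ac_hq π (tQ (pushR ((SM890.prHm π).comp (HmP π s hs)) Y) (tL0 π)) 0
      (fun k hk x hx => tQ_low π _ k hk x hx) h q

end fin

end Crest.Agent.R186.MCh75
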