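import Crest.Agent.R186.Frame2_515
import Crest.Agent.R186.Res_255

/-!
Row 186 (A) (helper75): LAYERS.

`Ly C r` : a graded complex with `r` layers `D j` (maps `μ j : C → D j`, `μ j` is a chain map on the
part where `μ i = 0` for `i > j`, surjective there, jointly injective).  `Ly.ac` : all layers acyclic
⇒ `C` acyclic.  `BLy M r` : the same for a dg bimodule; `BLy.ac` : `(Y ⊗ M) ⊗ X` is acyclic if all
`(Y ⊗ D j) ⊗ X` are.
-/

set_option autoImplicit false
set_option linter.style.haveILetI false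
set_option linter.unusedSectionVars false

open MulOpposite

namespace Crest.Agent.R186.MLay75

open Hat827 Hat827.DGA Frame515 Res255

variable {K : Type} [Field K]

/-- a graded complex with `r` layers -/
structure Ly (C : GC K) (r : ℕ) where
  D : ℕ → GC K
  c : ℕ → ℤ
  μ : ∀ j, C.X →ₗ[K] (D j).X
  mem : ∀ j < r, ∀ {k : ℤ} {x : C.X}, x ∈ C.gr k → (∀ i < r, j < i → μ i x = 0) →
    μ j x ∈ (D j).gr (k + c j)
  zero : ∀ {k : ℤ} {x : C.X}, x ∈ C.gr k → (∀ j < r, μ j x = 0) → x = 0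
  md : ∀ j < r, ∀ x : C.X, (∀ i < r, j < i → μ i x = 0) → μ j (C.d x) = (D j).d (μ j x)
  sur : ∀ j < r, ∀ {k : ℤ} {y : (D j).X}, y ∈ (D j).gr (k + c j) →
    ∃ x ∈ C.gr k, μ j x = y ∧ ∀ i < r, j < i → μ i x = 0

namespace Ly

variable {C : GC K} {r : ℕ} (L : Ly C r)

theorem ac (h : ∀ j < r, Ac (L.D j)) : Ac C := by
  have key : ∀ l ≤ r, ∀ (k : ℤ) (x : C.X), x ∈ C.gr k → C.d x = 0 →
      (∀ i < r, l ≤ i → L.μ i x = 0) → ∃ y ∈ C.gr (k + 1), C.d y = x := by
    intro l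
    induction l with
    | zero =>
      intro _ k x hx _ hz
      exact ⟨0, Submodule.zero_mem _, by rw [map_zero, L.zero hx fun j hj => hz j hj (Nat.zero_le _)]⟩
    | succ l ih =>
      intro hl k x hx hd hz
      have hl' : l < r := hl
      have h1 : (L.D l).d (L.μ l x) = 0 := by
        rw [← L.md l hl' x fun i hi h2 => hz i hi h2, hd, map_zero]
      obtain ⟨y, hy, hy'⟩ := h l hl' _ _ (L.mem l hl' hx fun i hi h2 => hz i hi h2) h1
      rw [show k + L.c l + 1 = k + 1 + L.c l by ring] at hy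
      obtain ⟨z, hz1, hz2, hz3⟩ := L.sur l hl' hy
      have h2 : C.d z ∈ C.gr k := by
        have := C.d_mem hz1
        rwa [add_sub_cancel_right] at this
      obtain ⟨u, hu, hu'⟩ := ih hl'.le k (x - C.d z) (Submodule.sub_mem _ hx h2)
        (by rw [map_sub, hd, C.d_d, sub_zero]) (by
          intro i hi hli
          rw [map_sub, L.md i hi z fun i' hi' h3 => hz3 i' hi' (by omega)]
          rcases Nat.lt_or_eq_of_le hli with h3 | rfl
          · rw [hz i hi h3, hz3 i hi h3, map_zero, sub_zero]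
          · rw [hz2, hy', sub_self])
      exact ⟨u + z, Submodule.add_mem _ hu hz1, by rw [map_add, hu', sub_add_cancel]⟩
  intro k x hx hd
  exact key r le_rfl k x hx hd fun i hi h' => absurd hi (by omega)

end Ly

/-! ### layers of right modules and bimodules -/

variable {A B : DGA K}

/-- layers of a right module -/
structure RLy (G : RM A) (r : ℕ) where
  D : ℕ → RM A
  c : ℕ → ℤ
  μ : ∀ j, G.X →ₗ[K] (D j).X
  mem : ∀ j < r, ∀ {k : ℤ} {x : G.X}, x ∈ G.gr k → (∀ i < r, j < i → μ i x = 0) →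
    μ j x ∈ (D j).gr (k + c j)
  zero : ∀ {k : ℤ} {x : G.X}, x ∈ G.gr k → (∀ j < r, μ j x = 0) → x = 0
  md : ∀ j < r, ∀ x : G.X, (∀ i < r, j < i → μ i x = 0) → μ j (G.d x) = (D j).d (μ j x)
  ms : ∀ j < r, ∀ (a : A.C) (x : G.X), (∀ i < r, j < i → μ i x = 0) → μ j (op a • x) = op a • μ j x
  sur : ∀ j < r, ∀ {k : ℤ} {y : (D j).X}, y ∈ (D j).gr (k + c j) →
    ∃ x ∈ G.gr k, μ j x = y ∧ ∀ i < r, j < i → μ i x = 0

/-- layers of a bimodule -/
structure BLy (M : BM A B) (r : ℕ) where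
  D : ℕ → BM A B
  c : ℕ → ℤ
  μ : ∀ j, M.X →ₗ[K] (D j).X
  mem : ∀ j < r, ∀ {k : ℤ} {x : M.X}, x ∈ M.gr k → (∀ i < r, j < i → μ i x = 0) →
    μ j x ∈ (D j).gr (k + c j)
  zero : ∀ {k : ℤ} {x : M.X}, x ∈ M.gr k → (∀ j < r, μ j x = 0) → x = 0
  md : ∀ j < r, ∀ x : M.X, (∀ i < r, j < i → μ i x = 0) → μ j (M.d x) = (D j).d (μ j x)
  msL : ∀ j < r, ∀ (a : A.C) (x : M.X), (∀ i < r, j < i → μ i x = 0) → μ j (a • x) = a • μ j x
  msR : ∀ j < r, ∀ (b : B.C) (x : M.X), (∀ i < r, j < i → μ i x = 0) → μ j (op b • x) = op b • μ j x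
  sur : ∀ j < r, ∀ {k : ℤ} {y : (D j).X}, y ∈ (D j).gr (k + c j) →
    ∃ x ∈ M.gr k, μ j x = y ∧ ∀ i < r, j < i → μ i x = 0

/-- choose preimages in a family -/
theorem fam_sur {ι X : Type} [AddCommGroup X] [Module K X] {r j : ℕ} {Y : ℕ → Type}
    [∀ i, AddCommGroup (Y i)] [∀ i, Module K (Y i)]
    (μ : ∀ i, X →ₗ[K] Y i) (P : ι → X → Prop) (y : ι →₀ Y j)
    (h : ∀ σ, ∃ x, P σ x ∧ μ j x = y σ ∧ ∀ i < r, j < i → μ i x = 0) (hP : ∀ σ, P σ 0) :
    ∃ x : ι →₀ X, (∀ σ, P σ (x σ)) ∧ (∀ σ, μ j (x σ) = y σ) ∧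
      ∀ i < r, j < i → ∀ σ, μ i (x σ) = 0 := by
  classical
  choose f hf1 hf2 hf3 using h
  refine ⟨Finsupp.onFinset y.support (fun σ => if y σ = 0 then 0 else f σ) (fun σ hσ => ?_), ?_, ?_, ?_⟩
  · rw [Finsupp.mem_support_iff]
    intro h0
    exact hσ (if_pos h0)
  · intro σ
    show P σ (if y σ = 0 then 0 else f σ)
    split_ifs with h0
    · exact hP σ
    · exact hf1 σ
  · intro σ
    show μ j (if y σ = 0 then 0 else f σ) = y σ
    split_ifs with h0
    · rw [h0, map_zero]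
    · exact hf2 σ
  · intro i hi hj σ
    show μ i (if y σ = 0 then 0 else f σ) = 0
    split_ifs with h0
    · rw [map_zero]
    · exact hf3 σ i hi hj

section tG

variable {G : RM A} {r : ℕ} (L : RLy G r) (X : LCells A)

/-- layers of `G ⊗ X` -/
noncomputable def RLy.tG : Ly (tG G X) r where
  D j := Frame515.tG (L.D j) X
  c := L.c
  μ j := Finsupp.mapRange.linearMap (L.μ j)
  mem j hj k x hx h σ := by
    have h' : ∀ i < r, j < i → L.μ i (x σ) = 0 := fun i hi hij => DFunLike.congr_fun (h i hi hij) σ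
    refine ⟨?_, ?_⟩
    · have := L.mem j hj (hx σ).1 h'
      rwa [show k - (X.s σ : ℤ) + L.c j = k + L.c j - X.s σ by ring] at this
    · have h1 := L.ms j hj (X.e σ) (x σ) h'
      have h2 : op (X.e σ) • x σ = x σ := (hx σ).2
      rw [h2] at h1
      exact h1.symm
  zero {k x} hx h := Finsupp.ext fun σ => L.zero (hx σ).1 fun j hj => DFunLike.congr_fun (h j hj) σ
  md j hj x hx := by
    classical
    have h' : ∀ σ, ∀ i < r, j < i → L.μ i (x σ) = 0 := fun σ i hi hij =>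
      DFunLike.congr_fun (hx i hi hij) σ
    refine Finsupp.ext fun τ => ?_
    have h1 := (twG G X).dd_apply' x x.support (Finset.Subset.refl _) τ
    have h2 := (twG (L.D j) X).dd_apply' (Finsupp.mapRange.linearMap (L.μ j) x) x.support
      (Finsupp.support_mapRange (hf := map_zero _)) τ
    show L.μ j ((twG G X).dd x τ) = (twG (L.D j) X).dd (Finsupp.mapRange.linearMap (L.μ j) x) τ
    rw [h1, h2, map_add, map_sum]
    congr 1
    · exact L.md j hj _ (h' τ)
    · exact Finset.sum_congr rfl fun σ _ => L.ms j hj _ _ (h' σ)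
  sur j hj k y hy := by
    obtain ⟨x, h1, h2, h3⟩ := fam_sur (r := r) (j := j) L.μ
      (fun σ x => x ∈ G.gr (k - X.s σ) ∧ op (X.e σ) • x = x) (show X.ι →₀ (L.D j).X from y)
      (fun σ => by
        have hy' := (hy σ).1
        rw [show k + L.c j - (X.s σ : ℤ) = k - X.s σ + L.c j by ring] at hy'
        obtain ⟨x, hx1, hx2, hx3⟩ := L.sur j hj hy'
        refine ⟨op (X.e σ) • x, ⟨?_, ?_⟩, ?_, ?_⟩
        · have := G.smul_mem (X.e_mem σ) hx1
          rwa [zero_add] at this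
        · rw [smul_smul, ← op_mul, X.e_idem]
        · rw [L.ms j hj _ _ hx3, hx2]
          exact (hy σ).2
        · intro i hi hij
          rw [L.ms i hi _ _ fun i' hi' h3 => hx3 i' hi' (by omega), hx3 i hi hij, smul_zero])
      (fun σ => ⟨Submodule.zero_mem _, smul_zero _⟩)
    exact ⟨x, h1, Finsupp.ext h2, fun i hi hij => Finsupp.ext fun σ => h3 i hi hij σ⟩

end tG

section tQ

variable {M : BM A B} {r : ℕ} (L : BLy M r) (Y : RCells A)

/-- layers of `Y ⊗ M` -/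
noncomputable def BLy.tQ : RLy (tQ Y M) r where
  D j := Frame515.tQ Y (L.D j)
  c := L.c
  μ j := Finsupp.mapRange.linearMap (L.μ j)
  mem j hj k x hx h σ := by
    have h' : ∀ i < r, j < i → L.μ i ((show Y.ι →₀ M.X from x) σ) = 0 := fun i hi hij =>
      DFunLike.congr_fun (F := Y.ι →₀ (L.D i).X) (h i hi hij) σ
    refine ⟨?_, ?_⟩
    · have := L.mem j hj (hx σ).1 h'
      rwa [show k - (Y.s σ : ℤ) + L.c j = k + L.c j - Y.s σ by ring] at this
    · have h1 := L.msL j hj (Y.e σ) _ h'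
      have h2 : Y.e σ • (show Y.ι →₀ M.X from x) σ = (show Y.ι →₀ M.X from x) σ := (hx σ).2
      rw [h2] at h1
      exact h1.symm
  zero {k x} hx h := Finsupp.ext fun σ => L.zero (hx σ).1 fun j hj => DFunLike.congr_fun (F := Y.ι →₀ (L.D j).X) (h j hj) σ
  md j hj x hx := by
    classical
    have h' : ∀ σ, ∀ i < r, j < i → L.μ i ((show Y.ι →₀ M.X from x) σ) = 0 := fun σ i hi hij =>
      DFunLike.congr_fun (F := Y.ι →₀ (L.D i).X) (hx i hi hij) σ
    refine Finsupp.ext fun τ => ?_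
    have h1 := (twY Y M.toLM).dd_apply' x (show Y.ι →₀ M.X from x).support (Finset.Subset.refl _) τ
    have h2 := (twY Y (L.D j).toLM).dd_apply' (Finsupp.mapRange.linearMap (L.μ j) x)
      (show Y.ι →₀ M.X from x).support (Finsupp.support_mapRange (hf := map_zero _)) τ
    show L.μ j ((twY Y M.toLM).dd x τ) =
      (twY Y (L.D j).toLM).dd (Finsupp.mapRange.linearMap (L.μ j) x) τ
    rw [h1, h2, map_add, map_sum]
    congr 1
    · exact L.md j hj _ (h' τ)
    · exact Finset.sum_congr rfl fun σ _ => L.msL j hj _ _ (h' σ)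
  ms j hj b x hx := by
    have h' : ∀ σ, ∀ i < r, j < i → L.μ i ((show Y.ι →₀ M.X from x) σ) = 0 := fun σ i hi hij =>
      DFunLike.congr_fun (F := Y.ι →₀ (L.D i).X) (hx i hi hij) σ
    exact Finsupp.ext fun σ => L.msR j hj b _ (h' σ)
  sur j hj k y hy := by
    obtain ⟨x, h1, h2, h3⟩ := fam_sur (r := r) (j := j) L.μ
      (fun σ x => x ∈ M.gr (k - Y.s σ) ∧ Y.e σ • x = x) (show Y.ι →₀ (L.D j).X from y)
      (fun σ => by
        have hy' := (hy σ).1
        rw [show k + L.c j - (Y.s σ : ℤ) = k - Y.s σ + L.c j by ring] at hy'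
        obtain ⟨x, hx1, hx2, hx3⟩ := L.sur j hj hy'
        refine ⟨Y.e σ • x, ⟨?_, ?_⟩, ?_, ?_⟩
        · have := M.smul_mem (Y.e_mem σ) hx1
          rwa [zero_add] at this
        · rw [smul_smul, Y.e_idem]
        · rw [L.msL j hj _ _ hx3, hx2]
          exact (hy σ).2
        · intro i hi hij
          rw [L.msL i hi _ _ fun i' hi' h3 => hx3 i' hi' (by omega), hx3 i hi hij, smul_zero])
      (fun σ => ⟨Submodule.zero_mem _, smul_zero _⟩)
    exact ⟨x, h1, Finsupp.ext h2, fun i hi hij => Finsupp.ext fun σ => h3 i hi hij σ⟩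

/-- **all layers acyclic ⇒ acyclic** -/
theorem BLy.ac (X : LCells B) (h : ∀ j < r, Ac (Frame515.tG (Frame515.tQ Y (L.D j)) X)) :
    Ac (Frame515.tG (Frame515.tQ Y M) X) := ((L.tQ Y).tG X).ac h

end tQ

end Crest.Agent.R186.MLay75
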