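import Crest.Agent.R186.Kdef_448
import Crest.Agent.R186.N0B_341

/-!
Row 186 (S0281), helper341, leaf B281.N0: 448's `d3` has the entries `D3E`.
-/

set_option autoImplicit false
set_option linter.unusedSectionVars false

open Finset Matrix

namespace Crest.Agent.R186.B281

namespace N341

variable {K : Type} [Field K] {g : K}

/-- the sequence of a generator -/
noncomputable def dl (K : Type) [Field K] (j : ℕ) (a : ℕ) : Op K := if a = j then 1 else 0

theorem sh_dl (j a : ℕ) : KN.sh (dl K j) a = if a = j + 1 then 1 else 0 := by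
  cases a with
  | zero => rw [if_neg (by omega)]; rfl
  | succ a =>
    show dl K j a = _
    unfold dl
    by_cases h : a = j
    · rw [if_pos h, if_pos (by omega)]
    · rw [if_neg h, if_neg (by omega)]

theorem coe_single (n : ℕ) (j k : Fin (n + 1)) (e : Fin 2) (p q : Fin 7) :
    K448.hf e (((Pi.single j (Pgen g 0 2) : Fin (n + 1) → Pv g 0 2) k : Pv g 0 2) : A g 0) p q =
      if k = j then K448.hf e (eps g 0 2) p q else 0 := by
  by_cases h : k = j
  · subst h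
    rw [Pi.single_eq_same, if_pos rfl]
    rfl
  · rw [Pi.single_eq_of_ne h, if_neg h]
    exact congrFun (congrFun (K448.hf_z e) p) q

theorem idp22 : (idp K 2 : Mat K) 2 2 = 1 := by
  rw [idp, Matrix.diagonal_apply_eq, if_pos (by decide)]

/-- the row of a generator, first half -/
theorem row_gen0 (n : ℕ) (j : Fin (n + 1)) :
    KN.ez (fun k => K448.rO 2 0 2
      (((Pi.single j (Pgen g 0 2) : Fin (n + 1) → Pv g 0 2) k : Pv g 0 2) : A g 0)) =
      dl K (j : ℕ) := by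
  funext a
  unfold KN.ez dl
  split_ifs with h h' h'
  · refine (coe_single n j ⟨a, h⟩ 0 2 2).trans ?_
    rw [if_pos (Fin.ext h'), K448.hf_zero, eps_fst, idp22]
  · refine (coe_single n j ⟨a, h⟩ 0 2 2).trans ?_
    rw [if_neg fun h2 => h' (congrArg Fin.val h2)]
  · exact absurd (h' ▸ j.2) h
  · rfl

/-- the row of a generator, second half -/
theorem row_gen1 (n : ℕ) (j : Fin (n + 1)) (i : Fin 7) :
    (fun k => K448.rO 2 1 i
      (((Pi.single j (Pgen g 0 2) : Fin (n + 1) → Pv g 0 2) k : Pv g 0 2) : A g 0)) = 0 := by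
  funext k
  refine (coe_single n j k 1 i 2).trans ?_
  rw [K448.hf_one, eps_snd]
  split_ifs <;> rfl

theorem d3w_dl (n j i : ℕ) (T0 T1 : Op K) (h : (X 1 : Op K) * T0 = X 0 * T1) :
    KN.d3w g n (dl K j) i 0 * T0 + KN.d3w g n (dl K j) i 1 * T1 =
      (if i = j + 1 then T0 else 0) - (if i = j then T1 else 0) := by
  have hs : ∀ c : Op K, KN.syz c 0 * T0 + KN.syz c 1 * T1 = 0 := fun c => by
    show c * X 1 * T0 + -(c * X 0) * T1 = 0
    rw [neg_mul, mul_assoc, mul_assoc, h, add_neg_cancel]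
  have hm : (if i = j + 1 then (1 : Op K) else 0) * T0 = if i = j + 1 then T0 else 0 := by
    split_ifs
    · exact one_mul _
    · exact zero_mul _
  have hm' : (dl K j i : Op K) * T1 = if i = j then T1 else 0 := by
    unfold dl
    split_ifs
    · exact one_mul _
    · exact zero_mul _
  have hi : ∀ (p : Prop) [Decidable p] (r : Fin 2 → Op K) (t : Fin 2),
      (if p then r else 0 : Fin 2 → Op K) t = if p then r t else 0 := by
    intro p _ r t
    split_ifs <;> rfl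
  have e0 : KN.d3w g n (dl K j) i 0 = (if i = j + 1 then (1 : Op K) else 0) -
      (cq g (n + 1 - i : ℕ))⁻¹ • KN.syz (dl K j i * D g 0) 0 -
      (if i = n + 1 then (cq g (n + 1 : ℕ))⁻¹ • KN.syz (dl K j n * D g 1) 0 else 0) := by
    rw [← sh_dl]
    unfold KN.d3w
    rw [Pi.sub_apply, Pi.sub_apply, hi]
    rfl
  have e1 : KN.d3w g n (dl K j) i 1 = - dl K j i -
      (cq g (n + 1 - i : ℕ))⁻¹ • KN.syz (dl K j i * D g 0) 1 -
      (if i = n + 1 then (cq g (n + 1 : ℕ))⁻¹ • KN.syz (dl K j n * D g 1) 1 else 0) := by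
    unfold KN.d3w
    rw [Pi.sub_apply, Pi.sub_apply, hi]
    rfl
  rw [e0, e1, sub_mul, sub_mul, sub_mul, sub_mul, hm, neg_mul, hm', smul_mul_assoc, smul_mul_assoc]
  have f1 := hs (dl K j i * D g 0)
  have f2 : (if i = n + 1 then (cq g (n + 1 : ℕ))⁻¹ • KN.syz (dl K j n * D g 1) 0 else 0) * T0 +
      (if i = n + 1 then (cq g (n + 1 : ℕ))⁻¹ • KN.syz (dl K j n * D g 1) 1 else 0) * T1 = 0 := by
    split_ifs
    · rw [smul_mul_assoc, smul_mul_assoc, ← smul_add, hs, smul_zero]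
    · rw [zero_mul, zero_mul, add_zero]
  have f1' : (cq g (n + 1 - i : ℕ))⁻¹ • (KN.syz (dl K j i * D g 0) 0 * T0) +
      (cq g (n + 1 - i : ℕ))⁻¹ • (KN.syz (dl K j i * D g 0) 1 * T1) = 0 := by
    rw [← smul_add, f1, smul_zero]
  have f3 := eq_neg_of_add_eq_zero_left f1'
  have f4 := eq_neg_of_add_eq_zero_left f2
  rw [f3, f4]
  abel

theorem d3h0_dl (hg : Gen g) (j i : ℕ) : KN.d3h0 g (dl K j) i =
    if j = i + 1 then cq g (j : ℕ) • (1 : Op K) - X 1 * D g 1 else 0 := by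
  unfold KN.d3h0 dl
  by_cases h : j = i + 1
  · subst h
    rw [if_pos rfl, if_pos rfl, one_mul, X_D_self hg, sub_smul, one_smul]
    abel
  · rw [if_neg h, if_neg (Ne.symm h), zero_mul, zero_mul, smul_zero, smul_zero, sub_zero]

theorem d3h1_dl (n j i : ℕ) (hi : i < n) : KN.d3h1 g n (dl K j) i =
    (if j = i + 1 then D g 0 * X 1 else 0) -
      (if j = i then cq g ((n : ℤ) - (i : ℕ)) • (1 : Op K) else 0) := by
  unfold KN.d3h1 dl
  congr 1
  · by_cases h : j = i + 1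
    · rw [if_pos h, if_pos h.symm, one_mul]
    · rw [if_neg h, if_neg (Ne.symm h), zero_mul, zero_mul]
  · by_cases h : j = i
    · rw [if_pos h, if_pos h.symm, Nat.cast_sub hi.le]
    · rw [if_neg h, if_neg (Ne.symm h), smul_zero]

theorem D3_zero (n : ℕ) : KN.D3 g n 0 = 0 := map_zero _

theorem gK0 (hg : Gen g) (n : ℕ) (j : Fin (n + 1)) (i : Fin (n + 2)) :
    K448.rK 5 6 0 2 ((K448.d3 hg n (Pi.single j (Pgen g 0 2))).1 i : A g 0) =
      KN.d3w g n (dl K j) i := by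
  have h1 := K448.d3_row hg n (Pi.single j (Pgen g 0 2)) 0 2 i
  refine h1.trans ?_
  rw [← row_gen0]
  rfl

theorem gO0 (hg : Gen g) (n : ℕ) (j : Fin (n + 1)) (i : Fin n) :
    K448.rO 1 0 2 ((K448.d3 hg n (Pi.single j (Pgen g 0 2))).2 0 i : A g 0) =
      KN.d3h0 g (dl K j) i := by
  have h1 := K448.d3_rowh0 hg n (Pi.single j (Pgen g 0 2)) 0 2 i
  refine h1.trans ?_
  rw [← row_gen0]
  rfl

theorem gO1 (hg : Gen g) (n : ℕ) (j : Fin (n + 1)) (i : Fin n) :
    K448.rO 1 0 2 ((K448.d3 hg n (Pi.single j (Pgen g 0 2))).2 1 i : A g 0) =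
      KN.d3h1 g n (dl K j) i := by
  have h1 := K448.d3_rowh1 hg n (Pi.single j (Pgen g 0 2)) 0 2 i
  refine h1.trans ?_
  rw [← row_gen0]
  rfl

theorem sK (hg : Gen g) (n : ℕ) (j : Fin (n + 1)) (i : Fin (n + 2)) (a : Fin 7) :
    K448.rK 5 6 1 a ((K448.d3 hg n (Pi.single j (Pgen g 0 2))).1 i : A g 0) = 0 := by
  have h1 := K448.d3_row hg n (Pi.single j (Pgen g 0 2)) 1 a i
  refine h1.trans ?_
  rw [row_gen1, D3_zero]
  rfl

theorem sO0 (hg : Gen g) (n : ℕ) (j : Fin (n + 1)) (i : Fin n) (a : Fin 7) :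
    K448.rO 1 1 a ((K448.d3 hg n (Pi.single j (Pgen g 0 2))).2 0 i : A g 0) = 0 := by
  have h1 := K448.d3_rowh0 hg n (Pi.single j (Pgen g 0 2)) 1 a i
  refine h1.trans ?_
  rw [row_gen1, D3_zero]
  rfl

theorem sO1 (hg : Gen g) (n : ℕ) (j : Fin (n + 1)) (i : Fin n) (a : Fin 7) :
    K448.rO 1 1 a ((K448.d3 hg n (Pi.single j (Pgen g 0 2))).2 1 i : A g 0) = 0 := by
  have h1 := K448.d3_rowh1 hg n (Pi.single j (Pgen g 0 2)) 1 a i
  refine h1.trans ?_
  rw [row_gen1, D3_zero]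
  rfl

theorem blk4 (b : Fin 7) (hb : blk b = 4) : b = 5 ∨ b = 6 := by revert b; decide

theorem blk1 (b : Fin 7) (hb : blk b = 1) : b = 1 := by revert b; decide

theorem sD (hg : Gen g) (n : ℕ) (j : Fin (n + 1)) (i : Fin (n + 2)) :
    (dD (K448.d3 hg n) j i).1.snd = 0 := by
  funext a b
  by_cases hb : blk b = 4
  · have h1 := sK hg n j i a
    rcases blk4 b hb with rfl | rfl
    · exact congrFun h1 0
    · exact congrFun h1 1
  · exact (mem_Pv.1 ((K448.d3 hg n (Pi.single j (Pgen g 0 2))).1 i).2 a b hb).2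

theorem sOO (hg : Gen g) (n : ℕ) (j : Fin (n + 1)) (l : Fin 2) (i : Fin n) :
    (dO (K448.d3 hg n) j l i).1.snd = 0 := by
  funext a b
  by_cases hb : blk b = 1
  · have hb' := blk1 b hb
    subst hb'
    have hl : l = 0 ∨ l = 1 := by revert l; decide
    rcases hl with rfl | rfl
    · exact sO0 hg n j i a
    · exact sO1 hg n j i a
  · exact (mem_Pv.1 ((K448.d3 hg n (Pi.single j (Pgen g 0 2))).2 l i).2 a b hb).2

theorem kKd (hg : Gen g) (n : ℕ) (j : Fin (n + 1)) (i : Fin (n + 2)) (T0 T1 : Op K)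
    (hT : (X 1 : Op K) * T0 = X 0 * T1) :
    (dD (K448.d3 hg n) j i).1.fst 2 5 * T0 + (dD (K448.d3 hg n) j i).1.fst 2 6 * T1 =
      (if (i : ℕ) = j + 1 then T0 else 0) - (if (i : ℕ) = j then T1 else 0) := by
  have h1 := gK0 hg n j i
  have h2 := d3w_dl (g := g) n j i T0 T1 hT
  have a0 : (dD (K448.d3 hg n) j i).1.fst 2 5 = KN.d3w g n (dl K j) i 0 := congrFun h1 0
  have a1 : (dD (K448.d3 hg n) j i).1.fst 2 6 = KN.d3w g n (dl K j) i 1 := congrFun h1 1
  rw [a0, a1]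
  exact h2

theorem D3E_d3 (hg : Gen g) (n : ℕ) : D3E g n (dD (K448.d3 hg n)) (dO (K448.d3 hg n)) where
  mK j i := ((K448.d3 hg n (Pi.single j (Pgen g 0 2))).1 i).2
  mO j l i := ((K448.d3 hg n (Pi.single j (Pgen g 0 2))).2 l i).2
  kS := sD hg n
  kK := kKd hg n
  oS := sOO hg n
  o0 j i := (gO0 hg n j i).trans (d3h0_dl hg (j : ℕ) (i : ℕ))
  o1 j i := (gO1 hg n j i).trans (d3h1_dl (g := g) n (j : ℕ) (i : ℕ) i.2)

end N341

end Crest.Agent.R186.B281
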