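import Crest.Agent.R186.Null1b_275
import Crest.Agent.R186.EVA_538
import Crest.Agent.R186.KL_355

/-!
Row 186 (S0281), helper113, leaf B281.N1, part B: `H0`, `H1`, `H2` and `k2` of the column `O(-2)`
of `Hom (K'(n), A)` for `s = 1`, for any `d2`, `d3` with 355's row formulas (degree `0` entries).
-/

set_option autoImplicit false
set_option linter.unusedSectionVars false

open Finset Matrix

namespace Crest.Agent.R186.B281

namespace N1B113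

open Null275 KN Col113

variable {K : Type} [Field K] {g : K} {n : ℕ}

/-! ### the row identities -/

theorem cc_syz (c : Op K) : cc (syz c) = 0 := by
  simp only [cc, syz, Matrix.cons_val_zero, Matrix.cons_val_one]
  rw [neg_mul, mul_assoc, mul_assoc, X_comm 1 0, add_neg_cancel]

theorem cc_neg (v : Fin 2 → Op K) : cc (-v) = -cc v := by
  simp only [cc, Pi.neg_apply, neg_mul]
  abel

theorem cc_sub (v w : Fin 2 → Op K) : cc (v - w) = cc v - cc w := by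
  rw [sub_eq_add_neg, cc_add, cc_neg, sub_eq_add_neg]

theorem cc_ksmul (c : K) (v : Fin 2 → Op K) : cc (c • v) = c • cc v := by
  simp only [cc, Pi.smul_apply, smul_mul_assoc, smul_add]

theorem cc_e2w (v : Fin 2 → ℕ → Fin 2 → Op K) (j : ℕ) : cc (e2w g n v j) =
    -(cq g (n - j : ℕ) • cc (v 0 j)) - cq g (j + 1 : ℕ) • cc (v 1 (j + 1)) := by
  simp only [e2w, cc_add, cc_sub, cc_neg, cc_ksmul, cc_syz, smul_zero, sub_zero]
  abel

theorem cc_e3v0 (u : ℕ → Op K) (j : ℕ) : cc (e3v0 g u j) =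
    -(cq g (j + 1 : ℕ) • (u j * X 0)) + cq g (j + 1 : ℕ) • (u (j + 1) * X 1) := by
  simp only [cc, e3v0, Matrix.cons_val_zero, Matrix.cons_val_one, sub_mul, add_mul, neg_mul,
    smul_mul_assoc, mul_assoc, X_comm 1 0]
  abel

theorem cc_e3v1 (u : ℕ → Op K) (j : ℕ) : cc (e3v1 g n u j) =
    cq g (n + 1 - j : ℕ) • (sh u j * X 0) - cq g (n + 1 - j : ℕ) • (u j * X 1) := by
  simp only [cc, e3v1, Matrix.cons_val_zero, Matrix.cons_val_one, sub_mul, add_mul, neg_mul,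
    smul_mul_assoc, mul_assoc, X_comm 1 0]
  abel

/-- `c_m` on `ℕ` -/
noncomputable def lam (g : K) (m : ℕ) : K := cq g (m : ℤ)

theorem lam_zero : lam g 0 = 0 := cq_zero g

theorem lam_ne (hg : Gen g) {m : ℕ} (h : 0 < m) : lam g m ≠ 0 := cq_ne hg (by omega)

/-- the pairing with `d3` -/
theorem sum_e3 (u : ℕ → Op K) (hu : u (n + 1) = 0) (Z : Fin 2 → ℕ → K) :
    ∑ b ∈ range (n + 1), (Z 0 b • cc (e3v0 g u b) + Z 1 b • cc (e3v1 g n u b)) =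
      ∑ a ∈ range (n + 1), (be0 (lam g) n Z a • (u a * X 0) + be1 (lam g) n Z a • (u a * X 1)) := by
  have h1 : ∑ b ∈ range (n + 1), (lam g (b + 1) * Z 0 b) • (u (b + 1) * X 1) =
      ∑ a ∈ range (n + 1), (lam g a * Z 0 (a - 1)) • (u a * X 1) := by
    have e1 := sum_range_succ' (fun a => (lam g a * Z 0 (a - 1)) • (u a * X 1 : Op K)) (n + 1)
    have e2 := sum_range_succ (fun a => (lam g a * Z 0 (a - 1)) • (u a * X 1 : Op K)) (n + 1)
    rw [lam_zero, zero_mul, zero_smul, add_zero] at e1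
    rw [hu, zero_mul, smul_zero, add_zero] at e2
    rw [← e2, e1]
    rfl
  have h2 : ∑ b ∈ range (n + 1), (lam g (n + 1 - b) * Z 1 b) • (sh u b * X 0) =
      ∑ a ∈ range (n + 1), (lam g (n - a) * Z 1 (a + 1)) • (u a * X 0) := by
    have e1 := sum_range_succ' (fun b => (lam g (n + 1 - b) * Z 1 b) • (sh u b * X 0 : Op K)) (n + 1)
    have e2 := sum_range_succ (fun b => (lam g (n + 1 - b) * Z 1 b) • (sh u b * X 0 : Op K)) (n + 1)
    rw [sh_zero, zero_mul, smul_zero, add_zero] at e1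
    rw [Nat.sub_self, lam_zero, zero_mul, zero_smul, add_zero] at e2
    rw [← e2, e1]
    refine sum_congr rfl fun a _ => ?_
    rw [sh_succ, show n + 1 - (a + 1) = n - a by omega]
  have h3 : ∀ b, Z 0 b • cc (e3v0 g u b) + Z 1 b • cc (e3v1 g n u b) =
      -((lam g (b + 1) * Z 0 b) • (u b * X 0 : Op K)) +
        (lam g (b + 1) * Z 0 b) • (u (b + 1) * X 1 : Op K) +
        (lam g (n + 1 - b) * Z 1 b) • (sh u b * X 0 : Op K) -
        (lam g (n + 1 - b) * Z 1 b) • (u b * X 1 : Op K) := by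
    intro b
    rw [cc_e3v0, cc_e3v1]
    simp only [smul_add, smul_sub, smul_neg, smul_smul, lam, mul_comm (Z 0 b), mul_comm (Z 1 b)]
    abel
  simp only [h3, sum_add_distrib, sum_sub_distrib, sum_neg_distrib, h1, h2, be0, be1, sub_smul,
    add_smul, neg_smul]
  abel

/-- the pairing with `d2` -/
theorem sum_e2 (v : Fin 2 → ℕ → Fin 2 → Op K) (ζ : ℕ → K) :
    ∑ u ∈ range n, ζ u • cc (e2w g n v u) =
      ∑ b ∈ range (n + 1), (zz (lam g) n ζ 0 b • cc (v 0 b) + zz (lam g) n ζ 1 b • cc (v 1 b)) := by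
  have h1 : ∑ b ∈ range (n + 1), (lam g (n - b) * ζ b) • cc (v 0 b) =
      ∑ b ∈ range n, (lam g (n - b) * ζ b) • cc (v 0 b) := by
    rw [sum_range_succ, Nat.sub_self, lam_zero, zero_mul, zero_smul, add_zero]
  have h2 : ∑ b ∈ range (n + 1), (lam g b * ζ (b - 1)) • cc (v 1 b) =
      ∑ b ∈ range n, (lam g (b + 1) * ζ b) • cc (v 1 (b + 1)) := by
    rw [sum_range_succ', lam_zero, zero_mul, zero_smul, add_zero]
    rfl
  have h3 : ∀ u, ζ u • cc (e2w g n v u) = -((lam g (n - u) * ζ u) • cc (v 0 u)) -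
      (lam g (u + 1) * ζ u) • cc (v 1 (u + 1)) := by
    intro u
    rw [cc_e2w]
    simp only [smul_sub, smul_neg, smul_smul, lam, mul_comm (ζ u)]
  simp only [h3, zz0, zz1, neg_smul, sum_sub_distrib, sum_add_distrib, sum_neg_distrib, h1, h2]
  abel

/-! ### elements of the column `O(-2)` -/

/-- the element `c • (x0, x1)` of `e₃ A e₂` -/
noncomputable def w3 (g c : K) : Pv g 1 2 :=
  ⟨ofM 0 (N1.colm ![0, 0, 0, c • X 0, c • X 1, 0, 0] 2) (Pres.zero g 1 0) (N1.pres_c3 c), by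
    rw [mem_Pv]
    intro i j hj
    refine ⟨rfl, ?_⟩
    show N1.colm _ 2 i j = 0
    rw [N1.colm_apply, if_neg]
    rintro rfl
    exact hj rfl⟩

/-- the element `c • (x0, x1)` of `e₄ A e₂` -/
noncomputable def w4 (g c : K) : Pv g 1 2 :=
  ⟨ofM 0 (N1.colm ![0, 0, 0, 0, 0, c • X 0, c • X 1] 2) (Pres.zero g 1 0) (N1.pres_c4 c), by
    rw [mem_Pv]
    intro i j hj
    refine ⟨rfl, ?_⟩
    show N1.colm _ 2 i j = 0
    rw [N1.colm_apply, if_neg]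
    rintro rfl
    exact hj rfl⟩

theorem w3_fst (c : K) (i : Fin 7) : (w3 g c : A g 1).1.fst i 2 = 0 := rfl
theorem w4_fst (c : K) (i : Fin 7) : (w4 g c : A g 1).1.fst i 2 = 0 := rfl
theorem w3_snd3 (c : K) : (w3 g c : A g 1).1.snd 3 2 = c • (X 0 : Op K) :=
  N1.colm_same _ _ _
theorem w3_snd4 (c : K) : (w3 g c : A g 1).1.snd 4 2 = c • (X 1 : Op K) :=
  N1.colm_same _ _ _
theorem w4_snd5 (c : K) : (w4 g c : A g 1).1.snd 5 2 = c • (X 0 : Op K) :=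
  N1.colm_same _ _ _
theorem w4_snd6 (c : K) : (w4 g c : A g 1).1.snd 6 2 = c • (X 1 : Op K) :=
  N1.colm_same _ _ _

/-- the row `i` of an element of `A e₃` -/
def r3 (i : Fin 7) (x : Pv g 1 3) : Fin 2 → Op K :=
  ![(x : A g 1).1.fst i 3, (x : A g 1).1.fst i 4]

/-- the row `i` of an element of `A e₄` -/
def r4 (i : Fin 7) (x : Pv g 1 4) : Fin 2 → Op K :=
  ![(x : A g 1).1.fst i 5, (x : A g 1).1.fst i 6]

theorem cc_r3 (i : Fin 7) (x : Pv g 1 3) : cc (r3 i x) =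
    (x : A g 1).1.fst i 3 * X 0 + (x : A g 1).1.fst i 4 * X 1 := rfl

theorem cc_r4 (i : Fin 7) (x : Pv g 1 4) : cc (r4 i x) =
    (x : A g 1).1.fst i 5 * X 0 + (x : A g 1).1.fst i 6 * X 1 := rfl

section mul
variable {w : A g 1} {c : K}

theorem mul3 (h3 : w.1.fst 3 2 = 0) (h4 : w.1.fst 4 2 = 0) (k3 : w.1.snd 3 2 = c • (X 0 : Op K))
    (k4 : w.1.snd 4 2 = c • (X 1 : Op K)) (x : Pv g 1 3) (i : Fin 7) :
    ((x : A g 1) * w).1.fst i 2 = 0 ∧ ((x : A g 1) * w).1.snd i 2 = c • cc (r3 i x) := by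
  rw [fst_P3 x.2, snd_P3 x.2, h3, h4, k3, k4, cc_r3]
  simp only [mul_zero, add_zero, mul_smul_comm, smul_add, and_self]

theorem mul4 (h5 : w.1.fst 5 2 = 0) (h6 : w.1.fst 6 2 = 0) (k5 : w.1.snd 5 2 = c • (X 0 : Op K))
    (k6 : w.1.snd 6 2 = c • (X 1 : Op K)) (x : Pv g 1 4) (i : Fin 7) :
    ((x : A g 1) * w).1.fst i 2 = 0 ∧ ((x : A g 1) * w).1.snd i 2 = c • cc (r4 i x) := by
  rw [fst_P4 x.2, snd_P4 x.2, h5, h6, k5, k6, cc_r4]
  simp only [mul_zero, add_zero, mul_smul_comm, smul_add, and_self]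

end mul

/-! ### the maps with given coefficients -/

/-- `K₂ → A e₂` -/
noncomputable def hZ (g : K) (n : ℕ) (Z : Fin 2 → ℕ → K) :
    (Fin 2 → Fin (n + 1) → Pv g 1 3) →ₗ[A g 1] Pv g 1 2 :=
  ∑ l, (Dev580.homPi (eps g 1 3) (fun b : Fin (n + 1) => w3 g (Z l b))) ∘ₗ LinearMap.proj l

/-- `K₁ → A e₂` -/
noncomputable def hζ (g : K) (n : ℕ) (ζ : ℕ → K) :
    ((Fin n → Pv g 1 4) × (Fin 2 → Fin (n + 2) → Pv g 1 1)) →ₗ[A g 1] Pv g 1 2 :=
  (Dev580.homPi (eps g 1 4) (fun u : Fin n => w4 g (ζ u))) ∘ₗ LinearMap.fst _ _ _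

theorem hZ_val (Z : Fin 2 → ℕ → K) (x : Fin 2 → Fin (n + 1) → Pv g 1 3) :
    ((hZ g n Z x : Pv g 1 2) : A g 1) = ∑ l, ∑ b, (x l b : A g 1) * (w3 g (Z l b) : A g 1) := by
  rw [hZ, LinearMap.sum_apply, AddSubmonoidClass.coe_finsetSum]
  refine Finset.sum_congr rfl fun l _ => ?_
  rw [LinearMap.comp_apply, Dev580.homPi_apply, AddSubmonoidClass.coe_finsetSum]
  rfl

theorem hζ_val (ζ : ℕ → K) (x : (Fin n → Pv g 1 4) × (Fin 2 → Fin (n + 2) → Pv g 1 1)) :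
    ((hζ g n ζ x : Pv g 1 2) : A g 1) = ∑ u, (x.1 u : A g 1) * (w4 g (ζ u) : A g 1) := by
  rw [hζ, LinearMap.comp_apply, Dev580.homPi_apply, AddSubmonoidClass.coe_finsetSum]
  rfl

/-- the values of a map given by a table of coefficients -/
theorem tab3 (f : (Fin 2 → Fin (n + 1) → Pv g 1 3) →ₗ[A g 1] Pv g 1 2)
    (W : Fin 2 → Fin (n + 1) → A g 1) (Z : Fin 2 → ℕ → K)
    (hf : ∀ x, ((f x : Pv g 1 2) : A g 1) = ∑ l, ∑ b, (x l b : A g 1) * W l b)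
    (h3 : ∀ l b, (W l b).1.fst 3 2 = 0) (h4 : ∀ l b, (W l b).1.fst 4 2 = 0)
    (k3 : ∀ l b, (W l b).1.snd 3 2 = Z l b • (X 0 : Op K))
    (k4 : ∀ l b, (W l b).1.snd 4 2 = Z l b • (X 1 : Op K))
    (x : Fin 2 → Fin (n + 1) → Pv g 1 3) (i : Fin 7) :
    ((f x : Pv g 1 2) : A g 1).1.fst i 2 = 0 ∧ ((f x : Pv g 1 2) : A g 1).1.snd i 2 =
      ∑ b ∈ range (n + 1), (Z 0 b • cc (ez2 (fun l b => r3 i (x l b)) 0 b) +
        Z 1 b • cc (ez2 (fun l b => r3 i (x l b)) 1 b)) := by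
  rw [hf, fst_sum, snd_sum]
  constructor
  · refine Finset.sum_eq_zero fun l _ => ?_
    rw [fst_sum]
    exact Finset.sum_eq_zero fun b _ =>
      (mul3 (h3 l b) (h4 l b) (k3 l b) (k4 l b) (x l b) i).1
  · rw [Fin.sum_univ_two, snd_sum, snd_sum, ← Fin.sum_univ_eq_sum_range
      (fun b => Z 0 b • cc (ez2 (fun l b => r3 i (x l b)) 0 b) +
        Z 1 b • cc (ez2 (fun l b => r3 i (x l b)) 1 b)), ← Finset.sum_add_distrib]
    refine Finset.sum_congr rfl fun b _ => ?_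
    rw [(mul3 (h3 0 b) (h4 0 b) (k3 0 b) (k4 0 b) (x 0 b) i).2,
      (mul3 (h3 1 b) (h4 1 b) (k3 1 b) (k4 1 b) (x 1 b) i).2]
    simp only [ez2, ez_fin]

/-- the same for `hZ` -/
theorem hZ_ent (Z : Fin 2 → ℕ → K) (x : Fin 2 → Fin (n + 1) → Pv g 1 3) (i : Fin 7) :
    ((hZ g n Z x : Pv g 1 2) : A g 1).1.fst i 2 = 0 ∧
      ((hZ g n Z x : Pv g 1 2) : A g 1).1.snd i 2 =
      ∑ b ∈ range (n + 1), (Z 0 b • cc (ez2 (fun l b => r3 i (x l b)) 0 b) +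
        Z 1 b • cc (ez2 (fun l b => r3 i (x l b)) 1 b)) :=
  tab3 (hZ g n Z) (fun l b => w3 g (Z l b)) Z (hZ_val Z) (fun _ _ => rfl) (fun _ _ => rfl)
    (fun l b => w3_snd3 (Z l b)) (fun l b => w3_snd4 (Z l b)) x i

theorem hζ_ent (ζ : ℕ → K) (x : (Fin n → Pv g 1 4) × (Fin 2 → Fin (n + 2) → Pv g 1 1))
    (i : Fin 7) : ((hζ g n ζ x : Pv g 1 2) : A g 1).1.fst i 2 = 0 ∧
      ((hζ g n ζ x : Pv g 1 2) : A g 1).1.snd i 2 =
      ∑ u ∈ range n, ζ u • cc (ez (fun u => r4 i (x.1 u)) u) := by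
  rw [hζ_val, fst_sum, snd_sum]
  constructor
  · exact Finset.sum_eq_zero fun u _ =>
      (mul4 (w4_fst _ 5) (w4_fst _ 6) (w4_snd5 (ζ u)) (w4_snd6 (ζ u)) (x.1 u) i).1
  · rw [← Fin.sum_univ_eq_sum_range (fun u => ζ u • cc (ez (fun u => r4 i (x.1 u)) u))]
    refine Finset.sum_congr rfl fun u _ => ?_
    rw [(mul4 (w4_fst _ 5) (w4_fst _ 6) (w4_snd5 (ζ u)) (w4_snd6 (ζ u)) (x.1 u) i).2, ez_fin]

/-- the shape of a map on `K₂` -/
theorem exists_Z (f : (Fin 2 → Fin (n + 1) → Pv g 1 3) →ₗ[A g 1] Pv g 1 2) :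
    ∃ Z : Fin 2 → ℕ → K, ∀ x i, ((f x : Pv g 1 2) : A g 1).1.fst i 2 = 0 ∧
      ((f x : Pv g 1 2) : A g 1).1.snd i 2 =
      ∑ b ∈ range (n + 1), (Z 0 b • cc (ez2 (fun l b => r3 i (x l b)) 0 b) +
        Z 1 b • cc (ez2 (fun l b => r3 i (x l b)) 1 b)) := by
  have key : ∀ l : Fin 2, ∀ b : ℕ, ∃ c : K, ∀ hb : b < n + 1,
      ((f (Pi.single l (Pi.single ⟨b, hb⟩ (Pgen g 1 3))) : Pv g 1 2) : A g 1).1.snd 3 2 =
        c • (X 0 : Op K) ∧
      ((f (Pi.single l (Pi.single ⟨b, hb⟩ (Pgen g 1 3))) : Pv g 1 2) : A g 1).1.snd 4 2 =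
        c • (X 1 : Op K) := by
    intro l b
    by_cases hb : b < n + 1
    · obtain ⟨c, h1, h2⟩ := (N1.col2
        ((f (Pi.single l (Pi.single ⟨b, hb⟩ (Pgen g 1 3))) : Pv g 1 2) : A g 1).2.2).z34
      exact ⟨c, fun _ => ⟨h1, h2⟩⟩
    · exact ⟨0, fun h => absurd h hb⟩
  choose Z hZ using key
  refine ⟨Z, tab3 f (fun l b =>
    ((f (Pi.single l (Pi.single b (Pgen g 1 3))) : Pv g 1 2) : A g 1)) Z (pi2_val f) ?_ ?_ ?_ ?_⟩
  · intro l b
    exact (N1.col2 ((f (Pi.single l (Pi.single b (Pgen g 1 3))) : Pv g 1 2) : A g 1).2.1).z0.1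
  · intro l b
    exact (N1.col2 ((f (Pi.single l (Pi.single b (Pgen g 1 3))) : Pv g 1 2) : A g 1).2.1).z0.2.1
  · intro l b
    exact (hZ l b b.2).1
  · intro l b
    exact (hZ l b b.2).2

/-! ### the row formulas of the differentials (355), degree `0` part -/

/-- the rows of `d3` -/
def Row3 (d3 : (Fin (n + 1) → Pv g 1 2) →ₗ[A g 1] (Fin 2 → Fin (n + 1) → Pv g 1 3)) : Prop :=
  ∀ (x : Fin (n + 1) → Pv g 1 2) (i : Fin 7) (l : Fin 2) (a : Fin (n + 1)),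
    r3 i (d3 x l a) = E3 g n (fun j => (x j : A g 1).1.fst i 2) l a

/-- the `K₂`-rows of `d2` -/
def Row2 (d2 : (Fin 2 → Fin (n + 1) → Pv g 1 3) →ₗ[A g 1]
    ((Fin n → Pv g 1 4) × (Fin 2 → Fin (n + 2) → Pv g 1 1))) : Prop :=
  ∀ (x : Fin 2 → Fin (n + 1) → Pv g 1 3) (i : Fin 7) (u : Fin n),
    r4 i ((d2 x).1 u) = (E2 g n (fun l b => r3 i (x l b))).1 u

theorem ez2_E30 (v : Fin (n + 1) → Op K) (b : ℕ) (hb : b < n + 1) :
    ez2 (fun l b => E3 g n v l b) 0 b = e3v0 g (ez v) b := by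
  rw [ez2, ez_of_lt _ hb]
  rfl

theorem ez2_E31 (v : Fin (n + 1) → Op K) (b : ℕ) (hb : b < n + 1) :
    ez2 (fun l b => E3 g n v l b) 1 b = e3v1 g n (ez v) b := by
  rw [ez2, ez_of_lt _ hb]
  rfl

section P2
variable {x : A g 1} (hx : x ∈ Pv g 1 2) (y : A g 1) (i j : Fin 7)
include hx

theorem z2 (k : Fin 7) (h : blk k ≠ 2) : x.1.fst i k = 0 ∧ x.1.snd i k = 0 := mem_Pv.1 hx i k h

theorem fst_P2 : (x * y).1.fst i j = x.1.fst i 2 * y.1.fst 2 j := by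
  rw [fst_mul7, (z2 hx i 0 (by decide)).1, (z2 hx i 1 (by decide)).1, (z2 hx i 3 (by decide)).1,
    (z2 hx i 4 (by decide)).1, (z2 hx i 5 (by decide)).1, (z2 hx i 6 (by decide)).1]
  simp only [zero_mul, zero_add, add_zero]

theorem snd_P2 : (x * y).1.snd i j = x.1.fst i 2 * y.1.snd 2 j + x.1.snd i 2 * y.1.fst 2 j := by
  rw [snd_mul7, (z2 hx i 0 (by decide)).1, (z2 hx i 1 (by decide)).1, (z2 hx i 3 (by decide)).1,
    (z2 hx i 4 (by decide)).1, (z2 hx i 5 (by decide)).1, (z2 hx i 6 (by decide)).1,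
    (z2 hx i 0 (by decide)).2, (z2 hx i 1 (by decide)).2, (z2 hx i 3 (by decide)).2,
    (z2 hx i 4 (by decide)).2, (z2 hx i 5 (by decide)).2, (z2 hx i 6 (by decide)).2]
  simp only [zero_mul, zero_add, add_zero]

end P2

/-- `f ∘ d3` -/
theorem comp_d3 {d3 : (Fin (n + 1) → Pv g 1 2) →ₗ[A g 1] (Fin 2 → Fin (n + 1) → Pv g 1 3)}
    (h3 : Row3 d3) (Z : Fin 2 → ℕ → K) (x : Fin (n + 1) → Pv g 1 2) (i : Fin 7) :
    ∑ b ∈ range (n + 1), (Z 0 b • cc (ez2 (fun l b => r3 i (d3 x l b)) 0 b) +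
        Z 1 b • cc (ez2 (fun l b => r3 i (d3 x l b)) 1 b)) =
      ∑ a : Fin (n + 1), (be0 (lam g) n Z a • ((x a : A g 1).1.fst i 2 * X 0) +
        be1 (lam g) n Z a • ((x a : A g 1).1.fst i 2 * X 1)) := by
  have e : (fun l b => r3 i (d3 x l b)) =
      fun l b => E3 g n (fun j => (x j : A g 1).1.fst i 2) l b := by
    funext l b
    exact h3 x i l b
  rw [e, sum_congr rfl (fun b hb => by
    rw [ez2_E30 _ b (mem_range.1 hb), ez2_E31 _ b (mem_range.1 hb)]),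
    sum_e3 _ (ez_of_ge _ le_rfl) Z, ← Fin.sum_univ_eq_sum_range (fun a =>
      (be0 (lam g) n Z a • (ez (fun j => (x j : A g 1).1.fst i 2) a * X 0) +
        be1 (lam g) n Z a • (ez (fun j => (x j : A g 1).1.fst i 2) a * X 1)))]
  simp only [ez_fin]

/-- `f ∘ d2` -/
theorem comp_d2 {d2 : (Fin 2 → Fin (n + 1) → Pv g 1 3) →ₗ[A g 1]
    ((Fin n → Pv g 1 4) × (Fin 2 → Fin (n + 2) → Pv g 1 1))} (h2 : Row2 d2) (ζ : ℕ → K)
    (x : Fin 2 → Fin (n + 1) → Pv g 1 3) (i : Fin 7) :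
    ∑ u ∈ range n, ζ u • cc (ez (fun u => r4 i ((d2 x).1 u)) u) =
      ∑ b ∈ range (n + 1), (zz (lam g) n ζ 0 b • cc (ez2 (fun l b => r3 i (x l b)) 0 b) +
        zz (lam g) n ζ 1 b • cc (ez2 (fun l b => r3 i (x l b)) 1 b)) := by
  rw [← sum_e2]
  refine sum_congr rfl fun u hu => ?_
  have hu' := mem_range.1 hu
  rw [ez_of_lt _ hu', h2 x i ⟨u, hu'⟩]
  rfl

/-- the generator -/
theorem gen_col (a j : Fin (n + 1)) : (((Pi.single a (Pgen g 1 2) :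
    Fin (n + 1) → Pv g 1 2) j : Pv g 1 2) : A g 1).1.fst 2 2 = if j = a then 1 else 0 := by
  by_cases h : j = a
  · subst h
    rw [Pi.single_eq_same, if_pos rfl]
    show (eps g 1 2).1.fst 2 2 = 1
    rw [eps_fst, idp, Matrix.diagonal_apply_eq]
    rfl
  · rw [Pi.single_eq_of_ne h, if_neg h]
    rfl

/-- coefficients of the composite with `d3` at the generator -/
theorem comp_d3_gen {d3 : (Fin (n + 1) → Pv g 1 2) →ₗ[A g 1] (Fin 2 → Fin (n + 1) → Pv g 1 3)}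
    (h3 : Row3 d3) (Z : Fin 2 → ℕ → K) (a : Fin (n + 1)) :
    ∑ b ∈ range (n + 1), (Z 0 b • cc (ez2 (fun l b => r3 2 (d3 (Pi.single a (Pgen g 1 2)) l b)) 0 b) +
        Z 1 b • cc (ez2 (fun l b => r3 2 (d3 (Pi.single a (Pgen g 1 2)) l b)) 1 b)) =
      be0 (lam g) n Z a • (X 0 : Op K) + be1 (lam g) n Z a • (X 1 : Op K) := by
  rw [comp_d3 h3, Finset.sum_eq_single a]
  · rw [gen_col, if_pos rfl, one_mul, one_mul]
  · intro b _ hb
    rw [gen_col, if_neg hb, zero_mul, zero_mul, smul_zero, smul_zero, add_zero]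
  · intro h
    exact absurd (Finset.mem_univ a) h

set_option maxHeartbeats 2000000 in
/-- **`H2`** -/
theorem H2 (hg : Gen g)
    {d2 : (Fin 2 → Fin (n + 1) → Pv g 1 3) →ₗ[A g 1]
      ((Fin n → Pv g 1 4) × (Fin 2 → Fin (n + 2) → Pv g 1 1))}
    {d3 : (Fin (n + 1) → Pv g 1 2) →ₗ[A g 1] (Fin 2 → Fin (n + 1) → Pv g 1 3)}
    (h2 : Row2 d2) (h3 : Row3 d3)
    (f : (Fin 2 → Fin (n + 1) → Pv g 1 3) →ₗ[A g 1] Pv g 1 2) (hf : f ∘ₗ d3 = 0) :
    ∃ χ : ((Fin n → Pv g 1 4) × (Fin 2 → Fin (n + 2) → Pv g 1 1)) →ₗ[A g 1] Pv g 1 2,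
      χ ∘ₗ d2 = f := by
  obtain ⟨Z, eZ⟩ := exists_Z f
  have hb : ∀ j ≤ n, be0 (lam g) n Z j = 0 ∧ be1 (lam g) n Z j = 0 := by
    intro j hj
    let a : Fin (n + 1) := ⟨j, by omega⟩
    have e := (eZ (d3 (Pi.single a (Pgen g 1 2))) 2).2.trans (comp_d3_gen h3 Z a)
    have e2 : f (d3 (Pi.single a (Pgen g 1 2))) = 0 := LinearMap.congr_fun hf _
    rw [e2] at e
    exact N1.X_indep0 e.symm
  obtain ⟨ζ, eζ⟩ := mid (fun m h _ => lam_ne hg h) lam_zero Z hb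
  refine ⟨hζ g n ζ, LinearMap.ext fun x => Subtype.ext (N341.col2_ext (hζ g n ζ (d2 x)).2 (f x).2
    (fun i => ?_) (fun i => ?_))⟩
  · exact (hζ_ent ζ (d2 x) i).1.trans (eZ x i).1.symm
  · refine (hζ_ent ζ (d2 x) i).2.trans ?_
    rw [comp_d2 h2 ζ x i, (eZ x i).2]
    refine sum_congr rfl fun b hb' => ?_
    rw [eζ 0 b (by have := mem_range.1 hb'; omega), eζ 1 b (by have := mem_range.1 hb'; omega)]

set_option maxHeartbeats 2000000 in
/-- **`k2`** -/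
theorem k2 (hg : Gen g)
    {d3 : (Fin (n + 1) → Pv g 1 2) →ₗ[A g 1] (Fin 2 → Fin (n + 1) → Pv g 1 3)} (h3 : Row3 d3)
    (f : (Fin (n + 1) → Pv g 1 2) →ₗ[A g 1] Pv g 1 2) (hf : EVA538.ev2 g 1 n f = 0) :
    ∃ h : (Fin 2 → Fin (n + 1) → Pv g 1 3) →ₗ[A g 1] Pv g 1 2, h ∘ₗ d3 = f := by
  obtain ⟨μ, ν, h1, h2, h4⟩ := EVA538.ev2_zero hf
  obtain ⟨Z, eZ⟩ := (ev_iff (fun m h _ => lam_ne hg h) lam_zero μ ν).2 (fun j hj => h4 j hj)
  refine ⟨hZ g n Z, LinearMap.ext fun x => Subtype.ext (N341.col2_ext (hZ g n Z (d3 x)).2 (f x).2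
    (fun i => ?_) (fun i => ?_))⟩
  · refine (hZ_ent Z (d3 x) i).1.trans ?_
    rw [pi_val f x, fst_sum]
    refine (Finset.sum_eq_zero fun b _ => ?_).symm
    rw [fst_P2 (x b).2, h1, mul_zero]
  · refine (hZ_ent Z (d3 x) i).2.trans ?_
    rw [comp_d3 h3 Z x i, pi_val f x, snd_sum]
    refine Finset.sum_congr rfl fun b _ => ?_
    have hb : (b : ℕ) ≤ n := by omega
    have e1 := h1 b
    have e2 := h2 b
    have e3 := snd_P2 (x b).2 ((f (Pi.single b (Pgen g 1 2)) : Pv g 1 2) : A g 1) i 2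
    rw [e1, e2, mul_zero, add_zero] at e3
    refine Eq.trans ?_ e3.symm
    rw [(eZ b hb).1, (eZ b hb).2, mul_add, mul_smul_comm, mul_smul_comm]

/-! ### `H1` -/

set_option maxHeartbeats 2000000 in
/-- the shape of a map on `K₁` -/
theorem exists_ζ (f : ((Fin n → Pv g 1 4) × (Fin 2 → Fin (n + 2) → Pv g 1 1)) →ₗ[A g 1] Pv g 1 2) :
    ∃ ζ : ℕ → K, ∀ x i, ((f x : Pv g 1 2) : A g 1).1.fst i 2 = 0 ∧
      ((f x : Pv g 1 2) : A g 1).1.snd i 2 =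
      ∑ u ∈ range n, ζ u • cc (ez (fun u => r4 i (x.1 u)) u) := by
  have hr : f ∘ₗ LinearMap.inr (A g 1) _ _ = 0 :=
    LinearMap.pi_ext' fun _ => (LinearMap.pi_ext' fun _ =>
      (N341.hom_zero (fun x => N341.col2_1) _).trans (LinearMap.zero_comp _).symm).trans
        (LinearMap.zero_comp _).symm
  let f1 : (Fin n → Pv g 1 4) →ₗ[A g 1] Pv g 1 2 := f ∘ₗ LinearMap.inl (A g 1) _ _
  have hl : ∀ x, f x = f1 x.1 := by
    intro x
    have e : x = LinearMap.inl (A g 1) _ _ x.1 + LinearMap.inr (A g 1) _ _ x.2 :=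
      Prod.ext (add_zero _).symm (zero_add _).symm
    have e2 : f (LinearMap.inr (A g 1) _ _ x.2) = 0 := LinearMap.congr_fun hr x.2
    exact (congrArg f e).trans ((map_add f _ _).trans ((congrArg _ e2).trans (add_zero _)))
  have key : ∀ u : ℕ, ∃ c : K, ∀ hu : u < n,
      (∀ i, ((f1 (Pi.single ⟨u, hu⟩ (Pgen g 1 4)) : Pv g 1 2) : A g 1).1.fst i 2 = 0) ∧
      ((f1 (Pi.single ⟨u, hu⟩ (Pgen g 1 4)) : Pv g 1 2) : A g 1).1.snd 5 2 = c • (X 0 : Op K) ∧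
      ((f1 (Pi.single ⟨u, hu⟩ (Pgen g 1 4)) : Pv g 1 2) : A g 1).1.snd 6 2 = c • (X 1 : Op K) := by
    intro u
    by_cases hu : u < n
    · obtain ⟨c, h1, h2, h3⟩ := N341.col2_4 (f1 (Pi.single ⟨u, hu⟩ (Pgen g 1 4))).2
        (eps_pi f1 ⟨u, hu⟩)
      exact ⟨c, fun _ => ⟨h1, h2, h3⟩⟩
    · exact ⟨0, fun h => absurd h hu⟩
  choose ζ hζ' using key
  refine ⟨ζ, fun x i => ?_⟩
  rw [hl, pi_val f1, fst_sum, snd_sum]
  constructor
  · exact Finset.sum_eq_zero fun u _ => (mul4 ((hζ' u u.2).1 5) ((hζ' u u.2).1 6) (hζ' u u.2).2.1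
      (hζ' u u.2).2.2 (x.1 u) i).1
  · rw [← Fin.sum_univ_eq_sum_range (fun u => ζ u • cc (ez (fun u => r4 i (x.1 u)) u))]
    refine Finset.sum_congr rfl fun u _ => ?_
    rw [ez_fin]
    exact (mul4 ((hζ' u u.2).1 5) ((hζ' u u.2).1 6) (hζ' u u.2).2.1
      (hζ' u u.2).2.2 (x.1 u) i).2

/-- the rows of the generators of `K₂` -/
theorem gen_row (a : Fin (n + 1)) (l : Fin 2) (b : Fin (n + 1)) :
    r3 3 ((Pi.single 0 (Pi.single a (Pgen g 1 3)) : Fin 2 → Fin (n + 1) → Pv g 1 3) l b) =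
      if l = 0 ∧ b = a then ![1, 0] else 0 := by
  by_cases hl : l = 0
  · subst hl
    rw [Pi.single_eq_same]
    by_cases hb : b = a
    · subst hb
      rw [Pi.single_eq_same, if_pos ⟨rfl, rfl⟩]
      show ![(eps g 1 3).1.fst 3 3, (eps g 1 3).1.fst 3 4] = _
      rw [eps_fst, idp, Matrix.diagonal_apply_eq, Matrix.diagonal_apply_ne _ (by decide)]
      rfl
    · rw [Pi.single_eq_of_ne hb, if_neg (fun h => hb h.2)]
      funext j
      fin_cases j <;> rfl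
  · rw [Pi.single_eq_of_ne hl, if_neg (fun h => hl h.1)]
    funext j
    fin_cases j <;> rfl

set_option maxHeartbeats 2000000 in
/-- **`H1`** (every `f` with `f ∘ d2 = 0` is zero) -/
theorem H1_zero (hg : Gen g)
    {d2 : (Fin 2 → Fin (n + 1) → Pv g 1 3) →ₗ[A g 1]
      ((Fin n → Pv g 1 4) × (Fin 2 → Fin (n + 2) → Pv g 1 1))} (h2 : Row2 d2)
    (f : ((Fin n → Pv g 1 4) × (Fin 2 → Fin (n + 2) → Pv g 1 1)) →ₗ[A g 1] Pv g 1 2)
    (hf : f ∘ₗ d2 = 0) : f = 0 := by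
  obtain ⟨ζ, eζ⟩ := exists_ζ f
  have hz : ∀ j ≤ n, zz (lam g) n ζ 0 j = 0 := by
    intro j hj
    let a : Fin (n + 1) := ⟨j, by omega⟩
    let x : Fin 2 → Fin (n + 1) → Pv g 1 3 := Pi.single 0 (Pi.single a (Pgen g 1 3))
    have e := (eζ (d2 x) 3).2.trans (comp_d2 h2 ζ x 3)
    have e2 : f (d2 x) = 0 := LinearMap.congr_fun hf _
    rw [e2] at e
    have e3 : ∑ b ∈ range (n + 1), (zz (lam g) n ζ 0 b • cc (ez2 (fun l b => r3 3 (x l b)) 0 b) +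
        zz (lam g) n ζ 1 b • cc (ez2 (fun l b => r3 3 (x l b)) 1 b)) =
        zz (lam g) n ζ 0 j • (X 0 : Op K) := by
      rw [Finset.sum_eq_single j]
      · have e4 : ez2 (fun l b => r3 3 (x l b)) 0 j = ![1, 0] := by
          rw [ez2, ez_of_lt _ (show j < n + 1 by omega)]
          exact (gen_row a 0 a).trans (if_pos ⟨rfl, rfl⟩)
        have e5 : ez2 (fun l b => r3 3 (x l b)) 1 j = 0 := by
          rw [ez2, ez_of_lt _ (show j < n + 1 by omega)]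
          exact (gen_row a 1 a).trans (if_neg (fun h => absurd h.1 (by decide)))
        rw [e4, e5, cc_zero, smul_zero, add_zero]
        simp [cc]
      · intro b hb hbj
        have hb' := mem_range.1 hb
        have e4 : ez2 (fun l b => r3 3 (x l b)) 0 b = 0 := by
          rw [ez2, ez_of_lt _ hb']
          refine (gen_row a 0 ⟨b, hb'⟩).trans (if_neg (fun h => hbj ?_))
          exact congrArg Fin.val h.2
        have e5 : ez2 (fun l b => r3 3 (x l b)) 1 b = 0 := by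
          rw [ez2, ez_of_lt _ hb']
          exact (gen_row a 1 ⟨b, hb'⟩).trans (if_neg (fun h => absurd h.1 (by decide)))
        rw [e4, e5, cc_zero, smul_zero, smul_zero, add_zero]
      · intro h
        exact absurd (mem_range.2 (by omega)) h
    rw [e3] at e
    have e6 := N1.X_indep0 (p := zz (lam g) n ζ 0 j) (q := 0) (by
      rw [zero_smul, add_zero]
      exact e.symm)
    exact e6.1
  have h0 := inj (fun m h _ => lam_ne hg h) ζ hz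
  refine LinearMap.ext fun x => Subtype.ext (N341.col2_ext (f x).2 (zero_mem _)
    (fun i => (eζ x i).1) (fun i => (eζ x i).2.trans ?_))
  refine Finset.sum_eq_zero fun u hu => ?_
  rw [h0 u (mem_range.1 hu), zero_smul]

/-- **`H1`** -/
theorem H1 (hg : Gen g)
    (d1 : ((Fin n → Pv g 1 4) × (Fin 2 → Fin (n + 2) → Pv g 1 1)) →ₗ[A g 1]
      (Fin (n + 1) → Pv g 1 0))
    {d2 : (Fin 2 → Fin (n + 1) → Pv g 1 3) →ₗ[A g 1]
      ((Fin n → Pv g 1 4) × (Fin 2 → Fin (n + 2) → Pv g 1 1))} (h2 : Row2 d2)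
    (f : ((Fin n → Pv g 1 4) × (Fin 2 → Fin (n + 2) → Pv g 1 1)) →ₗ[A g 1] Pv g 1 2)
    (hf : f ∘ₗ d2 = 0) : ∃ χ : (Fin (n + 1) → Pv g 1 0) →ₗ[A g 1] Pv g 1 2, χ ∘ₗ d1 = f :=
  ⟨0, by rw [H1_zero hg h2 f hf, LinearMap.zero_comp]⟩

/-- **`H0`** -/
theorem H0 (d1 : ((Fin n → Pv g 1 4) × (Fin 2 → Fin (n + 2) → Pv g 1 1)) →ₗ[A g 1]
      (Fin (n + 1) → Pv g 1 0)) (f : (Fin (n + 1) → Pv g 1 0) →ₗ[A g 1] Pv g 1 2)
    (_hf : f ∘ₗ d1 = 0) : f = 0 := N341.H0_col2 f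

end N1B113

end Crest.Agent.R186.B281
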