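import Crest.Agent.R186.N1C_538
import Crest.Agent.R186.KPv1_755

/-!
Row 186 (S0281), helper538: (c1) of B281.N1 for 755's literal maps of the resolution of `E g 1 n`.
-/

set_option autoImplicit false
set_option linter.unusedSectionVars false

namespace Crest.Agent.R186.N1D538

open B281 EVA538

variable {K : Type} [Field K] {g : K}

theorem r3 (hg : Gen g) (n : ℕ) (x : Fin (n + 1) → Pv g 1 2) (l : Fin 2) (i : Fin (n + 1))
    (e : Fin 2) : (KPv1.d3 hg n x l i : A g 1).1.fst 2 (![3, 4] e) =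
      N1C538.e3v g n (KN.ez fun j => (x j : A g 1).1.fst 2 2) l i e := by
  have h := congrFun (KPv1.d3_fst hg n x l i 2) e
  revert h
  revert l e
  refine Fin.forall_fin_two.2 ⟨Fin.forall_fin_two.2 ⟨fun h => h, fun h => h⟩,
    Fin.forall_fin_two.2 ⟨fun h => h, fun h => h⟩⟩

theorem r3' (hg : Gen g) (n : ℕ) (x : Fin (n + 1) → Pv g 1 2) (l : Fin 2) (i : Fin (n + 1))
    (e : Fin 2) : (KPv1.d3 hg n x l i : A g 1).1.snd 2 (![3, 4] e) =
      N1C538.e3v g n (KN.ez fun j => (x j : A g 1).1.snd 2 2) l i e := by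
  have h := congrFun (KPv1.d3_snd hg n x l i 2) e
  revert h
  revert l e
  refine Fin.forall_fin_two.2 ⟨Fin.forall_fin_two.2 ⟨fun h => h, fun h => h⟩,
    Fin.forall_fin_two.2 ⟨fun h => h, fun h => h⟩⟩

/-- **(c1)** for the literal resolution, `s = 1` -/
theorem c1 (hg : Gen g) (n : ℕ) (h : (Fin 2 → Fin (n + 1) → Pv g 1 3) →ₗ[A g 1] Pv g 1 1) :
    ev1 g 1 n (h ∘ₗ KPv1.d3 hg n) = 0 :=
  N1C538.c1 (KPv1.d3 hg n) (r3 hg n) (r3' hg n) h

end Crest.Agent.R186.N1D538
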