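import Crest.Agent.R186.N1B_113
import Crest.Agent.R186.KPv1_755

/-!
Row 186 (S0281), helper113, leaf B281.N1: `H0`, `H1`, `H2`, `k2` for 755's literal resolution
`KPv1` of `E g 1 n`.
-/

set_option autoImplicit false
set_option linter.unusedSectionVars false

namespace Crest.Agent.R186.B281

namespace N1E113

open N1B113

variable {K : Type} [Field K] {g : K}

theorem row2 (hg : Gen g) (n : ℕ) : Row2 (KPv1.d2 hg n) := fun x i u => KPv1.d2_fst1 hg n x u i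

theorem row3 (hg : Gen g) (n : ℕ) : Row3 (KPv1.d3 hg n) := fun x i l a => KPv1.d3_fst hg n x l a i

theorem h0 (hg : Gen g) (n : ℕ) (f : (Fin (n + 1) → Pv g 1 0) →ₗ[A g 1] Pv g 1 2)
    (hf : f ∘ₗ KPv1.d1 hg n = 0) : f = 0 := H0 _ f hf

theorem h1 (hg : Gen g) (n : ℕ)
    (f : ((Fin n → Pv g 1 4) × (Fin 2 → Fin (n + 2) → Pv g 1 1)) →ₗ[A g 1] Pv g 1 2)
    (hf : f ∘ₗ KPv1.d2 hg n = 0) :
    ∃ h : (Fin (n + 1) → Pv g 1 0) →ₗ[A g 1] Pv g 1 2, h ∘ₗ KPv1.d1 hg n = f :=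
  H1 hg _ (row2 hg n) f hf

theorem h2 (hg : Gen g) (n : ℕ)
    (f : (Fin 2 → Fin (n + 1) → Pv g 1 3) →ₗ[A g 1] Pv g 1 2) (hf : f ∘ₗ KPv1.d3 hg n = 0) :
    ∃ h : ((Fin n → Pv g 1 4) × (Fin 2 → Fin (n + 2) → Pv g 1 1)) →ₗ[A g 1] Pv g 1 2,
      h ∘ₗ KPv1.d2 hg n = f :=
  H2 hg (row2 hg n) (row3 hg n) f hf

theorem k2 (hg : Gen g) (n : ℕ)
    (f : (Fin (n + 1) → Pv g 1 2) →ₗ[A g 1] Pv g 1 2) (hf : EVA538.ev2 g 1 n f = 0) :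
    ∃ h : (Fin 2 → Fin (n + 1) → Pv g 1 3) →ₗ[A g 1] Pv g 1 2, h ∘ₗ KPv1.d3 hg n = f :=
  N1B113.k2 hg (row3 hg n) f hf

end N1E113

end Crest.Agent.R186.B281
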