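import Crest.Agent.R186.QB_735

/-!
# Row 186, half (A), leaf C3m1, part 1 (helper365): the complex of `V_{-1}` on the level of `Q`

`QS π k N` = elements of `Q` whose contents `m` satisfy `md m + k = N`.
`negQ`: exactness of `Q → Q^4 → Q` (`φ ↦ (E_g φ)_g`, `(B_g) ↦ E_x' B_x + p E_x B_x'`) in positive
degrees, all cells together.
-/

set_option autoImplicit false

namespace Crest.Agent.R186.NegQ365

open Crest.Agent.R186.VOp220 Crest.Agent.R186.DefsQ830 Crest.Agent.R186.Vmod220
open Crest.Agent.R186.Cells221 Crest.Agent.R186.Der580 Crest.Agent.R186.VQ735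
open Crest.Agent.R186.PBW128 (E)
open Crest.Agent.R186.Loc261 (Lt li sc Q_ind wt Qc Qg prj wp)

variable {K : Type} [Field K] (π : Par K)

theorem prj_D (g : Lt) (n : Multiset Lt) (u : Q π) :
    prj (lp π) n (Loc261.D (lp π) g u) = Loc261.D (lp π) g (prj (lp π) (g ::ₘ n) u) := by
  have : (prj (lp π) n).comp (Loc261.D (lp π) g) =
      (Loc261.D (lp π) g).comp (prj (lp π) (g ::ₘ n)) := by
    apply Loc261.ext_wp
    intro w
    simp only [LinearMap.comp_apply, Loc261.prj_wp]
    have h := Loc261.D_mem (lp π) g (Loc261.wp_mem (lp π) w)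
    unfold Qg at h
    split_ifs at h with hg
    · by_cases hw : (w : Multiset Lt) = g ::ₘ n
      · rw [if_pos hw]
        rw [hw, Multiset.erase_cons_head] at h
        exact Loc261.prj_id (lp π) h
      · rw [if_neg hw, map_zero]
        refine Loc261.prj_ne (lp π) ?_ h
        intro h2
        apply hw
        rw [← h2, Multiset.cons_erase hg]
    · have h0 : Loc261.D (lp π) g (wp (lp π) w) = 0 := h
      rw [h0, map_zero]
      split_ifs with hw
      · exact h0.symm
      · rw [map_zero]
  exact LinearMap.congr_fun this u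

theorem prj_sc (s : Lt → K) (n : Multiset Lt) (u : Q π) :
    prj (lp π) n (sc (lp π) s u) = sc (lp π) s (prj (lp π) n u) := by
  have : (prj (lp π) n).comp (sc (lp π) s).toLinearMap =
      (sc (lp π) s).toLinearMap.comp (prj (lp π) n) := by
    apply Loc261.ext_wp
    intro w
    simp only [LinearMap.comp_apply, AlgHom.toLinearMap_apply, Loc261.prj_wp, Loc261.sc_wp,
      map_smul]
    split_ifs with h
    · rw [Loc261.sc_wp]
    · rw [smul_zero, map_zero]
  exact LinearMap.congr_fun this u

theorem prj_E (g : Lt) (n : Multiset Lt) (u : Q π) :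
    prj (lp π) n (EQ π g u) = EQ π g (prj (lp π) (g ::ₘ n) u) := by
  rw [EQ_apply, EQ_apply, map_smul, prj_D, prj_sc]

/-- the scalar between `E_g` and `D_g` at content `m` -/
noncomputable def kp (g : Lt) (m : Multiset Lt) : K :=
  (lp π).chi g g * (m.map fun l => ((lp π).chi g l)⁻¹).prod

theorem kp_ne (g : Lt) (m : Multiset Lt) : kp π g m ≠ 0 := by
  refine mul_ne_zero ((lp π).chi_ne g g) ?_
  induction m using Multiset.induction_on with
  | empty => simp
  | cons l m ih =>
    rw [Multiset.map_cons, Multiset.prod_cons]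
    exact mul_ne_zero (inv_ne_zero ((lp π).chi_ne g l)) ih

theorem kp_cons (g l : Lt) (m : Multiset Lt) :
    kp π g (l ::ₘ m) = ((lp π).chi g l)⁻¹ * kp π g m := by
  unfold kp
  rw [Multiset.map_cons, Multiset.prod_cons]
  ring

theorem EQ_Qc (g : Lt) {m : Multiset Lt} {u : Q π} (hu : u ∈ Qc (lp π) m) :
    EQ π g u = kp π g m • Loc261.D (lp π) g u := by
  rw [EQ_apply, Loc261.sc_Qc (lp π) _ hu, map_smul, smul_smul]
  rfl

/-- decomposition by content -/
theorem fin_prj (u : Q π) : ∃ T : Finset (Multiset Lt), ∀ S, T ⊆ S →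
    u = ∑ m ∈ S, prj (lp π) m u := by
  have h := Loc261.span_wp (lp π) u
  induction h using Submodule.span_induction with
  | mem u hu =>
    obtain ⟨w, rfl⟩ := hu
    refine ⟨{(w : Multiset Lt)}, fun S hS => ?_⟩
    have hw : (w : Multiset Lt) ∈ S := hS (Finset.mem_singleton_self _)
    simp only [Loc261.prj_wp]
    rw [Finset.sum_ite_eq, if_pos hw]
  | zero => exact ⟨∅, fun S _ => by simp⟩
  | add u v _ _ hu hv =>
    obtain ⟨T, hT⟩ := hu
    obtain ⟨T', hT'⟩ := hv
    classical
    refine ⟨T ∪ T', fun S hS => ?_⟩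
    simp only [map_add, Finset.sum_add_distrib]
    rw [← hT S (Finset.subset_union_left.trans hS), ← hT' S (Finset.subset_union_right.trans hS)]
  | smul r u _ hu =>
    obtain ⟨T, hT⟩ := hu
    refine ⟨T, fun S hS => ?_⟩
    simp only [map_smul, ← Finset.smul_sum]
    rw [← hT S hS]

theorem ext_prj {u v : Q π} (h : ∀ n, prj (lp π) n u = prj (lp π) n v) : u = v := by
  classical
  obtain ⟨T, hT⟩ := fin_prj π u
  obtain ⟨T', hT'⟩ := fin_prj π v
  rw [hT (T ∪ T') Finset.subset_union_left, hT' (T ∪ T') Finset.subset_union_right]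
  exact Finset.sum_congr rfl fun m _ => h m

/-- elements whose contents `m` satisfy `md m + k = N` -/
def QS (k N : ℕ) : Submodule K (Q π) where
  carrier := {u | ∀ m, md m + k ≠ N → prj (lp π) m u = 0}
  add_mem' ha hb m hm := by rw [map_add, ha m hm, hb m hm, add_zero]
  zero_mem' m _ := map_zero _
  smul_mem' c _ ha m hm := by rw [map_smul, ha m hm, smul_zero]

theorem mem_QS {k N : ℕ} {u : Q π} : u ∈ QS π k N ↔ ∀ m, md m + k ≠ N → prj (lp π) m u = 0 :=
  Iff.rfl

/-- construction of an element from its components -/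
theorem exists_prj (N : ℕ) (f : Multiset Lt → Q π) (hf : ∀ m, f m ∈ Qc (lp π) m)
    (h0 : ∀ m, N < md m → f m = 0) : ∃ u : Q π, ∀ m, prj (lp π) m u = f m := by
  classical
  refine ⟨∑ m ∈ (finite_md N).toFinset, f m, fun n => ?_⟩
  rw [map_sum]
  have h1 : ∀ m, prj (lp π) n (f m) = if m = n then f n else 0 := by
    intro m
    split_ifs with h
    · subst h; exact Loc261.prj_id (lp π) (hf m)
    · exact Loc261.prj_ne (lp π) h (hf m)
  simp only [h1]
  rw [Finset.sum_ite_eq']
  split_ifs with h
  · rfl
  · rw [h0 n]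
    by_contra h2
    apply h
    rw [Set.Finite.mem_toFinset]
    exact Nat.le_of_not_lt h2

theorem EQ_QS (g : Lt) {k N : ℕ} {u : Q π} (hu : u ∈ QS π k N) : EQ π g u ∈ QS π (k + dg g) N := by
  intro m hm
  rw [prj_E, hu (g ::ₘ m), map_zero]
  rw [md_cons]; omega

/-- **injectivity** -/
theorem inj0 {N : ℕ} (hN : 1 ≤ N) {u : Q π} (hu : u ∈ QS π 0 N) (h : ∀ g, EQ π g u = 0) : u = 0 := by
  apply ext_prj
  intro m
  rw [map_zero]
  by_cases hm : md m + 0 = N
  · refine Loc261.inj (lp π) (lp_ind π) m.card m rfl ?_ _ (Loc261.prj_mem (lp π) m u) (fun g => ?_)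
    · rintro rfl
      simp [md] at hm
      omega
    · have h1 : EQ π g (prj (lp π) m u) = 0 := by
        by_cases hg : g ∈ m
        · have h2 := prj_E π g (m.erase g) u
          rw [h, map_zero, Multiset.cons_erase hg] at h2
          exact h2.symm
        · have h2 := Loc261.D_mem (lp π) g (Loc261.prj_mem (lp π) m u)
          unfold Qg at h2
          rw [if_neg hg] at h2
          rw [EQ_Qc π g (Loc261.prj_mem (lp π) m u), (Submodule.mem_bot K).1 h2, smul_zero]
      rw [EQ_Qc π g (Loc261.prj_mem (lp π) m u)] at h1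
      exact (smul_eq_zero.1 h1).resolve_left (kp_ne π g m)
  · exact hu m hm

/-- **surjectivity** of `E_x` -/
theorem surjE {k N : ℕ} {G : Q π} (hG : G ∈ QS π (k + 1) N) :
    ∃ w ∈ QS π k N, EQ π .x w = G := by
  have h1 : ∀ n : Multiset Lt, ∃ w ∈ Qc (lp π) (.x ::ₘ n), EQ π .x w = prj (lp π) n G := by
    intro n
    obtain ⟨w, hw, h⟩ := Loc261.surj (lp π) (lp_ind π) (Loc261.prj_mem (lp π) n G)
    refine ⟨(kp π .x (.x ::ₘ n))⁻¹ • w, Submodule.smul_mem _ _ hw, ?_⟩
    rw [map_smul, EQ_Qc π .x hw, h, smul_smul, inv_mul_cancel₀ (kp_ne π _ _), one_smul]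
  choose w hw hE using h1
  have hz : ∀ n, md n + (k + 1) ≠ N → prj (lp π) n G = 0 := hG
  obtain ⟨u, hu⟩ := exists_prj π N
    (fun m => if .x ∈ m ∧ md m + k = N then w (m.erase .x) else 0) (fun m => by
      split_ifs with h
      · have := hw (m.erase .x)
        rwa [Multiset.cons_erase h.1] at this
      · exact Submodule.zero_mem _) (fun m hm => by
      rw [if_neg]
      rintro ⟨_, h⟩
      omega)
  refine ⟨u, fun m hm => ?_, ?_⟩
  · rw [hu, if_neg]
    rintro ⟨_, h⟩
    exact hm h
  · apply ext_prj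
    intro n
    rw [prj_E, hu]
    by_cases h : md n + (k + 1) = N
    · rw [if_pos ⟨Multiset.mem_cons_self _ _, by rw [md_cons]; simp only [dg]; omega⟩,
        Multiset.erase_cons_head, hE]
    · rw [if_neg, map_zero, hz n h]
      rintro ⟨_, h2⟩
      rw [md_cons] at h2
      simp only [dg] at h2
      omega

/-- **exactness in the middle** -/
theorem midE {M : ℕ} {B : Lt → Q π} (hB : ∀ g, B g ∈ QS π (dg g) M)
    (h : EQ π .x' (B .x) + π.p • EQ π .x (B .x') = 0) : ∃ u ∈ QS π 0 M, ∀ g, EQ π g u = B g := by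
  have hp := π.p0
  have e3 : (lp π).chi .x .x' = π.p⁻¹ := Loc261.Par.chi_x_x' _
  have e4 : (lp π).chi .x' .x = π.p := Loc261.Par.chi_x'_x _
  have h1 : ∀ m : Multiset Lt, ∃ u ∈ Qc (lp π) m, ∀ g,
      EQ π g u = if g ∈ m then prj (lp π) (m.erase g) (B g) else 0 := by
    intro m
    obtain ⟨u, hu, hD⟩ := Loc261.mid (lp π) (lp_ind π) m
      (fun g => (kp π g m)⁻¹ • if g ∈ m then prj (lp π) (m.erase g) (B g) else 0) (fun g => by
        refine Submodule.smul_mem _ _ ?_
        unfold Qg
        split_ifs with hg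
        · exact Loc261.prj_mem (lp π) _ _
        · exact Submodule.zero_mem _) (by
        simp only [map_smul]
        by_cases hx : Lt.x ∈ m
        · by_cases hx' : Lt.x' ∈ m
          · rw [if_pos hx, if_pos hx']
            have m1 : m.erase .x' = .x ::ₘ ((m.erase .x').erase .x) := by
              rw [Multiset.cons_erase]
              rw [Multiset.mem_erase_of_ne (by decide)]
              exact hx
            have m2 : m.erase .x = .x' ::ₘ ((m.erase .x').erase .x) := by
              rw [Multiset.erase_comm, Multiset.cons_erase]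
              rw [Multiset.mem_erase_of_ne (by decide)]
              exact hx'
            set n := (m.erase .x').erase .x with hn
            have m3 : m = .x' ::ₘ (.x ::ₘ n) := by rw [← m1, Multiset.cons_erase hx']
            have hr := congrArg (prj (lp π) n) h
            rw [map_add, map_smul, map_zero, prj_E, prj_E, ← m1, ← m2,
              EQ_Qc π .x' (Loc261.prj_mem (lp π) _ _), EQ_Qc π .x (Loc261.prj_mem (lp π) _ _)] at hr
            have k1 : kp π .x' m = π.p⁻¹ * kp π .x' (m.erase .x) := by
              conv_lhs => rw [show m = .x ::ₘ (m.erase .x) from (Multiset.cons_erase hx).symm]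
              rw [kp_cons, e4]
            have k2 : kp π .x m = π.p * kp π .x (m.erase .x') := by
              conv_lhs => rw [show m = .x' ::ₘ (m.erase .x') from (Multiset.cons_erase hx').symm]
              rw [kp_cons, e3, inv_inv]
            have n1 := kp_ne π .x' (m.erase .x)
            have n2 := kp_ne π .x (m.erase .x')
            set a := kp π .x' (m.erase .x)
            set b := kp π .x (m.erase .x')
            set U := Loc261.D (lp π) .x' (prj (lp π) (m.erase .x) (B .x))
            set W := Loc261.D (lp π) .x (prj (lp π) (m.erase .x') (B .x'))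
            have h2 : ∀ z : Q π, z + z = 0 := fun z => by rw [← two_smul K, π.two, zero_smul]
            have hr' : a • U = (π.p * b) • W := by
              rw [smul_smul] at hr
              have := h2 ((π.p * b) • W)
              calc a • U = a • U + ((π.p * b) • W + (π.p * b) • W) := by rw [this, add_zero]
                _ = (a • U + (π.p * b) • W) + (π.p * b) • W := by rw [add_assoc]
                _ = (π.p * b) • W := by rw [hr, zero_add]
            have hU : U = (a⁻¹ * (π.p * b)) • W := by
              rw [← smul_smul, ← hr', smul_smul, inv_mul_cancel₀ n1, one_smul]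
            have e5 : (lp π).p = π.p := rfl
            rw [k1, k2, hU, e5, smul_smul, smul_smul]
            congr 1
            field_simp
          · have hz : Loc261.D (lp π) .x' (if Lt.x ∈ m then prj (lp π) (m.erase .x) (B .x) else 0)
                = 0 := by
              rw [if_pos hx]
              have h3 := Loc261.D_mem (lp π) .x' (Loc261.prj_mem (lp π) (m.erase .x) (B .x))
              unfold Qg at h3
              rw [if_neg (fun h4 => hx' (Multiset.mem_of_mem_erase h4))] at h3
              exact (Submodule.mem_bot K).1 h3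
            rw [hz, if_neg hx', map_zero, smul_zero, smul_zero, smul_zero]
        · have hz : Loc261.D (lp π) .x (if Lt.x' ∈ m then prj (lp π) (m.erase .x') (B .x') else 0)
              = 0 := by
            split_ifs with hx'
            · have h3 := Loc261.D_mem (lp π) .x (Loc261.prj_mem (lp π) (m.erase .x') (B .x'))
              unfold Qg at h3
              rw [if_neg (fun h4 => hx (Multiset.mem_of_mem_erase h4))] at h3
              exact (Submodule.mem_bot K).1 h3
            · exact map_zero _
          rw [hz, if_neg hx, map_zero, smul_zero, smul_zero, smul_zero])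
    refine ⟨u, hu, fun g => ?_⟩
    rw [EQ_Qc π g hu, hD g, smul_smul, mul_inv_cancel₀ (kp_ne π g m), one_smul]
  choose v hv hE using h1
  obtain ⟨u, hu⟩ := exists_prj π M (fun m => if md m = M then v m else 0) (fun m => by
      split_ifs with h
      · exact hv m
      · exact Submodule.zero_mem _) (fun m hm => by
      rw [if_neg (by omega)])
  refine ⟨u, fun m hm => ?_, fun g => ?_⟩
  · rw [hu, if_neg (by omega)]
  · apply ext_prj
    intro n
    rw [prj_E, hu]
    by_cases h2 : md n + dg g = M
    · rw [if_pos (by rw [md_cons]; omega), hE, if_pos (Multiset.mem_cons_self _ _),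
        Multiset.erase_cons_head]
    · rw [if_neg (by rw [md_cons]; omega), map_zero, hB g n h2]

/-- **the complex of `V_{-1}` on the level of `Q` is exact in positive degrees** -/
theorem negQ (N : ℕ) (Φ : Cell → Q π) (hΦ : ∀ c, Φ c ∈ QS π (cdeg c) (N + 1))
    (eu : ∀ s, EQ π (lu s) (Φ none) = 0) (ev : ∀ s, EQ π (lv s) (Φ none) = 0)
    (eg : EQ π (lu 1) (Φ (some (.u 0))) + π.p • EQ π (lu 0) (Φ (some (.u 1))) = 0) :
    Φ none = 0 ∧ ∃ Ψ : Cell → Q π, (∀ c, Ψ c ∈ QS π (cdeg c) N) ∧ (∀ c, cP c ≠ 0 → Ψ c = 0) ∧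
      Ψ (some .f) = Φ (some .zc) ∧ (∀ s, EQ π (lu s) (Ψ none) = Φ (some (.u s))) ∧
      (∀ s, (π.g ^ 2)⁻¹ • EQ π (lv s) (Ψ none) = Φ (some (.v s))) ∧
      EQ π (lu 1) (Ψ (some (.u 0))) + π.p • EQ π (lu 0) (Ψ (some (.u 1))) = Φ (some .gc) := by
  have hg := π.g0
  have hp := π.p0
  have sh : ∀ (k : ℕ) {u : Q π}, u ∈ QS π (k + 1) (N + 1) ↔ u ∈ QS π k N := by
    intro k u
    constructor
    · intro h m hm
      exact h m (by omega)
    · intro h m hm
      exact h m (by omega)
  refine ⟨inj0 π (Nat.succ_le_succ (Nat.zero_le N)) (hΦ none) (fun g => ?_), ?_⟩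
  · cases g
    · exact eu 0
    · exact ev 0
    · exact eu 1
    · exact ev 1
  -- the middle
  let B : Lt → Q π := fun g => match g with
    | .x => Φ (some (.u 0))
    | .a => π.g ^ 2 • Φ (some (.v 0))
    | .x' => Φ (some (.u 1))
    | .b => π.g ^ 2 • Φ (some (.v 1))
  obtain ⟨u, hu, hE⟩ := midE π (M := N) (B := B) (fun g => by
    cases g
    · exact (sh 1).1 (hΦ (some (.u 0)))
    · exact Submodule.smul_mem _ _ ((sh 2).1 (hΦ (some (.v 0))))
    · exact (sh 2).1 (hΦ (some (.u 1)))
    · exact Submodule.smul_mem _ _ ((sh 3).1 (hΦ (some (.v 1))))) (by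
    have : EQ π .x' (Φ (some (.u 0))) + π.p • EQ π .x (Φ (some (.u 1))) = 0 := eg
    exact this)
  obtain ⟨w, hw, hwE⟩ := surjE π (k := 3) (N := N) ((sh 4).1 (hΦ (some .gc)))
  let Ψ : Cell → Q π := fun c => match c with
    | none => u
    | some .f => Φ (some .zc)
    | some (.u s) => if s = 0 then 0 else π.p⁻¹ • w
    | _ => 0
  refine ⟨Ψ, ?_, ?_, rfl, ?_, ?_, ?_⟩
  · intro c
    rcases c with _ | c
    · exact hu
    cases c with
    | f => exact (sh 2).1 (hΦ (some .zc))
    | u s =>
      show (if s = 0 then 0 else π.p⁻¹ • w) ∈ _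
      rcases f2 s with rfl | rfl
      · rw [if_pos rfl]; exact Submodule.zero_mem _
      · rw [if_neg (by decide)]
        exact Submodule.smul_mem _ _ hw
    | _ => exact Submodule.zero_mem _
  · intro c hc
    rcases c with _ | c
    · exact absurd rfl hc
    cases c <;> first | rfl | exact absurd rfl hc
  · intro s
    rcases f2 s with rfl | rfl
    · exact hE .x
    · exact hE .x'
  · intro s
    rcases f2 s with rfl | rfl
    · show (π.g ^ 2)⁻¹ • EQ π .a u = _
      rw [hE .a]
      show (π.g ^ 2)⁻¹ • (π.g ^ 2 • Φ (some (.v 0))) = _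
      rw [smul_smul, inv_mul_cancel₀ (pow_ne_zero _ hg), one_smul]
    · show (π.g ^ 2)⁻¹ • EQ π .b u = _
      rw [hE .b]
      show (π.g ^ 2)⁻¹ • (π.g ^ 2 • Φ (some (.v 1))) = _
      rw [smul_smul, inv_mul_cancel₀ (pow_ne_zero _ hg), one_smul]
  · show EQ π .x' (if (0 : Fin 2) = 0 then 0 else π.p⁻¹ • w)
      + π.p • EQ π .x (if (1 : Fin 2) = 0 then 0 else π.p⁻¹ • w) = _
    rw [if_pos rfl, if_neg (by decide), map_zero, zero_add, map_smul, hwE, smul_smul,
      mul_inv_cancel₀ hp, one_smul]

end Crest.Agent.R186.NegQ365
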