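import Crest.Agent.R186.EndC_560
import Crest.Agent.R186.Hfin_654
import Crest.Agent.R186.HDz_186

/-!
Row 186, half (A), tail (helper700): the null pair over `k0` from the two last open terms,
`HM` (or `PV`) and helper328's Koszul data `Kz`.
-/

set_option autoImplicit false

namespace Crest.Agent.R186.NulA700

open Crest.Agent.R186 EndC560 SM890 WL221

/-- the null pair from `HM` and `Kz` -/
theorem nul_of (hM : EndF448.HM TopA226.par0 5 h55)
    (Z : C1b328.Kz (WL TopA226.par0).dga (tLW TopA226.par0 5)) :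
    Nonempty (Spine700.Null.{0, 0} Spine700.k0) :=
  EndC560.nullA ⟨hM, Hfin654.ph _ _ _, HD186.HD_of_kz Z⟩

/-- the null pair from `PV` and `Kz` -/
theorem nul_ofPV (hV : EndB448.PV TopA226.par0 5 h55)
    (Z : C1b328.Kz (WL TopA226.par0).dga (tLW TopA226.par0 5)) :
    Nonempty (Spine700.Null.{0, 0} Spine700.k0) :=
  EndB448.null_B (Hfin654.ph _ _ _) hV (EndF448.UG hV) (HD186.HD_of_kz Z hV)

end Crest.Agent.R186.NulA700
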