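import Crest.Agent.R186.NulA_700
import Crest.Agent.R186.HMc_510
import Crest.Agent.R186.RZ_625
import Crest.Agent.R186.C1c_328

/-!
Row 186, half (A), last line (helper700): the null pair over `k0`.
`HM` = HMc_510 (510) + RZ_625 (625); `PH` = Hfin_654 (654); `HD` = HDz_186 (186) + C1c_328 (328).
-/

set_option autoImplicit false

namespace Crest.Agent.R186.NulB700

open Crest.Agent.R186 EndC560 SM890 WL221

/-- (M) : the hom complex is homotopy bounded -/
theorem hm : EndF448.HM TopA226.par0 5 h55 :=
  HMc510.HM_of_P TopA226.par0 5 h55 (RZ625.DVs_XL TopA226.par0 5 h55)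

theorem nul : Nonempty (Spine700.Null.{0, 0} Spine700.k0) :=
  NulA700.nul_of hm (C1c328.kz TopA226.par0 5)

end Crest.Agent.R186.NulB700
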