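import Crest.Agent.R186.Null0F_341
import Crest.Agent.R186.LCQ_369

/-!
Row 186 (S0281), helper341, leaf B281.N0: **`Ext_A^j (V 0, A) = 0`, `s = 0`**.
-/

set_option autoImplicit false
set_option linter.unusedSectionVars false

namespace Crest.Agent.R186.B281

open ExtRes700

/-- **nullness, `s = 0`** -/
theorem null0 {K : Type} [Field K] {g : K} (hg : Gen g) :
    ∀ j, E0 (A g 0) (V g 0 0) (A g 0) j :=
  fun q => N341.null0_of_hQ hg (fun j n q => LC369.hQ0 hg j n q) q

end Crest.Agent.R186.B281
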