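import Crest.Agent.R186.NullV_275
import Crest.Agent.R186.KPv0_448
import Crest.Agent.R186.N0C_341

/-!
Row 186 (S0281), helper341, leaf B281.N0: `Ext_A^q (V 0, A) = 0`, `s = 0`: the joint.
-/

set_option autoImplicit false
set_option linter.unusedSectionVars false

namespace Crest.Agent.R186.B281

namespace N341

open NullChain538 ExtRes700 NullV275

variable {K : Type} [Field K] {g : K}

instance finT2 (g : K) (n : ℕ) : Module.Finite (A g 0) (K448.T2 g n) := by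
  unfold K448.T2
  infer_instance

/-- the resolution `K(n)` -/
noncomputable def rs0 (hg : Gen g) (n : ℕ) : Rs (A g 0) (E g 0 n) (Fin (n + 1) → Pv g 0 0)
    (Fin 2 → Fin (n + 1) → Pv g 0 3) (K448.T2 g n) (Fin (n + 1) → Pv g 0 2) where
  e := K448.ε hg n
  d1 := K448.d1 g n
  d2 := K448.d2 hg n
  d3 := K448.d3 hg n
  surj := (K448.mres0 hg n).surj
  ex0 := (K448.mres0 hg n).ex0
  ex1 := (K448.mres0 hg n).ex1
  ex2 := (K448.mres0 hg n).ex2
  inj := (K448.mres0 hg n).inj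

set_option maxHeartbeats 4000000 in
/-- **the joint, `s = 0`** -/
theorem null0_of (hg : Gen g) {κ : Type} (Q : κ → Type) [∀ j, AddCommGroup (Q j)]
    [∀ j, Module (A g 0) (Q j)]
    (hQ : ∀ j (n : ℕ) q, E0 (A g 0) (E g 0 n) (Q j) q)
    (dev : ∀ (X : Type) [AddCommGroup X] [Module (A g 0) X] (q : ℕ),
      (∀ j q', E0 (A g 0) X (Q j) q') → E0 (A g 0) X (Pv g 0 2) q → E0 (A g 0) X (A g 0) q)
    (j1 : κ) (π1 : Pv g 0 1 →ₗ[A g 0] Q j1) (ρπ : Function.Exact (EVA538.ρh hg 0) π1)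
    (π1s : Function.Surjective π1) (q : ℕ) : E0 (A g 0) (V g 0 0) (A g 0) q :=
  nullV hg 0 (rs0 hg) Q hQ dev
    (fun _ f _ => H0_col2 f)
    (fun _ f _ => ⟨0, (H1_col2 f).symm ▸ LinearMap.zero_comp _⟩)
    (fun n f hf => ⟨0, (H2_col2 (K448.d3 hg n) (D3E_d3 hg n) f hf).symm ▸ LinearMap.zero_comp _⟩)
    (fun n f hf => k2_col2 (K448.d3 hg n) (D3E_d3 hg n) f hf)
    (fun n h => c1_col1 (K448.d3 hg n) (D3E_d3 hg n) h) j1 π1 ρπ π1s q

end N341

end Crest.Agent.R186.B281
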