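import Crest.Agent.R186.Inst_823
import Crest.Agent.R186.B281W_128
import Crest.Agent.R186.FilPBW_633

/-!
Row 186, S0281, leaf B281.N1 (helper275), part a: entries of `A g 1` in the column `O(-2)`,
coefficient formulas, elements of `A g 1` supported in one column.
-/

set_option autoImplicit false

open Matrix

noncomputable section

namespace Crest.Agent.R186.N1

open B281

variable {K : Type} [Field K] {g : K}

/-! ### small pieces of `Fil` -/

theorem fil00 {T : Op K} (h : T ∈ Fil g 0 0) : ∃ c : K, T = c • (1 : Op K) := by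
  induction h using Submodule.span_induction with
  | mem x hx =>
    obtain ⟨a, b, h1, h2, rfl⟩ := hx
    obtain ⟨a1, a2⟩ := a
    obtain ⟨b1, b2⟩ := b
    simp only at h1 h2
    obtain rfl : b1 = 0 := by omega
    obtain rfl : b2 = 0 := by omega
    obtain rfl : a1 = 0 := by omega
    obtain rfl : a2 = 0 := by omega
    exact ⟨1, by simp [mon]⟩
  | zero => exact ⟨0, by simp⟩
  | add x y _ _ hx hy =>
    obtain ⟨c, rfl⟩ := hx
    obtain ⟨d, rfl⟩ := hy
    exact ⟨c + d, (add_smul _ _ _).symm⟩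
  | smul a x _ hx =>
    obtain ⟨c, rfl⟩ := hx
    exact ⟨a * c, (mul_smul _ _ _).symm⟩

theorem fil01 {T : Op K} (h : T ∈ Fil g 0 1) : ∃ p q : K, T = p • (X 0 : Op K) + q • (X 1 : Op K) := by
  induction h using Submodule.span_induction with
  | mem x hx =>
    obtain ⟨a, b, h1, h2, rfl⟩ := hx
    obtain ⟨a1, a2⟩ := a
    obtain ⟨b1, b2⟩ := b
    simp only at h1 h2
    obtain rfl : b1 = 0 := by omega
    obtain rfl : b2 = 0 := by omega
    have h3 : (a1 = 1 ∧ a2 = 0) ∨ (a1 = 0 ∧ a2 = 1) := by omega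
    rcases h3 with ⟨rfl, rfl⟩ | ⟨rfl, rfl⟩
    · exact ⟨1, 0, by simp [mon]⟩
    · exact ⟨0, 1, by simp [mon]⟩
  | zero => exact ⟨0, 0, by simp⟩
  | add x y _ _ hx hy =>
    obtain ⟨c, c', rfl⟩ := hx
    obtain ⟨d, d', rfl⟩ := hy
    exact ⟨c + d, c' + d', by rw [add_smul, add_smul]; abel⟩
  | smul a x _ hx =>
    obtain ⟨c, c', rfl⟩ := hx
    exact ⟨a * c, a * c', by rw [smul_add, mul_smul, mul_smul]⟩

/-! ### coefficients -/

theorem X_coeff (i : Fin 2) (w : Lau K) (m : ℤ × ℤ) : (X i w) m = w (m - ev i) := by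
  have h1 : Function.Injective (fun m : ℤ × ℤ => m + ev i) := add_left_injective _
  have h2 := Finsupp.mapDomain_apply h1 w (m - ev i)
  simp only [sub_add_cancel] at h2
  exact h2

theorem D_coeff (i : Fin 2) (w : Lau K) (m : ℤ × ℤ) :
    (D g i w) m = cq g (co i m + 1) * w (m + ev i) := by
  induction w using Finsupp.induction_linear with
  | zero => simp
  | add f f' hf hf' => rw [map_add, Finsupp.add_apply, hf, hf', Finsupp.add_apply, mul_add]
  | single a b =>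
    rw [D_single]
    by_cases h : a - ev i = m
    · subst h
      have hc : co i (a - ev i) + 1 = co i a := by fin_cases i <;> simp [co, ev]
      rw [Finsupp.single_eq_same, hc, sub_add_cancel, Finsupp.single_eq_same]
    · have h' : a ≠ m + ev i := fun h' => h (by rw [h', add_sub_cancel_right])
      rw [Finsupp.single_apply, if_neg h, Finsupp.single_apply, if_neg h', mul_zero]

theorem D1X1_coeff (w : Lau K) (p q : ℤ) : (D g 1 (X 1 w)) (p, q) = cq g (q + 1) * w (p, q) := by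
  rw [D_coeff, X_coeff, add_sub_cancel_right]
  simp [co]

theorem D1X0_coeff (w : Lau K) (p q : ℤ) :
    (D g 1 (X 0 w)) (p, q) = cq g (q + 1) * w (p - 1, q + 1) := by
  rw [D_coeff, X_coeff]
  simp [co, ev]

theorem D0X1_coeff (w : Lau K) (p q : ℤ) :
    (D g 0 (X 1 w)) (p, q) = cq g (p + 1) * w (p + 1, q - 1) := by
  rw [D_coeff, X_coeff]
  simp [co, ev]

theorem D0X0_coeff (w : Lau K) (p q : ℤ) : (D g 0 (X 0 w)) (p, q) = cq g (p + 1) * w (p, q) := by
  rw [D_coeff, X_coeff, add_sub_cancel_right]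
  simp [co]

/-- comparison of degree one operators -/
theorem X_indep {p q p' q' : K} (h : p • (X 0 : Op K) + q • X 1 = p' • (X 0 : Op K) + q' • X 1) :
    p = p' ∧ q = q' := by
  have h1 := LinearMap.congr_fun h (Finsupp.single 0 1)
  simp only [LinearMap.add_apply, LinearMap.smul_apply, X_single] at h1
  constructor
  · have := DFunLike.congr_fun h1 (1, 0)
    simpa [ev] using this
  · have := DFunLike.congr_fun h1 (0, 1)
    simpa [ev] using this

theorem X_indep0 {p q : K} (h : p • (X 0 : Op K) + q • X 1 = 0) : p = 0 ∧ q = 0 :=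
  X_indep (p' := 0) (q' := 0) (by rw [h]; simp)

theorem kos0 {c c' : K} (h : (X 1 : Op K) * (c • (1 : Op K)) = X 0 * (c' • (1 : Op K))) :
    c = 0 ∧ c' = 0 := by
  rw [mul_smul_comm, mul_one, mul_smul_comm, mul_one] at h
  have := X_indep (p := 0) (q := c) (p' := c') (q' := 0) (by simpa using h)
  exact ⟨this.2, this.1.symm⟩

theorem kos1 {p q p' q' : K} (h : (X 1 : Op K) * (p • (X 0 : Op K) + q • (X 1 : Op K)) =
    X 0 * (p' • (X 0 : Op K) + q' • (X 1 : Op K))) : q = 0 ∧ p' = 0 ∧ p = q' := by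
  have h1 := LinearMap.congr_fun h (Finsupp.single 0 1)
  simp only [Module.End.mul_apply, LinearMap.add_apply, LinearMap.smul_apply, X_single, map_add,
    map_smul] at h1
  refine ⟨?_, ?_, ?_⟩
  · have := DFunLike.congr_fun h1 (0, 2)
    simpa [ev] using this
  · have := DFunLike.congr_fun h1 (2, 0)
    simpa [ev] using this.symm
  · have := DFunLike.congr_fun h1 (1, 1)
    simpa [ev] using this

/-! ### the column `O(-2)` of `A g 1` -/

theorem vecMul7 (v : Fin 7 → Op K) (M : Mat K) (j : Fin 7) :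
    (v ᵥ* M) j = v 0 * M 0 j + v 1 * M 1 j + v 2 * M 2 j + v 3 * M 3 j + v 4 * M 4 j +
      v 5 * M 5 j + v 6 * M 6 j := by
  simp only [Matrix.vecMul, dotProduct, Fin.sum_univ_seven]

/-- the entries of the column `O(-2)` -/
structure Col2 (g : K) (e : ℤ) (M : Mat K) : Prop where
  c0 : M 0 2 = 0
  c1 : M 1 2 = 0
  c2 : M 2 2 ∈ Fil g 0 e
  c3 : M 3 2 ∈ Fil g 0 e
  c4 : M 4 2 ∈ Fil g 0 e
  c34 : X 1 * M 3 2 = X 0 * M 4 2
  c5 : M 5 2 ∈ Fil g 0 e
  c6 : M 6 2 ∈ Fil g 0 e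
  c56 : X 1 * M 5 2 = X 0 * M 6 2

theorem col2 {e : ℤ} {M : Mat K} (hM : Pres g 1 e M) : Col2 g e M := by
  have h1 : ∀ k : ℤ, 0 ≤ k → (1 : Op K) ∈ Fil g k 0 := fun k hk => one_mem_Fil g hk
  have hX : ∀ (i : Fin 2) (k : ℤ), 0 ≤ k → (X i : Op K) ∈ Fil g k 1 :=
    fun i k hk => X_mem_Fil g i hk
  have ho : ∀ (c : ℕ) (hc : c < 3), M ⟨c, by omega⟩ 2 ∈ Fil g ((c : ℤ) - 2) e := by
    intro c hc
    have h2 := (hM c 0 _ (single_mem (g := g) 1 c 0 1 c hc (h1 _ (by omega)))).2.2.1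
    rw [Matrix.single_one_vecMul, zero_add] at h2
    exact h2
  have hc : (X 1 : Op K) * X 0 + (-(X 0 : Op K)) * X 1 = 0 := by
    rw [neg_mul, X_comm 0 1, add_neg_cancel]
  have r1 : ∀ (k P : ℤ) (a b : Op K), a ∈ Fil g (k - 1) P → b ∈ Fil g (k - 1) P →
      a * X 0 + b * X 1 ∈ Fil g (k - 1 - 1) (P + 1) →
        a * M 3 2 + b * M 4 2 ∈ Fil g (k - 2) (P + e) := by
    intro k P a b ha hb hab
    have h2 := (hM k P _ (row_mem1 (g := g) 1 k P a b ha hb hab)).2.2.1
    rw [vecMul7] at h2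
    simpa using h2
  have r2 : ∀ (k P : ℤ) (a b : Op K), a ∈ Fil g k P → b ∈ Fil g k P →
      a * X 0 + b * X 1 ∈ Fil g (k - 2) (P + 1) →
        a * M 5 2 + b * M 6 2 ∈ Fil g (k - 2) (P + e) := by
    intro k P a b ha hb hab
    have h2 := (hM k P _ (row_mem2 (g := g) 1 k P a b ha hb hab)).2.2.1
    rw [vecMul7] at h2
    simpa using h2
  refine ⟨?_, ?_, ?_, ?_, ?_, ?_, ?_, ?_, ?_⟩
  · have := ho 0 (by norm_num)
    rw [Fil_neg g (by norm_num) e] at this
    exact (Submodule.mem_bot K).1 this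
  · have := ho 1 (by norm_num)
    rw [Fil_neg g (by norm_num) e] at this
    exact (Submodule.mem_bot K).1 this
  · simpa using ho 2 (by norm_num)
  · have := r1 2 0 1 0 (h1 _ (by norm_num)) (zero_mem _)
      (by rw [one_mul, zero_mul, add_zero]; exact hX 0 _ (by norm_num))
    simpa using this
  · have := r1 2 0 0 1 (zero_mem _) (h1 _ (by norm_num))
      (by rw [one_mul, zero_mul, zero_add (X 1 : Op K)]; exact hX 1 _ (by norm_num))
    simpa using this
  · have := r1 1 1 (X 1) (-(X 0 : Op K)) (hX 1 _ (by norm_num)) (neg_mem (hX 0 _ (by norm_num)))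
      (by rw [hc]; exact zero_mem _)
    rw [Fil_neg g (by norm_num) (1 + e), Submodule.mem_bot, neg_mul] at this
    exact add_neg_eq_zero.1 this
  · have := r2 2 0 1 0 (h1 _ (by norm_num)) (zero_mem _)
      (by rw [one_mul, zero_mul, add_zero]; exact hX 0 _ (by norm_num))
    simpa using this
  · have := r2 2 0 0 1 (zero_mem _) (h1 _ (by norm_num))
      (by rw [one_mul, zero_mul, zero_add (X 1 : Op K)]; exact hX 1 _ (by norm_num))
    simpa using this
  · have := r2 0 1 (X 1) (-(X 0 : Op K)) (hX 1 _ (by norm_num)) (neg_mem (hX 0 _ (by norm_num)))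
      (by rw [hc]; exact zero_mem _)
    rw [Fil_neg g (by norm_num) (1 + e), Submodule.mem_bot, neg_mul] at this
    exact add_neg_eq_zero.1 this

/-- rows `3, 4` (and `5, 6`) of the column, degree `0` -/
theorem Col2.z0 {M : Mat K} (h : Col2 g 0 M) : M 3 2 = 0 ∧ M 4 2 = 0 ∧ M 5 2 = 0 ∧ M 6 2 = 0 := by
  obtain ⟨a, ha⟩ := fil00 h.c3
  obtain ⟨b, hb⟩ := fil00 h.c4
  obtain ⟨c, hc⟩ := fil00 h.c5
  obtain ⟨d, hd⟩ := fil00 h.c6
  have h1 := h.c34
  have h2 := h.c56
  rw [ha, hb] at h1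
  rw [hc, hd] at h2
  obtain ⟨rfl, rfl⟩ := kos0 h1
  obtain ⟨rfl, rfl⟩ := kos0 h2
  simp [ha, hb, hc, hd]

/-- rows `3, 4` of the column, degree `1` -/
theorem Col2.z34 {M : Mat K} (h : Col2 g 1 M) : ∃ c : K, M 3 2 = c • (X 0 : Op K) ∧
    M 4 2 = c • (X 1 : Op K) := by
  obtain ⟨a, a', ha⟩ := fil01 h.c3
  obtain ⟨b, b', hb⟩ := fil01 h.c4
  have h1 := h.c34
  rw [ha, hb] at h1
  obtain ⟨rfl, rfl, rfl⟩ := kos1 h1
  exact ⟨a, by simp [ha], by simp [hb]⟩

theorem Col2.z56 {M : Mat K} (h : Col2 g 1 M) : ∃ c : K, M 5 2 = c • (X 0 : Op K) ∧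
    M 6 2 = c • (X 1 : Op K) := by
  obtain ⟨a, a', ha⟩ := fil01 h.c5
  obtain ⟨b, b', hb⟩ := fil01 h.c6
  have h1 := h.c56
  rw [ha, hb] at h1
  obtain ⟨rfl, rfl, rfl⟩ := kos1 h1
  exact ⟨a, by simp [ha], by simp [hb]⟩

/-! ### elements supported in one column -/

/-- the matrix with column `j` equal to `c` -/
def colm (c : Fin 7 → Op K) (j : Fin 7) : Mat K := Matrix.of fun i j' => if j' = j then c i else 0

theorem colm_apply (c : Fin 7 → Op K) (j i j' : Fin 7) :
    colm c j i j' = if j' = j then c i else 0 := rfl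

theorem colm_same (c : Fin 7 → Op K) (j i : Fin 7) : colm c j i j = c i := if_pos rfl

theorem vecMul_colm (v c : Fin 7 → Op K) (j j' : Fin 7) :
    (v ᵥ* colm c j) j' = if j' = j then ∑ i, v i * c i else 0 := by
  simp only [Matrix.vecMul, dotProduct, colm_apply]
  split_ifs
  · rfl
  · simp

theorem pres_col2 {e : ℤ} {c : Fin 7 → Op K}
    (h : ∀ k P : ℤ, ∀ v ∈ Lat g 1 k P, ∑ i, v i * c i ∈ Fil g (k - 2) (P + e)) :
    Pres g 1 e (colm c 2) := by
  intro k P v hv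
  have h1 := h k P v hv
  refine ⟨?_, ?_, ?_, ⟨?_, ?_, ?_⟩, ?_, ?_, ?_⟩ <;> simp [vecMul_colm, h1]

theorem pres_col1 {e : ℤ} {c : Fin 7 → Op K}
    (h : ∀ k P : ℤ, ∀ v ∈ Lat g 1 k P, ∑ i, v i * c i ∈ Fil g (k - 1) (P + e)) :
    Pres g 1 e (colm c 1) := by
  intro k P v hv
  have h1 := h k P v hv
  refine ⟨?_, ?_, ?_, ⟨?_, ?_, ?_⟩, ?_, ?_, ?_⟩ <;> simp [vecMul_colm, h1]

/-- an element of `A g 1` given by its two matrices -/
def mkA {M N : Mat K} (hM : Pres g 1 0 M) (hN : Pres g 1 1 N) : A g 1 :=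
  ⟨TrivSqZeroExt.inl M + TrivSqZeroExt.inr N, by
    refine ⟨?_, ?_⟩
    · rw [TrivSqZeroExt.fst_add, TrivSqZeroExt.fst_inl, TrivSqZeroExt.fst_inr, add_zero]
      exact hM
    · rw [TrivSqZeroExt.snd_add, TrivSqZeroExt.snd_inl, TrivSqZeroExt.snd_inr, zero_add]
      exact hN⟩

theorem mkA_fst {M N : Mat K} (hM : Pres g 1 0 M) (hN : Pres g 1 1 N) :
    (mkA hM hN).1.fst = M := by
  show (TrivSqZeroExt.inl M + TrivSqZeroExt.inr N : DualNumber (Mat K)).fst = M
  rw [TrivSqZeroExt.fst_add, TrivSqZeroExt.fst_inl, TrivSqZeroExt.fst_inr, add_zero]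

theorem mkA_snd {M N : Mat K} (hM : Pres g 1 0 M) (hN : Pres g 1 1 N) :
    (mkA hM hN).1.snd = N := by
  show (TrivSqZeroExt.inl M + TrivSqZeroExt.inr N : DualNumber (Mat K)).snd = N
  rw [TrivSqZeroExt.snd_add, TrivSqZeroExt.snd_inl, TrivSqZeroExt.snd_inr, zero_add]

theorem pres_c2 (α : K) : Pres g 1 0 (colm (Pi.single 2 (α • (1 : Op K))) 2) := by
  refine pres_col2 fun k P v hv => ?_
  rw [Finset.sum_eq_single (2 : Fin 7)]
  · rw [Pi.single_eq_same, mul_smul_comm, mul_one, add_zero]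
    exact Submodule.smul_mem _ _ hv.2.2.1
  · intro j _ hj
    rw [Pi.single_eq_of_ne hj, mul_zero]
  · intro h; exact absurd (Finset.mem_univ _) h

theorem mul_X_mem (hg : Gen g) (i : Fin 2) {k P : ℤ} {T : Op K} (hT : T ∈ Fil g k P) :
    T * X i ∈ Fil g k (P + 1) := by
  have := FilPBW633.Fil_mul hg hT (X_mem_Fil g i (le_refl (0 : ℤ)))
  rwa [add_zero] at this

theorem D_mem (hg : Gen g) (i : Fin 2) : (D g i : Op K) ∈ Fil g 1 (-1) :=
  FilPBW633.D_mem hg i

theorem pres_cX (hg : Gen g) (p q : K) :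
    Pres g 1 1 (colm (Pi.single 2 (p • (X 0 : Op K) + q • (X 1 : Op K))) 2) := by
  refine pres_col2 fun k P v hv => ?_
  rw [Finset.sum_eq_single (2 : Fin 7)]
  · rw [Pi.single_eq_same, mul_add, mul_smul_comm, mul_smul_comm]
    exact add_mem (Submodule.smul_mem _ _ (mul_X_mem hg 0 hv.2.2.1))
      (Submodule.smul_mem _ _ (mul_X_mem hg 1 hv.2.2.1))
  · intro j _ hj
    rw [Pi.single_eq_of_ne hj, mul_zero]
  · intro h; exact absurd (Finset.mem_univ _) h

theorem pres_c3 (c : K) : Pres g 1 1 (colm (![0, 0, 0, c • X 0, c • X 1, 0, 0]) 2) := by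
  refine pres_col2 fun k P v hv => ?_
  rw [Fin.sum_univ_seven]
  have h1 := Submodule.smul_mem _ c hv.2.2.2.1.2.2
  simpa [mul_smul_comm, sub_sub, ← smul_add] using h1

theorem pres_c4 (c : K) : Pres g 1 1 (colm (![0, 0, 0, 0, 0, c • X 0, c • X 1]) 2) := by
  refine pres_col2 fun k P v hv => ?_
  rw [Fin.sum_univ_seven]
  have h1 := Submodule.smul_mem _ c hv.2.2.2.2.2.2
  simpa [mul_smul_comm, ← smul_add] using h1

theorem pres_r1 : Pres g 1 0 (colm (Pi.single 2 (1 : Op K)) 1) := by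
  refine pres_col1 fun k P v hv => ?_
  rw [Finset.sum_eq_single (2 : Fin 7)]
  · rw [Pi.single_eq_same, mul_one, add_zero]
    exact Fil_mono g (by omega) hv.2.2.1
  · intro j _ hj
    rw [Pi.single_eq_of_ne hj, mul_zero]
  · intro h; exact absurd (Finset.mem_univ _) h

theorem pres_rt (hg : Gen g) (i j : Fin 2) :
    Pres g 1 0 (colm (Pi.single 2 (X i * D g j : Op K)) 1) := by
  refine pres_col1 fun k P v hv => ?_
  rw [Finset.sum_eq_single (2 : Fin 7)]
  · rw [Pi.single_eq_same, ← mul_assoc]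
    have := FilPBW633.Fil_mul hg (mul_X_mem hg i hv.2.2.1) (D_mem hg j)
    rwa [show k - 2 + 1 = k - 1 by ring, show P + 1 + -1 = P + 0 by ring] at this
  · intro j _ hj
    rw [Pi.single_eq_of_ne hj, mul_zero]
  · intro h; exact absurd (Finset.mem_univ _) h

end Crest.Agent.R186.N1
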