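import Crest.Agent.R186.N0A_341
import Crest.Agent.R186.Null1a_275
import Crest.Agent.R186.Col1_113
import Crest.Agent.R186.NullAbs_341

/-!
Row 186 (S0281), helper275, leaf B281.N1: the column `O(-2)` of `Hom (K'(n), A)`, `s = 1`,
on the level of `A g 1`, for any maps `d2`, `d3` given by their entries at the generators.
-/

set_option autoImplicit false
set_option linter.unusedSectionVars false

open Finset Matrix

namespace Crest.Agent.R186.B281

namespace Null275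

variable {K : Type} [Field K] {g : K} {s : ℤ}

/-! ### entries -/

/-- an entry of the first matrix -/
def fE (g : K) (s : ℤ) (i j : Fin 7) : A g s →ₗ[K] Op K where
  toFun x := x.1.fst i j
  map_add' _ _ := rfl
  map_smul' _ _ := rfl

/-- an entry of the second matrix -/
def sE (g : K) (s : ℤ) (i j : Fin 7) : A g s →ₗ[K] Op K where
  toFun x := x.1.snd i j
  map_add' _ _ := rfl
  map_smul' _ _ := rfl

theorem fst_sum {ι : Type} (t : Finset ι) (f : ι → A g s) (i j : Fin 7) :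
    (∑ b ∈ t, f b).1.fst i j = ∑ b ∈ t, (f b).1.fst i j := map_sum (fE g s i j) f t

theorem snd_sum {ι : Type} (t : Finset ι) (f : ι → A g s) (i j : Fin 7) :
    (∑ b ∈ t, f b).1.snd i j = ∑ b ∈ t, (f b).1.snd i j := map_sum (sE g s i j) f t

theorem fst_mul7 (x y : A g s) (i j : Fin 7) : (x * y).1.fst i j =
    x.1.fst i 0 * y.1.fst 0 j + x.1.fst i 1 * y.1.fst 1 j + x.1.fst i 2 * y.1.fst 2 j +
    x.1.fst i 3 * y.1.fst 3 j + x.1.fst i 4 * y.1.fst 4 j + x.1.fst i 5 * y.1.fst 5 j +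
    x.1.fst i 6 * y.1.fst 6 j := by
  rw [fst_mulA, Matrix.mul_apply, Fin.sum_univ_seven]

theorem snd_mul7 (x y : A g s) (i j : Fin 7) : (x * y).1.snd i j =
    (x.1.fst i 0 * y.1.snd 0 j + x.1.fst i 1 * y.1.snd 1 j + x.1.fst i 2 * y.1.snd 2 j +
    x.1.fst i 3 * y.1.snd 3 j + x.1.fst i 4 * y.1.snd 4 j + x.1.fst i 5 * y.1.snd 5 j +
    x.1.fst i 6 * y.1.snd 6 j) +
    (x.1.snd i 0 * y.1.fst 0 j + x.1.snd i 1 * y.1.fst 1 j + x.1.snd i 2 * y.1.fst 2 j +
    x.1.snd i 3 * y.1.fst 3 j + x.1.snd i 4 * y.1.fst 4 j + x.1.snd i 5 * y.1.fst 5 j +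
    x.1.snd i 6 * y.1.fst 6 j) := by
  rw [snd_mulA, Matrix.add_apply, Matrix.mul_apply, Matrix.mul_apply, Fin.sum_univ_seven,
    Fin.sum_univ_seven]

section P3
variable {x : A g s} (hx : x ∈ Pv g s 3) (y : A g s) (i j : Fin 7)
include hx

theorem z3 (k : Fin 7) (h : blk k ≠ 3) : x.1.fst i k = 0 ∧ x.1.snd i k = 0 := mem_Pv.1 hx i k h

theorem fst_P3 : (x * y).1.fst i j = x.1.fst i 3 * y.1.fst 3 j + x.1.fst i 4 * y.1.fst 4 j := by
  rw [fst_mul7, (z3 hx i 0 (by decide)).1, (z3 hx i 1 (by decide)).1, (z3 hx i 2 (by decide)).1,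
    (z3 hx i 5 (by decide)).1, (z3 hx i 6 (by decide)).1]
  simp only [zero_mul, zero_add, add_zero]

theorem snd_P3 : (x * y).1.snd i j = (x.1.fst i 3 * y.1.snd 3 j + x.1.fst i 4 * y.1.snd 4 j) +
    (x.1.snd i 3 * y.1.fst 3 j + x.1.snd i 4 * y.1.fst 4 j) := by
  rw [snd_mul7, (z3 hx i 0 (by decide)).1, (z3 hx i 1 (by decide)).1, (z3 hx i 2 (by decide)).1,
    (z3 hx i 5 (by decide)).1, (z3 hx i 6 (by decide)).1, (z3 hx i 0 (by decide)).2,
    (z3 hx i 1 (by decide)).2, (z3 hx i 2 (by decide)).2, (z3 hx i 5 (by decide)).2,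
    (z3 hx i 6 (by decide)).2]
  simp only [zero_mul, zero_add, add_zero]

end P3

section P4
variable {x : A g s} (hx : x ∈ Pv g s 4) (y : A g s) (i j : Fin 7)
include hx

theorem z4 (k : Fin 7) (h : blk k ≠ 4) : x.1.fst i k = 0 ∧ x.1.snd i k = 0 := mem_Pv.1 hx i k h

theorem fst_P4 : (x * y).1.fst i j = x.1.fst i 5 * y.1.fst 5 j + x.1.fst i 6 * y.1.fst 6 j := by
  rw [fst_mul7, (z4 hx i 0 (by decide)).1, (z4 hx i 1 (by decide)).1, (z4 hx i 2 (by decide)).1,
    (z4 hx i 3 (by decide)).1, (z4 hx i 4 (by decide)).1]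
  simp only [zero_mul, zero_add, add_zero]

theorem snd_P4 : (x * y).1.snd i j = (x.1.fst i 5 * y.1.snd 5 j + x.1.fst i 6 * y.1.snd 6 j) +
    (x.1.snd i 5 * y.1.fst 5 j + x.1.snd i 6 * y.1.fst 6 j) := by
  rw [snd_mul7, (z4 hx i 0 (by decide)).1, (z4 hx i 1 (by decide)).1, (z4 hx i 2 (by decide)).1,
    (z4 hx i 3 (by decide)).1, (z4 hx i 4 (by decide)).1, (z4 hx i 0 (by decide)).2,
    (z4 hx i 1 (by decide)).2, (z4 hx i 2 (by decide)).2, (z4 hx i 3 (by decide)).2,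
    (z4 hx i 4 (by decide)).2]
  simp only [zero_mul, zero_add, add_zero]

end P4

/-! ### values of maps out of the projectives -/

theorem hom_val {v w : Fin 5} (φ : Pv g s v →ₗ[A g s] Pv g s w) (x : Pv g s v) :
    ((φ x : Pv g s w) : A g s) = (x : A g s) * ((φ (Pgen g s v) : Pv g s w) : A g s) := by
  have h : (x : A g s) • Pgen g s v = x := Dev580.smul_gen (eps_idem g s v) x
  have h2 : φ x = (x : A g s) • φ (Pgen g s v) := by rw [← map_smul, h]
  rw [h2]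
  rfl

theorem pi_val {v w : Fin 5} {m : ℕ} (φ : (Fin m → Pv g s v) →ₗ[A g s] Pv g s w)
    (x : Fin m → Pv g s v) : ((φ x : Pv g s w) : A g s) =
      ∑ b, (x b : A g s) * ((φ (Pi.single b (Pgen g s v)) : Pv g s w) : A g s) := by
  have h : x = ∑ b, Pi.single b (x b) := (Finset.univ_sum_single x).symm
  conv_lhs => rw [h, map_sum]
  rw [AddSubmonoidClass.coe_finsetSum]
  exact Finset.sum_congr rfl fun b _ =>
    hom_val (φ ∘ₗ LinearMap.single (A g s) (fun _ : Fin m => Pv g s v) b) (x b)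

theorem pi2_val {v w : Fin 5} {m : ℕ} (φ : (Fin 2 → Fin m → Pv g s v) →ₗ[A g s] Pv g s w)
    (x : Fin 2 → Fin m → Pv g s v) : ((φ x : Pv g s w) : A g s) =
      ∑ l, ∑ b, (x l b : A g s) *
        ((φ (Pi.single l (Pi.single b (Pgen g s v))) : Pv g s w) : A g s) := by
  have h : x = ∑ l, Pi.single l (x l) := (Finset.univ_sum_single x).symm
  conv_lhs => rw [h, map_sum]
  rw [AddSubmonoidClass.coe_finsetSum]
  exact Finset.sum_congr rfl fun l _ =>
    pi_val (φ ∘ₗ LinearMap.single (A g s) (fun _ : Fin 2 => Fin m → Pv g s v) l) (x l)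

theorem eps_pi {v w : Fin 5} {m : ℕ} (φ : (Fin m → Pv g s v) →ₗ[A g s] Pv g s w) (b : Fin m) :
    eps g s v * ((φ (Pi.single b (Pgen g s v)) : Pv g s w) : A g s) =
      ((φ (Pi.single b (Pgen g s v)) : Pv g s w) : A g s) :=
  congrArg Subtype.val
    (N341.eps_val (φ ∘ₗ LinearMap.single (A g s) (fun _ : Fin m => Pv g s v) b))

theorem eps_pi2 {v w : Fin 5} {m : ℕ} (φ : (Fin 2 → Fin m → Pv g s v) →ₗ[A g s] Pv g s w)
    (l : Fin 2) (b : Fin m) :
    eps g s v * ((φ (Pi.single l (Pi.single b (Pgen g s v))) : Pv g s w) : A g s) =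
      ((φ (Pi.single l (Pi.single b (Pgen g s v))) : Pv g s w) : A g s) :=
  eps_pi (φ ∘ₗ LinearMap.single (A g s) (fun _ : Fin 2 => Fin m → Pv g s v) l) b

end Null275

end Crest.Agent.R186.B281
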