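import Crest.Agent.R186.EVA_538
import Crest.Agent.R186.NullAbs_341
import Crest.Agent.R186.Null1b_275

/-!
Row 186 (S0281), helper275: the joint of the nullness block, generic in `s`:
`nullV` : `Ext^q (V 0, A) = 0` from the resolutions of the `E n` (terms and maps arbitrary, last term
`(A e₂)^(n+1)`), the torsion quotients, and the column `O(-2)`.
-/

set_option autoImplicit false
set_option linter.unusedSectionVars false

namespace Crest.Agent.R186.B281

namespace NullV275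

open NullChain538 ExtRes700 EVA538

variable {K : Type} [Field K] {g : K}

/-- a resolution of `E` with last term `K3` -/
structure Rs (R : Type) [Ring R] (E K0 K1 K2 K3 : Type) [AddCommGroup E] [Module R E]
    [AddCommGroup K0] [Module R K0] [AddCommGroup K1] [Module R K1] [AddCommGroup K2] [Module R K2]
    [AddCommGroup K3] [Module R K3] where
  e : K0 →ₗ[R] E
  d1 : K1 →ₗ[R] K0
  d2 : K2 →ₗ[R] K1
  d3 : K3 →ₗ[R] K2
  surj : Function.Surjective e
  ex0 : Function.Exact d1 e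
  ex1 : Function.Exact d2 d1
  ex2 : Function.Exact d3 d2
  inj : Function.Injective d3

/-- the corresponding `MRes` -/
def Rs.mres {R : Type} [Ring R] {E K0 K1 K2 K3 : Type} [AddCommGroup E] [Module R E]
    [AddCommGroup K0] [Module R K0] [AddCommGroup K1] [Module R K1] [AddCommGroup K2] [Module R K2]
    [AddCommGroup K3] [Module R K3] [Module.Projective R K0] [Module.Projective R K1]
    [Module.Projective R K2] [Module.Projective R K3] (S : Rs R E K0 K1 K2 K3) : MRes R E where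
  K0 := K0
  K1 := K1
  K2 := K2
  K3 := K3
  e := S.e
  d1 := S.d1
  d2 := S.d2
  d3 := S.d3
  surj := S.surj
  ex0 := S.ex0
  ex1 := S.ex1
  ex2 := S.ex2
  inj := S.inj
  p0 := inferInstance
  p1 := inferInstance
  p2 := inferInstance
  p3 := inferInstance

/-- **the joint** -/
theorem nullV (hg : Gen g) (s : ℤ) {K0 K1 K2 : ℕ → Type}
    [∀ n, AddCommGroup (K0 n)] [∀ n, Module (A g s) (K0 n)]
    [∀ n, AddCommGroup (K1 n)] [∀ n, Module (A g s) (K1 n)]
    [∀ n, AddCommGroup (K2 n)] [∀ n, Module (A g s) (K2 n)]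
    [f0 : ∀ n, Module.Finite (A g s) (K0 n)] [p0 : ∀ n, Module.Projective (A g s) (K0 n)]
    [f1 : ∀ n, Module.Finite (A g s) (K1 n)] [p1 : ∀ n, Module.Projective (A g s) (K1 n)]
    [f2 : ∀ n, Module.Finite (A g s) (K2 n)] [p2 : ∀ n, Module.Projective (A g s) (K2 n)]
    (S : ∀ n : ℕ, Rs (A g s) (E g s n) (K0 n) (K1 n) (K2 n) (Fin (n + 1) → Pv g s 2))
    {κ : Type} (Q : κ → Type) [∀ j, AddCommGroup (Q j)] [∀ j, Module (A g s) (Q j)]
    (hQ : ∀ j (n : ℕ) q, E0 (A g s) (E g s n) (Q j) q)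
    (dev : ∀ (X : Type) [AddCommGroup X] [Module (A g s) X] (q : ℕ),
      (∀ j q', E0 (A g s) X (Q j) q') → E0 (A g s) X (Pv g s 2) q → E0 (A g s) X (A g s) q)
    (h0 : ∀ n (f : K0 n →ₗ[A g s] Pv g s 2), f ∘ₗ (S n).d1 = 0 → f = 0)
    (h1 : ∀ n (f : K1 n →ₗ[A g s] Pv g s 2), f ∘ₗ (S n).d2 = 0 →
      ∃ h : K0 n →ₗ[A g s] Pv g s 2, h ∘ₗ (S n).d1 = f)
    (h2 : ∀ n (f : K2 n →ₗ[A g s] Pv g s 2), f ∘ₗ (S n).d3 = 0 →
      ∃ h : K1 n →ₗ[A g s] Pv g s 2, h ∘ₗ (S n).d2 = f)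
    (k2 : ∀ n (f : (Fin (n + 1) → Pv g s 2) →ₗ[A g s] Pv g s 2), EVA538.ev2 g s n f = 0 →
      ∃ h : K2 n →ₗ[A g s] Pv g s 2, h ∘ₗ (S n).d3 = f)
    (c1 : ∀ n (h : K2 n →ₗ[A g s] Pv g s 1), EVA538.ev1 g s n (h ∘ₗ (S n).d3) = 0)
    (j1 : κ) (π1 : Pv g s 1 →ₗ[A g s] Q j1) (ρπ : Function.Exact (ρh hg s) π1)
    (π1s : Function.Surjective π1) (q : ℕ) : E0 (A g s) (V g s 0) (A g s) q := by
  refine Null341.null_of_dev (A := A g s) (V := fun n : ℕ => V g s (n : ℤ))
    (E := fun n : ℕ => E g s (n : ℤ)) (k := K) (P1 := Pv g s 1) (P2 := Pv g s 2)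
    (fun n => iota g s n) (fun n => proj g s n) (fun n => iota_inj g s n)
    (fun n => proj_surj g s n) (fun n => iota_proj g s n) (fun n => ?_)
    (fun n => (S n).mres) f0 f1 f2 (fun n => ⟨n + 1, LinearMap.id, LinearMap.id, rfl⟩) Q hQ dev
    h0 h1 h2 (ρh hg s) j1 π1 ρπ π1s (ι := Fin 2 × Fin 2) (fun t => ρt hg s t)
    (fun n => (Fin (n + 1) → K) × (Fin n → K))
    (fun n t => BrickS538.pr (BrickS538.op g (EV538.sw t)) n)
    (fun n => EVA538.ev2 g s n) (fun n => EVA538.ev1 g s n) (fun n => ev2_surj hg n) k2 c1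
    (fun n f => ev1_h hg n f) (fun n t f => ev1_t hg n t f) (fun n => BrickS538.S K n)
    BrickS538.S_zero (fun n δ hδ h => EV538.brick_sw hg n δ hδ h) q
  exact nontrivial_V (by positivity)

end NullV275

end Crest.Agent.R186.B281
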