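import Crest.Agent.R186.KPv1_755
import Crest.Agent.R186.NullV_275

/-!
Row 186, S0281, base, `s = 1` (helper755): 275's `Rs` value (the resolution of `E g 1 n` on 580's
projectives, maps of KPv1_755) and the finiteness of the terms.
-/

set_option autoImplicit false

noncomputable section

namespace Crest.Agent.R186.B281

namespace KPv1

open NullV275

variable {K : Type} [Field K] {g : K}

/-- the term `K₁`, `s = 1` -/
abbrev T1 (g : K) (n : ℕ) : Type := (Fin n → Pv g 1 4) × (Fin 2 → Fin (n + 2) → Pv g 1 1)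

instance fin0 (n : ℕ) : Module.Finite (A g 1) (Fin (n + 1) → Pv g 1 0) := inferInstance
instance fin2 (n : ℕ) : Module.Finite (A g 1) (Fin 2 → Fin (n + 1) → Pv g 1 3) := inferInstance
instance fin3 (n : ℕ) : Module.Finite (A g 1) (Fin (n + 1) → Pv g 1 2) := inferInstance
instance fin1 (n : ℕ) : Module.Finite (A g 1) (T1 g n) := inferInstance

/-- **the resolution of `E g 1 n`** -/
def rs1 (hg : Gen g) (n : ℕ) : Rs (A g 1) (E g 1 n) (Fin (n + 1) → Pv g 1 0)
    (T1 g n) (Fin 2 → Fin (n + 1) → Pv g 1 3) (Fin (n + 1) → Pv g 1 2) where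
  e := ε hg n
  d1 := d1 hg n
  d2 := d2 hg n
  d3 := d3 hg n
  surj := surj hg n
  ex0 := ex0 hg n
  ex1 := ex1 hg n
  ex2 := ex2 hg n
  inj := inj hg n

theorem rs1_d1 (hg : Gen g) (n : ℕ) : (rs1 hg n).d1 = d1 hg n := rfl
theorem rs1_d2 (hg : Gen g) (n : ℕ) : (rs1 hg n).d2 = d2 hg n := rfl
theorem rs1_d3 (hg : Gen g) (n : ℕ) : (rs1 hg n).d3 = d3 hg n := rfl

end KPv1

end Crest.Agent.R186.B281
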