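import Crest.Agent.R186.NullV_275
import Crest.Agent.R186.Rs1_755
import Crest.Agent.R186.N1B_113
import Crest.Agent.R186.N1D_538
import Crest.Agent.R186.DevW_147

/-!
Row 186 (S0281), helper275, leaf B281.N1: `Ext_A^q (V 0, A) = 0`, `s = 1`: the joint.
`null1_of` : everything except the torsion quotients.
-/

set_option autoImplicit false
set_option linter.unusedSectionVars false

namespace Crest.Agent.R186.B281

namespace Null275

open NullChain538 ExtRes700 NullV275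

variable {K : Type} [Field K] {g : K}

/-- the rows of `d3` -/
theorem row3 (hg : Gen g) (n : ℕ) : N1B113.Row3 (KPv1.d3 hg n) := fun x i l a =>
  KPv1.d3_fst hg n x l a i

/-- the rows of `d2` -/
theorem row2 (hg : Gen g) (n : ℕ) : N1B113.Row2 (KPv1.d2 hg n) := fun x i u =>
  KPv1.d2_fst1 hg n x u i

set_option maxHeartbeats 4000000 in
/-- **the joint, `s = 1`** -/
theorem null1_of (hg : Gen g) {κ : Type} (Q : κ → Type) [∀ j, AddCommGroup (Q j)]
    [∀ j, Module (A g 1) (Q j)]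
    (hQ : ∀ j (n : ℕ) q, E0 (A g 1) (E g 1 n) (Q j) q)
    (dev : ∀ (X : Type) [AddCommGroup X] [Module (A g 1) X] (q : ℕ),
      (∀ j q', E0 (A g 1) X (Q j) q') → E0 (A g 1) X (Pv g 1 2) q → E0 (A g 1) X (A g 1) q)
    (j1 : κ) (π1 : Pv g 1 1 →ₗ[A g 1] Q j1) (ρπ : Function.Exact (EVA538.ρh hg 1) π1)
    (π1s : Function.Surjective π1) (q : ℕ) : E0 (A g 1) (V g 1 0) (A g 1) q :=
  nullV hg 1 (KPv1.rs1 hg) Q hQ dev
    (fun n f hf => N1B113.H0 (KPv1.d1 hg n) f hf)
    (fun n f hf => N1B113.H1 hg (KPv1.d1 hg n) (row2 hg n) f hf)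
    (fun n f hf => N1B113.H2 hg (row2 hg n) (row3 hg n) f hf)
    (fun n f hf => N1B113.k2 hg (row3 hg n) f hf)
    (fun n h => N1D538.c1 hg n h) j1 π1 ρπ π1s q

/-- **nullness, `s = 1`**, from the torsion quotients of 147 -/
theorem null1_lcq (hg : Gen g)
    (hQ : ∀ j (n : ℕ) q, E0 (A g 1) (E g 1 n) (Dev147.QT1 hg j) q) (q : ℕ) :
    E0 (A g 1) (V g 1 0) (A g 1) q :=
  null1_of hg (Dev147.QT1 hg) hQ (fun X _ _ q h h' => Dev147.dev1 hg X q h h') 0
    (Dev147.π1 hg 1) (Dev147.ρπ hg 1) (Dev147.π1_surj hg 1) q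

end Null275

end Crest.Agent.R186.B281
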