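import Crest.Agent.R186.NullDual_538

/-!
Row 186 (S0281), helper538: nullness of the chain against one column, without explicit lifts.
-/

set_option autoImplicit false

universe w v u

open CategoryTheory CategoryTheory.Abelian

namespace Crest.Agent.R186.NullChain538

section Abs

variable {C : Type u} [Category.{v} C] [Abelian C] [HasExt.{w} C]

/-- `Hom (X, E) → Ext³ (X, K3)`, composition with the class of the resolution, is injective -/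
theorem Res3.comp_cls_injective {E X : C} (R : Res3 E) (x0 : Subsingleton (Ext X R.K0 0))
    (x1 : Subsingleton (Ext X R.K1 1)) (x2 : Subsingleton (Ext X R.K2 2)) (a : X ⟶ E)
    (h : (Ext.mk₀ a).comp R.cls (zero_add 3) = 0) : a = 0 := by
  have h1 : (((Ext.mk₀ a).comp R.s1.extClass (zero_add 1)).comp R.s2.extClass
      (show 1 + 1 = 2 by rfl)).comp R.s3.extClass (show 2 + 1 = 3 by rfl) = 0 := by
    rw [← h, Res3.cls, Ext.comp_assoc (a₂₃ := 2) _ _ _ (by omega) (by omega) (by omega),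
      Ext.comp_assoc (a₂₃ := 3) _ _ _ (by omega) (by omega) (by omega)]
  obtain ⟨y2, hy2⟩ := Ext.covariant_sequence_exact₃ X R.s3 _ (show 2 + 1 = 3 by rfl) h1
  rw [Subsingleton.elim y2 0, Ext.zero_comp] at hy2
  obtain ⟨y1, hy1⟩ := Ext.covariant_sequence_exact₃ X R.s2 _ (show 1 + 1 = 2 by rfl) hy2.symm
  rw [Subsingleton.elim y1 0, Ext.zero_comp] at hy1
  obtain ⟨y0, hy0⟩ := Ext.covariant_sequence_exact₃ X R.s1 _ (show 0 + 1 = 1 by rfl) hy1.symm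
  rw [Subsingleton.elim y0 0, Ext.zero_comp] at hy0
  exact (Ext.mk₀_eq_zero_iff a).1 hy0.symm

/-- if the last lift factors through the differential, the map is zero -/
theorem Res3.eq_zero_of_factor {E E' : C} (R : Res3 E) (R' : Res3 E')
    (x0 : Subsingleton (Ext E' R.K0 0)) (x1 : Subsingleton (Ext E' R.K1 1))
    (x2 : Subsingleton (Ext E' R.K2 2)) (α : E' ⟶ E)
    (φ0 : R'.K0 ⟶ R.K0) (φ1 : R'.K1 ⟶ R.K1) (φ2 : R'.K2 ⟶ R.K2) (φ3 : R'.K3 ⟶ R.K3)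
    (c0 : R'.e ≫ α = φ0 ≫ R.e)
    (c1 : R'.q1 ≫ R'.j1 ≫ φ0 = φ1 ≫ R.q1 ≫ R.j1)
    (c2 : R'.q2 ≫ R'.j2 ≫ φ1 = φ2 ≫ R.q2 ≫ R.j2)
    (c3 : R'.d3 ≫ φ2 = φ3 ≫ R.d3) (h : R'.K2 ⟶ R.K3) (hh : R'.d3 ≫ h = φ3) : α = 0 := by
  refine R.comp_cls_injective x0 x1 x2 α ?_
  rw [Res3.cls_naturality R R' α φ0 φ1 φ2 φ3 c0 c1 c2 c3]
  exact (R'.comp_eq_zero_iff _).2 ⟨h, hh⟩

/-- **the null chain lemma** in terms of resolutions, Ext form -/
theorem null_of_res_x {V E : ℕ → C} (c : Chain V E) (R : ∀ n, Res3 (E n))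
    (φ0 : ∀ n, (R (n + 1)).K0 ⟶ (R n).K0) (φ1 : ∀ n, (R (n + 1)).K1 ⟶ (R n).K1)
    (φ2 : ∀ n, (R (n + 1)).K2 ⟶ (R n).K2) (φ3 : ∀ n, (R (n + 1)).K3 ⟶ (R n).K3)
    (c0 : ∀ n, (R (n + 1)).e ≫ c.a n = φ0 n ≫ (R n).e)
    (c1 : ∀ n, (R (n + 1)).q1 ≫ (R (n + 1)).j1 ≫ φ0 n = φ1 n ≫ (R n).q1 ≫ (R n).j1)
    (c2 : ∀ n, (R (n + 1)).q2 ≫ (R (n + 1)).j2 ≫ φ1 n = φ2 n ≫ (R n).q2 ≫ (R n).j2)
    (c3 : ∀ n, (R (n + 1)).d3 ≫ φ2 n = φ3 n ≫ (R n).d3) (Y : C)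
    (hx : ∀ n q, q ≠ 3 → Subsingleton (Ext (E n) Y q))
    (ha : ∀ (f : (R 0).K3 ⟶ Y) (h : (R 1).K2 ⟶ Y), (R 1).d3 ≫ h = φ3 0 ≫ f →
      ∃ h' : (R 0).K2 ⟶ Y, (R 0).d3 ≫ h' = f)
    (hb : ∀ n (f : (R (n + 1)).K3 ⟶ Y) (h : (R (n + 2)).K2 ⟶ Y),
      (R (n + 2)).d3 ≫ h = φ3 (n + 1) ≫ f →
      ∃ (g : (R n).K3 ⟶ Y) (h' : (R (n + 1)).K2 ⟶ Y), f = φ3 n ≫ g + (R (n + 1)).d3 ≫ h') :
    ∀ q, Subsingleton (Ext (V 0) Y q) := by
  have nat : ∀ n (f : (R n).K3 ⟶ Y), (Ext.mk₀ (c.a n)).comp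
      ((R n).cls.comp (Ext.mk₀ f) (add_zero 3)) (zero_add 3) =
      (R (n + 1)).cls.comp (Ext.mk₀ (φ3 n ≫ f)) (add_zero 3) := by
    intro n f
    rw [← Ext.comp_assoc (a₁₂ := 3) _ _ _ (by omega) (by omega) (by omega),
      Res3.cls_naturality (R n) (R (n + 1)) (c.a n) (φ0 n) (φ1 n) (φ2 n) (φ3 n) (c0 n) (c1 n)
        (c2 n) (c3 n),
      Ext.comp_assoc (a₂₃ := 0) _ _ _ (by omega) (by omega) (by omega), Ext.mk₀_comp_mk₀]
  refine null_of_chain' c Y 3 hx ?_ ?_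
  · intro x hx
    obtain ⟨f, rfl⟩ := (R 0).exists_rep x
    rw [nat, Res3.comp_eq_zero_iff] at hx
    obtain ⟨h, hh⟩ := hx
    rw [Res3.comp_eq_zero_iff]
    exact ha f h hh
  · intro n x hx
    obtain ⟨f, rfl⟩ := (R (n + 1)).exists_rep x
    rw [nat, Res3.comp_eq_zero_iff] at hx
    obtain ⟨h, hh⟩ := hx
    obtain ⟨g, h', e⟩ := hb n f h hh
    refine ⟨(R n).cls.comp (Ext.mk₀ g) (add_zero 3), ?_⟩
    rw [nat, e, Ext.mk₀_add, Ext.comp_add, ((R (n + 1)).comp_eq_zero_iff _).2 ⟨h', rfl⟩, add_zero]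

end Abs

section Mod

variable {A : Type u} [Ring A] {V E : ℕ → Type u} [∀ n, AddCommGroup (V n)] [∀ n, Module A (V n)]
  [∀ n, AddCommGroup (E n)] [∀ n, Module A (E n)]

/-- **the null chain lemma** for modules, Ext form -/
theorem null_of_chain_x (i : ∀ n, V (n + 1) →ₗ[A] E n) (p : ∀ n, E n →ₗ[A] V n)
    (hi : ∀ n, Function.Injective (i n)) (hp : ∀ n, Function.Surjective (p n))
    (hex : ∀ n, Function.Exact (i n) (p n)) (R : ∀ n, MRes A (E n))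
    (φ0 : ∀ n, (R (n + 1)).K0 →ₗ[A] (R n).K0) (φ1 : ∀ n, (R (n + 1)).K1 →ₗ[A] (R n).K1)
    (φ2 : ∀ n, (R (n + 1)).K2 →ₗ[A] (R n).K2) (φ3 : ∀ n, (R (n + 1)).K3 →ₗ[A] (R n).K3)
    (c0 : ∀ n x, i n (p (n + 1) ((R (n + 1)).e x)) = (R n).e (φ0 n x))
    (c1 : ∀ n x, φ0 n ((R (n + 1)).d1 x) = (R n).d1 (φ1 n x))
    (c2 : ∀ n x, φ1 n ((R (n + 1)).d2 x) = (R n).d2 (φ2 n x))
    (c3 : ∀ n x, φ2 n ((R (n + 1)).d3 x) = (R n).d3 (φ3 n x))
    (Y : Type u) [AddCommGroup Y] [Module A Y]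
    (hx : ∀ n q, q ≠ 3 → Subsingleton (Ext (ModuleCat.of A (E n)) (ModuleCat.of A Y) q))
    (ha : ∀ (f : (R 0).K3 →ₗ[A] Y) (h : (R 1).K2 →ₗ[A] Y), h ∘ₗ (R 1).d3 = f ∘ₗ φ3 0 →
      ∃ h' : (R 0).K2 →ₗ[A] Y, h' ∘ₗ (R 0).d3 = f)
    (hb : ∀ n (f : (R (n + 1)).K3 →ₗ[A] Y) (h : (R (n + 2)).K2 →ₗ[A] Y),
      h ∘ₗ (R (n + 2)).d3 = f ∘ₗ φ3 (n + 1) →
      ∃ (g : (R n).K3 →ₗ[A] Y) (h' : (R (n + 1)).K2 →ₗ[A] Y),
        f = g ∘ₗ φ3 n + h' ∘ₗ (R (n + 1)).d3) (q : ℕ) :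
    Subsingleton (Ext (ModuleCat.of A (V 0)) (ModuleCat.of A Y) q) := by
  refine null_of_res_x (mchain i p hi hp hex) (fun n => (R n).toRes3)
    (fun n => ModuleCat.ofHom (φ0 n)) (fun n => ModuleCat.ofHom (φ1 n))
    (fun n => ModuleCat.ofHom (φ2 n)) (fun n => ModuleCat.ofHom (φ3 n))
    ?_ ?_ ?_ ?_ (ModuleCat.of A Y) hx ?_ ?_ q
  · intro n; apply ModuleCat.hom_ext; ext x; exact c0 n x
  · intro n; apply ModuleCat.hom_ext; ext x; exact c1 n x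
  · intro n; apply ModuleCat.hom_ext; ext x; exact c2 n x
  · intro n; apply ModuleCat.hom_ext; ext x; exact c3 n x
  · intro f h hh
    obtain ⟨h', e⟩ := ha f.hom h.hom (by
      ext x; exact congrArg (fun g => (ModuleCat.Hom.hom g) x) hh)
    refine ⟨ModuleCat.ofHom h', ?_⟩
    apply ModuleCat.hom_ext
    ext x
    exact congrArg (fun g => g x) e
  · intro n f h hh
    obtain ⟨g, h', e⟩ := hb n f.hom h.hom (by
      ext x; exact congrArg (fun g => (ModuleCat.Hom.hom g) x) hh)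
    refine ⟨ModuleCat.ofHom g, ModuleCat.ofHom h', ?_⟩
    apply ModuleCat.hom_ext
    ext x
    exact congrArg (fun g => g x) e

/-- if the last lift factors through the differential, the map is zero (modules) -/
theorem MRes.eq_zero_of_factor {E E' : Type u} [AddCommGroup E] [Module A E] [AddCommGroup E']
    [Module A E'] (R : MRes A E) (R' : MRes A E')
    (x0 : Subsingleton (Ext (ModuleCat.of A E') (ModuleCat.of A R.K0) 0))
    (x1 : Subsingleton (Ext (ModuleCat.of A E') (ModuleCat.of A R.K1) 1))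
    (x2 : Subsingleton (Ext (ModuleCat.of A E') (ModuleCat.of A R.K2) 2)) (α : E' →ₗ[A] E)
    (φ0 : R'.K0 →ₗ[A] R.K0) (φ1 : R'.K1 →ₗ[A] R.K1) (φ2 : R'.K2 →ₗ[A] R.K2)
    (φ3 : R'.K3 →ₗ[A] R.K3) (c0 : ∀ x, α (R'.e x) = R.e (φ0 x))
    (c1 : ∀ x, φ0 (R'.d1 x) = R.d1 (φ1 x)) (c2 : ∀ x, φ1 (R'.d2 x) = R.d2 (φ2 x))
    (c3 : ∀ x, φ2 (R'.d3 x) = R.d3 (φ3 x)) (h : R'.K2 →ₗ[A] R.K3) (hh : h ∘ₗ R'.d3 = φ3) :
    α = 0 := by
  have h5 := Res3.eq_zero_of_factor R.toRes3 R'.toRes3 x0 x1 x2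
    (ModuleCat.ofHom α) (ModuleCat.ofHom φ0) (ModuleCat.ofHom φ1) (ModuleCat.ofHom φ2)
    (ModuleCat.ofHom φ3)
    (by apply ModuleCat.hom_ext; ext x; exact c0 x)
    (by apply ModuleCat.hom_ext; ext x; exact c1 x)
    (by apply ModuleCat.hom_ext; ext x; exact c2 x)
    (by apply ModuleCat.hom_ext; ext x; exact c3 x)
    (ModuleCat.ofHom h)
    (by apply ModuleCat.hom_ext; ext x; exact congrArg (fun g => g x) hh)
  ext x
  exact congrArg (fun g => (ModuleCat.Hom.hom g) x) h5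

end Mod

section Col

variable {A : Type u} [Ring A] {V E : ℕ → Type u} [∀ n, AddCommGroup (V n)] [∀ n, Module A (V n)]
  [∀ n, AddCommGroup (E n)] [∀ n, Module A (E n)]
  {k : Type*} [CommRing k] {P1 P2 : Type u} [AddCommGroup P1] [Module A P1] [Module k P1]
  [SMulCommClass A k P1] [AddCommGroup P2] [Module A P2] [Module k P2] [SMulCommClass A k P2]

/-- **nullness against one column `P2`** : no lifts, a second column `P1` and operators `T`. -/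
theorem null_of_col (i : ∀ n, V (n + 1) →ₗ[A] E n) (p : ∀ n, E n →ₗ[A] V n)
    (hi : ∀ n, Function.Injective (i n)) (hp : ∀ n, Function.Surjective (p n))
    (hex : ∀ n, Function.Exact (i n) (p n)) (hV : ∀ n, Nontrivial (V (n + 1)))
    (R : ∀ n, MRes A (E n))
    (x0 : ∀ n, Subsingleton (Ext (ModuleCat.of A (E (n + 1))) (ModuleCat.of A (R n).K0) 0))
    (x1 : ∀ n, Subsingleton (Ext (ModuleCat.of A (E (n + 1))) (ModuleCat.of A (R n).K1) 1))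
    (x2 : ∀ n, Subsingleton (Ext (ModuleCat.of A (E (n + 1))) (ModuleCat.of A (R n).K2) 2))
    (hx : ∀ n q, q ≠ 3 → Subsingleton (Ext (ModuleCat.of A (E n)) (ModuleCat.of A P2) q))
    (ret : ∀ n, ∃ (m : ℕ) (s : (R n).K3 →ₗ[A] (Fin m → P2)) (r : (Fin m → P2) →ₗ[A] (R n).K3),
      r ∘ₗ s = LinearMap.id)
    {ι : Type*} (ρh : P2 →ₗ[A] P1) (ρ : ι → P2 →ₗ[A] P1)
    (C : ℕ → Type*) [∀ n, AddCommGroup (C n)] [∀ n, Module k (C n)]
    (T : ∀ n, ι → C n →ₗ[k] C n)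
    (ev2 : ∀ n, ((R n).K3 →ₗ[A] P2) →ₗ[k] C n) (ev1 : ∀ n, ((R n).K3 →ₗ[A] P1) →ₗ[k] C n)
    (s2 : ∀ n, Function.Surjective (ev2 n))
    (k2 : ∀ n f, ev2 n f = 0 ↔ ∃ h : (R n).K2 →ₗ[A] P2, h ∘ₗ (R n).d3 = f)
    (k1 : ∀ n f, ev1 n f = 0 ↔ ∃ h : (R n).K2 →ₗ[A] P1, h ∘ₗ (R n).d3 = f)
    (eh : ∀ n f, ev1 n (ρh ∘ₗ f) = ev2 n f)
    (et : ∀ n t f, ev1 n (ρ t ∘ₗ f) = T n t (ev2 n f))
    (S : ∀ n, Submodule k (C n)) (S0 : S 0 = ⊥)
    (brick : ∀ n (δ : C n →ₗ[k] C (n + 1)), δ ≠ 0 → (∀ t c, δ (T n t c) = T (n + 1) t (δ c)) →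
      LinearMap.ker δ = S n ∧ LinearMap.range δ = S (n + 1)) (q : ℕ) :
    Subsingleton (Ext (ModuleCat.of A (V 0)) (ModuleCat.of A P2) q) := by
  choose φ0 φ1 φ2 φ3 c0 c1 c2 c3 using fun n => exists_lifts (R n) (R (n + 1)) (i n ∘ₗ p (n + 1))
  -- well-definedness of the induced maps
  have wd2 : ∀ n f, ev2 n f = 0 → ev2 (n + 1) (f ∘ₗ φ3 n) = 0 := by
    intro n f hf
    obtain ⟨h, rfl⟩ := (k2 n f).1 hf
    exact (k2 (n + 1) _).2 ⟨h ∘ₗ φ2 n, by rw [LinearMap.comp_assoc, LinearMap.comp_assoc, c3]⟩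
  have wd1 : ∀ n f, ev1 n f = 0 → ev1 (n + 1) (f ∘ₗ φ3 n) = 0 := by
    intro n f hf
    obtain ⟨h, rfl⟩ := (k1 n f).1 hf
    exact (k1 (n + 1) _).2 ⟨h ∘ₗ φ2 n, by rw [LinearMap.comp_assoc, LinearMap.comp_assoc, c3]⟩
  have ex : ∀ n, ∃ δ : C n →ₗ[k] C (n + 1), ∀ f, δ (ev2 n f) = ev2 (n + 1) (f ∘ₗ φ3 n) := by
    intro n
    choose s hs using s2 n
    have key : ∀ f, ev2 (n + 1) (s (ev2 n f) ∘ₗ φ3 n) = ev2 (n + 1) (f ∘ₗ φ3 n) := by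
      intro f
      rw [← sub_eq_zero, ← map_sub, ← LinearMap.sub_comp]
      exact wd2 n _ (by rw [map_sub, hs, sub_self])
    refine ⟨{ toFun := fun c => ev2 (n + 1) (s c ∘ₗ φ3 n), map_add' := ?_, map_smul' := ?_ }, ?_⟩
    · intro c c'
      have : ev2 n (s c + s c') = c + c' := by rw [map_add, hs, hs]
      rw [← this, key, LinearMap.add_comp, map_add]
    · intro r c
      have : ev2 n (r • s c) = r • c := by rw [map_smul, hs]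
      rw [← this, key, RingHom.id_apply, ← map_smul]
      rfl
    · exact key
  choose δ hδ using ex
  -- the induced map on the first column, on the values we need
  have hδ1 : ∀ n (g : (R n).K3 →ₗ[A] P1), δ n (ev1 n g) = ev1 (n + 1) (g ∘ₗ φ3 n) := by
    intro n g
    obtain ⟨f, hf⟩ := s2 n (ev1 n g)
    rw [← hf, hδ, ← eh, ← sub_eq_zero, ← LinearMap.comp_assoc, ← map_sub, ← LinearMap.sub_comp]
    exact wd1 n _ (by rw [map_sub, eh, hf, sub_self])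
  have comm : ∀ n t c, δ n (T n t c) = T (n + 1) t (δ n c) := by
    intro n t c
    obtain ⟨f, rfl⟩ := s2 n c
    rw [← et, hδ1, hδ, ← et, LinearMap.comp_assoc]
  have nz : ∀ n, δ n ≠ 0 := by
    intro n hn
    have hf : ∀ f : (R n).K3 →ₗ[A] P2, ∃ g : (R (n + 1)).K2 →ₗ[A] P2,
        g ∘ₗ (R (n + 1)).d3 = f ∘ₗ φ3 n := by
      intro f
      rw [← k2, ← hδ, hn, LinearMap.zero_apply]
    obtain ⟨m, s, r, hrs⟩ := ret n
    choose g hg using fun j => hf (LinearMap.proj j ∘ₗ s)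
    have h2 : LinearMap.pi g ∘ₗ (R (n + 1)).d3 = s ∘ₗ φ3 n := by
      ext x j
      exact congrArg (fun g => g x) (hg j)
    have h3 : (r ∘ₗ LinearMap.pi g) ∘ₗ (R (n + 1)).d3 = φ3 n := by
      rw [LinearMap.comp_assoc, h2, ← LinearMap.comp_assoc, hrs, LinearMap.id_comp]
    have hz : i n ∘ₗ p (n + 1) = 0 :=
      (R n).eq_zero_of_factor (R (n + 1)) (x0 n) (x1 n) (x2 n) _ (φ0 n) (φ1 n) (φ2 n) (φ3 n)
        (fun x => (congrArg (fun g => g x) (c0 n)).symm)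
        (fun x => (congrArg (fun g => g x) (c1 n)).symm)
        (fun x => (congrArg (fun g => g x) (c2 n)).symm)
        (fun x => (congrArg (fun g => g x) (c3 n)).symm) _ h3
    obtain ⟨v, hv⟩ := exists_ne (0 : V (n + 1))
    obtain ⟨x, rfl⟩ := hp (n + 1) v
    refine hv (hi n ?_)
    rw [map_zero]
    exact congrArg (fun g => g x) hz
  refine null_of_chain_x i p hi hp hex R φ0 φ1 φ2 φ3
    (fun n x => (congrArg (fun g => g x) (c0 n)).symm)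
    (fun n x => (congrArg (fun g => g x) (c1 n)).symm)
    (fun n x => (congrArg (fun g => g x) (c2 n)).symm)
    (fun n x => (congrArg (fun g => g x) (c3 n)).symm) P2 hx ?_ ?_ q
  · intro f h hh
    have e2 : ev2 0 f ∈ LinearMap.ker (δ 0) := by
      rw [LinearMap.mem_ker, hδ]
      exact (k2 1 _).2 ⟨h, hh⟩
    rw [(brick 0 _ (nz 0) (comm 0)).1, S0, Submodule.mem_bot] at e2
    exact (k2 0 f).1 e2
  · intro n f h hh
    have e2 : ev2 (n + 1) f ∈ LinearMap.ker (δ (n + 1)) := by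
      rw [LinearMap.mem_ker, hδ]
      exact (k2 (n + 2) _).2 ⟨h, hh⟩
    rw [(brick (n + 1) _ (nz (n + 1)) (comm (n + 1))).1, ← (brick n _ (nz n) (comm n)).2] at e2
    obtain ⟨c, hc⟩ := e2
    obtain ⟨g, rfl⟩ := s2 n c
    rw [hδ] at hc
    obtain ⟨h', e⟩ := (k2 (n + 1) (f - g ∘ₗ φ3 n)).1 (by rw [map_sub, hc, sub_self])
    exact ⟨g, h', by rw [e, add_sub_cancel]⟩

end Col

end Crest.Agent.R186.NullChain538
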