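import Crest.Agent.R186.NullChain_538

/-!
Row 186 (S0281), helper538: nullness of the chain without explicit lifts (`null_of_dual`).
-/

set_option autoImplicit false

universe u

open CategoryTheory CategoryTheory.Abelian

namespace Crest.Agent.R186.NullChain538

section Retract

variable {A : Type u} [Ring A]

/-- a finite projective module is a retract of a finite free module -/
theorem exists_retract (P : Type u) [AddCommGroup P] [Module A P] [Module.Finite A P]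
    [Module.Projective A P] :
    ∃ (m : ℕ) (s : P →ₗ[A] (Fin m → A)) (r : (Fin m → A) →ₗ[A] P), r ∘ₗ s = LinearMap.id := by
  obtain ⟨m, r, hr⟩ := Module.Finite.exists_fin' A P
  obtain ⟨s, hs⟩ := Module.projective_lifting_property r LinearMap.id hr
  exact ⟨m, s, r, hs⟩

variable {E : Type u} [AddCommGroup E] [Module A E] {R : MRes A E}

theorem MRes.H0.fp (h : R.H0 A) (P : Type u) [AddCommGroup P] [Module A P] [Module.Finite A P]
    [Module.Projective A P] : R.H0 P := by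
  obtain ⟨m, s, r, hrs⟩ := exists_retract (A := A) P
  intro f hf
  have h1 : s ∘ₗ f = 0 := by
    ext x j
    have := h (LinearMap.proj j ∘ₗ s ∘ₗ f) (by
      rw [LinearMap.comp_assoc, LinearMap.comp_assoc, hf, LinearMap.comp_zero,
        LinearMap.comp_zero])
    exact congrArg (fun g => g x) this
  calc f = (r ∘ₗ s) ∘ₗ f := by rw [hrs, LinearMap.id_comp]
    _ = 0 := by rw [LinearMap.comp_assoc, h1, LinearMap.comp_zero]

theorem MRes.H1.fp (h : R.H1 A) (P : Type u) [AddCommGroup P] [Module A P] [Module.Finite A P]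
    [Module.Projective A P] : R.H1 P := by
  obtain ⟨m, s, r, hrs⟩ := exists_retract (A := A) P
  intro f hf
  have h1 : ∀ j, ∃ g : R.K0 →ₗ[A] A, g ∘ₗ R.d1 = LinearMap.proj j ∘ₗ s ∘ₗ f := fun j =>
    h (LinearMap.proj j ∘ₗ s ∘ₗ f) (by
      rw [LinearMap.comp_assoc, LinearMap.comp_assoc, hf, LinearMap.comp_zero,
        LinearMap.comp_zero])
  choose g hg using h1
  refine ⟨r ∘ₗ LinearMap.pi g, ?_⟩
  have h2 : LinearMap.pi g ∘ₗ R.d1 = s ∘ₗ f := by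
    ext x j
    exact congrArg (fun g => g x) (hg j)
  rw [LinearMap.comp_assoc, h2, ← LinearMap.comp_assoc, hrs, LinearMap.id_comp]

theorem MRes.H2.fp (h : R.H2 A) (P : Type u) [AddCommGroup P] [Module A P] [Module.Finite A P]
    [Module.Projective A P] : R.H2 P := by
  obtain ⟨m, s, r, hrs⟩ := exists_retract (A := A) P
  intro f hf
  have h1 : ∀ j, ∃ g : R.K1 →ₗ[A] A, g ∘ₗ R.d2 = LinearMap.proj j ∘ₗ s ∘ₗ f := fun j =>
    h (LinearMap.proj j ∘ₗ s ∘ₗ f) (by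
      rw [LinearMap.comp_assoc, LinearMap.comp_assoc, hf, LinearMap.comp_zero,
        LinearMap.comp_zero])
  choose g hg using h1
  refine ⟨r ∘ₗ LinearMap.pi g, ?_⟩
  have h2 : LinearMap.pi g ∘ₗ R.d2 = s ∘ₗ f := by
    ext x j
    exact congrArg (fun g => g x) (hg j)
  rw [LinearMap.comp_assoc, h2, ← LinearMap.comp_assoc, hrs, LinearMap.id_comp]

/-- a map into a finite projective module extends along `d3` if its coordinates do -/
theorem extends_fp {K2 K3 : Type u} [AddCommGroup K2] [Module A K2] [AddCommGroup K3]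
    [Module A K3] (d3 : K3 →ₗ[A] K2) (P : Type u) [AddCommGroup P] [Module A P]
    [Module.Finite A P] [Module.Projective A P] (φ : K3 →ₗ[A] P)
    (h : ∀ f : P →ₗ[A] A, ∃ g : K2 →ₗ[A] A, g ∘ₗ d3 = f ∘ₗ φ) :
    ∃ ψ : K2 →ₗ[A] P, ψ ∘ₗ d3 = φ := by
  obtain ⟨m, s, r, hrs⟩ := exists_retract (A := A) P
  choose g hg using fun j => h (LinearMap.proj j ∘ₗ s)
  refine ⟨r ∘ₗ LinearMap.pi g, ?_⟩
  have h2 : LinearMap.pi g ∘ₗ d3 = s ∘ₗ φ := by
    ext x j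
    exact congrArg (fun g => g x) (hg j)
  rw [LinearMap.comp_assoc, h2, ← LinearMap.comp_assoc, hrs, LinearMap.id_comp]

end Retract

section Lifts

variable {A : Type u} [Ring A]

/-- a map from a projective module into the image of an exact pair lifts -/
theorem lift_exact {P X Y Z : Type u} [AddCommGroup P] [Module A P] [AddCommGroup X] [Module A X]
    [AddCommGroup Y] [Module A Y] [AddCommGroup Z] [Module A Z] [Module.Projective A P]
    (f : X →ₗ[A] Y) (g : Y →ₗ[A] Z) (h : Function.Exact f g) (φ : P →ₗ[A] Y)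
    (hφ : g ∘ₗ φ = 0) : ∃ ψ : P →ₗ[A] X, f ∘ₗ ψ = φ := by
  have hr : ∀ x, φ x ∈ LinearMap.range f := fun x => (h (φ x)).1 (congrArg (fun g => g x) hφ)
  obtain ⟨ψ, hψ⟩ := Module.projective_lifting_property f.rangeRestrict
    (φ.codRestrict (LinearMap.range f) hr) f.surjective_rangeRestrict
  refine ⟨ψ, ?_⟩
  ext x
  exact congrArg Subtype.val (congrArg (fun g => g x) hψ)

/-- lifts of a map between resolved modules -/
theorem exists_lifts {E E' : Type u} [AddCommGroup E] [Module A E] [AddCommGroup E'] [Module A E']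
    (R : MRes A E) (R' : MRes A E') (a : E' →ₗ[A] E) :
    ∃ (φ0 : R'.K0 →ₗ[A] R.K0) (φ1 : R'.K1 →ₗ[A] R.K1) (φ2 : R'.K2 →ₗ[A] R.K2)
      (φ3 : R'.K3 →ₗ[A] R.K3), R.e ∘ₗ φ0 = a ∘ₗ R'.e ∧ R.d1 ∘ₗ φ1 = φ0 ∘ₗ R'.d1 ∧
      R.d2 ∘ₗ φ2 = φ1 ∘ₗ R'.d2 ∧ R.d3 ∘ₗ φ3 = φ2 ∘ₗ R'.d3 := by
  have := R'.p0
  have := R'.p1
  have := R'.p2
  have := R'.p3
  obtain ⟨φ0, h0⟩ := Module.projective_lifting_property R.e (a ∘ₗ R'.e) R.surj
  obtain ⟨φ1, h1⟩ := lift_exact R.d1 R.e R.ex0 (φ0 ∘ₗ R'.d1) (by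
    rw [← LinearMap.comp_assoc, h0, LinearMap.comp_assoc, R'.ex0.linearMap_comp_eq_zero,
      LinearMap.comp_zero])
  obtain ⟨φ2, h2⟩ := lift_exact R.d2 R.d1 R.ex1 (φ1 ∘ₗ R'.d2) (by
    rw [← LinearMap.comp_assoc, h1, LinearMap.comp_assoc, R'.ex1.linearMap_comp_eq_zero,
      LinearMap.comp_zero])
  obtain ⟨φ3, h3⟩ := lift_exact R.d3 R.d2 R.ex2 (φ2 ∘ₗ R'.d3) (by
    rw [← LinearMap.comp_assoc, h2, LinearMap.comp_assoc, R'.ex2.linearMap_comp_eq_zero,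
      LinearMap.comp_zero])
  exact ⟨φ0, φ1, φ2, φ3, h0, h1, h2, h3⟩

end Lifts

section Dual

variable {A : Type u} [Ring A]

/-- if `φ3` extends along `d3` then the map of modules is zero -/
theorem map_eq_zero {E E' : Type u} [AddCommGroup E] [Module A E] [AddCommGroup E'] [Module A E']
    (R : MRes A E) (R' : MRes A E') [Module.Finite A R.K0] [Module.Finite A R.K1]
    [Module.Finite A R.K2] [Module.Finite A R.K3] (h0 : R'.H0 A) (h1 : R'.H1 A) (h2 : R'.H2 A)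
    (a : E' →ₗ[A] E)
    (φ0 : R'.K0 →ₗ[A] R.K0) (φ1 : R'.K1 →ₗ[A] R.K1) (φ2 : R'.K2 →ₗ[A] R.K2)
    (φ3 : R'.K3 →ₗ[A] R.K3) (c0 : R.e ∘ₗ φ0 = a ∘ₗ R'.e) (c1 : R.d1 ∘ₗ φ1 = φ0 ∘ₗ R'.d1)
    (c2 : R.d2 ∘ₗ φ2 = φ1 ∘ₗ R'.d2) (c3 : R.d3 ∘ₗ φ3 = φ2 ∘ₗ R'.d3)
    (h : ∀ f : R.K3 →ₗ[A] A, ∃ g : R'.K2 →ₗ[A] A, g ∘ₗ R'.d3 = f ∘ₗ φ3) : a = 0 := by
  have := R.p0
  have := R.p1
  have := R.p2
  have := R.p3
  obtain ⟨ψ3, e3⟩ := extends_fp R'.d3 R.K3 φ3 h
  obtain ⟨ψ2, e2⟩ := h2.fp R.K2 (φ2 - R.d3 ∘ₗ ψ3) (by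
    rw [LinearMap.sub_comp, LinearMap.comp_assoc, e3, c3, sub_self])
  obtain ⟨ψ1, e1⟩ := h1.fp R.K1 (φ1 - R.d2 ∘ₗ ψ2) (by
    rw [LinearMap.sub_comp, LinearMap.comp_assoc, e2, LinearMap.comp_sub, c2,
      ← LinearMap.comp_assoc, R.ex2.linearMap_comp_eq_zero,
      LinearMap.zero_comp, sub_zero, sub_self])
  have e0 := h0.fp R.K0 (φ0 - R.d1 ∘ₗ ψ1) (by
    rw [LinearMap.sub_comp, LinearMap.comp_assoc, e1, LinearMap.comp_sub, c1,
      ← LinearMap.comp_assoc, R.ex1.linearMap_comp_eq_zero,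
      LinearMap.zero_comp, sub_zero, sub_self])
  have e : a ∘ₗ R'.e = 0 := by
    rw [← c0, sub_eq_zero.1 e0, ← LinearMap.comp_assoc, R.ex0.linearMap_comp_eq_zero,
      LinearMap.zero_comp]
  ext x
  obtain ⟨y, rfl⟩ := R'.surj x
  exact congrArg (fun g => g y) e

variable {V E : ℕ → Type u} [∀ n, AddCommGroup (V n)] [∀ n, Module A (V n)]
  [∀ n, AddCommGroup (E n)] [∀ n, Module A (E n)]

open MulOpposite in
/-- **nullness of the chain without explicit lifts** -/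
theorem null_of_dual (i : ∀ n, V (n + 1) →ₗ[A] E n) (p : ∀ n, E n →ₗ[A] V n)
    (hi : ∀ n, Function.Injective (i n)) (hp : ∀ n, Function.Surjective (p n))
    (hex : ∀ n, Function.Exact (i n) (p n)) (hV : ∀ n, Nontrivial (V (n + 1)))
    (R : ∀ n, MRes A (E n)) (f0 : ∀ n, Module.Finite A (R n).K0)
    (f1 : ∀ n, Module.Finite A (R n).K1) (f2 : ∀ n, Module.Finite A (R n).K2)
    (f3 : ∀ n, Module.Finite A (R n).K3)
    (h0 : ∀ n, (R n).H0 A) (h1 : ∀ n, (R n).H1 A) (h2 : ∀ n, (R n).H2 A)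
    (C : ℕ → Type*) [∀ n, AddCommGroup (C n)] [∀ n, Module Aᵐᵒᵖ (C n)]
    (ev : ∀ n, ((R n).K3 →ₗ[A] A) →ₗ[Aᵐᵒᵖ] C n) (evs : ∀ n, Function.Surjective (ev n))
    (ev0 : ∀ n (h : (R n).K2 →ₗ[A] A), ev n (h ∘ₗ (R n).d3) = 0)
    (ev1 : ∀ n (f : (R n).K3 →ₗ[A] A), ev n f = 0 → ∃ h : (R n).K2 →ₗ[A] A, h ∘ₗ (R n).d3 = f)
    (S : ∀ n, Submodule Aᵐᵒᵖ (C n)) (S0 : S 0 = ⊥)
    (brick : ∀ n (δ : C n →ₗ[Aᵐᵒᵖ] C (n + 1)), δ ≠ 0 →
      LinearMap.ker δ = S n ∧ LinearMap.range δ = S (n + 1)) (q : ℕ) :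
    Subsingleton (Ext (ModuleCat.of A (V 0)) (ModuleCat.of A A) q) := by
  choose φ0 φ1 φ2 φ3 c0 c1 c2 c3 using fun n => exists_lifts (R n) (R (n + 1)) (i n ∘ₗ p (n + 1))
  -- the induced maps
  have ker_ev : ∀ n f, ev n f = 0 ↔ ∃ h : (R n).K2 →ₗ[A] A, h ∘ₗ (R n).d3 = f := fun n f =>
    ⟨ev1 n f, by rintro ⟨h, rfl⟩; exact ev0 n h⟩
  have wd : ∀ n f, ev n f = 0 → ev (n + 1) (f ∘ₗ φ3 n) = 0 := by
    intro n f hf
    obtain ⟨h, rfl⟩ := ev1 n f hf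
    rw [LinearMap.comp_assoc, c3, ← LinearMap.comp_assoc]
    exact ev0 (n + 1) _
  have ex : ∀ n, ∃ δ : C n →ₗ[Aᵐᵒᵖ] C (n + 1), ∀ f, δ (ev n f) = ev (n + 1) (f ∘ₗ φ3 n) := by
    intro n
    choose s hs using evs n
    have key : ∀ f, ev (n + 1) (s (ev n f) ∘ₗ φ3 n) = ev (n + 1) (f ∘ₗ φ3 n) := by
      intro f
      rw [← sub_eq_zero, ← map_sub, ← LinearMap.sub_comp]
      exact wd n _ (by rw [map_sub, hs, sub_self])
    refine ⟨{ toFun := fun c => ev (n + 1) (s c ∘ₗ φ3 n), map_add' := ?_, map_smul' := ?_ }, ?_⟩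
    · intro c c'
      have : ev n (s c + s c') = c + c' := by rw [map_add, hs, hs]
      rw [← this, key, LinearMap.add_comp, map_add]
    · intro r c
      have : ev n (r • s c) = r • c := by rw [map_smul, hs]
      rw [← this, key, RingHom.id_apply, ← map_smul]
      rfl
    · exact key
  choose δ hδ using ex
  have nz : ∀ n, δ n ≠ 0 := by
    intro n hn
    have := f0 n
    have := f1 n
    have := f2 n
    have := f3 n
    have hz := map_eq_zero (R n) (R (n + 1)) (h0 _) (h1 _) (h2 _) (i n ∘ₗ p (n + 1)) (φ0 n) (φ1 n)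
      (φ2 n) (φ3 n) (c0 n) (c1 n) (c2 n) (c3 n) (by
        intro f
        rw [← ker_ev, ← hδ, hn, LinearMap.zero_apply])
    obtain ⟨v, hv⟩ := exists_ne (0 : V (n + 1))
    obtain ⟨x, rfl⟩ := hp (n + 1) v
    refine hv (hi n ?_)
    rw [map_zero]
    exact congrArg (fun g => g x) hz
  refine null_of_chain i p hi hp hex R φ0 φ1 φ2 φ3 ?_ ?_ ?_ ?_ A h0 h1 h2 ?_ ?_ q
  · intro n x; exact (congrArg (fun g => g x) (c0 n)).symm
  · intro n x; exact (congrArg (fun g => g x) (c1 n)).symm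
  · intro n x; exact (congrArg (fun g => g x) (c2 n)).symm
  · intro n x; exact (congrArg (fun g => g x) (c3 n)).symm
  · intro f h hh
    have e : δ 0 (ev 0 f) = 0 := by rw [hδ, ker_ev]; exact ⟨h, hh⟩
    have e' : ev 0 f ∈ LinearMap.ker (δ 0) := e
    rw [(brick 0 _ (nz 0)).1, S0, Submodule.mem_bot, ker_ev] at e'
    exact e'
  · intro n f h hh
    have e : δ (n + 1) (ev (n + 1) f) = 0 := by rw [hδ, ker_ev]; exact ⟨h, hh⟩
    have e' : ev (n + 1) f ∈ LinearMap.ker (δ (n + 1)) := e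
    rw [(brick (n + 1) _ (nz (n + 1))).1, ← (brick n _ (nz n)).2] at e'
    obtain ⟨c, hc⟩ := e'
    obtain ⟨g, rfl⟩ := evs n c
    rw [hδ] at hc
    obtain ⟨h', hh'⟩ := ev1 (n + 1) (f - g ∘ₗ φ3 n) (by rw [map_sub, hc, sub_self])
    exact ⟨g, h', by rw [hh', add_sub_cancel]⟩

end Dual

end Crest.Agent.R186.NullChain538
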