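import Crest.Agent.R186.NullCol_538
import Crest.Agent.R186.ExtRes_700

/-!
Row 186 (S0281), helper538: the abstract assembly of the nullness `Ext (V 0, A) = 0`.

* `tor` : for `0 → P → P' → Q → 0` with `Ext (X, Q) = 0`, `Ext (X, P) = 0 ↔ Ext (X, P') = 0`;
* `cols0`, `cols1` : the four sequences of the columns, `s = 0` and `s = 1`;
* `null_base` : the nullness from the column `P2 = A e_{O(-2)}`, the values `ev1` on the column
  `P1 = A e_{O(-1)}` and the torsion quotients.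
-/

set_option autoImplicit false

universe u

open CategoryTheory CategoryTheory.Abelian

namespace Crest.Agent.R186.NullJoin538

open NullChain538 ExtRes700

variable {A : Type u} [Ring A]

section Tor

variable {P P' Q : Type u} [AddCommGroup P] [Module A P] [AddCommGroup P'] [Module A P']
  [AddCommGroup Q] [Module A Q]

/-- a short exact sequence of modules -/
structure SES (i : P →ₗ[A] P') (π : P' →ₗ[A] Q) : Prop where
  inj : Function.Injective i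
  surj : Function.Surjective π
  exact : Function.Exact i π

/-- the torsion step -/
theorem tor {i : P →ₗ[A] P'} {π : P' →ₗ[A] Q} (h : SES i π) {X : Type u} [AddCommGroup X]
    [Module A X] (hQ : ∀ q, E0 A X Q q) (q : ℕ) : E0 A X P q ↔ E0 A X P' q := by
  constructor
  · intro h1
    exact cmid i π h.inj h.surj h.exact q h1 (hQ q)
  · intro h1
    cases q with
    | zero => exact cleft0 i h.inj h1
    | succ q => exact cleft i π h.inj h.surj h.exact q (hQ q) h1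

theorem prod_iff {X Y Y' : Type u} [AddCommGroup X] [Module A X] [AddCommGroup Y] [Module A Y]
    [AddCommGroup Y'] [Module A Y'] (q : ℕ) :
    E0 A X (Y × Y') q ↔ E0 A X Y q ∧ E0 A X Y' q := by
  constructor
  · intro h
    exact ⟨retract_right (LinearMap.inl A Y Y') (LinearMap.fst A Y Y') (by ext x; rfl) q h,
      retract_right (LinearMap.inr A Y Y') (LinearMap.snd A Y Y') (by ext x; rfl) q h⟩
  · rintro ⟨h, h'⟩
    exact prod_right q h h'

end Tor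

section Cols

variable {O0 O1 O2 K1 K2 : Type u} [AddCommGroup O0] [Module A O0] [AddCommGroup O1] [Module A O1]
  [AddCommGroup O2] [Module A O2] [AddCommGroup K1] [Module A K1] [AddCommGroup K2] [Module A K2]
  {Q1 Q2 Q3 Q4 : Type u} [AddCommGroup Q1] [Module A Q1] [AddCommGroup Q2] [Module A Q2]
  [AddCommGroup Q3] [Module A Q3] [AddCommGroup Q4] [Module A Q4]
  {a1 : O2 →ₗ[A] O1} {b1 : O1 →ₗ[A] Q1} {a2 : O1 →ₗ[A] O0} {b2 : O0 →ₗ[A] Q2}

/-- all columns from the column `O(-2)`, `s = 0` -/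
theorem cols0 {a3 : O1 × O1 →ₗ[A] K1} {b3 : K1 →ₗ[A] Q3} {a4 : K2 →ₗ[A] K1} {b4 : K1 →ₗ[A] Q4}
    (h1 : SES a1 b1) (h2 : SES a2 b2) (h3 : SES a3 b3) (h4 : SES a4 b4)
    (hr : ∃ (s : A →ₗ[A] O0 × O1 × O2 × K1 × K2) (r : O0 × O1 × O2 × K1 × K2 →ₗ[A] A),
      r ∘ₗ s = LinearMap.id)
    {X : Type u} [AddCommGroup X] [Module A X] (t1 : ∀ q, E0 A X Q1 q) (t2 : ∀ q, E0 A X Q2 q)
    (t3 : ∀ q, E0 A X Q3 q) (t4 : ∀ q, E0 A X Q4 q) (q : ℕ) (h : E0 A X O2 q) : E0 A X A q := by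
  have e1 : E0 A X O1 q := (tor h1 t1 q).1 h
  have e0 : E0 A X O0 q := (tor h2 t2 q).1 e1
  have k1 : E0 A X K1 q := (tor h3 t3 q).1 ((prod_iff q).2 ⟨e1, e1⟩)
  have k2 : E0 A X K2 q := (tor h4 t4 q).2 k1
  obtain ⟨s, r, hrs⟩ := hr
  exact retract_right s r hrs q ((prod_iff q).2 ⟨e0, (prod_iff q).2 ⟨e1, (prod_iff q).2 ⟨h,
    (prod_iff q).2 ⟨k1, k2⟩⟩⟩⟩)

/-- all columns from the column `O(-2)`, `s = 1` -/
theorem cols1 {a3 : K1 →ₗ[A] O1 × O1} {b3 : O1 × O1 →ₗ[A] Q3} {a4 : K1 →ₗ[A] K2}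
    {b4 : K2 →ₗ[A] Q4}
    (h1 : SES a1 b1) (h2 : SES a2 b2) (h3 : SES a3 b3) (h4 : SES a4 b4)
    (hr : ∃ (s : A →ₗ[A] O0 × O1 × O2 × K1 × K2) (r : O0 × O1 × O2 × K1 × K2 →ₗ[A] A),
      r ∘ₗ s = LinearMap.id)
    {X : Type u} [AddCommGroup X] [Module A X] (t1 : ∀ q, E0 A X Q1 q) (t2 : ∀ q, E0 A X Q2 q)
    (t3 : ∀ q, E0 A X Q3 q) (t4 : ∀ q, E0 A X Q4 q) (q : ℕ) (h : E0 A X O2 q) : E0 A X A q := by
  have e1 : E0 A X O1 q := (tor h1 t1 q).1 h
  have e0 : E0 A X O0 q := (tor h2 t2 q).1 e1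
  have k1 : E0 A X K1 q := (tor h3 t3 q).2 ((prod_iff q).2 ⟨e1, e1⟩)
  have k2 : E0 A X K2 q := (tor h4 t4 q).1 k1
  obtain ⟨s, r, hrs⟩ := hr
  exact retract_right s r hrs q ((prod_iff q).2 ⟨e0, (prod_iff q).2 ⟨e1, (prod_iff q).2 ⟨h,
    (prod_iff q).2 ⟨k1, k2⟩⟩⟩⟩)

end Cols

section Fp

theorem fp_right {X : Type u} [AddCommGroup X] [Module A X] {q : ℕ} (h : E0 A X A q)
    (P : Type u) [AddCommGroup P] [Module A P] [Module.Finite A P] [Module.Projective A P] :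
    E0 A X P q := by
  obtain ⟨m, s, r, hrs⟩ := exists_retract (A := A) P
  exact retract_right s r hrs q (pi_right q m h)

theorem H3_of_ext {E : Type u} [AddCommGroup E] [Module A E] (R : MRes A E) (Y : Type u)
    [AddCommGroup Y] [Module A Y] (h : E0 A E Y 3) : R.H3 Y := by
  intro f
  have h1 : R.toRes3.cls.comp (Ext.mk₀ (ModuleCat.ofHom f)) (add_zero 3) = 0 := h.elim _ _
  obtain ⟨g, hg⟩ := (R.toRes3.comp_eq_zero_iff (ModuleCat.ofHom f)).1 h1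
  refine ⟨g.hom, ?_⟩
  ext x
  exact congrArg (fun g => (ModuleCat.Hom.hom g) x) hg

end Fp

section Main

variable {V E : ℕ → Type u} [∀ n, AddCommGroup (V n)] [∀ n, Module A (V n)]
  [∀ n, AddCommGroup (E n)] [∀ n, Module A (E n)]
  {k : Type*} [CommRing k] {P1 P2 : Type u} [AddCommGroup P1] [Module A P1] [Module k P1]
  [SMulCommClass A k P1] [AddCommGroup P2] [Module A P2] [Module k P2] [SMulCommClass A k P2]

/-- **the nullness, abstract assembly** (both `s`).  `tors X` = "all Ext from `X` to the torsion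
quotients vanish", `hA` = `cols0` / `cols1`. -/
theorem null_base (i : ∀ n, V (n + 1) →ₗ[A] E n) (p : ∀ n, E n →ₗ[A] V n)
    (hi : ∀ n, Function.Injective (i n)) (hp : ∀ n, Function.Surjective (p n))
    (hex : ∀ n, Function.Exact (i n) (p n)) (hV : ∀ n, Nontrivial (V (n + 1)))
    (R : ∀ n, MRes A (E n)) (f0 : ∀ n, Module.Finite A (R n).K0)
    (f1 : ∀ n, Module.Finite A (R n).K1) (f2 : ∀ n, Module.Finite A (R n).K2)
    {Q1 Q2 Q3 Q4 : Type u} [AddCommGroup Q1] [Module A Q1] [AddCommGroup Q2] [Module A Q2]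
    [AddCommGroup Q3] [Module A Q3] [AddCommGroup Q4] [Module A Q4]
    (t1 : ∀ n q, E0 A (E n) Q1 q) (t2 : ∀ n q, E0 A (E n) Q2 q)
    (t3 : ∀ n q, E0 A (E n) Q3 q) (t4 : ∀ n q, E0 A (E n) Q4 q)
    (hA : ∀ (X : Type u) [AddCommGroup X] [Module A X], (∀ q, E0 A X Q1 q) →
      (∀ q, E0 A X Q2 q) → (∀ q, E0 A X Q3 q) → (∀ q, E0 A X Q4 q) →
      ∀ q, E0 A X P2 q → E0 A X A q)
    (ret : ∀ n, ∃ (m : ℕ) (s : (R n).K3 →ₗ[A] (Fin m → P2)) (r : (Fin m → P2) →ₗ[A] (R n).K3),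
      r ∘ₗ s = LinearMap.id)
    {ρh : P2 →ₗ[A] P1} {π1 : P1 →ₗ[A] Q1} (h1 : SES ρh π1)
    {ι : Type*} (ρ : ι → P2 →ₗ[A] P1)
    (z0 : ∀ n, (R n).H0 P2) (z1 : ∀ n, (R n).H1 P2) (z2 : ∀ n, (R n).H2 P2)
    (C : ℕ → Type*) [∀ n, AddCommGroup (C n)] [∀ n, Module k (C n)]
    (T : ∀ n, ι → C n →ₗ[k] C n)
    (ev2 : ∀ n, ((R n).K3 →ₗ[A] P2) →ₗ[k] C n) (ev1 : ∀ n, ((R n).K3 →ₗ[A] P1) →ₗ[k] C n)
    (s2 : ∀ n, Function.Surjective (ev2 n))
    (k2 : ∀ n f, ev2 n f = 0 → ∃ h : (R n).K2 →ₗ[A] P2, h ∘ₗ (R n).d3 = f)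
    (b1 : ∀ n (h : (R n).K2 →ₗ[A] P1), ev1 n (h ∘ₗ (R n).d3) = 0)
    (eh : ∀ n f, ev1 n (ρh ∘ₗ f) = ev2 n f)
    (et : ∀ n t f, ev1 n (ρ t ∘ₗ f) = T n t (ev2 n f))
    (S : ∀ n, Submodule k (C n)) (S0 : S 0 = ⊥)
    (brick : ∀ n (δ : C n →ₗ[k] C (n + 1)), δ ≠ 0 → (∀ t c, δ (T n t c) = T (n + 1) t (δ c)) →
      LinearMap.ker δ = S n ∧ LinearMap.range δ = S (n + 1)) (q : ℕ) :
    E0 A (V 0) A q := by
  -- column two
  have b2 : ∀ n (h : (R n).K2 →ₗ[A] P2), ev2 n (h ∘ₗ (R n).d3) = 0 := fun n h => by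
    rw [← eh, ← LinearMap.comp_assoc]
    exact b1 n _
  have x2 : ∀ n q, q ≠ 3 → E0 A (E n) P2 q := by
    intro n q hq
    match q, hq with
    | 0, _ => exact MRes.ext0 (z0 n)
    | 1, _ => exact MRes.ext1 (z1 n)
    | 2, _ => exact MRes.ext2 (z2 n)
    | q + 4, _ => exact MRes.ext_ge4 (R := R n) (Y := P2) (q := q + 4) (by omega)
  have xA : ∀ n q, q ≠ 3 → E0 A (E n) A q := fun n q hq =>
    hA (E n) (t1 n) (t2 n) (t3 n) (t4 n) q (x2 n q hq)
  -- column one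
  have k1 : ∀ n f, ev1 n f = 0 → ∃ h : (R n).K2 →ₗ[A] P1, h ∘ₗ (R n).d3 = f := by
    intro n f hf
    have := (R n).p2
    have := (R n).p3
    obtain ⟨g', hg'⟩ := H3_of_ext (R n) Q1 (t1 n 3) (π1 ∘ₗ f)
    obtain ⟨g, hg⟩ := Module.projective_lifting_property π1 g' h1.surj
    obtain ⟨f', hf'⟩ := lift_exact ρh π1 h1.exact (f - g ∘ₗ (R n).d3) (by
      rw [LinearMap.comp_sub, ← LinearMap.comp_assoc, hg, hg', sub_self])
    obtain ⟨h, hh⟩ := k2 n f' (by rw [← eh, hf', map_sub, hf, b1, sub_self])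
    refine ⟨g + ρh ∘ₗ h, ?_⟩
    rw [LinearMap.add_comp, LinearMap.comp_assoc, hh, hf', add_sub_cancel]
  have nullP2 : ∀ q, E0 A (V 0) P2 q := null_of_col i p hi hp hex hV R
    (fun n => by
      have := (R n).p0
      have := f0 n
      exact fp_right (xA (n + 1) 0 (by omega)) _)
    (fun n => by
      have := (R n).p1
      have := f1 n
      exact fp_right (xA (n + 1) 1 (by omega)) _)
    (fun n => by
      have := (R n).p2
      have := f2 n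
      exact fp_right (xA (n + 1) 2 (by omega)) _)
    x2 ret ρh ρ C T ev2 ev1 s2
    (fun n f => ⟨k2 n f, by rintro ⟨h, rfl⟩; exact b2 n h⟩)
    (fun n f => ⟨k1 n f, by rintro ⟨h, rfl⟩; exact b1 n h⟩) eh et S S0 brick
  exact hA (V 0) (fun q => mext_zero_all i p hi hp hex Q1 t1 q 0)
    (fun q => mext_zero_all i p hi hp hex Q2 t2 q 0)
    (fun q => mext_zero_all i p hi hp hex Q3 t3 q 0)
    (fun q => mext_zero_all i p hi hp hex Q4 t4 q 0) q (nullP2 q)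

end Main

end Crest.Agent.R186.NullJoin538
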