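import Crest.Agent.R186.Frame2_515
import Crest.Agent.R186.CellsDG_830

/-!
Row 186 (helper515), FRAME of half (A), part 3: the opposite principle.
A right module over `A` is a left module over `op A` and conversely, right cells over `A` are left
cells over `op A`, and `tY Y N = tG N.opR Y.opL`, `tG G X = tY X.opR G.opL`.
-/

set_option autoImplicit false
set_option linter.style.haveILetI false
set_option linter.unusedSectionVars false

open MulOpposite

namespace Crest.Agent.R186.Frame515

open Hat827 Hat827.DGA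

variable {K : Type} [Field K] {A : DGA K}

/-- the opposite dg algebra -/
abbrev opD (A : DGA K) : DGA K := CellsDG830.op A

theorem mem_opD {k : ℤ} {a : A.C} : (op a : (opD A).C) ∈ (opD A).G k ↔ a ∈ A.G k := Iff.rfl

/-- `Module Aᵐᵒᵖᵐᵒᵖ` from `Module A` -/
@[reducible] def opopM (R X : Type) [Ring R] [AddCommGroup X] [Module R X] : Module Rᵐᵒᵖᵐᵒᵖ X where
  smul a x := a.unop.unop • x
  one_smul x := one_smul R x
  mul_smul a b x := mul_smul a.unop.unop b.unop.unop x
  smul_zero a := smul_zero a.unop.unop
  smul_add a := smul_add a.unop.unop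
  add_smul a b x := add_smul a.unop.unop b.unop.unop x
  zero_smul x := zero_smul R x

/-- a right module as a left module over the opposite algebra -/
abbrev RM.opL (G : RM A) : LM (opD A) where
  toGC := G.toGC
  act := G.act
  tower := G.tower
  smul_mem {_ _ a _} ha hx := G.smul_mem (a := unop a) ha hx
  leib a x := G.leib (unop a) x

/-- a left module as a right module over the opposite algebra -/
abbrev LM.opR (N : LM A) : RM (opD A) where
  toGC := N.toGC
  act := opopM A.C N.X
  tower := letI : Module (A.C)ᵐᵒᵖᵐᵒᵖ N.X := opopM A.C N.X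
    (⟨fun r a x => smul_assoc r (unop (unop a)) x⟩ : IsScalarTower K (A.C)ᵐᵒᵖᵐᵒᵖ N.X)
  smul_mem {_ _ a _} ha hx := N.smul_mem (a := unop a) ha hx
  leib a x := N.leib (unop a) x

/-- left cells over `A` are right cells over the opposite algebra -/
abbrev LCells.opR (X : LCells A) : RCells (opD A) where
  ι := X.ι
  s := X.s
  F := X.F
  mem_F := X.mem_F
  e σ := op (X.e σ)
  e_mem σ := X.e_mem σ
  e_idem σ := congrArg op (X.e_idem σ)
  c τ σ := op (X.c σ τ)
  c_mem τ σ := X.c_mem σ τ
  c_left τ σ := congrArg op (X.c_right σ τ)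
  c_right τ σ := congrArg op (X.c_left σ τ)
  mc τ σ := by
    have h := congrArg op (X.mc σ τ)
    have h2 := map_sum (opAddEquiv (α := A.C)) (fun ρ => X.c σ ρ * X.c ρ τ) (X.F (X.s σ))
    rw [op_add] at h
    rw [show op (∑ ρ ∈ X.F (X.s σ), X.c σ ρ * X.c ρ τ) = _ from h2] at h
    exact h

/-- right cells over `A` are left cells over the opposite algebra -/
abbrev RCells.opL (Y : RCells A) : LCells (opD A) where
  ι := Y.ι
  s := Y.s
  F := Y.F
  mem_F := Y.mem_F
  e σ := op (Y.e σ)
  e_mem σ := Y.e_mem σ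
  e_idem σ := congrArg op (Y.e_idem σ)
  c σ τ := op (Y.c τ σ)
  c_mem σ τ := Y.c_mem τ σ
  c_left σ τ := congrArg op (Y.c_right τ σ)
  c_right σ τ := congrArg op (Y.c_left τ σ)
  mc σ τ := by
    have h := congrArg op (Y.mc τ σ)
    have h2 := map_sum (opAddEquiv (α := A.C)) (fun ρ => Y.c τ ρ * Y.c ρ σ) (Y.F (Y.s σ))
    rw [op_add] at h
    rw [show op (∑ ρ ∈ Y.F (Y.s σ), Y.c τ ρ * Y.c ρ σ) = _ from h2] at h
    exact h

theorem twY_op (Y : RCells A) (N : LM A) : twG N.opR Y.opL = twY Y N := rfl

theorem twG_op (G : RM A) (X : LCells A) : twY X.opR G.opL = twG G X := rfl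

/-- **the opposite principle** -/
theorem tY_op (Y : RCells A) (N : LM A) : tG N.opR Y.opL = tY Y N := rfl

/-- **the opposite principle** -/
theorem tG_op (G : RM A) (X : LCells A) : tY X.opR G.opL = tG G X := rfl

theorem lmul_opL (G : RM A) (a : A.C) : lmul G.opL (op a : (opD A).C) = rmul G a := rfl

theorem rmul_opR (N : LM A) (a : A.C) : rmul N.opR (op a : (opD A).C) = lmul N a := rfl

end Crest.Agent.R186.Frame515
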