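import Crest.Agent.R186.TRq_461
import Crest.Agent.R186.ZZB_380
import Crest.Agent.R186.EndF_448

/-!
Row 186 (A), helper461: 448's open literal `PH`, from 380's `ac_Hrm` and the quasi-isomorphisms
of (TR).
-/

set_option autoImplicit false
set_option linter.style.haveILetI false

noncomputable section

namespace Crest.Agent.R186.PH461

open Crest.Agent.R186.DefsQ830

variable {K : Type} [Field K] (π : Par K) (s : ℕ) (hs : 5 ≤ s)

/-- **`PH`** -/
theorem ph : EndB448.PH π s hs :=
  ZZB380.ac_Hrm π s hs (EndV448.XL π s hs) (by have h := π.gn 1 one_pos; rwa [pow_one] at h)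
    (fun a ha => TRq461.q2 π s hs (by omega)) (fun a _ ha => TRq461.q1 π s hs (by omega))

end Crest.Agent.R186.PH461

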