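import Crest.Agent.R186.ZZB_380
import Crest.Agent.R186.TRq_461
import Crest.Agent.R186.EndB_448

/-!
Row 186 (A), short road, the last line of leaf (H) (helper462): 448's open literal `PH`.
-/

set_option autoImplicit false
set_option linter.style.haveILetI false

noncomputable section

namespace Crest.Agent.R186.PH462

open Crest.Agent.R186.DefsQ830

variable {K : Type} [Field K] (π : Par K) (s : ℕ) (hs : 5 ≤ s)

theorem g1 : π.g ≠ 1 := fun h => π.gn 1 one_pos (by rw [pow_one, h])

/-- **(H) on the concrete objects** -/
theorem ph : EndB448.PH π s hs :=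
  ZZB380.ac_Hrm π s hs (EndV448.XL π s hs) (g1 π)
    (fun _ ha => TRq461.q2 π s hs (Nat.lt_succ_of_le ha))
    (fun _ _ ha => TRq461.q1 π s hs (Nat.lt_succ_of_le ha))

end Crest.Agent.R186.PH462
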