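import Crest.Agent.R186.PDef_580
import Crest.Agent.R186.NullAbs_341

/-!
Row 186, S0281, base, leaf B281.F2 (helper580): the four short exact sequences of the columns
(`s = 0` and `s = 1`), entrywise description of the ranges, and the devissage on `A g s`.
-/

set_option autoImplicit false
set_option linter.unusedSectionVars false

open Matrix

namespace Crest.Agent.R186.B281

variable {K : Type} [Field K]

/-- `sgm σ` : the 0-1 matrix moving positions -/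
noncomputable def sgm (K : Type) [Field K] (σ : Fin 7 → Option (Fin 7)) : Mat K :=
  Matrix.of fun i j => if σ j = some i then 1 else 0

/-- pull back along positions -/
def pull {M : Type} [Zero M] (σ : Fin 7 → Option (Fin 7)) (v : Fin 7 → M) : Fin 7 → M :=
  fun j => (σ j).elim 0 v

theorem vecMul_sgm (σ : Fin 7 → Option (Fin 7)) (v : Fin 7 → Op K) :
    v ᵥ* sgm K σ = pull σ v := by
  funext j
  rw [Matrix.vecMul, dotProduct, pull]
  rcases h : σ j with _ | i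
  · simp [sgm, h]
  · rw [Finset.sum_eq_single i]
    · simp [sgm, h]
    · intro b _ hb
      simp [sgm, h, Ne.symm hb]
    · intro h
      exact absurd (Finset.mem_univ i) h

theorem mul_sgm (M : Mat K) (σ : Fin 7 → Option (Fin 7)) (i j : Fin 7) :
    (M * sgm K σ : Mat K) i j = pull σ (M i) j := by
  rw [← vecMul_sgm]
  rfl

/-- `σ` respects the lattices -/
def SGood (g : K) (s : ℤ) (σ : Fin 7 → Option (Fin 7)) : Prop :=
  ∀ k P : ℤ, ∀ v ∈ Lat g s k P, pull σ v ∈ Lat g s k P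

theorem SGood.pres {g : K} {s : ℤ} {σ : Fin 7 → Option (Fin 7)} (h : SGood g s σ) :
    Pres g s 0 (sgm K σ) := fun k P v hv => by
  rw [vecMul_sgm, add_zero]
  exact h k P v hv

/-- the element of `A g s` -/
noncomputable def sgA {g : K} {s : ℤ} {σ : Fin 7 → Option (Fin 7)} (h : SGood g s σ) : A g s :=
  ofM (sgm K σ) 0 h.pres (Pres.zero g s 1)

theorem fst_mul_sgA {g : K} {s : ℤ} {σ : Fin 7 → Option (Fin 7)} (h : SGood g s σ) (x : A g s)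
    (i j : Fin 7) : (x * sgA h).1.fst i j = pull σ (x.1.fst i) j := by
  rw [fst_mulA, sgA, ofM_fst, mul_sgm]

theorem snd_mul_sgA {g : K} {s : ℤ} {σ : Fin 7 → Option (Fin 7)} (h : SGood g s σ) (x : A g s)
    (i j : Fin 7) : (x * sgA h).1.snd i j = pull σ (x.1.snd i) j := by
  rw [snd_mulA, sgA, ofM_fst, ofM_snd, mul_zero, zero_add, mul_sgm]

theorem sgA_mem {g : K} {s : ℤ} {σ : Fin 7 → Option (Fin 7)} (h : SGood g s σ) {v : Fin 5}
    (hv : ∀ j, blk j ≠ v → σ j = none) : sgA h ∈ Pv g s v := by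
  rw [mem_Pv]
  intro i j hj
  rw [sgA, ofM_fst, ofM_snd]
  refine ⟨?_, rfl⟩
  rw [sgm, Matrix.of_apply, hv j hj, if_neg (by simp)]

theorem mv_pres {g : K} {s e : ℤ} {σ : Fin 7 → Option (Fin 7)} {M : Mat K}
    (h : ∀ k P : ℤ, ∀ r ∈ Lat g s k P, pull σ (r ᵥ* M) ∈ Lat g s k (P + e)) :
    Pres g s e (M * sgm K σ) := fun k P r hr => by
  rw [← Matrix.vecMul_vecMul, vecMul_sgm]
  exact h k P r hr

/-- moved element -/
noncomputable def mv {g : K} {s : ℤ} (σ : Fin 7 → Option (Fin 7)) (p : A g s)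
    (h : ∀ k P : ℤ, ∀ r ∈ Lat g s k P, pull σ (r ᵥ* p.1.fst) ∈ Lat g s k P ∧
      pull σ (r ᵥ* p.1.snd) ∈ Lat g s k (P + 1)) : A g s :=
  ofM (p.1.fst * sgm K σ) (p.1.snd * sgm K σ)
    (mv_pres fun k P r hr => by rw [add_zero]; exact (h k P r hr).1)
    (mv_pres fun k P r hr => (h k P r hr).2)

theorem mv_fst {g : K} {s : ℤ} (σ : Fin 7 → Option (Fin 7)) (p : A g s) (h) (i j : Fin 7) :
    (mv σ p h).1.fst i j = pull σ (p.1.fst i) j := mul_sgm _ _ _ _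

theorem mv_snd {g : K} {s : ℤ} (σ : Fin 7 → Option (Fin 7)) (p : A g s) (h) (i j : Fin 7) :
    (mv σ p h).1.snd i j = pull σ (p.1.snd i) j := mul_sgm _ _ _ _

theorem mv_mem {g : K} {s : ℤ} {σ : Fin 7 → Option (Fin 7)} {p : A g s} (h) {v : Fin 5}
    (hv : ∀ j, blk j ≠ v → σ j = none) : mv σ p h ∈ Pv g s v := by
  rw [mem_Pv]
  intro i j hj
  rw [mv_fst, mv_snd, pull, pull, hv j hj]
  exact ⟨rfl, rfl⟩

/-- rows of a moved matrix -/
theorem vecMul_pull {σ : Fin 7 → Option (Fin 7)} {M N : Mat K}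
    (h : ∀ i j, M i j = pull σ (N i) j) (r : Fin 7 → Op K) : r ᵥ* M = pull σ (r ᵥ* N) := by
  have : M = N * sgm K σ := by
    funext i j
    rw [h, mul_sgm]
  rw [this, ← Matrix.vecMul_vecMul, vecMul_sgm]

theorem row_fst {g : K} {s : ℤ} (x : A g s) {k P : ℤ} {r : Fin 7 → Op K} (hr : r ∈ Lat g s k P) :
    r ᵥ* x.1.fst ∈ Lat g s k P := by
  have := x.2.1 k P r hr
  rwa [add_zero] at this

theorem row_snd {g : K} {s : ℤ} (x : A g s) {k P : ℤ} {r : Fin 7 → Op K} (hr : r ∈ Lat g s k P) :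
    r ᵥ* x.1.snd ∈ Lat g s k (P + 1) := x.2.2 k P r hr

theorem mem_Lat {g : K} {s k P : ℤ} {v : Fin 7 → Op K} : v ∈ Lat g s k P ↔
    v 0 ∈ Fil g k P ∧ v 1 ∈ Fil g (k - 1) P ∧ v 2 ∈ Fil g (k - 2) P ∧
    (v 3 ∈ Fil g (k - s) P ∧ v 4 ∈ Fil g (k - s) P ∧
      v 3 * X 0 + v 4 * X 1 ∈ Fil g (k - s - 1) (P + 1)) ∧
    (v 5 ∈ Fil g k P ∧ v 6 ∈ Fil g k P ∧ v 5 * X 0 + v 6 * X 1 ∈ Fil g (k - 2) (P + 1)) :=
  Iff.rfl

theorem Pv_zero {g : K} {s : ℤ} {v : Fin 5} {x : Pv g s v}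
    (h : ∀ i j, blk j = v → (x : A g s).1.fst i j = 0 ∧ (x : A g s).1.snd i j = 0) : x = 0 := by
  apply Subtype.ext
  refine A_ext (y := (0 : A g s)) (fun i j => ?_) (fun i j => ?_)
  · by_cases hj : blk j = v
    · exact (h i j hj).1
    · exact (mem_Pv.1 x.2 i j hj).1
  · by_cases hj : blk j = v
    · exact (h i j hj).2
    · exact (mem_Pv.1 x.2 i j hj).2

theorem Pv_eq {g : K} {s : ℤ} {v : Fin 5} {x y : Pv g s v}
    (h : ∀ i j, blk j = v → (x : A g s).1.fst i j = (y : A g s).1.fst i j ∧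
      (x : A g s).1.snd i j = (y : A g s).1.snd i j) : x = y := by
  apply Subtype.ext
  refine A_ext (fun i j => ?_) (fun i j => ?_)
  · by_cases hj : blk j = v
    · exact (h i j hj).1
    · rw [(mem_Pv.1 x.2 i j hj).1, (mem_Pv.1 y.2 i j hj).1]
  · by_cases hj : blk j = v
    · exact (h i j hj).2
    · rw [(mem_Pv.1 x.2 i j hj).2, (mem_Pv.1 y.2 i j hj).2]

/-- single entry -/
def s1 (i j : Fin 7) : Fin 7 → Option (Fin 7) := fun k => if k = j then some i else none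

/-- two entries -/
def s2 (i j i' j' : Fin 7) : Fin 7 → Option (Fin 7) := fun k =>
  if k = j then some i else if k = j' then some i' else none

/-! ### `O(-2) → O(-1) → O(0)`, both `s` -/

theorem good21 (g : K) (s : ℤ) : SGood g s (s1 2 1) := by
  intro k P w hw
  obtain ⟨w0, w1, w2, ⟨w3, w4, w5⟩, w6, w7, w8⟩ := mem_Lat.1 hw
  have := Fil_mono g (show k - 2 ≤ k - 1 by omega) w2
  rw [mem_Lat]
  simp [pull, s1, *]

theorem good10 (g : K) (s : ℤ) : SGood g s (s1 1 0) := by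
  intro k P w hw
  obtain ⟨w0, w1, w2, ⟨w3, w4, w5⟩, w6, w7, w8⟩ := mem_Lat.1 hw
  have := Fil_mono g (show k - 1 ≤ k by omega) w1
  rw [mem_Lat]
  simp [pull, s1, *]

/-- the unit `O(-2) → O(-1)` -/
noncomputable def u21 (g : K) (s : ℤ) : Pv g s 1 :=
  ⟨sgA (good21 g s), sgA_mem _ (by decide)⟩

/-- the unit `O(-1) → O(0)` -/
noncomputable def u10 (g : K) (s : ℤ) : Pv g s 0 :=
  ⟨sgA (good10 g s), sgA_mem _ (by decide)⟩

/-- `Pv 2 → Pv 1` -/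
noncomputable def f1 (g : K) (s : ℤ) : Pv g s 2 →ₗ[A g s] Pv g s 1 := mulR 2 (u21 g s)

/-- `Pv 1 → Pv 0` -/
noncomputable def f2 (g : K) (s : ℤ) : Pv g s 1 →ₗ[A g s] Pv g s 0 := mulR 1 (u10 g s)

section both

variable {g : K} {s : ℤ}

theorem f1_fst (x : Pv g s 2) (i j : Fin 7) :
    (f1 g s x : A g s).1.fst i j = pull (s1 2 1) ((x : A g s).1.fst i) j :=
  fst_mul_sgA (good21 g s) _ _ _

theorem f1_snd (x : Pv g s 2) (i j : Fin 7) :
    (f1 g s x : A g s).1.snd i j = pull (s1 2 1) ((x : A g s).1.snd i) j :=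
  snd_mul_sgA (good21 g s) _ _ _

theorem f2_fst (x : Pv g s 1) (i j : Fin 7) :
    (f2 g s x : A g s).1.fst i j = pull (s1 1 0) ((x : A g s).1.fst i) j :=
  fst_mul_sgA (good10 g s) _ _ _

theorem f2_snd (x : Pv g s 1) (i j : Fin 7) :
    (f2 g s x : A g s).1.snd i j = pull (s1 1 0) ((x : A g s).1.snd i) j :=
  snd_mul_sgA (good10 g s) _ _ _

theorem blk0 {j : Fin 7} (h : blk j = 0) : j = 0 := by revert h; revert j; decide
theorem blk1 {j : Fin 7} (h : blk j = 1) : j = 1 := by revert h; revert j; decide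
theorem blk2 {j : Fin 7} (h : blk j = 2) : j = 2 := by revert h; revert j; decide
theorem blk3 {j : Fin 7} (h : blk j = 3) : j = 3 ∨ j = 4 := by revert h; revert j; decide
theorem blk4 {j : Fin 7} (h : blk j = 4) : j = 5 ∨ j = 6 := by revert h; revert j; decide

theorem f1_inj : Function.Injective (f1 g s) := by
  rw [injective_iff_map_eq_zero]
  intro x hx
  refine Pv_zero fun i j hj => ?_
  obtain rfl := blk2 hj
  have h1 := f1_fst x i 1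
  have h2 := f1_snd x i 1
  rw [hx] at h1 h2
  exact ⟨h1.symm, h2.symm⟩

theorem f2_inj : Function.Injective (f2 g s) := by
  rw [injective_iff_map_eq_zero]
  intro x hx
  refine Pv_zero fun i j hj => ?_
  obtain rfl := blk1 hj
  have h1 := f2_fst x i 0
  have h2 := f2_snd x i 0
  rw [hx] at h1 h2
  exact ⟨h1.symm, h2.symm⟩

theorem mem_range_f1 (p : Pv g s 1) : p ∈ LinearMap.range (f1 g s) ↔
    ∀ k P : ℤ, ∀ r ∈ Lat g s k P, (r ᵥ* (p : A g s).1.fst) 1 ∈ Fil g (k - 2) P ∧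
      (r ᵥ* (p : A g s).1.snd) 1 ∈ Fil g (k - 2) (P + 1) := by
  constructor
  · rintro ⟨x, rfl⟩ k P r hr
    rw [vecMul_pull (f1_fst x), vecMul_pull (f1_snd x)]
    exact ⟨(mem_Lat.1 (row_fst (x : A g s) hr)).2.2.1, (mem_Lat.1 (row_snd (x : A g s) hr)).2.2.1⟩
  · intro h
    have h' : ∀ k P : ℤ, ∀ r ∈ Lat g s k P, pull (s1 1 2) (r ᵥ* (p : A g s).1.fst) ∈ Lat g s k P ∧
        pull (s1 1 2) (r ᵥ* (p : A g s).1.snd) ∈ Lat g s k (P + 1) := by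
      intro k P r hr
      have h1 := h k P r hr
      rw [mem_Lat, mem_Lat]
      simp [pull, s1, h1.1, h1.2]
    refine ⟨⟨mv (s1 1 2) (p : A g s) h', mv_mem h' (by decide)⟩, ?_⟩
    refine Pv_eq fun i j hj => ?_
    obtain rfl := blk1 hj
    rw [f1_fst, f1_snd]
    exact ⟨mv_fst _ _ h' i 2, mv_snd _ _ h' i 2⟩

theorem mem_range_f2 (p : Pv g s 0) : p ∈ LinearMap.range (f2 g s) ↔
    ∀ k P : ℤ, ∀ r ∈ Lat g s k P, (r ᵥ* (p : A g s).1.fst) 0 ∈ Fil g (k - 1) P ∧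
      (r ᵥ* (p : A g s).1.snd) 0 ∈ Fil g (k - 1) (P + 1) := by
  constructor
  · rintro ⟨x, rfl⟩ k P r hr
    rw [vecMul_pull (f2_fst x), vecMul_pull (f2_snd x)]
    exact ⟨(mem_Lat.1 (row_fst (x : A g s) hr)).2.1, (mem_Lat.1 (row_snd (x : A g s) hr)).2.1⟩
  · intro h
    have h' : ∀ k P : ℤ, ∀ r ∈ Lat g s k P, pull (s1 0 1) (r ᵥ* (p : A g s).1.fst) ∈ Lat g s k P ∧
        pull (s1 0 1) (r ᵥ* (p : A g s).1.snd) ∈ Lat g s k (P + 1) := by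
      intro k P r hr
      have h1 := h k P r hr
      rw [mem_Lat, mem_Lat]
      simp [pull, s1, h1.1, h1.2]
    refine ⟨⟨mv (s1 0 1) (p : A g s) h', mv_mem h' (by decide)⟩, ?_⟩
    refine Pv_eq fun i j hj => ?_
    obtain rfl := blk0 hj
    rw [f2_fst, f2_snd]
    exact ⟨mv_fst _ _ h' i 1, mv_snd _ _ h' i 1⟩

end both

/-! ### `s = 0`: `(Pv 1)² → Pv 3`, `Pv 4 → Pv 3` -/

section zero

variable {g : K}

theorem good13 (hg : Gen g) : SGood g 0 (s1 1 3) := by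
  intro k P w hw
  obtain ⟨w0, w1, w2, ⟨w3, w4, w5⟩, w6, w7, w8⟩ := mem_Lat.1 hw
  have h1 := Fil_mono g (show k - 1 ≤ k by omega) w1
  have h2 := FD757.mul_X_mem hg 0 w1
  rw [mem_Lat]
  simp [pull, s1, h1, h2]

theorem good14 (hg : Gen g) : SGood g 0 (s1 1 4) := by
  intro k P w hw
  obtain ⟨w0, w1, w2, ⟨w3, w4, w5⟩, w6, w7, w8⟩ := mem_Lat.1 hw
  have h1 := Fil_mono g (show k - 1 ≤ k by omega) w1
  have h2 := FD757.mul_X_mem hg 1 w1
  rw [mem_Lat]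
  simp [pull, s1, h1, h2]

theorem good43 (g : K) : SGood g 0 (s2 5 3 6 4) := by
  intro k P w hw
  obtain ⟨w0, w1, w2, ⟨w3, w4, w5⟩, w6, w7, w8⟩ := mem_Lat.1 hw
  have h1 := Fil_mono g (show k - 2 ≤ k - 1 by omega) w8
  rw [mem_Lat]
  simp [pull, s2, w6, w7, h1]

/-- the two units `O(-1) → K₁`, `s = 0` -/
noncomputable def u1K (hg : Gen g) : Fin 2 → Pv g 0 3 :=
  ![⟨sgA (good13 hg), sgA_mem _ (by decide)⟩, ⟨sgA (good14 hg), sgA_mem _ (by decide)⟩]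

/-- the unit `K₂ → K₁`, `s = 0` -/
noncomputable def u43 (g : K) : Pv g 0 3 := ⟨sgA (good43 g), sgA_mem _ (by decide)⟩

/-- `(Pv 1)² → Pv 3`, `s = 0` -/
noncomputable def f3 (hg : Gen g) : (Fin 2 → Pv g 0 1) →ₗ[A g 0] Pv g 0 3 :=
  (mulR 1 (u1K hg 0)).comp (LinearMap.proj 0) + (mulR 1 (u1K hg 1)).comp (LinearMap.proj 1)

/-- `Pv 4 → Pv 3`, `s = 0` -/
noncomputable def f4 (g : K) : Pv g 0 4 →ₗ[A g 0] Pv g 0 3 := mulR 4 (u43 g)

theorem f3_apply (hg : Gen g) (x : Fin 2 → Pv g 0 1) :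
    (f3 hg x : A g 0) = x 0 * sgA (good13 hg) + x 1 * sgA (good14 hg) := rfl

theorem f3_fst (hg : Gen g) (x : Fin 2 → Pv g 0 1) (i j : Fin 7) :
    (f3 hg x : A g 0).1.fst i j = pull (s1 1 3) ((x 0 : A g 0).1.fst i) j +
      pull (s1 1 4) ((x 1 : A g 0).1.fst i) j := by
  rw [← fst_mul_sgA (good13 hg), ← fst_mul_sgA (good14 hg)]
  rfl

theorem f3_snd (hg : Gen g) (x : Fin 2 → Pv g 0 1) (i j : Fin 7) :
    (f3 hg x : A g 0).1.snd i j = pull (s1 1 3) ((x 0 : A g 0).1.snd i) j +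
      pull (s1 1 4) ((x 1 : A g 0).1.snd i) j := by
  rw [← snd_mul_sgA (good13 hg), ← snd_mul_sgA (good14 hg)]
  rfl

theorem f4_fst (x : Pv g 0 4) (i j : Fin 7) :
    (f4 g x : A g 0).1.fst i j = pull (s2 5 3 6 4) ((x : A g 0).1.fst i) j :=
  fst_mul_sgA (good43 g) _ _ _

theorem f4_snd (x : Pv g 0 4) (i j : Fin 7) :
    (f4 g x : A g 0).1.snd i j = pull (s2 5 3 6 4) ((x : A g 0).1.snd i) j :=
  snd_mul_sgA (good43 g) _ _ _

theorem f3_inj (hg : Gen g) : Function.Injective (f3 hg) := by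
  rw [injective_iff_map_eq_zero]
  intro x hx
  funext l
  refine Pv_zero fun i j hj => ?_
  obtain rfl := blk1 hj
  fin_cases l
  · have h1 := f3_fst hg x i 3
    have h2 := f3_snd hg x i 3
    rw [hx] at h1 h2
    simp only [pull, s1, if_true, Fin.reduceEq, if_false, Option.elim, add_zero] at h1 h2
    exact ⟨h1.symm, h2.symm⟩
  · have h1 := f3_fst hg x i 4
    have h2 := f3_snd hg x i 4
    rw [hx] at h1 h2
    simp only [pull, s1, if_true, Fin.reduceEq, if_false, Option.elim, zero_add] at h1 h2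
    exact ⟨h1.symm, h2.symm⟩

theorem f4_inj : Function.Injective (f4 g) := by
  rw [injective_iff_map_eq_zero]
  intro x hx
  refine Pv_zero fun i j hj => ?_
  rcases blk4 hj with rfl | rfl
  · have h1 := f4_fst x i 3
    have h2 := f4_snd x i 3
    rw [hx] at h1 h2
    exact ⟨h1.symm, h2.symm⟩
  · have h1 := f4_fst x i 4
    have h2 := f4_snd x i 4
    rw [hx] at h1 h2
    exact ⟨h1.symm, h2.symm⟩

theorem vecMul_f3_fst (hg : Gen g) (x : Fin 2 → Pv g 0 1) (r : Fin 7 → Op K) :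
    r ᵥ* (f3 hg x : A g 0).1.fst = pull (s1 1 3) (r ᵥ* (x 0 : A g 0).1.fst) +
      pull (s1 1 4) (r ᵥ* (x 1 : A g 0).1.fst) := by
  have : (f3 hg x : A g 0).1.fst = (x 0 : A g 0).1.fst * sgm K (s1 1 3) +
      (x 1 : A g 0).1.fst * sgm K (s1 1 4) := by
    funext i j
    rw [f3_fst, Matrix.add_apply, mul_sgm, mul_sgm]
  rw [this, Matrix.vecMul_add, ← Matrix.vecMul_vecMul, ← Matrix.vecMul_vecMul, vecMul_sgm,
    vecMul_sgm]

theorem vecMul_f3_snd (hg : Gen g) (x : Fin 2 → Pv g 0 1) (r : Fin 7 → Op K) :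
    r ᵥ* (f3 hg x : A g 0).1.snd = pull (s1 1 3) (r ᵥ* (x 0 : A g 0).1.snd) +
      pull (s1 1 4) (r ᵥ* (x 1 : A g 0).1.snd) := by
  have : (f3 hg x : A g 0).1.snd = (x 0 : A g 0).1.snd * sgm K (s1 1 3) +
      (x 1 : A g 0).1.snd * sgm K (s1 1 4) := by
    funext i j
    rw [f3_snd, Matrix.add_apply, mul_sgm, mul_sgm]
  rw [this, Matrix.vecMul_add, ← Matrix.vecMul_vecMul, ← Matrix.vecMul_vecMul, vecMul_sgm,
    vecMul_sgm]

theorem range_f3_mp (hg : Gen g) (x : Fin 2 → Pv g 0 1) {k P : ℤ} {r : Fin 7 → Op K}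
    (hr : r ∈ Lat g 0 k P) :
    ((r ᵥ* (f3 hg x : A g 0).1.fst) 3 ∈ Fil g (k - 1) P ∧
        (r ᵥ* (f3 hg x : A g 0).1.fst) 4 ∈ Fil g (k - 1) P) ∧
      (r ᵥ* (f3 hg x : A g 0).1.snd) 3 ∈ Fil g (k - 1) (P + 1) ∧
        (r ᵥ* (f3 hg x : A g 0).1.snd) 4 ∈ Fil g (k - 1) (P + 1) := by
  have a0 := (mem_Lat.1 (row_fst (x 0 : A g 0) hr)).2.1
  have a1 := (mem_Lat.1 (row_fst (x 1 : A g 0) hr)).2.1
  have b0 := (mem_Lat.1 (row_snd (x 0 : A g 0) hr)).2.1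
  have b1 := (mem_Lat.1 (row_snd (x 1 : A g 0) hr)).2.1
  rw [vecMul_f3_fst, vecMul_f3_snd]
  simp only [Pi.add_apply, pull, s1, if_true, Fin.reduceEq, if_false, Option.elim, zero_add,
    add_zero]
  exact ⟨⟨a0, a1⟩, b0, b1⟩

theorem range_f3_mpr (hg : Gen g) (p : Pv g 0 3)
    (h3 : ∀ k P : ℤ, ∀ r ∈ Lat g 0 k P, pull (s1 3 1) (r ᵥ* (p : A g 0).1.fst) ∈ Lat g 0 k P ∧
        pull (s1 3 1) (r ᵥ* (p : A g 0).1.snd) ∈ Lat g 0 k (P + 1))
    (h4 : ∀ k P : ℤ, ∀ r ∈ Lat g 0 k P, pull (s1 4 1) (r ᵥ* (p : A g 0).1.fst) ∈ Lat g 0 k P ∧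
        pull (s1 4 1) (r ᵥ* (p : A g 0).1.snd) ∈ Lat g 0 k (P + 1)) :
    p ∈ LinearMap.range (f3 hg) := by
  let a : Pv g 0 1 := ⟨mv (s1 3 1) (p : A g 0) h3, mv_mem h3 (by decide)⟩
  let b : Pv g 0 1 := ⟨mv (s1 4 1) (p : A g 0) h4, mv_mem h4 (by decide)⟩
  have ha1 : ∀ i j, (a : A g 0).1.fst i j = pull (s1 3 1) ((p : A g 0).1.fst i) j :=
    fun i j => mv_fst _ _ h3 i j
  have ha2 : ∀ i j, (a : A g 0).1.snd i j = pull (s1 3 1) ((p : A g 0).1.snd i) j :=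
    fun i j => mv_snd _ _ h3 i j
  have hb1 : ∀ i j, (b : A g 0).1.fst i j = pull (s1 4 1) ((p : A g 0).1.fst i) j :=
    fun i j => mv_fst _ _ h4 i j
  have hb2 : ∀ i j, (b : A g 0).1.snd i j = pull (s1 4 1) ((p : A g 0).1.snd i) j :=
    fun i j => mv_snd _ _ h4 i j
  clear_value a b
  refine ⟨![a, b], ?_⟩
  have c0 : (![a, b] : Fin 2 → Pv g 0 1) 0 = a := rfl
  have c1 : (![a, b] : Fin 2 → Pv g 0 1) 1 = b := rfl
  refine Pv_eq fun i j hj => ?_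
  rw [f3_fst, f3_snd, c0, c1]
  rcases blk3 hj with rfl | rfl
  · simp [pull, s1, ha1, ha2]
  · simp [pull, s1, hb1, hb2]

theorem mem_range_f3 (hg : Gen g) (p : Pv g 0 3) : p ∈ LinearMap.range (f3 hg) ↔
    ∀ k P : ℤ, ∀ r ∈ Lat g 0 k P,
      ((r ᵥ* (p : A g 0).1.fst) 3 ∈ Fil g (k - 1) P ∧
        (r ᵥ* (p : A g 0).1.fst) 4 ∈ Fil g (k - 1) P) ∧
      (r ᵥ* (p : A g 0).1.snd) 3 ∈ Fil g (k - 1) (P + 1) ∧
        (r ᵥ* (p : A g 0).1.snd) 4 ∈ Fil g (k - 1) (P + 1) := by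
  constructor
  · rintro ⟨x, rfl⟩ k P r hr
    exact range_f3_mp hg x hr
  · intro h
    refine range_f3_mpr hg p (fun k P r hr => ?_) (fun k P r hr => ?_)
    · have h1 := h k P r hr
      rw [mem_Lat, mem_Lat]
      simp [pull, s1, h1.1.1, h1.2.1]
    · have h1 := h k P r hr
      rw [mem_Lat, mem_Lat]
      simp [pull, s1, h1.1.2, h1.2.2]

theorem mem_range_f4 (p : Pv g 0 3) : p ∈ LinearMap.range (f4 g) ↔
    ∀ k P : ℤ, ∀ r ∈ Lat g 0 k P,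
      (r ᵥ* (p : A g 0).1.fst) 3 * X 0 + (r ᵥ* (p : A g 0).1.fst) 4 * X 1 ∈
        Fil g (k - 2) (P + 1) ∧
      (r ᵥ* (p : A g 0).1.snd) 3 * X 0 + (r ᵥ* (p : A g 0).1.snd) 4 * X 1 ∈
        Fil g (k - 2) (P + 1 + 1) := by
  constructor
  · rintro ⟨x, rfl⟩ k P r hr
    rw [vecMul_pull (f4_fst x), vecMul_pull (f4_snd x)]
    exact ⟨(mem_Lat.1 (row_fst (x : A g 0) hr)).2.2.2.2.2.2,
      (mem_Lat.1 (row_snd (x : A g 0) hr)).2.2.2.2.2.2⟩
  · intro h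
    have h' : ∀ k P : ℤ, ∀ r ∈ Lat g 0 k P,
        pull (s2 3 5 4 6) (r ᵥ* (p : A g 0).1.fst) ∈ Lat g 0 k P ∧
        pull (s2 3 5 4 6) (r ᵥ* (p : A g 0).1.snd) ∈ Lat g 0 k (P + 1) := by
      intro k P r hr
      have h1 := h k P r hr
      have h2 := (mem_Lat.1 (row_fst (p : A g 0) hr)).2.2.2.1
      have h3 := (mem_Lat.1 (row_snd (p : A g 0) hr)).2.2.2.1
      rw [sub_zero] at h2 h3
      rw [mem_Lat, mem_Lat]
      simp [pull, s2, h1.1, h1.2, h2.1, h2.2.1, h3.1, h3.2.1]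
    refine ⟨⟨mv (s2 3 5 4 6) (p : A g 0) h', mv_mem h' (by decide)⟩, ?_⟩
    refine Pv_eq fun i j hj => ?_
    rw [f4_fst, f4_snd]
    rcases blk3 hj with rfl | rfl
    · exact ⟨mv_fst _ _ h' i 5, mv_snd _ _ h' i 5⟩
    · exact ⟨mv_fst _ _ h' i 6, mv_snd _ _ h' i 6⟩

end zero

/-! ### `s = 1`: `Pv 3 → (Pv 1)²`, `Pv 3 → Pv 4` -/

section one

variable {g : K}

theorem good31 (g : K) : SGood g 1 (s1 3 1) := by
  intro k P w hw
  obtain ⟨w0, w1, w2, ⟨w3, w4, w5⟩, w6, w7, w8⟩ := mem_Lat.1 hw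
  rw [mem_Lat]
  simp [pull, s1, w3]

theorem good41 (g : K) : SGood g 1 (s1 4 1) := by
  intro k P w hw
  obtain ⟨w0, w1, w2, ⟨w3, w4, w5⟩, w6, w7, w8⟩ := mem_Lat.1 hw
  rw [mem_Lat]
  simp [pull, s1, w4]

theorem good34 (g : K) : SGood g 1 (s2 3 5 4 6) := by
  intro k P w hw
  obtain ⟨w0, w1, w2, ⟨w3, w4, w5⟩, w6, w7, w8⟩ := mem_Lat.1 hw
  have h3 := Fil_mono g (show k - 1 ≤ k by omega) w3
  have h4 := Fil_mono g (show k - 1 ≤ k by omega) w4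
  rw [show k - 1 - 1 = k - 2 by ring] at w5
  rw [mem_Lat]
  simp [pull, s2, h3, h4, w5]

/-- the two units `K₁(-1) → O(-1)`, `s = 1` -/
noncomputable def uK1 (g : K) : Fin 2 → Pv g 1 1 :=
  ![⟨sgA (good31 g), sgA_mem _ (by decide)⟩, ⟨sgA (good41 g), sgA_mem _ (by decide)⟩]

/-- the unit `K₁(-1) → K₂`, `s = 1` -/
noncomputable def u34 (g : K) : Pv g 1 4 := ⟨sgA (good34 g), sgA_mem _ (by decide)⟩

/-- `Pv 3 → (Pv 1)²`, `s = 1` -/
noncomputable def h3 (g : K) : Pv g 1 3 →ₗ[A g 1] (Fin 2 → Pv g 1 1) :=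
  LinearMap.pi fun l => mulR 3 (uK1 g l)

/-- `Pv 3 → Pv 4`, `s = 1` -/
noncomputable def h4 (g : K) : Pv g 1 3 →ₗ[A g 1] Pv g 1 4 := mulR 3 (u34 g)

theorem h3_fst0 (x : Pv g 1 3) (i j : Fin 7) :
    (h3 g x 0 : A g 1).1.fst i j = pull (s1 3 1) ((x : A g 1).1.fst i) j :=
  fst_mul_sgA (good31 g) _ _ _

theorem h3_snd0 (x : Pv g 1 3) (i j : Fin 7) :
    (h3 g x 0 : A g 1).1.snd i j = pull (s1 3 1) ((x : A g 1).1.snd i) j :=
  snd_mul_sgA (good31 g) _ _ _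

theorem h3_fst1 (x : Pv g 1 3) (i j : Fin 7) :
    (h3 g x 1 : A g 1).1.fst i j = pull (s1 4 1) ((x : A g 1).1.fst i) j :=
  fst_mul_sgA (good41 g) _ _ _

theorem h3_snd1 (x : Pv g 1 3) (i j : Fin 7) :
    (h3 g x 1 : A g 1).1.snd i j = pull (s1 4 1) ((x : A g 1).1.snd i) j :=
  snd_mul_sgA (good41 g) _ _ _

theorem h4_fst (x : Pv g 1 3) (i j : Fin 7) :
    (h4 g x : A g 1).1.fst i j = pull (s2 3 5 4 6) ((x : A g 1).1.fst i) j :=
  fst_mul_sgA (good34 g) _ _ _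

theorem h4_snd (x : Pv g 1 3) (i j : Fin 7) :
    (h4 g x : A g 1).1.snd i j = pull (s2 3 5 4 6) ((x : A g 1).1.snd i) j :=
  snd_mul_sgA (good34 g) _ _ _

theorem h3_inj : Function.Injective (h3 g) := by
  rw [injective_iff_map_eq_zero]
  intro x hx
  refine Pv_zero fun i j hj => ?_
  rcases blk3 hj with rfl | rfl
  · have h1 := h3_fst0 x i 1
    have h2 := h3_snd0 x i 1
    rw [hx] at h1 h2
    exact ⟨h1.symm, h2.symm⟩
  · have h1 := h3_fst1 x i 1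
    have h2 := h3_snd1 x i 1
    rw [hx] at h1 h2
    exact ⟨h1.symm, h2.symm⟩

theorem h4_inj : Function.Injective (h4 g) := by
  rw [injective_iff_map_eq_zero]
  intro x hx
  refine Pv_zero fun i j hj => ?_
  rcases blk3 hj with rfl | rfl
  · have h1 := h4_fst x i 5
    have h2 := h4_snd x i 5
    rw [hx] at h1 h2
    exact ⟨h1.symm, h2.symm⟩
  · have h1 := h4_fst x i 6
    have h2 := h4_snd x i 6
    rw [hx] at h1 h2
    exact ⟨h1.symm, h2.symm⟩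

theorem h3_range_mp (x : Pv g 1 3) {k P : ℤ} {r : Fin 7 → Op K} (hr : r ∈ Lat g 1 k P) :
    (r ᵥ* (h3 g x 0 : A g 1).1.fst) 1 * X 0 + (r ᵥ* (h3 g x 1 : A g 1).1.fst) 1 * X 1 ∈
        Fil g (k - 2) (P + 1) ∧
      (r ᵥ* (h3 g x 0 : A g 1).1.snd) 1 * X 0 + (r ᵥ* (h3 g x 1 : A g 1).1.snd) 1 * X 1 ∈
        Fil g (k - 2) (P + 1 + 1) := by
  have a := (mem_Lat.1 (row_fst (x : A g 1) hr)).2.2.2.1.2.2
  have b := (mem_Lat.1 (row_snd (x : A g 1) hr)).2.2.2.1.2.2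
  rw [show k - 1 - 1 = k - 2 by ring] at a b
  rw [vecMul_pull (h3_fst0 x), vecMul_pull (h3_snd0 x), vecMul_pull (h3_fst1 x),
    vecMul_pull (h3_snd1 x)]
  exact ⟨a, b⟩

/-- two moved elements -/
noncomputable def mv2 {s : ℤ} (σ τ : Fin 7 → Option (Fin 7)) (p q : A g s)
    (h : ∀ k P : ℤ, ∀ r ∈ Lat g s k P,
      pull σ (r ᵥ* p.1.fst) + pull τ (r ᵥ* q.1.fst) ∈ Lat g s k P ∧
      pull σ (r ᵥ* p.1.snd) + pull τ (r ᵥ* q.1.snd) ∈ Lat g s k (P + 1)) : A g s :=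
  ofM (p.1.fst * sgm K σ + q.1.fst * sgm K τ) (p.1.snd * sgm K σ + q.1.snd * sgm K τ)
    (fun k P r hr => by
      rw [add_zero, Matrix.vecMul_add, ← Matrix.vecMul_vecMul, ← Matrix.vecMul_vecMul, vecMul_sgm,
        vecMul_sgm]
      exact (h k P r hr).1)
    (fun k P r hr => by
      rw [Matrix.vecMul_add, ← Matrix.vecMul_vecMul, ← Matrix.vecMul_vecMul, vecMul_sgm,
        vecMul_sgm]
      exact (h k P r hr).2)

theorem mv2_fst {s : ℤ} (σ τ : Fin 7 → Option (Fin 7)) (p q : A g s) (h) (i j : Fin 7) :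
    (mv2 σ τ p q h).1.fst i j = pull σ (p.1.fst i) j + pull τ (q.1.fst i) j := by
  have : (mv2 σ τ p q h).1.fst = p.1.fst * sgm K σ + q.1.fst * sgm K τ := rfl
  rw [this, Matrix.add_apply, mul_sgm, mul_sgm]

theorem mv2_snd {s : ℤ} (σ τ : Fin 7 → Option (Fin 7)) (p q : A g s) (h) (i j : Fin 7) :
    (mv2 σ τ p q h).1.snd i j = pull σ (p.1.snd i) j + pull τ (q.1.snd i) j := by
  have : (mv2 σ τ p q h).1.snd = p.1.snd * sgm K σ + q.1.snd * sgm K τ := rfl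
  rw [this, Matrix.add_apply, mul_sgm, mul_sgm]

theorem mv2_mem {s : ℤ} {σ τ : Fin 7 → Option (Fin 7)} {p q : A g s} (h) {v : Fin 5}
    (hv : ∀ j, blk j ≠ v → σ j = none) (hv' : ∀ j, blk j ≠ v → τ j = none) :
    mv2 σ τ p q h ∈ Pv g s v := by
  rw [mem_Pv]
  intro i j hj
  rw [mv2_fst, mv2_snd, pull, pull, pull, pull, hv j hj, hv' j hj]
  exact ⟨add_zero _, add_zero _⟩

theorem h3_range_mpr (y : Fin 2 → Pv g 1 1)
    (h : ∀ k P : ℤ, ∀ r ∈ Lat g 1 k P,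
      pull (s1 1 3) (r ᵥ* (y 0 : A g 1).1.fst) + pull (s1 1 4) (r ᵥ* (y 1 : A g 1).1.fst) ∈
        Lat g 1 k P ∧
      pull (s1 1 3) (r ᵥ* (y 0 : A g 1).1.snd) + pull (s1 1 4) (r ᵥ* (y 1 : A g 1).1.snd) ∈
        Lat g 1 k (P + 1)) : y ∈ LinearMap.range (h3 g) := by
  let x : Pv g 1 3 := ⟨mv2 (s1 1 3) (s1 1 4) (y 0 : A g 1) (y 1) h,
    mv2_mem h (by decide) (by decide)⟩
  have hx1 : ∀ i j, (x : A g 1).1.fst i j = pull (s1 1 3) ((y 0 : A g 1).1.fst i) j +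
    pull (s1 1 4) ((y 1 : A g 1).1.fst i) j := fun i j => mv2_fst _ _ _ _ h i j
  have hx2 : ∀ i j, (x : A g 1).1.snd i j = pull (s1 1 3) ((y 0 : A g 1).1.snd i) j +
    pull (s1 1 4) ((y 1 : A g 1).1.snd i) j := fun i j => mv2_snd _ _ _ _ h i j
  clear_value x
  refine ⟨x, ?_⟩
  funext l
  refine Pv_eq fun i j hj => ?_
  obtain rfl := blk1 hj
  have hl : l = 0 ∨ l = 1 := by omega
  rcases hl with rfl | rfl
  · rw [h3_fst0, h3_snd0]
    simp [pull, s1, hx1, hx2]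
  · rw [h3_fst1, h3_snd1]
    simp [pull, s1, hx1, hx2]

theorem mem_range_h3 (y : Fin 2 → Pv g 1 1) : y ∈ LinearMap.range (h3 g) ↔
    ∀ k P : ℤ, ∀ r ∈ Lat g 1 k P,
      (r ᵥ* (y 0 : A g 1).1.fst) 1 * X 0 + (r ᵥ* (y 1 : A g 1).1.fst) 1 * X 1 ∈
        Fil g (k - 2) (P + 1) ∧
      (r ᵥ* (y 0 : A g 1).1.snd) 1 * X 0 + (r ᵥ* (y 1 : A g 1).1.snd) 1 * X 1 ∈
        Fil g (k - 2) (P + 1 + 1) := by
  constructor
  · rintro ⟨x, rfl⟩ k P r hr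
    exact h3_range_mp x hr
  · intro h
    refine h3_range_mpr y fun k P r hr => ?_
    obtain ⟨h1, h2⟩ := h k P r hr
    have a0 := (mem_Lat.1 (row_fst (y 0 : A g 1) hr)).2.1
    have a1 := (mem_Lat.1 (row_fst (y 1 : A g 1) hr)).2.1
    have b0 := (mem_Lat.1 (row_snd (y 0 : A g 1) hr)).2.1
    have b1 := (mem_Lat.1 (row_snd (y 1 : A g 1) hr)).2.1
    rw [← show k - 1 - 1 = k - 2 by ring] at h1 h2
    rw [mem_Lat, mem_Lat]
    simp [pull, s1, h1, h2, a0, a1, b0, b1]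

theorem mem_range_h4 (p : Pv g 1 4) : p ∈ LinearMap.range (h4 g) ↔
    ∀ k P : ℤ, ∀ r ∈ Lat g 1 k P,
      ((r ᵥ* (p : A g 1).1.fst) 5 ∈ Fil g (k - 1) P ∧
        (r ᵥ* (p : A g 1).1.fst) 6 ∈ Fil g (k - 1) P) ∧
      (r ᵥ* (p : A g 1).1.snd) 5 ∈ Fil g (k - 1) (P + 1) ∧
        (r ᵥ* (p : A g 1).1.snd) 6 ∈ Fil g (k - 1) (P + 1) := by
  constructor
  · rintro ⟨x, rfl⟩ k P r hr
    have a := (mem_Lat.1 (row_fst (x : A g 1) hr)).2.2.2.1
    have b := (mem_Lat.1 (row_snd (x : A g 1) hr)).2.2.2.1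
    rw [vecMul_pull (h4_fst x), vecMul_pull (h4_snd x)]
    exact ⟨⟨a.1, a.2.1⟩, b.1, b.2.1⟩
  · intro h
    have h' : ∀ k P : ℤ, ∀ r ∈ Lat g 1 k P,
        pull (s2 5 3 6 4) (r ᵥ* (p : A g 1).1.fst) ∈ Lat g 1 k P ∧
        pull (s2 5 3 6 4) (r ᵥ* (p : A g 1).1.snd) ∈ Lat g 1 k (P + 1) := by
      intro k P r hr
      obtain ⟨⟨h1, h2⟩, h3, h4⟩ := h k P r hr
      have a := (mem_Lat.1 (row_fst (p : A g 1) hr)).2.2.2.2.2.2
      have b := (mem_Lat.1 (row_snd (p : A g 1) hr)).2.2.2.2.2.2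
      rw [← show k - 1 - 1 = k - 2 by ring] at a b
      rw [mem_Lat, mem_Lat]
      simp [pull, s2, h1, h2, h3, h4, a, b]
    refine ⟨⟨mv (s2 5 3 6 4) (p : A g 1) h', mv_mem h' (by decide)⟩, ?_⟩
    refine Pv_eq fun i j hj => ?_
    rw [h4_fst, h4_snd]
    rcases blk4 hj with rfl | rfl
    · exact ⟨mv_fst _ _ h' i 3, mv_snd _ _ h' i 3⟩
    · exact ⟨mv_fst _ _ h' i 4, mv_snd _ _ h' i 4⟩

/-! #### the variant `(Pv 2)² → Pv 3`, `s = 1` -/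

theorem good23 (hg : Gen g) : SGood g 1 (s1 2 3) := by
  intro k P w hw
  obtain ⟨w0, w1, w2, ⟨w3, w4, w5⟩, w6, w7, w8⟩ := mem_Lat.1 hw
  have h1 := Fil_mono g (show k - 2 ≤ k - 1 by omega) w2
  have h2 := FD757.mul_X_mem hg 0 w2
  rw [show k - 2 = k - 1 - 1 by ring] at h2
  rw [mem_Lat]
  simp [pull, s1, h1, h2]

theorem good24 (hg : Gen g) : SGood g 1 (s1 2 4) := by
  intro k P w hw
  obtain ⟨w0, w1, w2, ⟨w3, w4, w5⟩, w6, w7, w8⟩ := mem_Lat.1 hw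
  have h1 := Fil_mono g (show k - 2 ≤ k - 1 by omega) w2
  have h2 := FD757.mul_X_mem hg 1 w2
  rw [show k - 2 = k - 1 - 1 by ring] at h2
  rw [mem_Lat]
  simp [pull, s1, h1, h2]

/-- the two units `O(-2) → K₁(-1)`, `s = 1` -/
noncomputable def u2K (hg : Gen g) : Fin 2 → Pv g 1 3 :=
  ![⟨sgA (good23 hg), sgA_mem _ (by decide)⟩, ⟨sgA (good24 hg), sgA_mem _ (by decide)⟩]

/-- `(Pv 2)² → Pv 3`, `s = 1` -/
noncomputable def h3o (hg : Gen g) : (Fin 2 → Pv g 1 2) →ₗ[A g 1] Pv g 1 3 :=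
  (mulR 2 (u2K hg 0)).comp (LinearMap.proj 0) + (mulR 2 (u2K hg 1)).comp (LinearMap.proj 1)

theorem h3o_fst (hg : Gen g) (x : Fin 2 → Pv g 1 2) (i j : Fin 7) :
    (h3o hg x : A g 1).1.fst i j = pull (s1 2 3) ((x 0 : A g 1).1.fst i) j +
      pull (s1 2 4) ((x 1 : A g 1).1.fst i) j := by
  rw [← fst_mul_sgA (good23 hg), ← fst_mul_sgA (good24 hg)]
  rfl

theorem h3o_snd (hg : Gen g) (x : Fin 2 → Pv g 1 2) (i j : Fin 7) :
    (h3o hg x : A g 1).1.snd i j = pull (s1 2 3) ((x 0 : A g 1).1.snd i) j +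
      pull (s1 2 4) ((x 1 : A g 1).1.snd i) j := by
  rw [← snd_mul_sgA (good23 hg), ← snd_mul_sgA (good24 hg)]
  rfl

theorem h3o_inj (hg : Gen g) : Function.Injective (h3o hg) := by
  rw [injective_iff_map_eq_zero]
  intro x hx
  funext l
  refine Pv_zero fun i j hj => ?_
  obtain rfl := blk2 hj
  fin_cases l
  · have h1 := h3o_fst hg x i 3
    have h2 := h3o_snd hg x i 3
    rw [hx] at h1 h2
    simp only [pull, s1, if_true, Fin.reduceEq, if_false, Option.elim, add_zero] at h1 h2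
    exact ⟨h1.symm, h2.symm⟩
  · have h1 := h3o_fst hg x i 4
    have h2 := h3o_snd hg x i 4
    rw [hx] at h1 h2
    simp only [pull, s1, if_true, Fin.reduceEq, if_false, Option.elim, zero_add] at h1 h2
    exact ⟨h1.symm, h2.symm⟩

theorem vecMul_h3o_fst (hg : Gen g) (x : Fin 2 → Pv g 1 2) (r : Fin 7 → Op K) :
    r ᵥ* (h3o hg x : A g 1).1.fst = pull (s1 2 3) (r ᵥ* (x 0 : A g 1).1.fst) +
      pull (s1 2 4) (r ᵥ* (x 1 : A g 1).1.fst) := by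
  have : (h3o hg x : A g 1).1.fst = (x 0 : A g 1).1.fst * sgm K (s1 2 3) +
      (x 1 : A g 1).1.fst * sgm K (s1 2 4) := by
    funext i j
    rw [h3o_fst, Matrix.add_apply, mul_sgm, mul_sgm]
  rw [this, Matrix.vecMul_add, ← Matrix.vecMul_vecMul, ← Matrix.vecMul_vecMul, vecMul_sgm,
    vecMul_sgm]

theorem vecMul_h3o_snd (hg : Gen g) (x : Fin 2 → Pv g 1 2) (r : Fin 7 → Op K) :
    r ᵥ* (h3o hg x : A g 1).1.snd = pull (s1 2 3) (r ᵥ* (x 0 : A g 1).1.snd) +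
      pull (s1 2 4) (r ᵥ* (x 1 : A g 1).1.snd) := by
  have : (h3o hg x : A g 1).1.snd = (x 0 : A g 1).1.snd * sgm K (s1 2 3) +
      (x 1 : A g 1).1.snd * sgm K (s1 2 4) := by
    funext i j
    rw [h3o_snd, Matrix.add_apply, mul_sgm, mul_sgm]
  rw [this, Matrix.vecMul_add, ← Matrix.vecMul_vecMul, ← Matrix.vecMul_vecMul, vecMul_sgm,
    vecMul_sgm]

theorem range_h3o_mp (hg : Gen g) (x : Fin 2 → Pv g 1 2) {k P : ℤ} {r : Fin 7 → Op K}
    (hr : r ∈ Lat g 1 k P) :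
    ((r ᵥ* (h3o hg x : A g 1).1.fst) 3 ∈ Fil g (k - 2) P ∧
        (r ᵥ* (h3o hg x : A g 1).1.fst) 4 ∈ Fil g (k - 2) P) ∧
      (r ᵥ* (h3o hg x : A g 1).1.snd) 3 ∈ Fil g (k - 2) (P + 1) ∧
        (r ᵥ* (h3o hg x : A g 1).1.snd) 4 ∈ Fil g (k - 2) (P + 1) := by
  have a0 := (mem_Lat.1 (row_fst (x 0 : A g 1) hr)).2.2.1
  have a1 := (mem_Lat.1 (row_fst (x 1 : A g 1) hr)).2.2.1
  have b0 := (mem_Lat.1 (row_snd (x 0 : A g 1) hr)).2.2.1
  have b1 := (mem_Lat.1 (row_snd (x 1 : A g 1) hr)).2.2.1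
  rw [vecMul_h3o_fst, vecMul_h3o_snd]
  simp only [Pi.add_apply, pull, s1, if_true, Fin.reduceEq, if_false, Option.elim, zero_add,
    add_zero]
  exact ⟨⟨a0, a1⟩, b0, b1⟩

theorem range_h3o_mpr (hg : Gen g) (p : Pv g 1 3)
    (h3 : ∀ k P : ℤ, ∀ r ∈ Lat g 1 k P, pull (s1 3 2) (r ᵥ* (p : A g 1).1.fst) ∈ Lat g 1 k P ∧
        pull (s1 3 2) (r ᵥ* (p : A g 1).1.snd) ∈ Lat g 1 k (P + 1))
    (h4 : ∀ k P : ℤ, ∀ r ∈ Lat g 1 k P, pull (s1 4 2) (r ᵥ* (p : A g 1).1.fst) ∈ Lat g 1 k P ∧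
        pull (s1 4 2) (r ᵥ* (p : A g 1).1.snd) ∈ Lat g 1 k (P + 1)) :
    p ∈ LinearMap.range (h3o hg) := by
  let a : Pv g 1 2 := ⟨mv (s1 3 2) (p : A g 1) h3, mv_mem h3 (by decide)⟩
  let b : Pv g 1 2 := ⟨mv (s1 4 2) (p : A g 1) h4, mv_mem h4 (by decide)⟩
  have ha1 : ∀ i j, (a : A g 1).1.fst i j = pull (s1 3 2) ((p : A g 1).1.fst i) j :=
    fun i j => mv_fst _ _ h3 i j
  have ha2 : ∀ i j, (a : A g 1).1.snd i j = pull (s1 3 2) ((p : A g 1).1.snd i) j :=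
    fun i j => mv_snd _ _ h3 i j
  have hb1 : ∀ i j, (b : A g 1).1.fst i j = pull (s1 4 2) ((p : A g 1).1.fst i) j :=
    fun i j => mv_fst _ _ h4 i j
  have hb2 : ∀ i j, (b : A g 1).1.snd i j = pull (s1 4 2) ((p : A g 1).1.snd i) j :=
    fun i j => mv_snd _ _ h4 i j
  clear_value a b
  refine ⟨![a, b], ?_⟩
  have c0 : (![a, b] : Fin 2 → Pv g 1 2) 0 = a := rfl
  have c1 : (![a, b] : Fin 2 → Pv g 1 2) 1 = b := rfl
  refine Pv_eq fun i j hj => ?_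
  rw [h3o_fst, h3o_snd, c0, c1]
  rcases blk3 hj with rfl | rfl
  · simp [pull, s1, ha1, ha2]
  · simp [pull, s1, hb1, hb2]

theorem mem_range_h3o (hg : Gen g) (p : Pv g 1 3) : p ∈ LinearMap.range (h3o hg) ↔
    ∀ k P : ℤ, ∀ r ∈ Lat g 1 k P,
      ((r ᵥ* (p : A g 1).1.fst) 3 ∈ Fil g (k - 2) P ∧
        (r ᵥ* (p : A g 1).1.fst) 4 ∈ Fil g (k - 2) P) ∧
      (r ᵥ* (p : A g 1).1.snd) 3 ∈ Fil g (k - 2) (P + 1) ∧
        (r ᵥ* (p : A g 1).1.snd) 4 ∈ Fil g (k - 2) (P + 1) := by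
  constructor
  · rintro ⟨x, rfl⟩ k P r hr
    exact range_h3o_mp hg x hr
  · intro h
    refine range_h3o_mpr hg p (fun k P r hr => ?_) (fun k P r hr => ?_)
    · have h1 := h k P r hr
      rw [mem_Lat, mem_Lat]
      simp [pull, s1, h1.1.1, h1.2.1]
    · have h1 := h k P r hr
      rw [mem_Lat, mem_Lat]
      simp [pull, s1, h1.1.2, h1.2.2]

end one

/-! ### the devissage -/

section dev

open ExtRes700 Null341

variable (g : K) (s : ℤ)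

/-- `A → ∏ Pv v` -/
noncomputable def toPv : A g s →ₗ[A g s]
    (Pv g s 0 × Pv g s 1 × Pv g s 2 × Pv g s 3 × Pv g s 4) :=
  (Dev580.prm (eps_idem g s 0)).prod ((Dev580.prm (eps_idem g s 1)).prod
    ((Dev580.prm (eps_idem g s 2)).prod ((Dev580.prm (eps_idem g s 3)).prod
      (Dev580.prm (eps_idem g s 4)))))

/-- `∏ Pv v → A` -/
noncomputable def ofPv : (Pv g s 0 × Pv g s 1 × Pv g s 2 × Pv g s 3 × Pv g s 4) →ₗ[A g s]
    A g s :=
  (Pv g s 0).subtype.coprod ((Pv g s 1).subtype.coprod ((Pv g s 2).subtype.coprod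
    ((Pv g s 3).subtype.coprod (Pv g s 4).subtype)))

theorem ofPv_toPv : (ofPv g s) ∘ₗ (toPv g s) = LinearMap.id := by
  refine LinearMap.ext fun x => ?_
  have hs := sum_eps g s
  rw [Fin.sum_univ_five] at hs
  change x * eps g s 0 + (x * eps g s 1 + (x * eps g s 2 + (x * eps g s 3 + x * eps g s 4))) = x
  rw [← mul_add, ← mul_add, ← mul_add, ← mul_add, ← add_assoc, ← add_assoc, ← add_assoc, hs,
    mul_one]

end dev

/-! ### the torsion quotients -/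

section quot

variable {g : K} {s : ℤ} {v : Fin 5} {n : ℕ}

noncomputable instance iQ_grp (N : Submodule (A g s) (Pv g s v)) :
    AddCommGroup (Pv g s v ⧸ N) := Submodule.Quotient.addCommGroup N
noncomputable instance iQ_mod (N : Submodule (A g s) (Pv g s v)) :
    Module (A g s) (Pv g s v ⧸ N) := Submodule.Quotient.module N
noncomputable instance iQf_grp (N : Submodule (A g s) (Fin n → Pv g s v)) :
    AddCommGroup ((Fin n → Pv g s v) ⧸ N) := Submodule.Quotient.addCommGroup N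
noncomputable instance iQf_mod (N : Submodule (A g s) (Fin n → Pv g s v)) :
    Module (A g s) ((Fin n → Pv g s v) ⧸ N) := Submodule.Quotient.module N

end quot

/-- `Q1 = Pv 1 / Pv 2` -/
abbrev Q1 (g : K) (s : ℤ) : Type := Pv g s 1 ⧸ LinearMap.range (f1 g s)
/-- `Q2 = Pv 0 / Pv 1` -/
abbrev Q2 (g : K) (s : ℤ) : Type := Pv g s 0 ⧸ LinearMap.range (f2 g s)
/-- `Q3 = Pv 3 / (Pv 1)²`, `s = 0` -/
abbrev Q3 {g : K} (hg : Gen g) : Type := Pv g 0 3 ⧸ LinearMap.range (f3 hg)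
/-- `Q4 = Pv 3 / Pv 4`, `s = 0` -/
abbrev Q4 (g : K) : Type := Pv g 0 3 ⧸ LinearMap.range (f4 g)
/-- `R3 = (Pv 1)² / Pv 3`, `s = 1` -/
abbrev R3 (g : K) : Type := (Fin 2 → Pv g 1 1) ⧸ LinearMap.range (h3 g)
/-- `R3o = Pv 3 / (Pv 2)²`, `s = 1` -/
abbrev R3o {g : K} (hg : Gen g) : Type := Pv g 1 3 ⧸ LinearMap.range (h3o hg)
/-- `R4 = Pv 4 / Pv 3`, `s = 1` -/
abbrev R4 (g : K) : Type := Pv g 1 4 ⧸ LinearMap.range (h4 g)


section devA

open ExtRes700 Null341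

/-- the torsion step, `N → M → M / N` -/
theorem step {R : Type} [Ring R] {N M : Type} [AddCommGroup N] [Module R N] [AddCommGroup M]
    [Module R M] (f : N →ₗ[R] M) (hf : Function.Injective f) (X : Type) [AddCommGroup X]
    [Module R X] (hQ : ∀ q, E0 R X (M ⧸ LinearMap.range f) q) (q : ℕ) :
    E0 R X N q ↔ E0 R X M q :=
  E0_iff_of_quot f _ hf (Submodule.mkQ_surjective _) (LinearMap.exact_map_mkQ_range f) hQ q

variable {g : K}

theorem step1 {s : ℤ} (X : Type) [AddCommGroup X] [Module (A g s) X]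
    (hq : ∀ q, E0 (A g s) X (Q1 g s) q) (q : ℕ) :
    E0 (A g s) X (Pv g s 2) q ↔ E0 (A g s) X (Pv g s 1) q := step (f1 g s) f1_inj X hq q

theorem step2 {s : ℤ} (X : Type) [AddCommGroup X] [Module (A g s) X]
    (hq : ∀ q, E0 (A g s) X (Q2 g s) q) (q : ℕ) :
    E0 (A g s) X (Pv g s 1) q ↔ E0 (A g s) X (Pv g s 0) q := step (f2 g s) f2_inj X hq q

/-- from `P1` to `P3` -/
theorem stepPi {R : Type} [Ring R] {P1 P3 : Submodule R R} (f : (Fin 2 → P1) →ₗ[R] P3)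
    (hf : Function.Injective f) (X : Type) [AddCommGroup X]
    [Module R X] (hQ : ∀ q, E0 R X (P3 ⧸ LinearMap.range f) q) (q : ℕ)
    (h : E0 R X P1 q) : E0 R X P3 q :=
  (step f hf X hQ q).1 (pi_right q 2 h)

theorem step3 (hg : Gen g) (X : Type) [AddCommGroup X] [Module (A g 0) X]
    (hq : ∀ q, E0 (A g 0) X (Q3 hg) q) (q : ℕ)
    (h : E0 (A g 0) X (Pv g 0 1) q) : E0 (A g 0) X (Pv g 0 3) q := by
  refine stepPi (R := A g 0) (P1 := Pv g 0 1) (P3 := Pv g 0 3) (f3 hg) ?_ X ?_ q ?_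
  · exact f3_inj hg
  · exact hq
  · exact h

theorem step4 (X : Type) [AddCommGroup X] [Module (A g 0) X]
    (hq : ∀ q, E0 (A g 0) X (Q4 g) q) (q : ℕ) :
    E0 (A g 0) X (Pv g 0 4) q ↔ E0 (A g 0) X (Pv g 0 3) q :=
  step (f4 g) f4_inj X hq q

theorem step3' (X : Type) [AddCommGroup X] [Module (A g 1) X]
    (hq : ∀ q, E0 (A g 1) X (R3 g) q) (q : ℕ) :
    E0 (A g 1) X (Pv g 1 3) q ↔ E0 (A g 1) X (Fin 2 → Pv g 1 1) q :=
  step (h3 g) h3_inj X hq q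

theorem step4' (X : Type) [AddCommGroup X] [Module (A g 1) X]
    (hq : ∀ q, E0 (A g 1) X (R4 g) q) (q : ℕ) :
    E0 (A g 1) X (Pv g 1 3) q ↔ E0 (A g 1) X (Pv g 1 4) q :=
  step (h4 g) h4_inj X hq q

/-- the five columns give `A` -/
theorem cols {s : ℤ} (X : Type) [AddCommGroup X] [Module (A g s) X] (q : ℕ)
    (h : ∀ v, E0 (A g s) X (Pv g s v) q) : E0 (A g s) X (A g s) q :=
  Dev580.decomp (eps g s) (eps_idem g s) (sum_eps g s) q h

/-- **devissage, `s = 0`** -/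
theorem devA0 (hg : Gen g) (X : Type) [AddCommGroup X] [Module (A g 0) X] (q : ℕ)
    (hq1 : ∀ q, E0 (A g 0) X (Q1 g 0) q) (hq2 : ∀ q, E0 (A g 0) X (Q2 g 0) q)
    (hq3 : ∀ q, E0 (A g 0) X (Q3 hg) q) (hq4 : ∀ q, E0 (A g 0) X (Q4 g) q)
    (h : E0 (A g 0) X (Pv g 0 2) q) : E0 (A g 0) X (A g 0) q := by
  have k1 := (step1 X hq1 q).1 h
  have k0 := (step2 X hq2 q).1 k1
  have k3 := step3 hg X hq3 q k1
  have k4 := (step4 X hq4 q).2 k3
  refine cols X q fun v => ?_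
  match v with
  | 0 => exact k0
  | 1 => exact k1
  | 2 => exact h
  | 3 => exact k3
  | 4 => exact k4

/-- **devissage, `s = 1`** -/
theorem devA1 (X : Type) [AddCommGroup X] [Module (A g 1) X] (q : ℕ)
    (hq1 : ∀ q, E0 (A g 1) X (Q1 g 1) q) (hq2 : ∀ q, E0 (A g 1) X (Q2 g 1) q)
    (hq3 : ∀ q, E0 (A g 1) X (R3 g) q) (hq4 : ∀ q, E0 (A g 1) X (R4 g) q)
    (h : E0 (A g 1) X (Pv g 1 2) q) : E0 (A g 1) X (A g 1) q := by
  have k1 := (step1 X hq1 q).1 h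
  have k0 := (step2 X hq2 q).1 k1
  have k3 := (step3' X hq3 q).2 (pi_right q 2 k1)
  have k4 := (step4' X hq4 q).1 k3
  refine cols X q fun v => ?_
  match v with
  | 0 => exact k0
  | 1 => exact k1
  | 2 => exact h
  | 3 => exact k3
  | 4 => exact k4

theorem step3o (hg : Gen g) (X : Type) [AddCommGroup X] [Module (A g 1) X]
    (hq : ∀ q, E0 (A g 1) X (R3o hg) q) (q : ℕ)
    (h : E0 (A g 1) X (Pv g 1 2) q) : E0 (A g 1) X (Pv g 1 3) q := by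
  refine stepPi (R := A g 1) (P1 := Pv g 1 2) (P3 := Pv g 1 3) (h3o hg) ?_ X ?_ q ?_
  · exact h3o_inj hg
  · exact hq
  · exact h

/-- **devissage, `s = 1`, with `(Pv 2)² → Pv 3`** -/
theorem devA1o (hg : Gen g) (X : Type) [AddCommGroup X] [Module (A g 1) X] (q : ℕ)
    (hq1 : ∀ q, E0 (A g 1) X (Q1 g 1) q) (hq2 : ∀ q, E0 (A g 1) X (Q2 g 1) q)
    (hq3 : ∀ q, E0 (A g 1) X (R3o hg) q) (hq4 : ∀ q, E0 (A g 1) X (R4 g) q)
    (h : E0 (A g 1) X (Pv g 1 2) q) : E0 (A g 1) X (A g 1) q := by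
  have k1 := (step1 X hq1 q).1 h
  have k0 := (step2 X hq2 q).1 k1
  have k3 := step3o hg X hq3 q h
  have k4 := (step4' X hq4 q).1 k3
  refine cols X q fun v => ?_
  match v with
  | 0 => exact k0
  | 1 => exact k1
  | 2 => exact h
  | 3 => exact k3
  | 4 => exact k4

end devA

end Crest.Agent.R186.B281
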