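import Crest.Agent.R186.Indep_667
import Crest.Agent.R186.DefsQ_830

/-!
Row 186, half (A) (helper365): the parameters `Par k0` over the ground field
`k0 = Frac F₂[x, y, z]`: `p, q₁, q₂, g` = `x, y, z, x + 1`.
-/

set_option autoImplicit false

namespace Crest.Agent.R186.ParK0365

open Crest.Agent.R186.DefsQ830

theorem two0 : (2 : Indep667.k0) = 0 := by
  have : CharP Indep667.k0 2 :=
    charP_of_injective_algebraMap (IsFractionRing.injective (MvPolynomial (Fin 3) (ZMod 2))
      Indep667.k0) 2
  exact CharTwo.two_eq_zero

/-- **the parameters of half (A) over `k0`** -/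
noncomputable def par0 : Par Indep667.k0 where
  g := Indep667.par 3
  p := Indep667.par 0
  q1 := Indep667.par 1
  q2 := Indep667.par 2
  g0 := Indep667.par_ne_zero 3
  p0 := Indep667.par_ne_zero 0
  q10 := Indep667.par_ne_zero 1
  q20 := Indep667.par_ne_zero 2
  two := two0
  gn := by
    intro n hn h
    have h1 := Indep667.par_indep4 0 0 0 (n : ℤ) (by
      rw [zpow_zero, zpow_zero, zpow_zero, zpow_natCast, one_mul, one_mul, one_mul]; exact h)
    omega
  ind := by
    intro i j k h
    have h1 := Indep667.par_indep3 i j k h
    exact h1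

/-- the same with the literal ground field of the statements -/
noncomputable def par0' : Par (FractionRing (MvPolynomial (Fin 3) (ZMod 2))) := par0

theorem nonempty_par : Nonempty (Par (FractionRing (MvPolynomial (Fin 3) (ZMod 2)))) := ⟨par0'⟩

end Crest.Agent.R186.ParK0365
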