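import Crest.Agent.R186.AcIff_492

/-!
Row 186 (A), helper831: quasi-isomorphisms of degree `lo` (on 515's `GC`), comparison with 492's
`CE`, two-out-of-three, and the comparison `Y ⊗ N → W` from `RRes Y G`, `LRes X N` and a
description of `W` as `G ⊗ X`.
-/

set_option autoImplicit false
set_option linter.style.haveILetI false
set_option linter.unusedSectionVars false

open MulOpposite

namespace Crest.Agent.R186.QD831

open Hat827 Hat827.DGA Frame515 Res255 AcIff492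

variable {K : Type} [Field K]

theorem cast_gr {X : GC K} {k l : ℤ} {x : X.X} (h : x ∈ X.gr k) (e : k = l) : x ∈ X.gr l := e ▸ h

/-- a quasi-isomorphism of degree `lo` -/
structure QD (X Y : GC K) (lo : ℤ) (f : X.X →ₗ[K] Y.X) : Prop where
  mem : ∀ {k : ℤ} {x : X.X}, x ∈ X.gr k → f x ∈ Y.gr (lo + k)
  d : ∀ x : X.X, f (X.d x) = Y.d (f x)
  surj : ∀ (k : ℤ) (y : Y.X), y ∈ Y.gr (lo + k) → Y.d y = 0 →
    ∃ x ∈ X.gr k, X.d x = 0 ∧ ∃ z ∈ Y.gr (lo + k + 1), y = f x + Y.d z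
  inj : ∀ (k : ℤ) (x : X.X), x ∈ X.gr k → X.d x = 0 → (∃ z ∈ Y.gr (lo + k + 1), f x = Y.d z) →
    ∃ w ∈ X.gr (k + 1), x = X.d w

variable {X Y W T P Q : GC K}

/-- from acyclic cones -/
theorem QD.of_ce {lo : ℤ} {f : X.X →ₗ[K] Y.X} (two : ∀ y : Y.X, y + y = 0)
    (mem : ∀ {k : ℤ} {x : X.X}, x ∈ X.gr k → f x ∈ Y.gr (lo + k))
    (d : ∀ x : X.X, f (X.d x) = Y.d (f x)) (h : ∀ k, CE X Y lo k f) : QD X Y lo f where
  mem := mem
  d := d
  surj k y hy hd := by
    obtain ⟨x, hx, z, hz, e1, e2⟩ := h k 0 y (Submodule.zero_mem _) (map_zero _) hy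
      (by rw [map_zero, zero_add, hd])
    exact ⟨x, hx, e1, z, hz, e2⟩
  inj := by
    rintro k x hx hd ⟨z, hz, e⟩
    obtain ⟨y, hy, _, _, e1, _⟩ := h (k + 1) x z (cast_gr hx (by ring)) hd
      (cast_gr hz (by ring)) (by rw [e, two])
    exact ⟨y, hy, e1.symm⟩

/-- acyclic cones -/
theorem QD.ce {lo : ℤ} {f : X.X →ₗ[K] Y.X} (two : ∀ y : Y.X, y + y = 0)
    (h : QD X Y lo f) (k : ℤ) : CE X Y lo k f := by
  intro x n hx hd hn e
  have e' : f x = Y.d n := by
    have h1 := eq_neg_of_add_eq_zero_left e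
    rw [h1, neg_eq_iff_add_eq_zero, two]
  obtain ⟨w, hw, rfl⟩ := h.inj (k - 1) x hx hd ⟨n, cast_gr hn (by ring), e'⟩
  have hw' : w ∈ X.gr k := cast_gr hw (by ring)
  obtain ⟨x', hx', hdx', z, hz, e2⟩ := h.surj k (n - f w) (Submodule.sub_mem _ hn (h.mem hw'))
    (by rw [map_sub, ← h.d, e', sub_self])
  refine ⟨x' + w, Submodule.add_mem _ hx' hw', z, hz, by rw [map_add, hdx', zero_add], ?_⟩
  rw [map_add, add_right_comm, ← e2, sub_add_cancel]

/-- the case of degree `0` -/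
theorem QD.qi {f : GCHom X Y} (h : QD X Y 0 f.f) : QI f := by
  refine ⟨fun k y hy hd => ?_, fun k x hx hd hz => ?_⟩
  · obtain ⟨x, hx, hdx, z, hz, e⟩ := h.surj k y (cast_gr hy (by ring)) hd
    exact ⟨x, hx, hdx, z, cast_gr hz (by ring), e⟩
  · obtain ⟨z, hz, e⟩ := hz
    exact h.inj k x hx hd ⟨z, cast_gr hz (by ring), e⟩

theorem QD.of_qi {f : GCHom X Y} (h : QI f) : QD X Y 0 f.f where
  mem hx := cast_gr (f.f_mem hx) (by ring)
  d := f.f_d
  surj k y hy hd := by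
    obtain ⟨x, hx, hdx, z, hz, e⟩ := h.surj k y (cast_gr hy (by ring)) hd
    exact ⟨x, hx, hdx, z, cast_gr hz (by ring), e⟩
  inj := by
    rintro k x hx hd ⟨z, hz, e⟩
    exact h.inj k x hx hd ⟨z, cast_gr hz (by ring), e⟩

/-- composition -/
theorem QD.comp {a b : ℤ} {g : Y.X →ₗ[K] W.X} {f : X.X →ₗ[K] Y.X} (hg : QD Y W b g)
    (hf : QD X Y a f) : QD X W (b + a) (g ∘ₗ f) where
  mem hx := cast_gr (hg.mem (hf.mem hx)) (by ring)
  d x := by rw [LinearMap.comp_apply, LinearMap.comp_apply, hf.d, hg.d]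
  surj k w hw hd := by
    obtain ⟨y, hy, hdy, z, hz, rfl⟩ := hg.surj (a + k) w (cast_gr hw (by ring)) hd
    obtain ⟨x, hx, hdx, z', hz', rfl⟩ := hf.surj k y hy hdy
    refine ⟨x, hx, hdx, g z' + z, Submodule.add_mem _ (cast_gr (hg.mem hz') (by ring))
      (cast_gr hz (by ring)), ?_⟩
    rw [map_add, map_add, hg.d, LinearMap.comp_apply, add_assoc]
  inj := by
    rintro k x hx hd ⟨z, hz, e⟩
    obtain ⟨y, hy, e'⟩ := hg.inj (a + k) (f x) (hf.mem hx) (by rw [← hf.d, hd, map_zero])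
      ⟨z, cast_gr hz (by ring), e⟩
    exact hf.inj k x hx hd ⟨y, hy, e'⟩

/-- if `f ∘ F1 = g ∘ F2` with `F1`, `F2`, `g` quasi-isomorphisms, so is `f` -/
theorem QD.of_square {a b c e : ℤ} {F1 : T.X →ₗ[K] P.X} {F2 : T.X →ₗ[K] Q.X}
    {f : P.X →ₗ[K] W.X} {g : Q.X →ₗ[K] W.X} (h1 : QD T P a F1) (h2 : QD T Q b F2)
    (h3 : QD Q W c g) (he : e + a = c + b) (hc : ∀ t, f (F1 t) = g (F2 t))
    (mem : ∀ {k : ℤ} {x : P.X}, x ∈ P.gr k → f x ∈ W.gr (e + k))
    (d : ∀ x : P.X, f (P.d x) = W.d (f x)) : QD P W e f where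
  mem := mem
  d := d
  surj k w hw hd := by
    obtain ⟨q, hq, hdq, z, hz, rfl⟩ := h3.surj (e + k - c) w (cast_gr hw (by ring)) hd
    obtain ⟨t, ht, hdt, q', hq', rfl⟩ := h2.surj (k - a) q (cast_gr hq (by omega)) hdq
    refine ⟨F1 t, cast_gr (h1.mem ht) (by ring), by rw [← h1.d, hdt, map_zero], g q' + z,
      Submodule.add_mem _ (cast_gr (h3.mem hq') (by omega)) (cast_gr hz (by ring)), ?_⟩
    rw [hc, map_add, map_add, h3.d, add_assoc]
  inj := by
    rintro k p hp hd ⟨w, hw, e1⟩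
    obtain ⟨t, ht, hdt, p', hp', rfl⟩ := h1.surj (k - a) p (cast_gr hp (by ring)) hd
    have e2 : g (F2 t) = W.d (w - f p') := by
      rw [← hc, map_sub, ← e1, map_add, d, add_sub_cancel_right]
    obtain ⟨q, hq, e3⟩ := h3.inj (e + k - c) (F2 t) (cast_gr (h2.mem ht) (by omega))
      (by rw [← h2.d, hdt, map_zero])
      ⟨w - f p', Submodule.sub_mem _ (cast_gr hw (by ring))
        (cast_gr (mem hp') (by ring)), e2⟩
    obtain ⟨t', ht', rfl⟩ := h2.inj (k - a) t ht hdt ⟨q, cast_gr hq (by omega), e3⟩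
    refine ⟨F1 t' + p', Submodule.add_mem _ (cast_gr (h1.mem ht') (by ring))
      (cast_gr hp' (by ring)), ?_⟩
    rw [map_add, h1.d]

/-- a bijection on homogeneous elements -/
theorem QD.of_bij {lo : ℤ} {f : X.X →ₗ[K] Y.X}
    (mem : ∀ {k : ℤ} {x : X.X}, x ∈ X.gr k → f x ∈ Y.gr (lo + k))
    (d : ∀ x : X.X, f (X.d x) = Y.d (f x))
    (h1 : ∀ k, ∀ x ∈ X.gr k, f x = 0 → x = 0)
    (h2 : ∀ k, ∀ y ∈ Y.gr (lo + k), ∃ x ∈ X.gr k, f x = y) : QD X Y lo f where
  mem := mem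
  d := d
  surj k y hy hd := by
    obtain ⟨x, hx, rfl⟩ := h2 k y hy
    refine ⟨x, hx, ?_, 0, Submodule.zero_mem _, by simp⟩
    refine h1 _ _ (X.d_mem hx) ?_
    rw [d, hd]
  inj := by
    rintro k x hx hd ⟨z, hz, e⟩
    obtain ⟨w, hw, rfl⟩ := h2 (k + 1) z (cast_gr hz (by ring))
    refine ⟨w, hw, ?_⟩
    have h3 : X.d w ∈ X.gr k := cast_gr (X.d_mem hw) (by ring)
    have := h1 k (x - X.d w) (Submodule.sub_mem _ hx h3) (by rw [map_sub, e, d, sub_self])
    exact sub_eq_zero.1 this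

theorem F_single {B B' : GC K} {lo : ℤ} {T : Tw B} {T' : Tw B'} (φ : TwM lo T T') (σ : T.ι)
    (x : B.X) : φ.F (Finsupp.single σ x) = Finsupp.single (φ.e σ) (φ.f x) := by
  classical
  refine Finsupp.ext fun τ => ?_
  rw [TwM.F_apply, Finsupp.single_apply, Finsupp.single_apply]
  by_cases h : σ = φ.e.symm τ
  · rw [if_pos h, if_pos (by rw [h, Equiv.apply_symm_apply])]
  · rw [if_neg h, if_neg (fun h' => h (by rw [← h', Equiv.symm_apply_apply])), map_zero]

section square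

variable {A : DGA K} {Y : RCells A} {G : RM A} {X : LCells A} {N : LM A}

theorem qG (R : RRes Y G) (X : LCells A) :
    QD (tG (tQ Y (selfB A)) X) (tG G X) R.lo (mG R.toRAug X).F :=
  QD.of_ce (fun _ => Finsupp.ext fun _ => two_R G _) (fun h => (mG R.toRAug X).F_mem h)
    (mG R.toRAug X).F_dd fun k => ceG R X k

theorem qY (Y : RCells A) (S : LRes X N) :
    QD (tY Y (tP (selfB A) X)) (tY Y N) S.lo (mY Y S.toLAug).F :=
  QD.of_ce (fun _ => Finsupp.ext fun _ => two_L N _) (fun h => (mY Y S.toLAug).F_mem h)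
    (mY Y S.toLAug).F_dd fun k => ceY Y S k

theorem qA {A B : DGA K} (Y : RCells A) (P : BM A B) (X : LCells B) :
    QD (tG (tQ Y P) X) (tY Y (tP P X)) 0 (asc Y P X).toLinearMap := by
  refine QD.of_bij (fun {k x} hx => cast_gr ((asc_gr Y P X k x).1 hx) (by ring))
    (fun x => asc_d Y P X x) (fun k x _ h => ?_) fun k y hy => ?_
  · exact (asc Y P X).injective (h.trans (map_zero _).symm)
  · obtain ⟨x, rfl⟩ := (asc Y P X).surjective y
    exact ⟨x, (asc_gr Y P X k x).2 (cast_gr hy (by ring)), rfl⟩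

/-- **the comparison theorem**: `W = G ⊗ X` through `g`, and `f : Y ⊗ N → W` agrees with `g` on
generators; then `f` is a quasi-isomorphism. -/
theorem square (R : RRes Y G) (S : LRes X N) {W : GC K} {c e : ℤ}
    {f : (tY Y N).X →ₗ[K] W.X} {g : (tG G X).X →ₗ[K] W.X} (h3 : QD (tG G X) W c g)
    (he : e + S.lo = c + R.lo)
    (hc : ∀ (κ : Y.ι) (σ : X.ι) (a : A.C),
      f (Finsupp.single κ (a • S.v σ)) = g (Finsupp.single σ (op a • R.v κ)))
    (mem : ∀ {k : ℤ} {x : (tY Y N).X}, x ∈ (tY Y N).gr k → f x ∈ W.gr (e + k))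
    (d : ∀ x : (tY Y N).X, f ((tY Y N).d x) = W.d (f x)) : QD (tY Y N) W e f := by
  have h1 := (qY Y S).comp (qA Y (selfB A) X)
  refine QD.of_square h1 (qG R X) h3 (by rw [add_zero]; exact he) (fun t => ?_) mem d
  suffices h : f ∘ₗ ((mY Y S.toLAug).F ∘ₗ (asc Y (selfB A) X).toLinearMap) =
      g ∘ₗ (mG R.toRAug X).F from LinearMap.congr_fun h t
  refine Finsupp.lhom_ext fun σ y => ?_
  suffices h2 : ∀ y : Y.ι →₀ A.C,
      f ((mY Y S.toLAug).F (asc Y (selfB A) X (Finsupp.single σ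
        (show (tQ Y (selfB A)).X from y)))) =
      g ((mG R.toRAug X).F (Finsupp.single σ (show (tQ Y (selfB A)).X from y))) from h2 y
  intro y
  have hlin : (f ∘ₗ (mY Y S.toLAug).F ∘ₗ (asc Y (selfB A) X).toLinearMap ∘ₗ
      (Finsupp.lsingle (R := K) (M := Y.ι →₀ A.C) σ) : (Y.ι →₀ A.C) →ₗ[K] _) =
      (g ∘ₗ (mG R.toRAug X).F ∘ₗ
      (Finsupp.lsingle (R := K) (M := Y.ι →₀ A.C) σ) : (Y.ι →₀ A.C) →ₗ[K] _) := by
    refine Finsupp.lhom_ext fun κ a => ?_
    have e1 : asc Y (selfB A) X (Finsupp.single σ (show (tQ Y (selfB A)).X from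
        Finsupp.single κ a)) = Finsupp.single κ (show (tP (selfB A) X).X from
        Finsupp.single σ a) := swp_single σ κ a
    have e2 : (mY Y S.toLAug).F (Finsupp.single κ (show (tP (selfB A) X).X from
        Finsupp.single σ a)) = Finsupp.single κ (a • S.v σ) := by
      rw [F_single (mY Y S.toLAug)]
      exact congrArg (Finsupp.single κ) (augL_single X N S.v σ a)
    have e3 : (mG R.toRAug X).F (Finsupp.single σ (show (tQ Y (selfB A)).X from
        Finsupp.single κ a)) = Finsupp.single σ (op a • R.v κ) := by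
      rw [F_single (mG R.toRAug X)]
      exact congrArg (Finsupp.single σ) (augR_single Y G R.v κ a)
    change f ((mY Y S.toLAug).F (asc Y (selfB A) X (Finsupp.single σ
      (show (tQ Y (selfB A)).X from Finsupp.single κ a)))) =
      g ((mG R.toRAug X).F (Finsupp.single σ (show (tQ Y (selfB A)).X from Finsupp.single κ a)))
    rw [e1, e2, e3, hc]
  exact LinearMap.congr_fun hlin y

end square

end Crest.Agent.R186.QD831
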