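import Crest.Agent.R186.QB_735
import Crest.Agent.R186.WL_221

/-!
# Row 186, half (A), leaf QBw (helper291): the window layer of the bimodule `Q`

`rr q q' r = cA q q' (Dl r)` on `R''` (factors through `R'`, `rr_kill`), `rho q q' : L → L''`
(matrices entrywise), `thW q q' : L''`, with all identities (product, unit, differential, degrees,
triangularity) on the windows `WL π`, `WR π`.
-/

set_option autoImplicit false
set_option linter.style.haveILetI false

noncomputable section

namespace Crest.Agent.R186.QDi291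

open Crest.Agent.R186.DefsQ830 Crest.Agent.R186.Der580 Crest.Agent.R186.Win810
open Crest.Agent.R186.WL221 Crest.Agent.R186.VQ735
open Crest.Agent.R186.C2b44 (kill)

variable {K : Type} [Field K] (π : Par K)

/-! ### entries -/

theorem pcZ_eq (P A C : ℤ) : pcZ π P A C = VQ735.pz π P A C := by
  by_cases h : 0 ≤ A ∧ 0 ≤ C
  · obtain ⟨a, rfl⟩ : ∃ a : ℕ, A = a := ⟨A.toNat, by omega⟩
    obtain ⟨c, rfl⟩ : ∃ c : ℕ, C = c := ⟨C.toNat, by omega⟩
    rw [pcZ_nat, VQ735.pz_eq_pc]
  · rw [pcZ_neg π (by omega)]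
    by_cases h1 : C < 0
    · rw [VQ735.pz_neg π h1]
    · rw [VQ735.pz_negA π (by omega)]

/-- entries of the right action -/
def rr (q q' : Bt π) : R π →ₗ[K] R π := (cA π q q').comp (Dl π).toLinearMap

theorem rr_apply (q q' : Bt π) (r : R π) : rr π q q' r = cA π q q' (Dl π r) := rfl

/-- entries of `θ` -/
def tt (q q' : Bt π) : R π := cA π q q' (th π)

theorem Dl_kill (r : R π) : Dl π (kill π r) = Dl π r := by
  refine Der580.R_ind π (P := fun r => Dl π (kill π r) = Dl π r) ?_ ?_ ?_ ?_ r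
  · intro c; rw [AlgHom.commutes]
  · intro a
    cases a <;> simp [dl]
  · intro a b ha hb; rw [map_mul, map_mul, map_mul, ha, hb]
  · intro a b ha hb; rw [map_add, map_add, map_add, ha, hb]

theorem rr_kill (q q' : Bt π) (r : R π) : rr π q q' (kill π r) = rr π q q' r := by
  rw [rr_apply, Dl_kill, rr_apply]

theorem rr_mem {P A C : ℤ} {r : R π} (hr : r ∈ pcZ π P A C) (q q' : Bt π) :
    rr π q q' r ∈ pcZ π P A (C + qd q - qd q') := by
  rw [pcZ_eq] at hr ⊢
  exact cA_pz π (Dl_G2 π hr) q q'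

theorem tt_mem (q q' : Bt π) : tt π q q' ∈ pcZ π 0 0 ((qd q : ℤ) - qd q' - 1) := by
  rw [pcZ_eq]
  refine VQ735.pz_cast π (cA_pz π (th_G2 π) q q') rfl rfl ?_
  ring

theorem rr_one (q q' : Bt π) : rr π q q' 1 = if q = q' then 1 else 0 := by
  rw [rr_apply, map_one]
  change cA π q q' ((1 : R π) ⊗ₜ[K] (1 : Module.End K (Q π))) = _
  rw [cA_tmul, coef_one]
  split_ifs
  · rw [one_smul]
  · rw [zero_smul]

theorem Dl_LC {P A C : ℤ} {r : R π} (hr : r ∈ pcZ π P A C) (q : Bt π) {n : ℕ}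
    (hn : (qd q : ℤ) + C ≤ n) : Dl π r ∈ LC π q (Bq π n) := by
  rw [pcZ_eq] at hr
  refine G2_LC π (Dl_G2 π hr) q _ fun q' h => ?_
  rw [mem_Bq]
  omega

theorem LC_mono (q : Bt π) {S S' : Finset (Bt π)} (h : S ⊆ S') : LC π q S ≤ LC π q S' := by
  unfold LC
  refine Submodule.span_mono ?_
  rintro t ⟨r, T, h1, h2⟩
  exact ⟨r, T, h1, fun q' hq' => h2 q' fun h' => hq' (h h')⟩

theorem th_LC (q : Bt π) {n : ℕ} (hn : qd q ≤ n + 1) : th π ∈ LC π q (Bq π n) := by
  refine G2_LC π (th_G2 π) q _ fun q' h => ?_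
  rw [mem_Bq]
  omega

theorem rr_mul {q : Bt π} {S : Finset (Bt π)} {a : R π} (ha : Dl π a ∈ LC π q S) (q'' : Bt π)
    (b : R π) : rr π q q'' (a * b) = ∑ q' ∈ S, rr π q q' a * rr π q' q'' b := by
  rw [rr_apply, map_mul, cA_mul_left π q q'' S ha]
  rfl

theorem tt_tt (q q'' : Bt π) {n : ℕ} (hn : qd q ≤ n + 1) :
    ∑ q' ∈ Bq π n, tt π q q' * tt π q' q'' = 0 := by
  have h := cA_mul_left π q q'' _ (th_LC π q hn) (th π)
  rw [th_th, map_zero] at h
  exact h.symm

theorem D_tt (q q' : Bt π) : Der580.D π (tt π q q') = 0 := by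
  rw [tt, ← cA_DA, DA_th, map_zero]

theorem rr_D {q : Bt π} {S : Finset (Bt π)} {r : R π} (hr : Dl π r ∈ LC π q S)
    (ht : th π ∈ LC π q S) (q'' : Bt π) :
    Der580.D π (rr π q q'' r) + (∑ q' ∈ S, tt π q q' * rr π q' q'' r +
      ∑ q' ∈ S, rr π q q' r * tt π q' q'') = rr π q q'' (Der580.D π r) := by
  have h := congrArg (cA π q q'') (Dl_D π r)
  rw [map_add, map_add, cA_DA, cA_mul_left π q q'' S ht, cA_mul_left π q q'' S hr] at h
  exact h

theorem rr_lt (r : R π) {q q' : Bt π} (h : ln q' < ln q) : rr π q q' r = 0 := cA_Dl_lt π r h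

theorem rr_ne (r : R π) {q q' : Bt π} (h : ln q' = ln q) (hne : q ≠ q') : rr π q q' r = 0 :=
  cA_Dl_ne π r h hne

theorem tt_ne {q q' : Bt π} (h : ln q ≠ ln q' + 1) : tt π q q' = 0 := cA_th_ne π h

/-- `θ` has entries in the ideal of the `W`-letters -/
theorem kill_tt (q q' : Bt π) : kill π (tt π q q') = 0 := by
  rw [tt, cA_th, map_sum]
  refine Finset.sum_eq_zero fun g _ => ?_
  rw [map_smul]
  cases g <;> simp [yl]

/-! ### windows -/

/-- entry of a window element of `L''` -/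
def eR (m : (WR π).Win) (i j : DefsQ830.Ob) : R π := m.1 i j

/-- entry of a window element of `L`, in `R''` -/
def eL (m : (WL π).Win) (i j : DefsQ830.Ob) : R π := (m.1 i j : RL π).1

variable {π} in
theorem ext_R {m m' : (WR π).Win} (h : ∀ i j, eR π m i j = eR π m' i j) : m = m' :=
  Subtype.ext (Matrix.ext h)

theorem eR_zero (i j : DefsQ830.Ob) : eR π 0 i j = 0 := rfl
theorem eR_add (m m' : (WR π).Win) (i j : DefsQ830.Ob) :
    eR π (m + m') i j = eR π m i j + eR π m' i j := rfl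
theorem eR_D (m : (WR π).Win) (i j : DefsQ830.Ob) :
    eR π ((WR π).DW m) i j = Der580.D π (eR π m i j) := rfl
theorem eR_one (i j : DefsQ830.Ob) : eR π 1 i j = if i = j then 1 else 0 :=
  Matrix.one_apply (n := DefsQ830.Ob) (α := R π)
theorem eR_mul (m m' : (WR π).Win) (i j : DefsQ830.Ob) :
    eR π (m * m') i j = ∑ l : DefsQ830.Ob, eR π m i l * eR π m' l j :=
  Matrix.mul_apply (m := DefsQ830.Ob) (α := R π)
theorem eL_one (i j : DefsQ830.Ob) : eL π 1 i j = if i = j then 1 else 0 := by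
  have h : ((1 : Matrix DefsQ830.Ob DefsQ830.Ob (RL π)) i j : RL π) = if i = j then 1 else 0 :=
    Matrix.one_apply
  change ((1 : Matrix DefsQ830.Ob DefsQ830.Ob (RL π)) i j : RL π).1 = _
  rw [h]
  split_ifs <;> rfl
theorem eL_mul (m m' : (WL π).Win) (i j : DefsQ830.Ob) :
    eL π (m * m') i j = ∑ l : DefsQ830.Ob, eL π m i l * eL π m' l j := by
  have h : ((m * m').1 i j : RL π) =
      ∑ l : DefsQ830.Ob, ((m.1 i l : RL π) * (m'.1 l j : RL π) : RL π) :=
    Matrix.mul_apply (m := DefsQ830.Ob) (α := RL π)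
  have h2 := congrArg (RL π).val h
  have h3 : (RL π).val (∑ l : DefsQ830.Ob, ((m.1 i l : RL π) * (m'.1 l j : RL π) : RL π)) =
      ∑ l : DefsQ830.Ob, (RL π).val ((m.1 i l : RL π) * (m'.1 l j : RL π) : RL π) :=
    map_sum (RL π).val (fun l : DefsQ830.Ob => ((m.1 i l : RL π) * (m'.1 l j : RL π) : RL π))
      Finset.univ
  exact h2.trans h3
theorem eL_D (m : (WL π).Win) (i j : DefsQ830.Ob) :
    eL π ((WL π).DW m) i j = kill π (Der580.D π (eL π m i j)) := rfl

theorem eR_sum {ι : Type} (S : Finset ι) (f : ι → (WR π).Win) (i j : DefsQ830.Ob) :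
    eR π (∑ s ∈ S, f s) i j = ∑ s ∈ S, eR π (f s) i j := by
  classical
  induction S using Finset.induction_on with
  | empty => rfl
  | insert a S ha ih =>
    rw [Finset.sum_insert ha, Finset.sum_insert ha, ← ih]; rfl

theorem eR_mem (m : (WR π).Win) (i j : DefsQ830.Ob) : eR π m i j ∈ (WR π).E i j := m.2 i j

theorem E_in {i j : DefsQ830.Ob} {r : RL π} (hr : r ∈ (WL π).E i j) :
    (r : R π) ∈ (WR π).E i j := by
  have key : (WL π).E i j ≤ ((WR π).E i j).comap (RL π).val.toLinearMap := by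
    refine iSup_le fun C => ?_
    intro x hx
    exact WD.q_le (w := WR π) i j C hx
  exact key hr

theorem eL_mem (m : (WL π).Win) (i j : DefsQ830.Ob) : eL π m i j ∈ (WR π).E i j :=
  E_in π (m.2 i j)

theorem E_rr {i j : DefsQ830.Ob} {r : R π} (hr : r ∈ (WR π).E i j) (q q' : Bt π) :
    rr π q q' r ∈ (WR π).E i j := by
  have key : (WR π).E i j ≤ ((WR π).E i j).comap (rr π q q') := by
    refine iSup_le fun C => ?_
    intro x hx
    exact WD.q_le (w := WR π) i j _ (rr_mem π hx q q')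
  exact key hr

theorem E_LC {i j : DefsQ830.Ob} {r : R π} (hr : r ∈ (WR π).E i j) (q : Bt π) {n : ℕ}
    (hn : qd q + 8 ≤ n) : Dl π r ∈ LC π q (Bq π n) := by
  rw [WD.E_eq] at hr
  have key : (⨆ C : Fin ((WR π).N + 1), (WR π).q i j (C : ℕ)) ≤
      (LC π q (Bq π n)).comap (Dl π).toLinearMap := by
    refine iSup_le fun C => ?_
    intro x hx
    refine Dl_LC π hx q ?_
    have h1 : (C : ℕ) < 8 + 1 := C.2
    omega
  exact key hr

/-- entries of the right action on windows -/
def rho (q q' : Bt π) : (WL π).Win →ₗ[K] (WR π).Win where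
  toFun m := ⟨Matrix.of fun i j => rr π q q' (eL π m i j), fun i j => E_rr π (eL_mem π m i j) q q'⟩
  map_add' a b := by
    apply Subtype.ext
    ext i j : 2
    exact map_add (rr π q q') (eL π a i j) (eL π b i j)
  map_smul' c a := by
    apply Subtype.ext
    ext i j : 2
    exact map_smul (rr π q q') c (eL π a i j)

theorem eR_rho (q q' : Bt π) (m : (WL π).Win) (i j : DefsQ830.Ob) :
    eR π (rho π q q' m) i j = rr π q q' (eL π m i j) := rfl

theorem tt_E (i : DefsQ830.Ob) (q q' : Bt π) : tt π q q' ∈ (WR π).q i i ((qd q : ℤ) - qd q' - 1) := by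
  have h := tt_mem π q q'
  change tt π q q' ∈ pcZ π _ _ _
  rw [sub_self, sub_self]
  exact h

/-- entries of `θ` on windows -/
def thW (q q' : Bt π) : (WR π).Win :=
  ⟨Matrix.of fun i j => if i = j then tt π q q' else 0, fun i j => by
    change (if i = j then tt π q q' else 0) ∈ _
    split_ifs with h
    · subst h
      exact WD.q_le (w := WR π) i i _ (tt_E π i q q')
    · exact Submodule.zero_mem _⟩

theorem eR_thW (q q' : Bt π) (i j : DefsQ830.Ob) :
    eR π (thW π q q') i j = if i = j then tt π q q' else 0 := rfl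

theorem rho_mem {k : ℤ} {m : (WL π).Win} (hm : m ∈ (WL π).G k) (q q' : Bt π) :
    rho π q q' m ∈ (WR π).G (k + qd q - qd q') := fun i j => rr_mem π (hm i j) q q'

theorem thW_mem (q q' : Bt π) : thW π q q' ∈ (WR π).G ((qd q : ℤ) - qd q' - 1) := by
  intro i j
  change (if i = j then tt π q q' else 0) ∈ _
  split_ifs with h
  · subst h
    exact tt_E π i q q'
  · exact Submodule.zero_mem _

theorem rho_one (q q' : Bt π) : rho π q q' 1 = if q = q' then 1 else 0 := by
  apply ext_R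
  intro i j
  rw [eR_rho, eL_one]
  by_cases h : q = q'
  · rw [if_pos h, eR_one]
    split_ifs
    · rw [rr_one, if_pos h]
    · exact map_zero _
  · rw [if_neg h, eR_zero]
    split_ifs
    · rw [rr_one, if_neg h]
    · exact map_zero _

theorem rho_mul (q q'' : Bt π) {n : ℕ} (hn : qd q + 8 ≤ n) (a b : (WL π).Win) :
    rho π q q'' (a * b) = ∑ q' ∈ Bq π n, rho π q q' a * rho π q' q'' b := by
  apply ext_R
  intro i j
  rw [eR_sum, eR_rho, eL_mul, map_sum]
  simp only [eR_mul, eR_rho]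
  rw [Finset.sum_comm]
  exact Finset.sum_congr rfl fun l _ => rr_mul π (E_LC π (eL_mem π a i l) q hn) q'' _

theorem thW_mul (q q' : Bt π) (m : (WR π).Win) (i j : DefsQ830.Ob) :
    eR π (thW π q q' * m) i j = tt π q q' * eR π m i j := by
  rw [eR_mul, Finset.sum_eq_single i]
  · rw [eR_thW, if_pos rfl]
  · intro l _ hl
    rw [eR_thW, if_neg (Ne.symm hl), zero_mul]
  · intro h
    exact absurd (Finset.mem_univ _) h

theorem mul_thW (q q' : Bt π) (m : (WR π).Win) (i j : DefsQ830.Ob) :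
    eR π (m * thW π q q') i j = eR π m i j * tt π q q' := by
  rw [eR_mul, Finset.sum_eq_single j]
  · rw [eR_thW, if_pos rfl]
  · intro l _ hl
    rw [eR_thW, if_neg hl, mul_zero]
  · intro h
    exact absurd (Finset.mem_univ _) h

theorem D_thW (q q' : Bt π) : (WR π).DW (thW π q q') = 0 := by
  apply ext_R
  intro i j
  rw [eR_D, eR_thW, eR_zero]
  split_ifs
  · exact D_tt π q q'
  · exact map_zero _

theorem thW_thW (q q'' : Bt π) {n : ℕ} (hn : qd q ≤ n + 1) :
    ∑ q' ∈ Bq π n, thW π q q' * thW π q' q'' = 0 := by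
  apply ext_R
  intro i j
  rw [eR_sum, eR_zero]
  simp only [thW_mul, eR_thW]
  by_cases h : i = j
  · subst h
    simp only [if_true]
    exact tt_tt π q q'' hn
  · simp only [if_neg h, mul_zero, Finset.sum_const_zero]

theorem rho_D (q q'' : Bt π) {n : ℕ} (hn : qd q + 8 ≤ n) (m : (WL π).Win) :
    (WR π).DW (rho π q q'' m) + (∑ q' ∈ Bq π n, thW π q q' * rho π q' q'' m +
      ∑ q' ∈ Bq π n, rho π q q' m * thW π q' q'') = rho π q q'' ((WL π).DW m) := by
  apply ext_R
  intro i j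
  rw [eR_add, eR_add, eR_sum, eR_sum, eR_D]
  simp only [thW_mul, mul_thW, eR_rho]
  rw [eL_D, rr_kill]
  exact rr_D π (E_LC π (eL_mem π m i j) q hn) (th_LC π q (by omega)) q''

theorem rho_lt (m : (WL π).Win) {q q' : Bt π} (h : ln q' < ln q) : rho π q q' m = 0 :=
  ext_R fun _ _ => rr_lt π _ h

theorem rho_ne (m : (WL π).Win) {q q' : Bt π} (h : ln q' = ln q) (hne : q ≠ q') :
    rho π q q' m = 0 := ext_R fun _ _ => rr_ne π _ h hne

theorem thW_ne {q q' : Bt π} (h : ln q ≠ ln q' + 1) : thW π q q' = 0 := by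
  apply ext_R
  intro i j
  rw [eR_thW, tt_ne π h, ite_self, eR_zero]

/-- `θ` dies in `L` -/
theorem prW_thW (q q' : Bt π) : prW π (thW π q q') = 0 := by
  apply Subtype.ext
  ext i j : 2
  rw [prW_apply]
  change prL π (if i = j then tt π q q' else 0) = 0
  split_ifs
  · exact prL_eq_zero.2 (kill_tt π q q')
  · exact map_zero _

end Crest.Agent.R186.QDi291
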