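import Crest.Agent.R186.NullChain_538
import Crest.Agent.R186.ExtRes_700

/-!
Row 186 (S0281), helper371: `E0 A X Q` for a quotient `π : M → Q` from statements about lifts
(`MRes A X`, no quotient in the hypotheses).
-/

set_option autoImplicit false

universe u

namespace Crest.Agent.R186.QLift371

open NullChain538

variable {A : Type u} [Ring A] {X : Type u} [AddCommGroup X] [Module A X] (R : MRes A X)
  {M Q : Type u} [AddCommGroup M] [Module A M] [AddCommGroup Q] [Module A Q] (π : M →ₗ[A] Q)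

/-- the lifted exactness statements -/
structure Lift : Prop where
  L0 : ∀ f : R.K0 →ₗ[A] M, (∀ x, π (f (R.d1 x)) = 0) → ∀ x, π (f x) = 0
  L1 : ∀ f : R.K1 →ₗ[A] M, (∀ x, π (f (R.d2 x)) = 0) →
    ∃ h : R.K0 →ₗ[A] M, ∀ x, π (f x - h (R.d1 x)) = 0
  L2 : ∀ f : R.K2 →ₗ[A] M, (∀ x, π (f (R.d3 x)) = 0) →
    ∃ h : R.K1 →ₗ[A] M, ∀ x, π (f x - h (R.d2 x)) = 0
  L3 : ∀ f : R.K3 →ₗ[A] M, ∃ h : R.K2 →ₗ[A] M, ∀ x, π (f x - h (R.d3 x)) = 0

variable {R π}

theorem Lift.H0 (hπ : Function.Surjective π) (L : Lift R π) : R.H0 Q := by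
  intro f hf
  have := R.p0
  obtain ⟨F, hF⟩ := Module.projective_lifting_property π f hπ
  have h1 : ∀ x, π (F (R.d1 x)) = 0 := fun x => by
    have h2 := LinearMap.congr_fun hF (R.d1 x)
    have h3 := LinearMap.congr_fun hf x
    simpa using h2.trans h3
  ext x
  have h2 := LinearMap.congr_fun hF x
  rw [← h2]
  exact L.L0 F h1 x

theorem Lift.H1 (hπ : Function.Surjective π) (L : Lift R π) : R.H1 Q := by
  intro f hf
  have := R.p1
  obtain ⟨F, hF⟩ := Module.projective_lifting_property π f hπ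
  have h1 : ∀ x, π (F (R.d2 x)) = 0 := fun x => by
    have h2 := LinearMap.congr_fun hF (R.d2 x)
    have h3 := LinearMap.congr_fun hf x
    simpa using h2.trans h3
  obtain ⟨h, hh⟩ := L.L1 F h1
  refine ⟨π ∘ₗ h, ?_⟩
  ext x
  have h2 := LinearMap.congr_fun hF x
  have h3 := hh x
  rw [map_sub, sub_eq_zero] at h3
  rw [← h2]
  exact h3.symm

theorem Lift.H2 (hπ : Function.Surjective π) (L : Lift R π) : R.H2 Q := by
  intro f hf
  have := R.p2
  obtain ⟨F, hF⟩ := Module.projective_lifting_property π f hπ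
  have h1 : ∀ x, π (F (R.d3 x)) = 0 := fun x => by
    have h2 := LinearMap.congr_fun hF (R.d3 x)
    have h3 := LinearMap.congr_fun hf x
    simpa using h2.trans h3
  obtain ⟨h, hh⟩ := L.L2 F h1
  refine ⟨π ∘ₗ h, ?_⟩
  ext x
  have h2 := LinearMap.congr_fun hF x
  have h3 := hh x
  rw [map_sub, sub_eq_zero] at h3
  rw [← h2]
  exact h3.symm

theorem Lift.H3 (hπ : Function.Surjective π) (L : Lift R π) : R.H3 Q := by
  intro f
  have := R.p3
  obtain ⟨F, hF⟩ := Module.projective_lifting_property π f hπ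
  obtain ⟨h, hh⟩ := L.L3 F
  refine ⟨π ∘ₗ h, ?_⟩
  ext x
  have h2 := LinearMap.congr_fun hF x
  have h3 := hh x
  rw [map_sub, sub_eq_zero] at h3
  rw [← h2]
  exact h3.symm

/-- `Ext_A(X, Q) = 0` in all degrees -/
theorem Lift.ext (hπ : Function.Surjective π) (L : Lift R π) (j : ℕ) :
    ExtRes700.E0 A X Q j :=
  R.ext_all (L.H0 hπ) (L.H1 hπ) (L.H2 hπ) (L.H3 hπ) j

/-- the quotient by a submodule -/
theorem Lift.ext_quot {N : Submodule A M} (L : Lift R N.mkQ) (j : ℕ) :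
    ExtRes700.E0 A X (M ⧸ N) j :=
  L.ext N.mkQ_surjective j

/-- the lifted statements for a quotient `M ⧸ N`, as memberships -/
theorem Lift.of_mem {N : Submodule A M}
    (L0 : ∀ f : R.K0 →ₗ[A] M, (∀ x, f (R.d1 x) ∈ N) → ∀ x, f x ∈ N)
    (L1 : ∀ f : R.K1 →ₗ[A] M, (∀ x, f (R.d2 x) ∈ N) →
      ∃ h : R.K0 →ₗ[A] M, ∀ x, f x - h (R.d1 x) ∈ N)
    (L2 : ∀ f : R.K2 →ₗ[A] M, (∀ x, f (R.d3 x) ∈ N) →
      ∃ h : R.K1 →ₗ[A] M, ∀ x, f x - h (R.d2 x) ∈ N)
    (L3 : ∀ f : R.K3 →ₗ[A] M, ∃ h : R.K2 →ₗ[A] M, ∀ x, f x - h (R.d3 x) ∈ N) :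
    Lift R N.mkQ := by
  simp only [← Submodule.Quotient.mk_eq_zero N] at L0 L1 L2 L3
  exact ⟨L0, L1, L2, L3⟩

end Crest.Agent.R186.QLift371
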