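import Crest.Agent.R186.Frame_515

/-!
Row 186 (helper84), A.S2 / A.QBw, abstract half: change of algebra for cell systems.
`Q` is an `(A'', A)`-bimodule, free over `A''` on a basis `B`, given by its matrix coefficients
`Dl`, `th` (helper735).  For `A`-cells `X`, `Q ⊗_A X` is a system of `A''`-cells on `B × ι`.
-/

set_option autoImplicit false
set_option linter.style.haveILetI false
set_option linter.unusedSectionVars false
set_option linter.unusedSimpArgs false

namespace Crest.Agent.R186.QX84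

open Hat827 Hat827.DGA Frame515

variable {K : Type} [Field K]

theorem sum_supp {α W : Type} [AddCommMonoid W] (S T : Finset α) (f : α → W)
    (h : ∀ a, f a ≠ 0 → (a ∈ S ↔ a ∈ T)) : ∑ a ∈ S, f a = ∑ a ∈ T, f a := by
  classical
  rw [← Finset.sum_filter_ne_zero S, ← Finset.sum_filter_ne_zero T]
  congr 1
  ext a
  simp only [Finset.mem_filter]
  constructor
  · rintro ⟨h1, h2⟩
    exact ⟨(h a h2).1 h1, h2⟩
  · rintro ⟨h1, h2⟩
    exact ⟨(h a h2).2 h1, h2⟩

theorem eq_of_add {A : DGA K} {a b : A.C} (h : a + b = 0) : a = b := by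
  have := congrArg (· + b) h
  simp only [zero_add] at this
  rwa [add_assoc, A.two, add_zero] at this

/-- the bimodule `Q` -/
structure QBi (A'' A : DGA K) where
  B : Type
  [dec : DecidableEq B]
  e : B
  qd : B → ℕ
  qd_e : qd e = 0
  FB : ℕ → Finset B
  mem_FB : ∀ n q, q ∈ FB n ↔ qd q ≤ n
  pr : A''.C →ₐ[K] A.C
  pr_mem : ∀ {k : ℤ} {a : A''.C}, a ∈ A''.G k → pr a ∈ A.G k
  pr_lift : ∀ {k : ℤ} {a : A.C}, a ∈ A.G k → ∃ b ∈ A''.G k, pr b = a
  pr_D : ∀ a, pr (A''.D a) = A.D (pr a)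
  Dl : B → B → A.C →ₗ[K] A''.C
  Dl_mem : ∀ {k : ℤ} {a : A.C} (q q' : B), a ∈ A.G k → Dl q q' a ∈ A''.G (k + qd q - qd q')
  Dl_mul : ∀ {k l : ℤ} {a b : A.C} (q q' : B) (n : ℕ), a ∈ A.G k → b ∈ A.G l → k + qd q ≤ n →
    Dl q q' (a * b) = ∑ p ∈ FB n, Dl q p a * Dl p q' b
  th : B → B → A''.C
  th_mem : ∀ q q', th q q' ∈ A''.G ((qd q : ℤ) - qd q' - 1)
  th_th : ∀ (q q' : B) (n : ℕ), qd q ≤ n → A''.D (th q q') + ∑ p ∈ FB n, th q p * th p q' = 0
  Dl_D : ∀ {k : ℤ} {a : A.C} (q q' : B) (n : ℕ), a ∈ A.G k → k + qd q ≤ n → qd q ≤ n →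
    A''.D (Dl q q' a) + (∑ p ∈ FB n, th q p * Dl p q' a + ∑ p ∈ FB n, Dl q p a * th p q') =
      Dl q q' (A.D a)
  pr_Dl : ∀ q a, pr (Dl q e a) = if q = e then a else 0
  pr_th : ∀ q, pr (th q e) = 0
  HA : ∀ (n : ℕ) (k : B → A''.C), (∀ q, k q ∈ A''.G ((n : ℤ) - qd q)) →
    (∀ q', A''.D (k q') + ∑ q ∈ FB n, k q * th q q' = 0) → pr (k e) = 0 →
    ∃ y : B → A''.C, (∀ q, y q ∈ A''.G ((n : ℤ) + 1 - qd q)) ∧ pr (y e) = 0 ∧
      ∀ q', k q' = A''.D (y q') + ∑ q ∈ FB (n + 1), y q * th q q'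

attribute [instance] QBi.dec

/-- lifts of the idempotents of the cells -/
structure QLift {A'' A : DGA K} (Q : QBi A'' A) (X : LCells A) where
  e : X.ι → A''.C
  e_mem : ∀ σ, e σ ∈ A''.G 0
  e_idem : ∀ σ, e σ * e σ = e σ
  pr_e : ∀ σ, Q.pr (e σ) = X.e σ
  Dl_L : ∀ σ q q' a, X.e σ * a = a → e σ * Q.Dl q q' a = Q.Dl q q' a
  Dl_R : ∀ σ q q' a, a * X.e σ = a → Q.Dl q q' a * e σ = Q.Dl q q' a
  th_e : ∀ σ q q', e σ * Q.th q q' = Q.th q q' * e σ

namespace QBi

variable {A'' A : DGA K} (Q : QBi A'' A) {X : LCells A} (L : QLift Q X)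

open Classical in
/-- the structure constants of `Q ⊗_A X` -/
noncomputable def cQ (p p' : Q.B × X.ι) : A''.C :=
  Q.Dl p.1 p'.1 (X.c p.2 p'.2) + if p.2 = p'.2 then L.e p.2 * Q.th p.1 p'.1 else 0

variable (X) in
/-- level of a cell -/
def sQ (p : Q.B × X.ι) : ℕ := Q.qd p.1 + X.s p.2

variable (X) in
open Classical in
/-- cells of level at most `m` -/
noncomputable def FQ (m : ℕ) : Finset (Q.B × X.ι) :=
  (Q.FB m ×ˢ X.F m).filter fun p => Q.sQ X p ≤ m

theorem mem_FQ (m : ℕ) (p : Q.B × X.ι) : p ∈ Q.FQ X m ↔ Q.sQ X p ≤ m := by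
  classical
  unfold FQ
  rw [Finset.mem_filter, Finset.mem_product, Q.mem_FB, X.mem_F]
  constructor
  · exact fun h => h.2
  · intro h
    refine ⟨⟨?_, ?_⟩, h⟩ <;> unfold sQ at h <;> omega

theorem cQ_mem (p p' : Q.B × X.ι) :
    Q.cQ L p p' ∈ A''.G ((Q.sQ X p : ℤ) - Q.sQ X p' - 1) := by
  classical
  unfold cQ
  refine Submodule.add_mem _ ?_ ?_
  · have := Q.Dl_mem p.1 p'.1 (X.c_mem p.2 p'.2)
    have e : (X.s p.2 : ℤ) - X.s p'.2 - 1 + Q.qd p.1 - Q.qd p'.1 =
        (Q.sQ X p : ℤ) - Q.sQ X p' - 1 := by unfold sQ; push_cast; ring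
    rwa [e] at this
  · split_ifs with h
    · have := A''.mul_mem (L.e_mem p.2) (Q.th_mem p.1 p'.1)
      have e : 0 + ((Q.qd p.1 : ℤ) - Q.qd p'.1 - 1) = (Q.sQ X p : ℤ) - Q.sQ X p' - 1 := by
        unfold sQ; rw [h]; push_cast; ring
      rwa [e] at this
    · exact Submodule.zero_mem _

theorem cQ_zero {p p' : Q.B × X.ι} (h : Q.sQ X p ≤ Q.sQ X p') : Q.cQ L p p' = 0 :=
  neg (Q.cQ_mem L p p') (by omega)

/-- a sum over the cells as a double sum -/
theorem sum_FQ {W : Type} [AddCommMonoid W] (m n : ℕ) (f : Q.B × X.ι → W)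
    (h : ∀ p, f p ≠ 0 → Q.sQ X p ≤ m) (hmn : m ≤ n) :
    ∑ p ∈ Q.FQ X m, f p = ∑ σ ∈ X.F n, ∑ q ∈ Q.FB n, f (q, σ) := by
  classical
  rw [Finset.sum_comm, ← Finset.sum_product (s := Q.FB n) (t := X.F n) (f := f)]
  refine sum_supp _ _ _ fun p hp => ?_
  have h1 := h p hp
  rw [mem_FQ, Finset.mem_product, Q.mem_FB, X.mem_F]
  unfold sQ at h1 ⊢
  constructor
  · intro _; constructor <;> omega
  · intro _; exact h1

theorem De (σ : X.ι) : A''.D (L.e σ) = 0 := D_neg (L.e_mem σ) (by omega)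

theorem mcQ (p r : Q.B × X.ι) :
    A''.D (Q.cQ L p r) + ∑ p' ∈ Q.FQ X (Q.sQ X p), Q.cQ L p p' * Q.cQ L p' r = 0 := by
  classical
  obtain ⟨q, σ⟩ := p
  obtain ⟨q'', υ⟩ := r
  set n := Q.sQ X (q, σ) with hn
  have hn' : n = Q.qd q + X.s σ := rfl
  rw [Q.sum_FQ n n _ (fun p hp => by
    by_contra hc
    apply hp
    rw [Q.cQ_zero L (by omega), zero_mul]) le_rfl]
  have e1 : ∀ τ q', Q.cQ L (q, σ) (q', τ) * Q.cQ L (q', τ) (q'', υ) =
      Q.Dl q q' (X.c σ τ) * Q.Dl q' q'' (X.c τ υ) +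
      (if τ = υ then Q.Dl q q' (X.c σ τ) * Q.th q' q'' else 0) +
      ((if τ = σ then Q.th q q' * Q.Dl q' q'' (X.c τ υ) else 0) +
      (if τ = σ then (if σ = υ then L.e σ * (Q.th q q' * Q.th q' q'') else 0) else 0)) := by
    intro τ q'
    unfold cQ
    simp only
    have r1 : Q.Dl q q' (X.c σ τ) * (L.e τ * Q.th q' q'') = Q.Dl q q' (X.c σ τ) * Q.th q' q'' := by
      rw [← mul_assoc, L.Dl_R τ q q' _ (X.c_right σ τ)]
    have r2 : L.e τ * Q.th q q' * Q.Dl q' q'' (X.c τ υ) = Q.th q q' * Q.Dl q' q'' (X.c τ υ) := by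
      rw [L.th_e, mul_assoc, L.Dl_L τ q' q'' _ (X.c_left τ υ)]
    have r3 : L.e τ * Q.th q q' * (L.e τ * Q.th q' q'') = L.e τ * (Q.th q q' * Q.th q' q'') := by
      rw [mul_assoc, ← mul_assoc (Q.th q q'), ← L.th_e, mul_assoc, ← mul_assoc, L.e_idem]
    by_cases h1 : τ = υ
    · by_cases h2 : τ = σ
      · subst h2; subst h1
        simp only [if_true, add_mul, mul_add]
        rw [r1, r2, r3]
        abel
      · have h2' : ¬ σ = τ := fun h => h2 h.symm
        subst h1
        simp only [if_true, h2, h2', if_false, add_zero, mul_add]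
        rw [r1]
    · by_cases h2 : τ = σ
      · subst h2
        simp only [h1, if_false, if_true, add_zero]
        rw [add_mul, r2]
      · have h2' : ¬ σ = τ := fun h => h2 h.symm
        simp only [h1, if_false, h2, h2', add_zero]
  simp only [e1, Finset.sum_add_distrib]
  have hσ : σ ∈ X.F n := (X.mem_F _ _).2 (by omega)
  -- the four sums
  have s1 : ∑ τ ∈ X.F n, ∑ q' ∈ Q.FB n, Q.Dl q q' (X.c σ τ) * Q.Dl q' q'' (X.c τ υ) =
      Q.Dl q q'' (A.D (X.c σ υ)) := by
    rw [eq_of_add (X.mc σ υ), map_sum]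
    rw [sum_supp (X.F n) (X.F (X.s σ)) _ (fun τ hτ => ?_)]
    · refine Finset.sum_congr rfl fun τ _ => ?_
      rw [Q.Dl_mul q q'' n (X.c_mem σ τ) (X.c_mem τ υ) (by omega)]
    · have : X.s τ < X.s σ := by
        by_contra hc
        apply hτ
        rw [LCells.c_zero (by omega)]
        simp
      rw [X.mem_F, X.mem_F]
      constructor <;> intro _ <;> omega
  have s2 : ∑ τ ∈ X.F n, ∑ q' ∈ Q.FB n, (if τ = υ then Q.Dl q q' (X.c σ τ) * Q.th q' q'' else 0) =
      ∑ q' ∈ Q.FB n, Q.Dl q q' (X.c σ υ) * Q.th q' q'' := by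
    by_cases hυ : υ ∈ X.F n
    · rw [Finset.sum_eq_single υ]
      · simp
      · intro τ _ hτ; simp [hτ]
      · intro h; exact absurd hυ h
    · rw [Finset.sum_eq_zero, Finset.sum_eq_zero]
      · intro q' _
        rw [LCells.c_zero (by rw [X.mem_F] at hυ; omega), map_zero, zero_mul]
      · intro τ hτ
        refine Finset.sum_eq_zero fun q' _ => ?_
        rw [if_neg]
        rintro rfl
        exact hυ hτ
  have s3 : ∑ τ ∈ X.F n, ∑ q' ∈ Q.FB n, (if τ = σ then Q.th q q' * Q.Dl q' q'' (X.c τ υ) else 0) =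
      ∑ q' ∈ Q.FB n, Q.th q q' * Q.Dl q' q'' (X.c σ υ) := by
    rw [Finset.sum_eq_single σ]
    · simp
    · intro τ _ hτ; simp [hτ]
    · intro h; exact absurd hσ h
  have s4 : ∑ τ ∈ X.F n, ∑ q' ∈ Q.FB n,
      (if τ = σ then (if σ = υ then L.e σ * (Q.th q q' * Q.th q' q'') else 0) else 0) =
      if σ = υ then L.e σ * ∑ q' ∈ Q.FB n, Q.th q q' * Q.th q' q'' else 0 := by
    rw [Finset.sum_eq_single σ]
    · by_cases h : σ = υ
      · simp [h, Finset.mul_sum]
      · simp [h]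
    · intro τ _ hτ; simp [hτ]
    · intro h; exact absurd hσ h
  rw [s1, s2, s3, s4]
  have t1 := Q.Dl_D q q'' n (X.c_mem σ υ) (by omega) (by omega)
  have t2 := Q.th_th q q'' n (by omega)
  have e0 : Q.cQ L (q, σ) (q'', υ) = Q.Dl q q'' (X.c σ υ) +
      if σ = υ then L.e σ * Q.th q q'' else 0 := rfl
  rw [e0, map_add, ← t1]
  have t3 : A''.D (if σ = υ then L.e σ * Q.th q q'' else 0) +
      (if σ = υ then L.e σ * ∑ q' ∈ Q.FB n, Q.th q q' * Q.th q' q'' else 0) = 0 := by
    by_cases h : σ = υ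
    · simp only [h, if_true]
      rw [A''.D_mul, Q.De L, zero_mul, zero_add, ← mul_add, t2, mul_zero]
    · simp [h]
  set a := A''.D (Q.Dl q q'' (X.c σ υ))
  set b := ∑ q' ∈ Q.FB n, Q.Dl q q' (X.c σ υ) * Q.th q' q''
  set c := ∑ q' ∈ Q.FB n, Q.th q q' * Q.Dl q' q'' (X.c σ υ)
  set d := A''.D (if σ = υ then L.e σ * Q.th q q'' else 0)
  set f := (if σ = υ then L.e σ * ∑ q' ∈ Q.FB n, Q.th q q' * Q.th q' q'' else 0)
  have := A''.two (a + b + c)
  calc a + d + (a + (c + b) + b + (c + f)) = (a + b + c) + (a + b + c) + (d + f) - 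
      (b + b) + (b + b) := by abel
    _ = 0 := by rw [this, t3]; simp

/-- the `A''`-cells `Q ⊗_A X` -/
@[reducible] noncomputable def QX : LCells A'' where
  ι := Q.B × X.ι
  s := Q.sQ X
  F := Q.FQ X
  mem_F := Q.mem_FQ
  e := fun p => L.e p.2
  e_mem := fun p => L.e_mem p.2
  e_idem := fun p => L.e_idem p.2
  c := Q.cQ L
  c_mem := Q.cQ_mem L
  c_left := by
    classical
    intro p p'
    unfold cQ
    rw [mul_add, L.Dl_L _ _ _ _ (X.c_left p.2 p'.2)]
    congr 1
    split_ifs with h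
    · rw [← mul_assoc, L.e_idem]
    · rw [mul_zero]
  c_right := by
    classical
    intro p p'
    unfold cQ
    rw [add_mul, L.Dl_R _ _ _ _ (X.c_right p.2 p'.2)]
    congr 1
    split_ifs with h
    · rw [← h, L.th_e, mul_assoc, L.e_idem]
    · rw [zero_mul]
  mc := Q.mcQ L

theorem QX_c (p p' : Q.B × X.ι) : (Q.QX L).c p p' = Q.cQ L p p' := rfl

end QBi

/-! ### functions and the differential of a cell system over its own algebra -/

section LX

variable {A : DGA K} (X : LCells A)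

/-- the differential on functions -/
def dX (m : ℕ) (x : X.ι → A.C) (τ : X.ι) : A.C := A.D (x τ) + ∑ σ ∈ X.F m, x σ * X.c σ τ

/-- homogeneous of degree `m` -/
def Hm (m : ℤ) (x : X.ι → A.C) : Prop := ∀ σ, x σ ∈ A.G (m - X.s σ) ∧ x σ * X.e σ = x σ

variable {X}

theorem Hm.zero {m : ℤ} {x : X.ι → A.C} (hx : Hm X m x) {σ : X.ι} (h : m < X.s σ) : x σ = 0 :=
  neg (hx σ).1 (by omega)

theorem dX_congr {m m' : ℕ} {n : ℤ} {x : X.ι → A.C} (hx : Hm X n x) (h : n ≤ m) (h' : n ≤ m') :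
    dX X m x = dX X m' x := by
  funext τ
  unfold dX
  congr 1
  refine sum_supp _ _ _ fun σ hσ => ?_
  have : (X.s σ : ℤ) ≤ n := by
    by_contra hc
    apply hσ
    rw [hx.zero (by omega), zero_mul]
  rw [X.mem_F, X.mem_F]
  constructor <;> intro _ <;> omega

theorem dX_mem {m : ℕ} {n : ℤ} {x : X.ι → A.C} (hx : Hm X n x) : Hm X (n - 1) (dX X m x) := by
  intro τ
  constructor
  · refine Submodule.add_mem _ ?_ (Submodule.sum_mem _ fun σ _ => ?_)
    · have := A.D_mem (hx τ).1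
      rwa [show n - X.s τ - 1 = n - 1 - X.s τ by ring] at this
    · have := A.mul_mem (hx σ).1 (X.c_mem σ τ)
      rwa [show n - X.s σ + ((X.s σ : ℤ) - X.s τ - 1) = n - 1 - X.s τ by ring] at this
  · unfold dX
    rw [add_mul, Finset.sum_mul]
    congr 1
    · have := congrArg A.D (hx τ).2
      rwa [A.D_mul, LCells.De, mul_zero, add_zero] at this
    · refine Finset.sum_congr rfl fun σ _ => ?_
      rw [mul_assoc, X.c_right]

theorem dX_dX (m : ℕ) (x : X.ι → A.C) : dX X m (dX X m x) = 0 := by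
  funext υ
  unfold dX
  simp only [map_add, map_sum, A.D_D, zero_add, A.D_mul, add_mul, Finset.sum_mul,
    Finset.sum_add_distrib, Pi.zero_apply]
  have h1 : ∑ τ ∈ X.F m, ∑ σ ∈ X.F m, x σ * X.c σ τ * X.c τ υ =
      ∑ σ ∈ X.F m, x σ * A.D (X.c σ υ) := by
    rw [Finset.sum_comm]
    refine Finset.sum_congr rfl fun σ hσ => ?_
    have h2 := eq_of_add (X.mc σ υ)
    rw [h2, Finset.mul_sum]
    simp only [mul_assoc]
    refine sum_supp _ _ _ fun ρ hρ => ?_
    have : X.s ρ < X.s σ := by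
      by_contra hc
      apply hρ
      rw [LCells.c_zero (by omega), zero_mul, mul_zero]
    have h3 := (X.mem_F m σ).1 hσ
    rw [X.mem_F, X.mem_F]
    constructor <;> intro _ <;> omega
  rw [h1]
  have := A.two (∑ σ ∈ X.F m, A.D (x σ) * X.c σ υ + ∑ σ ∈ X.F m, x σ * A.D (X.c σ υ))
  calc _ = (∑ σ ∈ X.F m, A.D (x σ) * X.c σ υ + ∑ σ ∈ X.F m, x σ * A.D (X.c σ υ)) +
      (∑ σ ∈ X.F m, A.D (x σ) * X.c σ υ + ∑ σ ∈ X.F m, x σ * A.D (X.c σ υ)) := by abel
    _ = 0 := this

theorem dX_add (m : ℕ) (x y : X.ι → A.C) : dX X m (x + y) = dX X m x + dX X m y := by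
  funext τ
  simp only [dX, Pi.add_apply, map_add, add_mul, Finset.sum_add_distrib]
  abel

theorem Hm.add {n : ℤ} {x y : X.ι → A.C} (hx : Hm X n x) (hy : Hm X n y) : Hm X n (x + y) :=
  fun σ => ⟨Submodule.add_mem _ (hx σ).1 (hy σ).1, by
    rw [Pi.add_apply, add_mul, (hx σ).2, (hy σ).2]⟩

theorem fun_two (x : X.ι → A.C) : x + x = 0 := by
  funext σ; exact A.two _

end LX

/-! ### exactness of the kernel of `Q ⊗ X → X` -/

section ker

variable {A'' A : DGA K} (Q : QBi A'' A) {X : LCells A} (L : QLift Q X)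

theorem pr_cQ (q : Q.B) (σ τ : X.ι) :
    Q.pr (Q.cQ L (q, σ) (Q.e, τ)) = if q = Q.e then X.c σ τ else 0 := by
  classical
  unfold QBi.cQ
  rw [map_add, Q.pr_Dl]
  split_ifs with h1 h2
  · rw [map_mul, Q.pr_th, mul_zero, add_zero]
  · rw [map_zero, add_zero]
  · rw [map_mul, Q.pr_th, mul_zero, add_zero]
  · rw [map_zero, add_zero]

/-- the projection of a function -/
def prX (x : Q.B × X.ι → A''.C) (σ : X.ι) : A.C := Q.pr (x (Q.e, σ))

theorem prX_mem {n : ℤ} {x : Q.B × X.ι → A''.C} (hx : Hm (Q.QX L) n x) : Hm X n (prX Q x) := by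
  intro σ
  constructor
  · have := Q.pr_mem (hx (Q.e, σ)).1
    have e : n - ((Q.QX L).s (Q.e, σ) : ℤ) = n - X.s σ := by
      show n - (Q.sQ X (Q.e, σ) : ℤ) = _
      unfold QBi.sQ
      rw [Q.qd_e]; simp
    rwa [e] at this
  · have := congrArg Q.pr (hx (Q.e, σ)).2
    rw [map_mul] at this
    rw [← L.pr_e]
    exact this

theorem hz_of {n : ℤ} {x : Q.B × X.ι → A''.C} (hx : Hm (Q.QX L) n x) {q : Q.B} {σ : X.ι}
    (h : n < Q.qd q + X.s σ) : x (q, σ) = 0 :=
  hx.zero (σ := (q, σ)) (by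
    show n < ((Q.sQ X (q, σ) : ℕ) : ℤ)
    unfold QBi.sQ
    push_cast
    exact h)

theorem dQ_apply {n : ℤ} {m : ℕ} {x : Q.B × X.ι → A''.C} (hx : Hm (Q.QX L) n x) (h : n ≤ m)
    (q' : Q.B) (τ : X.ι) : dX (Q.QX L) m x (q', τ) =
      A''.D (x (q', τ)) + ∑ σ ∈ X.F m, ∑ q ∈ Q.FB m, x (q, σ) * Q.cQ L (q, σ) (q', τ) := by
  show A''.D (x (q', τ)) + ∑ p ∈ Q.FQ X m, x p * Q.cQ L p (q', τ) = _
  rw [Q.sum_FQ m m _ (fun p hp => by
    by_contra hc
    apply hp
    rw [hz_of Q L hx (q := p.1) (σ := p.2) (by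
      unfold QBi.sQ at hc
      omega), zero_mul]) le_rfl]

theorem prX_dX {n : ℤ} {m : ℕ} {x : Q.B × X.ι → A''.C} (hx : Hm (Q.QX L) n x) (h : n ≤ m) :
    prX Q (dX (Q.QX L) m x) = dX X m (prX Q x) := by
  classical
  funext τ
  unfold prX
  rw [dQ_apply Q L hx h, map_add, Q.pr_D, map_sum]
  unfold dX
  congr 1
  refine Finset.sum_congr rfl fun σ _ => ?_
  rw [map_sum, Finset.sum_eq_single Q.e]
  · rw [map_mul, pr_cQ, if_pos rfl]
  · intro q _ hq
    rw [map_mul, pr_cQ, if_neg hq, mul_zero]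
  · intro hq
    exact absurd ((Q.mem_FB m Q.e).2 (by rw [Q.qd_e]; omega)) hq

theorem ker_exact (n : ℤ) (m : ℕ) (hm : n + 1 ≤ m) (x : Q.B × X.ι → A''.C) (hx : Hm (Q.QX L) n x)
    (hd : dX (Q.QX L) m x = 0) (hp : ∀ σ, Q.pr (x (Q.e, σ)) = 0) :
    ∃ y : Q.B × X.ι → A''.C, Hm (Q.QX L) (n + 1) y ∧ (∀ σ, Q.pr (y (Q.e, σ)) = 0) ∧
      dX (Q.QX L) m y = x := by
  classical
  suffices key : ∀ (l : ℕ) (x : Q.B × X.ι → A''.C), Hm (Q.QX L) n x → dX (Q.QX L) m x = 0 →
      (∀ σ, Q.pr (x (Q.e, σ)) = 0) → (∀ q σ, l ≤ X.s σ → x (q, σ) = 0) →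
      ∃ y : Q.B × X.ι → A''.C, Hm (Q.QX L) (n + 1) y ∧ (∀ σ, Q.pr (y (Q.e, σ)) = 0) ∧
        dX (Q.QX L) m y = x by
    refine key m x hx hd hp fun q σ h => hx.zero (σ := (q, σ)) ?_
    show n < ((Q.sQ X (q, σ) : ℕ) : ℤ)
    unfold QBi.sQ
    simp only
    push_cast
    omega
  intro l
  induction l with
  | zero =>
    intro x _ _ _ h0
    refine ⟨fun _ => 0, fun σ => ⟨Submodule.zero_mem _, zero_mul _⟩, fun σ => map_zero _, ?_⟩
    funext p
    rw [show x p = 0 from h0 p.1 p.2 (Nat.zero_le _)]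
    unfold dX
    simp only [map_zero, zero_mul, Finset.sum_const_zero, add_zero]
  | succ l ih =>
    intro x hx hd hp h0
    -- primitives at the level `l`
    have hy : ∀ σ, X.s σ = l → ∃ y : Q.B → A''.C,
        (∀ q, y q ∈ A''.G (n + 1 - X.s σ - Q.qd q)) ∧ (∀ q, y q * L.e σ = y q) ∧
        Q.pr (y Q.e) = 0 ∧
        ∀ q', x (q', σ) = A''.D (y q') + ∑ q ∈ Q.FB m, y q * Q.th q q' := by
      intro σ hσ
      by_cases hl : (l : ℤ) ≤ n
      · obtain ⟨N, hN⟩ := Int.eq_ofNat_of_zero_le (sub_nonneg.2 hl)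
        obtain ⟨y, hy1, hy2, hy3⟩ := Q.HA N (fun q => x (q, σ)) (fun q => by
          have := (hx (q, σ)).1
          have e : n - ((Q.QX L).s (q, σ) : ℤ) = (N : ℤ) - Q.qd q := by
            show n - (Q.sQ X (q, σ) : ℤ) = _
            unfold QBi.sQ
            simp only
            push_cast
            omega
          rwa [e] at this) (fun q' => by
          have h1 := congrFun hd (q', σ)
          rw [dQ_apply Q L hx (by omega), Finset.sum_eq_single σ] at h1
          · change _ = (0 : A''.C) at h1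
            rw [← h1]
            congr 1
            rw [sum_supp (Q.FB N) (Q.FB m) (fun q => x (q, σ) * Q.th q q') (fun q hq => ?_)]
            · refine Finset.sum_congr rfl fun q _ => ?_
              unfold QBi.cQ
              simp only [if_true]
              rw [LCells.c_zero (le_refl _), map_zero, zero_add, ← mul_assoc]
              have := (hx (q, σ)).2
              rw [show x (q, σ) * L.e σ = x (q, σ) from this]
            · have : (Q.qd q : ℤ) ≤ N := by
                by_contra hc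
                apply hq
                have h2 : x (q, σ) = 0 := hz_of Q L hx (by omega)
                simp only [h2, zero_mul]
              rw [Q.mem_FB, Q.mem_FB]
              constructor <;> intro _ <;> omega
          · intro τ _ hτ
            refine Finset.sum_eq_zero fun q _ => ?_
            unfold QBi.cQ
            simp only
            rw [if_neg hτ, add_zero]
            by_cases h3 : X.s τ ≤ l
            · rw [LCells.c_zero (by omega), map_zero, mul_zero]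
            · rw [h0 q τ (by omega), zero_mul]
          · intro h
            exact absurd ((X.mem_F m σ).2 (by omega)) h) (hp σ)
        refine ⟨fun q => y q * L.e σ, fun q => ?_, fun q => ?_, ?_, fun q' => ?_⟩
        · have := A''.mul_mem (hy1 q) (L.e_mem σ)
          rwa [show (N : ℤ) + 1 - Q.qd q + 0 = n + 1 - X.s σ - Q.qd q by omega] at this
        · rw [mul_assoc, L.e_idem]
        · rw [map_mul, hy2, zero_mul]
        · have h1 := congrArg (· * L.e σ) (hy3 q')
          beta_reduce at h1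
          rw [show x (q', σ) * L.e σ = x (q', σ) from (hx (q', σ)).2] at h1
          rw [h1, add_mul, A''.D_mul, Q.De L, mul_zero, add_zero, Finset.sum_mul]
          congr 1
          rw [sum_supp (Q.FB (N + 1)) (Q.FB m) (fun q => y q * Q.th q q' * L.e σ) (fun q hq => ?_)]
          · refine Finset.sum_congr rfl fun q _ => ?_
            rw [mul_assoc, ← L.th_e, mul_assoc]
          · have : (Q.qd q : ℤ) ≤ N + 1 := by
              by_contra hc
              apply hq
              rw [neg (hy1 q) (by omega), zero_mul, zero_mul]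
            rw [Q.mem_FB, Q.mem_FB]
            constructor <;> intro _ <;> omega
      · refine ⟨fun _ => 0, fun q => Submodule.zero_mem _, fun q => zero_mul _, map_zero _,
          fun q' => ?_⟩
        rw [hz_of Q L hx (by omega)]
        simp only [map_zero, zero_mul, Finset.sum_const_zero, add_zero]
    choose! y hy1 hy2 hy3 hy4 using hy
    let z : Q.B × X.ι → A''.C := fun p => if X.s p.2 = l then y p.2 p.1 else 0
    have hz : Hm (Q.QX L) (n + 1) z := by
      rintro ⟨q, σ⟩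
      by_cases h : X.s σ = l
      · have e : n + 1 - ((Q.QX L).s (q, σ) : ℤ) = n + 1 - X.s σ - Q.qd q := by
          show n + 1 - (Q.sQ X (q, σ) : ℤ) = _
          unfold QBi.sQ
          simp only
          push_cast
          ring
        rw [e]
        simp only [z, if_pos h]
        exact ⟨hy1 σ h q, hy2 σ h q⟩
      · simp only [z, if_neg h]
        exact ⟨Submodule.zero_mem _, zero_mul _⟩
    have hzp : ∀ σ, Q.pr (z (Q.e, σ)) = 0 := by
      intro σ
      by_cases h : X.s σ = l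
      · simp only [z, if_pos h]; exact hy3 σ h
      · simp only [z, if_neg h]; exact map_zero _
    have hzd : ∀ q' τ, l ≤ X.s τ → dX (Q.QX L) m z (q', τ) =
        if X.s τ = l then x (q', τ) else 0 := by
      intro q' τ hτ
      rw [dQ_apply Q L hz (by omega)]
      have hoff : ∀ σ, σ ≠ τ → ∑ q ∈ Q.FB m, z (q, σ) * Q.cQ L (q, σ) (q', τ) = 0 := by
        intro σ hσ
        refine Finset.sum_eq_zero fun q _ => ?_
        unfold QBi.cQ
        simp only
        rw [if_neg hσ, add_zero]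
        by_cases h3 : X.s σ = l
        · rw [LCells.c_zero (by omega), map_zero, mul_zero]
        · simp only [z, if_neg h3, zero_mul]
      have hon : ∑ q ∈ Q.FB m, z (q, τ) * Q.cQ L (q, τ) (q', τ) =
          ∑ q ∈ Q.FB m, z (q, τ) * Q.th q q' := by
        refine Finset.sum_congr rfl fun q _ => ?_
        unfold QBi.cQ
        simp only [if_true]
        rw [LCells.c_zero (le_refl _), map_zero, zero_add, ← mul_assoc]
        rw [show z (q, τ) * L.e τ = z (q, τ) from (hz (q, τ)).2]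
      by_cases h : X.s τ = l
      · rw [if_pos h]
        by_cases hmem : τ ∈ X.F m
        · rw [Finset.sum_eq_single τ (fun σ _ hσ => hoff σ hσ) (fun hc => absurd hmem hc), hon]
          rw [hy4 τ h q']
          simp only [z, if_pos h]
        · have hbig : ∀ q, z (q, τ) = 0 := fun q => hz_of Q L hz (by
            rw [X.mem_F] at hmem
            omega)
          rw [Finset.sum_eq_zero (fun σ hσ => hoff σ (by rintro rfl; exact hmem hσ)), hbig,
            map_zero, add_zero]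
          symm
          exact hz_of Q L hx (by
            rw [X.mem_F] at hmem
            omega)
      · rw [if_neg h, Finset.sum_eq_zero, show z (q', τ) = 0 by simp only [z, if_neg h],
          map_zero, add_zero]
        intro σ _
        by_cases hσ : σ = τ
        · rw [hσ, hon]
          refine Finset.sum_eq_zero fun q _ => ?_
          simp only [z, if_neg h, zero_mul]
        · exact hoff σ hσ
    have hx' : Hm (Q.QX L) n (x + dX (Q.QX L) m z) := by
      refine hx.add ?_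
      have := dX_mem (m := m) hz
      rwa [add_sub_cancel_right] at this
    have hd' : dX (Q.QX L) m (x + dX (Q.QX L) m z) = 0 := by
      rw [dX_add, hd, dX_dX, add_zero]
    have hp' : ∀ σ, Q.pr ((x + dX (Q.QX L) m z) (Q.e, σ)) = 0 := by
      intro σ
      have h1 := congrFun (prX_dX Q L (m := m) hz (by omega)) σ
      have e0 : prX Q z = fun _ => 0 := funext hzp
      rw [e0] at h1
      unfold prX at h1
      rw [Pi.add_apply, map_add, hp, zero_add, h1]
      unfold dX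
      simp only [map_zero, zero_mul, Finset.sum_const_zero, add_zero]
    have h0' : ∀ q σ, l ≤ X.s σ → (x + dX (Q.QX L) m z) (q, σ) = 0 := by
      intro q σ hσ
      rw [Pi.add_apply, hzd q σ hσ]
      split_ifs with h
      · exact A''.two _
      · rw [add_zero]; exact h0 q σ (by omega)
    obtain ⟨w, hw1, hw2, hw3⟩ := ih _ hx' hd' hp' h0'
    refine ⟨w + z, hw1.add hz, fun σ => ?_, ?_⟩
    · rw [Pi.add_apply, map_add, hw2, hzp, add_zero]
    · rw [dX_add, hw3, add_assoc, fun_two (X := Q.QX L) (dX (Q.QX L) m z), add_zero]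

end ker

end Crest.Agent.R186.QX84
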