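import Crest.Agent.R186.Anti2_860
import Crest.Agent.R186.C2b_362

/-!
Row 186, half (A) (helper860): the RIGHT sixteen cells of `DV_{-2} = e_{(0,3)} L / (E L)`,
obtained from the left ones (`C2b_362`) through the anti-isomorphism `th`.
Everything modulo `J` = the ideal of the `W`-letters.
-/

set_option autoImplicit false
set_option linter.unusedSimpArgs false
set_option linter.unusedTactic false
set_option linter.unreachableTactic false
set_option linter.unnecessarySeqFocus false

namespace Crest.Agent.R186.RC860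

open DefsQ830 Gen Cells221 C2b362 Anti860
open Crest.Agent.R186.PBW128 (E Y Wb)
open Crest.Agent.R186.Der580 (D D_mul D_X D_D D_pc D_pc0 pc_mul R_ind add_self
  r_h_x t_h_x r_h_d t_h_d r_h_f t_h_f r_h_z t_h_z r_h_zc t_h_zc r_h_u t_h_u r_h_e
    t_h_e r_h_gj t_h_gj r_h_gc t_h_gc r_h_v t_h_v r_h_y t_h_y r_h_yb t_h_yb r_xx
    t_xx r_x0d0 t_x0d0 r_x0d1 t_x0d1 r_x1d0 t_x1d0 r_x1d1 t_x1d1 r_xf t_xf r_xz t_xz
    r_xzc t_xzc r_xu t_xu r_x0e t_x0e r_x1e0 t_x1e0 r_x1e1 t_x1e1 r_xgj t_xgj r_xgc
    t_xgc r_xv t_xv r_xy t_xy r_xyb t_xyb r_yd t_yd r_ye t_ye r_yz t_yz r_ygj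
    t_ygj r_yf t_yf r_yzc t_yzc r_ygc t_ygc r_yu t_yu r_yv t_yv r_ybd t_ybd r_ybe
    t_ybe r_ybz t_ybz r_ybgj t_ybgj r_ybf t_ybf r_ybzc t_ybzc r_ybgc t_ybgc r_ybu
    t_ybu r_ybv t_ybv r_yy t_yy r_y10 t_y10 r_yyb t_yyb r_yby t_yby r_ybyb t_ybyb
  c_zero c_one cz_zero cz_one sg_zero sg_one)

variable {K : Type} [Field K] {π π' : Par K}

/-! ### `th` and the pieces with integer degrees, `th` and `J` -/

theorem th_pz (H : Inv π π') {P A C : ℤ} {r : R π'} (hr : r ∈ pz π' P A C) : th H r ∈ pz π P A C := by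
  rw [pz_eq] at hr ⊢
  split_ifs at hr ⊢ with h
  · exact th_pc H hr
  · rw [Submodule.mem_bot] at hr ⊢
    rw [hr, map_zero]

theorem Y_mem_J (a : Y) : X π a.toGen ∈ J π := by
  have := mul_Y_mem_J (π := π) 1 a
  rwa [one_mul] at this

theorem th_J (H : Inv π π') {r : R π'} (hr : r ∈ J π') : th H r ∈ J π := by
  rw [mem_J_iff] at hr
  obtain ⟨a, b, rfl⟩ := hr
  rw [map_add, map_sum, map_sum]
  refine Submodule.add_mem _ (Submodule.sum_mem _ fun s _ => ?_) (Submodule.sum_mem _ fun s _ => ?_)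
  · rw [th_mul, th_X, smul_mul_assoc]
    exact Submodule.smul_mem _ _ (right_J (Y_mem_J (.y s)) _)
  · rw [th_mul, th_X, smul_mul_assoc]
    exact Submodule.smul_mem _ _ (right_J (Y_mem_J (.yb s)) _)

/-! ### the table of the right cells -/

variable (π) in
/-- the coefficient of the FIRST letter `l'` in `D l` -/
def cr : E → E → R π
  | .z j, .d i => if i = 0 then (π.c j * π.g) • (X π (.d 1) * X π (.x j))
      else π.c j • (X π (.d 0) * X π (.x j))
  | .zc, .z i => if i = 0 then π.c 1 • X π (.x 1) else π.c 0 • X π (.x 0)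
  | .zc, .f => X π .h
  | .e j, .d i => if i = j then π.c j • X π .f else 0
  | .e j, .f => X π (.d j)
  | .gj j, .z i => if i = j then π.cz j • X π .f else 0
  | .gj j, .f => X π (.z j)
  | .gj j, .d i => if i = 0 then (π.c j * π.g ^ 3) • (X π (.e 1) * X π (.x j))
      else (π.c j * π.g) • (X π (.e 0) * X π (.x j))
  | .gj j, .e i => if i = 0 then (π.c j * π.g) • (X π (.d 1) * X π (.x j))
      else π.c j • (X π (.d 0) * X π (.x j))
  | .gc, .zc => X π .f
  | .gc, .f => X π .zc
  | .gc, .gj i => if i = 0 then π.c 1 • X π (.x 1) else π.c 0 • X π (.x 0)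
  | .gc, .u i => if i = 0 then π.p • X π (.u 1) else X π (.u 0)
  | .v s, .u i => if i = s then tR π + X π .h else 0
  | .v s, .d i => ((π.g - 1) * π.c i) • (X π (.u s) * X π (.x i))
  | _, _ => 0

/-- scalars of the cells -/
def mu (π : Par K) : Cell → K
  | none => 1
  | some l => lam π l.toGen

theorem mu_ne (σ : Cell) : mu π σ ≠ 0 := by
  cases σ with
  | none => exact one_ne_zero
  | some l => exact lam_ne π _

variable (π) in
/-- the table: `d e_l = e_none · X l + Σ e_l' · cr l l'` -/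
def cR : Cell → Cell → R π
  | none, _ => 0
  | some l, none => X π l.toGen
  | some l, some l' => cr π l l'

theorem th_tR (H : Inv π π') : th H (tR π') = π.g ^ 2 • tR π := by
  have : CharP K 2 := CharTwo.of_one_ne_zero_of_two_eq_zero one_ne_zero π.two
  have g0 := π.g0
  rw [tR, map_add, map_smul, map_add, th_mul, th_mul, th_X, th_X, th_X, th_X, th_X, tR]
  simp only [lam, H.g, if_true, one_smul, one_ne_zero, if_false, Fin.isValue]
  idR

set_option maxHeartbeats 4000000 in
/-- the right table is the transport of the left one -/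
theorem cr_eq (H : Inv π π') (l l' : E) :
    lam π l.toGen • cr π l l' = lam π l'.toGen • th H (cf π' l l') := by
  have : CharP K 2 := CharTwo.of_one_ne_zero_of_two_eq_zero one_ne_zero π.two
  have g0 := π.g0
  have p0 := π.p0
  cases l with
  | d j => cases l' <;> simp [cr, cf]
  | f => cases l' <;> simp [cr, cf]
  | u s => cases l' <;> simp [cr, cf]
  | z j =>
    cases l' with
    | d i =>
      revert i j
      fin2 <;> (simp only [cr, cf, E.toGen, th_mul, th_X, map_smul, lam, H.g, Par.c, if_true, if_false,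
        one_ne_zero, Fin.isValue, one_smul]; idR)
    | _ => simp [cr, cf]
  | zc =>
    cases l' with
    | z i =>
      revert i
      fin2 <;> (simp only [cr, cf, E.toGen, th_mul, th_X, map_smul, lam, H.g, Par.c, if_true, if_false,
        one_ne_zero, Fin.isValue, one_smul]; idR)
    | f => simp [cr, cf, E.toGen, lam, th_X]
    | _ => simp [cr, cf]
  | e j =>
    cases l' with
    | d i =>
      revert i j
      fin2 <;> (simp only [cr, cf, E.toGen, th_mul, th_X, map_smul, map_zero, smul_zero, lam, H.g, Par.c, if_true, if_false,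
        one_ne_zero, zero_ne_one, Fin.isValue, one_smul]; try idR)
    | f =>
      revert j
      fin2 <;> (simp only [cr, cf, E.toGen, th_mul, th_X, map_smul, map_zero, smul_zero, lam, H.g, Par.c, if_true, if_false,
        one_ne_zero, zero_ne_one, Fin.isValue, one_smul]; try idR)
    | _ => simp [cr, cf]
  | gj j =>
    cases l' with
    | d i =>
      revert i j
      fin2 <;> (simp only [cr, cf, E.toGen, th_mul, th_X, map_smul, map_zero, smul_zero, lam, H.g, Par.c, if_true, if_false,
        one_ne_zero, zero_ne_one, Fin.isValue, one_smul]; try idR)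
    | z i =>
      revert i j
      fin2 <;> (simp only [cr, cf, E.toGen, th_mul, th_X, map_smul, map_zero, smul_zero, lam, H.g, Par.c, Par.cz, if_true, if_false,
        one_ne_zero, zero_ne_one, Fin.isValue, one_smul]; try idR)
    | e i =>
      revert i j
      fin2 <;> (simp only [cr, cf, E.toGen, th_mul, th_X, map_smul, map_zero, smul_zero, lam, H.g, Par.c, if_true, if_false,
        one_ne_zero, zero_ne_one, Fin.isValue, one_smul]; try idR)
    | f =>
      revert j
      fin2 <;> (simp only [cr, cf, E.toGen, th_mul, th_X, map_smul, map_zero, smul_zero, lam, H.g, Par.c, Par.cz, if_true, if_false,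
        one_ne_zero, zero_ne_one, Fin.isValue, one_smul]; try idR)
    | _ => simp [cr, cf]
  | gc =>
    cases l' with
    | zc => simp only [cr, cf, E.toGen, th_X, lam]; idR
    | f => simp only [cr, cf, E.toGen, th_X, lam]; idR
    | gj i =>
      revert i
      fin2 <;> (simp only [cr, cf, E.toGen, th_mul, th_X, map_smul, map_zero, smul_zero, lam, H.g, Par.c, if_true, if_false,
        one_ne_zero, zero_ne_one, Fin.isValue, one_smul]; try idR)
    | u i =>
      revert i
      fin2 <;> (simp only [cr, cf, E.toGen, th_mul, th_X, map_smul, map_zero, smul_zero, lam, lu0, lu1, H.g, H.p, Par.c, if_true, if_false,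
        one_ne_zero, zero_ne_one, Fin.isValue, one_smul]; try idR)
    | _ => simp [cr, cf]
  | v s =>
    cases l' with
    | u i =>
      by_cases h : i = s
      · subst h
        simp only [cr, cf, if_true, E.toGen, lam, map_add, map_smul, th_tR, th_X, H.g, one_smul]
        match_scalars <;> field_simp
      · simp only [cr, cf, if_neg h, map_zero, smul_zero]
    | d i =>
      revert i
      fin2 <;> (simp only [cr, cf, E.toGen, th_mul, th_X, map_smul, map_zero, smul_zero, lam, H.g, Par.c, if_true, if_false,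
        one_ne_zero, zero_ne_one, Fin.isValue, one_smul]; try idR)
    | _ => simp [cr, cf]

theorem cR_eq (H : Inv π π') (σ τ : Cell) :
    mu π σ • cR π σ τ = mu π τ • th H (cc π' σ τ) := by
  cases σ with
  | none => simp [cR, cc]
  | some l =>
    cases τ with
    | none =>
      show lam π l.toGen • X π l.toGen = (1 : K) • th H (X π' l.toGen)
      rw [th_X, one_smul]
    | some l' => exact cr_eq H l l'

theorem cR_eq' (H : Inv π π') (σ τ : Cell) :
    cR π σ τ = ((mu π σ)⁻¹ * mu π τ) • th H (cc π' σ τ) := by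
  rw [mul_smul, ← cR_eq H, smul_smul, inv_mul_cancel₀ (mu_ne σ), one_smul]

/-! ### the right differential -/

variable (π) in
/-- the differential of the free right module on the sixteen cells -/
def dR : (Cell → R π) →ₗ[K] (Cell → R π) :=
  LinearMap.pi fun τ => (D π) ∘ₗ (LinearMap.proj τ) +
    ∑ σ, (LinearMap.mulLeft K (cR π σ τ)) ∘ₗ (LinearMap.proj σ)

theorem dR_apply (x : Cell → R π) (τ : Cell) : dR π x τ = D π (x τ) + ∑ σ, cR π σ τ * x σ := by
  simp [dR]

theorem dR_none (x : Cell → R π) : dR π x none = D π (x none) + ∑ l : E, X π l.toGen * x (some l) := by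
  rw [dR_apply, Fintype.sum_option]
  simp [cR]

/-- transport of a family -/
noncomputable def tr (H : Inv π π') (x : Cell → R π) : Cell → R π' :=
  fun σ => (mu π σ)⁻¹ • th H.symm (x σ)

theorem th_tr (H : Inv π π') (x : Cell → R π) (σ : Cell) : mu π σ • th H (tr H x σ) = x σ := by
  rw [tr, map_smul, th_th, smul_smul, mul_inv_cancel₀ (mu_ne σ), one_smul]

theorem dR_eq (H : Inv π π') (x : Cell → R π) (τ : Cell) :
    dR π x τ = mu π τ • th H (dX π' (tr H x) τ) := by
  rw [dR_apply, dX_apply, map_add, th_D, smul_add, ← map_smul (D π), th_tr, map_sum, Finset.smul_sum]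
  congr 1
  refine Finset.sum_congr rfl fun σ _ => ?_
  rw [th_mul, cR_eq' H, smul_mul_assoc]
  conv_lhs => rw [← th_tr H x σ]
  rw [mul_smul_comm, smul_smul, mul_right_comm, inv_mul_cancel₀ (mu_ne σ), one_mul]

theorem dR_mem_J (H : Inv π π') (x : Cell → R π) (τ : Cell) :
    dR π x τ ∈ J π ↔ dX π' (tr H x) τ ∈ J π' := by
  rw [dR_eq H]
  constructor
  · intro h
    have h1 := Submodule.smul_mem _ (mu π τ)⁻¹ h
    rw [smul_smul, inv_mul_cancel₀ (mu_ne τ), one_smul] at h1
    have h2 := th_J H.symm h1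
    rwa [th_th'] at h2
  · intro h
    exact Submodule.smul_mem _ _ (th_J H h)

theorem cell_smul (H : Inv π π') {r : R π} {τ : Cell} {P A C : ℤ} (h : r ∈ pz π P A C) :
    (mu π τ)⁻¹ • th H.symm r ∈ pz π' P A C := Submodule.smul_mem _ _ (th_pz H.symm h)

/-- **Maurer-Cartan of the right table** -/
theorem cR_mc (H : Inv π π') (σ τ : Cell) : D π (cR π σ τ) + ∑ ρ, cR π ρ τ * cR π σ ρ ∈ J π := by
  have h := th_J H (cc_mc (π := π') σ τ)
  have e : D π (cR π σ τ) + ∑ ρ, cR π ρ τ * cR π σ ρ =
      ((mu π σ)⁻¹ * mu π τ) • th H (D π' (cc π' σ τ) + ∑ ρ, cc π' σ ρ * cc π' ρ τ) := by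
    rw [map_add, map_sum, th_D, smul_add, Finset.smul_sum, cR_eq' H σ τ, map_smul]
    congr 1
    refine Finset.sum_congr rfl fun ρ _ => ?_
    rw [th_mul, cR_eq' H ρ τ, cR_eq' H σ ρ, smul_mul_assoc, mul_smul_comm, smul_smul]
    congr 1
    have := mu_ne (π := π) ρ
    field_simp
  rw [e]
  exact Submodule.smul_mem _ _ h

/-- the right table is homogeneous -/
theorem cR_pz (H : Inv π π') {P A C : ℤ} {σ τ : Cell} (h : cc π' σ τ ∈ pz π' P A C) :
    cR π σ τ ∈ pz π P A C := by
  rw [cR_eq' H]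
  exact Submodule.smul_mem _ _ (th_pz H h)

/-- the common part of the two exactness statements -/
theorem ex_core (H : Inv π π') {P A C : ℤ} (x : Cell → R π)
    (hx : ∀ σ, x σ ∈ pz π (P - cP σ) (A - cA σ) (C - cdeg σ))
    (h : ∀ τ, D π (x τ) + ∑ σ, cR π σ τ * x σ ∈ J π)
    (h0 : s0 π' (tr H x none) ∈ J π') :
    ∃ y : Cell → R π, y none = 0 ∧ (∀ σ, y σ ∈ pz π (P - cP σ) (A - cA σ) (C + 1 - cdeg σ)) ∧
      ∀ τ, x τ - (D π (y τ) + ∑ σ, cR π σ τ * y σ) ∈ J π := by
  obtain ⟨y, hy0, hy1, hy2⟩ := exR_core (π := π') (P := P) (A := A) (C := C) (tr H x)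
    (fun σ => cell_smul H (hx σ)) (fun τ => by
      rw [← dX_apply]
      exact (dR_mem_J H x τ).1 (by rw [dR_apply]; exact h τ)) h0
  refine ⟨fun σ => mu π σ • th H (y σ), ?_, ?_, ?_⟩
  · show mu π none • th H (y none) = 0
    rw [hy0, map_zero, smul_zero]
  · intro σ
    exact Submodule.smul_mem _ _ (th_pz H (hy1 σ))
  · intro τ
    have e2 : tr H (fun σ => mu π σ • th H (y σ)) = y := by
      funext σ
      show (mu π σ)⁻¹ • th H.symm (mu π σ • th H (y σ)) = y σ
      rw [map_smul, th_th', smul_smul, inv_mul_cancel₀ (mu_ne σ), one_smul]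
    have e3 := dR_eq H (fun σ => mu π σ • th H (y σ)) τ
    rw [e2, dR_apply] at e3
    have h3 := Submodule.smul_mem _ (mu π τ) (th_J H (hy2 τ))
    rw [← dX_apply] at h3
    have e4 : x τ - mu π τ • th H (dX π' y τ) = mu π τ • th H (tr H x τ - dX π' y τ) := by
      conv_lhs => rw [← th_tr H x τ]
      rw [map_sub]
      module
    rw [e3, e4]
    exact h3

/-- **exactness in positive degrees** -/
theorem exR (H : Inv π π') {P A C : ℤ} (hC : 0 < C) (x : Cell → R π)
    (hx : ∀ σ, x σ ∈ pz π (P - cP σ) (A - cA σ) (C - cdeg σ))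
    (h : ∀ τ, D π (x τ) + ∑ σ, cR π σ τ * x σ ∈ J π) :
    ∃ y : Cell → R π, y none = 0 ∧ (∀ σ, y σ ∈ pz π (P - cP σ) (A - cA σ) (C + 1 - cdeg σ)) ∧
      ∀ τ, x τ - (D π (y τ) + ∑ σ, cR π σ τ * y σ) ∈ J π :=
  ex_core H x hx h (s0_mem_J (C := C) (P := P) (A := A) hC (by
    have h1 : x none ∈ pz π P A C := by simpa [cdeg, cP, cA] using hx none
    exact cell_smul H (τ := none) h1))

/-! ### the augmentation -/

open Crest.Agent.R186.VOp220 (Pol mon X0 X1 hom)

/-- `r ↦` class of `r` in `R'' / (E R'' + J) = k[x]`, coordinates of `rep (th r) 1` -/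
noncomputable def augR (H : Inv π π') : R π →ₗ[K] Pol K := (aug π') ∘ₗ (th H.symm)

theorem augR_apply (H : Inv π π') (r : R π) : augR H r = aug π' (th H.symm r) := rfl

theorem augR_X_mul (H : Inv π π') (l : E) (r : R π) : augR H (X π l.toGen * r) = 0 := by
  rw [augR_apply, th_mul, th_X, mul_smul_comm, map_smul, aug_mul_X, smul_zero]

theorem augR_J (H : Inv π π') {r : R π} (hr : r ∈ J π) : augR H r = 0 := aug_J (th_J H.symm hr)

theorem aug_mul (a b : R π) : aug π (a * b) = Vmod220.rep π a (aug π b) := by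
  rw [aug_apply, aug_apply, map_mul, Module.End.mul_apply]

theorem augR_mul (H : Inv π π') (a b : R π) :
    augR H (a * b) = Vmod220.rep π' (th H.symm b) (augR H a) := by
  rw [augR_apply, th_mul, aug_mul]
  rfl

/-- **exactness in degree zero** -/
theorem exR0 (H : Inv π π') {P A : ℤ} (x : Cell → R π)
    (hx : ∀ σ, x σ ∈ pz π (P - cP σ) (A - cA σ) (0 - cdeg σ))
    (h : ∀ τ, D π (x τ) + ∑ σ, cR π σ τ * x σ ∈ J π)
    (h0 : augR H (x none) = 0) :
    ∃ y : Cell → R π, y none = 0 ∧ (∀ σ, y σ ∈ pz π (P - cP σ) (A - cA σ) (0 + 1 - cdeg σ)) ∧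
      ∀ τ, x τ - (D π (y τ) + ∑ σ, cR π σ τ * y σ) ∈ J π := by
  refine ex_core H x hx h (s0_mem_J0 (P := P) (A := A) ?_ ?_)
  · have h1 : x none ∈ pz π P A 0 := by simpa [cdeg, cP, cA] using hx none
    exact cell_smul H (τ := none) h1
  · show aug π' ((mu π none)⁻¹ • th H.symm (x none)) = 0
    rw [map_smul, ← augR_apply H, h0, smul_zero]

/-- **generation** -/
theorem gen (H : Inv π π') {P : ℤ} (A : ℕ) {u : Pol K} (hu : u ∈ hom K P) :
    ∃ r ∈ pz π P A 0, augR H r = u := by
  obtain ⟨r, hr, h⟩ := gen_mod (π := π') A hu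
  exact ⟨th H r, th_pz H hr, by rw [augR_apply, th_th', ← h]; rfl⟩

end Crest.Agent.R186.RC860
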