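import Crest.Agent.R186.C2bR_805
import Crest.Agent.R186.RCk_171

/-!
Row 186 (A), right cells of `DV_{-2}`, helper805: `rc = Name171.rct`; exactness in 171's literal
`rct`, `dY`; degree zero (`chi`), `kill` form.
-/

set_option autoImplicit false

noncomputable section

namespace Crest.Agent.R186.RC805

open Crest.Agent.R186.DefsQ830 Crest.Agent.R186.Cells221
open Crest.Agent.R186.PBW128 (E Y Wb N Ix bv we wq dPx dAx dCx ext_bv we_cons we_nil wq_one)
open Crest.Agent.R186.Der580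
open Crest.Agent.R186.C2b362 (pz J D_J left_J right_J mul_Y_mem_J NZ mem_NZ mem_pz pz_cast pz_neg
  mul_pz D_pz mem_pz_nat cA cdeg_some cP_some)
open Crest.Agent.R186.C2b44 (kill kill_E kill_kill)
open Crest.Agent.R186.KOS296 (Th Th_bv Th_inj Th_surj Th_mem exists_Th nr mem_J_iff_kill kill_pz
  sub_kill_mem_J)
open Crest.Agent.R186.Name171 (rct)

variable {K : Type} [Field K]

theorem rcf_eq (π : Par K) (l' l : E) : rcf π l' l = Name171.rcf π l' l := by
  cases l <;> cases l' <;> rfl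

/-- the two tables agree -/
theorem rc_eq (π : Par K) (τ σ : Cell) : rc π τ σ = rct π τ σ := by
  cases σ with
  | none => cases τ <;> rfl
  | some l =>
    cases τ with
    | none => rfl
    | some l' => exact rcf_eq π l' l

theorem dY_eq (π : Par K) (y : Cell → R π) : Name171.dY π y = dY π y := by
  funext τ
  rw [Name171.dY_apply, dY_apply]
  simp only [rc_eq]

/-! ### exactness in 171's table -/

theorem exr_core (π : Par K) {P A C : ℤ} (y : Cell → R π)
    (hy : ∀ σ, y σ ∈ pz π (P - cP σ) (A - cA σ) (C - cdeg σ))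
    (h : ∀ τ, Name171.dY π y τ ∈ J π) (h0 : f0 π (y none) ∈ J π) :
    ∃ z : Cell → R π, z none = 0 ∧ (∀ σ, z σ ∈ pz π (P - cP σ) (A - cA σ) (C + 1 - cdeg σ)) ∧
      ∀ τ, y τ - Name171.dY π z τ ∈ J π := by
  simp only [dY_eq, dY_apply] at h ⊢
  exact exY_core π y hy h h0

theorem exr_mod (π : Par K) {P A C : ℤ} (hC : 0 < C) (y : Cell → R π)
    (hy : ∀ σ, y σ ∈ pz π (P - cP σ) (A - cA σ) (C - cdeg σ))
    (h : ∀ τ, Name171.dY π y τ ∈ J π) :
    ∃ z : Cell → R π, z none = 0 ∧ (∀ σ, z σ ∈ pz π (P - cP σ) (A - cA σ) (C + 1 - cdeg σ)) ∧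
      ∀ τ, y τ - Name171.dY π z τ ∈ J π := by
  simp only [dY_eq, dY_apply] at h ⊢
  exact exY_mod π hC y hy h

/-! ### degree zero -/

/-- the coefficient of the powers of `h` in the letter-free part (normal form level) -/
def chiN (K : Type) [Field K] : N K →ₗ[K] K := Finsupp.linearCombination K
  (fun ν : Ix => if ν.1 = 0 ∧ ν.2.1 = 0 ∧ ν.2.2.2.1 = [] ∧ ν.2.2.2.2 = Wb.one then (1 : K) else 0)

theorem chiN_bv (i j k : ℕ) (w : List E) (q : Wb) :
    chiN K (bv K i j k w q) = if i = 0 ∧ j = 0 ∧ w = [] ∧ q = Wb.one then 1 else 0 := by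
  simp [chiN, bv]

/-- the class of the letter-free part: `f0 r = chi r • h ^ A` modulo `J` when `P ≤ 0` -/
def chi (π : Par K) : R π →ₗ[K] K := chiN K ∘ₗ (ThE π).symm.toLinearMap

theorem chi_Th (π : Par K) (n : N K) : chi π (Th π n) = chiN K n := by
  show chiN K ((ThE π).symm (Th π n)) = _
  rw [ThE_symm']

theorem chi_X_mul (π : Par K) (l : E) (r : R π) : chi π (X π l.toGen * r) = 0 := by
  obtain ⟨n, rfl⟩ := Th_surj π r
  rw [← Th_cons, chi_Th]
  have h : chiN K ∘ₗ cons K l = 0 := by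
    apply ext_bv
    intro i j k w q
    rw [LinearMap.comp_apply, cons_bv, chiN_bv, if_neg (by simp)]
    rfl
  exact LinearMap.congr_fun h n

theorem chi_f0 (π : Par K) (r : R π) : chi π (f0 π r) = chi π r := by
  conv_rhs => rw [splitR π r]
  rw [map_add, map_sum, Finset.sum_eq_zero (fun l _ => chi_X_mul π l _), add_zero]

theorem chi_h_mul (π : Par K) (r : R π) : chi π (X π .h * r) = chi π r := by
  obtain ⟨n, rfl⟩ := Th_surj π r
  have h : chi π ∘ₗ LinearMap.mulLeft K (X π .h) ∘ₗ Th π = chi π ∘ₗ Th π := by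
    apply ext_bv
    intro i j k w q
    rw [LinearMap.comp_apply, LinearMap.comp_apply, LinearMap.comp_apply, LinearMap.mulLeft_apply,
      Th_bv]
    have e : X π .h * nr π (i, j, k, w, q) = Th π (bv K i j (k + 1) w q) := by
      rw [Th_bv]; simp only [nr, pow_succ', mul_assoc]
    rw [e, chi_Th, chiN_bv, ← Th_bv, chi_Th, chiN_bv]
  exact LinearMap.congr_fun h n

theorem chi_hpow_mul (π : Par K) (a : ℕ) (r : R π) : chi π (X π .h ^ a * r) = chi π r := by
  induction a with
  | zero => rw [pow_zero, one_mul]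
  | succ a ih => rw [pow_succ', mul_assoc, chi_h_mul, ih]

theorem chi_one (π : Par K) : chi π (1 : R π) = 1 := by
  have e : (1 : R π) = Th π (bv K 0 0 0 [] Wb.one) := by
    rw [Th_bv]; simp [nr, we_nil, wq_one]
  rw [e, chi_Th, chiN_bv, if_pos ⟨rfl, rfl, rfl, rfl⟩]

theorem chi_hpow (π : Par K) (a : ℕ) : chi π (X π .h ^ a) = 1 := by
  rw [← mul_one (X π .h ^ a), chi_hpow_mul, chi_one]

theorem hpow_mem (π : Par K) (a : ℕ) : X π .h ^ a ∈ pz π 0 a 0 := by
  have := nr_mem_pz π (0, 0, a, [], Wb.one)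
  have e : nr π (0, 0, a, [], Wb.one) = X π .h ^ a := by simp [nr, we_nil, wq_one]
  rw [e] at this
  refine pz_cast this ?_ ?_ ?_ <;> simp [dPx, dAx, dCx, Wb.word, wC]

theorem kill_we (π : Par K) (w : List E) : kill π (we π w) = we π w := by
  induction w with
  | nil => rw [we_nil, map_one]
  | cons l w ih => rw [we_cons, map_mul, kill_E, ih]

theorem chi_kill (π : Par K) (r : R π) : chi π (kill π r) = chi π r := by
  obtain ⟨n, rfl⟩ := Th_surj π r
  have h : chi π ∘ₗ (kill π).toLinearMap ∘ₗ Th π = chi π ∘ₗ Th π := by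
    apply ext_bv
    intro i j k w q
    rw [LinearMap.comp_apply, LinearMap.comp_apply, LinearMap.comp_apply, Th_bv]
    by_cases hq : q = Wb.one
    · subst hq
      have e : (kill π).toLinearMap (nr π (i, j, k, w, Wb.one)) = nr π (i, j, k, w, Wb.one) := by
        show kill π _ = _
        simp only [nr, map_mul, map_pow, wq_one, mul_one, kill_we, C2b44.kill_x, C2b44.kill_h]
      rw [e]
    · have e : (kill π).toLinearMap (nr π (i, j, k, w, q)) = 0 := by
        show kill π _ = _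
        simp only [nr, map_mul, C2b44.kill_wq, if_neg hq, mul_zero, zero_mul]
      rw [e, map_zero, ← Th_bv, chi_Th, chiN_bv, if_neg (fun h => hq h.2.2.2)]
  exact LinearMap.congr_fun h n

theorem chi_J (π : Par K) {r : R π} (hr : r ∈ J π) : chi π r = 0 := by
  rw [← chi_kill, (mem_J_iff_kill π).1 hr, map_zero]

/-- in `P`-degree `≤ 0` the letter-free part is `chi r • h ^ a` modulo `J` -/
theorem f0_chi (π : Par K) {P A C : ℤ} (hP : P ≤ 0) {r : R π} (hr : r ∈ pz π P A C) (a : ℕ)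
    (ha : (a : ℤ) = A) : f0 π r - chi π r • X π .h ^ a ∈ J π := by
  have key : ∀ n : N K, n ∈ NZ K P A C →
      (Th π ∘ₗ hd0 K - (chiN K).smulRight (X π .h ^ a)) n ∈ J π := by
    intro n hn
    refine map_NZ _ (J π) ?_ hn
    intro i j k w q h1 h2 h3
    rw [LinearMap.sub_apply, LinearMap.comp_apply, LinearMap.smulRight_apply]
    cases w with
    | nil =>
      rw [hd0_nil, Th_bv, chiN_bv]
      by_cases hq : q = Wb.one
      · subst hq
        have e1 : dPx (i, j, k, [], Wb.one) = i + j := by simp [dPx]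
        have e2 : dAx (i, j, k, [], Wb.one) = k := by simp [dAx]
        rw [e1] at h1
        rw [e2] at h2
        have hi : i = 0 := by omega
        have hj : j = 0 := by omega
        subst hi; subst hj
        have hk : k = a := by omega
        subst hk
        rw [if_pos ⟨rfl, rfl, rfl, rfl⟩, one_smul]
        simp [nr, we_nil, wq_one]
      · rw [if_neg (fun h => hq h.2.2.2), zero_smul, sub_zero, mem_J_iff_kill]
        simp only [nr, map_mul, C2b44.kill_wq, if_neg hq, mul_zero, zero_mul]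
    | cons l w =>
      rw [hd0_bv, map_zero, chiN_bv, if_neg (by simp), zero_smul, sub_zero]
      exact Submodule.zero_mem _
  have := key _ (ThE_NZ π hr)
  rwa [LinearMap.sub_apply, LinearMap.comp_apply, LinearMap.smulRight_apply] at this

theorem f0_J_iff (π : Par K) {P A C : ℤ} (hP : P ≤ 0) {r : R π} (hr : r ∈ pz π P A C) :
    f0 π r ∈ J π ↔ chi π r = 0 := by
  constructor
  · intro h
    rw [← chi_f0]
    exact chi_J π h
  · intro h
    rcases KOS296.pz_cases π hr with rfl | ⟨A', C', rfl, rfl⟩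
    · rw [map_zero]; exact Submodule.zero_mem _
    · have := f0_chi π hP hr A' rfl
      rwa [h, zero_smul, sub_zero] at this

/-- `chi` lives in degree `(0, *, 0)` -/
theorem chi_ne (π : Par K) {P A C : ℤ} (h : P ≠ 0 ∨ C ≠ 0) {r : R π} (hr : r ∈ pz π P A C) :
    chi π r = 0 := by
  have key : ∀ n : N K, n ∈ NZ K P A C → chiN K n ∈ (⊥ : Submodule K K) := by
    intro n hn
    refine map_NZ _ ⊥ ?_ hn
    intro i j k w q h1 h2 h3
    rw [chiN_bv, if_neg]
    · exact Submodule.zero_mem _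
    · rintro ⟨rfl, rfl, rfl, rfl⟩
      have e1 : dPx (0, 0, k, [], Wb.one) = 0 := by simp [dPx]
      have e3 : dCx (0, 0, k, [], Wb.one) = 0 := by simp [dCx, Wb.word, wC]
      rw [e1] at h1
      rw [e3] at h3
      rcases h with h | h
      · exact h h1.symm
      · exact h (by exact_mod_cast h3.symm)
  exact (Submodule.mem_bot K).1 (key _ (ThE_NZ π hr))

/-- `chi` is multiplicative when the left factor has `P ≤ 0` -/
theorem chi_mul (π : Par K) {P A C : ℤ} (hP : P ≤ 0) {r : R π} (hr : r ∈ pz π P A C) (s : R π) :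
    chi π (r * s) = chi π r * chi π s := by
  rcases KOS296.pz_cases π hr with rfl | ⟨A', C', rfl, rfl⟩
  · rw [zero_mul, map_zero, zero_mul]
  · have h1 := f0_chi π hP hr A' rfl
    have h2 : r * s = (f0 π r - chi π r • X π .h ^ A') * s + chi π r • (X π .h ^ A' * s) +
        ∑ l, X π l.toGen * (fl π l r * s) := by
      conv_lhs => rw [splitR π r]
      rw [add_mul, sub_mul, smul_mul_assoc, Finset.sum_mul]
      simp only [mul_assoc, sub_add_cancel]
    rw [h2, map_add, map_add, map_sum, Finset.sum_eq_zero (fun l _ => chi_X_mul π l _), add_zero,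
      chi_J π (right_J h1 s), zero_add, map_smul, chi_hpow_mul, smul_eq_mul]

/-- a boundary has `chi = 0` in the component `none` -/
theorem chi_dY (π : Par K) {P A : ℤ} (y : Cell → R π)
    (hy : ∀ σ, y σ ∈ pz π (P - cP σ) (A - cA σ) (1 - cdeg σ)) : chi π (Name171.dY π y none) = 0 := by
  rw [Name171.dY_none, map_add, map_sum, Finset.sum_eq_zero (fun l _ => chi_X_mul π l _), add_zero]
  have h0 := hy none
  have h1 : y none = f0 π (y none) + ∑ l, X π l.toGen * fl π l (y none) := splitR π (y none)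
  have hJ : f0 π (y none) ∈ J π := f0_mem_J π (by simp [cdeg]) h0
  rw [h1, map_add, map_sum, map_add, chi_J π (D_J hJ), zero_add, map_sum]
  refine Finset.sum_eq_zero fun l _ => ?_
  rw [D_mul, map_add, chi_X_mul, add_zero, D_E_r, add_mul, map_add, chi_J π (right_J (yq_J π l) _),
    add_zero, Finset.sum_mul, map_sum]
  refine Finset.sum_eq_zero fun l' _ => ?_
  rw [mul_assoc, chi_X_mul]

/-- **exactness in degree `0`** -/
theorem exr0_mod (π : Par K) {P A : ℤ} (hP : P ≤ 0) (y : Cell → R π)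
    (hy : ∀ σ, y σ ∈ pz π (P - cP σ) (A - cA σ) (0 - cdeg σ))
    (h : ∀ τ, Name171.dY π y τ ∈ J π) (h0 : chi π (y none) = 0) :
    ∃ z : Cell → R π, z none = 0 ∧ (∀ σ, z σ ∈ pz π (P - cP σ) (A - cA σ) (1 - cdeg σ)) ∧
      ∀ τ, y τ - Name171.dY π z τ ∈ J π := by
  obtain ⟨z, hz0, hz, hzy⟩ := exr_core π (C := 0) y hy h
    ((f0_J_iff π (by simpa [cP] using hP) (hy none)).2 h0)
  exact ⟨z, hz0, fun σ => pz_cast (hz σ) rfl rfl (by ring), hzy⟩

/-! ### the same in `R' = range kill` -/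

/-- the honest differential on `Cell → R'` -/
theorem kill_dY (π : Par K) (y : Cell → R π) (hk : ∀ σ, kill π (y σ) = y σ) (τ : Cell) :
    kill π (Name171.dY π y τ) = kill π (D π (y τ)) + ∑ σ, rct π τ σ * y σ := by
  rw [Name171.dY_apply, map_add, map_sum]
  simp only [map_mul, Name171.kill_rct, hk]

theorem kill_D_kill (π : Par K) (r : R π) : kill π (D π (kill π r)) = kill π (D π r) := by
  have h := (mem_J_iff_kill π).1 (D_J (sub_kill_mem_J π r))
  rw [map_sub, map_sub, sub_eq_zero] at h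
  exact h.symm

/-- every `C` (hypothesis on the letter-free part) -/
theorem exk_core (π : Par K) {P A C : ℤ} (y : Cell → R π) (hk : ∀ σ, kill π (y σ) = y σ)
    (hy : ∀ σ, y σ ∈ pz π (P - cP σ) (A - cA σ) (C - cdeg σ))
    (h : ∀ τ, kill π (D π (y τ)) + ∑ σ, rct π τ σ * y σ = 0) (h0 : f0 π (y none) ∈ J π) :
    ∃ z : Cell → R π, (∀ σ, kill π (z σ) = z σ) ∧
      (∀ σ, z σ ∈ pz π (P - cP σ) (A - cA σ) (C + 1 - cdeg σ)) ∧
      ∀ τ, y τ = kill π (D π (z τ)) + ∑ σ, rct π τ σ * z σ := by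
  obtain ⟨z, -, hz, hzy⟩ := exr_core π y hy
    (fun τ => (mem_J_iff_kill π).2 (by rw [kill_dY π y hk, h])) h0
  refine ⟨fun σ => kill π (z σ), fun σ => kill_kill π _, fun σ => kill_pz π (hz σ), fun τ => ?_⟩
  have h1 := (mem_J_iff_kill π).1 (hzy τ)
  rw [map_sub, hk, sub_eq_zero, Name171.dY_apply, map_add, map_sum] at h1
  simp only [map_mul, Name171.kill_rct] at h1
  rw [h1, kill_D_kill]

theorem exk (π : Par K) {P A C : ℤ} (hC : 0 < C) (y : Cell → R π) (hk : ∀ σ, kill π (y σ) = y σ)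
    (hy : ∀ σ, y σ ∈ pz π (P - cP σ) (A - cA σ) (C - cdeg σ))
    (h : ∀ τ, kill π (D π (y τ)) + ∑ σ, rct π τ σ * y σ = 0) :
    ∃ z : Cell → R π, (∀ σ, kill π (z σ) = z σ) ∧
      (∀ σ, z σ ∈ pz π (P - cP σ) (A - cA σ) (C + 1 - cdeg σ)) ∧
      ∀ τ, y τ = kill π (D π (z τ)) + ∑ σ, rct π τ σ * z σ :=
  exk_core π y hk hy h (f0_mem_J π (by simpa [cdeg] using hC) (hy none))

theorem exk0 (π : Par K) {P A : ℤ} (hP : P ≤ 0) (y : Cell → R π) (hk : ∀ σ, kill π (y σ) = y σ)
    (hy : ∀ σ, y σ ∈ pz π (P - cP σ) (A - cA σ) (0 - cdeg σ))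
    (h : ∀ τ, kill π (D π (y τ)) + ∑ σ, rct π τ σ * y σ = 0) (h0 : chi π (y none) = 0) :
    ∃ z : Cell → R π, (∀ σ, kill π (z σ) = z σ) ∧
      (∀ σ, z σ ∈ pz π (P - cP σ) (A - cA σ) (0 + 1 - cdeg σ)) ∧
      ∀ τ, y τ = kill π (D π (z τ)) + ∑ σ, rct π τ σ * z σ :=
  exk_core π y hk hy h ((f0_J_iff π (by simpa [cP] using hP) (hy none)).2 h0)

/-- cycles of degree `0` vanish outside `none` (automatic: negative degree) -/
theorem exk_none (π : Par K) {P A : ℤ} (y : Cell → R π)
    (hy : ∀ σ, y σ ∈ pz π (P - cP σ) (A - cA σ) (0 - cdeg σ)) (l : E) : y (some l) = 0 := by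
  have := hy (some l)
  rw [cdeg_some] at this
  rcases KOS296.pz_cases π this with h | ⟨A', C', h1, h2⟩
  · exact h
  · exfalso
    have : (0 : ℤ) ≤ l.toGen.dC := Int.natCast_nonneg _
    omega

end Crest.Agent.R186.RC805
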