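import Crest.Agent.R186.KHr_302
import Crest.Agent.R186.Zig_498

/-!
Row 186 (A), short road (helper625): right dg modules over the window algebra given by finitely
many "rows" of the target ring `B = R'` with a twisting matrix acting from the LEFT.

`RC E` : positions `P A : ι → ℤ`, degrees `s : ι → ℤ`, matrix `c : ι → ι → B`.
`C.rm : RM w.dga` : functions `ι → Ob → B`, entries `y l j ∈ EB (P l - P j) (A l - A j)`,
degree `k` : entries in `pb .. (k - s l)`, `d y l = D' (y l) + ∑ l', c l l' * y l'`.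
`row E p a` : one row.  `C.tf X : TF K` : the family `l ↦ row (P l) (A l) ⊗ X`;
`C.ac : Ac (C.tf X).cx → Ac (tG C.rm X)`.
-/

set_option autoImplicit false
set_option linter.style.haveILetI false
set_option linter.unusedSectionVars false

namespace Crest.Agent.R186.RCell625

open Hat827 Win810 Adapt186 Frame515 KH186 KH186.CE Zig498 MulOpposite

variable {K : Type} [Field K] {w : WD K}

/-- finite right cell data over the target ring -/
structure RC (E : CE w) where
  ι : Type
  [fι : Fintype ι]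
  P : ι → ℤ
  A : ι → ℤ
  s : ι → ℤ
  c : ι → ι → E.B
  c_mem : ∀ l l', c l l' ∈ E.pb (P l - P l') (A l - A l') (s l' - s l - 1)
  mc : ∀ l l', E.D' (c l l') + ∑ l'', c l l'' * c l'' l' = 0

attribute [instance] RC.fι

namespace RC

variable {E : CE w} (C : RC E)

/-- the carrier -/
def M : Submodule K (C.ι → w.Ob → E.B) where
  carrier := {η | ∀ l j, η l j ∈ E.EB (C.P l - w.P j) (C.A l - w.A j)}
  add_mem' hx hy c j := Submodule.add_mem _ (hx c j) (hy c j)
  zero_mem' _ _ := Submodule.zero_mem _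
  smul_mem' r _ hx c j := Submodule.smul_mem _ r (hx c j)

/-- homogeneous elements -/
def gr (k : ℤ) : Submodule K C.M where
  carrier := {η | ∀ l j, η.1 l j ∈ E.pb (C.P l - w.P j) (C.A l - w.A j) (k - C.s l)}
  add_mem' hx hy c j := Submodule.add_mem _ (hx c j) (hy c j)
  zero_mem' _ _ := Submodule.zero_mem _
  smul_mem' r _ hx c j := Submodule.smul_mem _ r (hx c j)

variable {C}

theorem mem_gr {k : ℤ} {η : C.M} : η ∈ C.gr k ↔
    ∀ l j, η.1 l j ∈ E.pb (C.P l - w.P j) (C.A l - w.A j) (k - C.s l) := Iff.rfl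

theorem EB_cast' {P A P' A' : ℤ} {b : E.B} (h : b ∈ E.EB P A) (h1 : P = P') (h2 : A = A') :
    b ∈ E.EB P' A' := by
  subst h1 h2
  exact h

theorem pb_cast {P A C' P' A' C'' : ℤ} {b : E.B} (h : b ∈ E.pb P A C') (h1 : P = P')
    (h2 : A = A') (h3 : C' = C'') : b ∈ E.pb P' A' C'' := by
  subst h1 h2 h3
  exact h

/-- the right action -/
def R : w.Win →ₗ[K] C.M →ₗ[K] C.M where
  toFun m :=
    { toFun := fun η => ⟨fun c j => ∑ i, η.1 c i * E.p (m.1 i j), fun c j =>
        Submodule.sum_mem _ fun i _ =>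
          EB_cast' (E.EB_mul (η.2 c i) (E.p_E (m.2 i j))) (by ring) (by ring)⟩
      map_add' := by
        intro x y
        apply Subtype.ext
        funext c j
        change ∑ i, (x.1 c i + y.1 c i) * E.p (m.1 i j) = _ + _
        rw [← Finset.sum_add_distrib]
        exact Finset.sum_congr rfl fun i _ => add_mul _ _ _
      map_smul' := by
        intro r x
        apply Subtype.ext
        funext c j
        change ∑ i, (r • x.1 c i) * E.p (m.1 i j) = r • ∑ i, x.1 c i * E.p (m.1 i j)
        rw [Finset.smul_sum]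
        exact Finset.sum_congr rfl fun i _ => smul_mul_assoc _ _ _ }
  map_add' a b := by
    apply LinearMap.ext
    intro η
    apply Subtype.ext
    funext c j
    change ∑ i, η.1 c i * E.p (a.1 i j + b.1 i j) =
      ∑ i, η.1 c i * E.p (a.1 i j) + ∑ i, η.1 c i * E.p (b.1 i j)
    rw [← Finset.sum_add_distrib]
    exact Finset.sum_congr rfl fun i _ => by rw [map_add, mul_add]
  map_smul' r a := by
    apply LinearMap.ext
    intro η
    apply Subtype.ext
    funext c j
    change ∑ i, η.1 c i * E.p (r • a.1 i j) = r • ∑ i, η.1 c i * E.p (a.1 i j)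
    rw [Finset.smul_sum]
    exact Finset.sum_congr rfl fun i _ => by rw [map_smul, mul_smul_comm]

theorem R_apply (m : w.Win) (η : C.M) (c : C.ι) (j : w.Ob) :
    (R m η).1 c j = ∑ i, η.1 c i * E.p (m.1 i j) := rfl

theorem R_one (η : C.M) : R (C := C) 1 η = η := by
  apply Subtype.ext
  funext c j
  rw [R_apply, Finset.sum_eq_single j]
  · change η.1 c j * E.p ((1 : Matrix w.Ob w.Ob w.S) j j) = _
    rw [Matrix.one_apply_eq, map_one, mul_one]
  · intro i _ hi
    change η.1 c i * E.p ((1 : Matrix w.Ob w.Ob w.S) i j) = _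
    rw [Matrix.one_apply_ne hi, map_zero, mul_zero]
  · intro h
    exact absurd (Finset.mem_univ _) h

theorem R_mul (a b : w.Win) (η : C.M) : R (a * b) η = R b (R a η) := by
  apply Subtype.ext
  funext c j
  rw [R_apply, R_apply]
  simp only [R_apply]
  change ∑ i, η.1 c i * E.p ((a.1 * b.1) i j) = _
  simp only [Matrix.mul_apply, map_sum, map_mul, Finset.mul_sum, Finset.sum_mul]
  rw [Finset.sum_comm]
  exact Finset.sum_congr rfl fun i _ => Finset.sum_congr rfl fun l _ => by rw [mul_assoc]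

theorem R_deg {m k : ℤ} {a : w.Win} {η : C.M} (ha : a ∈ w.G m) (hη : η ∈ C.gr k) :
    R a η ∈ C.gr (k + m) := by
  intro c j
  rw [R_apply]
  refine Submodule.sum_mem _ fun i _ => ?_
  exact pb_cast (E.pb_mul (hη c i) (E.p_mem (ha i j))) (by ring) (by ring) (by ring)

/-- the differential -/
def dM : C.M →ₗ[K] C.M where
  toFun η := ⟨fun c j => E.D' (η.1 c j) + ∑ c', C.c c c' * η.1 c' j, fun c j =>
    Submodule.add_mem _ (E.EB_D (η.2 c j)) (Submodule.sum_mem _ fun c' _ =>
      EB_cast' (E.EB_mul (E.pb_le _ _ _ (C.c_mem c c')) (η.2 c' j)) (by ring) (by ring))⟩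
  map_add' x y := by
    apply Subtype.ext
    funext c j
    change E.D' (x.1 c j + y.1 c j) + ∑ c', C.c c c' * (x.1 c' j + y.1 c' j) =
      (E.D' (x.1 c j) + ∑ c', C.c c c' * x.1 c' j) + (E.D' (y.1 c j) + ∑ c', C.c c c' * y.1 c' j)
    simp only [map_add, mul_add, Finset.sum_add_distrib]
    abel
  map_smul' r x := by
    apply Subtype.ext
    funext c j
    change E.D' (r • x.1 c j) + ∑ c', C.c c c' * (r • x.1 c' j) =
      r • (E.D' (x.1 c j) + ∑ c', C.c c c' * x.1 c' j)
    simp only [map_smul, mul_smul_comm, ← Finset.smul_sum, smul_add]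

theorem dM_apply (η : C.M) (c : C.ι) (j : w.Ob) :
    (dM η).1 c j = E.D' (η.1 c j) + ∑ c', C.c c c' * η.1 c' j := rfl

theorem dM_deg {k : ℤ} {η : C.M} (hη : η ∈ C.gr k) : dM η ∈ C.gr (k - 1) := by
  intro c j
  rw [dM_apply]
  refine Submodule.add_mem _ ?_ (Submodule.sum_mem _ fun c' _ => ?_)
  · exact pb_cast (E.D'_mem (hη c j)) rfl rfl (by ring)
  · exact pb_cast (E.pb_mul (C.c_mem c c') (hη c' j)) (by ring) (by ring) (by ring)

theorem dM_dM (η : C.M) : dM (dM η) = 0 := by
  apply Subtype.ext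
  funext c j
  rw [dM_apply]
  simp only [dM_apply, map_add, map_sum, E.D'_D', E.D'_mul, zero_add, mul_add,
    Finset.sum_add_distrib, Finset.mul_sum]
  have h : ∑ c', E.D' (C.c c c') * η.1 c' j + ∑ c', ∑ c'', C.c c c' * (C.c c' c'' * η.1 c'' j) =
      0 := by
    rw [Finset.sum_comm (f := fun c' c'' => C.c c c' * (C.c c' c'' * η.1 c'' j)),
      ← Finset.sum_add_distrib]
    refine Finset.sum_eq_zero fun c' _ => ?_
    have h1 := congrArg (· * η.1 c' j) (C.mc c c')
    simp only [add_mul, zero_mul, Finset.sum_mul] at h1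
    rw [← h1]
    congr 1
    exact Finset.sum_congr rfl fun i _ => by rw [mul_assoc]
  have h2 := E.two (∑ c', C.c c c' * E.D' (η.1 c' j))
  change _ = (0 : E.B)
  calc _ = (∑ c', E.D' (C.c c c') * η.1 c' j +
        ∑ c', ∑ c'', C.c c c' * (C.c c' c'' * η.1 c'' j)) +
        (∑ c', C.c c c' * E.D' (η.1 c' j) + ∑ c', C.c c c' * E.D' (η.1 c' j)) := by abel
    _ = 0 := by rw [h, h2, add_zero]

theorem R_D (a : w.Win) (η : C.M) : R (w.DW a) η = dM (R a η) + R a (dM η) := by
  apply Subtype.ext
  funext c j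
  change (R (w.DW a) η).1 c j = (dM (R a η)).1 c j + (R a (dM η)).1 c j
  simp only [dM_apply, R_apply, WD.DW_apply, E.p_D, map_sum, E.D'_mul, add_mul,
    Finset.sum_add_distrib, Finset.sum_mul, Finset.mul_sum, mul_assoc]
  rw [Finset.sum_comm (f := fun c' i => C.c c c' * (η.1 c' i * E.p (a.1 i j)))]
  have h1 := E.two (∑ i, E.D' (η.1 c i) * E.p (a.1 i j))
  have h2 := E.two (∑ i, ∑ c', C.c c c' * (η.1 c' i * E.p (a.1 i j)))
  calc _ = (∑ i, η.1 c i * E.D' (E.p (a.1 i j))) +
        (∑ i, E.D' (η.1 c i) * E.p (a.1 i j) + ∑ i, E.D' (η.1 c i) * E.p (a.1 i j)) +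
        (∑ i, ∑ c', C.c c c' * (η.1 c' i * E.p (a.1 i j)) +
          ∑ i, ∑ c', C.c c c' * (η.1 c' i * E.p (a.1 i j))) := by rw [h1, h2, add_zero, add_zero]
    _ = _ := by abel

theorem M_two (y : C.M) : y + y = 0 := by
  apply Subtype.ext
  funext c j
  exact E.two _

instance : SMul (w.Win)ᵐᵒᵖ C.M := ⟨fun m η => R m.unop η⟩

theorem op_smul_def (m : w.Win) (η : C.M) : op m • η = R m η := rfl

instance modM : Module (w.Win)ᵐᵒᵖ C.M where
  one_smul η := R_one η
  mul_smul a b η := R_mul b.unop a.unop η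
  smul_zero a := map_zero (R a.unop)
  smul_add a x y := map_add (R a.unop) x y
  add_smul a b x := by
    change R (a.unop + b.unop) x = R a.unop x + R b.unop x
    rw [map_add, LinearMap.add_apply]
  zero_smul x := by
    change R 0 x = 0
    rw [map_zero, LinearMap.zero_apply]

instance towM : IsScalarTower K (w.Win)ᵐᵒᵖ C.M where
  smul_assoc r a x := by
    change R (r • a.unop) x = r • R a.unop x
    rw [map_smul, LinearMap.smul_apply]

variable (C)

/-- the right dg module -/
noncomputable def rm : RM w.dga where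
  X := C.M
  gr := C.gr
  d := dM
  d_mem := dM_deg
  d_d := dM_dM
  act := inferInstanceAs (Module (w.Win)ᵐᵒᵖ C.M)
  tower := inferInstanceAs (IsScalarTower K (w.Win)ᵐᵒᵖ C.M)
  smul_mem {k l a x} ha hx := by
    have := R_deg (C := C) (m := k) (k := l) (a := a) (η := x) ha hx
    rw [add_comm] at this
    exact this
  leib a x := by
    change dM (R a x) = R (w.DW a) x + R a (dM x)
    rw [R_D, add_assoc, M_two, add_zero]

end RC

/-- one row -/
def rowC (E : CE w) (p a : ℤ) : RC E where
  ι := Unit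
  P _ := p
  A _ := a
  s _ := 0
  c _ _ := 0
  c_mem _ _ := Submodule.zero_mem _
  mc _ _ := by simp

/-- the right module of one row at an arbitrary position -/
noncomputable abbrev row (E : CE w) (p a : ℤ) : RM w.dga := (rowC E p a).rm

/-- left multiplication between rows -/
def lmulR {E : CE w} (b : E.B) {p a P A : ℤ} (hb : b ∈ E.EB P A) {p' a' : ℤ} (hp : p' = P + p)
    (ha : a' = A + a) : (row E p a).X →ₗ[K] (row E p' a').X where
  toFun η := ⟨fun u j => b * η.1 u j, fun u j =>
    RC.EB_cast' (E.EB_mul hb (η.2 u j)) (by change P + (p - w.P j) = p' - w.P j; omega)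
      (by change A + (a - w.A j) = a' - w.A j; omega)⟩
  map_add' x y := by
    apply Subtype.ext
    funext u j
    exact mul_add _ _ _
  map_smul' r x := by
    apply Subtype.ext
    funext u j
    exact mul_smul_comm _ _ _

theorem lmulR_apply {E : CE w} (b : E.B) {p a P A : ℤ} (hb : b ∈ E.EB P A) {p' a' : ℤ}
    (hp : p' = P + p) (ha : a' = A + a) (η : (row E p a).X) (u : Unit) (j : w.Ob) :
    (lmulR b hb hp ha η).1 u j = b * η.1 u j := rfl

end Crest.Agent.R186.RCell625
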