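import Crest.Agent.R186.FWI_226
import Crest.Agent.R186.C2W_655
import Crest.Agent.R186.C2N_655

/-!
Row 186, half (A), (c2) instances (helper371): right `W`-freeness in helper226's form `RFree`.

`welR π : WEl (WR π).dga` (letters of `W` as diagonal window matrices, helper655's `yW`, `piW`),
`rfree_tQ : RFree (welR π) (tQ Y (selfB _))` for any right cells `Y`, and
`rfreeM : RFree (welR π) (DM π s hs)` (226's `rfreeOf` and 655's `wnM`).
-/

set_option autoImplicit false
set_option linter.style.haveILetI false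
set_option linter.unusedSectionVars false

noncomputable section

open MulOpposite

namespace Crest.Agent.R186.RF371

open Hat827 Frame515 Res255 C2pp655 FinV988
open Crest.Agent.R186.DefsQ830 Crest.Agent.R186.PBW128 Crest.Agent.R186.Der580
open Crest.Agent.R186.Win810 Crest.Agent.R186.C2b44 Crest.Agent.R186.WL221
open Crest.Agent.R186.C1R808 Crest.Agent.R186.C2W655

variable {K : Type} [Field K] (π : Par K)

/-! ### the letters of `W` -/

/-- structure constants `y_b y_a = ε b a • pi` -/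
def eps : Y → Y → K
  | .y b, .y a => if b = 0 then (if a = 1 then 1 else 0) else (if a = 0 then π.p else 0)
  | _, _ => 0

theorem zc_XY (q : Wb) (b : Y) : zc π q (X π b.toGen) = if yq b = q then 1 else 0 := by
  have h := zc_mul_wq π q (yq b) (z := 1) (by
    have := zc_mem π .one (1 : R π)
    rw [← kill_eq_zc, map_one] at this
    exact this)
  rw [one_mul, wq_yq] at h
  exact h

theorem XY_mul (b a : Y) : X π b.toGen * X π a.toGen = eps π b a • wq π .pi := by
  rw [mul_Y_eq, ← kill_eq_zc, kill_XY, zero_mul, zero_add]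
  have : ep π a (X π b.toGen) = eps π b a • (1 : R π) := by
    cases a with
    | y s =>
      rcases fin2 s with rfl | rfl
      · cases b with
        | y t => rcases fin2 t with rfl | rfl <;> simp [ep, eps, zc_XY, yq]
        | yb t => simp [ep, eps, zc_XY, yq]
      · cases b with
        | y t => rcases fin2 t with rfl | rfl <;> simp [ep, eps, zc_XY, yq]
        | yb t => simp [ep, eps, zc_XY, yq]
    | yb s => cases b <;> simp [ep, eps]
  rw [this, smul_mul_assoc, one_mul]

theorem en_yW (a : Y) (i j : DefsQ830.Ob) : en (yW π a) i j = if i = j then X π a.toGen else 0 :=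
  Matrix.diagonal_apply (n := DefsQ830.Ob) (fun _ => X π a.toGen) i j

theorem en_piW (i j : DefsQ830.Ob) : en (piW π) i j = if i = j then wq π .pi else 0 :=
  Matrix.diagonal_apply (n := DefsQ830.Ob) (fun _ => wq π .pi) i j

theorem en_smul (r : K) (m : (WR π).Win) (i j : DefsQ830.Ob) : en (r • m) i j = r • en m i j := rfl

theorem yW_yW (b a : Y) : yW π b * yW π a = eps π b a • piW π := by
  refine en_ext fun i j => ?_
  rw [en_mul_yW, en_yW, en_smul, en_piW]
  split_ifs with h
  · exact XY_mul π b a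
  · rw [zero_mul, smul_zero]

theorem eps_deg (b a : Y) (h : eps π b a ≠ 0) : dy b + dy a = dpi := by
  rw [dpi_eq]
  cases a with
  | y s =>
    cases b with
    | y t =>
      rcases fin2 s with rfl | rfl <;> rcases fin2 t with rfl | rfl
      · simp [eps] at h
      · exact add_comm _ _
      · rfl
      · simp [eps] at h
    | yb t => simp [eps] at h
  | yb s => cases b <;> simp [eps] at h

/-- **the letters of `W` in `L''`** -/
def welR : FWI226.WEl (WR π).dga where
  ι := Y
  y := yW π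
  δ := dy
  y_mem := (waR π).y_mem
  D_y := (waR π).y_D
  pi := piW π
  δp := dpi
  pi_mem := (waR π).pi_mem
  D_pi := (waR π).pi_D
  ε := eps π
  yy := yW_yW π
  ε_deg := eps_deg π
  y_pi g := (waR π).piW _ ((waR π).pr_y g)
  pi_y := ⟨.y 1, yW π (.y 0), by
    have h := yW_yW π (.y 0) (.y 1)
    simp only [eps, if_true, one_smul] at h
    exact h.symm⟩

/-! ### cells -/

theorem E_map (w : WD K) (f : w.S →ₗ[K] w.S) (l : ℤ)
    (hf : ∀ (P A C : ℤ) (r : w.S), r ∈ w.pc P A C → f r ∈ w.pc P A (C + l)) (i j : w.Ob)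
    {r : w.S} (hr : r ∈ w.E i j) : f r ∈ w.E i j := by
  have h : w.E i j ≤ (w.E i j).comap f :=
    iSup_le fun C r hr => WD.q_le (w := w) i j (C + l) (hf _ _ _ _ hr)
  exact h hr

/-- the component of `m` at `y_a` -/
def hW' (a : Y) (m : (WR π).Win) : (WR π).Win :=
  ⟨Matrix.of fun i j => hq π a (m.1 i j), fun i j =>
    E_map (WR π) (hq π a) (-(dy a : ℤ)) (fun P A C r hr => by
      rw [← sub_eq_add_neg]; exact hq_mem π a hr) i j (m.2 i j)⟩

theorem en_hW' (a : Y) (m : (WR π).Win) (i j : DefsQ830.Ob) :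
    en (hW' π a m) i j = hq π a (en m i j) := rfl

/-- `ker (L'' → L) = L'' W_+`, inhomogeneous form -/
theorem sum_hW' {m : (WR π).Win} (hm : prW π m = 0) : m = ∑ a, hW' π a m * yW π a := by
  refine en_ext fun i j => ?_
  rw [en_sum]
  simp only [en_mul_yW, en_hW']
  exact sum_hq π (prW_eq_zero.1 hm i j)

variable (Y' : RCells (WR π).dga)

/-- `Y ⊗ L''` -/
abbrev TQ : RM (WR π).dga := tQ Y' (selfB (WR π).dga)

variable {π Y'}

/-- components -/
def cmp (w : (TQ π Y').X) (σ : Y'.ι) : (WR π).Win := (show Y'.ι →₀ (WR π).Win from w) σ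

theorem cmp_ext {w w' : (TQ π Y').X} (h : ∀ σ, cmp w σ = cmp w' σ) : w = w' := Finsupp.ext h

theorem cmp_sum (c : Y → (TQ π Y').X) (σ : Y'.ι) :
    cmp (∑ g, op ((welR π).y g) • c g) σ = ∑ g, cmp (c g) σ * yW π g :=
  Finsupp.finsetSum_apply _ _ _

theorem cmp_pi (x : (TQ π Y').X) (σ : Y'.ι) :
    cmp (op (welR π).pi • x) σ = cmp x σ * piW π := rfl

/-- a family of families -/
def mkF (z : Y'.ι →₀ (Y → (WR π).Win)) (g : Y) : (TQ π Y').X := z.mapRange (fun f => f g) rfl

theorem cmp_mkF (z : Y'.ι →₀ (Y → (WR π).Win)) (g : Y) (σ : Y'.ι) : cmp (mkF z g) σ = z σ g := rfl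

/-- components of the elements of `W_+` -/
theorem comp_Wp {w : (TQ π Y').X} (h : w ∈ FWI226.Wp (welR π) (TQ π Y')) (σ : Y'.ι) :
    prW π (cmp w σ) = 0 := by
  obtain ⟨c, rfl⟩ := (FWI226.mem_Wp _).1 h
  refine (congrArg (prW π) (cmp_sum c σ)).trans ?_
  rw [map_sum]
  refine Finset.sum_eq_zero fun g _ => ?_
  have h1 : prW π (yW π g) = 0 := (waR π).pr_y g
  rw [map_mul, h1, mul_zero]

/-- membership in `W_+` from the components -/
theorem Wp_of {w : (TQ π Y').X} (h : ∀ σ : Y'.ι, prW π (cmp w σ) = 0) :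
    w ∈ FWI226.Wp (welR π) (TQ π Y') := by
  obtain ⟨z, hz⟩ := choose_fs (show Y'.ι →₀ (WR π).Win from w)
    (fun (_ : Y'.ι) (m : (WR π).Win) (c : Y → (WR π).Win) => m = ∑ a, c a * yW π a)
    (fun σ => by simp) (fun σ => ⟨fun a => hW' π a (cmp w σ), sum_hW' π (h σ)⟩)
  refine (FWI226.mem_Wp _).2 ⟨fun g => mkF z g, cmp_ext fun σ => ?_⟩
  exact (cmp_sum (fun g => mkF z g) σ).trans (hz σ).symm

/-- the idempotents as window matrices -/
def eW (Y' : RCells (WR π).dga) (σ : Y'.ι) : (WR π).Win := Y'.e σ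

theorem eW_idem (σ : Y'.ι) : eW Y' σ * eW Y' σ = eW Y' σ := Y'.e_idem σ

theorem eW_mul_mem (σ : Y'.ι) {k : ℤ} {m : (WR π).Win} (h : m ∈ (WR π).G k) :
    eW Y' σ * m ∈ (WR π).G k := by
  have := (WR π).dga.mul_mem (Y'.e_mem σ) h
  rwa [zero_add] at this

theorem mem_TQ {k : ℤ} {w : (TQ π Y').X} : w ∈ (TQ π Y').gr k ↔
    ∀ σ, cmp w σ ∈ (WR π).G (k - Y'.s σ) ∧ eW Y' σ * cmp w σ = cmp w σ := Iff.rfl

variable (π Y')

/-- **right cells are right `W`-free** -/
theorem rfree_tQ : FWI226.RFree (welR π) (tQ Y' (selfB (WR π).dga)) where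
  a k w hw hk := by
    change w ∈ (TQ π Y').gr k at hk
    rw [mem_TQ] at hk
    obtain ⟨z, hz⟩ := choose_fs (show Y'.ι →₀ (WR π).Win from w)
      (fun (σ : Y'.ι) (m : (WR π).Win) (c : Y → (WR π).Win) =>
        (∀ a, c a ∈ (WR π).G (k - (dy a : ℤ) - Y'.s σ) ∧ eW Y' σ * c a = c a) ∧
          m = ∑ a, c a * yW π a)
      (fun σ => ⟨fun a => ⟨Submodule.zero_mem _, by simp⟩, by simp⟩) (fun σ => by
        obtain ⟨c, hc, he⟩ := (waR π).hW (comp_Wp hw σ) (hk σ).1
        change Y → (WR π).Win at c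
        refine ⟨fun a => eW Y' σ * c a, fun a => ⟨?_, ?_⟩, ?_⟩
        · have := eW_mul_mem (Y' := Y') σ (hc a)
          rwa [show k - (Y'.s σ : ℤ) - (waR π).δ a = k - (dy a : ℤ) - Y'.s σ by
            change k - (Y'.s σ : ℤ) - (dy a : ℕ) = _
            ring] at this
        · rw [← mul_assoc, eW_idem]
        · refine (hk σ).2.symm.trans ?_
          have he' : cmp w σ = ∑ a, c a * yW π a := he
          rw [he', Finset.mul_sum]
          exact Finset.sum_congr rfl fun a _ => (mul_assoc _ _ _).symm)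
    refine ⟨fun g => mkF z g, fun g => ?_, cmp_ext fun σ => ?_⟩
    · change mkF z g ∈ (TQ π Y').gr _
      rw [mem_TQ]
      exact fun σ => (hz σ).1 g
    · exact (hz σ).2.trans (cmp_sum (fun g => mkF z g) σ).symm
  b c := by
    rintro ⟨x, hx⟩ g
    refine Wp_of fun σ => ?_
    exact (waR π).fr1 (fun g => cmp (c g) σ) ⟨cmp x σ, ((cmp_sum c σ).symm.trans
      (congrArg (fun f => cmp f σ) hx)).trans (cmp_pi x σ)⟩ g
  c x hx := by
    refine Wp_of fun σ => ?_
    exact (waR π).fr2 (cmp x σ) ((cmp_pi x σ).symm.trans (congrArg (fun f => cmp f σ) hx))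

/-! ### the dual of `M` -/

/-- **`D(M)` is right `W`-free** -/
theorem rfreeM (s : ℕ) (hs : 2 ≤ s) : FWI226.RFree (welR π) (SM890.DM π s hs) :=
  C2G226.rfreeOf (welR π) (C2N655.wnM π s hs) fun g => (waR π).pr_y g

end Crest.Agent.R186.RF371
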