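import Crest.Agent.R186.FrameRes_830
import Crest.Agent.R186.Res_255

/-!
Row 186 (helper830): existence of the cell resolutions `LRes`, `RRes` of `Res_255` (both sides, any
lower bound `lo`) for bounded below dg modules with finite dimensional pieces.
-/

set_option autoImplicit false
set_option linter.style.haveILetI false
set_option linter.unusedSectionVars false

open MulOpposite

namespace Crest.Agent.R186.RRes830

open Hat827 Hat827.DGA Frame515 FrameRes830 Res255

variable {K : Type} [Field K] {A : DGA K}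

/-! ### shifts -/

/-- shift of the grading of a left dg module -/
def shL (N : LM A) (l : ℤ) : LM A where
  X := N.X
  gr k := N.gr (l + k)
  d := N.d
  d_mem {k x} hx := by
    have := N.d_mem hx
    rwa [show l + k - 1 = l + (k - 1) by ring] at this
  d_d := N.d_d
  act := N.act
  tower := N.tower
  smul_mem {k m a x} ha hx := by
    have := N.smul_mem ha hx
    rwa [show k + (l + m) = l + (k + m) by ring] at this
  leib := N.leib

/-- shift of the grading of a right dg module -/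
def shR (G : RM A) (l : ℤ) : RM A where
  X := G.X
  gr k := G.gr (l + k)
  d := G.d
  d_mem {k x} hx := by
    have := G.d_mem hx
    rwa [show l + k - 1 = l + (k - 1) by ring] at this
  d_d := G.d_d
  act := G.act
  tower := G.tower
  smul_mem {k m a x} ha hx := by
    have := G.smul_mem ha hx
    rwa [show k + (l + m) = l + (k + m) by ring] at this
  leib := G.leib

/-! ### adapters -/

theorem two_add {N : Type} [AddCommGroup N] [Module A.C N] (x : N) : x + x = 0 := by
  have h : ((1 : A.C) + 1) • x = 0 := by rw [A.two, zero_smul]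
  rwa [add_smul, one_smul] at h

theorem eq_of_add_zero {N : Type} [AddCommGroup N] [Module A.C N] {x y : N} (h : x + y = 0) :
    x = y := by
  have h1 := two_add (A := A) y
  have h2 : x + y = y + y := by rw [h, h1]
  exact add_right_cancel h2

theorem augL_sum (X : LCells A) (N : LM A) (v : X.ι → N.X) (x : X.ι →₀ A.C) (S : Finset X.ι)
    (hS : x.support ⊆ S) : augL X N v x = ∑ σ ∈ S, x σ • v σ := by
  rw [augL_apply]
  exact Finsupp.sum_of_support_subset x hS _ fun σ _ => zero_smul _ _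

theorem augR_sum (Y : RCells A) (G : RM A) (v : Y.ι → G.X) (x : Y.ι →₀ A.C) (S : Finset Y.ι)
    (hS : x.support ⊆ S) : augR Y G v x = ∑ σ ∈ S, op (x σ) • v σ := by
  have h : ∀ x : Y.ι →₀ A.C, augR Y G v x = x.sum fun σ a => op a • v σ := by
    intro x
    induction x using Finsupp.induction_linear with
    | zero => rw [map_zero, Finsupp.sum_zero_index]
    | add f g hf hg =>
      rw [map_add, hf, hg, Finsupp.sum_add_index']
      · intro σ; rw [op_zero, zero_smul]
      · intro σ a b; rw [op_add, add_smul]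
    | single σ a => rw [augR_single, Finsupp.sum_single_index (by rw [op_zero, zero_smul])]
  rw [h]
  exact Finsupp.sum_of_support_subset x hS _ fun σ _ => by rw [op_zero, zero_smul]

theorem coreL {X : LCells A} {N : LM A} {l : ℤ} (v : X.ι → N.X)
    (lo : ∀ k : ℤ, k < l → N.gr k = ⊥)
    (H : ∀ (n : ℕ) (x : X.ι → A.C) (w : N.X), (∀ σ, x σ ∈ A.G ((n : ℤ) - 1 - X.s σ)) →
      (∀ σ, x σ * X.e σ = x σ) → w ∈ N.gr (l + n) →
      (∀ τ, A.D (x τ) + ∑ σ ∈ X.F n, x σ * X.c σ τ = 0) → ∑ σ ∈ X.F n, x σ • v σ = N.d w →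
      ∃ y : X.ι → A.C, (∀ σ, y σ ∈ A.G ((n : ℤ) - X.s σ)) ∧ (∀ σ, y σ * X.e σ = y σ) ∧
        (∀ τ, A.D (y τ) + ∑ σ ∈ X.F n, y σ * X.c σ τ = x τ) ∧ ∑ σ ∈ X.F n, y σ • v σ = w)
    (k : ℤ) (x : X.ι →₀ A.C) (n : N.X) (hx : x ∈ (tG (selfR A) X).gr (k - 1))
    (hd : (tG (selfR A) X).d x = 0) (hn : n ∈ N.gr (l + k)) (hxn : augL X N v x + N.d n = 0) :
    ∃ y ∈ (tG (selfR A) X).gr k, ∃ n' ∈ N.gr (l + k + 1),
      (tG (selfR A) X).d y = x ∧ n = augL X N v y + N.d n' := by
  have hx' : ∀ σ, x σ ∈ A.G (k - 1 - X.s σ) := fun σ => (hx σ).1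
  by_cases hk : k < 0
  · have hn0 : n = 0 := by
      rw [lo _ (by omega)] at hn
      exact (Submodule.mem_bot K).1 hn
    have hx0 : x = 0 := Finsupp.ext fun σ => neg (hx' σ) (by omega)
    refine ⟨0, Submodule.zero_mem _, 0, Submodule.zero_mem _, ?_, ?_⟩
    · rw [hx0]; exact map_zero _
    · rw [hn0, map_zero, add_zero]; exact (map_zero (augL X N v)).symm
  · obtain ⟨m, rfl⟩ := Int.eq_ofNat_of_zero_le (by omega : 0 ≤ k)
    have hs : x.support ⊆ X.F m := supp X.mem_F (by omega) hx'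
    have hd' : (twG (regR A) X).dd x = 0 := hd
    obtain ⟨y, hy, hye, hyd, hyv⟩ := H m x n hx' (fun σ => (hx σ).2) hn
      (fun τ => ((twG (regR A) X).dd_apply' x (X.F m) hs τ).symm.trans
        (DFunLike.congr_fun hd' τ))
      (by
        rw [augL_sum X N v x _ hs] at hxn
        exact eq_of_add_zero (A := A) hxn)
    have hsy : (fam X.s X.F X.mem_F m y hy).support ⊆ X.F m := Finsupp.support_onFinset_subset
    refine ⟨fam X.s X.F X.mem_F m y hy, fun σ => ⟨hy σ, hye σ⟩, 0, Submodule.zero_mem _, ?_, ?_⟩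
    · refine Finsupp.ext fun τ => ?_
      refine ((twG (regR A) X).dd_apply' _ (X.F m) hsy τ).trans ?_
      exact hyd τ
    · rw [map_zero, add_zero, augL_sum X N v _ _ hsy]
      exact hyv.symm

theorem coreR {Y : RCells A} {G : RM A} {l : ℤ} (v : Y.ι → G.X)
    (lo : ∀ k : ℤ, k < l → G.gr k = ⊥)
    (H : ∀ (n : ℕ) (x : Y.ι → A.C) (w : G.X), (∀ σ, x σ ∈ A.G ((n : ℤ) - 1 - Y.s σ)) →
      (∀ σ, Y.e σ * x σ = x σ) → w ∈ G.gr (l + n) →
      (∀ τ, A.D (x τ) + ∑ σ ∈ Y.F n, Y.c τ σ * x σ = 0) →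
      ∑ σ ∈ Y.F n, op (x σ) • v σ = G.d w →
      ∃ y : Y.ι → A.C, (∀ σ, y σ ∈ A.G ((n : ℤ) - Y.s σ)) ∧ (∀ σ, Y.e σ * y σ = y σ) ∧
        (∀ τ, A.D (y τ) + ∑ σ ∈ Y.F n, Y.c τ σ * y σ = x τ) ∧
        ∑ σ ∈ Y.F n, op (y σ) • v σ = w)
    (k : ℤ) (x : Y.ι →₀ A.C) (n : G.X) (hx : x ∈ (tY Y (selfL A)).gr (k - 1))
    (hd : (tY Y (selfL A)).d x = 0) (hn : n ∈ G.gr (l + k)) (hxn : augR Y G v x + G.d n = 0) :
    ∃ y ∈ (tY Y (selfL A)).gr k, ∃ n' ∈ G.gr (l + k + 1),
      (tY Y (selfL A)).d y = x ∧ n = augR Y G v y + G.d n' := by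
  have hx' : ∀ σ, x σ ∈ A.G (k - 1 - Y.s σ) := fun σ => (hx σ).1
  by_cases hk : k < 0
  · have hn0 : n = 0 := by
      rw [lo _ (by omega)] at hn
      exact (Submodule.mem_bot K).1 hn
    have hx0 : x = 0 := Finsupp.ext fun σ => neg (hx' σ) (by omega)
    refine ⟨0, Submodule.zero_mem _, 0, Submodule.zero_mem _, ?_, ?_⟩
    · rw [hx0]; exact map_zero _
    · rw [hn0, map_zero, add_zero]; exact (map_zero (augR Y G v)).symm
  · obtain ⟨m, rfl⟩ := Int.eq_ofNat_of_zero_le (by omega : 0 ≤ k)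
    have hs : x.support ⊆ Y.F m := supp Y.mem_F (by omega) hx'
    have hd' : (twY Y (regL A)).dd x = 0 := hd
    obtain ⟨y, hy, hye, hyd, hyv⟩ := H m x n hx' (fun σ => (hx σ).2) hn
      (fun τ => ((twY Y (regL A)).dd_apply' x (Y.F m) hs τ).symm.trans
        (DFunLike.congr_fun hd' τ))
      (by
        rw [augR_sum Y G v x _ hs] at hxn
        have h2 : ∀ g : G.X, g + g = 0 := fun g => by
          have h : (op ((1 : A.C) + 1)) • g = 0 := by rw [A.two, op_zero, zero_smul]
          rwa [op_add, add_smul, op_one, one_smul] at h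
        rw [← h2 (G.d n)] at hxn
        exact add_right_cancel hxn)
    have hsy : (fam Y.s Y.F Y.mem_F m y hy).support ⊆ Y.F m := Finsupp.support_onFinset_subset
    refine ⟨fam Y.s Y.F Y.mem_F m y hy, fun σ => ⟨hy σ, hye σ⟩, 0, Submodule.zero_mem _, ?_, ?_⟩
    · refine Finsupp.ext fun τ => ?_
      refine ((twY Y (regL A)).dd_apply' _ (Y.F m) hsy τ).trans ?_
      exact hyd τ
    · rw [map_zero, add_zero, augR_sum Y G v _ _ hsy]
      exact hyv.symm

/-- `LR` for the shifted module gives `LRes` -/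
noncomputable def toLRes {X : LCells A} {N : LM A} {l : ℤ} (r : LR X (shL N l))
    (lo : ∀ k : ℤ, k < l → N.gr k = ⊥) : LRes X N where
  lo := l
  v := r.v
  v_mem := r.v_mem
  v_e := r.v_e
  v_d := r.v_d
  ex := coreL (N := N) r.v lo r.ex

/-- `RR` for the shifted module gives `RRes` -/
noncomputable def toRRes {Y : RCells A} {G : RM A} {l : ℤ} (r : RR Y (shR G l))
    (lo : ∀ k : ℤ, k < l → G.gr k = ⊥) : RRes Y G where
  lo := l
  v := r.v
  v_mem := r.v_mem
  v_e := r.v_e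
  v_d := r.v_d
  ex := coreR (G := G) r.v lo r.ex

/-! ### existence -/

/-- **existence of left cell resolutions** (bounded below by `l`, finite pieces) -/
theorem exists_LRes (N : LM A) (l : ℤ) (lo : ∀ k : ℤ, k < l → N.gr k = ⊥)
    (fin : ∀ k, Module.Finite K (N.gr k)) : ∃ (X : LCells A) (r : LRes X N), r.lo = l := by
  obtain ⟨X, ⟨r⟩⟩ := exists_LR (shL N l) fun k => fin _
  exact ⟨X, toLRes r lo, rfl⟩

/-- **existence of right cell resolutions** (bounded below by `l`, finite pieces) -/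
theorem exists_RRes (G : RM A) (l : ℤ) (lo : ∀ k : ℤ, k < l → G.gr k = ⊥)
    (fin : ∀ k, Module.Finite K (G.gr k)) : ∃ (Y : RCells A) (r : RRes Y G), r.lo = l := by
  obtain ⟨Y, ⟨r⟩⟩ := exists_RR (shR G l) fun k => fin _
  exact ⟨Y, toRRes r lo, rfl⟩

end Crest.Agent.R186.RRes830
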