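import Crest.Agent.R186.RCell_625

/-!
Row 186 (A), short road (helper625): `C.rm ⊗ X` as a finite twisted family (`Zig498.TF`) of the
complexes `row (P l) (A l) ⊗ X`.
-/

set_option autoImplicit false
set_option linter.style.haveILetI false
set_option linter.unusedSectionVars false

namespace Crest.Agent.R186.RCell625

open Hat827 Win810 Adapt186 Frame515 KH186 KH186.CE Zig498 MulOpposite

variable {K : Type} [Field K]

section gen

variable {A : DGA K} (G G' : RM A) (X : LCells A)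

theorem rm_two (y : G.X) : y + y = 0 := by
  have : y = op (1 : A.C) • y := by rw [op_one, one_smul]
  rw [this, ← add_smul, ← op_add, A.two, op_zero, zero_smul]

/-- coefficient of a cell -/
noncomputable def tev (τ : X.ι) : (tG G X).X →ₗ[K] G.X :=
  (Finsupp.lapply τ : (X.ι →₀ G.X) →ₗ[K] G.X)

theorem tev_ext {x y : (tG G X).X} (h : ∀ τ, tev G X τ x = tev G X τ y) : x = y :=
  Finsupp.ext (α := X.ι) (M := G.X) (f := x) (g := y) h

/-- a linear map applied coefficientwise -/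
noncomputable def tmap (f : G.X →ₗ[K] G'.X) : (tG G X).X →ₗ[K] (tG G' X).X :=
  (Finsupp.mapRange.linearMap f : (X.ι →₀ G.X) →ₗ[K] (X.ι →₀ G'.X))

theorem tev_tmap (f : G.X →ₗ[K] G'.X) (x : (tG G X).X) (τ : X.ι) :
    tev G' X τ (tmap G G' X f x) = f (tev G X τ x) := rfl

/-- a right linear map applied coefficientwise, and the differentials -/
theorem tG_comm (f : G.X →ₗ[K] G'.X) (hf : ∀ (a : A.C) (x : G.X), f (op a • x) = op a • f x)
    (x : (tG G X).X) (τ : X.ι) :
    tev G' X τ ((tG G' X).d (tmap G G' X f x)) =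
      f (tev G X τ ((tG G X).d x)) + (G'.d (f (tev G X τ x)) + f (G.d (tev G X τ x))) := by
  have h1 : tev G' X τ ((tG G' X).d (tmap G G' X f x)) =
      G'.d (f (tev G X τ x)) +
        Finsupp.sum (x : X.ι →₀ G.X) fun σ g => op (X.c σ τ) • f g := by
    change (twG G' X).dd (Finsupp.mapRange.linearMap f (x : X.ι →₀ G.X)) τ = _
    rw [Tw.dd_apply]
    congr 1
    rw [Finsupp.mapRange.linearMap_apply, Finsupp.sum_mapRange_index]
    · rfl
    · intro σ
      exact map_zero _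
  have h2 : f (tev G X τ ((tG G X).d x)) =
      f (G.d (tev G X τ x)) + Finsupp.sum (x : X.ι →₀ G.X) fun σ g => op (X.c σ τ) • f g := by
    change f ((twG G X).dd x τ) = _
    rw [Tw.dd_apply, map_add]
    congr 1
    rw [Finsupp.sum, Finsupp.sum, map_sum]
    exact Finset.sum_congr rfl fun σ _ => hf _ _
  rw [h1, h2]
  have h3 := rm_two G' (f (G.d (tev G X τ x)))
  calc _ = G'.d (f (tev G X τ x)) +
        (Finsupp.sum (x : X.ι →₀ G.X) fun σ g => op (X.c σ τ) • f g) +
        (f (G.d (tev G X τ x)) + f (G.d (tev G X τ x))) := by rw [h3, add_zero]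
    _ = _ := by abel

theorem mem_tG {k : ℤ} {x : (tG G X).X} : x ∈ (tG G X).gr k ↔
    ∀ σ, tev G X σ x ∈ G.gr (k - X.s σ) ∧ op (X.e σ) • tev G X σ x = tev G X σ x := Iff.rfl

end gen

variable {w : WD K} {E : CE w}

/-- entry of an element of `C.rm` -/
def mv (C : RC E) (l : C.ι) (j : w.Ob) : C.rm.X →ₗ[K] E.B where
  toFun η := η.1 l j
  map_add' _ _ := rfl
  map_smul' _ _ := rfl

theorem mv_ext {C : RC E} {x y : C.rm.X} (h : ∀ l j, mv C l j x = mv C l j y) : x = y := by
  apply Subtype.ext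
  funext l j
  exact h l j

theorem mv_op (C : RC E) (m : w.dga.C) (x : C.rm.X) (l : C.ι) (j : w.Ob) :
    mv C l j (op m • x) = ∑ i, mv C l i x * E.p (m.1 i j) := rfl

theorem mv_d (C : RC E) (x : C.rm.X) (l : C.ι) (j : w.Ob) :
    mv C l j (C.rm.d x) = E.D' (mv C l j x) + ∑ c', C.c l c' * mv C c' j x := rfl

theorem mv_mem (C : RC E) (x : C.rm.X) (l : C.ι) (j : w.Ob) :
    mv C l j x ∈ E.EB (C.P l - w.P j) (C.A l - w.A j) := x.2 l j

theorem mv_gr {C : RC E} {x : C.rm.X} {k : ℤ} : x ∈ C.rm.gr k ↔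
    ∀ l j, mv C l j x ∈ E.pb (C.P l - w.P j) (C.A l - w.A j) (k - C.s l) := Iff.rfl

/-- build an element -/
def mkM (C : RC E) (f : C.ι → w.Ob → E.B)
    (h : ∀ l j, f l j ∈ E.EB (C.P l - w.P j) (C.A l - w.A j)) : C.rm.X := ⟨f, h⟩

theorem mv_mkM (C : RC E) (f : C.ι → w.Ob → E.B)
    (h : ∀ l j, f l j ∈ E.EB (C.P l - w.P j) (C.A l - w.A j)) (l : C.ι) (j : w.Ob) :
    mv C l j (mkM C f h) = f l j := rfl

/-- entry of a row -/
abbrev rv {p a : ℤ} (j : w.Ob) : (row E p a).X →ₗ[K] E.B := mv (rowC E p a) () j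

theorem rv_ext {p a : ℤ} {x y : (row E p a).X} (h : ∀ j, rv j x = rv j y) : x = y :=
  mv_ext fun _ j => h j

theorem rv_op (p a : ℤ) (m : w.dga.C) (x : (row E p a).X) (j : w.Ob) :
    rv j (op m • x) = ∑ i, rv i x * E.p (m.1 i j) := rfl

theorem rv_d (p a : ℤ) (x : (row E p a).X) (j : w.Ob) :
    rv j ((row E p a).d x) = E.D' (rv j x) := by
  rw [mv_d]
  change _ + ∑ _c' : Unit, (0 : E.B) * mv (rowC E p a) _ j x = _
  simp

theorem rv_gr {p a k : ℤ} {x : (row E p a).X} : x ∈ (row E p a).gr k ↔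
    ∀ j, rv j x ∈ E.pb (p - w.P j) (a - w.A j) (k - 0) :=
  ⟨fun h j => h () j, fun h _ j => h j⟩

theorem rv_lmulR (b : E.B) {p a P A : ℤ} (hb : b ∈ E.EB P A) {p' a' : ℤ} (hp : p' = P + p)
    (ha : a' = A + a) (x : (row E p a).X) (j : w.Ob) :
    rv j (lmulR b hb hp ha x) = b * rv j x := rfl

theorem lmulR_op (b : E.B) {p a P A : ℤ} (hb : b ∈ E.EB P A) {p' a' : ℤ} (hp : p' = P + p)
    (ha : a' = A + a) (m : w.dga.C) (x : (row E p a).X) :
    lmulR b hb hp ha (op m • x) = op m • lmulR b hb hp ha x := by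
  apply rv_ext
  intro j
  rw [rv_lmulR, rv_op, rv_op, Finset.mul_sum]
  exact Finset.sum_congr rfl fun i _ => by rw [rv_lmulR, mul_assoc]

theorem lmulR_d (b : E.B) {p a P A : ℤ} (hb : b ∈ E.EB P A) {p' a' : ℤ} (hp : p' = P + p)
    (ha : a' = A + a) (x : (row E p a).X) :
    (row E p' a').d (lmulR b hb hp ha x) + lmulR b hb hp ha ((row E p a).d x) =
      lmulR (E.D' b) (E.EB_D hb) hp ha x := by
  apply rv_ext
  intro j
  rw [map_add, rv_d, rv_lmulR, rv_lmulR, rv_lmulR, rv_d, E.D'_mul, add_assoc, E.two, add_zero]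

theorem lmulR_gr (b : E.B) {p a P A : ℤ} (hb : b ∈ E.EB P A) {p' a' : ℤ} (hp : p' = P + p)
    (ha : a' = A + a) {c k : ℤ} (hc : b ∈ E.pb P A c) {x : (row E p a).X}
    (hx : x ∈ (row E p a).gr k) : lmulR b hb hp ha x ∈ (row E p' a').gr (k + c) := by
  rw [rv_gr] at hx ⊢
  intro j
  rw [rv_lmulR]
  exact RC.pb_cast (E.pb_mul hc (hx j)) (by omega) (by omega) (by omega)

/-- left multiplication on `row ⊗ X` -/
noncomputable def lmulG (X : LCells w.dga) (b : E.B) {p a P A : ℤ} (hb : b ∈ E.EB P A)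
    {p' a' : ℤ} (hp : p' = P + p) (ha : a' = A + a) :
    (tG (row E p a) X).X →ₗ[K] (tG (row E p' a') X).X :=
  tmap _ _ X (lmulR b hb hp ha)

theorem tev_lmulG (X : LCells w.dga) (b : E.B) {p a P A : ℤ} (hb : b ∈ E.EB P A)
    {p' a' : ℤ} (hp : p' = P + p) (ha : a' = A + a) (x : (tG (row E p a) X).X) (τ : X.ι) :
    tev _ X τ (lmulG X b hb hp ha x) = lmulR b hb hp ha (tev _ X τ x) := rfl

theorem lmulG_d (X : LCells w.dga) (b : E.B) {p a P A : ℤ} (hb : b ∈ E.EB P A)
    {p' a' : ℤ} (hp : p' = P + p) (ha : a' = A + a) (x : (tG (row E p a) X).X) :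
    (tG (row E p' a') X).d (lmulG X b hb hp ha x) + lmulG X b hb hp ha ((tG (row E p a) X).d x) =
      lmulG X (E.D' b) (E.EB_D hb) hp ha x := by
  refine tev_ext _ X fun τ => ?_
  rw [map_add, tev_lmulG, tev_lmulG, ← lmulR_d]
  have h1 := tG_comm (row E p a) (row E p' a') X (lmulR b hb hp ha) (lmulR_op b hb hp ha) x τ
  change tev _ X τ ((tG (row E p' a') X).d (lmulG X b hb hp ha x)) = _ at h1
  rw [h1]
  have h3 := rm_two (row E p' a') (lmulR b hb hp ha (tev _ X τ ((tG (row E p a) X).d x)))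
  calc _ = ((row E p' a').d (lmulR b hb hp ha (tev _ X τ x)) +
      lmulR b hb hp ha ((row E p a).d (tev _ X τ x))) +
      (lmulR b hb hp ha (tev _ X τ ((tG (row E p a) X).d x)) +
      lmulR b hb hp ha (tev _ X τ ((tG (row E p a) X).d x))) := by abel
    _ = _ := by rw [h3, add_zero]

theorem lmulG_mem (X : LCells w.dga) (b : E.B) {p a P A : ℤ} (hb : b ∈ E.EB P A)
    {p' a' : ℤ} (hp : p' = P + p) (ha : a' = A + a) {c k : ℤ} (hc : b ∈ E.pb P A c)
    {x : (tG (row E p a) X).X} (hx : x ∈ (tG (row E p a) X).gr k) :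
    lmulG X b hb hp ha x ∈ (tG (row E p' a') X).gr (k + c) := by
  rw [mem_tG] at hx ⊢
  intro σ
  obtain ⟨h1, h2⟩ := hx σ
  rw [tev_lmulG]
  refine ⟨?_, ?_⟩
  · have := lmulR_gr b hb hp ha hc h1
    rwa [show k - (X.s σ : ℤ) + c = k + c - X.s σ by ring] at this
  · rw [← lmulR_op, h2]

namespace RC

variable (C : RC E)

theorem c_EB (l l' : C.ι) : C.c l l' ∈ E.EB (C.P l - C.P l') (C.A l - C.A l') :=
  E.pb_le _ _ _ (C.c_mem l l')

theorem c_zero {l l' : C.ι} (h : C.s l' ≤ C.s l) : C.c l l' = 0 := by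
  have := C.c_mem l l'
  rw [E.pb_neg _ _ _ (by omega)] at this
  exact (Submodule.mem_bot K).1 this

/-- the matrix between the rows -/
noncomputable def cl (X : LCells w.dga) (l l' : C.ι) :
    (tG (row E (C.P l') (C.A l')) X).X →ₗ[K] (tG (row E (C.P l) (C.A l)) X).X :=
  lmulG X (C.c l l') (C.c_EB l l') (by ring) (by ring)

theorem rv_cl (X : LCells w.dga) (l l' : C.ι) (x : (tG (row E (C.P l') (C.A l')) X).X)
    (τ : X.ι) (j : w.Ob) :
    rv j (tev _ X τ (C.cl X l l' x)) = C.c l l' * rv j (tev _ X τ x) := rfl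

/-- **the finite twisted family** -/
noncomputable def tf (X : LCells w.dga) : TF K where
  Cl := C.ι
  s l := -C.s l
  U l := tG (row E (C.P l) (C.A l)) X
  c l l' := C.cl X l l'
  c_zero l l' h := by
    apply LinearMap.ext
    intro x
    refine tev_ext _ X fun τ => rv_ext fun j => ?_
    rw [rv_cl, C.c_zero (by omega), zero_mul, LinearMap.zero_apply, map_zero, map_zero]
  c_mem l l' k x hx := by
    have := lmulG_mem X (C.c l l') (C.c_EB l l') (by ring) (by ring) (C.c_mem l l') hx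
      (p' := C.P l) (a' := C.A l)
    rwa [show k + (C.s l' - C.s l - 1) = k + -C.s l - -C.s l' - 1 by ring] at this
  mc l l' x := by
    have h := lmulG_d X (C.c l l') (C.c_EB l l') (by ring) (by ring) x (p' := C.P l) (a' := C.A l)
    change (tG (row E (C.P l) (C.A l)) X).d (C.cl X l l' x) + C.cl X l l'
      ((tG (row E (C.P l') (C.A l')) X).d x) = _ at h
    rw [h]
    refine tev_ext _ X fun τ => rv_ext fun j => ?_
    rw [map_add, map_add, map_sum, map_sum, map_zero, map_zero, tev_lmulG, rv_lmulR]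
    simp only [rv_cl]
    have hmc := congrArg (· * rv j (tev _ X τ x)) (C.mc l l')
    simp only [add_mul, zero_mul, Finset.sum_mul, mul_assoc] at hmc
    exact hmc

/-- component of `C.M` -/
noncomputable def comp (l : C.ι) : C.rm.X →ₗ[K] (row E (C.P l) (C.A l)).X where
  toFun η := mkM (rowC E (C.P l) (C.A l)) (fun _ j => mv C l j η) (fun _ j => mv_mem C η l j)
  map_add' _ _ := rfl
  map_smul' _ _ := rfl

theorem rv_comp (l : C.ι) (η : C.rm.X) (j : w.Ob) : rv j (C.comp l η) = mv C l j η := rfl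

open Classical in
/-- inclusion of a component -/
noncomputable def incl (l : C.ι) : (row E (C.P l) (C.A l)).X →ₗ[K] C.rm.X where
  toFun η := mkM C (fun l' j => if l' = l then rv j η else 0) (fun l' j => by
    by_cases h : l' = l
    · subst h
      rw [if_pos rfl]
      exact mv_mem _ η () j
    · rw [if_neg h]
      exact Submodule.zero_mem _)
  map_add' x y := by
    apply mv_ext
    intro l' j
    rw [map_add, mv_mkM, mv_mkM, mv_mkM]
    by_cases h : l' = l
    · rw [if_pos h, if_pos h, if_pos h, map_add]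
    · rw [if_neg h, if_neg h, if_neg h, add_zero]
  map_smul' r x := by
    apply mv_ext
    intro l' j
    rw [map_smul, mv_mkM, mv_mkM]
    by_cases h : l' = l
    · rw [if_pos h, if_pos h, map_smul]
      rfl
    · rw [if_neg h, if_neg h, smul_zero]

theorem mv_incl_self (l : C.ι) (η : (row E (C.P l) (C.A l)).X) (j : w.Ob) :
    mv C l j (C.incl l η) = rv j η := if_pos rfl

theorem mv_incl_ne {l l' : C.ι} (h : l' ≠ l) (η : (row E (C.P l) (C.A l)).X) (j : w.Ob) :
    mv C l' j (C.incl l η) = 0 := if_neg h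

/-- components on the tensor product -/
noncomputable def cp (X : LCells w.dga) (l : C.ι) :
    (tG C.rm X).X →ₗ[K] (tG (row E (C.P l) (C.A l)) X).X :=
  tmap _ _ X (C.comp l)

theorem tev_cp (X : LCells w.dga) (l : C.ι) (x : (tG C.rm X).X) (τ : X.ι) :
    tev _ X τ (C.cp X l x) = C.comp l (tev _ X τ x) := rfl

theorem comp_op (l : C.ι) (m : w.dga.C) (η : C.rm.X) :
    C.comp l (op m • η) = op m • C.comp l η := rfl

theorem cp_d (X : LCells w.dga) (l : C.ι) (x : (tG C.rm X).X) :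
    C.cp X l ((tG C.rm X).d x) =
      (tG (row E (C.P l) (C.A l)) X).d (C.cp X l x) + ∑ l', C.cl X l l' (C.cp X l' x) := by
  refine tev_ext _ X fun τ => ?_
  have h1 := tG_comm C.rm (row E (C.P l) (C.A l)) X (C.comp l) (C.comp_op l) x τ
  change tev _ X τ ((tG (row E (C.P l) (C.A l)) X).d (C.cp X l x)) = _ at h1
  rw [map_add, h1, tev_cp, map_sum]
  have h2 : (row E (C.P l) (C.A l)).d (C.comp l (tev _ X τ x)) +
      C.comp l (C.rm.d (tev _ X τ x)) = ∑ l', tev _ X τ (C.cl X l l' (C.cp X l' x)) := by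
    apply rv_ext
    intro j
    rw [map_add, rv_d, rv_comp, rv_comp, mv_d, map_sum, ← add_assoc, E.two, zero_add]
    exact Finset.sum_congr rfl fun l' _ => by rw [rv_cl, tev_cp, rv_comp]
  rw [h2, add_assoc, rm_two (row E (C.P l) (C.A l)), add_zero]

theorem cp_inj (X : LCells w.dga) {x y : (tG C.rm X).X} (h : ∀ l, C.cp X l x = C.cp X l y) :
    x = y := by
  refine tev_ext _ X fun τ => mv_ext fun l j => ?_
  have h1 := congrArg (tev _ X τ) (h l)
  have h2 := congrArg (rv j) h1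
  exact h2

theorem cp_mem (X : LCells w.dga) {k : ℤ} {x : (tG C.rm X).X} (hx : x ∈ (tG C.rm X).gr k)
    (l : C.ι) : C.cp X l x ∈ (tG (row E (C.P l) (C.A l)) X).gr (k - C.s l) := by
  rw [mem_tG] at hx ⊢
  intro σ
  obtain ⟨h1, h2⟩ := hx σ
  rw [tev_cp]
  refine ⟨?_, ?_⟩
  · rw [mv_gr] at h1
    rw [rv_gr]
    intro j
    rw [rv_comp]
    exact pb_cast (h1 l j) rfl rfl (by ring)
  · rw [← comp_op, h2]

theorem cp_surj (X : LCells w.dga) (v : ∀ l, (tG (row E (C.P l) (C.A l)) X).X) :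
    ∃ y : (tG C.rm X).X, ∀ l, C.cp X l y = v l := by
  refine ⟨∑ l, tmap _ _ X (C.incl l) (v l), fun l => ?_⟩
  refine tev_ext _ X fun τ => rv_ext fun j => ?_
  rw [tev_cp, rv_comp, map_sum, map_sum]
  rw [Finset.sum_eq_single l]
  · rw [tev_tmap, mv_incl_self]
  · intro l' _ hl
    rw [tev_tmap, C.mv_incl_ne (Ne.symm hl)]
  · intro h
    exact absurd (Finset.mem_univ _) h

/-- **the total complex of the family computes `C.rm ⊗ X`** -/
theorem ac (X : LCells w.dga) (h : Ac (C.tf X).cx) : Ac (tG C.rm X) := by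
  intro k x hx hd
  obtain ⟨v, hv, he⟩ := h k (fun l => C.cp X l x) (fun l => by
      have := C.cp_mem X hx l
      rwa [show k - C.s l = k + -C.s l by ring] at this)
    (by
      funext l
      have := C.cp_d X l x
      rw [hd, map_zero] at this
      exact this.symm)
  obtain ⟨y, hy⟩ := C.cp_surj X v
  have hy' : ∀ (σ : X.ι) (l : C.ι), C.comp l (tev _ X σ y) =
      tev (row E (C.P l) (C.A l)) X σ (v l) := fun σ l => by rw [← tev_cp, hy]
  refine ⟨y, (mem_tG C.rm X).2 fun σ => ⟨?_, ?_⟩, ?_⟩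
  · rw [mv_gr]
    intro l j
    have h1 := ((mem_tG (row E (C.P l) (C.A l)) X).1 (hv l) σ).1
    rw [rv_gr] at h1
    have h2 := h1 j
    rw [← hy', rv_comp] at h2
    exact pb_cast h2 rfl rfl (by change k + 1 + -C.s l - X.s σ - 0 = _; ring)
  · apply mv_ext
    intro l j
    have h1 := ((mem_tG (row E (C.P l) (C.A l)) X).1 (hv l) σ).2
    rw [← hy', ← comp_op] at h1
    exact congrArg (rv j) h1
  · apply C.cp_inj X
    intro l
    rw [C.cp_d]
    simp only [hy]
    exact congrFun he l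

end RC

end Crest.Agent.R186.RCell625
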