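import Crest.Agent.R186.HB_362

/-!
Row 186 (A), short road (helper171): systems of RIGHT cells with values in the target ring `B` of a
`CE`, their total right dg module `tot`, the decomposition of `tot ⊗ X` into the row complexes `U`,
the one-dimensional column module `DV` of a character and the quasi-isomorphism `tot → DV`.
-/

set_option autoImplicit false
set_option linter.style.haveILetI false
set_option linter.unusedSectionVars false
set_option linter.unusedSimpArgs false

namespace Crest.Agent.R186.RW171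

open Hat827 Win810 KHev302 Frame515 MulOpposite Adapt186 HB362

variable {K : Type} [Field K] {w : WD K}

/-- a finite system of right cells over `B`: cell `c` at position `(p c, a c)`, degree `r c` -/
structure RS (E : CE w) where
  κ : Type
  [fκ : Fintype κ]
  p : κ → ℤ
  a : κ → ℤ
  r : κ → ℤ
  m : κ → κ → E.B
  m_mem : ∀ c c', m c c' ∈ E.pb (p c - p c') (a c - a c') (r c' - r c - 1)
  mc : ∀ c c', E.DB (m c c') + ∑ c'', m c c'' * m c'' c' = 0

attribute [instance] RS.fκ

variable {E : CE w} (S : RS E)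

theorem m_EB (c c' : S.κ) : S.m c c' ∈ E.EB (S.p c - S.p c') (S.a c - S.a c') :=
  CE.pb_le _ _ _ (S.m_mem c c')

/-- families of rows -/
abbrev Fm : Type := ∀ c : S.κ, Row E (S.p c) (S.a c)

/-- homogeneous families -/
def Fg (k : ℤ) : Submodule K (Fm S) where
  carrier := {y | ∀ c, y c ∈ rowG E (S.p c) (S.a c) (k - S.r c)}
  add_mem' hx hy c := Submodule.add_mem _ (hx c) (hy c)
  zero_mem' _ := Submodule.zero_mem _
  smul_mem' r _ hx c := Submodule.smul_mem _ r (hx c)

theorem mem_Fg {k : ℤ} {y : Fm S} : y ∈ Fg S k ↔ ∀ c, y c ∈ rowG E (S.p c) (S.a c) (k - S.r c) :=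
  Iff.rfl

/-- left multiplication by an entry -/
noncomputable def ml (c c' : S.κ) : Row E (S.p c') (S.a c') →ₗ[K] Row E (S.p c) (S.a c) :=
  lm E (S.m c c') (m_EB S c c')

theorem ml_apply (c c' : S.κ) (f : Row E (S.p c') (S.a c')) (j : w.Ob) :
    (ml S c c' f).1 j = S.m c c' * f.1 j := rfl

/-- the differential -/
noncomputable def Fd : Fm S →ₗ[K] Fm S :=
  LinearMap.pi fun c => (rowD E (S.p c) (S.a c)) ∘ₗ (LinearMap.proj c) +
    ∑ c', (ml S c c') ∘ₗ (LinearMap.proj c')

theorem Fd_apply (y : Fm S) (c : S.κ) :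
    Fd S y c = rowD E _ _ (y c) + ∑ c', ml S c c' (y c') := by
  simp [Fd]

theorem Fd_val (y : Fm S) (c : S.κ) (j : w.Ob) :
    (Fd S y c).1 j = E.DB ((y c).1 j) + ∑ c', S.m c c' * (y c').1 j := by
  rw [Fd_apply, Submodule.coe_add, AddSubmonoidClass.coe_finsetSum, Pi.add_apply, Finset.sum_apply]
  rfl

theorem Fd_mem {k : ℤ} {y : Fm S} (hy : y ∈ Fg S k) : Fd S y ∈ Fg S (k - 1) := by
  intro c
  rw [Fd_apply]
  refine Submodule.add_mem _ ?_ (Submodule.sum_mem _ fun c' _ => ?_)
  · have := rowD_mem (hy c)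
    rwa [show k - S.r c - 1 = k - 1 - S.r c by ring] at this
  · have := lm_G (m_EB S c c') (S.m_mem c c') (hy c')
    rwa [show S.r c' - S.r c - 1 + (k - S.r c') = k - 1 - S.r c by ring] at this

theorem Fd_Fd (y : Fm S) : Fd S (Fd S y) = 0 := by
  funext c
  refine row_ext fun j => ?_
  rw [Fd_val]
  simp only [Fd_val, map_add, map_sum, E.DB_DB, E.DB_mul, mul_add, Finset.mul_sum, zero_add,
    Finset.sum_add_distrib]
  have h2 : ∑ c', ∑ c'', S.m c c' * (S.m c' c'' * (y c'').1 j) =
      ∑ c'', ∑ c', S.m c c' * S.m c' c'' * (y c'').1 j := by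
    rw [Finset.sum_comm]
    simp only [mul_assoc]
  rw [h2]
  have h3 : ∀ c'' : S.κ, E.DB (S.m c c'') * (y c'').1 j + ∑ c', S.m c c' * S.m c' c'' * (y c'').1 j
      = 0 := fun c'' => by
    rw [← Finset.sum_mul, ← add_mul, S.mc, zero_mul]
  have h4 : ∑ c'', E.DB (S.m c c'') * (y c'').1 j +
      ∑ c'', ∑ c', S.m c c' * S.m c' c'' * (y c'').1 j = 0 := by
    rw [← Finset.sum_add_distrib]
    exact Finset.sum_eq_zero fun c'' _ => h3 c''
  have h5 := E.two (∑ c', S.m c c' * E.DB ((y c').1 j))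
  change ∑ c', E.DB (S.m c c') * (y c').1 j + ∑ c', S.m c c' * E.DB ((y c').1 j) +
    (∑ c', S.m c c' * E.DB ((y c').1 j) + ∑ c'', ∑ c', S.m c c' * S.m c' c'' * (y c'').1 j) = 0
  rw [add_assoc, ← add_assoc (∑ c', S.m c c' * E.DB ((y c').1 j)), h5, zero_add, h4]

/-- the right action -/
noncomputable def FR : w.Win →ₗ[K] Fm S →ₗ[K] Fm S where
  toFun m := LinearMap.pi fun c => (rowR E (S.p c) (S.a c) m) ∘ₗ (LinearMap.proj c)
  map_add' a b := by
    refine LinearMap.ext fun y => funext fun c => ?_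
    simp
  map_smul' r a := by
    refine LinearMap.ext fun y => funext fun c => ?_
    simp

theorem FR_apply (m : w.Win) (y : Fm S) (c : S.κ) : FR S m y c = rowR E _ _ m (y c) := rfl

theorem FR_D (a : w.Win) (y : Fm S) : Fd S (FR S a y) = FR S (w.DW a) y + FR S a (Fd S y) := by
  funext c
  rw [Fd_apply, FR_apply, Pi.add_apply, FR_apply, FR_apply, Fd_apply, rowR_D, map_add, map_sum,
    add_assoc]
  congr 2
  exact Finset.sum_congr rfl fun c' _ => lm_R _ (m_EB S c c') a (y c')

/-- **the total right dg module** -/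
noncomputable def tot : RM w.dga :=
  mkRM (A := w.dga) (Fm S) (Fg S) (Fd S) (Fd_mem S) (Fd_Fd S) (FR S)
    (fun y => funext fun c => rowR_one (y c))
    (fun a b y => funext fun c => rowR_mul a b (y c))
    (fun {k l} {a y} ha hy c => by
      have := rowR_mem ha (hy c)
      rwa [show k + (l - S.r c) = k + l - S.r c by ring] at this)
    (fun a y => FR_D S a y)

/-! ### `tot ⊗ X` in terms of the row complexes -/

section dec

variable (X : LCells w.dga)

/-- the component at the cell `c` -/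
noncomputable def PT (c : S.κ) : (X.ι →₀ Fm S) →ₗ[K] (X.ι →₀ Row E (S.p c) (S.a c)) :=
  Finsupp.mapRange.linearMap (LinearMap.proj c)

/-- the differential of `tot ⊗ X` -/
noncomputable def dT : (X.ι →₀ Fm S) →ₗ[K] (X.ι →₀ Fm S) := (tG (tot S) X).d

variable {X}

theorem PT_apply (c : S.κ) (u : X.ι →₀ Fm S) (σ : X.ι) : PT S X c u σ = u σ c := rfl

theorem PT_ext {u v : X.ι →₀ Fm S} (h : ∀ c, PT S X c u = PT S X c v) : u = v := by
  ext σ : 1
  funext c
  exact DFunLike.congr_fun (h c) σ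

theorem PT_surj (f : ∀ c : S.κ, X.ι →₀ Row E (S.p c) (S.a c)) :
    ∃ u : X.ι →₀ Fm S, ∀ c, PT S X c u = f c := by
  classical
  refine ⟨Finsupp.onFinset (Finset.univ.biUnion fun c => (f c).support)
    (fun σ c => f c σ) ?_, fun c => ?_⟩
  · intro σ hσ
    by_contra hc
    apply hσ
    funext c
    by_contra h0
    exact hc (Finset.mem_biUnion.2 ⟨c, Finset.mem_univ _, Finsupp.mem_support_iff.2 h0⟩)
  · ext σ : 1
    rfl

theorem dT_apply' (u : X.ι →₀ Fm S) (T : Finset X.ι) (hT : u.support ⊆ T) (τ : X.ι) :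
    dT S X u τ = Fd S (u τ) + ∑ σ ∈ T, FR S (X.c σ τ) (u σ) :=
  (twG (tot S) X).dd_apply' u T hT τ

/-- **the differential of `tot ⊗ X` in components** -/
theorem PT_d (c : S.κ) (u : X.ι →₀ Fm S) : PT S X c (dT S X u) =
    dU E _ _ (PT S X c u) + ∑ c', LU E (S.m c c') (m_EB S c c') (PT S X c' u) := by
  ext τ : 1
  rw [PT_apply, dT_apply' S u u.support (Finset.Subset.refl _), Pi.add_apply, Finset.sum_apply,
    Fd_apply, Finsupp.add_apply, dU_apply' E (PT S X c u) u.support
      (Finsupp.support_mapRange (hf := map_zero _)),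
    Finset.sum_apply']
  simp only [FR_apply, LU_apply, PT_apply]
  change _ + ∑ c', lm E (S.m c c') (m_EB S c c') (u τ c') + _ = _
  abel

theorem mem_TX_iff {k : ℤ} {u : X.ι →₀ Fm S} : u ∈ (tG (tot S) X).gr k ↔
    ∀ c, PT S X c u ∈ (U E X (S.p c) (S.a c)).gr (k - S.r c) := by
  constructor
  · intro h c σ
    have h1 : u σ ∈ Fg S (k - X.s σ) := (h σ).1
    have h2 : FR S (X.e σ) (u σ) = u σ := (h σ).2
    constructor
    · have := h1 c
      rwa [show k - (X.s σ : ℤ) - S.r c = k - S.r c - X.s σ by ring] at this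
    · exact congrFun h2 c
  · intro h σ
    constructor
    · change u σ ∈ Fg S (k - X.s σ)
      intro c
      have := ((U_mem E).1 (h c) σ).1
      rwa [show k - S.r c - (X.s σ : ℤ) = k - (X.s σ : ℤ) - S.r c by ring] at this
    · exact funext fun c => ((U_mem E).1 (h c) σ).2

end dec

end Crest.Agent.R186.RW171
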