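import Crest.Agent.R186.RW2_171
import Crest.Agent.R186.RCk_171
import Crest.Agent.R186.CR_989
import Crest.Agent.R186.CEbr_247
import Crest.Agent.R186.KVc_186

/-!
Row 186 (A), short road (helper171): the sixteen right cells over `R'` and the concrete character:
`tot → DV_{-2}` is a quasi-isomorphism of right dg modules over `Γ`.
-/

set_option autoImplicit false
set_option linter.style.haveILetI false
set_option linter.unusedSectionVars false

noncomputable section

namespace Crest.Agent.R186.RW171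

open Crest.Agent.R186.DefsQ830 Crest.Agent.R186.Cells221 Crest.Agent.R186.Name171
open Crest.Agent.R186.CR989 Crest.Agent.R186.WL221 Crest.Agent.R186.Win810
open Crest.Agent.R186.C2b362 (J pz mem_J pz_cast D_J left_J right_J cA cdeg_some cP_some mem_NZ
  D_pz yp_mem_J)
open Crest.Agent.R186.C2b44 (kill kill_kill kill_D)
open Crest.Agent.R186.KOS296 (pcZ_eq_pz mem_J_iff_kill)
open Crest.Agent.R186.Der580 (D D_mul)
open Crest.Agent.R186.PBW128 (E)
open KHev302 Frame515 HB362 Hat827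

variable {K : Type} [Field K] (π : Par K)

/-! ### the matrix over `R'` -/

/-- the table over `R'` -/
def mR (σ τ : Cell) : RL π := ⟨rct π σ τ, kill_rct π σ τ⟩

theorem mR_val (σ τ : Cell) : (mR π σ τ : R π) = rct π σ τ := rfl

theorem mR_mem (σ τ : Cell) : mR π σ τ ∈ pcL π (cP τ - cP σ) (cA τ - cA σ)
    ((cdeg τ : ℤ) - cdeg σ - 1) := by
  rw [mem_pcL, pcZ_eq_pz]
  exact rct_mem π σ τ

theorem mR_mc (σ τ : Cell) : DL π (mR π σ τ) + ∑ ρ, mR π σ ρ * mR π ρ τ = 0 := by
  apply Subtype.ext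
  rw [Subalgebra.coe_add, AddSubmonoidClass.coe_finsetSum]
  exact rct_mc_kill π σ τ

theorem mR_none (σ : Cell) : mR π σ none = 0 := by
  apply Subtype.ext
  rw [mR_val]
  cases σ <;> rfl

/-! ### the character -/

theorem chi_ne {P A C : ℤ} (h : P ≠ 0 ∨ C ≠ 0) {r : R π} (hr : r ∈ pz π P A C) :
    chi π r = 0 := by
  rw [chi, LinearMap.comp_apply, Finsupp.linearCombination_apply, Finsupp.sum]
  refine Finset.sum_eq_zero fun ν hν => ?_
  obtain ⟨e1, _, e3⟩ := mem_NZ.1 (er_mem hr) ν (Finsupp.mem_support_iff.1 hν)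
  rw [if_neg, smul_zero]
  rintro ⟨h1, h2, h3, h4⟩
  obtain ⟨d1, _, d3⟩ := deg_nil h3 h4
  rw [h1, h2] at d1
  omega

theorem chi_D {A C : ℤ} {r : R π} (hr : r ∈ pz π 0 A C) : chi π (D π r) = 0 := by
  by_cases hC : C - 1 = 0
  · have h0 := s0r_mem_J π (Or.inl (by omega : 0 < C)) hr
    conv_lhs => rw [splitr π r, map_add, map_sum, map_add, map_sum]
    rw [chi_J π (D_J h0), zero_add]
    refine Finset.sum_eq_zero fun l _ => ?_
    rw [D_mul, map_add, chi_E_mul, add_zero, D_rE, add_mul, Finset.sum_mul, map_add, map_sum]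
    rw [chi_J π (right_J (yp_mem_J l) _), add_zero]
    exact Finset.sum_eq_zero fun l' _ => by rw [mul_assoc, chi_E_mul]
  · exact chi_ne π (Or.inr hC) (D_pz hr)

/-- the character on `R'` -/
def chL : RL π →ₗ[K] K := (chi π) ∘ₗ (RL π).val.toLinearMap

theorem chL_apply (b : RL π) : chL π b = chi π b.1 := rfl

theorem chL_ne {P A C : ℤ} (h : P ≠ 0 ∨ C ≠ 0) {b : RL π} (hb : b ∈ pcL π P A C) :
    chL π b = 0 := by
  rw [mem_pcL, pcZ_eq_pz] at hb
  exact chi_ne π h hb

theorem chL_D {A C : ℤ} {b : RL π} (hb : b ∈ pcL π 0 A C) : chL π (DL π b) = 0 := by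
  rw [mem_pcL, pcZ_eq_pz] at hb
  rw [chL_apply, DL_val, chi_kill]
  exact chi_D π hb

theorem chL_mul {P A C : ℤ} (hP : P ≤ 0) {a : RL π} (ha : a ∈ pcL π P A C) (b : RL π) :
    chL π (a * b) = chL π a * chL π b := by
  rw [mem_pcL, pcZ_eq_pz] at ha
  exact chi_mul π hP ha b.1

theorem chL_EB {P A : ℤ} (hP : P ≠ 0) {b : RL π} (hb : b ∈ ⨆ C : ℤ, pcL π P A C) :
    chL π b = 0 := by
  have key : (⨆ C : ℤ, pcL π P A C) ≤ LinearMap.ker (chL π) :=
    iSup_le fun C x hx => by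
      rw [LinearMap.mem_ker]
      exact chL_ne π (Or.inl hP) hx
  exact LinearMap.mem_ker.1 (key hb)

theorem chL_mulE {P A : ℤ} (hP : P ≤ 0) {a : RL π} (ha : a ∈ ⨆ C : ℤ, pcL π P A C) (b : RL π) :
    chL π (a * b) = chL π a * chL π b := by
  have key : (⨆ C : ℤ, pcL π P A C) ≤ LinearMap.ker
      ((chL π) ∘ₗ (LinearMap.mulRight K b) - (chL π b) • (chL π)) :=
    iSup_le fun C x hx => by
      rw [LinearMap.mem_ker, LinearMap.sub_apply, LinearMap.comp_apply, LinearMap.mulRight_apply,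
        LinearMap.smul_apply, chL_mul π hP hx, smul_eq_mul, mul_comm, sub_self]
  have h := LinearMap.mem_ker.1 (key ha)
  rw [LinearMap.sub_apply, LinearMap.comp_apply, LinearMap.mulRight_apply,
    LinearMap.smul_apply, smul_eq_mul, sub_eq_zero, mul_comm (chL π b)] at h
  exact h

theorem chL_DE {A : ℤ} {b : RL π} (hb : b ∈ ⨆ C : ℤ, pcL π 0 A C) : chL π (DL π b) = 0 := by
  have key : (⨆ C : ℤ, pcL π 0 A C) ≤ LinearMap.ker ((chL π) ∘ₗ (DL π)) :=
    iSup_le fun C x hx => by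
      rw [LinearMap.mem_ker, LinearMap.comp_apply]
      exact chL_D π hx
  exact LinearMap.mem_ker.1 (key hb)

/-- `h ^ A` in `R'` -/
def hL (A : ℤ) : RL π := prL π (X π .h ^ A.toNat)

theorem hL_val (A : ℤ) : (hL π A : R π) = X π .h ^ A.toNat := by
  rw [hL, prL_val, map_pow, C2b44.kill_h]

theorem hL_mem {A : ℤ} (hA : 0 ≤ A) : hL π A ∈ pcL π 0 A 0 := by
  rw [mem_pcL, pcZ_eq_pz, hL_val]
  have := (gen_chi π A.toNat).1
  rwa [Int.toNat_of_nonneg hA] at this

theorem hL_chi (A : ℤ) : chL π (hL π A) = 1 := by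
  rw [chL_apply, hL_val]
  exact chi_hpow π _

theorem hL_D {A : ℤ} (hA : 0 ≤ A) : DL π (hL π A) = 0 := by
  have h := pcL_D (hL_mem π hA)
  rw [pcL_neg (Or.inr (by norm_num)), Submodule.mem_bot] at h
  exact h

/-! ### exactness over `R'` -/

theorem exL {P A k : ℤ} (hP : P ≤ 0) (hk : 0 ≤ k) (y : Cell → RL π)
    (hy : ∀ σ, y σ ∈ pcL π (P - cP σ) (A - cA σ) (k - cdeg σ))
    (hd : ∀ σ, DL π (y σ) + ∑ τ, mR π σ τ * y τ = 0) (h0 : k = 0 → chL π (y none) = 0) :
    ∃ z : Cell → RL π, (∀ σ, z σ ∈ pcL π (P - cP σ) (A - cA σ) (k + 1 - cdeg σ)) ∧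
      ∀ σ, y σ = DL π (z σ) + ∑ τ, mR π σ τ * z τ := by
  have hy' : ∀ σ, (y σ : R π) ∈ pz π (P - cP σ) (A - cA σ) (k - cdeg σ) := fun σ => by
    have := hy σ
    rwa [mem_pcL, pcZ_eq_pz] at this
  have hJ : ∀ σ, dY π (fun c => (y c : R π)) σ ∈ J π := fun σ => by
    rw [mem_J_iff_kill, dY_apply, map_add, map_sum]
    have h := congrArg (fun b : RL π => (b : R π)) (hd σ)
    simp only [Subalgebra.coe_add, AddSubmonoidClass.coe_finsetSum] at h
    refine Eq.trans ?_ h
    rw [DL_val]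
    congr 1
    refine Finset.sum_congr rfl fun τ _ => ?_
    rw [map_mul, kill_rct, kill_val]
    rfl
  have key : ∃ z : Cell → R π, (∀ σ, z σ ∈ pz π (P - cP σ) (A - cA σ) (k + 1 - cdeg σ)) ∧
      ∀ σ, (y σ : R π) - dY π z σ ∈ J π := by
    by_cases hc : 0 < k ∨ P < 0
    · obtain ⟨z, _, h1, h2⟩ := exr_mod π hc (fun c => (y c : R π)) hy' hJ
      exact ⟨z, h1, h2⟩
    · push Not at hc
      obtain rfl : k = 0 := le_antisymm hc.1 hk
      obtain rfl : P = 0 := le_antisymm hP hc.2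
      obtain ⟨z, _, h1, h2⟩ := exr0_mod π (fun c => (y c : R π)) hy' hJ (h0 rfl)
      exact ⟨z, h1, h2⟩
  obtain ⟨z, h1, h2⟩ := key
  refine ⟨fun σ => prL π (z σ), fun σ => prL_mem (by rw [pcZ_eq_pz]; exact h1 σ), fun σ => ?_⟩
  apply Subtype.ext
  have h := (mem_J_iff_kill π).1 (h2 σ)
  rw [map_sub, sub_eq_zero, kill_val, dY_apply, map_add, map_sum] at h
  rw [Subalgebra.coe_add, AddSubmonoidClass.coe_finsetSum, h, DL_prL]
  congr 1
  refine Finset.sum_congr rfl fun τ _ => ?_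
  rw [map_mul, kill_rct]
  rfl

/-! ### the concrete system and its character -/

variable (s : ℕ) (hs : 5 ≤ s)

/-- the closing data of `Γ` -/
abbrev Ee : CE (KHc186.wG π s hs) := CEbr247.ev (KHc186.CEr π s hs)

/-- **the sixteen right cells** -/
def rsc : RS (Ee π s hs) where
  κ := Cell
  p c := -cP c
  a c := 3 - cA c
  r c := cdeg c
  m := mR π
  m_mem c c' := by
    have h := mR_mem π c c'
    change mR π c c' ∈ pcL π (-cP c - -cP c') (3 - cA c - (3 - cA c')) ((cdeg c' : ℤ) - cdeg c - 1)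
    rwa [show -cP c - -cP c' = cP c' - cP c by ring,
      show 3 - cA c - (3 - cA c') = cA c' - cA c by ring]
  mc := mR_mc π

theorem cP_le (c : Cell) : cP c ≤ 0 := by
  cases c with
  | none => exact le_refl _
  | some l => cases l <;> simp [cP]

/-- the character of `DV_{-2}` -/
def chr : Chr (rsc π s hs) where
  o := none
  ro := rfl
  r_nn c := Int.natCast_nonneg _
  no c := mR_none π c
  P_le j := by
    change -(0 : ℤ) ≤ (((show DefsQ830.Ob from j).1.val : ℕ) : ℤ)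
    omega
  A_le j := by
    have := (show DefsQ830.Ob from j).2.2
    change (((show DefsQ830.Ob from j).2.val : ℕ) : ℤ) ≤ 3 - 0
    omega
  p_le c := by
    have := cP_le c
    change -(0 : ℤ) ≤ -cP c
    omega
  χ := chL π
  χ_P hb hP := chL_EB π hP hb
  χ_C hb hC := chL_ne π (Or.inr hC) hb
  χ_mul {_ _ _ _ _ b} ha _ hP := chL_mulE π hP ha b
  χ_one := chi_one π
  χ_D hb := chL_DE π hb
  χ_m c := by
    change chL π (mR π none c) = 0
    cases c with
    | none => rw [mR_none, map_zero]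
    | some l =>
      rw [chL_apply, mR_val]
      have := chi_E_mul π l 1
      rwa [mul_one] at this
  η := hL π
  η_mem A hA := hL_mem π hA
  η_χ A _ := hL_chi π A
  η_D A hA := hL_D π hA
  ex j k y hk hy hd h0 := by
    obtain ⟨z, h1, h2⟩ := exL π (P := -(((show DefsQ830.Ob from j).1.val : ℕ) : ℤ))
      (A := 3 - (((show DefsQ830.Ob from j).2.val : ℕ) : ℤ)) (k := k) (by omega) hk y
      (fun σ => by
        have h := hy σ
        change y σ ∈ pcL π (-cP σ - (((show DefsQ830.Ob from j).1.val : ℕ) : ℤ))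
          (3 - cA σ - (((show DefsQ830.Ob from j).2.val : ℕ) : ℤ)) (k - cdeg σ) at h
        rwa [show -cP σ - (((show DefsQ830.Ob from j).1.val : ℕ) : ℤ) =
            -(((show DefsQ830.Ob from j).1.val : ℕ) : ℤ) - cP σ by ring,
          show 3 - cA σ - (((show DefsQ830.Ob from j).2.val : ℕ) : ℤ) =
            3 - (((show DefsQ830.Ob from j).2.val : ℕ) : ℤ) - cA σ by ring] at h) hd h0
    refine ⟨z, fun σ => ?_, h2⟩
    have h := h1 σ
    change z σ ∈ pcL π (-cP σ - (((show DefsQ830.Ob from j).1.val : ℕ) : ℤ))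
      (3 - cA σ - (((show DefsQ830.Ob from j).2.val : ℕ) : ℤ)) (k + 1 - cdeg σ)
    rwa [show -cP σ - (((show DefsQ830.Ob from j).1.val : ℕ) : ℤ) =
        -(((show DefsQ830.Ob from j).1.val : ℕ) : ℤ) - cP σ by ring,
      show 3 - cA σ - (((show DefsQ830.Ob from j).2.val : ℕ) : ℤ) =
        3 - (((show DefsQ830.Ob from j).2.val : ℕ) : ℤ) - cA σ by ring]

/-- **`DV_{-2}` as a right dg module over `Γ`** -/
def DV2 : RM (KHc186.wG π s hs).dga := (chr π s hs).DV

/-- **the right cells resolve `DV_{-2}`** -/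
theorem dv2_qi : QI (chr π s hs).avH := (chr π s hs).avQI

end Crest.Agent.R186.RW171
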