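import Crest.Agent.R186.ZZB_380
import Crest.Agent.R186.RW5_171
import Crest.Agent.R186.RS_982
import Crest.Agent.R186.ExRF_807
import Crest.Agent.R186.TRq_461

/-!
Row 186 (A), right cells (helper560, second of 625): `tot ⊗ X` as a twisted family `TFR S X` over the
right cells, and `Ac (tG (tot (RSc π s hs)) (XL π s hs))`, `Ac (tG (DVs π s hs) (XL π s hs))` from the
quasi-isomorphisms `q0`, `q1` of 461.
-/

set_option autoImplicit false
set_option linter.style.haveILetI false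
set_option linter.unusedSectionVars false
set_option linter.unusedTactic false

noncomputable section

namespace Crest.Agent.R186.RX560

open Hat827 Win810 KHev302 Frame515 MulOpposite Adapt186 HB362 Zig498
open RW171 hiding hL

/-! ### the twisted family -/

section gen

variable {K : Type} [Field K] {w : WD K} {E : CE w} (S : RS E) (X : LCells w.dga)

theorem m_zero {c c' : S.κ} (h : -S.r c ≤ -S.r c') : S.m c c' = 0 := by
  have h1 := S.m_mem c c'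
  rw [E.pb_neg _ _ _ (by omega)] at h1
  exact (Submodule.mem_bot K).1 h1

variable {X} in
theorem mcR (c c' : S.κ) (x : X.ι →₀ Row E (S.p c') (S.a c')) :
    dU E _ _ (LU E (S.m c c') (m_EB S c c') x) + LU E (S.m c c') (m_EB S c c')
      (dU E _ _ x) + ∑ c'', LU E (S.m c c'') (m_EB S c c'')
        (LU E (S.m c'' c') (m_EB S c'' c') x) = 0 := by
  have h1 : ∀ c'', LU E (S.m c c'') (m_EB S c c'') (LU E (S.m c'' c') (m_EB S c'' c') x) =
      LU E (S.m c c'' * S.m c'' c') (mul_EB (m_EB S c'' c') (m_EB S c c'')) x :=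
    fun c'' => LU_LU _ _ _ x
  rw [LU_d, add_assoc (LU E (E.DB (S.m c c')) _ x), U_two, add_zero, Finset.sum_congr rfl
    fun c'' _ => h1 c'', LU_sum, LU_add]
  exact LU_zero _ (S.mc c c') x

/-- **`tot ⊗ X` as a twisted family over the right cells** -/
def TFR : TF K where
  Cl := S.κ
  s c := -S.r c
  U c := U E X (S.p c) (S.a c)
  c c c' := LU E (S.m c c') (m_EB S c c')
  c_zero c c' h := LinearMap.ext fun u => LU_zero _ (m_zero S h) u
  c_mem c c' k x hx := by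
    have h := LU_mem (X := X) (m_EB S c c') (S.m_mem c c') hx
    rwa [show k + (S.r c' - S.r c - 1) = k + -S.r c - -S.r c' - 1 by ring] at h
  mc c c' x := mcR S c c' x

/-- the total module from the twisted family -/
theorem tot_ac (h : Ac (TFR S X).cx) : Ac (tG (tot S) X) := by
  intro k u hu hd
  have hu' := (mem_TX_iff (S := S)).1 hu
  have h1 : ∀ c, dU E _ _ (PT S X c u) +
      ∑ c', LU E (S.m c c') (m_EB S c c') (PT S X c' u) = 0 := fun c => by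
    have h2 : dT S X u = 0 := hd
    have h3 := PT_d S c u
    rw [h2, map_zero] at h3
    exact h3.symm
  obtain ⟨v, hv, hdv⟩ := h k (fun c => PT S X c u) (fun c => by
    have := hu' c
    rwa [sub_eq_add_neg] at this) (funext h1)
  have hv' : ∀ c, v c ∈ (U E X (S.p c) (S.a c)).gr (k + 1 + -S.r c) := hv
  obtain ⟨y, hy⟩ := PT_surj (S := S) (X := X) v
  refine ⟨y, (mem_TX_iff (S := S)).2 fun c => ?_, PT_ext (S := S) fun c => ?_⟩
  · rw [hy c, sub_eq_add_neg]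
    exact hv' c
  · refine (PT_d S c y).trans ?_
    simp only [hy]
    exact congrFun hdv c

end gen

/-! ### the concrete cells -/

section conc

open DefsQ830 PBW128 SM890 WL221 C2b44 Cells221 KHc302 HL462 LtR654
open DefsQ830.Gen FamU654 ZZH380 Ex306 RS982 ZZB380 ExR807 ExRF807

variable {K : Type} [Field K] (π : Par K) (s : ℕ) (hs : 5 ≤ s)
  (X : LCells (WG π s (two_le hs)).dga)

/-- the family of rows `0`, `1` -/
abbrev F0 (n : ℤ) : Fam K π.g := (TX π s hs X).fam 0 n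

/-- the twisted family -/
abbrev TR' : TF K := TFR (RSc π s hs) X

variable {π s hs X}

theorem rep_hcR {a b : Cell} (h : cdeg b = cdeg a + 1) {n : ℤ} {ζ : HH ((TR' π s hs X).U b) n}
    {u : ((TR' π s hs X).U b).X} (hu : IsRep ζ u) :
    IsRep ((TR' π s hs X).hc n a b ζ) ((TR' π s hs X).c a b u) := by
  rw [(TR' π s hs X).hc_of (l := a) (l' := b)
    (show -((cdeg a : ℕ) : ℤ) = -((cdeg b : ℕ) : ℤ) + 1 by rw [h]; push_cast; ring)]
  exact hu.map _ _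

/-! ### representatives of `d_j x_i` on the row `1` -/

theorem two_h (u : RL π) : u + u = 0 := RL_two π u

theorem e00 (u : RL π) : π.g⁻¹ • (xL π 0 * (dL π 0 * u) + hL π * u) = dL π 0 * (xL π 0 * u) := by
  rw [← mul_assoc (xL π 0), x0d0_L, add_mul, smul_mul_assoc, mul_assoc (dL π 0)]
  rw [show hL π * u + π.g • (dL π 0 * (xL π 0 * u)) + hL π * u =
    π.g • (dL π 0 * (xL π 0 * u)) + (hL π * u + hL π * u) by abel, two_h, add_zero, smul_smul,
    inv_mul_cancel₀ π.g0, one_smul]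

theorem e10 (u : RL π) : π.g⁻¹ • (xL π 0 * (dL π 1 * u)) = dL π 1 * (xL π 0 * u) := by
  rw [← mul_assoc (xL π 0), x0d1_L, smul_mul_assoc, mul_assoc (dL π 1), smul_smul,
    inv_mul_cancel₀ π.g0, one_smul]

theorem e01 (u : RL π) : xL π 1 * (dL π 0 * u) = dL π 0 * (xL π 1 * u) := by
  rw [← mul_assoc (xL π 1), x1d0_L, mul_assoc (dL π 0)]

theorem e11 (u : RL π) : π.g⁻¹ • (xL π 1 * (dL π 1 * u) + hL π * u +
    (π.g - 1) • (dL π 0 * (xL π 0 * u))) = dL π 1 * (xL π 1 * u) := by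
  rw [← mul_assoc (xL π 1), x1d1_L, add_mul, add_mul, smul_mul_assoc, smul_mul_assoc,
    mul_assoc (dL π 1), mul_assoc (dL π 0)]
  rw [show hL π * u + π.g • (dL π 1 * (xL π 1 * u)) + (π.g - 1) • (dL π 0 * (xL π 0 * u)) +
      hL π * u + (π.g - 1) • (dL π 0 * (xL π 0 * u)) =
    π.g • (dL π 1 * (xL π 1 * u)) + (hL π * u + hL π * u) +
      ((π.g - 1) • (dL π 0 * (xL π 0 * u)) + (π.g - 1) • (dL π 0 * (xL π 0 * u))) by abel,
    two_h, two_h, add_zero, add_zero, smul_smul, inv_mul_cancel₀ π.g0, one_smul]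

section reps

variable {n : ℤ}

theorem rw00 {a : ℕ} {y : (F0 π s hs X n).Y1 a}
    {u : X.ι →₀ Row (Er π s hs) (0 + 1) a}
    (hu : IsRep (X := (rowSys (Er π s hs) X).U (0 + 1) a) y u) :
    ∃ v : X.ι →₀ Row (Er π s hs) (0 + 1) ((a + 1 : ℕ) : ℤ),
      IsRep (X := (rowSys (Er π s hs) X).U (0 + 1) ((a + 1 : ℕ) : ℤ))
        (wF (F0 π s hs X n) 0 0 a y) v ∧
      ∀ σ j, en v σ j = dL π 0 * (xL π 0 * en u σ j) := by
  have h1 : IsRep (X := (rowSys (Er π s hs) X).U 0 ((a + 1 : ℕ) : ℤ))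
    ((F0 π s hs X n).d 0 a y) _ := RowSys.rep_lHm _ _ hu
  have h2 : IsRep (X := (rowSys (Er π s hs) X).U (0 + 1) ((a + 1 : ℕ) : ℤ))
    ((F0 π s hs X n).x 0 (a + 1) ((F0 π s hs X n).d 0 a y)) _ := RowSys.rep_lHm _ _ h1
  have h3 : IsRep (X := (rowSys (Er π s hs) X).U (0 + 1) ((a + 1 : ℕ) : ℤ))
    ((F0 π s hs X n).h1 a y) _ := RowSys.rep_lHm _ _ hu
  rw [wF00]
  exact ⟨_, (h2.add h3).smul π.g⁻¹, fun σ j => e00 (en u σ j)⟩

theorem rw10 {a : ℕ} {y : (F0 π s hs X n).Y1 a}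
    {u : X.ι →₀ Row (Er π s hs) (0 + 1) a}
    (hu : IsRep (X := (rowSys (Er π s hs) X).U (0 + 1) a) y u) :
    ∃ v : X.ι →₀ Row (Er π s hs) (0 + 1) ((a + 1 : ℕ) : ℤ),
      IsRep (X := (rowSys (Er π s hs) X).U (0 + 1) ((a + 1 : ℕ) : ℤ))
        (wF (F0 π s hs X n) 1 0 a y) v ∧
      ∀ σ j, en v σ j = dL π 1 * (xL π 0 * en u σ j) := by
  have h1 : IsRep (X := (rowSys (Er π s hs) X).U 0 ((a + 1 : ℕ) : ℤ))
    ((F0 π s hs X n).d 1 a y) _ := RowSys.rep_lHm _ _ hu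
  have h2 : IsRep (X := (rowSys (Er π s hs) X).U (0 + 1) ((a + 1 : ℕ) : ℤ))
    ((F0 π s hs X n).x 0 (a + 1) ((F0 π s hs X n).d 1 a y)) _ := RowSys.rep_lHm _ _ h1
  rw [wF10]
  exact ⟨_, h2.smul π.g⁻¹, fun σ j => e10 (en u σ j)⟩

theorem rw01 {a : ℕ} {y : (F0 π s hs X n).Y1 a}
    {u : X.ι →₀ Row (Er π s hs) (0 + 1) a}
    (hu : IsRep (X := (rowSys (Er π s hs) X).U (0 + 1) a) y u) :
    ∃ v : X.ι →₀ Row (Er π s hs) (0 + 1) ((a + 1 : ℕ) : ℤ),
      IsRep (X := (rowSys (Er π s hs) X).U (0 + 1) ((a + 1 : ℕ) : ℤ))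
        (wF (F0 π s hs X n) 0 1 a y) v ∧
      ∀ σ j, en v σ j = dL π 0 * (xL π 1 * en u σ j) := by
  have h1 : IsRep (X := (rowSys (Er π s hs) X).U 0 ((a + 1 : ℕ) : ℤ))
    ((F0 π s hs X n).d 0 a y) _ := RowSys.rep_lHm _ _ hu
  have h2 : IsRep (X := (rowSys (Er π s hs) X).U (0 + 1) ((a + 1 : ℕ) : ℤ))
    ((F0 π s hs X n).x 1 (a + 1) ((F0 π s hs X n).d 0 a y)) _ := RowSys.rep_lHm _ _ h1
  rw [wF01]
  exact ⟨_, h2, fun σ j => e01 (en u σ j)⟩

theorem rw11 {a : ℕ} {y : (F0 π s hs X n).Y1 a}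
    {u : X.ι →₀ Row (Er π s hs) (0 + 1) a}
    (hu : IsRep (X := (rowSys (Er π s hs) X).U (0 + 1) a) y u) :
    ∃ v : X.ι →₀ Row (Er π s hs) (0 + 1) ((a + 1 : ℕ) : ℤ),
      IsRep (X := (rowSys (Er π s hs) X).U (0 + 1) ((a + 1 : ℕ) : ℤ))
        (wF (F0 π s hs X n) 1 1 a y) v ∧
      ∀ σ j, en v σ j = dL π 1 * (xL π 1 * en u σ j) := by
  have h1 : IsRep (X := (rowSys (Er π s hs) X).U 0 ((a + 1 : ℕ) : ℤ))
    ((F0 π s hs X n).d 1 a y) _ := RowSys.rep_lHm _ _ hu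
  have h2 : IsRep (X := (rowSys (Er π s hs) X).U (0 + 1) ((a + 1 : ℕ) : ℤ))
    ((F0 π s hs X n).x 1 (a + 1) ((F0 π s hs X n).d 1 a y)) _ := RowSys.rep_lHm _ _ h1
  have h3 : IsRep (X := (rowSys (Er π s hs) X).U (0 + 1) ((a + 1 : ℕ) : ℤ))
    ((F0 π s hs X n).h1 a y) _ := RowSys.rep_lHm _ _ hu
  have h4 : IsRep (X := (rowSys (Er π s hs) X).U 0 ((a + 1 : ℕ) : ℤ))
    ((F0 π s hs X n).d 0 a y) _ := RowSys.rep_lHm _ _ hu
  have h5 : IsRep (X := (rowSys (Er π s hs) X).U (0 + 1) ((a + 1 : ℕ) : ℤ))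
    ((F0 π s hs X n).x 0 (a + 1) ((F0 π s hs X n).d 0 a y)) _ := RowSys.rep_lHm _ _ h4
  rw [wF11]
  refine ⟨_, ((h2.add h3).add (((h5.add h3).smul π.g⁻¹).smul (π.g - 1))).smul π.g⁻¹,
    fun σ j => ?_⟩
  refine Eq.trans ?_ (e11 (en u σ j))
  rw [← e00 (en u σ j)]
  rfl

end reps

/-! ### the entries -/

theorem c_nd (n : ℤ) (j : Fin 2) (y : HH ((TR' π s hs X).U (some (.d j))) n) :
    (TR' π s hs X).hc n none (some (.d j)) y = (F0 π s hs X n).d j 2 y := by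
  obtain ⟨u, hu⟩ := IsRep.ex y
  refine (rep_hcR (a := none) rfl hu).eq' (RowSys.rep_lHm _ _ hu) (u_ext fun σ i => ?_)
  change rm π none (some (.d j)) * en u σ i = dL π j * en u σ i
  rw [rm_nd]

theorem c_d0z0 (n : ℤ) (y : HH ((TR' π s hs X).U (some (.z 0))) n) :
    (TR' π s hs X).hc n (some (.d 0)) (some (.z 0)) y =
      π.g ^ 3 • wF (F0 π s hs X n) 1 0 1 y := by
  obtain ⟨u, hu⟩ := IsRep.ex y
  obtain ⟨v, hv, hv'⟩ := rw10 (a := 1) hu
  refine (rep_hcR (a := some (.d 0)) rfl hu).eq' (hv.smul (π.g ^ 3)) (u_ext fun σ i =>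
    Eq.trans ?_ (congrArg (π.g ^ 3 • ·) (hv' σ i)).symm)
  change rm π (some (.d 0)) (some (.z 0)) * en u σ i = π.g ^ 3 • (dL π 1 * (xL π 0 * en u σ i))
  rw [rm_d0z, Cells221.c0, smul_mul_assoc, mul_assoc, ← pow_succ]

theorem c_d0z1 (n : ℤ) (y : HH ((TR' π s hs X).U (some (.z 1))) n) :
    (TR' π s hs X).hc n (some (.d 0)) (some (.z 1)) y =
      π.g ^ 2 • wF (F0 π s hs X n) 1 1 1 y := by
  obtain ⟨u, hu⟩ := IsRep.ex y
  obtain ⟨v, hv, hv'⟩ := rw11 (a := 1) hu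
  refine (rep_hcR (a := some (.d 0)) rfl hu).eq' (hv.smul (π.g ^ 2)) (u_ext fun σ i =>
    Eq.trans ?_ (congrArg (π.g ^ 2 • ·) (hv' σ i)).symm)
  change rm π (some (.d 0)) (some (.z 1)) * en u σ i = π.g ^ 2 • (dL π 1 * (xL π 1 * en u σ i))
  rw [rm_d0z, Cells221.c1, smul_mul_assoc, mul_assoc, ← pow_two]

theorem c_d1z0 (n : ℤ) (y : HH ((TR' π s hs X).U (some (.z 0))) n) :
    (TR' π s hs X).hc n (some (.d 1)) (some (.z 0)) y =
      π.g ^ 2 • wF (F0 π s hs X n) 0 0 1 y := by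
  obtain ⟨u, hu⟩ := IsRep.ex y
  obtain ⟨v, hv, hv'⟩ := rw00 (a := 1) hu
  refine (rep_hcR (a := some (.d 1)) rfl hu).eq' (hv.smul (π.g ^ 2)) (u_ext fun σ i =>
    Eq.trans ?_ (congrArg (π.g ^ 2 • ·) (hv' σ i)).symm)
  change rm π (some (.d 1)) (some (.z 0)) * en u σ i = π.g ^ 2 • (dL π 0 * (xL π 0 * en u σ i))
  rw [rm_d1z, Cells221.c0, smul_mul_assoc, mul_assoc]

theorem c_d1z1 (n : ℤ) (y : HH ((TR' π s hs X).U (some (.z 1))) n) :
    (TR' π s hs X).hc n (some (.d 1)) (some (.z 1)) y =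
      π.g • wF (F0 π s hs X n) 0 1 1 y := by
  obtain ⟨u, hu⟩ := IsRep.ex y
  obtain ⟨v, hv, hv'⟩ := rw01 (a := 1) hu
  refine (rep_hcR (a := some (.d 1)) rfl hu).eq' (hv.smul π.g) (u_ext fun σ i =>
    Eq.trans ?_ (congrArg (π.g • ·) (hv' σ i)).symm)
  change rm π (some (.d 1)) (some (.z 1)) * en u σ i = π.g • (dL π 0 * (xL π 1 * en u σ i))
  rw [rm_d1z, Cells221.c1, smul_mul_assoc, mul_assoc]

theorem c_fzc (n : ℤ) (y : HH ((TR' π s hs X).U (some .zc)) n) :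
    (TR' π s hs X).hc n (some .f) (some .zc) y = (F0 π s hs X n).h0 1 y := by
  obtain ⟨u, hu⟩ := IsRep.ex y
  refine (rep_hcR (a := some .f) rfl hu).eq' (RowSys.rep_lHm _ _ hu) (u_ext fun σ i => ?_)
  change rm π (some .f) (some .zc) * en u σ i = hL π * en u σ i
  rw [rm_fzc]

theorem c_z1zc (n : ℤ) (y : HH ((TR' π s hs X).U (some .zc)) n) :
    (TR' π s hs X).hc n (some (.z 1)) (some .zc) y = π.g ^ 2 • (F0 π s hs X n).x 0 1 y := by
  obtain ⟨u, hu⟩ := IsRep.ex y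
  refine (rep_hcR (a := some (.z 1)) rfl hu).eq' ((RowSys.rep_lHm _ _ hu).smul (π.g ^ 2))
    (u_ext fun σ i => ?_)
  change rm π (some (.z 1)) (some .zc) * en u σ i = π.g ^ 2 • (xL π 0 * en u σ i)
  rw [rm_z1zc, Cells221.c0, smul_mul_assoc]

theorem c_z0zc (n : ℤ) (y : HH ((TR' π s hs X).U (some .zc)) n) :
    (TR' π s hs X).hc n (some (.z 0)) (some .zc) y = π.g • (F0 π s hs X n).x 1 1 y := by
  obtain ⟨u, hu⟩ := IsRep.ex y
  refine (rep_hcR (a := some (.z 0)) rfl hu).eq' ((RowSys.rep_lHm _ _ hu).smul π.g)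
    (u_ext fun σ i => ?_)
  change rm π (some (.z 0)) (some .zc) * en u σ i = π.g • (xL π 1 * en u σ i)
  rw [rm_z0zc, Cells221.c1, smul_mul_assoc]

theorem c_fe (n : ℤ) (j : Fin 2) (y : HH ((TR' π s hs X).U (some (.e j))) n) :
    (TR' π s hs X).hc n (some .f) (some (.e j)) y = (F0 π s hs X n).d j 1 y := by
  obtain ⟨u, hu⟩ := IsRep.ex y
  refine (rep_hcR (a := some .f) rfl hu).eq' (RowSys.rep_lHm _ _ hu) (u_ext fun σ i => ?_)
  change rm π (some .f) (some (.e j)) * en u σ i = dL π j * en u σ i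
  rw [rm_fe]

theorem c_e0g0 (n : ℤ) (y : HH ((TR' π s hs X).U (some (.gj 0))) n) :
    (TR' π s hs X).hc n (some (.e 0)) (some (.gj 0)) y =
      π.g ^ 3 • wF (F0 π s hs X n) 1 0 0 y := by
  obtain ⟨u, hu⟩ := IsRep.ex y
  obtain ⟨v, hv, hv'⟩ := rw10 (a := 0) hu
  refine (rep_hcR (a := some (.e 0)) rfl hu).eq' (hv.smul (π.g ^ 3)) (u_ext fun σ i =>
    Eq.trans ?_ (congrArg (π.g ^ 3 • ·) (hv' σ i)).symm)
  change rm π (some (.e 0)) (some (.gj 0)) * en u σ i = π.g ^ 3 • (dL π 1 * (xL π 0 * en u σ i))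
  rw [rm_e0g, Cells221.c0, smul_mul_assoc, mul_assoc, ← pow_succ]

theorem c_e0g1 (n : ℤ) (y : HH ((TR' π s hs X).U (some (.gj 1))) n) :
    (TR' π s hs X).hc n (some (.e 0)) (some (.gj 1)) y =
      π.g ^ 2 • wF (F0 π s hs X n) 1 1 0 y := by
  obtain ⟨u, hu⟩ := IsRep.ex y
  obtain ⟨v, hv, hv'⟩ := rw11 (a := 0) hu
  refine (rep_hcR (a := some (.e 0)) rfl hu).eq' (hv.smul (π.g ^ 2)) (u_ext fun σ i =>
    Eq.trans ?_ (congrArg (π.g ^ 2 • ·) (hv' σ i)).symm)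
  change rm π (some (.e 0)) (some (.gj 1)) * en u σ i = π.g ^ 2 • (dL π 1 * (xL π 1 * en u σ i))
  rw [rm_e0g, Cells221.c1, smul_mul_assoc, mul_assoc, ← pow_two]

theorem c_e1g0 (n : ℤ) (y : HH ((TR' π s hs X).U (some (.gj 0))) n) :
    (TR' π s hs X).hc n (some (.e 1)) (some (.gj 0)) y =
      π.g ^ 2 • wF (F0 π s hs X n) 0 0 0 y := by
  obtain ⟨u, hu⟩ := IsRep.ex y
  obtain ⟨v, hv, hv'⟩ := rw00 (a := 0) hu
  refine (rep_hcR (a := some (.e 1)) rfl hu).eq' (hv.smul (π.g ^ 2)) (u_ext fun σ i =>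
    Eq.trans ?_ (congrArg (π.g ^ 2 • ·) (hv' σ i)).symm)
  change rm π (some (.e 1)) (some (.gj 0)) * en u σ i = π.g ^ 2 • (dL π 0 * (xL π 0 * en u σ i))
  rw [rm_e1g, Cells221.c0, smul_mul_assoc, mul_assoc]

theorem c_e1g1 (n : ℤ) (y : HH ((TR' π s hs X).U (some (.gj 1))) n) :
    (TR' π s hs X).hc n (some (.e 1)) (some (.gj 1)) y =
      π.g • wF (F0 π s hs X n) 0 1 0 y := by
  obtain ⟨u, hu⟩ := IsRep.ex y
  obtain ⟨v, hv, hv'⟩ := rw01 (a := 0) hu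
  refine (rep_hcR (a := some (.e 1)) rfl hu).eq' (hv.smul π.g) (u_ext fun σ i =>
    Eq.trans ?_ (congrArg (π.g • ·) (hv' σ i)).symm)
  change rm π (some (.e 1)) (some (.gj 1)) * en u σ i = π.g • (dL π 0 * (xL π 1 * en u σ i))
  rw [rm_e1g, Cells221.c1, smul_mul_assoc, mul_assoc]

theorem c_g1gc (n : ℤ) (y : HH ((TR' π s hs X).U (some .gc)) n) :
    (TR' π s hs X).hc n (some (.gj 1)) (some .gc) y = π.g ^ 2 • (F0 π s hs X n).x 0 0 y := by
  obtain ⟨u, hu⟩ := IsRep.ex y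
  refine (rep_hcR (a := some (.gj 1)) rfl hu).eq' ((RowSys.rep_lHm _ _ hu).smul (π.g ^ 2))
    (u_ext fun σ i => ?_)
  change rm π (some (.gj 1)) (some .gc) * en u σ i = π.g ^ 2 • (xL π 0 * en u σ i)
  rw [rm_g1gc, Cells221.c0, smul_mul_assoc]

theorem c_g0gc (n : ℤ) (y : HH ((TR' π s hs X).U (some .gc)) n) :
    (TR' π s hs X).hc n (some (.gj 0)) (some .gc) y = π.g • (F0 π s hs X n).x 1 0 y := by
  obtain ⟨u, hu⟩ := IsRep.ex y
  refine (rep_hcR (a := some (.gj 0)) rfl hu).eq' ((RowSys.rep_lHm _ _ hu).smul π.g)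
    (u_ext fun σ i => ?_)
  change rm π (some (.gj 0)) (some .gc) * en u σ i = π.g • (xL π 1 * en u σ i)
  rw [rm_g0gc, Cells221.c1, smul_mul_assoc]

theorem c_uv0 (n : ℤ) (y : HH ((TR' π s hs X).U (some (.v 0))) n) :
    (TR' π s hs X).hc n (some (.u 0)) (some (.v 0)) y =
      (F0 π s hs X n).t0 1 y + (F0 π s hs X n).h0 1 y := by
  obtain ⟨u, hu⟩ := IsRep.ex y
  refine (rep_hcR (a := some (.u 0)) rfl hu).eq'
    ((RowSys.rep_lHm _ _ hu).add (RowSys.rep_lHm _ _ hu)) (u_ext fun σ i => ?_)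
  change rm π (some (.u 0)) (some (.v 0)) * en u σ i = tL π * en u σ i + hL π * en u σ i
  rw [rm_uv, add_mul]

theorem c_uv1 (n : ℤ) (y : HH ((TR' π s hs X).U (some (.v 1))) n) :
    (TR' π s hs X).hc n (some (.u 1)) (some (.v 1)) y =
      (F0 π s hs X n).t0 0 y + (F0 π s hs X n).h0 0 y := by
  obtain ⟨u, hu⟩ := IsRep.ex y
  refine (rep_hcR (a := some (.u 1)) rfl hu).eq'
    ((RowSys.rep_lHm _ _ hu).add (RowSys.rep_lHm _ _ hu)) (u_ext fun σ i => ?_)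
  change rm π (some (.u 1)) (some (.v 1)) * en u σ i = tL π * en u σ i + hL π * en u σ i
  rw [rm_uv, add_mul]

theorem hcR_zero (n : ℤ) (a b : Cell) (h1 : cdeg b = cdeg a + 1)
    (h2 : ZZH380.tab b a = false) : (TR' π s hs X).hc n a b = 0 := by
  refine LinearMap.ext fun y => ?_
  obtain ⟨u, hu⟩ := IsRep.ex y
  obtain ⟨hx, hd, e⟩ := rep_hcR (a := a) (b := b) h1 hu
  rw [← e]
  refine cls_eq_zero.2 ⟨0, Submodule.zero_mem _, ?_⟩
  rw [map_zero]
  symm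
  refine LU_zero _ ?_ u
  exact rm_zero π a b h1 h2

/-! ### the end -/

/-- the rows as spaces of the family -/
def eC (n : ℤ) : ∀ a : Cell, HH ((TR' π s hs X).U a) n ≃ₗ[K] YF (F0 π s hs X n) (pi0 a) (pb a)
  | none => LinearEquiv.refl K (HH ((TR' π s hs X).U none) n)
  | some (.d j) => LinearEquiv.refl K (HH ((TR' π s hs X).U (some (.d j))) n)
  | some .f => LinearEquiv.refl K (HH ((TR' π s hs X).U (some .f)) n)
  | some (.z j) => LinearEquiv.refl K (HH ((TR' π s hs X).U (some (.z j))) n)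
  | some .zc => LinearEquiv.refl K (HH ((TR' π s hs X).U (some .zc)) n)
  | some (.u 0) => LinearEquiv.refl K (HH ((TR' π s hs X).U (some (.u 0))) n)
  | some (.u 1) => LinearEquiv.refl K (HH ((TR' π s hs X).U (some (.u 1))) n)
  | some (.e j) => LinearEquiv.refl K (HH ((TR' π s hs X).U (some (.e j))) n)
  | some (.gj j) => LinearEquiv.refl K (HH ((TR' π s hs X).U (some (.gj j))) n)
  | some .gc => LinearEquiv.refl K (HH ((TR' π s hs X).U (some .gc)) n)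
  | some (.v 0) => LinearEquiv.refl K (HH ((TR' π s hs X).U (some (.v 0))) n)
  | some (.v 1) => LinearEquiv.refl K (HH ((TR' π s hs X).U (some (.v 1))) n)

theorem T_tab {g : K} (M : RY K g) : ∀ a b : Cell, ZZH380.tab b a = false → M.T a b = 0 := by
  refine ExR807.forall_cell ?_ ?_ ?_ ?_ ?_ ?_ ?_ ?_ ?_ ?_ ?_ ?_ ?_ ?_ ?_ ?_ <;>
  refine ExR807.forall_cell ?_ ?_ ?_ ?_ ?_ ?_ ?_ ?_ ?_ ?_ ?_ ?_ ?_ ?_ ?_ ?_ <;>
  intro h <;> first | rfl | exact absurd h (by decide)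

variable (hg1 : π.g ≠ 1)

/-- the table of the family -/
abbrev MM (n : ℤ) : RY K π.g := ryF (F0 π s hs X n) π.two π.g0 hg1

theorem t0_ryF (n : ℤ) (b : ℕ) (y : (F0 π s hs X n).Y0 b) :
    ((ryF (F0 π s hs X n) π.two π.g0 hg1).t0 b y : (F0 π s hs X n).Y0 (b + 1)) =
      (F0 π s hs X n).t0 b y := ((F0 π s hs X n).ht0 b y).symm

theorem hC0 (n : ℤ) (z) : eC n (none) ((TR' π s hs X).hc n (none) (some (.d 0)) z) =
    (MM hg1 n).T (none) (some (.d 0)) (eC n (some (.d 0)) z) := by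
  exact c_nd n 0 z

theorem hC1 (n : ℤ) (z) : eC n (none) ((TR' π s hs X).hc n (none) (some (.d 1)) z) =
    (MM hg1 n).T (none) (some (.d 1)) (eC n (some (.d 1)) z) := by
  exact c_nd n 1 z

theorem hC2 (n : ℤ) (z) : eC n (some (.d 0)) ((TR' π s hs X).hc n (some (.d 0)) (some (.z 0)) z) =
    (MM hg1 n).T (some (.d 0)) (some (.z 0)) (eC n (some (.z 0)) z) := by
  exact c_d0z0 n z

theorem hC3 (n : ℤ) (z) : eC n (some (.d 0)) ((TR' π s hs X).hc n (some (.d 0)) (some (.z 1)) z) =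
    (MM hg1 n).T (some (.d 0)) (some (.z 1)) (eC n (some (.z 1)) z) := by
  exact c_d0z1 n z

theorem hC4 (n : ℤ) (z) : eC n (some (.d 1)) ((TR' π s hs X).hc n (some (.d 1)) (some (.z 0)) z) =
    (MM hg1 n).T (some (.d 1)) (some (.z 0)) (eC n (some (.z 0)) z) := by
  exact c_d1z0 n z

theorem hC5 (n : ℤ) (z) : eC n (some (.d 1)) ((TR' π s hs X).hc n (some (.d 1)) (some (.z 1)) z) =
    (MM hg1 n).T (some (.d 1)) (some (.z 1)) (eC n (some (.z 1)) z) := by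
  exact c_d1z1 n z

theorem hC6 (n : ℤ) (z) : eC n (some .f) ((TR' π s hs X).hc n (some .f) (some .zc) z) =
    (MM hg1 n).T (some .f) (some .zc) (eC n (some .zc) z) := by
  exact c_fzc n z

theorem hC7 (n : ℤ) (z) : eC n (some .f) ((TR' π s hs X).hc n (some .f) (some (.e 0)) z) =
    (MM hg1 n).T (some .f) (some (.e 0)) (eC n (some (.e 0)) z) := by
  exact c_fe n 0 z

theorem hC8 (n : ℤ) (z) : eC n (some .f) ((TR' π s hs X).hc n (some .f) (some (.e 1)) z) =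
    (MM hg1 n).T (some .f) (some (.e 1)) (eC n (some (.e 1)) z) := by
  exact c_fe n 1 z

theorem hC9 (n : ℤ) (z) : eC n (some (.z 0)) ((TR' π s hs X).hc n (some (.z 0)) (some .zc) z) =
    (MM hg1 n).T (some (.z 0)) (some .zc) (eC n (some .zc) z) := by
  exact c_z0zc n z

theorem hC10 (n : ℤ) (z) : eC n (some (.z 1)) ((TR' π s hs X).hc n (some (.z 1)) (some .zc) z) =
    (MM hg1 n).T (some (.z 1)) (some .zc) (eC n (some .zc) z) := by
  exact c_z1zc n z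

theorem hC11 (n : ℤ) (z) : eC n (some (.u 0)) ((TR' π s hs X).hc n (some (.u 0)) (some (.v 0)) z) =
    (MM hg1 n).T (some (.u 0)) (some (.v 0)) (eC n (some (.v 0)) z) := by
  refine Eq.trans (c_uv0 n z) ?_
  exact congrArg (fun q : (F0 π s hs X n).Y0 (1 + 1) => q + (F0 π s hs X n).h0 1 z)
    (t0_ryF hg1 n 1 z).symm

theorem hC12 (n : ℤ) (z) : eC n (some (.u 1)) ((TR' π s hs X).hc n (some (.u 1)) (some (.v 1)) z) =
    (MM hg1 n).T (some (.u 1)) (some (.v 1)) (eC n (some (.v 1)) z) := by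
  refine Eq.trans (c_uv1 n z) ?_
  exact congrArg (fun q : (F0 π s hs X n).Y0 (0 + 1) => q + (F0 π s hs X n).h0 0 z)
    (t0_ryF hg1 n 0 z).symm

theorem hC13 (n : ℤ) (z) : eC n (some (.e 0)) ((TR' π s hs X).hc n (some (.e 0)) (some (.gj 0)) z) =
    (MM hg1 n).T (some (.e 0)) (some (.gj 0)) (eC n (some (.gj 0)) z) := by
  exact c_e0g0 n z

theorem hC14 (n : ℤ) (z) : eC n (some (.e 0)) ((TR' π s hs X).hc n (some (.e 0)) (some (.gj 1)) z) =
    (MM hg1 n).T (some (.e 0)) (some (.gj 1)) (eC n (some (.gj 1)) z) := by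
  exact c_e0g1 n z

theorem hC15 (n : ℤ) (z) : eC n (some (.e 1)) ((TR' π s hs X).hc n (some (.e 1)) (some (.gj 0)) z) =
    (MM hg1 n).T (some (.e 1)) (some (.gj 0)) (eC n (some (.gj 0)) z) := by
  exact c_e1g0 n z

theorem hC16 (n : ℤ) (z) : eC n (some (.e 1)) ((TR' π s hs X).hc n (some (.e 1)) (some (.gj 1)) z) =
    (MM hg1 n).T (some (.e 1)) (some (.gj 1)) (eC n (some (.gj 1)) z) := by
  exact c_e1g1 n z

theorem hC17 (n : ℤ) (z) : eC n (some (.gj 0)) ((TR' π s hs X).hc n (some (.gj 0)) (some .gc) z) =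
    (MM hg1 n).T (some (.gj 0)) (some .gc) (eC n (some .gc) z) := by
  exact c_g0gc n z

theorem hC18 (n : ℤ) (z) : eC n (some (.gj 1)) ((TR' π s hs X).hc n (some (.gj 1)) (some .gc) z) =
    (MM hg1 n).T (some (.gj 1)) (some .gc) (eC n (some .gc) z) := by
  exact c_g1gc n z

/-- the nonzero places of the table -/
theorem tab_cases {P : Cell → Cell → Prop}
    (p0 : P (none) (some (.d 0)))
    (p1 : P (none) (some (.d 1)))
    (p2 : P (some (.d 0)) (some (.z 0)))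
    (p3 : P (some (.d 0)) (some (.z 1)))
    (p4 : P (some (.d 1)) (some (.z 0)))
    (p5 : P (some (.d 1)) (some (.z 1)))
    (p6 : P (some .f) (some .zc))
    (p7 : P (some .f) (some (.e 0)))
    (p8 : P (some .f) (some (.e 1)))
    (p9 : P (some (.z 0)) (some .zc))
    (p10 : P (some (.z 1)) (some .zc))
    (p11 : P (some (.u 0)) (some (.v 0)))
    (p12 : P (some (.u 1)) (some (.v 1)))
    (p13 : P (some (.e 0)) (some (.gj 0)))
    (p14 : P (some (.e 0)) (some (.gj 1)))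
    (p15 : P (some (.e 1)) (some (.gj 0)))
    (p16 : P (some (.e 1)) (some (.gj 1)))
    (p17 : P (some (.gj 0)) (some .gc))
    (p18 : P (some (.gj 1)) (some .gc)) :
    ∀ a b : Cell, ZZH380.tab b a = true → P a b := by
  refine ExR807.forall_cell ?_ ?_ ?_ ?_ ?_ ?_ ?_ ?_ ?_ ?_ ?_ ?_ ?_ ?_ ?_ ?_ <;>
  refine ExR807.forall_cell ?_ ?_ ?_ ?_ ?_ ?_ ?_ ?_ ?_ ?_ ?_ ?_ ?_ ?_ ?_ ?_ <;>
  intro h <;> first | exact absurd h (by decide) | assumption

theorem hCt (n : ℤ) (a b : Cell) (h : ZZH380.tab b a = true) :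
    ∀ z, eC n a ((TR' π s hs X).hc n a b z) = (MM hg1 n).T a b (eC n b z) :=
  tab_cases (P := fun a b => ∀ z, eC n a ((TR' π s hs X).hc n a b z) =
    (MM hg1 n).T a b (eC n b z)) (hC0 hg1 n) (hC1 hg1 n) (hC2 hg1 n) (hC3 hg1 n) (hC4 hg1 n) (hC5 hg1 n) (hC6 hg1 n) (hC7 hg1 n) (hC8 hg1 n) (hC9 hg1 n) (hC10 hg1 n) (hC11 hg1 n) (hC12 hg1 n) (hC13 hg1 n) (hC14 hg1 n) (hC15 hg1 n) (hC16 hg1 n) (hC17 hg1 n) (hC18 hg1 n) a b h

theorem hCa (n : ℤ) (a b : Cell) (h1 : cdeg b = cdeg a + 1) (z) :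
    eC n a ((TR' π s hs X).hc n a b z) = (MM hg1 n).T a b (eC n b z) := by
  rcases h2 : ZZH380.tab b a with _ | _
  · rw [hcR_zero n a b h1 h2, T_tab (MM hg1 n) a b h2]
    exact map_zero (eC n a)
  · exact hCt hg1 n a b h2 z

variable (π s hs X)

/-- **the right cells are acyclic over `X`** from the bijectivity of `theta_(-2)`, `theta_(-1)` -/
theorem acR (hg1 : π.g ≠ 1) (A : ∀ a : ℕ, a < 3 → QI ((TX π s hs X).thH 1 0 a))
    (B : ∀ a : ℕ, a < 3 → QI ((TX π s hs X).thH π.g⁻¹ 1 a)) :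
    Ac (TFR (RSc π s hs) X).cx := by
  refine (TFR (RSc π s hs) X).ac_of_H fun m n ζ h0 h1 => ?_
  have hA : ∀ a : ℕ, a < 3 → Function.Bijective ((F0 π s hs X n).th0 1 a) :=
    fun a ha => XDHT.th0_bij (TX π s hs X) _ 0 n a (A a ha)
  have hB : ∀ a : ℕ, a < 2 → Function.Bijective ((F0 π s hs X n).th1 π.g⁻¹ a) :=
    fun a ha => XDHT.th1_bij (TX π s hs X) _ 0 n a (B a (by omega))
  exact exactF (F0 π s hs X n) π.two π.g0 hg1 hA hB (fun a => HH ((TR' π s hs X).U a) n)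
    (eC n) (fun a b => (TR' π s hs X).hc n a b) (fun a b h => (TR' π s hs X).hc_not (fun h' => h (by
      have h2 : -((cdeg a : ℕ) : ℤ) = -((cdeg b : ℕ) : ℤ) + 1 := h'
      omega)) n) (hCa hg1 n) m ζ h0 h1

/-- **`tot ⊗ X` is acyclic** -/
theorem tot_acR (hg1 : π.g ≠ 1) (A : ∀ a : ℕ, a < 3 → QI ((TX π s hs X).thH 1 0 a))
    (B : ∀ a : ℕ, a < 3 → QI ((TX π s hs X).thH π.g⁻¹ 1 a)) :
    Ac (tG (tot (RSc π s hs)) X) := tot_ac (RSc π s hs) X (acR π s hs X hg1 A B)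

theorem g_ne_one : π.g ≠ 1 := fun h => π.gn 1 (by norm_num) (by rw [pow_one]; exact h)

/-- **`Ac (tG (tot RSc) XL)`** -/
theorem rx : Ac (tG (tot (RSc π s hs)) (EndV448.XL π s hs)) :=
  tot_acR π s hs (EndV448.XL π s hs) (g_ne_one π)
    (fun _ ha => TRq461.q0 π s hs ha) (fun _ ha => TRq461.q1 π s hs ha)

/-- **`T(DV_(-2)) = 0`** -/
theorem dvs : Ac (tG (DVs π s hs) (EndV448.XL π s hs)) :=
  (dvs_ac π s hs (EndV448.XL π s hs)).1 (rx π s hs)

end conc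

end Crest.Agent.R186.RX560
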