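import Crest.Agent.R186.RW1_171
import Crest.Agent.R186.HBz_362
import Crest.Agent.R186.ExR_807
import Crest.Agent.R186.FamU_654
import Crest.Agent.R186.JTR_322

/-!
Row 186 (A), short road, right cells (helper625): `tot S ⊗ X` (171's `RW171.tot`) as a twisted
family `Zig498.TF`, and its acyclicity for the sixteen right cells from the bijectivity of
`θ_(-2) = t + h`, `θ_(-1) = t + g⁻¹ h` on the homology of the rows (807's `exactZ`).
-/

set_option autoImplicit false
set_option linter.style.haveILetI false
set_option linter.unusedSectionVars false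
set_option linter.unusedSimpArgs false

namespace Crest.Agent.R186.RX625

open Hat827 Win810 KHev302 Frame515 MulOpposite Adapt186 HB362 Zig498 RW171

variable {K : Type} [Field K] {w : WD K} {E : CE w}

section family

variable (S : RS E) (X : LCells w.dga)

theorem m_zero {c c' : S.κ} (h : S.r c' ≤ S.r c) : S.m c c' = 0 := by
  have h1 := S.m_mem c c'
  rw [E.pb_neg _ _ _ (by omega)] at h1
  exact (Submodule.mem_bot K).1 h1

theorem mcR (c c' : S.κ) (x : X.ι →₀ Row E (S.p c') (S.a c')) :
    dU E _ _ (LU E (S.m c c') (m_EB S c c') x) + LU E (S.m c c') (m_EB S c c')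
      (dU E _ _ x) + ∑ c'', LU E (S.m c c'') (m_EB S c c'')
        (LU E (S.m c'' c') (m_EB S c'' c') x) = 0 := by
  have h1 : ∀ c'', LU E (S.m c c'') (m_EB S c c'') (LU E (S.m c'' c') (m_EB S c'' c') x) =
      LU E (S.m c c'' * S.m c'' c') (mul_EB (m_EB S c'' c') (m_EB S c c'')) x :=
    fun c'' => LU_LU _ _ _ x
  rw [LU_d, add_assoc (LU E (E.DB (S.m c c')) _ x), U_two, add_zero, Finset.sum_congr rfl
    fun c'' _ => h1 c'', LU_sum, LU_add]
  exact LU_zero _ (S.mc c c') x

/-- **`tot S ⊗ X` as a twisted family over the cells of `S`** -/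
noncomputable def TFR : TF K where
  Cl := S.κ
  s c := -(S.r c)
  U c := U E X (S.p c) (S.a c)
  c c c' := LU E (S.m c c') (m_EB S c c')
  c_zero c c' h := LinearMap.ext fun u => LU_zero _ (m_zero S (by omega)) u
  c_mem c c' k x hx := by
    have h := LU_mem (X := X) (m_EB S c c') (S.m_mem c c') hx
    rwa [show k + (S.r c' - S.r c - 1) = k + -(S.r c) - -(S.r c') - 1 by ring] at h
  mc c c' x := mcR S X c c' x

variable {S X}

/-- **acyclicity of `tot S ⊗ X` from the family** -/
theorem tot_ac (h : Ac (TFR S X).cx) : Ac (tG (tot S) X) := by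
  intro k u hu hd
  have hu' := (mem_TX_iff S).1 hu
  have h1 : ∀ c, dU E _ _ (PT S X c u) +
      ∑ c', LU E (S.m c c') (m_EB S c c') (PT S X c' u) = 0 := fun c => by
    have h2 : dT S X u = 0 := hd
    rw [← PT_d, h2, map_zero]
  obtain ⟨v, hv, hdv⟩ := h k (fun c => PT S X c u) hu' (funext h1)
  obtain ⟨y, hy⟩ := PT_surj S (X := X) v
  refine ⟨y, (mem_TX_iff S).2 fun c => ?_, PT_ext S fun c => ?_⟩
  · rw [hy c]
    exact hv c
  · refine (PT_d S c y).trans ?_
    simp only [hy]
    exact congrFun hdv c

end family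

end Crest.Agent.R186.RX625
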