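import Crest.Agent.R186.RX_625

/-!
Row 186 (A), short road, right cells (helper625): the homology of the rows `(0, b)`, `(1, b)` as
807's `RY`, and the acyclicity of `tot S ⊗ X` for the sixteen right cells.
-/

set_option autoImplicit false
set_option linter.style.haveILetI false
set_option linter.unusedSectionVars false
set_option linter.unusedSimpArgs false

namespace Crest.Agent.R186.RX625

open Hat827 Win810 KHev302 Frame515 MulOpposite Adapt186 HB362 Zig498 RW171 JTR322 FamU654 ExR807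
open Crest.Agent.R186.Cells221 (Cell cdeg)
open Crest.Agent.R186.PBW128 (E)

variable {K : Type} [Field K] {w : WD K}

/-- the letters used by the right cells -/
structure RLt (E : CE w) (g : K) where
  x : Fin 2 → E.B
  d : Fin 2 → E.B
  z : Fin 2 → E.B
  h : E.B
  x_mem : ∀ j, x j ∈ E.pb 1 0 0
  d_mem : ∀ j, d j ∈ E.pb (-1) 1 0
  z_mem : ∀ j, z j ∈ E.pb (-1) 2 1
  h_mem : h ∈ E.pb 0 1 0
  Dx : ∀ j, E.DB (x j) = 0
  Dd : ∀ j, E.DB (d j) = 0
  Dh : E.DB h = 0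
  r00 : x 0 * d 0 = h + g • (d 0 * x 0)
  r01 : x 0 * d 1 = g • (d 1 * x 0)
  r10 : x 1 * d 0 = d 0 * x 1
  r11 : x 1 * d 1 = h + g • (d 1 * x 1) + (g - 1) • (d 0 * x 0)
  xx : x 0 * x 1 = x 1 * x 0
  xh : ∀ j, x j * h = h * x j
  dh : ∀ j, d j * h = h * d j
  q : ∀ j, d 1 * (d 0 * x j) + g • (d 0 * (d 1 * x j)) = E.DB (z j)

variable {E : CE w}

theorem pbc {P A C P' A' C' : ℤ} {b : E.B} (h : b ∈ E.pb P A C) (e1 : P' = P) (e2 : A' = A)
    (e3 : C' = C) : b ∈ E.pb P' A' C' := by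
  subst e1 e2 e3
  exact h

section

variable {X : LCells w.dga}

/-- left multiplication by a cycle of degree zero, on homology -/
noncomputable def lH {p a p' a' : ℤ} (b : E.B) (hb : b ∈ E.pb (p' - p) (a' - a) 0)
    (hD : E.DB b = 0) (n : ℤ) : HH (U E X p a) n →ₗ[K] HH (U E X p' a') n :=
  Hm (LUh E X b hb hD).f (HOK.of_hom n _)

theorem rep_lH {p a p' a' : ℤ} {b : E.B} (hb : b ∈ E.pb (p' - p) (a' - a) 0)
    (hD : E.DB b = 0) {n : ℤ} {ζ : HH (U E X p a) n} {u : (U E X p a).X} (h : IsRep ζ u) :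
    IsRep (lH b hb hD n ζ) (LU E b (CE.pb_le _ _ _ hb) u) := h.map _ _

/-- values -/
def uv {p a : ℤ} (u : (U E X p a).X) (σ : X.ι) (j : w.Ob) : E.B :=
  ((show X.ι →₀ Row E p a from u) σ).1 j

theorem rep_zero {Y : GC K} {n : ℤ} : IsRep (0 : HH Y n) 0 :=
  ⟨Submodule.zero_mem _, map_zero _, rfl⟩

end

namespace RLt

variable {g : K} (L : RLt E g)

theorem mx (j : Fin 2) (b : ℕ) : L.x j ∈ E.pb ((((1 : Fin 2).val : ℕ) : ℤ) -
    (((0 : Fin 2).val : ℕ) : ℤ)) ((b : ℤ) - b) 0 :=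
  pbc (L.x_mem j) rfl (by ring) rfl

theorem md (j : Fin 2) (b : ℕ) : L.d j ∈ E.pb ((((0 : Fin 2).val : ℕ) : ℤ) -
    (((1 : Fin 2).val : ℕ) : ℤ)) (((b + 1 : ℕ) : ℤ) - b) 0 :=
  pbc (L.d_mem j) rfl (by push_cast; ring) rfl

theorem mh (i : Fin 2) (b : ℕ) : L.h ∈ E.pb (((i.val : ℕ) : ℤ) -
    ((i.val : ℕ) : ℤ)) (((b + 1 : ℕ) : ℤ) - b) 0 :=
  pbc L.h_mem (by ring) (by push_cast; ring) rfl

theorem dx_mem (j i : Fin 2) : L.d j * L.x i ∈ E.pb 0 1 0 :=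
  pbc (E.pb_mul (L.d_mem j) (L.x_mem i)) (by norm_num) (by norm_num) (by norm_num)

theorem mw (j i : Fin 2) (k : Fin 2) (b : ℕ) : L.d j * L.x i ∈ E.pb (((k.val : ℕ) : ℤ) -
    ((k.val : ℕ) : ℤ)) (((b + 1 : ℕ) : ℤ) - b) 0 :=
  pbc (L.dx_mem j i) (by ring) (by push_cast; ring) rfl

theorem Dw (j i : Fin 2) : E.DB (L.d j * L.x i) = 0 := by
  rw [E.DB_mul, L.Dx, L.Dd, mul_zero, zero_mul, add_zero]

variable (X : LCells w.dga)

/-- **the homology of the rows `0`, `1` as 807's `RY`** -/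
noncomputable def ry (n : ℤ) : RY K g where
  Y i b := HH (U E X ((i.val : ℕ) : ℤ) (b : ℤ)) n
  x j b := lH (L.x j) (L.mx j b) (L.Dx j) n
  d j b := lH (L.d j) (L.md j b) (L.Dd j) n
  h i b := lH L.h (L.mh i b) L.Dh n
  w j i b := lH (L.d j * L.x i) (L.mw j i 1 b) (L.Dw j i) n
  r00 b _ y := by
    obtain ⟨u, hu⟩ := IsRep.ex y
    refine (rep_lH _ _ (rep_lH _ _ hu)).eq' ((rep_lH _ _ hu).add ((rep_lH _ _ hu).smul g)) ?_
    refine U_ext fun σ j => ?_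
    change L.x 0 * (L.d 0 * uv u σ j) = L.h * uv u σ j + g • (L.d 0 * L.x 0 * uv u σ j)
    rw [← mul_assoc, L.r00, add_mul, smul_mul_assoc]
  r01 b _ y := by
    obtain ⟨u, hu⟩ := IsRep.ex y
    refine (rep_lH _ _ (rep_lH _ _ hu)).eq' ((rep_lH _ _ hu).smul g) ?_
    refine U_ext fun σ j => ?_
    change L.x 0 * (L.d 1 * uv u σ j) = g • (L.d 1 * L.x 0 * uv u σ j)
    rw [← mul_assoc, L.r01, smul_mul_assoc]
  r10 b _ y := by
    obtain ⟨u, hu⟩ := IsRep.ex y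
    refine (rep_lH _ _ (rep_lH _ _ hu)).eq' (rep_lH _ _ hu) ?_
    refine U_ext fun σ j => ?_
    change L.x 1 * (L.d 0 * uv u σ j) = L.d 0 * L.x 1 * uv u σ j
    rw [← mul_assoc, L.r10]
  r11 b _ y := by
    obtain ⟨u, hu⟩ := IsRep.ex y
    refine (rep_lH _ _ (rep_lH _ _ hu)).eq' (((rep_lH _ _ hu).add ((rep_lH _ _ hu).smul g)).add
      ((rep_lH _ _ hu).smul (g - 1))) ?_
    refine U_ext fun σ j => ?_
    change L.x 1 * (L.d 1 * uv u σ j) = L.h * uv u σ j + g • (L.d 1 * L.x 1 * uv u σ j) +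
      (g - 1) • (L.d 0 * L.x 0 * uv u σ j)
    rw [← mul_assoc, L.r11, add_mul, add_mul, smul_mul_assoc, smul_mul_assoc]
  k0 b _ y := by
    obtain ⟨u, hu⟩ := IsRep.ex y
    refine (rep_lH _ _ (rep_lH _ _ hu)).eq' (rep_lH _ _ (rep_lH _ _ hu)) ?_
    refine U_ext fun σ j => ?_
    change L.d 0 * L.x 0 * (L.x 1 * uv u σ j) = L.d 0 * L.x 1 * (L.x 0 * uv u σ j)
    rw [← mul_assoc, ← mul_assoc, mul_assoc (L.d 0), mul_assoc (L.d 0), L.xx]
    try simp only [mul_assoc]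
  k1 b _ y := by
    obtain ⟨u, hu⟩ := IsRep.ex y
    refine (rep_lH _ _ (rep_lH _ _ hu)).eq' (rep_lH _ _ (rep_lH _ _ hu)) ?_
    refine U_ext fun σ j => ?_
    change L.d 1 * L.x 0 * (L.x 1 * uv u σ j) = L.d 1 * L.x 1 * (L.x 0 * uv u σ j)
    rw [← mul_assoc, ← mul_assoc, mul_assoc (L.d 1), mul_assoc (L.d 1), L.xx]
    try simp only [mul_assoc]
  hw j' i' b _ y := by
    obtain ⟨u, hu⟩ := IsRep.ex y
    refine (rep_lH _ _ (rep_lH _ _ hu)).eq' (rep_lH _ _ (rep_lH _ _ hu)) ?_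
    refine U_ext fun σ j => ?_
    change L.d j' * L.x i' * (L.h * uv u σ j) = L.h * (L.d j' * L.x i' * uv u σ j)
    rw [← mul_assoc, ← mul_assoc L.h, mul_assoc (L.d j') (L.x i'), L.xh, ← mul_assoc (L.d j'),
      L.dh, mul_assoc L.h]
  q j' b _ y := by
    obtain ⟨u, hu⟩ := IsRep.ex y
    obtain ⟨hun, hud, -⟩ := id hu
    have hz : L.z j' ∈ E.pb ((((0 : Fin 2).val : ℕ) : ℤ) - (((1 : Fin 2).val : ℕ) : ℤ))
        (((b + 1 + 1 : ℕ) : ℤ) - b) 1 :=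
      pbc (L.z_mem j') rfl (by push_cast; ring) rfl
    refine ((rep_lH _ _ (rep_lH _ _ hu)).add ((rep_lH _ _ (rep_lH _ _ hu)).smul g)).eq rep_zero
      ⟨LU E (L.z j') (CE.pb_le _ _ _ hz) u, LU_mem _ hz hun, ?_⟩
    rw [zero_add]
    refine Eq.trans ?_ (LU_d (E := E) (X := X) (L.z j') (CE.pb_le _ _ _ hz) u).symm
    have h2 : dU E _ _ u = 0 := hud
    rw [h2, map_zero, add_zero]
    refine U_ext fun σ j => ?_
    change L.d 1 * (L.d 0 * L.x j' * uv u σ j) + g • (L.d 0 * (L.d 1 * L.x j' * uv u σ j)) =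
      E.DB (L.z j') * uv u σ j
    rw [← L.q, add_mul, smul_mul_assoc]
    simp only [mul_assoc]

/-! ### the table -/

/-- `t = h + (g - 1) (d_0 x_0 + d_1 x_1)` -/
noncomputable def t : E.B := L.h + (g - 1) • (L.d 0 * L.x 0 + L.d 1 * L.x 1)

/-- the entries of the right table between adjacent levels -/
noncomputable def tab : Cell → Cell → E.B
  | none, some (.d 0) => L.d 0
  | none, some (.d 1) => L.d 1
  | some (.d 0), some (.z 0) => g ^ 3 • (L.d 1 * L.x 0)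
  | some (.d 0), some (.z 1) => g ^ 2 • (L.d 1 * L.x 1)
  | some (.d 1), some (.z 0) => g ^ 2 • (L.d 0 * L.x 0)
  | some (.d 1), some (.z 1) => g • (L.d 0 * L.x 1)
  | some .f, some .zc => L.h
  | some (.z 1), some .zc => g ^ 2 • L.x 0
  | some (.z 0), some .zc => g • L.x 1
  | some .f, some (.e 0) => L.d 0
  | some .f, some (.e 1) => L.d 1
  | some (.e 0), some (.gj 0) => g ^ 3 • (L.d 1 * L.x 0)
  | some (.e 0), some (.gj 1) => g ^ 2 • (L.d 1 * L.x 1)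
  | some (.e 1), some (.gj 0) => g ^ 2 • (L.d 0 * L.x 0)
  | some (.e 1), some (.gj 1) => g • (L.d 0 * L.x 1)
  | some (.gj 1), some .gc => g ^ 2 • L.x 0
  | some (.gj 0), some .gc => g • L.x 1
  | some (.u 0), some (.v 0) => L.t + L.h
  | some (.u 1), some (.v 1) => L.t + L.h
  | _, _ => 0

/-- the matrix of the sixteen right cells, given up to its adjacent entries -/
structure RTb where
  m : Cell → Cell → E.B
  m_mem : ∀ c c', m c c' ∈ E.pb ((((pi0 c).val : ℕ) : ℤ) - (((pi0 c').val : ℕ) : ℤ))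
    ((pb c : ℤ) - pb c') ((cdeg c' : ℤ) - cdeg c - 1)
  mc : ∀ c c', E.DB (m c c') + ∑ c'', m c c'' * m c'' c' = 0
  tb : ∀ a b, cdeg b = cdeg a + 1 → m a b = L.tab a b

variable {L} (T : L.RTb)

/-- the system of right cells -/
noncomputable def RTb.S : RS E where
  κ := Cell
  p c := (((pi0 c).val : ℕ) : ℤ)
  a c := (pb c : ℤ)
  r c := (cdeg c : ℤ)
  m := T.m
  m_mem := T.m_mem
  mc := T.mc

variable {X}

theorem rep_entry0 {p a p' a' n : ℤ} {y : HH (U E X p a) n} {u : (U E X p a).X}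
    (h : (0 : E.B) ∈ E.EB (p' - p) (a' - a)) :
    IsRep ((0 : HH (U E X p a) n →ₗ[K] HH (U E X p' a') n) y) (LU E 0 h u) := by
  rw [LU_zero _ rfl, LinearMap.zero_apply]
  exact rep_zero

theorem tab_EB (T : L.RTb) (a b : Cell) (h : cdeg b = cdeg a + 1) : L.tab a b ∈
    E.EB ((((pi0 a).val : ℕ) : ℤ) - (((pi0 b).val : ℕ) : ℤ)) ((pb a : ℤ) - pb b) := by
  rw [← T.tb a b h]
  exact CE.pb_le _ _ _ (T.m_mem a b)

theorem T_zero (n : ℤ) : ∀ a b : Cell, cdeg b ≠ cdeg a + 1 → (L.ry X n).T a b = 0 := by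
  refine forall_cell ?_ ?_ ?_ ?_ ?_ ?_ ?_ ?_ ?_ ?_ ?_ ?_ ?_ ?_ ?_ ?_ <;>
  (refine forall_cell ?_ ?_ ?_ ?_ ?_ ?_ ?_ ?_ ?_ ?_ ?_ ?_ ?_ ?_ ?_ ?_ <;> intro h <;>
    first | rfl | exact absurd rfl h)

theorem rep_of_eq {Y : GC K} {n : ℤ} {ζ : HH Y n} {x x' : Y.X} (h : IsRep ζ x) (e : x = x') :
    IsRep ζ x' := e ▸ h

theorem rep_smul {p a p' a' n : ℤ} {c : K} {b : E.B} (hb : b ∈ E.pb (p' - p) (a' - a) 0)
    (hD : E.DB b = 0) {y : HH (U E X p a) n} {u : (U E X p a).X} (hu : IsRep y u)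
    (h : c • b ∈ E.EB (p' - p) (a' - a)) : IsRep (c • lH b hb hD n y) (LU E (c • b) h u) := by
  refine rep_of_eq ((rep_lH hb hD hu).smul c) (U_ext fun σ j => ?_)
  change c • (b * uv u σ j) = (c • b) * uv u σ j
  rw [smul_mul_assoc]

theorem rep_uv (n : ℤ) (b : ℕ) (y : HH (U E X (((0 : Fin 2).val : ℕ) : ℤ) (b : ℤ)) n)
    (u : (U E X (((0 : Fin 2).val : ℕ) : ℤ) (b : ℤ)).X) (hu : IsRep y u)
    (h : L.t + L.h ∈ E.EB ((((0 : Fin 2).val : ℕ) : ℤ) - (((0 : Fin 2).val : ℕ) : ℤ))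
      (((b + 1 : ℕ) : ℤ) - b)) :
    IsRep (((L.ry X n).t0 b + (L.ry X n).h 0 b) y) (LU E (L.t + L.h) h u) := by
  have h1 : IsRep ((L.ry X n).h 0 b y) _ := rep_lH (L.mh 0 b) L.Dh hu
  have h2 : ∀ j, IsRep ((L.ry X n).d j b ((L.ry X n).x j b y)) _ := fun j =>
    rep_lH (L.md j b) (L.Dd j) (rep_lH (L.mx j b) (L.Dx j) hu)
  refine rep_of_eq ((h1.add (((h2 0).add (h2 1)).smul (g - 1))).add h1) (U_ext fun σ j => ?_)
  change L.h * uv u σ j + (g - 1) • (L.d 0 * (L.x 0 * uv u σ j) + L.d 1 * (L.x 1 * uv u σ j)) +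
    L.h * uv u σ j = (L.h + (g - 1) • (L.d 0 * L.x 0 + L.d 1 * L.x 1) + L.h) * uv u σ j
  rw [add_mul, add_mul, smul_mul_assoc, add_mul, mul_assoc, mul_assoc]

/-- the entry `(a, b)` of 807's table is induced by the entry of `tab` -/
structure RepE (L : RLt E g) (X : LCells w.dga) (n : ℤ) (a b : Cell) : Prop where
  rep : ∀ (h : L.tab a b ∈ E.EB ((((pi0 a).val : ℕ) : ℤ) - (((pi0 b).val : ℕ) : ℤ))
      ((pb a : ℤ) - pb b)) (y : HH (U E X (((pi0 b).val : ℕ) : ℤ) (pb b)) n)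
      (u : (U E X (((pi0 b).val : ℕ) : ℤ) (pb b)).X), IsRep y u →
      IsRep ((L.ry X n).T a b y) (LU E (L.tab a b) h u)

/-- the nonzero entries -/
def nz : Cell → Cell → Bool
  | none, some (.d _) => true
  | some (.d _), some (.z _) => true
  | some .f, some .zc => true
  | some (.z _), some .zc => true
  | some .f, some (.e _) => true
  | some (.e _), some (.gj _) => true
  | some (.gj _), some .gc => true
  | some (.u i), some (.v j) => if i = j then true else false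
  | _, _ => false

theorem E01 (n : ℤ) : RepE L X n none (some (.d 0)) := ⟨fun _ _ _ hu => rep_lH _ _ hu⟩
theorem E02 (n : ℤ) : RepE L X n none (some (.d 1)) := ⟨fun _ _ _ hu => rep_lH _ _ hu⟩

theorem E03 (n : ℤ) : RepE L X n (some (.d 0)) (some (.z 0)) := ⟨fun h _ _ hu => rep_smul _ _ hu h⟩
theorem E04 (n : ℤ) : RepE L X n (some (.d 0)) (some (.z 1)) := ⟨fun h _ _ hu => rep_smul _ _ hu h⟩
theorem E05 (n : ℤ) : RepE L X n (some (.d 1)) (some (.z 0)) := ⟨fun h _ _ hu => rep_smul _ _ hu h⟩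
theorem E06 (n : ℤ) : RepE L X n (some (.d 1)) (some (.z 1)) := ⟨fun h _ _ hu => rep_smul _ _ hu h⟩
theorem E07 (n : ℤ) : RepE L X n (some (.e 0)) (some (.gj 0)) := ⟨fun h _ _ hu => rep_smul _ _ hu h⟩
theorem E08 (n : ℤ) : RepE L X n (some (.e 0)) (some (.gj 1)) := ⟨fun h _ _ hu => rep_smul _ _ hu h⟩
theorem E09 (n : ℤ) : RepE L X n (some (.e 1)) (some (.gj 0)) := ⟨fun h _ _ hu => rep_smul _ _ hu h⟩
theorem E10 (n : ℤ) : RepE L X n (some (.e 1)) (some (.gj 1)) := ⟨fun h _ _ hu => rep_smul _ _ hu h⟩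
theorem E11 (n : ℤ) : RepE L X n (some .f) (some .zc) := ⟨fun _ _ _ hu => rep_lH _ _ hu⟩
theorem E12 (n : ℤ) : RepE L X n (some (.z 0)) (some .zc) := ⟨fun h _ _ hu => rep_smul _ _ hu h⟩
theorem E13 (n : ℤ) : RepE L X n (some (.z 1)) (some .zc) := ⟨fun h _ _ hu => rep_smul _ _ hu h⟩
theorem E14 (n : ℤ) : RepE L X n (some (.gj 0)) (some .gc) := ⟨fun h _ _ hu => rep_smul _ _ hu h⟩
theorem E15 (n : ℤ) : RepE L X n (some (.gj 1)) (some .gc) := ⟨fun h _ _ hu => rep_smul _ _ hu h⟩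
theorem E16 (n : ℤ) : RepE L X n (some .f) (some (.e 0)) := ⟨fun _ _ _ hu => rep_lH _ _ hu⟩
theorem E17 (n : ℤ) : RepE L X n (some .f) (some (.e 1)) := ⟨fun _ _ _ hu => rep_lH _ _ hu⟩
theorem E18 (n : ℤ) : RepE L X n (some (.u 0)) (some (.v 0)) := ⟨fun h y u hu => rep_uv n _ y u hu h⟩
theorem E19 (n : ℤ) : RepE L X n (some (.u 1)) (some (.v 1)) := ⟨fun h y u hu => rep_uv n _ y u hu h⟩

theorem nz_rep (n : ℤ) : ∀ a b : Cell, nz a b = true → RepE L X n a b := by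
  have e01 := E01 (L := L) (X := X) n
  have e02 := E02 (L := L) (X := X) n
  have e03 := E03 (L := L) (X := X) n
  have e04 := E04 (L := L) (X := X) n
  have e05 := E05 (L := L) (X := X) n
  have e06 := E06 (L := L) (X := X) n
  have e07 := E07 (L := L) (X := X) n
  have e08 := E08 (L := L) (X := X) n
  have e09 := E09 (L := L) (X := X) n
  have e10 := E10 (L := L) (X := X) n
  have e11 := E11 (L := L) (X := X) n
  have e12 := E12 (L := L) (X := X) n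
  have e13 := E13 (L := L) (X := X) n
  have e14 := E14 (L := L) (X := X) n
  have e15 := E15 (L := L) (X := X) n
  have e16 := E16 (L := L) (X := X) n
  have e17 := E17 (L := L) (X := X) n
  have e18 := E18 (L := L) (X := X) n
  have e19 := E19 (L := L) (X := X) n
  refine forall_cell ?_ ?_ ?_ ?_ ?_ ?_ ?_ ?_ ?_ ?_ ?_ ?_ ?_ ?_ ?_ ?_ <;>
  (refine forall_cell ?_ ?_ ?_ ?_ ?_ ?_ ?_ ?_ ?_ ?_ ?_ ?_ ?_ ?_ ?_ ?_ <;> intro h <;>
    first
    | exact absurd h (by decide)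
    | assumption)

theorem nz_zero (n : ℤ) : ∀ a b : Cell, nz a b = false →
    (L.ry X n).T a b = 0 ∧ L.tab a b = 0 := by
  refine forall_cell ?_ ?_ ?_ ?_ ?_ ?_ ?_ ?_ ?_ ?_ ?_ ?_ ?_ ?_ ?_ ?_ <;>
  (refine forall_cell ?_ ?_ ?_ ?_ ?_ ?_ ?_ ?_ ?_ ?_ ?_ ?_ ?_ ?_ ?_ ?_ <;> intro h <;>
    first
    | exact absurd h (by decide)
    | exact ⟨rfl, rfl⟩)

theorem T_rep (n : ℤ) (a b : Cell) : RepE L X n a b := by
  cases h : nz a b with
  | true => exact nz_rep n a b h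
  | false =>
    obtain ⟨h1, h2⟩ := nz_zero (L := L) (X := X) n a b h
    refine ⟨fun h y u _ => ?_⟩
    rw [h1]
    exact rep_of_eq rep_zero (LU_zero h h2 u).symm

/-- the coefficients on homology are 807's table -/
theorem hc_eq (n : ℤ) (a b : Cell) : (TFR T.S X).hc n a b = (L.ry X n).T a b := by
  by_cases h : cdeg b = cdeg a + 1
  · have hs : (TFR T.S X).s a = (TFR T.S X).s b + 1 := by
      change -(cdeg a : ℤ) = -(cdeg b : ℤ) + 1
      omega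
    rw [TF.hc_of _ hs]
    refine LinearMap.ext fun y => ?_
    obtain ⟨u, hu⟩ := IsRep.ex y
    have h1 := hu.map _ ((TFR T.S X).c_ok hs n)
    have h2 := (T_rep (L := L) (X := X) n a b).rep (tab_EB T a b h) y u hu
    refine h1.eq' h2 ?_
    exact LU_ext _ _ (T.tb a b h) u
  · rw [T_zero n a b h]
    refine TF.hc_not _ ?_ n
    change -(cdeg a : ℤ) ≠ -(cdeg b : ℤ) + 1
    omega

/-- **acyclicity of `tot S ⊗ X` for the sixteen right cells**, from 807's bijectivity hypotheses -/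
theorem rtot_ac (two : (2 : K) = 0) (hg : g ≠ 0) (hg1 : g ≠ 1)
    (hS : ∀ n b, b < 3 → Function.Bijective ((L.ry X n).S0 b))
    (hT : ∀ n b, b < 2 → Function.Bijective ((L.ry X n).Th b)) : Ac (tG (tot T.S) X) := by
  refine tot_ac (TF.ac_of_H _ fun m n ζ h0 h1 => ?_)
  exact RY.exactZ (M := L.ry X n) two hg hg1 (hS n) (hT n) ((TFR T.S X).hc n) (hc_eq T n) m ζ h0 h1

end RLt

end Crest.Agent.R186.RX625
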