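import Crest.Agent.R186.KOSZ_296

/-!
Row 186 (A), leaf RC (helper805), part 1: the table of the differential on the letters with the
FIRST letter split off, modulo `J = R'' W_+`: `D l = Σ_l' l' * rcf l' l + yq l`.
First-letter splitting in the right normal form of `KOS_296`.
-/

set_option autoImplicit false

noncomputable section

namespace Crest.Agent.R186.RC805

open Crest.Agent.R186.DefsQ830 Crest.Agent.R186.Cells221
open Crest.Agent.R186.PBW128 (E Y Wb N Ix bv we wq dPx dAx dCx ext_bv we_cons we_nil wq_one)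
open Crest.Agent.R186.Der580
open Crest.Agent.R186.C2b362 (pz J D_J left_J right_J mul_Y_mem_J NZ mem_NZ mem_pz pz_cast pz_neg
  mul_pz D_pz mem_pz_nat cA cdeg_some cP_some)
open Crest.Agent.R186.C2b44 (kill kill_E kill_kill)
open Crest.Agent.R186.KOS296 (Th Th_bv Th_inj Th_surj Th_mem exists_Th nr mem_J_iff_kill)

variable {K : Type} [Field K]

/-! ### the table -/

/-- the coefficient of the first letter `l'` in `D l` -/
def rcf (π : Par K) : E → E → R π
  | .d i, .z j => if i = 0 then (π.c j * π.g) • (X π (.d 1) * X π (.x j))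
      else π.c j • (X π (.d 0) * X π (.x j))
  | .z i, .zc => if i = 0 then π.c 1 • X π (.x 1) else π.c 0 • X π (.x 0)
  | .f, .zc => X π .h
  | .f, .e j => X π (.d j)
  | .d i, .e j => if i = j then π.c j • X π .f else 0
  | .f, .gj j => X π (.z j)
  | .z i, .gj j => if i = j then π.cz j • X π .f else 0
  | .e i, .gj j => if i = 0 then (π.c j * π.g) • (X π (.d 1) * X π (.x j))
      else π.c j • (X π (.d 0) * X π (.x j))
  | .d i, .gj j => if i = 0 then (π.c j * π.g ^ 3) • (X π (.e 1) * X π (.x j))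
      else (π.c j * π.g) • (X π (.e 0) * X π (.x j))
  | .f, .gc => X π .zc
  | .zc, .gc => X π .f
  | .gj i, .gc => if i = 0 then π.c 1 • X π (.x 1) else π.c 0 • X π (.x 0)
  | .u i, .gc => if i = 0 then π.p • X π (.u 1) else X π (.u 0)
  | .d i, .v s => (π.g - 1) • (X π (.x i) * X π (.u s))
  | .u i, .v s => if i = s then tR π + X π .h else 0
  | _, _ => 0

/-- the part of `D l` in `J` -/
def yq (π : Par K) : E → R π
  | .u s => hR π s * X π (.y s)
  | .v s => hR π s * tR π * X π (.yb s)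
  | _ => 0

theorem yq_eq (π : Par K) (l : E) : yq π l = yp π l := by cases l <;> rfl

theorem yq_J (π : Par K) (l : E) : yq π l ∈ J π := by
  rw [yq_eq]; exact C2b362.yp_mem_J l

set_option maxHeartbeats 4000000 in
/-- `D l = Σ_l' l' * rcf l' l + yq l` -/
theorem D_E_r (π : Par K) (l : E) : D π (X π l.toGen) = ∑ l', X π l'.toGen * rcf π l' l + yq π l := by
  have : CharP K 2 := CharTwo.of_one_ne_zero_of_two_eq_zero one_ne_zero π.two
  have g0 := π.g0
  have p0 := π.p0
  rw [D_X, sumE]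
  cases l with
  | d j => simp [E.toGen, dGen, rcf, yq]
  | f => simp [E.toGen, dGen, rcf, yq]
  | z j =>
    revert j
    fin2 <;> (simp [E.toGen, dGen, rcf, yq, mk_L, rF, mul_add]; idR)
  | zc =>
    simp [E.toGen, dGen, rcf, yq, mk_L]; idR
  | u s =>
    revert s
    fin2 <;> simp [E.toGen, dGen, rcf, yq, hs, hR, mk_L]
  | e j =>
    revert j
    fin2 <;> simp [E.toGen, dGen, rcf, yq, mk_L] <;> abel
  | gj j =>
    revert j
    fin2 <;> (simp [E.toGen, dGen, rcf, yq, mk_L, rhoF, mul_add, smul_smul]; idR)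
  | gc =>
    simp [E.toGen, dGen, rcf, yq, mk_L]; idR
  | v s =>
    revert s
    fin2 <;> (simp [E.toGen, dGen, rcf, yq, mk_L, tF, tR, hs, hR, mul_add]; idR)


/-! ### the first letter -/

/-- put a letter in front -/
def cons (K : Type) [Field K] (l : E) : N K →ₗ[K] N K := Finsupp.linearCombination K
  (fun ν : Ix => bv K ν.1 ν.2.1 ν.2.2.1 (l :: ν.2.2.2.1) ν.2.2.2.2)

theorem cons_bv (l : E) (i j k : ℕ) (w : List E) (q : Wb) :
    cons K l (bv K i j k w q) = bv K i j k (l :: w) q := by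
  simp [cons, bv]

/-- remove the first letter `l` -/
def hd (K : Type) [Field K] (l : E) : N K →ₗ[K] N K := Finsupp.linearCombination K
  (fun ν : Ix => match ν.2.2.2.1 with
    | [] => 0
    | l' :: w => if l' = l then bv K ν.1 ν.2.1 ν.2.2.1 w ν.2.2.2.2 else 0)

theorem hd_nil (l : E) (i j k : ℕ) (q : Wb) : hd K l (bv K i j k [] q) = 0 := by
  simp [hd, bv]

theorem hd_bv (l l' : E) (i j k : ℕ) (w : List E) (q : Wb) :
    hd K l (bv K i j k (l' :: w) q) = if l' = l then bv K i j k w q else 0 := by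
  simp [hd, bv]

/-- the part without letters -/
def hd0 (K : Type) [Field K] : N K →ₗ[K] N K := Finsupp.linearCombination K
  (fun ν : Ix => if ν.2.2.2.1 = [] then bv K ν.1 ν.2.1 ν.2.2.1 ν.2.2.2.1 ν.2.2.2.2 else 0)

theorem hd0_nil (i j k : ℕ) (q : Wb) : hd0 K (bv K i j k [] q) = bv K i j k [] q := by
  simp [hd0, bv]

theorem hd0_bv (l' : E) (i j k : ℕ) (w : List E) (q : Wb) :
    hd0 K (bv K i j k (l' :: w) q) = 0 := by
  simp [hd0, bv]

theorem split_N (n : N K) : n = hd0 K n + ∑ l, cons K l (hd K l n) := by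
  have h : LinearMap.id = hd0 K + ∑ l, cons K l ∘ₗ hd K l := by
    apply ext_bv
    intro i j k w q
    rw [LinearMap.add_apply, LinearMap.sum_apply]
    cases w with
    | nil =>
      rw [hd0_nil, Finset.sum_eq_zero, add_zero]
      · rfl
      · intro l _
        rw [LinearMap.comp_apply, hd_nil, map_zero]
    | cons l' w =>
      rw [hd0_bv, zero_add, Finset.sum_eq_single l']
      · rw [LinearMap.comp_apply, hd_bv, if_pos rfl, cons_bv]
        rfl
      · intro l _ hl
        rw [LinearMap.comp_apply, hd_bv, if_neg (Ne.symm hl), map_zero]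
      · intro h
        exact absurd (Finset.mem_univ _) h
  have := LinearMap.congr_fun h n
  rw [LinearMap.add_apply, LinearMap.sum_apply] at this
  exact this

theorem hd_cons (l l' : E) (n : N K) : hd K l' (cons K l n) = if l = l' then n else 0 := by
  have h : hd K l' ∘ₗ cons K l = if l = l' then LinearMap.id else 0 := by
    apply ext_bv
    intro i j k w q
    rw [LinearMap.comp_apply, cons_bv, hd_bv]
    split_ifs <;> rfl
  have := LinearMap.congr_fun h n
  rw [LinearMap.comp_apply] at this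
  rw [this]
  split_ifs <;> rfl

theorem hd0_cons (l : E) (n : N K) : hd0 K (cons K l n) = 0 := by
  have h : hd0 K ∘ₗ cons K l = 0 := by
    apply ext_bv
    intro i j k w q
    rw [LinearMap.comp_apply, cons_bv, hd0_bv]
    rfl
  exact LinearMap.congr_fun h n

theorem Th_cons (π : Par K) (l : E) (n : N K) : Th π (cons K l n) = X π l.toGen * Th π n := by
  have h : Th π ∘ₗ cons K l = LinearMap.mulLeft K (X π l.toGen) ∘ₗ Th π := by
    apply ext_bv
    intro i j k w q
    rw [LinearMap.comp_apply, cons_bv, Th_bv, LinearMap.comp_apply, Th_bv, LinearMap.mulLeft_apply]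
    simp only [nr, we_cons, ← mul_assoc]
    rw [((PBW128.comm_h π l.toGen).pow_left k).eq]
  exact LinearMap.congr_fun h n

/-- the right normal form as a linear equivalence -/
def ThE (π : Par K) : N K ≃ₗ[K] R π := LinearEquiv.ofBijective (Th π)
  ⟨(injective_iff_map_eq_zero _).2 fun _ h => Th_inj π h, fun r => Th_surj π r⟩

theorem ThE_symm (π : Par K) (r : R π) : Th π ((ThE π).symm r) = r := (ThE π).apply_symm_apply r

theorem ThE_symm' (π : Par K) (n : N K) : (ThE π).symm (Th π n) = n := (ThE π).symm_apply_apply n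

/-- the coefficient of the first letter `l` -/
def fl (π : Par K) (l : E) : R π →ₗ[K] R π := Th π ∘ₗ hd K l ∘ₗ (ThE π).symm.toLinearMap

/-- the part without letters -/
def f0 (π : Par K) : R π →ₗ[K] R π := Th π ∘ₗ hd0 K ∘ₗ (ThE π).symm.toLinearMap

theorem fl_Th (π : Par K) (l : E) (n : N K) : fl π l (Th π n) = Th π (hd K l n) := by
  show Th π (hd K l ((ThE π).symm (Th π n))) = _
  rw [ThE_symm']

theorem f0_Th (π : Par K) (n : N K) : f0 π (Th π n) = Th π (hd0 K n) := by
  show Th π (hd0 K ((ThE π).symm (Th π n))) = _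
  rw [ThE_symm']

/-- **first letter splitting** -/
theorem splitR (π : Par K) (r : R π) : r = f0 π r + ∑ l, X π l.toGen * fl π l r := by
  obtain ⟨n, rfl⟩ := Th_surj π r
  conv_lhs => rw [split_N n]
  rw [map_add, map_sum, f0_Th]
  simp only [Th_cons, fl_Th]

theorem fl_X_mul (π : Par K) (l l' : E) (r : R π) :
    fl π l' (X π l.toGen * r) = if l = l' then r else 0 := by
  obtain ⟨n, rfl⟩ := Th_surj π r
  rw [← Th_cons, fl_Th, hd_cons]
  split_ifs
  · rfl
  · rw [map_zero]

theorem f0_X_mul (π : Par K) (l : E) (r : R π) : f0 π (X π l.toGen * r) = 0 := by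
  obtain ⟨n, rfl⟩ := Th_surj π r
  rw [← Th_cons, f0_Th, hd0_cons, map_zero]

/-- **uniqueness of the first-letter coefficients modulo `J`** -/
theorem sum_X_mul_J (π : Par K) (r : E → R π) (h : ∑ l, X π l.toGen * r l ∈ J π) (l : E) :
    r l ∈ J π := by
  rw [mem_J_iff_kill] at h ⊢
  rw [map_sum] at h
  have h1 := congrArg (fl π l) h
  rw [map_sum, map_zero, Finset.sum_eq_single l] at h1
  · rw [map_mul, kill_E, fl_X_mul, if_pos rfl] at h1
    exact h1
  · intro l' _ hl'
    rw [map_mul, kill_E, fl_X_mul, if_neg hl']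
  · intro h'
    exact absurd (Finset.mem_univ _) h'

/-! ### degrees -/

theorem nr_mem_pz (π : Par K) (ν : Ix) : nr π ν ∈ pz π (dPx ν) (dAx ν) (dCx ν) :=
  mem_pz_nat.2 (KOS296.nr_mem_pc π ν)

theorem Th_NZ (π : Par K) {P A C : ℤ} {n : N K} (hn : n ∈ NZ K P A C) : Th π n ∈ pz π P A C := by
  have : NZ K P A C ≤ (pz π P A C).comap (Th π) := by
    rw [NZ, Finsupp.supported_eq_span_single, Submodule.span_le]
    rintro _ ⟨⟨i, j, k, w, q⟩, ⟨h1, h2, h3⟩, rfl⟩
    have := nr_mem_pz π (i, j, k, w, q)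
    show Th π (bv K i j k w q) ∈ pz π P A C
    rw [Th_bv]
    exact pz_cast this h1 h2 h3
  exact this hn

theorem ThE_NZ (π : Par K) {P A C : ℤ} {r : R π} (hr : r ∈ pz π P A C) :
    (ThE π).symm r ∈ NZ K P A C := by
  rcases KOS296.pz_cases π hr with rfl | ⟨A', C', rfl, rfl⟩
  · rw [map_zero]; exact Submodule.zero_mem _
  · obtain ⟨n, hn, rfl⟩ := exists_Th π (mem_pz_nat.1 hr)
    rw [ThE_symm', mem_NZ]
    intro ν hν
    obtain ⟨h1, h2, h3⟩ := PBW128.mem_NS_iff.1 hn ν hν
    exact ⟨h1, by exact_mod_cast h2, by exact_mod_cast h3⟩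

theorem map_NZ {M : Type*} [AddCommGroup M] [Module K M] (φ : N K →ₗ[K] M) (T : Submodule K M)
    {P A C : ℤ} (h : ∀ i j k w q, dPx (i, j, k, w, q) = P → (dAx (i, j, k, w, q) : ℤ) = A →
      (dCx (i, j, k, w, q) : ℤ) = C → φ (bv K i j k w q) ∈ T) {n : N K} (hn : n ∈ NZ K P A C) :
    φ n ∈ T := by
  have : NZ K P A C ≤ T.comap φ := by
    rw [NZ, Finsupp.supported_eq_span_single, Submodule.span_le]
    rintro _ ⟨⟨i, j, k, w, q⟩, ⟨h1, h2, h3⟩, rfl⟩
    exact h i j k w q h1 h2 h3
  exact this hn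

theorem bv_NZ {i j k : ℕ} {w : List E} {q : Wb} {P A C : ℤ} (h1 : dPx (i, j, k, w, q) = P)
    (h2 : (dAx (i, j, k, w, q) : ℤ) = A) (h3 : (dCx (i, j, k, w, q) : ℤ) = C) :
    bv K i j k w q ∈ NZ K P A C :=
  Finsupp.single_mem_supported K _ ⟨h1, h2, h3⟩

theorem hd_NZ (l : E) {P A C : ℤ} {n : N K} (hn : n ∈ NZ K P A C) :
    hd K l n ∈ NZ K (P - l.toGen.dP) (A - l.toGen.dA) (C - l.toGen.dC) := by
  refine map_NZ (hd K l) _ ?_ hn
  intro i j k w q h1 h2 h3
  cases w with
  | nil => rw [hd_nil]; exact Submodule.zero_mem _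
  | cons l' w =>
    rw [hd_bv]
    split_ifs with h
    · subst h
      refine bv_NZ ?_ ?_ ?_
      · rw [← h1]; simp [dPx]; ring
      · rw [← h2]; simp [dAx]; ring
      · rw [← h3]; simp [dCx]; ring
    · exact Submodule.zero_mem _

theorem hd0_NZ {P A C : ℤ} {n : N K} (hn : n ∈ NZ K P A C) : hd0 K n ∈ NZ K P A C := by
  refine map_NZ (hd0 K) _ ?_ hn
  intro i j k w q h1 h2 h3
  cases w with
  | nil => rw [hd0_nil]; exact bv_NZ h1 h2 h3
  | cons l' w => rw [hd0_bv]; exact Submodule.zero_mem _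

theorem fl_mem (π : Par K) (l : E) {P A C : ℤ} {r : R π} (hr : r ∈ pz π P A C) :
    fl π l r ∈ pz π (P - l.toGen.dP) (A - l.toGen.dA) (C - l.toGen.dC) :=
  Th_NZ π (hd_NZ l (ThE_NZ π hr))

theorem f0_mem (π : Par K) {P A C : ℤ} {r : R π} (hr : r ∈ pz π P A C) : f0 π r ∈ pz π P A C :=
  Th_NZ π (hd0_NZ (ThE_NZ π hr))

/-- in positive degree the part without letters lies in `J` -/
theorem f0_mem_J (π : Par K) {P A C : ℤ} (hC : 0 < C) {r : R π} (hr : r ∈ pz π P A C) :
    f0 π r ∈ J π := by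
  refine map_NZ (Th π ∘ₗ hd0 K) (J π) ?_ (ThE_NZ π hr)
  intro i j k w q h1 h2 h3
  rw [LinearMap.comp_apply]
  cases w with
  | nil =>
    rw [hd0_nil, Th_bv, mem_J_iff_kill]
    have hq : q ≠ Wb.one := by
      rintro rfl
      have : dCx (i, j, k, [], Wb.one) = 0 := by simp [dCx, Wb.word, wC]
      rw [this] at h3
      omega
    simp only [nr, map_mul, C2b44.kill_wq, if_neg hq, mul_zero, zero_mul]
  | cons l' w => rw [hd0_bv, map_zero]; exact Submodule.zero_mem _

end Crest.Agent.R186.RC805
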