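import Crest.Agent.R186.SMp_890

/-!
Row 186 (A), leaf (V) (helper339): the central element `h` acts the same way on both sides of `M`.
-/

set_option autoImplicit false

noncomputable section

namespace Crest.Agent.R186.RhoH339

open DefsQ830 DefsQ830.Gen PBW128 SM890

variable {K : Type} [Field K]

/-- right multiplication by `h` on `M` is left multiplication by `h` -/
theorem rho_h (π : Par K) (m : N K) : rho π (X π .h) m = repM π (X π .h) m := by
  have h : rho π (X π .h) = repM π (X π .h) := by
    apply so_ext π
    intro s q
    have e : tau π (Tq π q) (X π .h) = X π .h := by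
      rw [tau_X]
      exact one_smul K _
    rw [rho_repM, e, ← Der580.h_comm, map_mul, Module.End.mul_apply]
  rw [h]

/-- the same in 44's form -/
theorem rM_h (π : Par K) (s : ℕ) (hs : 2 ≤ s) (m : (bdM π s hs).M) :
    (bdM π s hs).rM (X π .h) m = (bdM π s hs).lM (X π .h) m := rho_h π m

end Crest.Agent.R186.RhoH339
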