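import Crest.Agent.R186.FilPr_461
import Crest.Agent.R186.KGen_693

/-!
# Row 186, S0281 base, LCQ s = 0 (helper461): the pair `(K₁-rows, (Fil (k-1))²)` on `Fin 2 → Op K`

`rowPr hg : LC369.Pr K g (Fin 2 → Op K)`, `rowPr_DS`, `rowPr_XS`, `rowPr_LX`.
-/

set_option autoImplicit false

namespace Crest.Agent.R186.B281.Sym461

open PBWD633

variable {K : Type} [Field K] {g : K}

/-- the `K₁`-rows: `a, b ∈ Fil k P`, `a x₀ + b x₁ ∈ Fil (k-1) (P+1)` -/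
noncomputable def Rw (g : K) (k P : ℤ) : Submodule K (Fin 2 → Op K) where
  carrier := {v | v 0 ∈ Fil g k P ∧ v 1 ∈ Fil g k P ∧ v 0 * X 0 + v 1 * X 1 ∈ Fil g (k - 1) (P + 1)}
  zero_mem' := ⟨zero_mem _, zero_mem _, by
    show (0 : Op K) * X 0 + 0 * X 1 ∈ _
    rw [zero_mul, zero_mul, add_zero]
    exact zero_mem _⟩
  add_mem' := fun {v w} hv hw => ⟨add_mem hv.1 hw.1, add_mem hv.2.1 hw.2.1, by
    have := add_mem hv.2.2 hw.2.2
    show (v 0 + w 0) * X 0 + (v 1 + w 1) * X 1 ∈ _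
    convert this using 1
    rw [add_mul, add_mul]
    abel⟩
  smul_mem' := fun t v hv => ⟨Submodule.smul_mem _ t hv.1, Submodule.smul_mem _ t hv.2.1, by
    have := Submodule.smul_mem _ t hv.2.2
    show (t • v 0) * X 0 + (t • v 1) * X 1 ∈ _
    convert this using 1
    rw [smul_mul_assoc, smul_mul_assoc, smul_add]⟩

/-- pairs of operators -/
noncomputable def Fp (g : K) (k P : ℤ) : Submodule K (Fin 2 → Op K) :=
  Submodule.pi Set.univ (fun _ => Fil g k P)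

theorem mem_Rw {k P : ℤ} {v : Fin 2 → Op K} : v ∈ Rw g k P ↔
    v 0 ∈ Fil g k P ∧ v 1 ∈ Fil g k P ∧ v 0 * X 0 + v 1 * X 1 ∈ Fil g (k - 1) (P + 1) :=
  Iff.rfl

theorem mem_Fp {k P : ℤ} {v : Fin 2 → Op K} : v ∈ Fp g k P ↔ v 0 ∈ Fil g k P ∧ v 1 ∈ Fil g k P := by
  simp only [Fp, Submodule.mem_pi, Set.mem_univ, forall_true_left, Fin.forall_fin_two]

/-- right multiplication by `x_i` -/
theorem mulX_mem (hg : Gen g) (i : Fin 2) {k P : ℤ} {T : Op K} (hT : T ∈ Fil g k P) :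
    T * X i ∈ Fil g k (P + 1) := by
  have h1 : (X i : Op K) ∈ Fil g 0 1 := by
    refine Submodule.subset_span ?_
    fin_cases i
    · exact ⟨(1, 0), (0, 0), by simp, by simp, by simp [mon]⟩
    · exact ⟨(0, 1), (0, 0), by simp, by simp, by simp [mon]⟩
  have := FD757.Fil_mul hg hT h1
  rwa [add_zero] at this

section ring

variable {K : Type*} [Field K] {R : Type*} [Ring R] [Algebra K R]

theorem c_left (T a b x y : R) : T * a * x + T * b * y = T * (a * x + b * y) := by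
  rw [mul_add, mul_assoc, mul_assoc]

theorem c_sub {A : Submodule K R} {a b a' b' x y : R} (h1 : (a - a') * x ∈ A)
    (h2 : (b - b') * y ∈ A) (h : a * x + b * y ∈ A) : a' * x + b' * y ∈ A := by
  have h3 := sub_mem (sub_mem h h1) h2
  have h4 : a * x + b * y - (a - a') * x - (b - b') * y = a' * x + b' * y := by
    rw [sub_mul, sub_mul]; abel
  rwa [h4] at h3

end ring

theorem Rw_le (hg : Gen g) {k P : ℤ} {u : Fin 2 → Op K} (hu : u ∈ Fp g (k - 1) P) :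
    u ∈ Rw g k P := by
  obtain ⟨h0, h1⟩ := mem_Fp.1 hu
  exact ⟨Fil_mono hg (by omega) P h0, Fil_mono hg (by omega) P h1,
    add_mem (mulX_mem hg 0 h0) (mulX_mem hg 1 h1)⟩

/-- left multiplication of pairs -/
noncomputable def lp (T : Op K) : (Fin 2 → Op K) →ₗ[K] (Fin 2 → Op K) :=
  LinearMap.pi fun j => (LinearMap.mulLeft K T).comp (LinearMap.proj j)

theorem lp_apply (T : Op K) (u : Fin 2 → Op K) (j : Fin 2) : lp T u j = T * u j := rfl

theorem Fp_X (hg : Gen g) (i : Fin 2) {k P : ℤ} {u : Fin 2 → Op K} (hu : u ∈ Fp g k P) :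
    lp (X i) u ∈ Fp g k (P + 1) := by
  rw [mem_Fp] at hu ⊢
  exact ⟨X_mem hg i hu.1, X_mem hg i hu.2⟩

theorem Fp_D (hg : Gen g) (i : Fin 2) {k P : ℤ} {u : Fin 2 → Op K} (hu : u ∈ Fp g k P) :
    lp (D g i) u ∈ Fp g (k + 1) (P - 1) := by
  rw [mem_Fp] at hu ⊢
  exact ⟨D_mem hg i hu.1, D_mem hg i hu.2⟩

theorem Rw_X (hg : Gen g) (i : Fin 2) {k P : ℤ} {u : Fin 2 → Op K} (hu : u ∈ Rw g k P) :
    lp (X i) u ∈ Rw g k (P + 1) := by
  rw [mem_Rw] at hu ⊢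
  refine ⟨X_mem hg i hu.1, X_mem hg i hu.2.1, ?_⟩
  rw [lp_apply, lp_apply, c_left]
  exact X_mem hg i hu.2.2

theorem Rw_D (hg : Gen g) (i : Fin 2) {k P : ℤ} {u : Fin 2 → Op K} (hu : u ∈ Rw g k P) :
    lp (D g i) u ∈ Rw g (k + 1) (P - 1) := by
  rw [mem_Rw] at hu ⊢
  refine ⟨D_mem hg i hu.1, D_mem hg i hu.2.1, ?_⟩
  rw [lp_apply, lp_apply, c_left]
  have := D_mem hg i hu.2.2
  rwa [show k - 1 + 1 = k + 1 - 1 by ring, show P + 1 - 1 = P - 1 + 1 by ring] at this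

/-- the map `e ↦ (e x₁, - e x₀)` -/
noncomputable def kap (e : Op K) : Fin 2 → Op K := ![e * X 1, -(e * X 0)]

theorem kap_zero' (e : Op K) : kap e 0 = e * X 1 := rfl
theorem kap_one' (e : Op K) : kap e 1 = -(e * X 0) := rfl

section ring

variable {R : Type*} [Ring R]

theorem kap_c (e x y : R) (h : x * y = y * x) : e * y * x + -(e * x) * y = 0 := by
  rw [neg_mul, mul_assoc, mul_assoc, h, add_neg_cancel]

end ring

theorem kap_mem (hg : Gen g) {k P : ℤ} {e : Op K} (he : e ∈ Fil g k (P - 1)) :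
    kap e ∈ Rw g k P := by
  have h0 := mulX_mem hg 0 he
  have h1 := mulX_mem hg 1 he
  rw [sub_add_cancel] at h0 h1
  refine ⟨h1, neg_mem h0, ?_⟩
  rw [kap_zero', kap_one', kap_c e (X 0) (X 1) (X_comm 0 1)]
  exact zero_mem _

/-- generation: `Rw = kap(Fil k (P-1)) + Fp (k-1) P` -/
theorem kap_gen (hg : Gen g) {k P : ℤ} {u : Fin 2 → Op K} (hu : u ∈ Rw g k P) :
    ∃ e ∈ Fil g k (P - 1), u - kap e ∈ Fp g (k - 1) P := by
  obtain ⟨a, ha, b, hb, e, he, h1, h2⟩ := kgen hg 1 k P (u 0) (u 1) hu.1 hu.2.1 (by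
    have := hu.2.2
    push_cast
    exact this)
  push_cast at ha hb
  refine ⟨e, he, ?_⟩
  rw [mem_Fp, Pi.sub_apply, Pi.sub_apply, kap_zero', kap_one', h1, h2]
  constructor
  · have h3 : a + e * X 1 - e * X 1 = a := by abel
    rw [h3]; exact ha
  · have h3 : b - e * X 0 - -(e * X 0) = b := by abel
    rw [h3]; exact hb

theorem kap_Fp (hg : Gen g) {k P : ℤ} {e : Op K} (he : e ∈ Fil g k P) :
    kap e ∈ Fp g k (P + 1) := by
  rw [mem_Fp]
  exact ⟨mulX_mem hg 1 he, neg_mem (mulX_mem hg 0 he)⟩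

section ring

variable {R : Type*} [Ring R]

theorem kap_id (e s t a b y : R) : (e - (s * a - t * b)) * y = e * y - (s * (a * y) - t * (b * y)) := by
  noncomm_ring

theorem kap_id' (e s t a b x : R) :
    -((e - (s * a - t * b)) * x) = -(e * x) - (s * -(a * x) - t * -(b * x)) := by
  noncomm_ring

end ring

theorem kap_lin (e s t a b : Op K) :
    kap (e - (s * a - t * b)) = kap e - (lp s (kap a) - lp t (kap b)) := by
  funext j
  fin_cases j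
  · exact kap_id e s t a b (X 1)
  · exact kap_id' e s t a b (X 0)

/-- the pair `(K₁-rows, (Fil (k-1))²)` -/
noncomputable def rowPr (hg : Gen g) : LC369.Pr K g (Fin 2 → Op K) where
  x i := lp (X i)
  d i := lp (D g i)
  xx u := funext fun j => (filPr hg).xx (u j)
  xd0 i u := funext fun j => (filPr hg).xd0 i (u j)
  xd1 i l u hil := funext fun j => (filPr hg).xd1 i l (u j) hil
  L k P := Rw g k P
  L' k P := Fp g (k - 1) P
  le k P u hu := Rw_le hg hu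
  h k P u hu := by
    rw [add_sub_cancel_right, mem_Fp]
    exact ⟨hu.1, hu.2.1⟩
  xL i k P u hu := Rw_X hg i hu
  xL' i k P u hu := Fp_X hg i hu
  dL i k P u hu := Rw_D hg i hu
  dL' i k P u hu := by
    have h := Fp_D hg i hu
    rw [sub_add_cancel] at h
    rw [add_sub_cancel_right]
    exact h
  XK k P u v hu hv h := by
    rw [mem_Fp] at h
    obtain ⟨w0, hw0, hu0, hv0⟩ := XK hg hu.1 hv.1 h.1
    obtain ⟨w1, hw1, hu1, hv1⟩ := XK hg hu.2.1 hv.2.1 h.2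
    refine ⟨![w0, w1], ⟨hw0, hw1, ?_⟩, mem_Fp.2 ⟨hu0, hu1⟩, mem_Fp.2 ⟨hv0, hv1⟩⟩
    show w0 * X 0 + w1 * X 1 ∈ Fil g (k - 1) (P - 1 + 1)
    rw [sub_add_cancel]
    have h1 := add_mem (mulX_mem hg 0 hw0) (mulX_mem hg 1 hw1)
    refine XI hg 0 h1 ?_
    rw [← c_left]
    exact c_sub (mulX_mem hg 0 hu0) (mulX_mem hg 1 hu1) hu.2.2
  XI k P u hu h := by
    rw [mem_Fp] at h ⊢
    exact ⟨XI hg 1 hu.1 h.1, XI hg 1 hu.2.1 h.2⟩
  DK k P u v hu hv h := by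
    rw [add_sub_cancel_right, mem_Fp] at h
    obtain ⟨w0, hw0, hu0, hv0⟩ := DK hg hu.1 hv.1 h.1
    obtain ⟨w1, hw1, hu1, hv1⟩ := DK hg hu.2.1 hv.2.1 h.2
    refine ⟨![w0, w1], ⟨hw0, hw1, ?_⟩, mem_Fp.2 ⟨hu0, hu1⟩, mem_Fp.2 ⟨hv0, hv1⟩⟩
    show w0 * X 0 + w1 * X 1 ∈ Fil g (k - 1 - 1) (P + 1 + 1)
    have h1 := add_mem (mulX_mem hg 0 hw0) (mulX_mem hg 1 hw1)
    refine DI hg 1 h1 ?_
    rw [← c_left, sub_add_cancel, add_sub_cancel_right]
    exact c_sub (mulX_mem hg 0 hu0) (mulX_mem hg 1 hu1) hu.2.2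
  DI k P u hu h := by
    rw [add_sub_cancel_right, mem_Fp] at h
    rw [mem_Fp]
    refine ⟨DI hg 0 (k := k - 1) hu.1 ?_, DI hg 0 (k := k - 1) hu.2.1 ?_⟩
    · rw [sub_add_cancel]; exact h.1
    · rw [sub_add_cancel]; exact h.2

theorem rowPr_x (hg : Gen g) (i : Fin 2) (u : Fin 2 → Op K) (j : Fin 2) :
    (rowPr hg).x i u j = X i * u j := rfl
theorem rowPr_d (hg : Gen g) (i : Fin 2) (u : Fin 2 → Op K) (j : Fin 2) :
    (rowPr hg).d i u j = D g i * u j := rfl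
theorem rowPr_L (hg : Gen g) (k P : ℤ) : (rowPr hg).L k P = Rw g k P := rfl
theorem rowPr_L' (hg : Gen g) (k P : ℤ) : (rowPr hg).L' k P = Fp g (k - 1) P := rfl

theorem rowPr_DS (hg : Gen g) {k : ℤ} (hk : k ≠ 0) : (rowPr hg).DS k := by
  intro P w hw
  obtain ⟨e, he, h⟩ := kap_gen hg hw
  obtain ⟨a, ha, b, hb, h1⟩ := filPr_DS hg hk (P - 1) e he
  rw [sub_add_cancel] at ha hb
  have ha' : a ∈ Fil g (k - 1) (P + 1 - 1) := by rw [add_sub_cancel_right]; exact ha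
  have hb' : b ∈ Fil g (k - 1) (P + 1 - 1) := by rw [add_sub_cancel_right]; exact hb
  refine ⟨kap a, kap_mem hg ha', kap b, kap_mem hg hb', ?_⟩
  have h2 := kap_Fp hg h1
  rw [sub_add_cancel] at h2
  have h3 := add_mem h h2
  have h4 : kap (e - ((filPr hg).d 0 a - (filPr hg).d 1 b)) =
      kap e - ((rowPr hg).d 0 (kap a) - (rowPr hg).d 1 (kap b)) := kap_lin e (D g 0) (D g 1) a b
  rw [h4, sub_add_sub_cancel] at h3
  exact h3

theorem rowPr_XS (hg : Gen g) {k P : ℤ} (hk : P - 1 + k ≠ 0 ∨ k < 0) : (rowPr hg).XS k P := by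
  intro w hw
  obtain ⟨e, he, h⟩ := kap_gen hg hw
  obtain ⟨a, ha, b, hb, h1⟩ := filPr_XS hg hk e he
  refine ⟨kap a, kap_mem hg ha, kap b, kap_mem hg hb, ?_⟩
  have h2 := kap_Fp hg h1
  rw [sub_add_cancel] at h2
  have h3 := add_mem h h2
  have h4 : kap (e - ((filPr hg).x 0 a - (filPr hg).x 1 b)) =
      kap e - ((rowPr hg).x 0 (kap a) - (rowPr hg).x 1 (kap b)) := kap_lin e (X 0) (X 1) a b
  rw [h4, sub_add_sub_cancel] at h3
  exact h3

/-- `LX b k P` for `b ≤ k - 1`, `P + 1 + b ≠ 0 ∨ b < 0` -/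
theorem rowPr_LX (hg : Gen g) {b k P : ℤ} (hb : b ≤ k - 1) (hP : P + 1 + b ≠ 0 ∨ b < 0) :
    (rowPr hg).LX b k P := by
  intro m hm
  obtain ⟨u0, hu0, v0, hv0, h0⟩ := filPr_LX hg hb hP (m 0) hm.1
  obtain ⟨u1, hu1, v1, hv1, h1⟩ := filPr_LX hg hb hP (m 1) hm.2.1
  exact ⟨![u0, u1], mem_Fp.2 ⟨hu0, hu1⟩, ![v0, v1], mem_Fp.2 ⟨hv0, hv1⟩, mem_Fp.2 ⟨h0, h1⟩⟩

end Crest.Agent.R186.B281.Sym461
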