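import Crest.Agent.R186.Cells1_221
import Crest.Agent.R186.Loc2_261

/-!
# Row 186, half (A), leaf C3 (helper735), part 1: the right action of `R''` on `R'' ⊗ Q^*`

`lp π` = the parameters of the local algebra `Q = Loc261.Q (lp π)` (letters `x ↔ y 0`, `x' ↔ y 1`,
`a ↔ yb 0`, `b ↔ yb 1`).  `EQ g`, `MQ g` are the rescaled skew derivation and multiplication by `g`.
`Dl : R π →ₐ[K] R π ⊗ End Q` kills the `W`-letters; `th = Σ_g y_g ⊗ MQ g`;
`(D ⊗ 1) (Dl r) + th * Dl r + Dl r * th = Dl (D r)` (`Dl_D`), `th * th = 0` (`th_th`).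
-/

set_option autoImplicit false

namespace Crest.Agent.R186.VQ735

open Crest.Agent.R186.VOp220 Crest.Agent.R186.DefsQ830 Crest.Agent.R186.Vmod220
open Crest.Agent.R186.Cells221 Crest.Agent.R186.Der580
open Crest.Agent.R186.PBW128 (E)
open Crest.Agent.R186.Loc261 (Lt li sc Q_ind wt)
open TensorProduct

variable {K : Type} [Field K] (π : Par K)

/-- the local parameters -/
noncomputable def lp : Loc261.Par K := ⟨π.p, π.q1, π.q2, π.p0, π.q10, π.q20⟩

theorem lp_ind : (lp π).Ind := π.ind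

/-- the local algebra -/
abbrev Q : Type := Loc261.Q (lp π)

/-- diagonal operators on `Q` -/
noncomputable def SC (s : Lt → K) : Module.End K (Q π) := (sc (lp π) s).toLinearMap

@[simp] theorem SC_apply (s : Lt → K) (u : Q π) : SC π s u = sc (lp π) s u := rfl

theorem SC_mul (s t : Lt → K) : SC π s * SC π t = SC π (fun l => s l * t l) := by
  ext u
  exact Loc261.sc_sc _ _ _ _

theorem SC_one : SC π (fun _ => 1) = 1 := by
  ext u
  show sc (lp π) (fun _ => 1) u = u
  induction u using Q_ind (lp π) with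
  | one => simp
  | add u v hu hv => simp only [map_add, hu, hv]
  | smul r u hu => simp only [map_smul, hu]
  | mul g u hu => simp [hu]

theorem SC_comm (s t : Lt → K) : SC π s * SC π t = SC π t * SC π s := by
  rw [SC_mul, SC_mul]; congr 1; funext l; ring

theorem SC_congr {s t : Lt → K} (h : ∀ l, s l = t l) : SC π s = SC π t := by
  congr 1; funext l; exact h l

/-- rescaled derivation -/
noncomputable def EQ (g : Lt) : Module.End K (Q π) :=
  (lp π).chi g g • (Loc261.D (lp π) g * SC π (fun l => ((lp π).chi g l)⁻¹))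

/-- rescaled multiplication -/
noncomputable def MQ (g : Lt) : Module.End K (Q π) :=
  LinearMap.mulLeft K (li (lp π) g) * SC π (fun l => (lp π).chi l g)

theorem EQ_apply (g : Lt) (u : Q π) : EQ π g u =
    (lp π).chi g g • Loc261.D (lp π) g (sc (lp π) (fun l => ((lp π).chi g l)⁻¹) u) := rfl

theorem MQ_apply (g : Lt) (u : Q π) : MQ π g u =
    li (lp π) g * sc (lp π) (fun l => (lp π).chi l g) u := rfl

theorem EQ_SC (g : Lt) (s : Lt → K) : EQ π g * SC π s = s g • (SC π s * EQ π g) := by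
  ext u
  simp only [Module.End.mul_apply, LinearMap.smul_apply, EQ_apply, SC_apply]
  rw [Loc261.sc_comm, Loc261.D_sc, map_smul, smul_comm]

theorem SC_EQ (g : Lt) (s : Lt → K) (hs : s g ≠ 0) :
    SC π s * EQ π g = (s g)⁻¹ • (EQ π g * SC π s) := by
  rw [EQ_SC, smul_smul, inv_mul_cancel₀ hs, one_smul]

theorem SC_MQ (g : Lt) (s : Lt → K) : SC π s * MQ π g = s g • (MQ π g * SC π s) := by
  ext u
  simp only [Module.End.mul_apply, LinearMap.smul_apply, MQ_apply, SC_apply]
  rw [map_mul, Loc261.sc_li, smul_mul_assoc, Loc261.sc_comm]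

/-- `E_g m_g' + m_g' E_g = δ χ(-, g)` -/
theorem EQ_MQ (g g' : Lt) : EQ π g * MQ π g' + MQ π g' * EQ π g =
    if g = g' then SC π (fun l => (lp π).chi l g) else 0 := by
  have h2 : (2 : K) = 0 := π.two
  have hadd : ∀ u : Q π, u + u = 0 := fun u => by rw [← two_smul K, h2, zero_smul]
  have hc : ∀ g l, (lp π).chi g l ≠ 0 := fun g l => (lp π).chi_ne g l
  apply LinearMap.ext
  intro u
  simp only [LinearMap.add_apply, Module.End.mul_apply, EQ_apply, MQ_apply, map_mul, Loc261.sc_li,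
    smul_mul_assoc, map_smul, Loc261.D_mul]
  rw [Loc261.sc_comm (lp π) (fun l => ((lp π).chi g l)⁻¹) (fun l => (lp π).chi l g'), Loc261.D_sc,
    mul_smul_comm]
  by_cases h : g = g'
  · subst h
    rw [if_pos rfl, if_pos rfl]
    rw [smul_add, smul_add, smul_smul, smul_smul, smul_smul, mul_inv_cancel₀ (hc g g), one_mul,
      one_smul]
    rw [add_right_comm, hadd, zero_add]
    show sc (lp π) _ (sc (lp π) _ (sc (lp π) _ u)) = sc (lp π) _ u
    rw [Loc261.sc_comm (lp π) (fun l => (lp π).chi l g), Loc261.sc_sc, Loc261.sc_sc]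
    congr 2
    funext l
    rw [mul_inv_cancel₀ (hc g l), one_mul]
  · rw [if_neg h, if_neg h, add_zero, smul_smul, smul_smul, LinearMap.zero_apply]
    rw [mul_assoc, inv_mul_cancel₀ (hc g g'), mul_one]
    exact hadd _

theorem EQ_EQ : EQ π .x' * EQ π .x = π.p • (EQ π .x * EQ π .x') := by
  have hp := π.p0
  have e1 : (lp π).chi .x' .x' = π.p⁻¹ := by
    show π.p ^ (-1 : ℤ) = _
    rw [zpow_neg_one]
  have e2 : (lp π).chi .x .x = π.p := Loc261.Par.chi_x_x _
  have e3 : (lp π).chi .x .x' = π.p⁻¹ := Loc261.Par.chi_x_x' _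
  have e4 : (lp π).chi .x' .x = π.p := Loc261.Par.chi_x'_x _
  ext u
  simp only [LinearMap.smul_apply, Module.End.mul_apply, EQ_apply, map_smul]
  have hD : ∀ (g : Lt) (s : Lt → K) (v : Q π), s g ≠ 0 →
      sc (lp π) s (Loc261.D (lp π) g v) = (s g)⁻¹ • Loc261.D (lp π) g (sc (lp π) s v) := by
    intro g s v hs
    rw [Loc261.D_sc, smul_smul, inv_mul_cancel₀ hs, one_smul]
  rw [hD .x _ _ (by rw [e4]; exact inv_ne_zero hp), hD .x' _ _ (by rw [e3]; exact inv_ne_zero (inv_ne_zero hp))]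
  rw [map_smul, map_smul, Loc261.D_D]
  rw [Loc261.sc_comm (lp π) (fun l => ((lp π).chi Lt.x' l)⁻¹) (fun l => ((lp π).chi Lt.x l)⁻¹)]
  simp only [smul_smul, e1, e2, e3, e4]
  congr 1
  show π.p * (π.p⁻¹ * π.p⁻¹⁻¹) = π.p * (π.p⁻¹ * (π.p * (π.p⁻¹⁻¹⁻¹ * π.p)))
  field_simp

theorem MQ_MQ : MQ π .x * MQ π .x' = π.p • (MQ π .x' * MQ π .x) := by
  have hp := π.p0
  have e3 : (lp π).chi .x .x' = π.p⁻¹ := Loc261.Par.chi_x_x' _
  have e4 : (lp π).chi .x' .x = π.p := Loc261.Par.chi_x'_x _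
  ext u
  simp only [LinearMap.smul_apply, Module.End.mul_apply, MQ_apply, map_mul, Loc261.sc_li, e3, e4,
    smul_mul_assoc, mul_smul_comm, ← mul_assoc, Loc261.rel]
  rw [Loc261.sc_comm (lp π) (fun l => (lp π).chi l Lt.x')]
  rfl


/-! ### the algebra `R'' ⊗ End Q` -/

abbrev A2 : Type := R π ⊗[K] Module.End K (Q π)

theorem a2_self (a : A2 π) : a + a = 0 := by
  rw [← two_smul K, π.two, zero_smul]

/-- diagonal operator `c^|q|` -/
noncomputable def scl (c : K) : Module.End K (Q π) := SC π (fun _ => c)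

/-- `χ_s`: the product of the `c l`, resp. its inverse -/
noncomputable def CH (s : Fin 2) : Module.End K (Q π) := SC π (fun l => sg ((lp π).c l) s)

/-- the letter of `Q` of `u s` -/
def lu (s : Fin 2) : Lt := if s = 0 then .x else .x'
/-- the letter of `Q` of `v s` -/
def lv (s : Fin 2) : Lt := if s = 0 then .a else .b

/-- images of the letters -/
noncomputable def dl : Gen → A2 π
  | .x i => X π (.x i) ⊗ₜ scl π (π.c i)⁻¹
  | .h => X π .h ⊗ₜ 1
  | .d j => X π (.d j) ⊗ₜ scl π (π.c j)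
  | .f => X π .f ⊗ₜ 1
  | .z j => X π (.z j) ⊗ₜ scl π (π.cz j)
  | .zc => X π .zc ⊗ₜ 1
  | .u s => X π (.u s) ⊗ₜ CH π s + hR π s ⊗ₜ EQ π (lu s)
  | .e j => X π (.e j) ⊗ₜ scl π (π.c j)
  | .gj j => X π (.gj j) ⊗ₜ scl π (π.cz j)
  | .gc => X π .gc ⊗ₜ 1
  | .v s => X π (.v s) ⊗ₜ CH π s + (hR π s * tR π) ⊗ₜ EQ π (lv s)
  | .y _ => 0
  | .yb _ => 0

noncomputable def dlF : F K →ₐ[K] A2 π := FreeAlgebra.lift K (dl π)

@[simp] theorem dlF_L (a : Gen) : dlF π (L K a) = dl π a := by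
  simp [dlF, L]

theorem scl_mul (c d : K) : scl π c * scl π d = scl π (c * d) := SC_mul π _ _

theorem scl_one : scl π 1 = 1 := SC_one π

theorem scl_CH (c : K) (s : Fin 2) : scl π c * CH π s = CH π s * scl π c := SC_comm π _ _

theorem scl_EQ (c : K) (hc : c ≠ 0) (g : Lt) : scl π c * EQ π g = c⁻¹ • (EQ π g * scl π c) :=
  SC_EQ π g _ hc

theorem c_ne (i : Fin 2) : π.c i ≠ 0 := by
  rcases f2 i with rfl | rfl
  · rw [c0]; exact pow_ne_zero _ π.g0
  · rw [c1]; exact π.g0

theorem cz_ne (i : Fin 2) : π.cz i ≠ 0 := by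
  rcases f2 i with rfl | rfl
  · rw [cz_zero]; exact π.g0
  · rw [cz_one]; exact pow_ne_zero _ π.g0

theorem scl_c (i : Fin 2) : scl π (π.c i)⁻¹ * scl π (π.c i) = 1 := by
  rw [scl_mul, inv_mul_cancel₀ (c_ne π i), scl_one]

theorem scl_c' (i : Fin 2) : scl π (π.c i) * scl π (π.c i)⁻¹ = 1 := by
  rw [scl_mul, mul_inv_cancel₀ (c_ne π i), scl_one]

theorem scl_comm (c d : K) : scl π c * scl π d = scl π d * scl π c := SC_comm π _ _

theorem h_a2 (a : A2 π) : (X π .h ⊗ₜ[K] (1 : Module.End K (Q π))) * a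
    = a * (X π .h ⊗ₜ[K] (1 : Module.End K (Q π))) := by
  induction a using TensorProduct.induction_on with
  | zero => simp
  | tmul r T => rw [Algebra.TensorProduct.tmul_mul_tmul, Algebra.TensorProduct.tmul_mul_tmul,
      h_comm, one_mul, mul_one]
  | add a b ha hb => rw [mul_add, add_mul, ha, hb]

theorem x_hR (i s : Fin 2) : X π (.x i) * hR π s = hR π s * X π (.x i) := by
  rcases f2 s with rfl | rfl
  · exact (h_comm π _).symm
  · show X π (.x i) * (X π .h * X π .h) = (X π .h * X π .h) * X π (.x i)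
    rw [← mul_assoc, ← h_comm, mul_assoc, ← h_comm]

theorem x_tR (i : Fin 2) : X π (.x i) * tR π = π.g • (tR π * X π (.x i)) := by
  have : CharP K 2 := CharTwo.of_one_ne_zero_of_two_eq_zero one_ne_zero π.two
  have g0 := π.g0
  simp only [tR]
  revert i
  fin2 <;> idR

theorem x_ht (i s : Fin 2) : X π (.x i) * (hR π s * tR π) = π.g • (hR π s * tR π * X π (.x i)) := by
  rw [← mul_assoc, x_hR, mul_assoc, x_tR, mul_smul_comm, mul_assoc]

/-- normal form of scalars in `A2` -/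
macro "nt" : tactic => `(tactic| simp only [map_mul, map_add, map_smul, map_zero, dlF_L, dl,
  Algebra.TensorProduct.tmul_mul_tmul, mul_add, add_mul, TensorProduct.smul_tmul',
  TensorProduct.tmul_smul, mul_one, one_mul, smul_add, mul_zero, zero_mul, smul_zero, add_zero,
  zero_add])

theorem dlF_rel {a b : F K} (hab : Rel π a b) : dlF π a = dlF π b := by
  have g0 := π.g0
  induction hab with
  | xx => nt; rw [scl_comm, r_xx]
  | hc a =>
    rw [map_mul, map_mul, dlF_L, dlF_L]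
    exact h_a2 π _
  | x0d0 => nt; rw [scl_c, scl_c', r_x0d0, TensorProduct.add_tmul]
  | x0d1 => nt; rw [scl_comm, r_x0d1]
  | x1d0 => nt; rw [scl_comm, r_x1d0]
  | x1d1 => nt; rw [scl_c, scl_c', scl_c', r_x1d1, TensorProduct.add_tmul, TensorProduct.add_tmul]
  | xf i => nt; rw [r_xf]
  | xz i j => nt; rw [scl_comm, r_xz]
  | xzc i => nt; rw [r_xzc]
  | xu i s =>
    nt
    rw [r_xu, x_hR, scl_CH, scl_EQ _ _ (inv_ne_zero (c_ne π i)), inv_inv, TensorProduct.tmul_smul,
      TensorProduct.smul_tmul']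
  | x0e j => nt; rw [scl_comm, r_x0e]
  | x1e0 => nt; rw [scl_comm, r_x1e0]
  | x1e1 => nt; rw [scl_c, scl_c', scl_c', r_x1e1, TensorProduct.add_tmul]
  | xgj i j => nt; rw [scl_comm, r_xgj]
  | xgc i => nt; rw [r_xgc]
  | xv i s =>
    nt
    rw [r_xv, x_ht, scl_CH, scl_EQ _ _ (inv_ne_zero (c_ne π i)), inv_inv, TensorProduct.tmul_smul,
      TensorProduct.smul_tmul', smul_smul, mul_comm (π.c i)]
  | _ => nt

/-- **the right action of `R''` on `R'' ⊗ Q^*`** -/
noncomputable def Dl : R π →ₐ[K] A2 π :=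
  RingQuot.liftAlgHom K ⟨dlF π, fun _ _ h => dlF_rel π h⟩

@[simp] theorem Dl_mk (a : F K) : Dl π (mk π a) = dlF π a := by
  simp [Dl, DefsQ830.mk]

@[simp] theorem Dl_X (a : Gen) : Dl π (X π a) = dl π a := by
  rw [X, Dl_mk, dlF_L]


/-! ### the differential -/

/-- `D ⊗ 1` -/
noncomputable def DA : A2 π →ₗ[K] A2 π := LinearMap.rTensor _ (Der580.D π)

@[simp] theorem DA_tmul (r : R π) (T : Module.End K (Q π)) :
    DA π (r ⊗ₜ T) = Der580.D π r ⊗ₜ T := rfl

theorem DA_mul (a b : A2 π) : DA π (a * b) = DA π a * b + a * DA π b := by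
  induction a using TensorProduct.induction_on with
  | zero => simp
  | add a a' ha ha' => simp only [add_mul, map_add, ha, ha']; abel
  | tmul r T =>
    induction b using TensorProduct.induction_on with
    | zero => simp
    | add b b' hb hb' => simp only [mul_add, map_add, hb, hb']; abel
    | tmul r' T' =>
      simp only [Algebra.TensorProduct.tmul_mul_tmul, DA_tmul, Der580.D_mul, TensorProduct.add_tmul]

/-- the letters of `W` in `R''` -/
noncomputable def yl (g : Lt) : R π :=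
  match g with
  | .x => X π (.y 0)
  | .x' => X π (.y 1)
  | .a => X π (.yb 0)
  | .b => X π (.yb 1)

theorem D_yl (g : Lt) : Der580.D π (yl π g) = 0 := by
  cases g <;> simp [yl, D_X, dGen]

theorem y10_yl : yl π .x' * yl π .x = π.p • (yl π .x * yl π .x') := r_y10 π

theorem yl_yl (g g' : Lt) (h : ¬ (g = .x ∧ g' = .x')) (h' : ¬ (g = .x' ∧ g' = .x)) :
    yl π g * yl π g' = 0 := by
  cases g <;> cases g' <;>
    first
    | exact absurd ⟨rfl, rfl⟩ h
    | exact absurd ⟨rfl, rfl⟩ h'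
    | exact r_yy π _
    | exact r_yyb π _ _
    | exact r_yby π _ _
    | exact r_ybyb π _ _

/-- sum over the four letters -/
theorem sumL {M : Type*} [AddCommMonoid M] (F : Lt → M) : ∑ g, F g = F .x + F .a + F .x' + F .b := by
  have h : (Finset.univ : Finset Lt) = {.x, .a, .x', .b} := by decide
  rw [h, Finset.sum_insert (by decide), Finset.sum_insert (by decide),
    Finset.sum_insert (by decide), Finset.sum_singleton]
  simp only [add_assoc]

/-- `θ = Σ_g y_g ⊗ m_g` -/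
noncomputable def th : A2 π := ∑ g, yl π g ⊗ₜ MQ π g

theorem DA_th : DA π (th π) = 0 := by
  simp only [th, map_sum, DA_tmul, D_yl, TensorProduct.zero_tmul, Finset.sum_const_zero]

theorem th_th : th π * th π = 0 := by
  have key : ∀ g g', (yl π g ⊗ₜ[K] MQ π g) * (yl π g' ⊗ₜ[K] MQ π g')
      = (yl π g * yl π g') ⊗ₜ[K] (MQ π g * MQ π g') := fun g g' => by
    rw [Algebra.TensorProduct.tmul_mul_tmul]
  have hz : ∀ g g', ¬ (g = .x ∧ g' = .x') → ¬ (g = .x' ∧ g' = .x) →
      (yl π g ⊗ₜ[K] MQ π g) * (yl π g' ⊗ₜ[K] MQ π g') = 0 := fun g g' h h' => by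
    rw [key, yl_yl π g g' h h', TensorProduct.zero_tmul]
  rw [th, Finset.sum_mul_sum]
  simp only [sumL]
  rw [hz .x .x (by simp) (by simp), hz .x .a (by simp) (by simp), hz .x .b (by simp) (by simp),
    hz .a .x (by simp) (by simp), hz .a .a (by simp) (by simp), hz .a .x' (by simp) (by simp),
    hz .a .b (by simp) (by simp), hz .x' .a (by simp) (by simp), hz .x' .x' (by simp) (by simp),
    hz .x' .b (by simp) (by simp), hz .b .x (by simp) (by simp), hz .b .a (by simp) (by simp),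
    hz .b .x' (by simp) (by simp), hz .b .b (by simp) (by simp), key, key, y10_yl, MQ_MQ]
  simp only [zero_add, add_zero]
  rw [TensorProduct.tmul_smul, TensorProduct.smul_tmul']
  exact a2_self π _

/-- commutator of `θ` with a diagonal letter -/
theorem th_diag (r : R π) (s : Lt → K) (h : ∀ g, yl π g * r = s g • (r * yl π g)) :
    th π * (r ⊗ₜ SC π s) + (r ⊗ₜ SC π s) * th π = 0 := by
  simp only [th, Finset.sum_mul, Finset.mul_sum]
  rw [← Finset.sum_add_distrib]
  apply Finset.sum_eq_zero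
  intro g _
  rw [Algebra.TensorProduct.tmul_mul_tmul, Algebra.TensorProduct.tmul_mul_tmul, h g, SC_MQ,
    TensorProduct.tmul_smul, TensorProduct.smul_tmul']
  exact a2_self π _

/-- commutator of `θ` with `r ⊗ E_g` -/
theorem th_E (r : R π) (g : Lt) (h : ∀ g, yl π g * r = r * yl π g) :
    th π * (r ⊗ₜ EQ π g) + (r ⊗ₜ EQ π g) * th π =
      (r * yl π g) ⊗ₜ SC π (fun l => (lp π).chi l g) := by
  simp only [th, Finset.sum_mul, Finset.mul_sum]
  rw [← Finset.sum_add_distrib]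
  have key : ∀ g', (yl π g' ⊗ₜ[K] MQ π g') * (r ⊗ₜ[K] EQ π g)
      + (r ⊗ₜ[K] EQ π g) * (yl π g' ⊗ₜ[K] MQ π g')
      = if g = g' then (r * yl π g) ⊗ₜ[K] SC π (fun l => (lp π).chi l g) else 0 := fun g' => by
    rw [Algebra.TensorProduct.tmul_mul_tmul, Algebra.TensorProduct.tmul_mul_tmul, h g',
      ← TensorProduct.tmul_add, add_comm, EQ_MQ]
    by_cases hg : g = g'
    · rw [if_pos hg, if_pos hg, hg]
    · rw [if_neg hg, if_neg hg, TensorProduct.tmul_zero]
  rw [Finset.sum_congr rfl (fun g' _ => key g'), Finset.sum_ite_eq, if_pos (Finset.mem_univ _)]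


/-- homogeneous elements without `W`-tail -/
def Hm (c : K) (r : R π) : Prop := Dl π r = r ⊗ₜ scl π c

theorem Hm.mul {c c' : K} {r r' : R π} (h : Hm π c r) (h' : Hm π c' r') : Hm π (c * c') (r * r') := by
  unfold Hm at *
  rw [map_mul, h, h', Algebra.TensorProduct.tmul_mul_tmul, scl_mul]

theorem Hm.add {c : K} {r r' : R π} (h : Hm π c r) (h' : Hm π c r') : Hm π c (r + r') := by
  unfold Hm at *
  rw [map_add, h, h', TensorProduct.add_tmul]

theorem Hm.smul {c : K} {r : R π} (a : K) (h : Hm π c r) : Hm π c (a • r) := by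
  unfold Hm at *
  rw [map_smul, h, TensorProduct.smul_tmul']

theorem Hm.cast {c c' : K} {r : R π} (h : Hm π c r) (e : c = c') : Hm π c' r := e ▸ h

theorem Hm_x (i : Fin 2) : Hm π (π.c i)⁻¹ (X π (.x i)) := Dl_X π _
theorem Hm_d (j : Fin 2) : Hm π (π.c j) (X π (.d j)) := Dl_X π _
theorem Hm_z (j : Fin 2) : Hm π (π.cz j) (X π (.z j)) := Dl_X π _
theorem Hm_e (j : Fin 2) : Hm π (π.c j) (X π (.e j)) := Dl_X π _
theorem Hm_gj (j : Fin 2) : Hm π (π.cz j) (X π (.gj j)) := Dl_X π _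
theorem Hm_h : Hm π 1 (X π .h) := by rw [Hm, Dl_X, scl_one]; rfl
theorem Hm_f : Hm π 1 (X π .f) := by rw [Hm, Dl_X, scl_one]; rfl
theorem Hm_zc : Hm π 1 (X π .zc) := by rw [Hm, Dl_X, scl_one]; rfl
theorem Hm_gc : Hm π 1 (X π .gc) := by rw [Hm, Dl_X, scl_one]; rfl

theorem cc_eq (j : Fin 2) : (π.c j)⁻¹ * (π.c 1 * π.c 0) = π.cz j := by
  have g0 := π.g0
  rcases f2 j with rfl | rfl
  · rw [c0, c1, cz_zero]; field_simp
  · rw [c0, c1, cz_one]; field_simp

theorem Hm_tR : Hm π 1 (tR π) := by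
  refine Hm.add π (Hm_h π) (Hm.smul π _ (Hm.add π ?_ ?_))
  · exact Hm.cast π (Hm.mul π (Hm_d π 0) (Hm_x π 0)) (mul_inv_cancel₀ (c_ne π 0))
  · exact Hm.cast π (Hm.mul π (Hm_d π 1) (Hm_x π 1)) (mul_inv_cancel₀ (c_ne π 1))

theorem Hm_hR (s : Fin 2) : Hm π 1 (hR π s) := by
  rcases f2 s with rfl | rfl
  · exact Hm_h π
  · exact Hm.cast π (Hm.mul π (Hm_h π) (Hm_h π)) (one_mul 1)

theorem Hm_dz (j : Fin 2) : Hm π (π.cz j) (DefsQ830.mk π (dGen π (.z j))) := by
  simp only [dGen, rF, map_mul, map_add, map_smul, mk_L]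
  refine Hm.cast π (Hm.mul π (Hm_x π j) (Hm.add π (Hm.mul π (Hm_d π 1) (Hm_d π 0))
    (Hm.smul π _ (Hm.cast π (Hm.mul π (Hm_d π 0) (Hm_d π 1)) (mul_comm _ _))))) (cc_eq π j)

theorem Hm_dzc : Hm π 1 (DefsQ830.mk π (dGen π .zc)) := by
  have g0 := π.g0
  simp only [dGen, map_mul, map_add, mk_L]
  refine Hm.add π (Hm.add π (Hm.cast π (Hm.mul π (Hm_x π 0) (Hm_z π 1)) ?_)
    (Hm.cast π (Hm.mul π (Hm_x π 1) (Hm_z π 0)) ?_)) (Hm.cast π (Hm.mul π (Hm_h π) (Hm_f π)) ?_)
  · rw [c0, cz_one]; field_simp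
  · rw [c1, cz_zero]; field_simp
  · rw [one_mul]

theorem Hm_de (j : Fin 2) : Hm π (π.c j) (DefsQ830.mk π (dGen π (.e j))) := by
  simp only [dGen, map_mul, map_add, map_smul, mk_L]
  exact Hm.add π (Hm.cast π (Hm.mul π (Hm_f π) (Hm_d π j)) (one_mul _))
    (Hm.smul π _ (Hm.cast π (Hm.mul π (Hm_d π j) (Hm_f π)) (mul_one _)))

theorem Hm_dgj (j : Fin 2) : Hm π (π.cz j) (DefsQ830.mk π (dGen π (.gj j))) := by
  simp only [dGen, rhoF, map_mul, map_add, map_smul, mk_L]
  refine Hm.add π (Hm.add π (Hm.cast π (Hm.mul π (Hm_f π) (Hm_z π j)) (one_mul _))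
    (Hm.smul π _ (Hm.cast π (Hm.mul π (Hm_z π j) (Hm_f π)) (mul_one _))))
    (Hm.smul π _ (Hm.cast π (Hm.mul π (Hm_x π j) (Hm.add π (Hm.add π (Hm.add π
      (Hm.mul π (Hm_e π 1) (Hm_d π 0)) (Hm.smul π _ (Hm.mul π (Hm_d π 1) (Hm_e π 0))))
      (Hm.smul π _ (Hm.cast π (Hm.mul π (Hm_e π 0) (Hm_d π 1)) (mul_comm _ _))))
      (Hm.smul π _ (Hm.cast π (Hm.mul π (Hm_d π 0) (Hm_e π 1)) (mul_comm _ _))))) (cc_eq π j)))

theorem CH_EQ_ne (s : Fin 2) (g : Lt) : sg ((lp π).c g) s ≠ 0 := by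
  have := (lp π).c_ne g
  rcases f2 s with rfl | rfl
  · rwa [sg_zero]
  · rw [sg_one]; exact inv_ne_zero this

theorem CH_EQ (s : Fin 2) (g : Lt) :
    CH π s * EQ π g = (sg ((lp π).c g) s)⁻¹ • (EQ π g * CH π s) :=
  SC_EQ π g _ (CH_EQ_ne π s g)

theorem CH_CH : CH π 0 * CH π 1 = 1 := by
  rw [CH, CH, SC_mul, ← SC_one]
  congr 1
  funext l
  rw [sg_zero, sg_one, mul_inv_cancel₀ ((lp π).c_ne l)]

theorem CH_CH' : CH π 1 * CH π 0 = 1 := by
  rw [CH, CH, SC_comm, ← CH, ← CH, CH_CH]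

theorem Dl_uu : Dl π (π.p • (X π (.u 0) * X π (.u 1)) + X π (.u 1) * X π (.u 0))
    = (π.p • (X π (.u 0) * X π (.u 1)) + X π (.u 1) * X π (.u 0)) ⊗ₜ 1 := by
  have hp := π.p0
  have e1 : (sg ((lp π).c Lt.x') 0)⁻¹ = π.p⁻¹ := by rw [sg_zero]; rfl
  have e2 : (sg ((lp π).c Lt.x) 1)⁻¹ = π.p := by rw [sg_one, inv_inv]; rfl
  have hh : ∀ (r : R π) s, hR π s * r = r * hR π s := fun r s => by
    rcases f2 s with rfl | rfl
    · exact h_comm π r
    · show X π .h * X π .h * r = r * (X π .h * X π .h)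
      rw [mul_assoc, h_comm π r, ← mul_assoc, h_comm π r, mul_assoc]
  rw [map_add, map_smul, map_mul, map_mul, Dl_X, Dl_X]
  simp only [dl, lu, if_true, if_neg (show ¬ ((1 : Fin 2) = 0) by decide), mul_add, add_mul,
    Algebra.TensorProduct.tmul_mul_tmul, CH_CH, CH_CH', CH_EQ, e1, e2, EQ_EQ, hh (X π (.u 1)) 0,
    hh (X π (.u 0)) 1, hh (hR π 1) 0, smul_add, TensorProduct.tmul_smul, TensorProduct.smul_tmul',
    TensorProduct.add_tmul, smul_smul, mul_inv_cancel₀ hp, one_smul]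
  generalize (π.p • (X π (Gen.u 0) * X π (Gen.u 1))) ⊗ₜ[K] (1 : Module.End K (Q π)) = A
  generalize (X π (Gen.u 1) * X π (Gen.u 0)) ⊗ₜ[K] (1 : Module.End K (Q π)) = B
  generalize (π.p • (X π (Gen.u 1) * hR π 0)) ⊗ₜ[K] (EQ π Lt.x * CH π 1) = C
  generalize (X π (Gen.u 0) * hR π 1) ⊗ₜ[K] (EQ π Lt.x' * CH π 0) = D
  generalize (π.p • (hR π 1 * hR π 0)) ⊗ₜ[K] (EQ π Lt.x * EQ π Lt.x') = G
  calc A + C + (D + G) + (B + D + (C + G)) = A + B + (C + C) + (D + D) + (G + G) := by abel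
    _ = A + B := by rw [a2_self π C, a2_self π D, a2_self π G, add_zero, add_zero, add_zero]


theorem Hm_dgc : Hm π 1 (DefsQ830.mk π (dGen π .gc)) := by
  have g0 := π.g0
  simp only [dGen, map_mul, map_add, map_smul, mk_L]
  refine Hm.add π (Hm.add π (Hm.add π (Hm.add π ?_ ?_) (Hm.smul π _ ?_)) (Hm.smul π _ ?_)) ?_
  · exact Hm.cast π (Hm.mul π (Hm_f π) (Hm_zc π)) (one_mul _)
  · exact Hm.cast π (Hm.mul π (Hm_zc π) (Hm_f π)) (one_mul _)
  · refine Hm.cast π (Hm.mul π (Hm_x π 0) (Hm_gj π 1)) ?_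
    rw [c0, cz_one]; field_simp
  · refine Hm.cast π (Hm.mul π (Hm_x π 1) (Hm_gj π 0)) ?_
    rw [c1, cz_zero]; field_simp
  · rw [Hm, Dl_uu, scl_one]

theorem yl_x (g : Lt) (i : Fin 2) : yl π g * X π (.x i) = (π.c i)⁻¹ • (X π (.x i) * yl π g) := by
  have h := c_ne π i
  cases g <;> simp only [yl] <;> first
    | rw [r_xy, smul_smul, inv_mul_cancel₀ h, one_smul]
    | rw [r_xyb, smul_smul, inv_mul_cancel₀ h, one_smul]

theorem yl_d (g : Lt) (j : Fin 2) : yl π g * X π (.d j) = π.c j • (X π (.d j) * yl π g) := by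
  cases g <;> first | exact r_yd π j _ | exact r_ybd π j _
theorem yl_e (g : Lt) (j : Fin 2) : yl π g * X π (.e j) = π.c j • (X π (.e j) * yl π g) := by
  cases g <;> first | exact r_ye π j _ | exact r_ybe π j _
theorem yl_z (g : Lt) (j : Fin 2) : yl π g * X π (.z j) = π.cz j • (X π (.z j) * yl π g) := by
  cases g <;> first | exact r_yz π j _ | exact r_ybz π j _
theorem yl_gj (g : Lt) (j : Fin 2) : yl π g * X π (.gj j) = π.cz j • (X π (.gj j) * yl π g) := by
  cases g <;> first | exact r_ygj π j _ | exact r_ybgj π j _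
theorem yl_f (g : Lt) : yl π g * X π .f = X π .f * yl π g := by
  cases g <;> first | exact r_yf π _ | exact r_ybf π _
theorem yl_zc (g : Lt) : yl π g * X π .zc = X π .zc * yl π g := by
  cases g <;> first | exact r_yzc π _ | exact r_ybzc π _
theorem yl_gc (g : Lt) : yl π g * X π .gc = X π .gc * yl π g := by
  cases g <;> first | exact r_ygc π _ | exact r_ybgc π _
theorem yl_u (g : Lt) (s : Fin 2) : yl π g * X π (.u s) = sg ((lp π).c g) s • (X π (.u s) * yl π g) := by
  cases g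
  · exact r_yu π 0 s
  · have := r_ybu π 0 s; rwa [chiyb_zero] at this
  · exact r_yu π 1 s
  · have := r_ybu π 1 s; rwa [chiyb_one] at this
theorem yl_v (g : Lt) (s : Fin 2) : yl π g * X π (.v s) = sg ((lp π).c g) s • (X π (.v s) * yl π g) := by
  cases g
  · exact r_yv π 0 s
  · have := r_ybv π 0 s; rwa [chiyb_zero] at this
  · exact r_yv π 1 s
  · have := r_ybv π 1 s; rwa [chiyb_one] at this

theorem hR_comm (r : R π) (s : Fin 2) : hR π s * r = r * hR π s := by
  rcases f2 s with rfl | rfl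
  · exact h_comm π r
  · show X π .h * X π .h * r = r * (X π .h * X π .h)
    rw [mul_assoc, h_comm π r, ← mul_assoc, h_comm π r, mul_assoc]

theorem yl_dx (g : Lt) (j : Fin 2) : yl π g * (X π (.d j) * X π (.x j))
    = (X π (.d j) * X π (.x j)) * yl π g := by
  rw [← mul_assoc, yl_d, smul_mul_assoc, mul_assoc, yl_x, mul_smul_comm, smul_smul,
    mul_inv_cancel₀ (c_ne π j), one_smul, mul_assoc]

theorem yl_tR (g : Lt) : yl π g * tR π = tR π * yl π g := by
  simp only [tR, mul_add, add_mul, mul_smul_comm, smul_mul_assoc, yl_dx, h_comm]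

theorem yl_ht (g : Lt) (s : Fin 2) : yl π g * (hR π s * tR π) = (hR π s * tR π) * yl π g := by
  rw [← mul_assoc, ← hR_comm, mul_assoc, yl_tR, mul_assoc]

theorem chi_lu (s : Fin 2) : SC π (fun l => (lp π).chi l (lu s)) = CH π s := by
  apply SC_congr
  intro l
  rcases f2 s with rfl | rfl
  · rw [sg_zero]; show (lp π).c l ^ (1 : ℤ) = _; rw [zpow_one]
  · rw [sg_one]; show (lp π).c l ^ (-1 : ℤ) = _; rw [zpow_neg_one]

theorem chi_lv (s : Fin 2) : SC π (fun l => (lp π).chi l (lv s)) = CH π s := by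
  apply SC_congr
  intro l
  rcases f2 s with rfl | rfl
  · rw [sg_zero]; show (lp π).c l ^ (1 : ℤ) = _; rw [zpow_one]
  · rw [sg_one]; show (lp π).c l ^ (-1 : ℤ) = _; rw [zpow_neg_one]

/-- the defect of `Dl` being a dg map -/
noncomputable def Df (r : R π) : Prop :=
  DA π (Dl π r) + (th π * Dl π r + Dl π r * th π) = Dl π (Der580.D π r)

theorem Df_diag (a : Gen) (s : Lt → K) (hd : dl π a = X π a ⊗ₜ SC π s)
    (h : ∀ g, yl π g * X π a = s g • (X π a * yl π g))
    (hD : Dl π (DefsQ830.mk π (dGen π a)) = DefsQ830.mk π (dGen π a) ⊗ₜ SC π s) :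
    Df π (X π a) := by
  rw [Df, Dl_X, hd, th_diag π _ _ h, add_zero, DA_tmul, D_X, hD]

theorem Df_X (a : Gen) : Df π (X π a) := by
  cases a with
  | x i =>
    refine Df_diag π _ (fun _ => (π.c i)⁻¹) rfl (fun g => yl_x π g i) ?_
    simp [dGen]
  | h =>
    refine Df_diag π _ (fun _ => 1) (by rw [SC_one]; rfl) (fun g => by rw [one_smul, h_comm]) ?_
    simp [dGen]
  | d j =>
    refine Df_diag π _ (fun _ => π.c j) rfl (fun g => yl_d π g j) ?_
    simp [dGen]
  | f =>
    refine Df_diag π _ (fun _ => 1) (by rw [SC_one]; rfl) (fun g => by rw [one_smul, yl_f]) ?_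
    simp [dGen]
  | z j => exact Df_diag π _ (fun _ => π.cz j) rfl (fun g => yl_z π g j) (Hm_dz π j)
  | zc => exact Df_diag π _ (fun _ => 1) (by rw [SC_one]; rfl) (fun g => by rw [one_smul, yl_zc]) (Hm_dzc π)
  | u s =>
    rw [Df, Dl_X]
    simp only [dl, map_add, DA_tmul, mul_add, add_mul, D_hR, TensorProduct.zero_tmul, add_zero]
    have e1 := th_diag π (X π (.u s)) _ (fun g => yl_u π g s)
    have e2 := th_E π (hR π s) (lu s) (fun g => (hR_comm π _ s).symm)
    rw [chi_lu] at e2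
    have e3 : Der580.D π (X π (.u s)) = hR π s * yl π (lu s) := by
      rw [D_X]
      rcases f2 s with rfl | rfl
      · simp [dGen, hs, hR, lu, yl, mk_L]
      · simp [dGen, hs, hR, lu, yl, mk_L]
    have e4 : Dl π (hR π s * yl π (lu s)) = 0 := by
      rw [map_mul]
      rcases f2 s with rfl | rfl
      · simp [lu, yl, dl]
      · simp [lu, yl, dl]
    rw [e3, e4]
    rw [show ∀ a b c d e : A2 π, a + (b + c + (d + e)) = a + ((b + d) + (c + e)) by intros; abel]
    rw [show th π * X π (.u s) ⊗ₜ[K] CH π s + X π (.u s) ⊗ₜ[K] CH π s * th π = 0 from e1, e2,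
      zero_add]
    exact a2_self π _
  | e j =>
    exact Df_diag π _ (fun _ => π.c j) rfl (fun g => yl_e π g j) (Hm_de π j)
  | gj j => exact Df_diag π _ (fun _ => π.cz j) rfl (fun g => yl_gj π g j) (Hm_dgj π j)
  | gc => exact Df_diag π _ (fun _ => 1) (by rw [SC_one]; rfl) (fun g => by rw [one_smul, yl_gc]) (Hm_dgc π)
  | v s =>
    rw [Df, Dl_X]
    have e0 : Der580.D π (hR π s * tR π) = 0 := by
      rw [Der580.D_mul, D_hR, D_tR, zero_mul, mul_zero, add_zero]
    simp only [dl, map_add, DA_tmul, mul_add, add_mul, e0, TensorProduct.zero_tmul, add_zero]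
    have e1 := th_diag π (X π (.v s)) _ (fun g => yl_v π g s)
    have e2 := th_E π (hR π s * tR π) (lv s) (fun g => yl_ht π g s)
    rw [chi_lv] at e2
    have e3 : Der580.D π (X π (.v s)) = (tR π * X π (.u s) + X π (.u s) * tR π)
        + hR π s * tR π * yl π (lv s) := by
      rw [D_X]
      rcases f2 s with rfl | rfl
      · simp [dGen, hs, hR, lv, yl, mk_L, tF, tR]
      · simp [dGen, hs, hR, lv, yl, mk_L, tF, tR]
    have e4 : Dl π (hR π s * tR π * yl π (lv s)) = 0 := by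
      rw [map_mul]
      rcases f2 s with rfl | rfl
      · simp [lv, yl, dl]
      · simp [lv, yl, dl]
    have e5 : Dl π (tR π * X π (.u s) + X π (.u s) * tR π)
        = (tR π * X π (.u s) + X π (.u s) * tR π) ⊗ₜ CH π s := by
      rw [map_add, map_mul, map_mul, Hm_tR π, Dl_X, scl_one]
      simp only [dl, mul_add, add_mul, Algebra.TensorProduct.tmul_mul_tmul, one_mul, mul_one,
        hR_comm, TensorProduct.add_tmul]
      rw [show ∀ a b c d : A2 π, a + b + (c + d) = a + c + (b + d) by intros; abel]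
      rw [a2_self, add_zero]
    rw [e3, map_add, e4, e5, add_zero, TensorProduct.add_tmul _ (hR π s * tR π * yl π (lv s))]
    rw [show ∀ z a b c d e : A2 π, z + a + (b + c + (d + e)) = z + (a + ((b + d) + (c + e))) by
      intros; abel]
    rw [show th π * X π (.v s) ⊗ₜ[K] CH π s + X π (.v s) ⊗ₜ[K] CH π s * th π = 0 from e1, e2,
      zero_add, a2_self, add_zero]
  | y s => rw [Df, Dl_X]; simp [dl, D_X, dGen]
  | yb s => rw [Df, Dl_X]; simp [dl, D_X, dGen]

/-- **`Dl` is a dg map for the differential `D ⊗ 1 + [θ, -]`** -/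
theorem Dl_D (r : R π) : DA π (Dl π r) + (th π * Dl π r + Dl π r * th π) = Dl π (Der580.D π r) := by
  induction r using R_ind π with
  | hc c =>
    rw [D_algebraMap, map_zero, AlgHom.commutes, Algebra.commutes]
    rw [a2_self, add_zero]
    show DA π (algebraMap K (R π) c ⊗ₜ 1) = 0
    rw [DA_tmul, D_algebraMap, TensorProduct.zero_tmul]
  | hX a => exact Df_X π a
  | hm a b ha hb =>
    rw [map_mul, DA_mul, Der580.D_mul, map_add, map_mul, map_mul, ← ha, ← hb]
    simp only [mul_add, add_mul, mul_assoc]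
    rw [show ∀ p q r s t : A2 π, p + (q + r) + (s + (r + t)) = p + q + s + t + (r + r) by
      intros; abel, a2_self, add_zero]
    abel
  | ha a b ha hb =>
    rw [map_add, map_add, map_add, map_add, ← ha, ← hb]
    simp only [mul_add, add_mul]
    abel

/-! ### the Maurer-Cartan matrix of the cells -/

theorem Dl_yl (g : Lt) : Dl π (yl π g) = 0 := by
  cases g <;> simp [yl, dl]

theorem Dl_y (s : Fin 2) : Dl π (X π (.y s)) = 0 := by simp [dl]
theorem Dl_yb (s : Fin 2) : Dl π (X π (.yb s)) = 0 := by simp [dl]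

theorem Dl_yp (l : E) : Dl π (yp π l) = 0 := by
  cases l <;> simp only [yp, map_mul, map_zero, Dl_y, Dl_yb, mul_zero]

theorem Dl_yc (l l' : E) : Dl π (yc π l l') = 0 := by
  cases l <;> cases l' <;> simp only [yc, map_zero] <;> split_ifs <;>
    simp only [map_smul, map_mul, Dl_y, mul_zero, zero_mul, smul_zero]

/-- the matrix of the differential of `X''` -/
noncomputable def Cm : Cell → Cell → A2 π
  | none, none => th π
  | none, some _ => 0
  | some l, none => Dl π (X π l.toGen)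
  | some l, some l' => Dl π (cf π l l') + if l = l' then th π else 0

/-- **Maurer-Cartan** -/
theorem Cm_mc (c c'' : Cell) : DA π (Cm π c c'') + ∑ c', Cm π c c' * Cm π c' c'' = 0 := by
  rw [Fintype.sum_option]
  rcases c with _ | l
  · rcases c'' with _ | l''
    · simp only [Cm, DA_th, th_th, zero_mul, Finset.sum_const_zero, add_zero]
    · simp only [Cm, map_zero, mul_zero, zero_mul, Finset.sum_const_zero, add_zero]
  · rcases c'' with _ | l''
    · simp only [Cm, add_mul, Finset.sum_add_distrib, ite_mul, zero_mul, Finset.sum_ite_eq,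
        Finset.mem_univ, if_true, ← map_mul, ← map_sum]
      have e1 := Dl_D π (X π l.toGen)
      have e2 := congrArg (Dl π) (D_E π l)
      rw [map_add, Dl_yp, add_zero] at e2
      rw [e2] at e1
      rw [show ∀ a b c d : A2 π, a + (b + (c + d)) = (a + (d + b)) + c by intros; abel, e1]
      exact a2_self π _
    · simp only [Cm, add_mul, mul_add, Finset.sum_add_distrib, ite_mul, mul_ite, zero_mul, mul_zero,
        Finset.sum_ite_eq, Finset.sum_ite_eq', Finset.mem_univ, if_true, map_add, zero_add]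
      have e0 : DA π (if l = l'' then th π else 0) = 0 := by
        split_ifs
        · exact DA_th π
        · exact map_zero _
      have e1 : (if l = l'' then th π * th π else 0) = (0 : A2 π) := by
        rw [th_th]; split_ifs <;> rfl
      rw [e0, e1, add_zero, add_zero]
      have e2 := congrArg (Dl π) (cf_cf π l l'')
      rw [map_add, map_sum, Dl_yc, ← Dl_D] at e2
      simp only [map_mul] at e2
      rw [← e2]
      abel

end Crest.Agent.R186.VQ735
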