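import Crest.Agent.R186.SMp_890
import Crest.Agent.R186.WLF_296
import Crest.Agent.R186.KosJ_374
import Crest.Agent.R186.VQ_735

/-!
Row 186, half (A), helper306's short road (helper377): the rows of `M` from the left,
`m = Σ_q (cq q m) · o_q = Σ_q o_q · (lM q m)`, the filtration of `M` by the `DW`-degree.
-/

set_option autoImplicit false
set_option linter.unusedSimpArgs false

noncomputable section

namespace Crest.Agent.R186.RowsM377

open Crest.Agent.R186.DefsQ830 Crest.Agent.R186.PBW128 Crest.Agent.R186.SM890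
open Crest.Agent.R186.Win810
open Crest.Agent.R186.C2b362 (pz J NZ mem_NZ mem_pz mem_pz_nat mem_J pz_neg)
open Crest.Agent.R186.C2b44 (kill kill_mem kill_x kill_h kill_kill kill_nf kill_D)
open Crest.Agent.R186.KOS296 (kill_pz mem_J_iff_kill pcZ_eq_pz)

variable {K : Type} [Field K] (π : Par K)

/-! ### the torus -/

/-- inverse point -/
def ti (t : Tor K) : Tor K :=
  ⟨t.a0⁻¹, t.a1⁻¹, t.b⁻¹, inv_ne_zero t.h0, inv_ne_zero t.h1, inv_ne_zero t.hb⟩

theorem tw_ti (t : Tor K) (a : Gen) : tw (ti t) a * tw t a = 1 := by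
  have h0 := t.h0
  have h1 := t.h1
  have hb := t.hb
  cases a <;> simp only [tw, sg, ti] <;> (try split) <;> simp [h0, h1, hb]

theorem tau_ti (t : Tor K) (r : R π) : tau π t (tau π (ti t) r) = r := by
  refine PBW128.R_ind π (P := fun r => tau π t (tau π (ti t) r) = r) ?_ ?_ ?_ ?_ r
  · intro c; rw [AlgHom.commutes, AlgHom.commutes]
  · intro a; rw [tau_X, map_smul, tau_X, smul_smul, tw_ti, one_smul]
  · intro a b ha hb; rw [map_mul, map_mul, ha, hb]
  · intro a b ha hb; rw [map_add, map_add, ha, hb]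

theorem tau_kill (t : Tor K) (r : R π) : kill π (tau π t r) = tau π t (kill π r) := by
  refine PBW128.R_ind π (P := fun r => kill π (tau π t r) = tau π t (kill π r)) ?_ ?_ ?_ ?_ r
  · intro c; rw [AlgHom.commutes, AlgHom.commutes, AlgHom.commutes]
  · intro a
    rw [tau_X, map_smul]
    cases a <;> simp
  · intro a b ha hb; rw [map_mul, map_mul, map_mul, ha, hb, map_mul]
  · intro a b ha hb; rw [map_add, map_add, map_add, ha, hb, map_add]

theorem tau_inj (t : Tor K) {r : R π} (h : tau π t r = 0) : r = 0 := by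
  have h1 : tau π (ti (ti t)) r = tau π t r := by
    refine PBW128.R_ind π (P := fun r => tau π (ti (ti t)) r = tau π t r) ?_ ?_ ?_ ?_ r
    · intro c; rw [AlgHom.commutes, AlgHom.commutes]
    · intro a
      rw [tau_X, tau_X]
      congr 1
      cases a <;> simp [tw, sg, ti]
    · intro a b ha hb; rw [map_mul, map_mul, ha, hb]
    · intro a b ha hb; rw [map_add, map_add, ha, hb]
  have h2 := tau_ti π (ti t) r
  rw [h1, h, map_zero] at h2
  exact h2.symm

/-! ### the coordinate `cq q : M → R'`, `m = Σ_q (cq q m) · o_q` -/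

/-- depth of `o_q` in `M`: `π ↦ 0`, letters `↦ 1`, `1 ↦ 2` -/
def mv : Wb → ℕ
  | .pi => 0
  | .y _ => 1
  | .yb _ => 1
  | .one => 2

theorem mv_le (q : Wb) : mv q ≤ 2 := by cases q <;> simp [mv]

/-- left coordinate -/
def cq (q : Wb) : N K →ₗ[K] R π :=
  Finsupp.linearCombination K (fun ν : Ix =>
    if ν.2.2.2.2 = q then nf π (ν.1, ν.2.1, ν.2.2.1, ν.2.2.2.1, .one) else 0)

theorem cq_bv (q : Wb) (i j k : ℕ) (w : List E) (q' : Wb) :
    cq π q (bv K i j k w q') = if q' = q then nf π (i, j, k, w, .one) else 0 := by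
  simp [cq, bv]

theorem kill_cq (q : Wb) (m : N K) : kill π (cq π q m) = cq π q m := by
  have : (kill π).toLinearMap ∘ₗ cq π q = cq π q := by
    apply ext_bv
    intro i j k w q'
    rw [LinearMap.comp_apply, cq_bv]
    split_ifs
    · show kill π _ = _
      rw [kill_nf, if_pos rfl]
    · rw [map_zero]
  exact LinearMap.congr_fun this m

/-- `m = Σ_q (cq q m) · o_q` -/
theorem sum_cq (m : N K) : m = ∑ q, repM π (cq π q m) (oo K q) := by
  have : (LinearMap.id : N K →ₗ[K] N K) = ∑ q, (evM π (oo K q)) ∘ₗ cq π q := by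
    apply ext_bv
    intro i j k w q'
    rw [LinearMap.sum_apply, Finset.sum_eq_single q']
    · rw [LinearMap.comp_apply, cq_bv, if_pos rfl, evM_apply]
      exact (repM_nf1 π i j k w q').symm
    · intro q _ hq
      rw [LinearMap.comp_apply, cq_bv, if_neg (Ne.symm hq), map_zero]
    · intro h; exact absurd (Finset.mem_univ _) h
  have h := LinearMap.congr_fun this m
  rwa [LinearMap.sum_apply] at h

theorem tabM (q1 q : Wb) (h : q1 ≠ .one) : cW π q1 q = 0 ∨ mv q < mv (tW q1 q) := by
  have h10 : (1 : Fin 2) ≠ 0 := by decide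
  have h01 : (0 : Fin 2) ≠ 1 := by decide
  rcases q1 with _ | s | s | _ <;> rcases q with _ | s' | s' | _ <;>
    (try rcases fin2 s with rfl | rfl) <;> (try rcases fin2 s' with rfl | rfl) <;>
    first
    | (exact absurd rfl h)
    | (left; simp [cW, dk, dt, h10, h01]; done)
    | (right; simp [tW, dt, mv, h10, h01]; done)

/-- coordinates of `b · o_q'` at the levels `≤` that of `q'` -/
theorem cq_repM (b : R π) (q q' : Wb) (h : mv q ≤ mv q') :
    cq π q (repM π b (oo K q')) = if q = q' then kill π b else 0 := by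
  by_cases hq : q = q'
  · subst hq
    rw [if_pos rfl]
    have : cq π q ∘ₗ evM π (oo K q) = (kill π).toLinearMap := by
      apply nf_ext π
      intro i j k w q1
      rw [LinearMap.comp_apply, evM_apply, repM_nf, map_smul, cq_bv, ← nf_eq]
      show _ = kill π _
      rw [kill_nf]
      by_cases h1 : q1 = .one
      · subst h1
        rw [if_pos rfl]
        simp [cW, tW]
      · rw [if_neg h1]
        rcases tabM π q1 q h1 with h2 | h2
        · rw [h2, zero_smul]
        · rw [if_neg (fun h3 => by rw [h3] at h2; exact lt_irrefl _ h2), smul_zero]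
    exact LinearMap.congr_fun this b
  · rw [if_neg hq]
    have : cq π q ∘ₗ evM π (oo K q') = 0 := by
      apply nf_ext π
      intro i j k w q1
      rw [LinearMap.comp_apply, evM_apply, repM_nf, map_smul, cq_bv, LinearMap.zero_apply]
      by_cases h1 : q1 = .one
      · subst h1
        rw [if_neg (fun h3 : tW .one q' = q => hq h3.symm), smul_zero]
      · rcases tabM π q1 q' h1 with h2 | h2
        · rw [h2, zero_smul]
        · rw [if_neg (fun h3 => by rw [h3] at h2; omega), smul_zero]
    exact LinearMap.congr_fun this b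

/-- the filtration of `M`: the levels `< n` vanish -/
def MF (n : ℕ) : Submodule K (N K) where
  carrier := {m | ∀ q, mv q < n → cq π q m = 0}
  add_mem' {a b} ha hb q hq := by rw [map_add, ha q hq, hb q hq, add_zero]
  zero_mem' q _ := map_zero _
  smul_mem' c a ha q hq := by rw [map_smul, ha q hq, smul_zero]

theorem mem_MF {n : ℕ} {m : N K} : m ∈ MF π n ↔ ∀ q, mv q < n → cq π q m = 0 := Iff.rfl

theorem MF_zero (m : N K) : m ∈ MF π 0 := fun q hq => absurd hq (Nat.not_lt_zero _)

theorem MF_three {n : ℕ} (hn : 3 ≤ n) {m : N K} (h : m ∈ MF π n) : m = 0 := by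
  rw [sum_cq π m]
  refine Finset.sum_eq_zero fun q _ => ?_
  rw [h q (lt_of_le_of_lt (mv_le q) (by omega)), map_zero, LinearMap.zero_apply]

theorem MF_anti {n n' : ℕ} (h : n ≤ n') : MF π n' ≤ MF π n :=
  fun _ hm q hq => hm q (lt_of_lt_of_le hq h)

theorem repM_oo_MF (b : R π) (q : Wb) : repM π b (oo K q) ∈ MF π (mv q) := by
  intro q' hq'
  rw [cq_repM π b q' q hq'.le, if_neg]
  rintro rfl
  exact lt_irrefl _ hq'

theorem MF_of {n : ℕ} (φ : N K →ₗ[K] N K)
    (h : ∀ b q, ∃ b', φ (repM π b (oo K q)) = repM π b' (oo K q)) {m : N K} (hm : m ∈ MF π n) :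
    φ m ∈ MF π n := by
  rw [sum_cq π m, map_sum]
  refine Submodule.sum_mem _ fun q _ => ?_
  by_cases hq : mv q < n
  · rw [hm q hq, map_zero, LinearMap.zero_apply, map_zero]
    exact Submodule.zero_mem _
  · obtain ⟨b', hb'⟩ := h (cq π q m) q
    rw [hb']
    exact MF_anti π (not_lt.1 hq) (repM_oo_MF π b' q)

theorem MF_left {n : ℕ} (r : R π) {m : N K} (hm : m ∈ MF π n) : repM π r m ∈ MF π n :=
  MF_of π (repM π r) (fun b q => ⟨r * b, repM_repM π r b _⟩) hm

theorem MF_right {n : ℕ} (r : R π) {m : N K} (hm : m ∈ MF π n) : rho π r m ∈ MF π n :=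
  MF_of π (rho π r) (fun b q => ⟨b * tau π (Tq π q) r, rho_repM π b r q⟩) hm

theorem MF_D {n : ℕ} {m : N K} (hm : m ∈ MF π n) : dM π m ∈ MF π n :=
  MF_of π (dM π) (fun b q => ⟨Der580.D π b, dM_repM π b q⟩) hm

/-! ### the right coordinate `m = Σ_q o_q · (lM q m)` -/

/-- right coordinate -/
def lM (q : Wb) : N K →ₗ[K] R π := (tau π (ti (Tq π q))).toLinearMap ∘ₗ cq π q

theorem lM_apply (q : Wb) (m : N K) : lM π q m = tau π (ti (Tq π q)) (cq π q m) := rfl

theorem rho_oo (r : R π) (q : Wb) : rho π r (oo K q) = repM π (tau π (Tq π q) r) (oo K q) := by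
  have := rho_repM π 1 r q
  rwa [map_one, one_mul] at this

theorem rho_lM (q : Wb) (m : N K) : rho π (lM π q m) (oo K q) = repM π (cq π q m) (oo K q) := by
  rw [rho_oo, lM_apply, tau_ti]

theorem kill_lM (q : Wb) (m : N K) : kill π (lM π q m) = lM π q m := by
  rw [lM_apply, tau_kill, kill_cq]

theorem sum_lM (m : N K) : m = ∑ q, rho π (lM π q m) (oo K q) := by
  conv_lhs => rw [sum_cq π m]
  exact Finset.sum_congr rfl fun q _ => (rho_lM π q m).symm

theorem lM_rho (b : R π) (q q' : Wb) (h : mv q ≤ mv q') :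
    lM π q (rho π b (oo K q')) = if q = q' then kill π b else 0 := by
  rw [rho_oo, lM_apply, cq_repM π _ q q' h]
  split_ifs with hq
  · subst hq
    rw [tau_kill]
    have : tau π (ti (Tq π q)) (tau π (Tq π q) (kill π b)) = kill π b := by
      have h1 := tau_ti π (Tq π q) (tau π (ti (Tq π q)) (tau π (Tq π q) (kill π b)))
      apply sub_eq_zero.1
      apply tau_inj π (Tq π q)
      rw [map_sub, tau_ti, sub_self]
    exact this
  · rw [map_zero]

/-- generation of a step of the filtration -/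
theorem MF_gen {n : ℕ} {m : N K} (hm : m ∈ MF π n) :
    m - ∑ q : {q : Wb // mv q = n}, rho π (lM π q.1 m) (oo K q.1) ∈ MF π (n + 1) := by
  intro q' hq'
  rw [map_sub, map_sum, sub_eq_zero]
  by_cases h : mv q' = n
  · rw [Finset.sum_eq_single (⟨q', h⟩ : {q : Wb // mv q = n})]
    · rw [rho_lM, cq_repM π _ _ _ le_rfl, if_pos rfl, kill_cq]
    · rintro ⟨q, hq⟩ _ hne
      rw [rho_lM, cq_repM π _ _ _ (by rw [h, hq]), if_neg]
      rintro rfl
      exact hne rfl
    · intro h0; exact absurd (Finset.mem_univ _) h0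
  · have h1 : mv q' < n := by omega
    rw [hm q' h1]
    symm
    refine Finset.sum_eq_zero ?_
    rintro ⟨q, hq⟩ _
    rw [rho_lM, cq_repM π _ q' q (show mv q' ≤ mv q by omega), if_neg]
    rintro rfl
    exact h hq

/-- uniqueness of a step of the filtration -/
theorem MF_uniq {n : ℕ} (a : {q : Wb // mv q = n} → R π)
    (h : ∑ q : {q : Wb // mv q = n}, rho π (a q) (oo K q.1) ∈ MF π (n + 1))
    (q : {q : Wb // mv q = n}) : kill π (a q) = 0 := by
  have h1 := h q.1 (by rw [q.2]; omega)
  rw [map_sum, Finset.sum_eq_single q] at h1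
  · rw [rho_oo, cq_repM π _ _ _ le_rfl, if_pos rfl, tau_kill] at h1
    exact tau_inj π _ h1
  · intro q' _ hne
    rw [rho_oo, cq_repM π _ _ _ (by rw [q.2, q'.2]), if_neg]
    intro h2
    exact hne (Subtype.ext h2.symm)
  · intro h0; exact absurd (Finset.mem_univ _) h0

/-! ### degrees -/

theorem cq_mem (s : ℕ) {P A C : ℤ} {m : N K} (hm : m ∈ pcM π s P A C) (q : Wb) :
    cq π q m ∈ pcZ π (P + 1) A (C - s + wC q.word) := by
  have key : pcM π s P A C ≤
      (pcZ π (P + 1) A (C - s + wC q.word)).comap (cq π q : MM π →ₗ[K] R π) := by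
    apply pcM_ind
    intro q' t ht
    show cq π q (repM π t (oo K q')) ∈ pcZ π (P + 1) A (C - s + wC q.word)
    refine pcZ_ind π (φ := cq π q ∘ₗ evM π (oo K q')) (fun i j k w q1 h1 h2 h3 => ?_) ht
    rw [LinearMap.comp_apply, evM_apply, nf_eq, repM_nf, map_smul, cq_bv]
    split_ifs with hq
    · rcases cW_deg π q1 q' with h0 | h0
      · rw [h0, zero_smul]
        exact Submodule.zero_mem _
      · refine Submodule.smul_mem _ _ ?_
        refine C2b44.nf_mem_pcZ π _ ?_ ?_ ?_
        · rw [← h1]; rfl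
        · rw [← h2]; rfl
        · rw [hq] at h0
          have e2 : (dCx (i, j, k, w, q1) : ℤ) =
              (((w.map (fun l => l.toGen.dC)).sum : ℕ) : ℤ) + wC q1.word := by
            simp [dCx]
          have e3 : (dCx (i, j, k, w, Wb.one) : ℤ) =
              (((w.map (fun l => l.toGen.dC)).sum : ℕ) : ℤ) := by
            simp [dCx, Wb.word, wC]
          omega
    · rw [smul_zero]
      exact Submodule.zero_mem _
  exact key hm

theorem lM_mem (s : ℕ) {P A C : ℤ} {m : N K} (hm : m ∈ pcM π s P A C) (q : Wb) :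
    lM π q m ∈ pcZ π (P + 1) A (C - s + wC q.word) :=
  tau_pcZ π _ (cq_mem π s hm q)

end Crest.Agent.R186.RowsM377
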