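import Crest.Agent.R186.KPv0_448
import Crest.Agent.R186.NullV_275

/-!
Row 186, S0281, base, `s = 0` (helper448): 275's `Rs` value (the resolution of `E g 0 n` on 580's
projectives, maps of Kdef_448) and the finiteness of the terms.
-/

set_option autoImplicit false

noncomputable section

namespace Crest.Agent.R186.B281

namespace K448

open NullV275

variable {K : Type} [Field K] {g : K}

instance finT2 (g : K) (n : ℕ) : Module.Finite (A g 0) (T2 g n) := by
  unfold T2
  infer_instance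

/-- **the resolution of `E g 0 n`** -/
def rs0 (hg : Gen g) (n : ℕ) : Rs (A g 0) (E g 0 n) (Fin (n + 1) → Pv g 0 0)
    (Fin 2 → Fin (n + 1) → Pv g 0 3) (T2 g n) (Fin (n + 1) → Pv g 0 2) where
  e := ε hg n
  d1 := d1 g n
  d2 := d2 hg n
  d3 := d3 hg n
  surj := (mres0 hg n).surj
  ex0 := (mres0 hg n).ex0
  ex1 := (mres0 hg n).ex1
  ex2 := (mres0 hg n).ex2
  inj := (mres0 hg n).inj

theorem rs0_d1 (hg : Gen g) (n : ℕ) : (rs0 hg n).d1 = d1 g n := rfl
theorem rs0_d2 (hg : Gen g) (n : ℕ) : (rs0 hg n).d2 = d2 hg n := rfl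
theorem rs0_d3 (hg : Gen g) (n : ℕ) : (rs0 hg n).d3 = d3 hg n := rfl

end K448

end Crest.Agent.R186.B281
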