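import Crest.Agent.R186.Dev_697

/-!
Row 186 (A) (helper697), leaf S3, abstract part: **triangular decompositions**.  A complex `X` with
maps `inn b : Y b → X`, `pr b : X → Y b` (`b` in any index set with a weight `l b` and a shift
`e b ≥ 0`), such that modulo `F n = {x | pr b x = 0 for all b with l b < n}` the differential is
diagonal, is exact in degree `k` as soon as all `Y b` are exact in degree `k - e b`.
-/

set_option autoImplicit false

namespace Crest.Agent.R186.S3697

open Dev697

universe u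

variable {K : Type u} [Field K]

/-- a triangular decomposition of the complex `(X, gr, d)` in the complexes `(Y b, grY b, dY b)`,
weight `l`, shift `e` -/
structure Tri {X : Type u} [AddCommGroup X] [Module K X] (gr : ℤ → Submodule K X)
    (d : X →ₗ[K] X) {B : Type*} (l : B → ℕ) (e : B → ℤ)
    {Y : B → Type u} [∀ b, AddCommGroup (Y b)] [∀ b, Module K (Y b)]
    (grY : ∀ b, ℤ → Submodule K (Y b)) (dY : ∀ b, Y b →ₗ[K] Y b)
    (inn : ∀ b, Y b →ₗ[K] X) (pr : ∀ b, X →ₗ[K] Y b) : Prop where
  /-- degrees -/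
  inn_mem : ∀ b k, ∀ y ∈ grY b (k - e b), inn b y ∈ gr k
  pr_mem : ∀ b k, ∀ x ∈ gr k, pr b x ∈ grY b (k - e b)
  pr_inn : ∀ b y, pr b (inn b y) = y
  pr_inn_ne : ∀ b b' y, b' ≠ b → l b' = l b → pr b' (inn b y) = 0
  pr_inn_lt : ∀ b b' y, l b' < l b → pr b' (inn b y) = 0
  /-- the differential is triangular with diagonal `dY` -/
  d_F : ∀ n : ℕ, ∀ x, (∀ b, l b < n → pr b x = 0) → ∀ b, l b < n → pr b (d x) = 0
  d_diag : ∀ b, ∀ x, (∀ b', l b' < l b → pr b' x = 0) → pr b (d x) = dY b (pr b x)
  /-- finiteness : in the degree `k` only finitely many `b` occur -/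
  fin : ∀ k, ∃ S : Finset B, ∀ b, b ∉ S → ∀ x ∈ gr k, pr b x = 0
  /-- joint injectivity in each degree -/
  sep : ∀ k, ∀ x ∈ gr k, (∀ b, pr b x = 0) → x = 0

section tri

variable {X : Type u} [AddCommGroup X] [Module K X] {gr : ℤ → Submodule K X}
    {d : X →ₗ[K] X} {B : Type*} {l : B → ℕ} {e : B → ℤ}
    {Y : B → Type u} [∀ b, AddCommGroup (Y b)] [∀ b, Module K (Y b)]
    {grY : ∀ b, ℤ → Submodule K (Y b)} {dY : ∀ b, Y b →ₗ[K] Y b}
    {inn : ∀ b, Y b →ₗ[K] X} {pr : ∀ b, X →ₗ[K] Y b}

theorem Tri.ac (T : Tri gr d l e grY dY inn pr) (hC : IsC gr d) {k : ℤ}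
    (h : ∀ b, Ac (grY b) (dY b) (k - e b)) : Ac gr d k := by
  classical
  obtain ⟨S, hS⟩ := T.fin k
  -- one step
  have step : ∀ n : ℕ, ∀ x ∈ gr k, d x = 0 → (∀ b, l b < n → pr b x = 0) →
      ∃ z ∈ gr (k + 1), ∀ b, l b < n + 1 → pr b (x - d z) = 0 := by
    intro n x hx hx0 hF
    have hz : ∀ b, ∃ y ∈ grY b (k + 1 - e b), l b = n → dY b y = pr b x := by
      intro b
      by_cases hb : l b = n
      · obtain ⟨y, hy, hy'⟩ := h b (pr b x) (T.pr_mem b k x hx) (by
          rw [← T.d_diag b x (fun b' hb' => hF b' (by omega)), hx0, map_zero])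
        exact ⟨y, by rwa [show k + 1 - e b = k - e b + 1 by ring], fun _ => hy'⟩
      · exact ⟨0, zero_mem _, fun h' => absurd h' hb⟩
    choose y hy hy' using hz
    let T' := S.filter fun b => l b = n
    refine ⟨∑ b ∈ T', inn b (y b), Submodule.sum_mem _ fun b _ => T.inn_mem b _ _ (hy b), ?_⟩
    have hzF : ∀ b, l b < n → pr b (∑ b' ∈ T', inn b' (y b')) = 0 := by
      intro b hb
      rw [map_sum]
      refine Finset.sum_eq_zero fun b' hb' => T.pr_inn_lt _ _ _ ?_
      rw [(Finset.mem_filter.1 hb').2]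
      exact hb
    intro b hb
    rw [map_sub]
    by_cases hbn : l b < n
    · rw [hF b hbn, T.d_F n _ hzF b hbn, sub_zero]
    · have hbn' : l b = n := by omega
      rw [T.d_diag b _ (fun b' hb' => hzF b' (by omega)), map_sum]
      by_cases hbS : b ∈ S
      · rw [Finset.sum_eq_single b]
        · rw [T.pr_inn, hy' b hbn', sub_self]
        · intro b' hb' hne
          exact T.pr_inn_ne _ _ _ (Ne.symm hne) (by rw [hbn', (Finset.mem_filter.1 hb').2])
        · intro hb'
          exact absurd (Finset.mem_filter.2 ⟨hbS, hbn'⟩) hb'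
      · rw [hS b hbS x hx, Finset.sum_eq_zero, map_zero, sub_zero]
        intro b' hb'
        refine T.pr_inn_ne _ _ _ ?_ (by rw [hbn', (Finset.mem_filter.1 hb').2])
        rintro rfl
        exact hbS (Finset.mem_filter.1 hb').1
  -- iterate
  have key : ∀ n : ℕ, ∀ x ∈ gr k, d x = 0 → ∃ z ∈ gr (k + 1), ∀ b, l b < n →
      pr b (x - d z) = 0 := by
    intro n
    induction n with
    | zero => exact fun x _ _ => ⟨0, zero_mem _, fun b hb => absurd hb (Nat.not_lt_zero _)⟩
    | succ n ih =>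
      intro x hx hx0
      obtain ⟨z, hz, hzF⟩ := ih x hx hx0
      obtain ⟨w, hw, hwF⟩ := step n (x - d z) (sub_mem hx (hC.mem' hz))
        (by rw [map_sub, hx0, hC.dd, sub_zero]) hzF
      exact ⟨z + w, add_mem hz hw, fun b hb => by
        rw [map_add, ← sub_sub]
        exact hwF b hb⟩
  intro x hx hx0
  obtain ⟨z, hz, hzF⟩ := key (S.sup l + 1) x hx hx0
  refine ⟨z, hz, ?_⟩
  have hm : x - d z ∈ gr k := sub_mem hx (hC.mem' hz)
  have := T.sep k _ hm fun b => by
    by_cases hb : b ∈ S
    · exact hzF b (Nat.lt_succ_of_le (Finset.le_sup (f := l) hb))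
    · exact hS b hb _ hm
  exact (sub_eq_zero.1 this).symm

theorem Tri.acTo (T : Tri gr d l e grY dY inn pr) (hC : IsC gr d) (he : ∀ b, 0 ≤ e b) {s : ℤ}
    (h : ∀ b, AcTo (grY b) (dY b) s) : AcTo gr d s :=
  fun k hk => T.ac hC fun b => h b _ (by have := he b; omega)

end tri

/-- **abstract step (3)** (`L'' → Γ`): `V i`, `C i` (same homology), `E i` exact, three-term
sequences `B i → E i → C i` (only its consequence `hS` is used) and "`B i` exact up to `s` as soon
as all `V j` are exact up to `s`"; then all `V i` are exact.  `zV i k` = "`V i` is exact in degree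
`k`", and so on. -/
theorem deg {I : Type*} {zV zB zE zC : I → ℤ → Prop} (lo : ℤ)
    (hlow : ∀ i k, k < lo → zV i k) (hE : ∀ i k, zE i k)
    (hS : ∀ i k, zE i (k + 1) → zB i k → zC i (k + 1)) (hCV : ∀ i k, zC i k → zV i k)
    (hB : ∀ s, (∀ i, ∀ k ≤ s, zV i k) → ∀ i, ∀ k ≤ s, zB i k) : ∀ i k, zV i k := by
  have key : ∀ n : ℕ, ∀ i k, k < lo + n → zV i k := by
    intro n
    induction n with
    | zero => exact fun i k hk => hlow i k (by simpa using hk)
    | succ n ih =>
      intro i k hk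
      by_cases h : k < lo + n
      · exact ih i k h
      · have hk' : k = (lo + n - 1) + 1 := by push_cast at hk; omega
        have := hS i (lo + n - 1) (hE i _) (hB (lo + n - 1) (fun j l hl => ih j l (by omega)) i _
          le_rfl)
        rw [hk']
        exact hCV i _ this
  intro i k
  exact key (k - lo + 1).toNat i k (by omega)

end Crest.Agent.R186.S3697
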