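import Crest.Agent.R186.S3i_774
import Crest.Agent.R186.AcIff_492

/-!
Row 186 (helper774), half (A): (S3) on Frame_515: from `L''` to `Γ`.
-/

set_option autoImplicit false
set_option linter.style.haveILetI false
set_option linter.unusedSectionVars false
set_option linter.unusedSimpArgs false

open MulOpposite

namespace Crest.Agent.R186.S3f774

open Hat827 Hat827.DGA Frame515 Res255 AcIff492 S3i774

variable {K : Type} [Field K] {A B : DGA K} (h : Hm B A) (π : Hm A B)

/-- `T_Γ(G, Γ ⊗_{L''} X)` is acyclic when `G ⊗_{L''} X` is -/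
theorem z_mid {Y : RCells A} {G : RM A} (R : RRes Y G) (X : LCells B) (k : ℤ) :
    Z (tY Y (tP (resBR h (selfB A)) X)) k ↔ Z (tG (resR h G) X) (R.lo + k) :=
  (asc_z Y (resBR h (selfB A)) X k).symm.trans (z_G R (pushL h X) k)

/-- `T_Γ(G, L'' ⊗ X)` and `T_Γ(G, V)` -/
theorem z_quot (Y : RCells A) {X : LCells B} {V : LM B} (S : LRes X V) (k : ℤ) :
    Z (tY Y (tP (resBL π (selfB B)) X)) k ↔ Z (tY Y (resL π V)) (S.lo + k) :=
  z_Y (pushR π Y) S k

/-- **(S3)**: `G` a right `Γ`-module with cells `Y`, `X j` cells over `L''` resolving `V j`;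
`G ⊗_{L''} X j` acyclic for all `j`; the low degree acyclicity of all `Y ⊗ V j` passes to all
`Y ⊗ (M ⊗ X j)`.  Then `Y ⊗_Γ V j` is acyclic for all `j`. -/
theorem s3 {M : BM A B} (k : Kr h π M) {Y : RCells A} {G : RM A} (R : RRes Y G) {J : Type}
    (X : J → LCells B) (V : J → LM B) (S : ∀ j, LRes (X j) (V j)) (hS : ∀ j, (S j).lo = 0)
    (lo : ℤ) (hlo : ∀ j, ∀ k < lo, (V j).gr k = ⊥)
    (hG : ∀ j, Ac (tG (resR h G) (X j)))
    (hU : ∀ s, (∀ j, AcUp s (tY Y (resL π (V j)))) → ∀ j, AcUp s (tY Y (tP M (X j)))) :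
    ∀ j, Ac (tY Y (resL π (V j))) := by
  refine deg_ind Y (fun j => resL π (V j)) (fun j => tP M (X j))
    (fun j => tP (resBR h (selfB A)) (X j)) (fun j => tP (resBL π (selfB B)) (X j)) lo hlo
    (fun j => tP_ses (k.ses h π) (X j)) ?_ ?_ hU
  · intro j l
    exact (z_mid h R (X j) l).2 (hG j _)
  · intro j s hs l hl
    have := (z_quot π Y (S j) l).1 (hs l hl)
    rwa [hS j, zero_add] at this

end Crest.Agent.R186.S3f774
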