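import Crest.Agent.R186.Res_255
import Crest.Agent.R186.Frame2_515

/-!
Row 186 (helper774), half (A), leaf A.S3i: the step from `L''` to `Γ = L'' ⊕ M` on Frame_515.
Part 1: maps and exact sequences of left modules pass through `tY Y ·`; truncated acyclicity;
the degree induction.
-/

set_option autoImplicit false
set_option linter.style.haveILetI false
set_option linter.unusedSectionVars false
set_option linter.unusedSimpArgs false

open MulOpposite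

namespace Crest.Agent.R186.S3i774

open Hat827 Hat827.DGA Frame515 Res255

variable {K : Type} [Field K]

/-- every cycle of degree at most `s` is a boundary -/
def AcUp (s : ℤ) (X : GC K) : Prop :=
  ∀ k ≤ s, ∀ x ∈ X.gr k, X.d x = 0 → ∃ y ∈ X.gr (k + 1), X.d y = x

theorem ac_iff {X : GC K} : Ac X ↔ ∀ s, AcUp s X :=
  ⟨fun h _ k _ x hx hd => h k x hx hd, fun h k x hx hd => h k k le_rfl x hx hd⟩

theorem AcUp.of_ac {X : GC K} (h : Ac X) (s : ℤ) : AcUp s X := ac_iff.1 h s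

theorem AcUp.mono {X : GC K} {s t : ℤ} (h : AcUp s X) (hts : t ≤ s) : AcUp t X :=
  fun k hk => h k (hk.trans hts)

/-- the three-term sequence of graded complexes, exact in each degree -/
structure Ses (X Y Z : GC K) where
  i : GCHom X Y
  p : GCHom Y Z
  inj : ∀ {k : ℤ} {x : X.X}, x ∈ X.gr k → i.f x = 0 → x = 0
  zero : ∀ x : X.X, p.f (i.f x) = 0
  ex : ∀ {k : ℤ} {y : Y.X}, y ∈ Y.gr k → p.f y = 0 → ∃ x ∈ X.gr k, i.f x = y
  sur : ∀ {k : ℤ} {z : Z.X}, z ∈ Z.gr k → ∃ y ∈ Y.gr k, p.f y = z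

/-- middle acyclic: the quotient is one degree better than the sub -/
theorem Ses.right {X Y Z : GC K} (S : Ses X Y Z) {s : ℤ} (hY : AcUp (s + 1) Y)
    (hX : AcUp s X) : AcUp (s + 1) Z := by
  intro k hk z hz hdz
  obtain ⟨y, hy, hyz⟩ := S.sur hz
  have hdy : Y.d y ∈ Y.gr (k - 1) := Y.d_mem hy
  obtain ⟨x, hx, hxy⟩ := S.ex hdy (by rw [S.p.f_d, hyz, hdz])
  have hdx : X.d x = 0 := S.inj (X.d_mem hx) (by rw [S.i.f_d, hxy, Y.d_d])
  obtain ⟨x', hx', hxx⟩ := hX (k - 1) (by omega) x hx hdx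
  rw [sub_add_cancel] at hx'
  have hcyc : Y.d (y - S.i.f x') = 0 := by rw [map_sub, ← S.i.f_d, hxx, hxy, sub_self]
  obtain ⟨w, hw, hwy⟩ := hY k hk _ (Submodule.sub_mem _ hy (S.i.f_mem hx')) hcyc
  refine ⟨S.p.f w, S.p.f_mem hw, ?_⟩
  rw [← S.p.f_d, hwy, map_sub, hyz, S.zero, sub_zero]

/-- morphisms of left dg modules -/
structure LHom {A : DGA K} (N N' : LM A) extends GCHom N.toGC N'.toGC where
  smul : ∀ (a : A.C) (x : N.X), f (a • x) = a • f x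

section tY

variable {A : DGA K}

/-- `Y ⊗ φ` on families -/
noncomputable def fY (Y : RCells A) {N N' : LM A} (φ : LHom N N') :
    (Y.ι →₀ N.X) →ₗ[K] (Y.ι →₀ N'.X) := Finsupp.mapRange.linearMap φ.f

theorem fY_apply (Y : RCells A) {N N' : LM A} (φ : LHom N N') (x : Y.ι →₀ N.X) (σ : Y.ι) :
    fY Y φ x σ = φ.f (x σ) := rfl

theorem fY_dd (Y : RCells A) {N N' : LM A} (φ : LHom N N') (x : Y.ι →₀ N.X) :
    fY Y φ ((twY Y N).dd x) = (twY Y N').dd (fY Y φ x) := by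
  refine Finsupp.ext fun τ => ?_
  have hs : (fY Y φ x).support ⊆ x.support := Finsupp.support_mapRange (hf := map_zero φ.f)
  refine Eq.trans ?_ ((twY Y N').dd_apply' (fY Y φ x) x.support hs τ).symm
  refine Eq.trans (congrArg φ.f ((twY Y N).dd_apply' x x.support (Finset.Subset.refl _) τ)) ?_
  rw [map_add, map_sum, φ.f_d]
  refine congrArg₂ (· + ·) rfl (Finset.sum_congr rfl fun σ _ => ?_)
  exact φ.smul _ _

theorem mem_tY {Y : RCells A} {N : LM A} {k : ℤ} {x : Y.ι →₀ N.X} :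
    x ∈ (twY Y N).gr k ↔ ∀ σ, x σ ∈ N.gr (k - Y.s σ) ∧ Y.e σ • x σ = x σ := Iff.rfl

theorem fY_mem (Y : RCells A) {N N' : LM A} (φ : LHom N N') {k : ℤ} {x : Y.ι →₀ N.X}
    (hx : x ∈ (twY Y N).gr k) : fY Y φ x ∈ (twY Y N').gr k := by
  rw [mem_tY] at hx ⊢
  intro σ
  refine ⟨φ.f_mem (hx σ).1, ?_⟩
  rw [fY_apply, ← φ.smul, (hx σ).2]

/-- `Y ⊗ φ` -/
noncomputable def tYmap (Y : RCells A) {N N' : LM A} (φ : LHom N N') :
    GCHom (tY Y N) (tY Y N') where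
  f := fY Y φ
  f_mem := fY_mem Y φ
  f_d := fY_dd Y φ

/-- lifting families pointwise -/
theorem exists_fam {ι X Z : Type} [AddCommGroup X] [AddCommGroup Z] (z : ι →₀ Z)
    (P : ι → X → Prop) (g : X → Z) (h0 : ∀ σ, P σ 0) (hg0 : g 0 = 0)
    (h : ∀ σ, ∃ y, P σ y ∧ g y = z σ) : ∃ y : ι →₀ X, ∀ σ, P σ (y σ) ∧ g (y σ) = z σ := by
  classical
  let f : ι → X := fun σ => if σ ∈ z.support then Classical.choose (h σ) else 0
  have hf : ∀ σ, P σ (f σ) ∧ g (f σ) = z σ := by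
    intro σ
    by_cases hσ : σ ∈ z.support
    · simp only [f, if_pos hσ]; exact Classical.choose_spec (h σ)
    · simp only [f, if_neg hσ]
      exact ⟨h0 σ, by rw [hg0, Finsupp.notMem_support_iff.1 hσ]⟩
  refine ⟨Finsupp.onFinset z.support f fun σ hσ => ?_, hf⟩
  by_contra hc
  exact hσ (by simp only [f, if_neg hc])

/-- exact sequences of left modules -/
structure LSes (N N' N'' : LM A) where
  i : LHom N N'
  p : LHom N' N''
  inj : ∀ {k : ℤ} {x : N.X}, x ∈ N.gr k → i.f x = 0 → x = 0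
  zero : ∀ x : N.X, p.f (i.f x) = 0
  ex : ∀ {k : ℤ} {y : N'.X}, y ∈ N'.gr k → p.f y = 0 → ∃ x ∈ N.gr k, i.f x = y
  sur : ∀ {k : ℤ} {z : N''.X}, z ∈ N''.gr k → ∃ y ∈ N'.gr k, p.f y = z

theorem ses_inj (Y : RCells A) {N N' N'' : LM A} (S : LSes N N' N'') {k : ℤ} {x : Y.ι →₀ N.X}
    (hx : x ∈ (twY Y N).gr k) (h : fY Y S.i x = 0) : x = 0 := by
  rw [mem_tY] at hx
  refine Finsupp.ext fun σ => ?_
  exact S.inj (hx σ).1 (DFunLike.congr_fun h σ)

theorem ses_zero (Y : RCells A) {N N' N'' : LM A} (S : LSes N N' N'') (x : Y.ι →₀ N.X) :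
    fY Y S.p (fY Y S.i x) = 0 :=
  Finsupp.ext fun _ => S.zero _

theorem ses_ex (Y : RCells A) {N N' N'' : LM A} (S : LSes N N' N'') {k : ℤ} {y : Y.ι →₀ N'.X}
    (hy : y ∈ (twY Y N').gr k) (h : fY Y S.p y = 0) :
    ∃ x ∈ (twY Y N).gr k, fY Y S.i x = y := by
  rw [mem_tY] at hy
  have hσ : ∀ σ : Y.ι, ∃ x : N.X, (x ∈ N.gr (k - Y.s σ) ∧ Y.e σ • x = x) ∧
      S.i.f x = y σ := by
    intro σ
    obtain ⟨x, hx, hxy⟩ := S.ex (hy σ).1 (DFunLike.congr_fun h σ)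
    refine ⟨Y.e σ • x, ⟨?_, ?_⟩, ?_⟩
    · have := N.smul_mem (Y.e_mem σ) hx
      rwa [zero_add] at this
    · rw [smul_smul, Y.e_idem]
    · rw [S.i.smul, hxy, (hy σ).2]
  obtain ⟨x, hx⟩ := exists_fam y (fun σ x => x ∈ N.gr (k - Y.s σ) ∧ Y.e σ • x = x)
    (fun x => S.i.f x) (fun σ => ⟨Submodule.zero_mem _, smul_zero _⟩) (map_zero _) hσ
  exact ⟨x, fun σ => (hx σ).1, Finsupp.ext fun σ => (hx σ).2⟩

theorem ses_sur (Y : RCells A) {N N' N'' : LM A} (S : LSes N N' N'') {k : ℤ}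
    {z : Y.ι →₀ N''.X} (hz : z ∈ (twY Y N'').gr k) :
    ∃ y ∈ (twY Y N').gr k, fY Y S.p y = z := by
  rw [mem_tY] at hz
  have hσ : ∀ σ : Y.ι, ∃ x : N'.X, (x ∈ N'.gr (k - Y.s σ) ∧ Y.e σ • x = x) ∧
      S.p.f x = z σ := by
    intro σ
    obtain ⟨x, hx, hxy⟩ := S.sur (hz σ).1
    refine ⟨Y.e σ • x, ⟨?_, ?_⟩, ?_⟩
    · have := N'.smul_mem (Y.e_mem σ) hx
      rwa [zero_add] at this
    · rw [smul_smul, Y.e_idem]
    · rw [S.p.smul, hxy, (hz σ).2]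
  obtain ⟨x, hx⟩ := exists_fam z (fun σ x => x ∈ N'.gr (k - Y.s σ) ∧ Y.e σ • x = x)
    (fun x => S.p.f x) (fun σ => ⟨Submodule.zero_mem _, smul_zero _⟩) (map_zero _) hσ
  exact ⟨x, fun σ => (hx σ).1, Finsupp.ext fun σ => (hx σ).2⟩

/-- `Y ⊗ ·` is exact -/
noncomputable def tY_ses (Y : RCells A) {N N' N'' : LM A} (S : LSes N N' N'') :
    Ses (tY Y N) (tY Y N') (tY Y N'') where
  i := tYmap Y S.i
  p := tYmap Y S.p
  inj := ses_inj Y S
  zero := ses_zero Y S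
  ex := ses_ex Y S
  sur := ses_sur Y S

/-- `Y ⊗ N` starts in degree `lo` when `N` does -/
theorem tY_low (Y : RCells A) {N : LM A} {lo : ℤ} (h : ∀ k < lo, N.gr k = ⊥) {s : ℤ}
    (hs : s < lo) : AcUp s (tY Y N) := by
  intro k hk x hx _
  have hx0 : x = (0 : Y.ι →₀ N.X) := by
    refine Finsupp.ext fun σ => ?_
    have h1 := (mem_tY.1 hx σ).1
    rw [h _ (by omega)] at h1
    exact (Submodule.mem_bot K).1 h1
  refine ⟨0, Submodule.zero_mem _, ?_⟩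
  rw [map_zero]
  exact hx0.symm

/-- **the degree induction of (S3)**.  `V j` a family of left modules starting in degree `lo`,
`W j → V j` (`hW`: acyclicity in low degrees passes from `Y ⊗ W j` to `Y ⊗ V j`),
`0 → U j → E j → W j → 0` exact, `Y ⊗ E j` acyclic, and the low degree acyclicity of all the
`Y ⊗ V j'` gives the low degree acyclicity of `Y ⊗ U j` (filtration of `M ⊗ Q`). -/
theorem deg_ind {J : Type} (Y : RCells A) (V U E W : J → LM A) (lo : ℤ)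
    (hV : ∀ j, ∀ k < lo, (V j).gr k = ⊥)
    (S : ∀ j, LSes (U j) (E j) (W j))
    (hE : ∀ j, Ac (tY Y (E j)))
    (hW : ∀ j s, AcUp s (tY Y (W j)) → AcUp s (tY Y (V j)))
    (hU : ∀ s, (∀ j, AcUp s (tY Y (V j))) → ∀ j, AcUp s (tY Y (U j))) :
    ∀ j, Ac (tY Y (V j)) := by
  have key : ∀ n : ℕ, ∀ j, AcUp (lo - 1 + n) (tY Y (V j)) := by
    intro n
    induction n with
    | zero =>
      intro j
      exact tY_low Y (hV j) (by push_cast; omega)
    | succ n ih =>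
      intro j
      have h1 := hU _ ih j
      have h2 := (tY_ses Y (S j)).right (s := lo - 1 + n) (AcUp.of_ac (hE j) _) h1
      have h3 := hW j _ h2
      have : lo - 1 + (n : ℤ) + 1 = lo - 1 + ((n + 1 : ℕ) : ℤ) := by push_cast; ring
      rwa [this] at h3
  intro j k x hx hd
  refine key (k - (lo - 1)).toNat j k ?_ x hx hd
  have := Int.self_le_toNat (k - (lo - 1))
  omega

end tY

/-! ### part 2: exact sequences of bimodules, the kernel of `Γ → L''` -/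

section tP

variable {A B : DGA K}

/-- exact sequences of bimodules -/
structure BSes (M P Q : BM A B) where
  i : M.X →ₗ[K] P.X
  i_mem : ∀ {k : ℤ} {x : M.X}, x ∈ M.gr k → i x ∈ P.gr k
  i_d : ∀ x : M.X, i (M.d x) = P.d (i x)
  i_l : ∀ (a : A.C) (x : M.X), i (a • x) = a • i x
  i_r : ∀ (b : B.C) (x : M.X), i (op b • x) = op b • i x
  p : P.X →ₗ[K] Q.X
  p_mem : ∀ {k : ℤ} {x : P.X}, x ∈ P.gr k → p x ∈ Q.gr k
  p_d : ∀ x : P.X, p (P.d x) = Q.d (p x)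
  p_l : ∀ (a : A.C) (x : P.X), p (a • x) = a • p x
  p_r : ∀ (b : B.C) (x : P.X), p (op b • x) = op b • p x
  inj : ∀ {k : ℤ} {x : M.X}, x ∈ M.gr k → i x = 0 → x = 0
  zero : ∀ x : M.X, p (i x) = 0
  ex : ∀ {k : ℤ} {y : P.X}, y ∈ P.gr k → p y = 0 → ∃ x ∈ M.gr k, i x = y
  sur : ∀ {k : ℤ} {z : Q.X}, z ∈ Q.gr k → ∃ y ∈ P.gr k, p y = z

theorem mem_tG {G : RM B} {X : LCells B} {k : ℤ} {x : X.ι →₀ G.X} :
    x ∈ (twG G X).gr k ↔ ∀ σ, x σ ∈ G.gr (k - X.s σ) ∧ op (X.e σ) • x σ = x σ := Iff.rfl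

section

variable {P Q : BM A B} (X : LCells B) (f : P.X →ₗ[K] Q.X)

/-- `f ⊗ X` on families -/
noncomputable def fP : (X.ι →₀ P.X) →ₗ[K] (X.ι →₀ Q.X) := Finsupp.mapRange.linearMap f

theorem fP_apply (x : X.ι →₀ P.X) (σ : X.ι) : fP X f x σ = f (x σ) := rfl

theorem fP_dd (fd : ∀ x, f (P.d x) = Q.d (f x)) (fr : ∀ (b : B.C) x, f (op b • x) = op b • f x)
    (x : X.ι →₀ P.X) :
    fP X f ((twG P.toRM X).dd x) = (twG Q.toRM X).dd (fP X f x) := by
  refine Finsupp.ext fun τ => ?_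
  have hs : (fP X f x).support ⊆ x.support := Finsupp.support_mapRange (hf := map_zero f)
  refine Eq.trans ?_ ((twG Q.toRM X).dd_apply' (fP X f x) x.support hs τ).symm
  refine Eq.trans (congrArg f ((twG P.toRM X).dd_apply' x x.support (Finset.Subset.refl _) τ)) ?_
  have h1 := map_add f (P.d (x τ)) (∑ σ ∈ x.support, op (X.c σ τ) • x σ)
  have h2 := map_sum f (fun σ => op (X.c σ τ) • x σ) x.support
  refine h1.trans ?_
  rw [h2, fd]
  refine congrArg₂ (· + ·) rfl (Finset.sum_congr rfl fun σ _ => ?_)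
  exact fr _ _

theorem fP_mem (fm : ∀ {k : ℤ} {x : P.X}, x ∈ P.gr k → f x ∈ Q.gr k)
    (fr : ∀ (b : B.C) x, f (op b • x) = op b • f x) {k : ℤ} {x : X.ι →₀ P.X}
    (hx : x ∈ (twG P.toRM X).gr k) : fP X f x ∈ (twG Q.toRM X).gr k := by
  intro σ
  have h := hx σ
  have h2 : op (X.e σ) • x σ = x σ := h.2
  refine ⟨fm h.1, ?_⟩
  change op (X.e σ) • f (x σ) = f (x σ)
  rw [← fr, h2]

end

variable {M P Q : BM A B} (S : BSes M P Q) (X : LCells B)

/-- `P ⊗ X → Q ⊗ X` -/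
noncomputable def lhomP : LHom (tP P X) (tP Q X) where
  f := fP X S.p
  f_mem := fP_mem X S.p S.p_mem S.p_r
  f_d := fP_dd X S.p S.p_d S.p_r
  smul a x := by
    refine Finsupp.ext fun σ => ?_
    exact S.p_l a _

/-- `M ⊗ X → P ⊗ X` -/
noncomputable def lhomI : LHom (tP M X) (tP P X) where
  f := fP X S.i
  f_mem := fP_mem X S.i S.i_mem S.i_r
  f_d := fP_dd X S.i S.i_d S.i_r
  smul a x := by
    refine Finsupp.ext fun σ => ?_
    exact S.i_l a _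

theorem sesP_inj {k : ℤ} {x : X.ι →₀ M.X} (hx : x ∈ (twG M.toRM X).gr k)
    (h : fP X S.i x = 0) : x = 0 := by
  refine Finsupp.ext fun σ => ?_
  exact S.inj (hx σ).1 (DFunLike.congr_fun h σ)

theorem sesP_ex {k : ℤ} {y : X.ι →₀ P.X} (hy : y ∈ (twG P.toRM X).gr k)
    (h : fP X S.p y = 0) : ∃ x ∈ (twG M.toRM X).gr k, fP X S.i x = y := by
  have hσ : ∀ σ : X.ι, ∃ x : M.X, (x ∈ M.gr (k - X.s σ) ∧ op (X.e σ) • x = x) ∧
      S.i x = y σ := by
    intro σ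
    have h1 := hy σ
    have h2 : op (X.e σ) • y σ = y σ := h1.2
    obtain ⟨x, hx, hxy⟩ := S.ex h1.1 (DFunLike.congr_fun h σ)
    refine ⟨op (X.e σ) • x, ⟨?_, ?_⟩, ?_⟩
    · have := M.smul_memR (X.e_mem σ) hx
      rwa [zero_add] at this
    · rw [smul_smul, ← op_mul, X.e_idem]
    · rw [S.i_r, hxy, h2]
  obtain ⟨x, hx⟩ := exists_fam y (fun σ x => x ∈ M.gr (k - X.s σ) ∧ op (X.e σ) • x = x)
    (fun x => S.i x) (fun σ => ⟨Submodule.zero_mem _, smul_zero _⟩) (map_zero _) hσ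
  exact ⟨x, fun σ => (hx σ).1, Finsupp.ext fun σ => (hx σ).2⟩

theorem sesP_sur {k : ℤ} {z : X.ι →₀ Q.X} (hz : z ∈ (twG Q.toRM X).gr k) :
    ∃ y ∈ (twG P.toRM X).gr k, fP X S.p y = z := by
  have hσ : ∀ σ : X.ι, ∃ x : P.X, (x ∈ P.gr (k - X.s σ) ∧ op (X.e σ) • x = x) ∧
      S.p x = z σ := by
    intro σ
    have h1 := hz σ
    have h2 : op (X.e σ) • z σ = z σ := h1.2
    obtain ⟨x, hx, hxy⟩ := S.sur h1.1
    refine ⟨op (X.e σ) • x, ⟨?_, ?_⟩, ?_⟩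
    · have := P.smul_memR (X.e_mem σ) hx
      rwa [zero_add] at this
    · rw [smul_smul, ← op_mul, X.e_idem]
    · rw [S.p_r, hxy, h2]
  obtain ⟨x, hx⟩ := exists_fam z (fun σ x => x ∈ P.gr (k - X.s σ) ∧ op (X.e σ) • x = x)
    (fun x => S.p x) (fun σ => ⟨Submodule.zero_mem _, smul_zero _⟩) (map_zero _) hσ
  exact ⟨x, fun σ => (hx σ).1, Finsupp.ext fun σ => (hx σ).2⟩

/-- `· ⊗ X` is exact -/
noncomputable def tP_ses : LSes (tP M X) (tP P X) (tP Q X) where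
  i := lhomI S X
  p := lhomP S X
  inj := sesP_inj S X
  zero _ := Finsupp.ext fun _ => S.zero _
  ex := sesP_ex S X
  sur := sesP_sur S X

end tP

section ker

variable {A B : DGA K} (h : Hm B A) (π : Hm A B)

/-- `M` is the kernel of `π : Γ → L''`, `h : L'' → Γ` a section -/
structure Kr (M : BM A B) where
  sec : ∀ b, π.f (h.f b) = b
  i : M.X →ₗ[K] A.C
  i_mem : ∀ {k : ℤ} {x : M.X}, x ∈ M.gr k → i x ∈ A.G k
  i_d : ∀ x : M.X, i (M.d x) = A.D (i x)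
  i_l : ∀ (a : A.C) (x : M.X), i (a • x) = a * i x
  i_r : ∀ (b : B.C) (x : M.X), i (op b • x) = i x * h.f b
  inj : ∀ {k : ℤ} {x : M.X}, x ∈ M.gr k → i x = 0 → x = 0
  zero : ∀ x : M.X, π.f (i x) = 0
  ex : ∀ {k : ℤ} {y : A.C}, y ∈ A.G k → π.f y = 0 → ∃ x ∈ M.gr k, i x = y

/-- `0 → M → Γ → L'' → 0` as `(Γ, L'')`-bimodules -/
noncomputable def Kr.ses {M : BM A B} (k : Kr h π M) :
    BSes M (resBR h (selfB A)) (resBL π (selfB B)) where
  i := k.i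
  i_mem := k.i_mem
  i_d := k.i_d
  i_l := k.i_l
  i_r := k.i_r
  p := π.f.toLinearMap
  p_mem := π.mem
  p_d := π.D
  p_l a x := map_mul π.f a x
  p_r b x := by
    have h1 := map_mul π.f (show A.C from x) (h.f b)
    rw [k.sec] at h1
    exact h1
  inj := k.inj
  zero := k.zero
  ex := k.ex
  sur := by
    intro l z hz
    exact ⟨h.f z, h.mem hz, k.sec z⟩

end ker

end Crest.Agent.R186.S3i774
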