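import Crest.Agent.R186.S3i_774

/-!
Row 186 (helper774), half (A): mirror of `S3i_774`: exact sequences of right modules through
`tG · X`, of bimodules through `tQ Y ·`; `0 → M → Γ → L'' → 0` as `(L'', Γ)`-bimodules.
-/

set_option autoImplicit false
set_option linter.style.haveILetI false
set_option linter.unusedSectionVars false
set_option linter.unusedSimpArgs false

open MulOpposite

namespace Crest.Agent.R186.S3r774

open Hat827 Hat827.DGA Frame515 Res255 S3i774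

variable {K : Type} [Field K]

/-- morphisms of right dg modules -/
structure RHom {A : DGA K} (N N' : RM A) extends GCHom N.toGC N'.toGC where
  smul : ∀ (a : A.C) (x : N.X), f (op a • x) = op a • f x

/-- exact sequences of right modules -/
structure RSes {A : DGA K} (N N' N'' : RM A) where
  i : RHom N N'
  p : RHom N' N''
  inj : ∀ {k : ℤ} {x : N.X}, x ∈ N.gr k → i.f x = 0 → x = 0
  zero : ∀ x : N.X, p.f (i.f x) = 0
  ex : ∀ {k : ℤ} {y : N'.X}, y ∈ N'.gr k → p.f y = 0 → ∃ x ∈ N.gr k, i.f x = y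
  sur : ∀ {k : ℤ} {z : N''.X}, z ∈ N''.gr k → ∃ y ∈ N'.gr k, p.f y = z

section tG

variable {A : DGA K}

/-- `φ ⊗ X` on families -/
noncomputable def fG (X : LCells A) {N N' : RM A} (φ : RHom N N') :
    (X.ι →₀ N.X) →ₗ[K] (X.ι →₀ N'.X) := Finsupp.mapRange.linearMap φ.f

theorem fG_apply (X : LCells A) {N N' : RM A} (φ : RHom N N') (x : X.ι →₀ N.X) (σ : X.ι) :
    fG X φ x σ = φ.f (x σ) := rfl

theorem fG_dd (X : LCells A) {N N' : RM A} (φ : RHom N N') (x : X.ι →₀ N.X) :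
    fG X φ ((twG N X).dd x) = (twG N' X).dd (fG X φ x) := by
  refine Finsupp.ext fun τ => ?_
  have hs : (fG X φ x).support ⊆ x.support := Finsupp.support_mapRange (hf := map_zero φ.f)
  refine Eq.trans ?_ ((twG N' X).dd_apply' (fG X φ x) x.support hs τ).symm
  refine Eq.trans (congrArg φ.f ((twG N X).dd_apply' x x.support (Finset.Subset.refl _) τ)) ?_
  have h1 := map_add φ.f (N.d (x τ)) (∑ σ ∈ x.support, op (X.c σ τ) • x σ)
  have h2 := map_sum φ.f (fun σ => op (X.c σ τ) • x σ) x.support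
  refine h1.trans ?_
  rw [h2, φ.f_d]
  refine congrArg₂ (· + ·) rfl (Finset.sum_congr rfl fun σ _ => ?_)
  exact φ.smul _ _

theorem fG_mem (X : LCells A) {N N' : RM A} (φ : RHom N N') {k : ℤ} {x : X.ι →₀ N.X}
    (hx : x ∈ (twG N X).gr k) : fG X φ x ∈ (twG N' X).gr k := by
  rw [mem_tG] at hx ⊢
  intro σ
  refine ⟨φ.f_mem (hx σ).1, ?_⟩
  rw [fG_apply, ← φ.smul, (hx σ).2]

/-- `φ ⊗ X` -/
noncomputable def tGmap (X : LCells A) {N N' : RM A} (φ : RHom N N') :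
    GCHom (tG N X) (tG N' X) where
  f := fG X φ
  f_mem := fG_mem X φ
  f_d := fG_dd X φ

variable (X : LCells A) {N N' N'' : RM A} (S : RSes N N' N'')

theorem sesG_inj {k : ℤ} {x : X.ι →₀ N.X}
    (hx : x ∈ (twG N X).gr k) (h : fG X S.i x = 0) : x = 0 := by
  rw [mem_tG] at hx
  refine Finsupp.ext fun σ => ?_
  exact S.inj (hx σ).1 (DFunLike.congr_fun h σ)

theorem sesG_ex {k : ℤ} {y : X.ι →₀ N'.X}
    (hy : y ∈ (twG N' X).gr k) (h : fG X S.p y = 0) :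
    ∃ x ∈ (twG N X).gr k, fG X S.i x = y := by
  rw [mem_tG] at hy
  have hσ : ∀ σ : X.ι, ∃ x : N.X, (x ∈ N.gr (k - X.s σ) ∧ op (X.e σ) • x = x) ∧
      S.i.f x = y σ := by
    intro σ
    obtain ⟨x, hx, hxy⟩ := S.ex (hy σ).1 (DFunLike.congr_fun h σ)
    refine ⟨op (X.e σ) • x, ⟨?_, ?_⟩, ?_⟩
    · have := N.smul_mem (X.e_mem σ) hx
      rwa [zero_add] at this
    · rw [smul_smul, ← op_mul, X.e_idem]
    · rw [S.i.smul, hxy, (hy σ).2]
  obtain ⟨x, hx⟩ := exists_fam y (fun σ x => x ∈ N.gr (k - X.s σ) ∧ op (X.e σ) • x = x)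
    (fun x => S.i.f x) (fun σ => ⟨Submodule.zero_mem _, smul_zero _⟩) (map_zero _) hσ
  exact ⟨x, fun σ => (hx σ).1, Finsupp.ext fun σ => (hx σ).2⟩

theorem sesG_sur {k : ℤ} {z : X.ι →₀ N''.X} (hz : z ∈ (twG N'' X).gr k) :
    ∃ y ∈ (twG N' X).gr k, fG X S.p y = z := by
  rw [mem_tG] at hz
  have hσ : ∀ σ : X.ι, ∃ x : N'.X, (x ∈ N'.gr (k - X.s σ) ∧ op (X.e σ) • x = x) ∧
      S.p.f x = z σ := by
    intro σ
    obtain ⟨x, hx, hxy⟩ := S.sur (hz σ).1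
    refine ⟨op (X.e σ) • x, ⟨?_, ?_⟩, ?_⟩
    · have := N'.smul_mem (X.e_mem σ) hx
      rwa [zero_add] at this
    · rw [smul_smul, ← op_mul, X.e_idem]
    · rw [S.p.smul, hxy, (hz σ).2]
  obtain ⟨x, hx⟩ := exists_fam z (fun σ x => x ∈ N'.gr (k - X.s σ) ∧ op (X.e σ) • x = x)
    (fun x => S.p.f x) (fun σ => ⟨Submodule.zero_mem _, smul_zero _⟩) (map_zero _) hσ
  exact ⟨x, fun σ => (hx σ).1, Finsupp.ext fun σ => (hx σ).2⟩

/-- `· ⊗ X` is exact on right modules -/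
noncomputable def tG_ses : Ses (tG N X) (tG N' X) (tG N'' X) where
  i := tGmap X S.i
  p := tGmap X S.p
  inj := sesG_inj X S
  zero _ := Finsupp.ext fun _ => S.zero _
  ex := sesG_ex X S
  sur := sesG_sur X S

end tG

section tQ

variable {A B : DGA K} (Y : RCells A)

section

variable {P Q : BM A B} (f : P.X →ₗ[K] Q.X)

/-- `Y ⊗ f` on families -/
noncomputable def fQ : (Y.ι →₀ P.X) →ₗ[K] (Y.ι →₀ Q.X) := Finsupp.mapRange.linearMap f

theorem fQ_apply (x : Y.ι →₀ P.X) (σ : Y.ι) : fQ Y f x σ = f (x σ) := rfl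

theorem fQ_dd (fd : ∀ x, f (P.d x) = Q.d (f x)) (fl : ∀ (a : A.C) x, f (a • x) = a • f x)
    (x : Y.ι →₀ P.X) :
    fQ Y f ((twY Y P.toLM).dd x) = (twY Y Q.toLM).dd (fQ Y f x) := by
  refine Finsupp.ext fun τ => ?_
  have hs : (fQ Y f x).support ⊆ x.support := Finsupp.support_mapRange (hf := map_zero f)
  refine Eq.trans ?_ ((twY Y Q.toLM).dd_apply' (fQ Y f x) x.support hs τ).symm
  refine Eq.trans (congrArg f ((twY Y P.toLM).dd_apply' x x.support (Finset.Subset.refl _) τ)) ?_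
  have h1 := map_add f (P.d (x τ)) (∑ σ ∈ x.support, Y.c τ σ • x σ)
  have h2 := map_sum f (fun σ => Y.c τ σ • x σ) x.support
  refine h1.trans ?_
  rw [h2, fd]
  refine congrArg₂ (· + ·) rfl (Finset.sum_congr rfl fun σ _ => ?_)
  exact fl _ _

theorem fQ_mem (fm : ∀ {k : ℤ} {x : P.X}, x ∈ P.gr k → f x ∈ Q.gr k)
    (fl : ∀ (a : A.C) x, f (a • x) = a • f x) {k : ℤ} {x : Y.ι →₀ P.X}
    (hx : x ∈ (twY Y P.toLM).gr k) : fQ Y f x ∈ (twY Y Q.toLM).gr k := by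
  intro σ
  have h := hx σ
  have h2 : Y.e σ • x σ = x σ := h.2
  refine ⟨fm h.1, ?_⟩
  change Y.e σ • f (x σ) = f (x σ)
  rw [← fl, h2]

end

variable {M P Q : BM A B} (S : BSes M P Q)

/-- `Y ⊗ P → Y ⊗ Q` -/
noncomputable def rhomP : RHom (tQ Y P) (tQ Y Q) where
  f := fQ Y S.p
  f_mem := fQ_mem Y S.p S.p_mem S.p_l
  f_d := fQ_dd Y S.p S.p_d S.p_l
  smul b x := by
    refine Finsupp.ext fun σ => ?_
    exact S.p_r b _

/-- `Y ⊗ M → Y ⊗ P` -/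
noncomputable def rhomI : RHom (tQ Y M) (tQ Y P) where
  f := fQ Y S.i
  f_mem := fQ_mem Y S.i S.i_mem S.i_l
  f_d := fQ_dd Y S.i S.i_d S.i_l
  smul b x := by
    refine Finsupp.ext fun σ => ?_
    exact S.i_r b _

theorem sesQ_inj {k : ℤ} {x : Y.ι →₀ M.X} (hx : x ∈ (twY Y M.toLM).gr k)
    (h : fQ Y S.i x = 0) : x = 0 := by
  refine Finsupp.ext fun σ => ?_
  exact S.inj (hx σ).1 (DFunLike.congr_fun h σ)

theorem sesQ_ex {k : ℤ} {y : Y.ι →₀ P.X} (hy : y ∈ (twY Y P.toLM).gr k)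
    (h : fQ Y S.p y = 0) : ∃ x ∈ (twY Y M.toLM).gr k, fQ Y S.i x = y := by
  have hσ : ∀ σ : Y.ι, ∃ x : M.X, (x ∈ M.gr (k - Y.s σ) ∧ Y.e σ • x = x) ∧
      S.i x = y σ := by
    intro σ
    have h1 := hy σ
    have h2 : Y.e σ • y σ = y σ := h1.2
    obtain ⟨x, hx, hxy⟩ := S.ex h1.1 (DFunLike.congr_fun h σ)
    refine ⟨Y.e σ • x, ⟨?_, ?_⟩, ?_⟩
    · have := M.smul_mem (Y.e_mem σ) hx
      rwa [zero_add] at this
    · rw [smul_smul, Y.e_idem]
    · rw [S.i_l, hxy, h2]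
  obtain ⟨x, hx⟩ := exists_fam y (fun σ x => x ∈ M.gr (k - Y.s σ) ∧ Y.e σ • x = x)
    (fun x => S.i x) (fun σ => ⟨Submodule.zero_mem _, smul_zero _⟩) (map_zero _) hσ
  exact ⟨x, fun σ => (hx σ).1, Finsupp.ext fun σ => (hx σ).2⟩

theorem sesQ_sur {k : ℤ} {z : Y.ι →₀ Q.X} (hz : z ∈ (twY Y Q.toLM).gr k) :
    ∃ y ∈ (twY Y P.toLM).gr k, fQ Y S.p y = z := by
  have hσ : ∀ σ : Y.ι, ∃ x : P.X, (x ∈ P.gr (k - Y.s σ) ∧ Y.e σ • x = x) ∧
      S.p x = z σ := by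
    intro σ
    have h1 := hz σ
    have h2 : Y.e σ • z σ = z σ := h1.2
    obtain ⟨x, hx, hxy⟩ := S.sur h1.1
    refine ⟨Y.e σ • x, ⟨?_, ?_⟩, ?_⟩
    · have := P.smul_mem (Y.e_mem σ) hx
      rwa [zero_add] at this
    · rw [smul_smul, Y.e_idem]
    · rw [S.p_l, hxy, h2]
  obtain ⟨x, hx⟩ := exists_fam z (fun σ x => x ∈ P.gr (k - Y.s σ) ∧ Y.e σ • x = x)
    (fun x => S.p x) (fun σ => ⟨Submodule.zero_mem _, smul_zero _⟩) (map_zero _) hσ
  exact ⟨x, fun σ => (hx σ).1, Finsupp.ext fun σ => (hx σ).2⟩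

/-- `Y ⊗ ·` is exact on bimodules -/
noncomputable def tQ_ses : RSes (tQ Y M) (tQ Y P) (tQ Y Q) where
  i := rhomI Y S
  p := rhomP Y S
  inj := sesQ_inj Y S
  zero _ := Finsupp.ext fun _ => S.zero _
  ex := sesQ_ex Y S
  sur := sesQ_sur Y S

end tQ

section ker

variable {A B : DGA K} (h : Hm B A) (π : Hm A B)

/-- `M` is the kernel of `π : Γ → L''`, `h : L'' → Γ` a section; `M` as an `(L'', Γ)`-bimodule -/
structure KrR (M : BM B A) where
  sec : ∀ b, π.f (h.f b) = b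
  i : M.X →ₗ[K] A.C
  i_mem : ∀ {k : ℤ} {x : M.X}, x ∈ M.gr k → i x ∈ A.G k
  i_d : ∀ x : M.X, i (M.d x) = A.D (i x)
  i_l : ∀ (b : B.C) (x : M.X), i (b • x) = h.f b * i x
  i_r : ∀ (a : A.C) (x : M.X), i (op a • x) = i x * a
  inj : ∀ {k : ℤ} {x : M.X}, x ∈ M.gr k → i x = 0 → x = 0
  zero : ∀ x : M.X, π.f (i x) = 0
  ex : ∀ {k : ℤ} {y : A.C}, y ∈ A.G k → π.f y = 0 → ∃ x ∈ M.gr k, i x = y

/-- `0 → M → Γ → L'' → 0` as `(L'', Γ)`-bimodules -/
noncomputable def KrR.ses {M : BM B A} (k : KrR h π M) :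
    BSes M (resBL h (selfB A)) (resBR π (selfB B)) where
  i := k.i
  i_mem := k.i_mem
  i_d := k.i_d
  i_l := k.i_l
  i_r := k.i_r
  p := π.f.toLinearMap
  p_mem := π.mem
  p_d := π.D
  p_l b x := by
    have h1 := map_mul π.f (h.f b) (show A.C from x)
    rw [k.sec] at h1
    exact h1
  p_r a x := map_mul π.f (show A.C from x) a
  inj := k.inj
  zero := k.zero
  ex := k.ex
  sur := by
    intro l z hz
    exact ⟨h.f z, h.mem hz, k.sec z⟩

end ker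

end Crest.Agent.R186.S3r774
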