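import Crest.Agent.R186.Tau_890

/-!
Row 186, half (A) (helper890), part 3: the right action on `M_0 = R'' (x)_W DW`:
`(s · o_q) · r = (s * tau_q r) · o_q`.
-/

set_option autoImplicit false
set_option linter.unusedSimpArgs false

noncomputable section

namespace Crest.Agent.R186.SM890

open DefsQ830 DefsQ830.Gen PBW128

variable {K : Type} [Field K]

/-- length -/
def nq : Wb → ℕ
  | .one => 0
  | .y _ => 1
  | .yb _ => 1
  | .pi => 2

/-- character against `u 0` -/
def bq (π : Par K) : Wb → K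
  | .one => 1
  | .y _ => π.p
  | .yb s => if s = 0 then π.q1 else π.q2
  | .pi => π.p * π.p

theorem bq_ne (π : Par K) (q : Wb) : bq π q ≠ 0 := by
  have p0 := π.p0
  have q10 := π.q10
  have q20 := π.q20
  cases q <;> simp only [bq] <;> (try split) <;> simp [p0, q10, q20]

theorem c_ne (π : Par K) (i : Fin 2) : π.c i ≠ 0 := by
  rcases fin2 i with rfl | rfl <;> simp [Par.c, π.g0]

/-- the point of the torus belonging to `o_q` -/
def Tq (π : Par K) (q : Wb) : Tor K where
  a0 := π.c 0 ^ nq q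
  a1 := π.c 1 ^ nq q
  b := (bq π q)⁻¹
  h0 := pow_ne_zero _ (c_ne π 0)
  h1 := pow_ne_zero _ (c_ne π 1)
  hb := inv_ne_zero (bq_ne π q)

/-- target of `wq q1 · o_q` -/
def tW : Wb → Wb → Wb
  | .one, q => q
  | .y s, q => dt (.y s) q
  | .yb s, q => dt (.yb s) q
  | .pi, q => dt (.y 0) (dt (.y 1) q)

/-- coefficient of `wq q1 · o_q` -/
def cW (π : Par K) : Wb → Wb → K
  | .one, _ => 1
  | .y s, q => dk π (.y s) q
  | .yb s, q => dk π (.yb s) q
  | .pi, q => dk π (.y 1) q * dk π (.y 0) (dt (.y 1) q)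

theorem sc_nil (π : Par K) (a : Y) : sc π a 0 0 [] = 1 := by simp [sc]

theorem repM_wq (π : Par K) (q1 q : Wb) :
    repM π (wq π q1) (oo K q) = cW π q1 q • oo K (tW q1 q) := by
  cases q1 with
  | one => simp [wq_one, cW, tW]
  | y s => rw [wq_y, show X π (.y s) = X π (Y.y s).toGen from rfl, repM_Y, oo, opD_bv, sc_nil, one_mul]; rfl
  | yb s =>
    rw [wq_yb, show X π (.yb s) = X π (Y.yb s).toGen from rfl, repM_Y, oo, opD_bv, sc_nil, one_mul]; rfl
  | pi =>
    rw [wq_pi, map_mul, Module.End.mul_apply, show X π (.y 1) = X π (Y.y 1).toGen from rfl,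
      show X π (.y 0) = X π (Y.y 0).toGen from rfl, repM_Y, repM_Y, oo, opD_bv, sc_nil, one_mul,
      map_smul, opD_bv, sc_nil, one_mul, smul_smul]
    rfl

/-- `Y` as element of `Wb` -/
def yw : Y → Wb
  | .y s => .y s
  | .yb s => .yb s

theorem wq_yw (π : Par K) (a : Y) : wq π (yw a) = X π a.toGen := by
  cases a with
  | y s => exact wq_y π s
  | yb s => exact wq_yb π s

/-- the bimodule identity on `DW` -/
theorem tab (π : Par K) (q1 q : Wb) (a : Y) :
    (tw (Tq π q) a.toGen * wkr π q1 a * cW π (wtr q1 a) q = 0 ∧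
      cW π q1 q * tw (Tq π (tW q1 q)) a.toGen * cW π (yw a) (tW q1 q) = 0) ∨
    (tw (Tq π q) a.toGen * wkr π q1 a * cW π (wtr q1 a) q =
      cW π q1 q * tw (Tq π (tW q1 q)) a.toGen * cW π (yw a) (tW q1 q) ∧
      tW (wtr q1 a) q = tW (yw a) (tW q1 q)) := by
  have p0 := π.p0
  have q10 := π.q10
  have q20 := π.q20
  have h10 : (1 : Fin 2) ≠ 0 := by decide
  have h01 : (0 : Fin 2) ≠ 1 := by decide
  rcases q1 with _ | s | s | _ <;> rcases q with _ | s' | s' | _ <;> rcases a with s'' | s'' <;>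
    (try rcases fin2 s with rfl | rfl) <;> (try rcases fin2 s' with rfl | rfl) <;>
    rcases fin2 s'' with rfl | rfl <;>
    first
    | (left; constructor <;> simp [tw, Tq, wkr, wtr, cW, tW, dk, dt, yw, bq, Y.toGen, sg, h10, h01]; done)
    | (right; refine ⟨?_, rfl⟩;
       simp [tw, Tq, wkr, wtr, cW, tW, dk, dt, yw, bq, Y.toGen, sg, h10, h01, p0, q10, q20]; done)
    | (right; refine ⟨?_, rfl⟩;
       simp [tw, Tq, wkr, wtr, cW, tW, dk, dt, yw, bq, Y.toGen, sg, h10, h01, p0, q10, q20]; field_simp; done)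

end Crest.Agent.R186.SM890
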