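import Crest.Agent.R186.SMa_890

/-!
Row 186, half (A) (helper890), part 4: the right action `rho` and the differential `dM` on
`M_0 = R'' (x)_W DW`.
-/

set_option autoImplicit false
set_option linter.unusedSimpArgs false

noncomputable section

namespace Crest.Agent.R186.SM890

open DefsQ830 DefsQ830.Gen PBW128

variable {K : Type} [Field K]

theorem tw_chiq (π : Par K) (q : Wb) (l : E) : tw (Tq π q) l.toGen * chiq π q l = 1 := by
  have p0 := π.p0
  have q10 := π.q10
  have q20 := π.q20
  have hg := π.g0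
  have h10 : (1 : Fin 2) ≠ 0 := by decide
  rcases q with _ | s | s | _ <;> rcases l with j | _ | j | _ | j | j | j | _ | j <;>
    (try rcases fin2 s with rfl | rfl) <;> (try rcases fin2 j with rfl | rfl) <;>
    simp [tw, Tq, chiq, chi, nq, bq, E.toGen, sg, h10, Par.c, Par.cz, Par.ch, Par.chiy, Par.chiyb,
      p0, q10, q20, hg, sq] <;>
    field_simp

theorem wq_x (π : Par K) (q : Wb) (i : Fin 2) :
    tw (Tq π q) (.x i) • (wq π q * X π (.x i)) = X π (.x i) * wq π q := by
  have hc := c_ne π i
  have ht : tw (Tq π q) (.x i) = π.c i ^ nq q := by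
    rcases fin2 i with rfl | rfl <;> simp [tw, Tq]
  rw [ht]
  cases q with
  | one => simp [wq_one, nq]
  | y s =>
    rw [wq_y, show X π (.y s) = X π (Y.y s).toGen from rfl, rY, smul_smul]
    simp [nq, hc]
  | yb s =>
    rw [wq_yb, show X π (.yb s) = X π (Y.yb s).toGen from rfl, rY, smul_smul]
    simp [nq, hc]
  | pi =>
    rw [wq_pi, mul_assoc, show X π (.y 1) = X π (Y.y 1).toGen from rfl,
      show X π (.y 0) = X π (Y.y 0).toGen from rfl, rY, mul_smul_comm, ← mul_assoc, rY,
      smul_mul_assoc, smul_smul, smul_smul, mul_assoc]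
    simp only [nq]
    rw [show π.c i ^ 2 * ((π.c i)⁻¹ * (π.c i)⁻¹) = 1 by field_simp, one_smul, mul_assoc]

/-- letters outside `W` -/
def nonW : Gen → Bool
  | .y _ => false
  | .yb _ => false
  | _ => true

theorem wq_nonW (π : Par K) (q : Wb) (a : Gen) (ha : nonW a = true) :
    tw (Tq π q) a • (wq π q * X π a) = X π a * wq π q := by
  have hE : ∀ l : E, tw (Tq π q) l.toGen • (wq π q * X π l.toGen) = X π l.toGen * wq π q := by
    intro l
    rw [wq_mul_X, smul_smul, tw_chiq, one_smul]
  cases a with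
  | x i => exact wq_x π q i
  | h =>
    simp only [tw, one_smul]
    exact ((comm_h_wd π q.word).eq).symm
  | y s => simp [nonW] at ha
  | yb s => simp [nonW] at ha
  | d j => exact hE (.d j)
  | f => exact hE .f
  | z j => exact hE (.z j)
  | zc => exact hE .zc
  | u s => exact hE (.u s)
  | e j => exact hE (.e j)
  | gj j => exact hE (.gj j)
  | gc => exact hE .gc
  | v s => exact hE (.v s)

theorem cW_mul (π : Par K) (q1 q : Wb) :
    cW π q1 q = 0 ∨ (nq q = nq q1 + nq (tW q1 q) ∧ bq π q = bq π q1 * bq π (tW q1 q)) := by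
  have h10 : (1 : Fin 2) ≠ 0 := by decide
  have h01 : (0 : Fin 2) ≠ 1 := by decide
  rcases q1 with _ | s | s | _ <;> rcases q with _ | s' | s' | _ <;>
    (try rcases fin2 s with rfl | rfl) <;> (try rcases fin2 s' with rfl | rfl) <;>
    first
    | (left; simp [cW, dk, dt, h10, h01]; done)
    | (right; simp [nq, bq, tW, dt, h10, h01]; done)

theorem tw_mul (π : Par K) (q1 q q2 : Wb) (h1 : nq q = nq q1 + nq q2)
    (h2 : bq π q = bq π q1 * bq π q2) (a : Gen) :
    tw (Tq π q) a = tw (Tq π q1) a * tw (Tq π q2) a := by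
  cases a <;> simp only [tw, Tq, h1, h2, pow_add, sg, mul_inv, mul_one, inv_inv] <;>
    (try split) <;> simp

theorem P1 (π : Par K) (w : List Gen) (q1 q : Wb) :
    repM π (wq π q1 * tau π (Tq π q) (wd π w)) (oo K q) =
      cW π q1 q • repM π (tau π (Tq π (tW q1 q)) (wd π w)) (oo K (tW q1 q)) := by
  induction w generalizing q1 q with
  | nil =>
    have e : wd π [] = 1 := rfl
    rw [e, map_one, map_one, mul_one, repM_wq, map_one, Module.End.one_apply]
  | cons a w ih =>
    have e : wd π (a :: w) = X π a * wd π w := by simp [wd]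
    rw [e, map_mul (tau π (Tq π q)), map_mul (tau π (Tq π (tW q1 q))), tau_X, tau_X]
    by_cases ha : nonW a = true
    · -- letters outside `W`
      have key : wq π q1 * (tw (Tq π q) a • X π a * tau π (Tq π q) (wd π w)) =
          (tw (Tq π q) a * (tw (Tq π q1) a)⁻¹) •
            (X π a * (wq π q1 * tau π (Tq π q) (wd π w))) := by
        rw [← mul_assoc (X π a), ← wq_nonW π q1 a ha]
        have hne := tw_ne (Tq π q1) a
        simp only [smul_mul_assoc, mul_smul_comm, smul_smul]
        rw [mul_assoc (tw (Tq π q) a), inv_mul_cancel₀ hne, mul_one, mul_assoc]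
      rw [key, map_smul, LinearMap.smul_apply, map_mul, Module.End.mul_apply, ih, map_smul,
        smul_smul, smul_mul_assoc, map_smul, LinearMap.smul_apply, map_mul, Module.End.mul_apply,
        smul_smul]
      rcases cW_mul π q1 q with h0 | ⟨h1, h2⟩
      · rw [h0, mul_zero, zero_mul, zero_smul]
      · congr 1
        rw [tw_mul π q1 q _ h1 h2 a]
        have := tw_ne (Tq π q1) a
        field_simp
    · -- letters of `W`
      obtain ⟨a, rfl⟩ : ∃ b : Y, a = b.toGen := by
        cases a with
        | y s => exact ⟨.y s, rfl⟩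
        | yb s => exact ⟨.yb s, rfl⟩
        | _ => exact absurd rfl ha
      have key : wq π q1 * (tw (Tq π q) a.toGen • X π a.toGen * tau π (Tq π q) (wd π w)) =
          (tw (Tq π q) a.toGen * wkr π q1 a) •
            (wq π (wtr q1 a) * tau π (Tq π q) (wd π w)) := by
        rw [smul_mul_assoc, mul_smul_comm, ← mul_assoc, wq_mul_Y, smul_mul_assoc, smul_smul]
      rw [key, map_smul, LinearMap.smul_apply, ih, smul_smul, smul_mul_assoc, map_smul,
        LinearMap.smul_apply, ← wq_yw, ih, smul_smul, smul_smul]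
      rcases tab π q1 q a with ⟨h1, h2⟩ | ⟨h1, h2⟩
      · rw [h1, h2, zero_smul, zero_smul]
      · rw [h1, h2]

/-- linear functionals in `r` agreeing on words agree -/
theorem wd_ext (π : Par K) {M : Type*} [AddCommMonoid M] [Module K M] {φ ψ : R π →ₗ[K] M}
    (h : ∀ w, φ (wd π w) = ψ (wd π w)) : φ = ψ := by
  have h1 : φ ∘ₗ Psi π = ψ ∘ₗ Psi π := by
    apply ext_bv
    intro i j k w q
    rw [LinearMap.comp_apply, LinearMap.comp_apply]
    have : Psi π (bv K i j k w q) = wd π (nw (i, j, k, w, q)) := by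
      rw [wd_nw]
      simp [Psi, bv]
    rw [this]
    exact h _
  ext r
  have := LinearMap.congr_fun h1 (ev π r)
  rwa [LinearMap.comp_apply, LinearMap.comp_apply, Psi_ev] at this

/-- `repM (_ ) n` as a linear map -/
def evM (π : Par K) (n : N K) : R π →ₗ[K] N K where
  toFun r := repM π r n
  map_add' a b := by rw [map_add, LinearMap.add_apply]
  map_smul' c a := by rw [map_smul, LinearMap.smul_apply, RingHom.id_apply]

@[simp] theorem evM_apply (π : Par K) (n : N K) (r : R π) : evM π n r = repM π r n := rfl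

theorem P2 (π : Par K) (r : R π) (q1 q : Wb) :
    repM π (wq π q1 * tau π (Tq π q) r) (oo K q) =
      cW π q1 q • repM π (tau π (Tq π (tW q1 q)) r) (oo K (tW q1 q)) := by
  have h : (evM π (oo K q)) ∘ₗ (LinearMap.mulLeft K (wq π q1)) ∘ₗ (tau π (Tq π q)).toLinearMap =
      cW π q1 q • ((evM π (oo K (tW q1 q))) ∘ₗ (tau π (Tq π (tW q1 q))).toLinearMap) := by
    apply wd_ext
    intro w
    exact P1 π w q1 q
  exact LinearMap.congr_fun h r

/-- the right action -/
def rho (π : Par K) : R π →ₗ[K] (N K →ₗ[K] N K) where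
  toFun r := Finsupp.linearCombination K (fun ν : Ix =>
    repM π (nf1 π ν.1 ν.2.1 ν.2.2.1 ν.2.2.2.1 * tau π (Tq π ν.2.2.2.2) r) (oo K ν.2.2.2.2))
  map_add' a b := by
    apply ext_bv
    intro i j k w q
    simp [bv, mul_add]
  map_smul' c a := by
    apply ext_bv
    intro i j k w q
    simp [bv]

theorem rho_bv (π : Par K) (r : R π) (i j k : ℕ) (w : List E) (q : Wb) :
    rho π r (bv K i j k w q) = repM π (nf1 π i j k w * tau π (Tq π q) r) (oo K q) := by
  simp [rho, bv]

/-- linear maps on `R''` agree if they agree on `nf1 * wq` -/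
theorem nf_ext (π : Par K) {M : Type*} [AddCommMonoid M] [Module K M] {φ ψ : R π →ₗ[K] M}
    (h : ∀ i j k w q, φ (nf1 π i j k w * wq π q) = ψ (nf1 π i j k w * wq π q)) : φ = ψ := by
  have h1 : φ ∘ₗ Psi π = ψ ∘ₗ Psi π := by
    apply ext_bv
    intro i j k w q
    rw [LinearMap.comp_apply, LinearMap.comp_apply]
    have : Psi π (bv K i j k w q) = nf1 π i j k w * wq π q := by
      rw [← nf_eq]
      simp [Psi, bv]
    rw [this]
    exact h _ _ _ _ _
  ext r
  have := LinearMap.congr_fun h1 (ev π r)
  rwa [LinearMap.comp_apply, LinearMap.comp_apply, Psi_ev] at this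

theorem repM_nf (π : Par K) (i j k : ℕ) (w : List E) (q1 q : Wb) :
    repM π (nf1 π i j k w * wq π q1) (oo K q) = cW π q1 q • bv K i j k w (tW q1 q) := by
  rw [map_mul, Module.End.mul_apply, repM_wq, map_smul, repM_nf1]

/-- **(s o_q) r = (s tau_q(r)) o_q** -/
theorem rho_repM (π : Par K) (s r : R π) (q : Wb) :
    rho π r (repM π s (oo K q)) = repM π (s * tau π (Tq π q) r) (oo K q) := by
  have h : (rho π r) ∘ₗ (evM π (oo K q)) =
      (evM π (oo K q)) ∘ₗ (LinearMap.mulRight K (tau π (Tq π q) r)) := by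
    apply nf_ext π
    intro i j k w q1
    show rho π r (repM π (nf1 π i j k w * wq π q1) (oo K q)) =
      repM π (nf1 π i j k w * wq π q1 * tau π (Tq π q) r) (oo K q)
    rw [repM_nf, map_smul, rho_bv, mul_assoc, map_mul (repM π) (nf1 π i j k w) (wq π q1 * _),
      Module.End.mul_apply, P2, map_smul, map_mul, Module.End.mul_apply]
  exact LinearMap.congr_fun h s

/-- linear maps on `M_0` agree if they agree on the `s · o_q` -/
theorem so_ext (π : Par K) {M : Type*} [AddCommMonoid M] [Module K M] {φ ψ : N K →ₗ[K] M}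
    (h : ∀ s q, φ (repM π s (oo K q)) = ψ (repM π s (oo K q))) : φ = ψ := by
  apply ext_bv
  intro i j k w q
  have := h (nf1 π i j k w) q
  rwa [repM_nf1] at this

theorem rho_one (π : Par K) (n : N K) : rho π 1 n = n := by
  have h : rho π 1 = LinearMap.id := by
    apply so_ext π
    intro s q
    rw [rho_repM, map_one, mul_one, LinearMap.id_apply]
  rw [h, LinearMap.id_apply]

theorem rho_mul (π : Par K) (r s : R π) (n : N K) : rho π (r * s) n = rho π s (rho π r n) := by
  have h : rho π (r * s) = (rho π s) ∘ₗ (rho π r) := by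
    apply so_ext π
    intro a q
    rw [LinearMap.comp_apply, rho_repM, rho_repM, rho_repM, map_mul (tau π (Tq π q)), mul_assoc]
  rw [h, LinearMap.comp_apply]

theorem repM_repM (π : Par K) (s a : R π) (n : N K) : repM π s (repM π a n) = repM π (s * a) n := by
  rw [map_mul, Module.End.mul_apply]

theorem rho_comm (π : Par K) (r s : R π) (n : N K) :
    repM π s (rho π r n) = rho π r (repM π s n) := by
  have h : (repM π s) ∘ₗ (rho π r) = (rho π r) ∘ₗ (repM π s) := by
    apply so_ext π
    intro a q
    rw [LinearMap.comp_apply, LinearMap.comp_apply, rho_repM, repM_repM, repM_repM, rho_repM,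
      mul_assoc]
  exact LinearMap.congr_fun h n

/-! ### the differential -/

theorem D_wq (π : Par K) (q : Wb) : Der580.D π (wq π q) = 0 := by
  cases q with
  | one => rw [wq_one]; exact Der580.D_one π
  | y s => rw [wq_y, Der580.D_X]; simp [dGen]
  | yb s => rw [wq_yb, Der580.D_X]; simp [dGen]
  | pi => rw [wq_pi, Der580.D_mul, Der580.D_X, Der580.D_X]; simp [dGen]

/-- the differential of `M_0` -/
def dM (π : Par K) : N K →ₗ[K] N K :=
  Finsupp.linearCombination K (fun ν : Ix =>
    repM π (Der580.D π (nf1 π ν.1 ν.2.1 ν.2.2.1 ν.2.2.2.1)) (oo K ν.2.2.2.2))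

theorem dM_bv (π : Par K) (i j k : ℕ) (w : List E) (q : Wb) :
    dM π (bv K i j k w q) = repM π (Der580.D π (nf1 π i j k w)) (oo K q) := by
  simp [dM, bv]

/-- **d (s o_q) = (D s) o_q** -/
theorem dM_repM (π : Par K) (s : R π) (q : Wb) :
    dM π (repM π s (oo K q)) = repM π (Der580.D π s) (oo K q) := by
  have h : (dM π) ∘ₗ (evM π (oo K q)) = (evM π (oo K q)) ∘ₗ (Der580.D π) := by
    apply nf_ext π
    intro i j k w q1
    show dM π (repM π (nf1 π i j k w * wq π q1) (oo K q)) =
      repM π (Der580.D π (nf1 π i j k w * wq π q1)) (oo K q)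
    rw [repM_nf, map_smul, dM_bv, Der580.D_mul, D_wq, mul_zero, add_zero, map_mul,
      Module.End.mul_apply, repM_wq, map_smul]
  exact LinearMap.congr_fun h s

theorem dM_left (π : Par K) (s : R π) (n : N K) :
    dM π (repM π s n) = repM π (Der580.D π s) n + repM π s (dM π n) := by
  have h : (dM π) ∘ₗ (repM π s) = repM π (Der580.D π s) + (repM π s) ∘ₗ (dM π) := by
    apply so_ext π
    intro a q
    rw [LinearMap.comp_apply, LinearMap.add_apply, LinearMap.comp_apply, dM_repM,
      repM_repM, repM_repM, repM_repM, dM_repM, Der580.D_mul, map_add, LinearMap.add_apply]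
  exact LinearMap.congr_fun h n

theorem dM_right (π : Par K) (r : R π) (n : N K) :
    dM π (rho π r n) = rho π r (dM π n) + rho π (Der580.D π r) n := by
  have h : (dM π) ∘ₗ (rho π r) = (rho π r) ∘ₗ (dM π) + rho π (Der580.D π r) := by
    apply so_ext π
    intro a q
    rw [LinearMap.comp_apply, LinearMap.add_apply, LinearMap.comp_apply, dM_repM, rho_repM,
      dM_repM, rho_repM, rho_repM, Der580.D_mul, map_add, LinearMap.add_apply, tau_D]
  exact LinearMap.congr_fun h n

theorem dM_dM (π : Par K) (n : N K) : dM π (dM π n) = 0 := by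
  have h : (dM π) ∘ₗ (dM π) = 0 := by
    apply so_ext π
    intro a q
    rw [LinearMap.comp_apply, dM_repM, dM_repM, Der580.D_D, map_zero, LinearMap.zero_apply,
      LinearMap.zero_apply]
  exact LinearMap.congr_fun h n

end Crest.Agent.R186.SM890
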