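import Crest.Agent.R186.AcIff_492
import Crest.Agent.R186.FDual_162
import Crest.Agent.R186.FinV_988

/-!
Row 186 (A), (c1) from (c2''), the filtered lemma (helper721).

`Fil X Z lev h N` : a finite filtration `S 0 ⊇ S 1 ⊇ ... ⊇ S N = 0` of a graded complex `X` whose
graded pieces are copies of `Z`, one copy (shifted by `h q`) for every letter `q` with `lev q = n`.
`ce_fil` : a chain map of degree `lo` between two such complexes, inducing `g` on every copy, has an
exact cone if the cone of `g` is exact.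
`SocD` : the socle filtration of a module `M` against the filtration of `B`, with the pairing
`M × B → M`; `SocD.ce` : `Y ⊗ M → D(B)` has an exact cone if `Y ⊗ T → D(C)` has one.
-/

set_option autoImplicit false
set_option linter.unusedSectionVars false
set_option linter.style.haveILetI false

open MulOpposite

namespace Crest.Agent.R186.SocQ721

open Hat827 Hat827.DGA Frame515 AcIff492 FDual162 Res255 FinV988

variable {K : Type} [Field K]

/-- finite filtration with graded pieces copies of `Z` -/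
structure Fil (X Z : GC K) {Q : Type} [DecidableEq Q] (lev : Q → ℕ) (h : Q → ℤ) (N : ℕ) where
  S : ℕ → Submodule K X.X
  top : ∀ {k : ℤ} {x : X.X}, x ∈ X.gr k → x ∈ S 0
  bot : ∀ {k : ℤ} {x : X.X}, x ∈ X.gr k → x ∈ S N → x = 0
  S_d : ∀ {n : ℕ} {x : X.X}, x ∈ S n → X.d x ∈ S n
  P : Q → X.X →ₗ[K] Z.X
  R : Q → Z.X →ₗ[K] X.X
  P_mem : ∀ {q : Q} {k : ℤ} {x : X.X}, x ∈ S (lev q) → x ∈ X.gr k → P q x ∈ Z.gr (k + h q)
  P_d : ∀ {q : Q} {x : X.X}, x ∈ S (lev q) → Z.d (P q x) = P q (X.d x)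
  P_inj : ∀ {n : ℕ} {x : X.X}, n < N → x ∈ S n → (∀ q, lev q = n → P q x = 0) → x ∈ S (n + 1)
  R_mem : ∀ {q : Q} {k : ℤ} {z : Z.X}, z ∈ Z.gr (k + h q) → R q z ∈ X.gr k
  R_S : ∀ (q : Q) (z : Z.X), R q z ∈ S (lev q)
  P_R : ∀ (q q' : Q) (z : Z.X), lev q' = lev q → P q' (R q z) = if q' = q then z else 0

section fil

variable {X X' Z Z' : GC K} {Q : Type} [DecidableEq Q] [Fintype Q] {lev : Q → ℕ} {h : Q → ℤ} {N : ℕ}

theorem P_sum (a : Fil X Z lev h N) {n : ℕ} (z : Q → Z.X) (q : Q) (hq : lev q = n) :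
    a.P q (∑ p ∈ Finset.univ.filter (fun p => lev p = n), a.R p (z p)) = z q := by
  rw [map_sum, Finset.sum_eq_single q]
  · rw [a.P_R q q _ rfl, if_pos rfl]
  · intro p hp hpq
    have hp' := (Finset.mem_filter.1 hp).2
    rw [a.P_R p q _ (by rw [hq, hp']), if_neg (fun e => hpq e.symm)]
  · intro hn
    exact absurd (Finset.mem_filter.2 ⟨Finset.mem_univ q, hq⟩) hn

/-- **filtered maps** -/
theorem ce_fil (a : Fil X Z lev h N) (b : Fil X' Z' lev h N) (two : ∀ y : X'.X, y + y = 0) {lo : ℤ}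
    (f : X.X →ₗ[K] X'.X) (g : Z.X →ₗ[K] Z'.X)
    (hm : ∀ {j : ℤ} {x : X.X}, x ∈ X.gr j → f x ∈ X'.gr (lo + j))
    (hd : ∀ x, f (X.d x) = X'.d (f x))
    (hS : ∀ {n : ℕ} {x : X.X}, n < N → x ∈ a.S n → f x ∈ b.S n)
    (hc : ∀ {q : Q} {x : X.X}, x ∈ a.S (lev q) → b.P q (f x) = g (a.P q x))
    (hg : ∀ k, CE Z Z' lo k g) (k : ℤ) : CE X X' lo k f := by
  have key : ∀ (m n : ℕ), n + m = N → ∀ (x : X.X) (y : X'.X), x ∈ X.gr (k - 1) → X.d x = 0 →
      y ∈ X'.gr (lo + k) → f x + X'.d y = 0 → x ∈ a.S n → y ∈ b.S n →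
      ∃ x' ∈ X.gr k, ∃ y' ∈ X'.gr (lo + k + 1), X.d x' = x ∧ y = f x' + X'.d y' := by
    intro m
    induction m with
    | zero =>
      intro n hn x y hx _ hy _ hxs hys
      rw [add_zero] at hn
      subst hn
      refine ⟨0, Submodule.zero_mem _, 0, Submodule.zero_mem _, ?_, ?_⟩
      · rw [map_zero]
        exact (a.bot hx hxs).symm
      · rw [map_zero, map_zero, add_zero]
        exact b.bot hy hys
    | succ m ih =>
      intro n hn x y hx hdx hy hfy hxs hys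
      have h1 : ∀ q, lev q = n → ∃ z ∈ Z.gr (k + h q), ∃ z' ∈ Z'.gr (lo + (k + h q) + 1),
          Z.d z = a.P q x ∧ b.P q y = g z + Z'.d z' := by
        intro q hq
        subst hq
        refine hg (k + h q) (a.P q x) (b.P q y) ?_ ?_ ?_ ?_
        · have := a.P_mem hxs hx
          rwa [show k - 1 + h q = k + h q - 1 by ring] at this
        · rw [a.P_d hxs, hdx, map_zero]
        · have := b.P_mem hys hy
          rwa [add_assoc] at this
        · rw [b.P_d hys, ← hc hxs, ← map_add, hfy, map_zero]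
      have h2 : ∀ q, ∃ (z : Z.X) (z' : Z'.X), lev q = n → (z ∈ Z.gr (k + h q) ∧
          z' ∈ Z'.gr (lo + (k + h q) + 1) ∧ Z.d z = a.P q x ∧ b.P q y = g z + Z'.d z') := by
        intro q
        by_cases hq : lev q = n
        · obtain ⟨z, hz, z', hz', e1, e2⟩ := h1 q hq
          exact ⟨z, z', fun _ => ⟨hz, hz', e1, e2⟩⟩
        · exact ⟨0, 0, fun h => absurd h hq⟩
      choose z z' hz using h2
      set w : X.X := ∑ p ∈ Finset.univ.filter (fun p => lev p = n), a.R p (z p) with hw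
      set w' : X'.X := ∑ p ∈ Finset.univ.filter (fun p => lev p = n), b.R p (z' p) with hw'
      have hwg : w ∈ X.gr k := Submodule.sum_mem _ fun p hp =>
        a.R_mem (hz p (Finset.mem_filter.1 hp).2).1
      have hwg' : w' ∈ X'.gr (lo + k + 1) := Submodule.sum_mem _ fun p hp => by
        have := (hz p (Finset.mem_filter.1 hp).2).2.1
        refine b.R_mem ?_
        rwa [show lo + (k + h p) + 1 = lo + k + 1 + h p by ring] at this
      have hwS : w ∈ a.S n := Submodule.sum_mem _ fun p hp => by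
        have := a.R_S p (z p)
        rwa [(Finset.mem_filter.1 hp).2] at this
      have hwS' : w' ∈ b.S n := Submodule.sum_mem _ fun p hp => by
        have := b.R_S p (z' p)
        rwa [(Finset.mem_filter.1 hp).2] at this
      have hnN : n < N := by omega
      have hdw : X.d w ∈ X.gr (k - 1) := X.d_mem hwg
      have hfw : f w ∈ X'.gr (lo + k) := hm hwg
      have hdw' : X'.d w' ∈ X'.gr (lo + k) := by
        have := X'.d_mem hwg'
        rwa [add_sub_cancel_right] at this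
      obtain ⟨x2, hx2, y2, hy2, e1, e2⟩ := ih (n + 1) (by omega) (x - X.d w) (y - f w - X'.d w')
        (Submodule.sub_mem _ hx hdw) (by rw [map_sub, hdx, X.d_d, sub_zero])
        (Submodule.sub_mem _ (Submodule.sub_mem _ hy hfw) hdw') (by
          rw [map_sub, map_sub, map_sub, X'.d_d, sub_zero, hd]
          have h3 : f x - X'.d (f w) + (X'.d y - X'.d (f w)) =
              (f x + X'.d y) - (X'.d (f w) + X'.d (f w)) := by abel
          rw [h3, hfy, two, sub_zero])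
        (a.P_inj hnN (Submodule.sub_mem _ hxs (a.S_d hwS)) fun q hq => by
          have h3 : w ∈ a.S (lev q) := by rw [hq]; exact hwS
          rw [map_sub, ← a.P_d h3, hw, P_sum a z q hq, (hz q hq).2.2.1, sub_self])
        (b.P_inj hnN (Submodule.sub_mem _ (Submodule.sub_mem _ hys (hS hnN hwS)) (b.S_d hwS'))
          fun q hq => by
          have h3 : w ∈ a.S (lev q) := by rw [hq]; exact hwS
          have h4 : w' ∈ b.S (lev q) := by rw [hq]; exact hwS'
          rw [map_sub, map_sub, hc h3, ← b.P_d h4, hw, P_sum a z q hq, hw', P_sum b z' q hq,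
            (hz q hq).2.2.2]
          abel)
      refine ⟨x2 + w, Submodule.add_mem _ hx2 hwg, y2 + w', Submodule.add_mem _ hy2 hwg', ?_, ?_⟩
      · rw [map_add, e1, sub_add_cancel]
      · rw [map_add, map_add]
        have h5 : y = (y - f w - X'.d w') + f w + X'.d w' := by abel
        rw [h5, e2]
        abel
  intro x y hx hdx hy hfy
  exact key N 0 (zero_add N) x y hx hdx hy hfy (a.top hx) (b.top hy)

end fil

/-! ### the socle filtration -/

/-- a left module `M` filtered with graded pieces copies of `T`, a complex `B` filtered with graded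
pieces copies of `C`, and a pairing -/
structure SocD {A : DGA K} (M T : LM A) (B C : GC K) {Q : Type} [DecidableEq Q] [Fintype Q]
    (lev : Q → ℕ) (h : Q → ℤ) (N : ℕ) where
  lev_lt : ∀ q, lev q < N
  FM : ℕ → Submodule K M.X
  FM_zero : ∀ m, m ∈ FM 0
  FM_N : ∀ {m}, m ∈ FM N → m = 0
  FM_smul : ∀ {n : ℕ} (a : A.C) {m : M.X}, m ∈ FM n → a • m ∈ FM n
  FM_d : ∀ {n : ℕ} {m : M.X}, m ∈ FM n → M.d m ∈ FM n
  la : Q → M.X →ₗ[K] T.X
  nu : Q → T.X →ₗ[K] M.X
  la_mem : ∀ (q : Q) {k : ℤ} {m : M.X}, m ∈ M.gr k → la q m ∈ T.gr (k + h q)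
  la_smul : ∀ (q : Q) (a : A.C) {m : M.X}, m ∈ FM (lev q) → la q (a • m) = a • la q m
  la_d : ∀ (q : Q) {m : M.X}, m ∈ FM (lev q) → la q (M.d m) = T.d (la q m)
  la_inj : ∀ {n : ℕ} {m : M.X}, m ∈ FM n → (∀ q, lev q = n → la q m = 0) → m ∈ FM (n + 1)
  nu_mem : ∀ (q : Q) {k : ℤ} {z : T.X}, z ∈ T.gr (k + h q) → nu q z ∈ M.gr k
  nu_FM : ∀ (q : Q) (z : T.X), nu q z ∈ FM (lev q)
  la_nu : ∀ (q q' : Q) (z : T.X), la q' (nu q z) = if q' = q then z else 0
  Fl : ℕ → Submodule K B.X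
  Fl_zero : ∀ b, b ∈ Fl 0
  Fl_N : ∀ {b}, b ∈ Fl N → b = 0
  Fl_anti : ∀ {n : ℕ} {b : B.X}, b ∈ Fl (n + 1) → b ∈ Fl n
  Fl_d : ∀ {n : ℕ} {b : B.X}, b ∈ Fl n → B.d b ∈ Fl n
  lq : Q → B.X →ₗ[K] C.X
  u : Q → C.X →ₗ[K] B.X
  lq_mem : ∀ (q : Q) {k : ℤ} {b : B.X}, b ∈ B.gr k → lq q b ∈ C.gr (k - h q)
  u_mem : ∀ (q : Q) {k : ℤ} {l : C.X}, l ∈ C.gr k → u q l ∈ B.gr (k + h q)
  u_Fl : ∀ (q : Q) (l : C.X), u q l ∈ Fl (N - 1 - lev q)
  lq_u : ∀ (q q' : Q) (l : C.X), lq q' (u q l) = if q' = q then l else 0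
  lq_inj : ∀ {n : ℕ} {b : B.X}, n < N → b ∈ Fl n → (∀ q, lev q = N - 1 - n → lq q b = 0) →
    b ∈ Fl (n + 1)
  u_d : ∀ (q : Q) (l : C.X), B.d (u q l) - u q (C.d l) ∈ Fl (N - lev q)
  lq_zero : ∀ (q : Q) {b : B.X}, b ∈ Fl (N - lev q) → lq q b = 0
  mb : M.X →ₗ[K] B.X →ₗ[K] M.X
  tl : T.X →ₗ[K] C.X →ₗ[K] M.X
  c : Q → K
  c_ne : ∀ q, c q ≠ 0
  pair : ∀ {n : ℕ} {m : M.X} {b : B.X}, n < N → m ∈ FM n → b ∈ Fl (N - 1 - n) →
    mb m b = ∑ q ∈ Finset.univ.filter (fun q => lev q = n), c q • tl (la q m) (lq q b)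

namespace SocD

variable {A : DGA K} {M T : LM A} {B C : GC K} {Q : Type} [DecidableEq Q] [Fintype Q]
    {lev : Q → ℕ} {h : Q → ℤ} {N : ℕ} (D : SocD M T B C lev h N) (Y : RCells A)

/-- the map `y ⊗ m ↦ (b ↦ v_y (m b))` -/
noncomputable def mu (v : Y.ι → Module.Dual K M.X) : (Y.ι →₀ M.X) →ₗ[K] Module.Dual K B.X :=
  Finsupp.lsum K fun σ => (D.mb.compr₂ (v σ) : M.X →ₗ[K] Module.Dual K B.X)

/-- the map `y ⊗ z ↦ (l ↦ v_y (z l))` -/
noncomputable def be (v : Y.ι → Module.Dual K M.X) : (Y.ι →₀ T.X) →ₗ[K] Module.Dual K C.X :=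
  Finsupp.lsum K fun σ => (D.tl.compr₂ (v σ) : T.X →ₗ[K] Module.Dual K C.X)

variable {Y}

theorem mu_apply (v : Y.ι → Module.Dual K M.X) (x : Y.ι →₀ M.X) (b : B.X) :
    D.mu Y v x b = x.sum fun σ m => v σ (D.mb m b) := by
  rw [mu, Finsupp.lsum_apply, Finsupp.sum, Finsupp.sum, LinearMap.sum_apply]
  rfl

theorem be_apply (v : Y.ι → Module.Dual K M.X) (x : Y.ι →₀ T.X) (l : C.X) :
    D.be Y v x l = x.sum fun σ z => v σ (D.tl z l) := by
  rw [be, Finsupp.lsum_apply, Finsupp.sum, Finsupp.sum, LinearMap.sum_apply]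
  rfl

/-- coordinates of families -/
noncomputable def LA (Y : RCells A) (q : Q) : (Y.ι →₀ M.X) →ₗ[K] (Y.ι →₀ T.X) :=
  Finsupp.mapRange.linearMap (D.la q)

noncomputable def NU (Y : RCells A) (q : Q) : (Y.ι →₀ T.X) →ₗ[K] (Y.ι →₀ M.X) :=
  Finsupp.mapRange.linearMap (D.nu q)

theorem LA_apply (q : Q) (x : Y.ι →₀ M.X) (σ : Y.ι) : D.LA Y q x σ = D.la q (x σ) := rfl

theorem NU_apply (q : Q) (x : Y.ι →₀ T.X) (σ : Y.ι) : D.NU Y q x σ = D.nu q (x σ) := rfl

/-- the pairing on families -/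
theorem mu_pair (v : Y.ι → Module.Dual K M.X) {n : ℕ} (hn : n < N) {x : Y.ι →₀ M.X}
    (hx : ∀ σ, x σ ∈ D.FM n) {b : B.X} (hb : b ∈ D.Fl (N - 1 - n)) :
    D.mu Y v x b =
      ∑ q ∈ Finset.univ.filter (fun q => lev q = n), D.c q * D.be Y v (D.LA Y q x) (D.lq q b) := by
  rw [mu_apply, Finsupp.sum]
  have h1 : ∀ q : Q, D.be Y v (D.LA Y q x) (D.lq q b) =
      ∑ σ ∈ x.support, v σ (D.tl (D.la q (x σ)) (D.lq q b)) := by
    intro q
    rw [be_apply]
    refine Finsupp.sum_of_support_subset _ (Finsupp.support_mapRange (f := D.la q)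
      (hf := map_zero _)) _ fun σ _ => ?_
    rw [map_zero, LinearMap.zero_apply, map_zero]
  simp only [h1]
  have h2 : ∀ σ ∈ x.support, v σ (D.mb (x σ) b) =
      ∑ q ∈ Finset.univ.filter (fun q => lev q = n), D.c q * v σ (D.tl (D.la q (x σ)) (D.lq q b)) := by
    intro σ _
    rw [D.pair hn (hx σ) hb, map_sum]
    exact Finset.sum_congr rfl fun q _ => by rw [map_smul, smul_eq_mul]
  rw [Finset.sum_congr rfl h2, Finset.sum_comm]
  exact Finset.sum_congr rfl fun q _ => by rw [Finset.mul_sum]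

theorem mu_An (v : Y.ι → Module.Dual K M.X) {n : ℕ} (hn : n < N) {x : Y.ι →₀ M.X}
    (hx : ∀ σ, x σ ∈ D.FM n) {b : B.X} (hb : b ∈ D.Fl (N - n)) : D.mu Y v x b = 0 := by
  rw [mu_apply]
  refine Finset.sum_eq_zero fun σ _ => ?_
  have hb' : b ∈ D.Fl (N - 1 - n) := by
    refine D.Fl_anti ?_
    rwa [show N - 1 - n + 1 = N - n by omega]
  have h0 : D.mb (x σ) b = 0 := by
    rw [D.pair hn (hx σ) hb']
    refine Finset.sum_eq_zero fun q hq => ?_
    have h1 : lev q = n := (Finset.mem_filter.1 hq).2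
    rw [D.lq_zero q (by rw [h1]; exact hb), map_zero, smul_zero]
  change v σ (D.mb (x σ) b) = 0
  rw [h0, map_zero]

/-- the filtration of `Y ⊗ M` -/
noncomputable def filM (he : ∀ σ, Y.e σ = 1) : Fil (tY Y M) (tY Y T) lev h N where
  S n :=
    { carrier := {x : Y.ι →₀ M.X | ∀ σ, x σ ∈ D.FM n}
      zero_mem' := fun σ => Submodule.zero_mem _
      add_mem' := fun hx hy σ => Submodule.add_mem _ (hx σ) (hy σ)
      smul_mem' := fun r x hx σ => Submodule.smul_mem _ r (hx σ) }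
  top _ := fun σ => D.FM_zero _
  bot _ hx := Finsupp.ext fun σ => D.FM_N (hx σ)
  S_d {n x} hx := fun τ => by
    have e := (twY Y M).dd_apply' x (show Y.ι →₀ M.X from x).support (Finset.Subset.refl _) τ
    change (twY Y M).dd x τ ∈ D.FM n
    rw [e]
    exact Submodule.add_mem _ (D.FM_d (hx τ)) (Submodule.sum_mem _ fun σ _ => D.FM_smul _ (hx σ))
  P q := D.LA Y q
  R q := D.NU Y q
  P_mem {q k x} _ hx := fun σ => by
    refine ⟨?_, ?_⟩
    · have := D.la_mem q (hx σ).1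
      rwa [show k - (Y.s σ : ℤ) + h q = k + h q - Y.s σ by ring] at this
    · change Y.e σ • (D.LA Y q x) σ = (D.LA Y q x) σ
      rw [he, one_smul]
  P_d {q x} hx := by
    refine Finsupp.ext fun τ => ?_
    have e := (twY Y M).dd_apply' x (show Y.ι →₀ M.X from x).support (Finset.Subset.refl _) τ
    have e2 := (twY Y T).dd_apply' (D.LA Y q x) (show Y.ι →₀ M.X from x).support
      (Finsupp.support_mapRange (f := D.la q) (hf := map_zero _)) τ
    change (twY Y T).dd (D.LA Y q x) τ = D.la q ((twY Y M).dd x τ)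
    rw [e, e2, map_add, map_sum, D.la_d q (hx τ)]
    congr 1
    refine Finset.sum_congr rfl fun σ _ => ?_
    exact (D.la_smul q _ (hx σ)).symm
  P_inj {n x} _ hx hP := fun σ => D.la_inj (hx σ) fun q hq => DFunLike.congr_fun (hP q hq) σ
  R_mem {q k z} hz := fun σ => by
    refine ⟨D.nu_mem q ?_, ?_⟩
    · have := (hz σ).1
      rwa [show k + h q - (Y.s σ : ℤ) = k - Y.s σ + h q by ring] at this
    · change Y.e σ • (D.NU Y q z) σ = (D.NU Y q z) σ
      rw [he, one_smul]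
  R_S q z := fun σ => D.nu_FM q _
  P_R q q' z _ := Finsupp.ext fun σ => by
    change D.la q' (D.nu q (z σ)) = _
    rw [D.la_nu]
    split_ifs <;> rfl

/-- functionals killing `Fl (N - n)` -/
def An (n : ℕ) : Submodule K (Module.Dual K B.X) where
  carrier := {f | ∀ b ∈ D.Fl (N - n), f b = 0}
  zero_mem' := fun _ _ => rfl
  add_mem' := fun {f g} hf hg b hb => by
    rw [LinearMap.add_apply, hf b hb, hg b hb, add_zero]
  smul_mem' := fun r f hf b hb => by
    rw [LinearMap.smul_apply, hf b hb, smul_zero]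

/-- coordinates of functionals -/
def PB (q : Q) : Module.Dual K B.X →ₗ[K] Module.Dual K C.X := (D.c q)⁻¹ • (D.u q).dualMap

def RB (q : Q) : Module.Dual K C.X →ₗ[K] Module.Dual K B.X := D.c q • (D.lq q).dualMap

theorem PB_apply (q : Q) (f : Module.Dual K B.X) (l : C.X) :
    D.PB q f l = (D.c q)⁻¹ * f (D.u q l) := rfl

theorem RB_apply (q : Q) (f : Module.Dual K C.X) (b : B.X) :
    D.RB q f b = D.c q * f (D.lq q b) := rfl

theorem An_top (f : Module.Dual K B.X) : f ∈ D.An 0 := fun b hb => by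
  rw [Nat.sub_zero] at hb
  rw [D.Fl_N hb, map_zero]

theorem An_bot {f : Module.Dual K B.X} (hf : f ∈ D.An N) : f = 0 := LinearMap.ext fun b => by
  refine hf b ?_
  rw [Nat.sub_self]
  exact D.Fl_zero b

theorem PB_mem (q : Q) {k : ℤ} {f : Module.Dual K B.X} (hf : f ∈ (dual B).gr k) :
    D.PB q f ∈ (dual C).gr (k + h q) := fun j hj l hl => by
  rw [PB_apply, hf (j + h q) (by omega) _ (D.u_mem q hl), mul_zero]

theorem PB_d (q : Q) {f : Module.Dual K B.X} (hf : f ∈ D.An (lev q)) (l : C.X) :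
    D.PB q f (C.d l) = (D.c q)⁻¹ * f (B.d (D.u q l)) := by
  have h1 := hf _ (D.u_d q l)
  rw [map_sub, sub_eq_zero] at h1
  rw [PB_apply, h1]

theorem PB_inj {n : ℕ} (hn : n < N) {f : Module.Dual K B.X} (hf : f ∈ D.An n)
    (hP : ∀ q, lev q = n → D.PB q f = 0) : f ∈ D.An (n + 1) := fun b hb => by
  have h1 : b - ∑ q ∈ Finset.univ.filter (fun q => lev q = n), D.u q (D.lq q b) ∈
      D.Fl (N - n) := by
    have h2 : N - n = (N - (n + 1)) + 1 := by omega
    rw [h2]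
    refine D.lq_inj (by omega) (Submodule.sub_mem _ hb (Submodule.sum_mem _ fun q hq => ?_))
      fun p hp => ?_
    · have := D.u_Fl q (D.lq q b)
      rw [(Finset.mem_filter.1 hq).2] at this
      rwa [show N - (n + 1) = N - 1 - n by omega]
    · have hp' : lev p = n := by omega
      rw [map_sub, map_sum, Finset.sum_eq_single p]
      · rw [D.lq_u, if_pos rfl, sub_self]
      · intro q _ hqp
        rw [D.lq_u, if_neg (fun e => hqp e.symm)]
      · intro hn'
        exact absurd (Finset.mem_filter.2 ⟨Finset.mem_univ p, hp'⟩) hn'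
  have h3 : b = (b - ∑ q ∈ Finset.univ.filter (fun q => lev q = n), D.u q (D.lq q b)) +
      ∑ q ∈ Finset.univ.filter (fun q => lev q = n), D.u q (D.lq q b) := by abel
  rw [h3, map_add, map_sum, hf _ h1, zero_add]
  refine Finset.sum_eq_zero fun q hq => ?_
  have h4 := LinearMap.congr_fun (hP q (Finset.mem_filter.1 hq).2) (D.lq q b)
  rw [PB_apply, LinearMap.zero_apply] at h4
  exact (mul_eq_zero.1 h4).resolve_left (inv_ne_zero (D.c_ne q))

theorem RB_mem (q : Q) {k : ℤ} {g : Module.Dual K C.X} (hg : g ∈ (dual C).gr (k + h q)) :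
    D.RB q g ∈ (dual B).gr k := fun j hj b hb => by
  rw [RB_apply, hg (j - h q) (by omega) _ (D.lq_mem q hb), mul_zero]

theorem RB_S (q : Q) (g : Module.Dual K C.X) : D.RB q g ∈ D.An (lev q) := fun b hb => by
  rw [RB_apply, D.lq_zero q hb, map_zero, mul_zero]

theorem PB_RB (q q' : Q) (g : Module.Dual K C.X) :
    D.PB q' (D.RB q g) = if q' = q then g else 0 := LinearMap.ext fun l => by
  rw [PB_apply, RB_apply, D.lq_u]
  by_cases e : q' = q
  · subst e
    rw [if_pos rfl, if_pos rfl, ← mul_assoc, inv_mul_cancel₀ (D.c_ne q'), one_mul]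
  · rw [if_neg (fun e' => e e'.symm), if_neg e, map_zero, mul_zero, mul_zero]
    rfl

/-- the filtration of `D(B)` -/
noncomputable def filB : Fil (dual B) (dual C) lev h N where
  S := D.An
  top _ := D.An_top _
  bot _ hf := D.An_bot hf
  S_d hf := fun _ hb => hf _ (D.Fl_d hb)
  P := D.PB
  R := D.RB
  P_mem {q _ _} _ hf := D.PB_mem q hf
  P_d {q _} hf := LinearMap.ext fun l => D.PB_d q hf l
  P_inj hn hf hP := D.PB_inj hn hf hP
  R_mem hg := D.RB_mem _ hg
  R_S := D.RB_S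
  P_R q q' g _ := D.PB_RB q q' g

/-- **the cone of `Y ⊗ M → D(B)` is exact if the cone of `Y ⊗ T → D(C)` is** -/
theorem ce (he : ∀ σ, Y.e σ = 1) (v : Y.ι → Module.Dual K M.X) {lo : ℤ}
    (two : ∀ r : K, r + r = 0)
    (hm : ∀ {j : ℤ} {x : Y.ι →₀ M.X}, x ∈ (tY Y M).gr j → D.mu Y v x ∈ (dual B).gr (lo + j))
    (hd : ∀ x, D.mu Y v ((tY Y M).d x) = (dual B).d (D.mu Y v x))
    (hg : ∀ k, CE (tY Y T) (dual C) lo k (D.be Y v)) (k : ℤ) :
    CE (tY Y M) (dual B) lo k (D.mu Y v) := by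
  refine ce_fil (D.filM he) D.filB (fun y => LinearMap.ext fun b => two _) (D.mu Y v) (D.be Y v)
    hm hd ?_ ?_ hg k
  · intro n x hn hx b hb
    exact D.mu_An v hn hx hb
  · intro q x hx
    refine LinearMap.ext fun l => ?_
    change D.PB q (D.mu Y v x) l = D.be Y v (D.LA Y q x) l
    rw [PB_apply, D.mu_pair v (D.lev_lt q) hx (D.u_Fl q l), Finset.sum_eq_single q]
    · rw [D.lq_u, if_pos rfl, ← mul_assoc, inv_mul_cancel₀ (D.c_ne q), one_mul]
    · intro p hp hpq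
      rw [D.lq_u, if_neg hpq, map_zero, mul_zero]
    · intro hn
      exact absurd (Finset.mem_filter.2 ⟨Finset.mem_univ q, (rfl : lev q = lev q)⟩) hn

/-- `A`-linearity, degrees and the Leibniz rule of `mb` -/
structure Bil (D : SocD M T B C lev h N) : Prop where
  smul : ∀ (a : A.C) (m : M.X) (b : B.X), D.mb (a • m) b = a • D.mb m b
  mem : ∀ {k l : ℤ} {m : M.X} {b : B.X}, m ∈ M.gr k → b ∈ B.gr l → D.mb m b ∈ M.gr (k + l)
  leib : ∀ (m : M.X) (b : B.X), M.d (D.mb m b) = D.mb (M.d m) b + D.mb m (B.d b)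

/-- the functionals of an augmentation -/
def vv (R : RAug Y (DR M)) (σ : Y.ι) : Module.Dual K M.X := R.v σ

theorem mu_mem (hb : D.Bil) (R : RAug Y (DR M)) {j : ℤ} {x : Y.ι →₀ M.X}
    (hx : x ∈ (tY Y M).gr j) : D.mu Y (vv R) x ∈ (dual B).gr (R.lo + j) := by
  intro i hi b hb'
  change D.mu Y (vv R) x b = 0
  rw [mu_apply]
  refine Finset.sum_eq_zero fun σ _ => ?_
  have h1 := hb.mem (k := j - Y.s σ) (hx σ).1 hb'
  exact R.v_mem σ _ _ h1 (by omega)

theorem mu_single (v : Y.ι → Module.Dual K M.X) (σ : Y.ι) (m : M.X) (b : B.X) :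
    D.mu Y v (Finsupp.single σ m) b = v σ (D.mb m b) := by
  rw [mu_apply, Finsupp.sum_single_index]
  rw [map_zero, LinearMap.zero_apply, map_zero]

theorem mu_d (hb : D.Bil) (two : ∀ r : K, r + r = 0) (R : RAug Y (DR M)) (x : Y.ι →₀ M.X) :
    D.mu Y (vv R) ((twY Y M).dd x) = (D.mu Y (vv R) x) ∘ₗ B.d := by
  classical
  induction x using Finsupp.induction_linear with
  | zero => rw [map_zero, map_zero, LinearMap.zero_comp]
  | add f g hf hg => rw [map_add, map_add, hf, hg, map_add, LinearMap.add_comp]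
  | single σ m =>
    refine LinearMap.ext fun b => ?_
    rw [Tw.dd_single, map_add, map_sum, LinearMap.add_apply, LinearMap.sum_apply, mu_single,
      LinearMap.comp_apply, mu_single]
    simp only [mu_single]
    have h1 : ∀ τ, vv R τ (D.mb ((twY Y M).m σ τ m) b) = vv R τ (Y.c τ σ • D.mb m b) := fun τ => by
      change vv R τ (D.mb (Y.c τ σ • m) b) = _
      rw [hb.smul]
    simp only [h1]
    have h2 : (∑ τ ∈ Y.F (Y.s σ), vv R τ (Y.c τ σ • D.mb m b)) = vv R σ (M.d (D.mb m b)) := by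
      have h3 := congrArg (dev M (D.mb m b)) (R.v_d σ)
      rw [map_sum] at h3
      exact h3.symm
    change vv R σ (D.mb (M.d m) b) + (∑ τ ∈ Y.F (Y.s σ), vv R τ (Y.c τ σ • D.mb m b)) = _
    rw [h2, hb.leib, map_add, ← add_assoc, two, zero_add]

end SocD

/-- the two forms of the dual -/
theorem mem_dual_DR {A : DGA K} {Z : LM A} {k : ℤ} {f : Module.Dual K Z.X} :
    f ∈ (dual Z.toGC).gr k ↔ (show (DR Z).X from f) ∈ (DR Z).gr k :=
  ⟨fun hf l z hz hl => hf l hl z hz, fun hf l hl z hz => hf l z hz hl⟩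

theorem ce_dual_DR {A : DGA K} {X : GC K} {Z : LM A} {lo k : ℤ} {f : X.X →ₗ[K] Module.Dual K Z.X} :
    CE X (dual Z.toGC) lo k f ↔ CE X (DR Z).toGC lo k f := by
  constructor
  · intro H x n hx hdx hn hfn
    obtain ⟨y, hy, n', hn', e1, e2⟩ := H x n hx hdx (mem_dual_DR.2 hn) hfn
    exact ⟨y, hy, n', mem_dual_DR.1 hn', e1, e2⟩
  · intro H x n hx hdx hn hfn
    obtain ⟨y, hy, n', hn', e1, e2⟩ := H x n hx hdx (mem_dual_DR.1 hn) hfn
    exact ⟨y, hy, n', mem_dual_DR.2 hn', e1, e2⟩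

namespace SocD

variable {A A' : DGA K} {M T : LM A} {S : LM A} {S' : LM A'} {Q : Type} [DecidableEq Q] [Fintype Q]
    {lev : Q → ℕ} {h : Q → ℤ} {N : ℕ} (D : SocD M T S.toGC S'.toGC lev h N) {Y : RCells A}

/-- **final form**: the cone of `Y ⊗ M → D(S)` is exact if the one of `Y ⊗ T → D(S')` is -/
theorem ce_DR (hb : D.Bil) (two : ∀ r : K, r + r = 0) (he : ∀ σ, Y.e σ = 1)
    (R : RAug Y (DR M))
    (hg : ∀ k, CE (tY Y T) (DR S').toGC R.lo k (D.be Y (vv R))) (k : ℤ) :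
    CE (tY Y M) (DR S).toGC R.lo k (D.mu Y (vv R)) :=
  ce_dual_DR.1 (D.ce he (vv R) two (fun hx => D.mu_mem hb R hx) (fun x => D.mu_d hb two R x)
    (fun k => ce_dual_DR.2 (hg k)) k)

end SocD

end Crest.Agent.R186.SocQ721
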