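import Crest.Agent.R186.SqS_988
import Crest.Agent.R186.MW_890

/-!
Row 186 (A), leaf A.D (helper988): the concrete instance of `SqS988.Spl` and of `rresA`.
-/

set_option autoImplicit false
set_option linter.style.haveILetI false
set_option linter.unusedSectionVars false

noncomputable section

open MulOpposite

namespace Crest.Agent.R186.SqS988

open Hat827 Hat827.DGA Win810 Frame515 Res255 AcIff492 FinV988 SM890 DefsQ830

variable {K : Type} [Field K]

/-- `Γ = L'' ⊕ M` for a square zero extension -/
def splOf {w : WD K} (B : SExt44.BD w) : Spl (inlH B) (MWof B) where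
  p := (fstH B).f.toLinearMap
  q := sndW B
  i := inrW B
  p_mem h := (fstH B).mem h
  q_mem h := sndW_mem B h
  i_mem h := inrW_mem B h
  p_D a := (fstH B).D a
  q_D a := sndW_d B a
  i_D m := (inrW_d B m).symm
  sum a := (eq_inlH_inrW B a).symm
  q_h b := sndW_inlH B b
  q_i m := sndW_inrW B m
  p_mul b a := by
    change (fstH B).f ((inlH B).f b * a) = b * (fstH B).f a
    rw [map_mul, fstH_inlH]
  q_mul b a := sndW_inlH_mul B b a
  i_mul b m := (inlH_mul_inrW B b m).symm
  i_h m b := inrW_mul_inlH B m b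
  i_i m m' := inrW_mul_inrW B m m'

/-- `Γ = L'' ⊕ M`, concrete -/
def splM (π : Par K) (s : ℕ) (hs : 2 ≤ s) : Spl (inlH (bdM π s hs)) (MW π s hs) :=
  splOf (bdM π s hs)

theorem inlH_eq (π : Par K) (s : ℕ) (hs : 2 ≤ s) : inlH (bdM π s hs) = HmI π s hs := rfl

end Crest.Agent.R186.SqS988
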