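import Crest.Agent.R186.FinD_988
import Crest.Agent.R186.AcIff_492
import Crest.Agent.R186.TB3_143

/-!
Row 186 (A), leaf A.D (helper988): the square that closes `D1` and `D2`, in terms of cones with
degree shift.

* `qi_of_sq` : two out of three.
* `Spl h M` : `A = B ⊕ M` as left dg module over `B`.
* `al`, `ce_al` : `Y ⊗ A → D(A)` from `Y ⊗ B → D(M)` and `be : Y ⊗ M → D(B)`.
* `KL I`, `ce_kt` : `X → KK` from `X → V` and `KK → V`.
* `pm` : `Y ⊗ KK → D(H)`.
* `qi_gD` : the conclusion.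
-/

set_option autoImplicit false
set_option linter.style.haveILetI false
set_option linter.unusedSectionVars false

open MulOpposite

namespace Crest.Agent.R186.SqS988

open Hat827 Hat827.DGA Frame515 Res255 AcIff492 FinV988 FinD988 ConeHyp462 Adapt186

variable {K : Type} [Field K]

/-! ### two out of three -/

theorem CE.s {X Y : GC K} {lo k : ℤ} {f : X.X →ₗ[K] Y.X} (h : CE X Y lo k f) {n : Y.X}
    (hn : n ∈ Y.gr (lo + k)) (hd : Y.d n = 0) :
    ∃ y ∈ X.gr k, X.d y = 0 ∧ ∃ n' ∈ Y.gr (lo + k + 1), n = f y + Y.d n' := by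
  obtain ⟨y, hy, n', hn', e1, e2⟩ := h 0 n (Submodule.zero_mem _) (map_zero _) hn
    (by rw [map_zero, zero_add, hd])
  exact ⟨y, hy, e1, n', hn', e2⟩

theorem CE.i {X Y : GC K} {lo k : ℤ} {f : X.X →ₗ[K] Y.X} (two : ∀ y : Y.X, y + y = 0)
    (h : CE X Y lo (k + 1) f) {x : X.X} (hx : x ∈ X.gr k) (hd : X.d x = 0) {n : Y.X}
    (hn : n ∈ Y.gr (lo + k + 1)) (e : f x = Y.d n) : ∃ y ∈ X.gr (k + 1), X.d y = x := by
  obtain ⟨y, hy, _, _, e1, _⟩ := h x n (by rwa [show k + 1 - 1 = k by ring]) hd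
    (by rwa [← add_assoc]) (by rw [e, two])
  exact ⟨y, hy, e1⟩

/-- **two out of three** -/
theorem qi_of_sq {U V U' W : GC K} {lo : ℤ} (f1 : U.X →ₗ[K] V.X) (f2 : U.X →ₗ[K] U'.X)
    (f3 : U'.X →ₗ[K] W.X) (g : GCHom V W)
    (m1 : ∀ {j : ℤ} {x : U.X}, x ∈ U.gr j → f1 x ∈ V.gr (lo + j))
    (d1 : ∀ x, f1 (U.d x) = V.d (f1 x))
    (m2 : ∀ {j : ℤ} {x : U.X}, x ∈ U.gr j → f2 x ∈ U'.gr (0 + j))
    (d2 : ∀ x, f2 (U.d x) = U'.d (f2 x))
    (m3 : ∀ {j : ℤ} {x : U'.X}, x ∈ U'.gr j → f3 x ∈ W.gr (lo + j))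
    (d3 : ∀ x, f3 (U'.d x) = W.d (f3 x))
    (c1 : ∀ k, CE U V lo k f1) (c2 : ∀ k, CE U U' 0 k f2) (c3 : ∀ k, CE U' W lo k f3)
    (two' : ∀ w : U'.X, w + w = 0) (two : ∀ w : W.X, w + w = 0)
    (sq : ∀ x, g.f (f1 x) = f3 (f2 x)) : QI g where
  surj k w hw hd := by
    obtain ⟨j, rfl⟩ : ∃ j, k = lo + j := ⟨k - lo, by ring⟩
    obtain ⟨u', hu', du', w', hw', e1⟩ := CE.s (c3 j) hw hd
    obtain ⟨u, hu, du, u'', hu'', e2⟩ := CE.s (c2 j) (n := u') (by rwa [zero_add]) du'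
    refine ⟨f1 u, m1 hu, by rw [← d1, du, map_zero], f3 u'' + w', Submodule.add_mem _ ?_ hw', ?_⟩
    · have := m3 hu''
      rwa [show lo + (0 + j + 1) = lo + j + 1 by ring] at this
    · rw [e1, e2, map_add, sq, d3, map_add, add_assoc]
  inj k v hv hd hz := by
    obtain ⟨z, hz, ez⟩ := hz
    obtain ⟨j, rfl⟩ : ∃ j, k = lo + j := ⟨k - lo, by ring⟩
    obtain ⟨u, hu, du, v', hv', e1⟩ := CE.s (c1 j) hv hd
    have e2 : f3 (f2 u) = W.d (z - g.f v') := by
      rw [← sq, map_sub, ← ez, ← g.f_d, ← map_sub, e1, add_sub_cancel_right]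
    have h2 : f2 u ∈ U'.gr j := by
      have := m2 hu
      rwa [zero_add] at this
    obtain ⟨u', hu', e3⟩ := CE.i two (c3 (j + 1)) h2 (by rw [← d2, du, map_zero])
      (Submodule.sub_mem _ hz (g.f_mem hv')) e2
    obtain ⟨u'', hu'', e4⟩ := CE.i two' (c2 (j + 1)) hu du (n := u')
      (by rwa [zero_add]) e3.symm
    refine ⟨f1 u'' + v', Submodule.add_mem _ ?_ hv', ?_⟩
    · have := m1 hu''
      rwa [← add_assoc] at this
    · rw [e1, ← e4, d1, map_add]

/-! ### `A = B ⊕ M` -/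

variable {A B : DGA K}

/-- `A = B ⊕ M` with `M * M = 0` -/
structure Spl (h : Hm B A) (M : BM B B) where
  p : A.C →ₗ[K] B.C
  q : A.C →ₗ[K] M.X
  i : M.X →ₗ[K] A.C
  p_mem : ∀ {k : ℤ} {a : A.C}, a ∈ A.G k → p a ∈ B.G k
  q_mem : ∀ {k : ℤ} {a : A.C}, a ∈ A.G k → q a ∈ M.gr k
  i_mem : ∀ {k : ℤ} {m : M.X}, m ∈ M.gr k → i m ∈ A.G k
  p_D : ∀ a, p (A.D a) = B.D (p a)
  q_D : ∀ a, q (A.D a) = M.d (q a)
  i_D : ∀ m, A.D (i m) = i (M.d m)
  sum : ∀ a, h.f (p a) + i (q a) = a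
  q_h : ∀ b, q (h.f b) = 0
  q_i : ∀ m, q (i m) = m
  p_mul : ∀ b a, p (h.f b * a) = b * p a
  q_mul : ∀ b a, q (h.f b * a) = b • q a
  i_mul : ∀ b m, i (b • m) = h.f b * i m
  i_h : ∀ m b, i m * h.f b = i (op b • m)
  i_i : ∀ m m', i m * i m' = 0

section al

variable {h : Hm B A} {M : BM B B} (S : Spl h M) {Y : RCells B} (R : RAug Y (DR M.toLM))

/-- the functional of a cell -/
def ph (y : Y.ι) : M.X →ₗ[K] K := (show M.X →ₗ[K] K from R.v y)

theorem ph_d (y : Y.ι) (m : M.X) :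
    ph R y (M.d m) = ∑ τ ∈ Y.F (Y.s y), ph R τ (Y.c τ y • m) := by
  have h1 : dev M.toLM m ((DR M.toLM).d (R.v y)) = ph R y (M.d m) := rfl
  rw [← h1, R.v_d, map_sum]
  rfl

theorem ph_zero (y : Y.ι) {l : ℤ} {m : M.X} (hm : m ∈ M.gr l) (hl : l ≠ -(R.lo + Y.s y)) :
    ph R y m = 0 := R.v_mem y l m hm hl

/-- `Y ⊗ A → D(A)`, `(y ⊗ a) (z) = φ_y (q (a z))` -/
noncomputable def al : (Y.ι →₀ A.C) →ₗ[K] (DR (selfL A)).X :=
  Finsupp.lsum K fun y => (LinearMap.mul K A.C).compr₂ (ph R y ∘ₗ S.q)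

theorem al_single (y : Y.ι) (a z : A.C) :
    dev (selfL A) z (al S R (Finsupp.single y a)) = ph R y (S.q (a * z)) := by
  rw [al, Finsupp.lsum_single]
  rfl

theorem al_apply (x : Y.ι →₀ A.C) (z : A.C) :
    dev (selfL A) z (al S R x) = x.sum fun y a => ph R y (S.q (a * z)) := by
  classical
  induction x using Finsupp.induction_linear with
  | zero => rw [map_zero, map_zero, Finsupp.sum_zero_index]
  | add x y hx hy =>
    rw [map_add, map_add, hx, hy, Finsupp.sum_add_index']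
    · intro σ; rw [zero_mul, map_zero, map_zero]
    · intro σ a b; rw [add_mul, map_add, map_add]
  | single σ b =>
    rw [al_single, Finsupp.sum_single_index]
    rw [zero_mul, map_zero, map_zero]

theorem al_mem {k : ℤ} {x : Y.ι →₀ A.C} (hx : ∀ y, x y ∈ A.G (k - Y.s y)) :
    al S R x ∈ (DR (selfL A)).gr (R.lo + k) := by
  intro l z hz hl
  have h1 := al_apply S R x z
  refine h1.trans (Finset.sum_eq_zero fun y _ => ?_)
  refine ph_zero R y (S.q_mem (A.mul_mem (hx y) hz)) ?_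
  omega

/-- the differential of `Y ⊗ A` -/
noncomputable def dA (Y : RCells B) : (Y.ι →₀ A.C) →ₗ[K] (Y.ι →₀ A.C) :=
  (twY Y (resBL h (selfB A)).toLM).dd

theorem dA_single (y : Y.ι) (a : A.C) : dA (h := h) Y (Finsupp.single y a) =
    Finsupp.single y (A.D a) + ∑ τ ∈ Y.F (Y.s y), Finsupp.single τ (h.f (Y.c τ y) * a) :=
  (twY Y (resBL h (selfB A)).toLM).dd_single y a

theorem al_d' (x : Y.ι →₀ A.C) :
    al S R (dA (h := h) Y x) = (DR (selfL A)).d (al S R x) := by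
  classical
  suffices hh : al S R ∘ₗ dA (h := h) Y = (DR (selfL A)).d ∘ₗ al S R from
    LinearMap.congr_fun hh x
  refine Finsupp.lhom_ext fun y a => ?_
  change al S R (dA (h := h) Y (Finsupp.single y a)) =
    (DR (selfL A)).d (al S R (Finsupp.single y a))
  rw [dA_single]
  refine DR_ext fun z => ?_
  have e0 : dev (selfL A) z ((DR (selfL A)).d (al S R (Finsupp.single y a))) =
      ph R y (S.q (a * A.D z)) := al_single S R y a (A.D z)
  rw [e0, map_add, map_add, map_sum, map_sum]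
  have e2 : ∀ τ ∈ Y.F (Y.s y), dev (selfL A) z (al S R (Finsupp.single τ (h.f (Y.c τ y) * a))) =
      ph R τ (Y.c τ y • S.q (a * (show A.C from z))) := by
    intro τ _
    refine (al_single S R τ _ z).trans ?_
    rw [mul_assoc, S.q_mul]
  have e4 : dev (selfL A) z (al S R (Finsupp.single y (A.D a))) =
    ph R y (S.q (A.D a * (show A.C from z))) := al_single S R y _ z
  rw [Finset.sum_congr rfl e2, ← ph_d, ← S.q_D, e4]
  have e5 : A.D (a * (show A.C from z)) = A.D a * (show A.C from z) + a * A.D z := A.D_mul _ _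
  rw [e5, map_add, map_add, ← add_assoc]
  have e3 : ph R y (S.q (A.D a * (show A.C from z))) +
      ph R y (S.q (A.D a * (show A.C from z))) = 0 := by
    rw [← map_add, ← map_add, A.two, map_zero, map_zero]
  rw [e3, zero_add]

theorem al_d (x : (tQ Y (resBL h (selfB A))).X) :
    al S R ((tQ Y (resBL h (selfB A))).d x) = (DR (selfL A)).d (al S R x) := al_d' S R x

/-- right multiplication on `Y ⊗ A` -/
noncomputable def rA (Y : RCells B) (b : A.C) : (Y.ι →₀ A.C) →ₗ[K] (Y.ι →₀ A.C) :=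
  rmul (tQ Y (resBL h (selfB A))) b

theorem rA_single (y : Y.ι) (a b : A.C) : rA (h := h) Y b (Finsupp.single y a) =
    Finsupp.single y (a * b) :=
  Finsupp.smul_single (op b) y (show (selfB A).X from a)

theorem al_smul (b : A.C) (x : Y.ι →₀ A.C) :
    al S R (rA (h := h) Y b x) = rmul (DR (selfL A)) b (al S R x) := by
  classical
  suffices hh : al S R ∘ₗ rA (h := h) Y b = rmul (DR (selfL A)) b ∘ₗ al S R from
    LinearMap.congr_fun hh x
  refine Finsupp.lhom_ext fun y a => ?_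
  change al S R (rA (h := h) Y b (Finsupp.single y a)) =
    rmul (DR (selfL A)) b (al S R (Finsupp.single y a))
  rw [rA_single]
  refine DR_ext fun z => ?_
  have e0 : dev (selfL A) z (rmul (DR (selfL A)) b (al S R (Finsupp.single y a))) =
      ph R y (S.q (a * (b * (show A.C from z)))) := al_single S R y a (b * (show A.C from z))
  rw [e0]
  refine (al_single S R y _ z).trans ?_
  rw [mul_assoc]

/-- `b ↦ φ_y (m b)` -/
def be1 (y : Y.ι) (m : M.X) : B.C →ₗ[K] K where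
  toFun b := ph R y (op b • m)
  map_add' b b' := by rw [op_add, add_smul, map_add]
  map_smul' r b := by rw [op_smul, smul_assoc, map_smul]; rfl

theorem be1_apply (y : Y.ι) (m : M.X) (b : B.C) : be1 R y m b = ph R y (op b • m) := rfl

/-- linear in `m` -/
def be2 (y : Y.ι) : M.X →ₗ[K] (B.C →ₗ[K] K) where
  toFun m := be1 R y m
  map_add' m m' := by
    ext b
    rw [LinearMap.add_apply, be1_apply, be1_apply, be1_apply, smul_add, map_add]
  map_smul' r m := by
    ext b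
    rw [LinearMap.smul_apply, be1_apply, be1_apply, RingHom.id_apply, ← map_smul]
    exact congrArg _ (LinearMap.map_smul (rmul M.toRM b) r m)

/-- `Y ⊗ M → D(B)`, `(y ⊗ m) (b) = φ_y (m b)` -/
noncomputable def be : (Y.ι →₀ M.X) →ₗ[K] (DR (selfL B)).X :=
  Finsupp.lsum K fun y => (be2 R y : M.X →ₗ[K] (DR (selfL B)).X)

theorem be_single (y : Y.ι) (m : M.X) (b : B.C) :
    dev (selfL B) b (be R (Finsupp.single y m)) = ph R y (op b • m) := by
  rw [be, Finsupp.lsum_single]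
  rfl

/-- the coordinate maps -/
def hP : TB143.LMHom (resBL h (selfB A)).toLM (selfL B) where
  f := S.p
  f_mem h1 := S.p_mem h1
  f_d := S.p_D
  smul := S.p_mul

def hQ : TB143.LMHom (resBL h (selfB A)).toLM M.toLM where
  f := S.q
  f_mem h1 := S.q_mem h1
  f_d := S.q_D
  smul := S.q_mul

def hI : TB143.LMHom M.toLM (resBL h (selfB A)).toLM where
  f := S.i
  f_mem h1 := S.i_mem h1
  f_d m := (S.i_D m).symm
  smul := S.i_mul

def hH : TB143.LMHom (selfL B) (resBL h (selfB A)).toLM where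
  f := h.f.toLinearMap
  f_mem h1 := h.mem h1
  f_d b := h.D b
  smul b c := map_mul h.f b c

theorem mul_i (a : A.C) (m : M.X) : a * S.i m = S.i (S.p a • m) := by
  conv_lhs => rw [← S.sum a]
  rw [add_mul, S.i_i, add_zero, S.i_mul]

theorem q_mul_h (a : A.C) (b : B.C) : S.q (a * h.f b) = op b • S.q a := by
  conv_lhs => rw [← S.sum a]
  rw [add_mul, ← map_mul, S.i_h, map_add, S.q_h, S.q_i, zero_add]

theorem i_mul' (m : M.X) (z : A.C) : S.q (S.i m * z) = op (S.p z) • m := by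
  conv_lhs => rw [← S.sum z]
  rw [mul_add, S.i_i, add_zero, S.i_h, S.q_i]

theorem eA (x : Y.ι →₀ A.C) (m : M.X) : dev (selfL A) (S.i m) (al S R x) =
    dev M.toLM m (augR Y (DR M.toLM) R.v ((TB143.tYmap Y (hP S)).f x)) := by
  classical
  suffices hh : dev (selfL A) (S.i m) ∘ₗ al S R = dev M.toLM m ∘ₗ
      augR Y (DR M.toLM) R.v ∘ₗ (show (Y.ι →₀ A.C) →ₗ[K] (Y.ι →₀ B.C) from
        (TB143.tYmap Y (hP S)).f) from LinearMap.congr_fun hh x
  refine Finsupp.lhom_ext fun y a => ?_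
  refine (al_single S R y a (S.i m)).trans ?_
  have e1 : (show (Y.ι →₀ A.C) →ₗ[K] (Y.ι →₀ B.C) from (TB143.tYmap Y (hP S)).f)
      (Finsupp.single y a) = Finsupp.single y (S.p a) := TB143.tYmap_single Y (hP S) y a
  rw [LinearMap.comp_apply, LinearMap.comp_apply, e1, augR_single, mul_i, S.q_i]
  rfl

theorem eB (x : Y.ι →₀ A.C) (b : B.C) : dev (selfL A) (h.f b) (al S R x) =
    dev (selfL B) b (be R ((TB143.tYmap Y (hQ S)).f x)) := by
  classical
  suffices hh : dev (selfL A) (h.f b) ∘ₗ al S R = dev (selfL B) b ∘ₗ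
      be R ∘ₗ (show (Y.ι →₀ A.C) →ₗ[K] (Y.ι →₀ M.X) from
        (TB143.tYmap Y (hQ S)).f) from LinearMap.congr_fun hh x
  refine Finsupp.lhom_ext fun y a => ?_
  refine (al_single S R y a (h.f b)).trans ?_
  have e1 : (show (Y.ι →₀ A.C) →ₗ[K] (Y.ι →₀ M.X) from (TB143.tYmap Y (hQ S)).f)
      (Finsupp.single y a) = Finsupp.single y (S.q a) := TB143.tYmap_single Y (hQ S) y a
  rw [LinearMap.comp_apply, LinearMap.comp_apply, e1, be_single, q_mul_h]

theorem eC (x : Y.ι →₀ B.C) (z : A.C) :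
    dev (selfL A) z (al S R ((TB143.tYmap Y (hH (h := h))).f x)) =
      dev M.toLM (S.q z) (augR Y (DR M.toLM) R.v x) := by
  classical
  suffices hh : dev (selfL A) z ∘ₗ al S R ∘ₗ (show (Y.ι →₀ B.C) →ₗ[K] (Y.ι →₀ A.C) from
      (TB143.tYmap Y (hH (h := h))).f) = dev M.toLM (S.q z) ∘ₗ augR Y (DR M.toLM) R.v from
    LinearMap.congr_fun hh x
  refine Finsupp.lhom_ext fun y b => ?_
  have e1 : (show (Y.ι →₀ B.C) →ₗ[K] (Y.ι →₀ A.C) from (TB143.tYmap Y (hH (h := h))).f)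
      (Finsupp.single y b) = Finsupp.single y (h.f b) :=
    TB143.tYmap_single Y (hH (h := h)) y b
  rw [LinearMap.comp_apply, LinearMap.comp_apply, LinearMap.comp_apply, e1, augR_single]
  refine (al_single S R y _ z).trans ?_
  rw [S.q_mul]
  rfl

theorem eD (x : Y.ι →₀ M.X) (z : A.C) :
    dev (selfL A) z (al S R ((TB143.tYmap Y (hI S)).f x)) =
      dev (selfL B) (S.p z) (be R x) := by
  classical
  suffices hh : dev (selfL A) z ∘ₗ al S R ∘ₗ (show (Y.ι →₀ M.X) →ₗ[K] (Y.ι →₀ A.C) from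
      (TB143.tYmap Y (hI S)).f) = dev (selfL B) (S.p z) ∘ₗ be R from
    LinearMap.congr_fun hh x
  refine Finsupp.lhom_ext fun y m => ?_
  have e1 : (show (Y.ι →₀ M.X) →ₗ[K] (Y.ι →₀ A.C) from (TB143.tYmap Y (hI S)).f)
      (Finsupp.single y m) = Finsupp.single y (S.i m) :=
    TB143.tYmap_single Y (hI S) y m
  rw [LinearMap.comp_apply, LinearMap.comp_apply, LinearMap.comp_apply, e1, be_single]
  refine (al_single S R y _ z).trans ?_
  rw [i_mul']

end al

section ceal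

variable {h : Hm B A} {M : BM B B} (S : Spl h M) {Y : RCells B} (R : RRes Y (DR M.toLM))

/-- **`Y ⊗ A → D(A)`** -/
theorem ce_al {k : ℤ} (c1 : CE (tY Y M.toLM) (DR (selfL B)).toGC R.lo k (be R.toRAug)) :
    CE (tQ Y (resBL h (selfB A))).toGC (DR (selfL A)).toGC R.lo k (al S R.toRAug) := by
  intro x n hx hdx hn hxn
  let P1 := TB143.tYmap Y (hP S)
  let Q1 := TB143.tYmap Y (hQ S)
  let I1 := TB143.tYmap Y (hI S)
  let H1 := TB143.tYmap Y (hH (h := h))
  let n1 : (DR M.toLM).X := ((show A.C →ₗ[K] K from n) ∘ₗ S.i : M.X →ₗ[K] K)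
  let n2 : (DR (selfL B)).X := ((show A.C →ₗ[K] K from n) ∘ₗ h.f.toLinearMap : B.C →ₗ[K] K)
  have hn1 : n1 ∈ (DR M.toLM).gr (R.lo + k) := fun l z hz hl => hn l (S.i z) (S.i_mem hz) hl
  have hn2 : n2 ∈ (DR (selfL B)).gr (R.lo + k) := fun l z hz hl => hn l (h.f z) (h.mem hz) hl
  have g1 : augR Y (DR M.toLM) R.v (P1.f x) + (DR M.toLM).d n1 = 0 := by
    refine DR_ext fun m => ?_
    have e1 := congrArg (dev (selfL A) (S.i m)) hxn
    rw [map_add, map_zero] at e1 ⊢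
    rw [← eA S R.toRAug x m, ← e1]
    congr 1
    change (show A.C →ₗ[K] K from n) (S.i (M.d m)) = (show A.C →ₗ[K] K from n) (A.D (S.i m))
    rw [S.i_D]
  have g2 : be R.toRAug (Q1.f x) + (DR (selfL B)).d n2 = 0 := by
    refine DR_ext fun b => ?_
    have e1 := congrArg (dev (selfL A) (h.f b)) hxn
    rw [map_add, map_zero] at e1 ⊢
    rw [← eB S R.toRAug x b, ← e1]
    congr 1
    change (show A.C →ₗ[K] K from n) (h.f (B.D b)) = (show A.C →ₗ[K] K from n) (A.D (h.f b))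
    rw [h.D]
  obtain ⟨y1, hy1, n1', hn1', a1, a2⟩ := R.ex k (P1.f x) n1 (P1.f_mem hx)
    (by rw [← P1.f_d]; exact (congrArg P1.f hdx).trans (map_zero _)) hn1 g1
  obtain ⟨y2, hy2, n2', hn2', b1, b2⟩ := c1 (Q1.f x) n2 (Q1.f_mem hx)
    (by rw [← Q1.f_d]; exact (congrArg Q1.f hdx).trans (map_zero _)) hn2 g2
  let n' : (DR (selfL A)).X := ((show M.X →ₗ[K] K from n1') ∘ₗ S.q +
    (show B.C →ₗ[K] K from n2') ∘ₗ S.p : A.C →ₗ[K] K)
  refine ⟨H1.f y1 + I1.f y2, Submodule.add_mem _ (H1.f_mem hy1) (I1.f_mem hy2), n', ?_, ?_, ?_⟩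
  · intro l z hz hl
    have c1' := hn1' l (S.q z) (S.q_mem hz) hl
    have c2' := hn2' l (S.p z) (S.p_mem hz) hl
    change (show M.X →ₗ[K] K from n1') (S.q z) + (show B.C →ₗ[K] K from n2') (S.p z) = 0
    exact (congrArg₂ (· + ·) c1' c2').trans (add_zero _)
  · have d1 : (tY Y (resBL h (selfB A)).toLM).d (H1.f y1) = H1.f (P1.f x) := by
      rw [← a1]; exact (H1.f_d y1).symm
    have d2 : (tY Y (resBL h (selfB A)).toLM).d (I1.f y2) = I1.f (Q1.f x) := by
      rw [← b1]; exact (I1.f_d y2).symm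
    have d3 : (tY Y (resBL h (selfB A)).toLM).d (H1.f y1 + I1.f y2) =
        H1.f (P1.f x) + I1.f (Q1.f x) := by
      rw [map_add, d1, d2]
    refine d3.trans (Finsupp.ext fun y => ?_)
    exact S.sum _
  · refine DR_ext fun z => ?_
    have hz : (show A.C →ₗ[K] K from n) z = dev (selfL B) (S.p z) n2 +
        dev M.toLM (S.q z) n1 := by
      have := congrArg (show A.C →ₗ[K] K from n) (S.sum z)
      rw [map_add] at this
      exact this.symm
    have hal : dev (selfL A) z (al S R.toRAug (H1.f y1 + I1.f y2)) =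
        dev M.toLM (S.q z) (augR Y (DR M.toLM) R.v y1) + dev (selfL B) (S.p z)
          (be R.toRAug y2) :=
      (congrArg (dev (selfL A) z)
        (LinearMap.map_add (al S R.toRAug) (H1.f y1) (I1.f y2))).trans
        ((map_add (dev (selfL A) z) _ _).trans
          (congrArg₂ (· + ·) (eC S R.toRAug y1 z) (eD S R.toRAug y2 z)))
    have hd1 : dev (selfL A) z ((DR (selfL A)).d n') =
        dev M.toLM (S.q z) ((DR M.toLM).d n1') + dev (selfL B) (S.p z) ((DR (selfL B)).d n2') := by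
      change (show M.X →ₗ[K] K from n1') (S.q (A.D z)) +
        (show B.C →ₗ[K] K from n2') (S.p (A.D z)) = (show M.X →ₗ[K] K from n1') (M.d (S.q z)) +
        (show B.C →ₗ[K] K from n2') (B.D (S.p z))
      rw [S.q_D, S.p_D]
    have hf : dev (selfL B) (S.p z) n2 + dev M.toLM (S.q z) n1 =
        dev (selfL A) z (al S R.toRAug (H1.f y1 + I1.f y2)) +
          dev (selfL A) z ((DR (selfL A)).d n') := by
      refine Eq.trans ?_ (congrArg₂ (· + ·) hal hd1).symm
      rw [a2, b2, map_add, map_add]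
      abel
    exact hz.trans (hf.trans (map_add (dev (selfL A) z) _ _).symm)

/-- the vector of a cell -/
def vA (y : Y.ι) : (DR (selfL A)).X := (ph R.toRAug y ∘ₗ S.q : A.C →ₗ[K] K)

theorem aug_eq (x : Y.ι →₀ A.C) :
    augR (pushR h Y) (DR (selfL A)) (vA S R) x = al S R.toRAug x := by
  classical
  suffices hh : augR (pushR h Y) (DR (selfL A)) (vA S R) = al S R.toRAug from
    LinearMap.congr_fun hh x
  refine Finsupp.lhom_ext fun y a => ?_
  refine (augR_single _ _ _ y a).trans ?_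
  refine DR_ext fun z => ?_
  exact (al_single S R.toRAug y a z).symm

/-- **`Y ⊗_B A` resolves `D(A)`** -/
noncomputable def rresA
    (c1 : ∀ k, CE (tY Y M.toLM) (DR (selfL B)).toGC R.lo k (be R.toRAug)) :
    RRes (pushR h Y) (DR (selfL A)) where
  lo := R.lo
  v := vA S R
  v_mem y := fun l z hz hl => ph_zero R.toRAug y (S.q_mem hz) hl
  v_e y := by
    refine DR_ext fun (z : A.C) => ?_
    change ph R.toRAug y (S.q (h.f (Y.e y) * z)) = ph R.toRAug y (S.q z)
    rw [S.q_mul]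
    exact congrArg (dev M.toLM (S.q z)) (R.v_e y)
  v_d y := by
    refine DR_ext fun (z : A.C) => ?_
    rw [map_sum]
    change ph R.toRAug y (S.q (A.D z)) =
      ∑ τ ∈ Y.F (Y.s y), ph R.toRAug τ (S.q (h.f (Y.c τ y) * z))
    rw [S.q_D, ph_d]
    exact Finset.sum_congr rfl fun τ _ => by rw [S.q_mul]
  ex k x n hx hd hn hxn := by
    obtain ⟨y, hy, n', hn', e1, e2⟩ := ce_al S R (c1 k) x n hx hd hn
      ((congrArg (· + (DR (selfL A)).d n) (aug_eq S R x).symm).trans hxn)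
    exact ⟨y, hy, n', hn', e1,
      e2.trans (congrArg (· + (DR (selfL A)).d n') (aug_eq S R y).symm)⟩

theorem rresA_lo (c1 : ∀ k, CE (tY Y M.toLM) (DR (selfL B)).toGC R.lo k (be R.toRAug)) :
    (rresA S R c1).lo = R.lo := rfl

theorem rresA_v (c1 : ∀ k, CE (tY Y M.toLM) (DR (selfL B)).toGC R.lo k (be R.toRAug)) (y : Y.ι)
    (z : A.C) : dev (selfL A) z ((rresA S R c1).v y) = ph R.toRAug y (S.q z) := rfl

end ceal

end Crest.Agent.R186.SqS988
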