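import Crest.Agent.R186.Defs281_128
import Crest.Agent.R186.PBWD_633
import Crest.Agent.R186.FDind_757

/-!
# Row 186, S0281 base, leaf B281.D5 (helper461): symbol facts for LEFT multiplication on `Fil`

For all `k P : ℤ` (no restriction), `Gen g`:

* `X_mem`, `D_mem` : stability; `XI`, `DI` : strict injectivity;
* `XK` : `X 1 * u - X 0 * v ∈ Fil (k-1) (P+1)` ⟹ `∃ w ∈ Fil k (P-1)`, `u ≡ X 0 * w`, `v ≡ X 1 * w`
  modulo `Fil (k-1) P`;
* `DK` : `D 0 * u - D 1 * v ∈ Fil k (P-1)` ⟹ `∃ w ∈ Fil (k-1) (P+1)`, `u ≡ D 1 * w`,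
  `v ≡ D 0 * w` modulo `Fil (k-1) P`;
* `DS` (`1 ≤ k`), `XS` (`1 ≤ P + k`), `XS'` (`1 ≤ P`) : surjectivity.
-/

set_option autoImplicit false

namespace Crest.Agent.R186.B281.Sym461

open PBWD633

/-! ### abstract graded Koszul lemma -/

section abs

variable {K : Type*} [Field K] {ι V : Type*} [AddCommGroup V] [Module K V]

theorem gr_koszul {f : ι → V} (hf : LinearIndependent K f) {φ ψ : V →ₗ[K] V} {s t : ι → ι}
    (hs : Function.Injective s) (ht : Function.Injective t) (hst : ∀ i, s (t i) = t (s i))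
    (hp : ∀ p q, s p = t q → ∃ r, p = t r)
    (h : ∀ i, φ (f i) = f (s i)) (h' : ∀ i, ψ (f i) = f (t i))
    {T T' T'' L L' : Set ι} (hT : ∀ i ∈ T, s i ∈ T' ∧ t i ∈ T')
    (hL : ∀ i ∈ L, s i ∈ L' ∧ t i ∈ L') (hd : Disjoint T' L') (hT'' : ∀ i, t i ∈ T → i ∈ T'')
    {u v : V} (hu : u ∈ Submodule.span K (f '' (T ∪ L))) (hv : v ∈ Submodule.span K (f '' (T ∪ L)))
    (h0 : φ u - ψ v ∈ Submodule.span K (f '' L')) :
    ∃ w ∈ Submodule.span K (f '' T''), u - ψ w ∈ Submodule.span K (f '' L) ∧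
      v - φ w ∈ Submodule.span K (f '' L) := by
  rw [Set.image_union, Submodule.span_union] at hu hv
  obtain ⟨ut, hut, ul, hul, rfl⟩ := Submodule.mem_sup.1 hu
  obtain ⟨vt, hvt, vl, hvl, rfl⟩ := Submodule.mem_sup.1 hv
  have map1 : ∀ {A B : Set ι}, (∀ i ∈ A, s i ∈ B) → ∀ x ∈ Submodule.span K (f '' A),
      φ x ∈ Submodule.span K (f '' B) := by
    intro A B hAB x hx
    refine Submodule.span_induction (p := fun x _ => φ x ∈ Submodule.span K (f '' B))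
      ?_ ?_ ?_ ?_ hx
    · rintro _ ⟨i, hi, rfl⟩
      rw [h]
      exact Submodule.subset_span ⟨s i, hAB i hi, rfl⟩
    · rw [map_zero]; exact zero_mem _
    · intro x y _ _ hx hy; rw [map_add]; exact add_mem hx hy
    · intro a x _ hx; rw [map_smul]; exact Submodule.smul_mem _ _ hx
  have map2 : ∀ {A B : Set ι}, (∀ i ∈ A, t i ∈ B) → ∀ x ∈ Submodule.span K (f '' A),
      ψ x ∈ Submodule.span K (f '' B) := by
    intro A B hAB x hx
    refine Submodule.span_induction (p := fun x _ => ψ x ∈ Submodule.span K (f '' B))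
      ?_ ?_ ?_ ?_ hx
    · rintro _ ⟨i, hi, rfl⟩
      rw [h']
      exact Submodule.subset_span ⟨t i, hAB i hi, rfl⟩
    · rw [map_zero]; exact zero_mem _
    · intro x y _ _ hx hy; rw [map_add]; exact add_mem hx hy
    · intro a x _ hx; rw [map_smul]; exact Submodule.smul_mem _ _ hx
  have e1 : φ ut - ψ vt ∈ Submodule.span K (f '' T') :=
    sub_mem (map1 (fun i hi => (hT i hi).1) _ hut) (map2 (fun i hi => (hT i hi).2) _ hvt)
  have e2 : φ ut - ψ vt ∈ Submodule.span K (f '' L') := by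
    have h1 := sub_mem h0 (sub_mem (map1 (fun i hi => (hL i hi).1) _ hul)
      (map2 (fun i hi => (hL i hi).2) _ hvl))
    have h2 : φ (ut + ul) - ψ (vt + vl) - (φ ul - ψ vl) = φ ut - ψ vt := by
      rw [map_add, map_add]; abel
    rwa [h2] at h1
  have e3 : φ ut - ψ vt = 0 := by
    have := (hf.disjoint_span_image hd)
    exact (Submodule.disjoint_def.1 this) _ e1 e2
  have r1 : ∀ {A : Set ι} {x : V}, x ∈ Submodule.span K (f '' A) →
      x ∈ Submodule.span K (Set.range f) :=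
    fun hx => Submodule.span_mono (Set.image_subset_range _ _) hx
  obtain ⟨n, hn, hn1, hn2⟩ := shift_koszul hf hs ht hst hp h h' (r1 hut) (neg_mem (r1 hvt))
    (by rw [map_neg, ← sub_eq_add_neg]; exact e3)
  have hn3 : vt = φ n := by rw [← neg_inj]; exact hn2
  refine ⟨n, ?_, ?_, ?_⟩
  · have h3 : n ∈ Submodule.span K (f '' (t ⁻¹' T)) :=
      shift_strict hf ht h' hn (by rw [← hn1]; exact hut)
    exact Submodule.span_mono (Set.image_mono fun i hi => hT'' i hi) h3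
  · rw [← hn1, add_sub_cancel_left]; exact hul
  · rw [← hn3, add_sub_cancel_left]; exact hvl

end abs

/-! ### combinatorics of the exponents -/

/-- top indices -/
def Tp (k P : ℤ) : Set Ix := {q | od q = k ∧ dg q = P}

theorem S_eq (k P : ℤ) : S k P = Tp k P ∪ S (k - 1) P := by
  ext q
  simp only [S, Tp, Set.mem_union, Set.mem_ofPred_eq]
  constructor
  · rintro ⟨h1, h2⟩
    rcases eq_or_lt_of_le h1 with h | h
    · exact Or.inl ⟨h, h2⟩
    · exact Or.inr ⟨by omega, h2⟩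
  · rintro (⟨h1, h2⟩ | ⟨h1, h2⟩)
    · exact ⟨h1.le, h2⟩
    · exact ⟨by omega, h2⟩

theorem Tp_sub (k P : ℤ) : Tp k P ⊆ S k P := fun _ h => ⟨h.1.le, h.2⟩

theorem disj (k P : ℤ) : Disjoint (Tp k P) (S (k - 1) P) := by
  rw [Set.disjoint_left]
  rintro q ⟨h1, _⟩ ⟨h2, _⟩
  omega

theorem sa0_inj : Function.Injective QW.sa0 := by
  rintro ⟨a, b, c, d⟩ ⟨a', b', c', d'⟩ h
  simp only [QW.sa0, Prod.mk.injEq] at h ⊢
  omega

theorem sa1_inj : Function.Injective QW.sa1 := by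
  rintro ⟨a, b, c, d⟩ ⟨a', b', c', d'⟩ h
  simp only [QW.sa1, Prod.mk.injEq] at h ⊢
  omega

theorem sb0_inj : Function.Injective QW.sb0 := by
  rintro ⟨a, b, c, d⟩ ⟨a', b', c', d'⟩ h
  simp only [QW.sb0, Prod.mk.injEq] at h ⊢
  omega

theorem sb1_inj : Function.Injective QW.sb1 := by
  rintro ⟨a, b, c, d⟩ ⟨a', b', c', d'⟩ h
  simp only [QW.sb1, Prod.mk.injEq] at h ⊢
  omega

theorem od_sa0 (q : Ix) : od (QW.sa0 q) = od q := rfl
theorem od_sa1 (q : Ix) : od (QW.sa1 q) = od q := rfl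
theorem od_sb0 (q : Ix) : od (QW.sb0 q) = od q + 1 := by simp only [od, QW.sb0]; push_cast; ring
theorem od_sb1 (q : Ix) : od (QW.sb1 q) = od q + 1 := by simp only [od, QW.sb1]; push_cast; ring
theorem dg_sa0 (q : Ix) : dg (QW.sa0 q) = dg q + 1 := by simp only [dg, QW.sa0]; push_cast; ring
theorem dg_sa1 (q : Ix) : dg (QW.sa1 q) = dg q + 1 := by simp only [dg, QW.sa1]; push_cast; ring
theorem dg_sb0 (q : Ix) : dg (QW.sb0 q) = dg q - 1 := by simp only [dg, QW.sb0]; push_cast; ring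
theorem dg_sb1 (q : Ix) : dg (QW.sb1 q) = dg q - 1 := by simp only [dg, QW.sb1]; push_cast; ring

/-- the shift of `X i *` on exponents -/
def sX (i : Fin 2) (q : Ix) : Ix := if i = 0 then QW.sa0 q else QW.sa1 q

/-- the shift of `D i *` on exponents -/
def sD (i : Fin 2) (q : Ix) : Ix := if i = 0 then QW.sb0 q else QW.sb1 q

theorem sX_inj (i : Fin 2) : Function.Injective (sX i) := by
  fin_cases i
  · exact sa0_inj
  · exact sa1_inj

theorem sD_inj (i : Fin 2) : Function.Injective (sD i) := by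
  fin_cases i
  · exact sb0_inj
  · exact sb1_inj

theorem od_sX (i : Fin 2) (q : Ix) : od (sX i q) = od q := by
  fin_cases i
  · exact od_sa0 q
  · exact od_sa1 q

theorem dg_sX (i : Fin 2) (q : Ix) : dg (sX i q) = dg q + 1 := by
  fin_cases i
  · exact dg_sa0 q
  · exact dg_sa1 q

theorem od_sD (i : Fin 2) (q : Ix) : od (sD i q) = od q + 1 := by
  fin_cases i
  · exact od_sb0 q
  · exact od_sb1 q

theorem dg_sD (i : Fin 2) (q : Ix) : dg (sD i q) = dg q - 1 := by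
  fin_cases i
  · exact dg_sb0 q
  · exact dg_sb1 q

theorem sX_S {i : Fin 2} {k P : ℤ} {q : Ix} : sX i q ∈ S k (P + 1) ↔ q ∈ S k P := by
  simp only [S, Set.mem_ofPred_eq, od_sX, dg_sX]
  omega

theorem sX_T {i : Fin 2} {k P : ℤ} {q : Ix} : sX i q ∈ Tp k (P + 1) ↔ q ∈ Tp k P := by
  simp only [Tp, Set.mem_ofPred_eq, od_sX, dg_sX]
  omega

theorem sD_S {i : Fin 2} {k P : ℤ} {q : Ix} : sD i q ∈ S (k + 1) (P - 1) ↔ q ∈ S k P := by
  simp only [S, Set.mem_ofPred_eq, od_sD, dg_sD]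
  omega

theorem sD_T {i : Fin 2} {k P : ℤ} {q : Ix} : sD i q ∈ Tp (k + 1) (P - 1) ↔ q ∈ Tp k P := by
  simp only [Tp, Set.mem_ofPred_eq, od_sD, dg_sD]
  omega

theorem sX10 (p q : Ix) (h : sX 1 p = sX 0 q) : ∃ r, p = sX 0 r := by
  obtain ⟨a, b, c, d⟩ := p
  obtain ⟨a', b', c', d'⟩ := q
  have h' : (a, b + 1, c, d) = (a' + 1, b', c', d') := h
  simp only [Prod.mk.injEq] at h'
  refine ⟨(a', b, c, d), ?_⟩
  show (a, b, c, d) = (a' + 1, b, c, d)
  rw [h'.1]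

theorem sD01 (p q : Ix) (h : sD 0 p = sD 1 q) : ∃ r, p = sD 1 r := by
  obtain ⟨a, b, c, d⟩ := p
  obtain ⟨a', b', c', d'⟩ := q
  have h' : (a, b, c + 1, d) = (a', b', c', d' + 1) := h
  simp only [Prod.mk.injEq] at h'
  refine ⟨(a, b, c, d'), ?_⟩
  show (a, b, c, d) = (a, b, c, d' + 1)
  rw [h'.2.2.2]

theorem caseD {k P : ℤ} (hk : 1 ≤ k) (q : Ix) (hq : q ∈ S k P) :
    (∃ j ∈ S (k - 1) (P + 1), sD 0 j = q) ∨ (∃ j ∈ S (k - 1) (P + 1), sD 1 j = q) ∨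
      q ∈ S (k - 1) P := by
  obtain ⟨a, b, c, d⟩ := q
  obtain ⟨h1, h2⟩ := hq
  simp only [od, dg] at h1 h2
  rcases c with _ | c
  · rcases d with _ | d
    · refine Or.inr (Or.inr ⟨?_, ?_⟩)
      · simp only [od]; push_cast; omega
      · simp only [dg]; push_cast at h2 ⊢; omega
    · refine Or.inr (Or.inl ⟨(a, b, 0, d), ⟨?_, ?_⟩, rfl⟩)
      · simp only [od]; push_cast at h1 ⊢; omega
      · simp only [dg]; push_cast at h2 ⊢; omega
  · refine Or.inl ⟨(a, b, c, d), ⟨?_, ?_⟩, rfl⟩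
    · simp only [od]; push_cast at h1 ⊢; omega
    · simp only [dg]; push_cast at h2 ⊢; omega

theorem caseX {k P : ℤ} (q : Ix) (hq : q ∈ S k P) :
    (∃ j ∈ S k (P - 1), sX 0 j = q) ∨ (∃ j ∈ S k (P - 1), sX 1 j = q) ∨
      (q.1 = 0 ∧ q.2.1 = 0) := by
  obtain ⟨a, b, c, d⟩ := q
  obtain ⟨h1, h2⟩ := hq
  simp only [od, dg] at h1 h2
  rcases a with _ | a
  · rcases b with _ | b
    · exact Or.inr (Or.inr ⟨rfl, rfl⟩)
    · refine Or.inr (Or.inl ⟨(0, b, c, d), ⟨?_, ?_⟩, rfl⟩)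
      · simp only [od]; omega
      · simp only [dg]; push_cast at h2 ⊢; omega
  · refine Or.inl ⟨(a, b, c, d), ⟨?_, ?_⟩, rfl⟩
    · simp only [od]; omega
    · simp only [dg]; push_cast at h2 ⊢; omega

theorem caseX1 {k P : ℤ} (hk : 1 ≤ P + k) (q : Ix) (hq : q ∈ S k P) :
    (∃ j ∈ S k (P - 1), sX 0 j = q) ∨ (∃ j ∈ S k (P - 1), sX 1 j = q) ∨ q ∈ S (k - 1) P := by
  rcases caseX q hq with h | h | ⟨h1, h2⟩
  · exact Or.inl h
  · exact Or.inr (Or.inl h)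
  · refine Or.inr (Or.inr ⟨?_, hq.2⟩)
    obtain ⟨h3, h4⟩ := hq
    simp only [od, dg] at h3 h4 ⊢
    rw [h1, h2] at h4
    push_cast at h4
    omega

theorem caseX2 {k P : ℤ} (hP : 1 ≤ P) (q : Ix) (hq : q ∈ S k P) :
    (∃ j ∈ S k (P - 1), sX 0 j = q) ∨ (∃ j ∈ S k (P - 1), sX 1 j = q) ∨ q ∈ (∅ : Set Ix) := by
  rcases caseX q hq with h | h | ⟨h1, h2⟩
  · exact Or.inl h
  · exact Or.inr (Or.inl h)
  · exfalso
    obtain ⟨h3, h4⟩ := hq
    simp only [dg] at h4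
    rw [h1, h2] at h4
    push_cast at h4
    omega

/-! ### left multiplications in a general ring -/

section ring

variable {K : Type*} [Field K] {g : K} {R : Type*} [Ring R] [Algebra K R]

theorem sp_map {f : Ix → R} {T : R} {s : Ix → Ix} (h : ∀ i, T * f i = f (s i))
    {A B : Set Ix} (hAB : ∀ i ∈ A, s i ∈ B) {x : R}
    (hx : x ∈ Submodule.span K (f '' A)) : T * x ∈ Submodule.span K (f '' B) := by
  refine Submodule.span_induction (p := fun x _ => T * x ∈ Submodule.span K (f '' B))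
    ?_ ?_ ?_ ?_ hx
  · rintro _ ⟨i, hi, rfl⟩
    rw [h]
    exact Submodule.subset_span ⟨s i, hAB i hi, rfl⟩
  · rw [mul_zero]; exact zero_mem _
  · intro x y _ _ hx hy; rw [mul_add]; exact add_mem hx hy
  · intro a x _ hx; rw [mul_smul_comm]; exact Submodule.smul_mem _ _ hx

theorem sp_strict {f : Ix → R} (hf : LinearIndependent K f) {T : R} {s : Ix → Ix}
    (hs : Function.Injective s) (h : ∀ i, T * f i = f (s i)) {A B C : Set Ix} {m : R}
    (hm : m ∈ Submodule.span K (f '' C)) (hA : T * m ∈ Submodule.span K (f '' A))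
    (hB : ∀ i, s i ∈ A → i ∈ B) : m ∈ Submodule.span K (f '' B) := by
  have h1 := shift_strict hf (φ := LinearMap.mulLeft K T) hs h (A := A) (m := m)
    (Submodule.span_mono (Set.image_subset_range _ _) hm) hA
  exact Submodule.span_mono (Set.image_mono fun i hi => hB i hi) h1

theorem sp_koszul {f : Ix → R} (hf : LinearIndependent K f) {T U : R} {s t : Ix → Ix}
    (hs : Function.Injective s) (ht : Function.Injective t) (hst : ∀ i, s (t i) = t (s i))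
    (hp : ∀ p q, s p = t q → ∃ r, p = t r)
    (h : ∀ i, T * f i = f (s i)) (h' : ∀ i, U * f i = f (t i))
    {A A' A'' L L' : Set Ix} (hT : ∀ i ∈ A, s i ∈ A' ∧ t i ∈ A')
    (hL : ∀ i ∈ L, s i ∈ L' ∧ t i ∈ L') (hd : Disjoint A' L') (hT'' : ∀ i, t i ∈ A → i ∈ A'')
    {u v : R} (hu : u ∈ Submodule.span K (f '' (A ∪ L)))
    (hv : v ∈ Submodule.span K (f '' (A ∪ L)))
    (h0 : T * u - U * v ∈ Submodule.span K (f '' L')) :
    ∃ w ∈ Submodule.span K (f '' A''), u - U * w ∈ Submodule.span K (f '' L) ∧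
      v - T * w ∈ Submodule.span K (f '' L) :=
  gr_koszul hf (φ := LinearMap.mulLeft K T) (ψ := LinearMap.mulLeft K U) hs ht hst hp h h'
    hT hL hd hT'' hu hv h0

theorem sp_surj {f : Ix → R} {T U : R} {s t : Ix → Ix}
    (h : ∀ i, T * f i = f (s i)) (h' : ∀ i, U * f i = f (t i)) {A B C E : Set Ix}
    (hA : ∀ i ∈ A, (∃ j ∈ B, s j = i) ∨ (∃ j ∈ C, t j = i) ∨ i ∈ E) {m : R}
    (hm : m ∈ Submodule.span K (f '' A)) :
    ∃ m0 ∈ Submodule.span K (f '' B), ∃ m1 ∈ Submodule.span K (f '' C),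
      m - (T * m0 + U * m1) ∈ Submodule.span K (f '' E) := by
  obtain ⟨m0, h0, m1, h1, e, he, rfl⟩ := shift_surj (φ := LinearMap.mulLeft K T)
    (ψ := LinearMap.mulLeft K U) h h' hA hm
  refine ⟨m0, h0, m1, h1, ?_⟩
  rw [LinearMap.mulLeft_apply, LinearMap.mulLeft_apply, add_sub_cancel_left]
  exact he

variable (W : QW g R)

/-- the variables -/
def xx (i : Fin 2) : R := if i = 0 then W.x0 else W.x1

/-- the derivations -/
def dd (i : Fin 2) : R := if i = 0 then W.d0 else W.d1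

theorem lX (i : Fin 2) (q : Ix) : xx W i * W.M q = W.M (sX i q) := by
  fin_cases i
  · exact W.x0_M q
  · exact W.x1_M q

theorem lD (i : Fin 2) (q : Ix) : dd W i * W.N q = W.N (sD i q) := by
  fin_cases i
  · exact W.d0_N q
  · exact W.d1_N q

theorem FM (k P : ℤ) : W.F k P = Submodule.span K (W.M '' S k P) := rfl

theorem FN (hg : g ≠ 0) (k P : ℤ) : W.F k P = Submodule.span K (W.N '' S k P) :=
  W.F_eq_FN hg k P

theorem aX_mem (i : Fin 2) {k P : ℤ} {u : R} (hu : u ∈ W.F k P) :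
    xx W i * u ∈ W.F k (P + 1) :=
  sp_map (lX W i) (fun _ hq => sX_S.2 hq) hu

theorem aD_mem (hg : g ≠ 0) (i : Fin 2) {k P : ℤ} {u : R} (hu : u ∈ W.F k P) :
    dd W i * u ∈ W.F (k + 1) (P - 1) := by
  rw [FN W hg] at hu ⊢
  exact sp_map (lD W i) (fun _ hq => sD_S.2 hq) hu

theorem aXI (hW : W.PBW) (i : Fin 2) {k l P Q : ℤ} {u : R} (hu : u ∈ W.F l Q)
    (h : xx W i * u ∈ W.F k (P + 1)) : u ∈ W.F k P :=
  sp_strict hW (sX_inj i) (lX W i) hu h (fun _ hq => sX_S.1 hq)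

theorem aDI (hW : W.PBW) (hg : g ≠ 0) (i : Fin 2) {k l P Q : ℤ} {u : R} (hu : u ∈ W.F l Q)
    (h : dd W i * u ∈ W.F (k + 1) (P - 1)) : u ∈ W.F k P := by
  rw [FN W hg] at hu h ⊢
  exact sp_strict (hW.N hg) (sD_inj i) (lD W i) hu h (fun _ hq => sD_S.1 hq)

theorem aXK (hW : W.PBW) {k P : ℤ} {u v : R} (hu : u ∈ W.F k P) (hv : v ∈ W.F k P)
    (h : xx W 1 * u - xx W 0 * v ∈ W.F (k - 1) (P + 1)) :
    ∃ w ∈ W.F k (P - 1), u - xx W 0 * w ∈ W.F (k - 1) P ∧ v - xx W 1 * w ∈ W.F (k - 1) P := by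
  rw [FM, S_eq] at hu hv
  obtain ⟨w, hw, h1, h2⟩ := sp_koszul hW (sX_inj 1) (sX_inj 0) (fun q => rfl) sX10
    (lX W 1) (lX W 0) (A := Tp k P) (A' := Tp k (P + 1)) (A'' := Tp k (P - 1))
    (L := S (k - 1) P) (L' := S (k - 1) (P + 1))
    (fun q hq => ⟨sX_T.2 hq, sX_T.2 hq⟩) (fun q hq => ⟨sX_S.2 hq, sX_S.2 hq⟩)
    (disj k (P + 1))
    (fun q hq => by
      have h3 := dg_sX 0 q
      have h4 := od_sX 0 q
      have h5 := hq.1
      have h6 := hq.2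
      exact ⟨by omega, by omega⟩) hu hv h
  exact ⟨w, Submodule.span_mono (Set.image_mono (Tp_sub _ _)) hw, h1, h2⟩

theorem aDK (hW : W.PBW) (hg : g ≠ 0) {k P : ℤ} {u v : R} (hu : u ∈ W.F k P) (hv : v ∈ W.F k P)
    (h : dd W 0 * u - dd W 1 * v ∈ W.F k (P - 1)) :
    ∃ w ∈ W.F (k - 1) (P + 1), u - dd W 1 * w ∈ W.F (k - 1) P ∧
      v - dd W 0 * w ∈ W.F (k - 1) P := by
  rw [FN W hg, S_eq] at hu hv
  rw [FN W hg] at h
  obtain ⟨w, hw, h1, h2⟩ := sp_koszul (hW.N hg) (sD_inj 0) (sD_inj 1) (fun q => rfl) sD01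
    (lD W 0) (lD W 1) (A := Tp k P) (A' := Tp (k + 1) (P - 1)) (A'' := Tp (k - 1) (P + 1))
    (L := S (k - 1) P) (L' := S k (P - 1))
    (fun q hq => ⟨sD_T.2 hq, sD_T.2 hq⟩)
    (fun q hq => by
      have h3 : sD 0 q ∈ S (k - 1 + 1) (P - 1) := sD_S.2 hq
      have h4 : sD 1 q ∈ S (k - 1 + 1) (P - 1) := sD_S.2 hq
      rw [sub_add_cancel] at h3 h4
      exact ⟨h3, h4⟩)
    (by
      have h3 := disj (k + 1) (P - 1)
      rwa [add_sub_cancel_right] at h3)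
    (fun q hq => by
      have h3 := dg_sD 1 q
      have h4 := od_sD 1 q
      have h5 := hq.1
      have h6 := hq.2
      exact ⟨by omega, by omega⟩) hu hv h
  rw [FN W hg, FN W hg]
  exact ⟨w, Submodule.span_mono (Set.image_mono (Tp_sub _ _)) hw, h1, h2⟩

theorem aDS (hg : g ≠ 0) {k P : ℤ} (hk : 1 ≤ k) {u : R} (hu : u ∈ W.F k P) :
    ∃ a ∈ W.F (k - 1) (P + 1), ∃ b ∈ W.F (k - 1) (P + 1),
      u - (dd W 0 * a + dd W 1 * b) ∈ W.F (k - 1) P := by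
  rw [FN W hg] at hu
  rw [FN W hg, FN W hg]
  exact sp_surj (lD W 0) (lD W 1) (caseD hk) hu

theorem aXS {k P : ℤ} (hk : 1 ≤ P + k) {u : R} (hu : u ∈ W.F k P) :
    ∃ a ∈ W.F k (P - 1), ∃ b ∈ W.F k (P - 1),
      u - (xx W 0 * a + xx W 1 * b) ∈ W.F (k - 1) P :=
  sp_surj (lX W 0) (lX W 1) (caseX1 hk) hu

theorem aXS' {k P : ℤ} (hP : 1 ≤ P) {u : R} (hu : u ∈ W.F k P) :
    ∃ a ∈ W.F k (P - 1), ∃ b ∈ W.F k (P - 1), u = xx W 0 * a + xx W 1 * b := by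
  obtain ⟨a, ha, b, hb, h⟩ := sp_surj (lX W 0) (lX W 1) (caseX2 hP) hu
  rw [Set.image_empty, Submodule.span_empty, Submodule.mem_bot, sub_eq_zero] at h
  exact ⟨a, ha, b, hb, h⟩

theorem az {R : Type*} [Ring R] [Algebra K R] (A B C : Submodule K R) (x y : R) :
    ∃ a ∈ A, ∃ b ∈ B, (0 : R) - (x * a + y * b) ∈ C :=
  ⟨0, zero_mem _, 0, zero_mem _, by
    rw [mul_zero, mul_zero, add_zero, sub_zero]
    exact zero_mem _⟩

end ring

/-! ### the instance on `Op K` -/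

variable {K : Type} [Field K] {g : K}

/-- the `q`-Weyl data of `Defs281` -/
noncomputable def W (hg : Gen g) : QW g (Op K) where
  x0 := X 0
  x1 := X 1
  d0 := D g 0
  d1 := D g 1
  hx := X_comm 0 1
  hd := D_comm g 0 1
  h01 := X_D g (by decide)
  h10 := X_D g (by decide)
  h00 := X_D_self hg 0
  h11 := X_D_self hg 1

theorem M_eq (hg : Gen g) (q : Ix) :
    (W hg).M q = mon g (q.1, q.2.1) (q.2.2.1, q.2.2.2) := by
  simp only [QW.M, W, mon, mul_assoc]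

theorem Fil_eq (hg : Gen g) (k P : ℤ) : Fil g k P = (W hg).F k P := by
  unfold Fil QW.F
  congr 1
  ext T
  constructor
  · rintro ⟨a, b, h1, h2, rfl⟩
    exact ⟨(a.1, a.2, b.1, b.2), ⟨h1, h2⟩, M_eq hg _⟩
  · rintro ⟨q, ⟨h1, h2⟩, rfl⟩
    exact ⟨(q.1, q.2.1), (q.2.2.1, q.2.2.2), h1, h2, M_eq hg q⟩

theorem Fil_eq' (hg : Gen g) (k P : ℤ) : Fil g k P = (W hg).FN k P := by
  rw [Fil_eq hg, QW.F_eq_FN _ hg.ne]

theorem pbw (hg : Gen g) : (W hg).PBW := by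
  have h := FD757.mon_indep hg
  let e : Ix → (ℕ × ℕ) × (ℕ × ℕ) := fun q => ((q.1, q.2.1), (q.2.2.1, q.2.2.2))
  have he : Function.Injective e := by
    rintro ⟨a, b, c, d⟩ ⟨a', b', c', d'⟩ h
    simp only [e, Prod.mk.injEq] at h
    simp only [Prod.mk.injEq]
    tauto
  have h2 := h.comp e he
  have h3 : (fun p : (ℕ × ℕ) × (ℕ × ℕ) => mon g p.1 p.2) ∘ e = (W hg).M := by
    funext q
    rw [M_eq hg]
    rfl
  rw [h3] at h2
  exact h2

theorem pbwN (hg : Gen g) : LinearIndependent K (W hg).N := (pbw hg).N hg.ne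

theorem xx_eq (hg : Gen g) (i : Fin 2) : xx (W hg) i = X i := by
  fin_cases i <;> rfl

theorem dd_eq (hg : Gen g) (i : Fin 2) : dd (W hg) i = D g i := by
  fin_cases i <;> rfl

theorem Fil_mono (hg : Gen g) {k l : ℤ} (h : k ≤ l) (P : ℤ) : Fil g k P ≤ Fil g l P := by
  rw [Fil_eq hg, Fil_eq hg]
  exact Submodule.span_mono (Set.image_mono fun q hq => ⟨hq.1.trans h, hq.2⟩)

/-- stability under `X i *` -/
theorem X_mem (hg : Gen g) (i : Fin 2) {k P : ℤ} {u : Op K} (hu : u ∈ Fil g k P) :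
    X i * u ∈ Fil g k (P + 1) := by
  rw [Fil_eq hg] at hu ⊢
  have h := aX_mem (W hg) i hu
  rw [xx_eq] at h
  exact h

/-- stability under `D i *` -/
theorem D_mem (hg : Gen g) (i : Fin 2) {k P : ℤ} {u : Op K} (hu : u ∈ Fil g k P) :
    D g i * u ∈ Fil g (k + 1) (P - 1) := by
  rw [Fil_eq hg] at hu ⊢
  have h := aD_mem (W hg) hg.ne i hu
  rw [dd_eq] at h
  exact h

/-- strictness of `X i *` -/
theorem XI (hg : Gen g) (i : Fin 2) {k l P Q : ℤ} {u : Op K} (hu : u ∈ Fil g l Q)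
    (h : X i * u ∈ Fil g k (P + 1)) : u ∈ Fil g k P := by
  rw [Fil_eq hg] at hu h ⊢
  rw [← xx_eq hg] at h
  exact aXI (W hg) (pbw hg) i hu h

/-- strictness of `D i *` -/
theorem DI (hg : Gen g) (i : Fin 2) {k l P Q : ℤ} {u : Op K} (hu : u ∈ Fil g l Q)
    (h : D g i * u ∈ Fil g (k + 1) (P - 1)) : u ∈ Fil g k P := by
  rw [Fil_eq hg] at hu h ⊢
  rw [← dd_eq hg] at h
  exact aDI (W hg) (pbw hg) hg.ne i hu h

/-- injectivity of `X i *` on operators -/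
theorem X_inj (i : Fin 2) {u : Op K} (h : X i * u = 0) : u = 0 := by
  have hX : Function.Injective (X i : Op K) := by
    have : Function.Injective (fun m : ℤ × ℤ => m + ev i) := add_left_injective _
    exact Finsupp.mapDomain_injective this
  refine LinearMap.ext fun f => hX ?_
  have := LinearMap.congr_fun h f
  rw [Module.End.mul_apply] at this
  rw [this]
  exact (LinearMap.map_zero (X i : Op K)).symm

/-- `x`-Koszul on symbols -/
theorem XK (hg : Gen g) {k P : ℤ} {u v : Op K} (hu : u ∈ Fil g k P) (hv : v ∈ Fil g k P)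
    (h : X 1 * u - X 0 * v ∈ Fil g (k - 1) (P + 1)) :
    ∃ w ∈ Fil g k (P - 1), u - X 0 * w ∈ Fil g (k - 1) P ∧ v - X 1 * w ∈ Fil g (k - 1) P := by
  rw [Fil_eq hg] at hu hv h
  rw [← xx_eq hg 1, ← xx_eq hg 0] at h
  obtain ⟨w, hw, h1, h2⟩ := aXK (W hg) (pbw hg) hu hv h
  rw [xx_eq] at h1 h2
  rw [Fil_eq hg, Fil_eq hg]
  exact ⟨w, hw, h1, h2⟩

/-- `d`-Koszul on symbols -/
theorem DK (hg : Gen g) {k P : ℤ} {u v : Op K} (hu : u ∈ Fil g k P) (hv : v ∈ Fil g k P)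
    (h : D g 0 * u - D g 1 * v ∈ Fil g k (P - 1)) :
    ∃ w ∈ Fil g (k - 1) (P + 1), u - D g 1 * w ∈ Fil g (k - 1) P ∧
      v - D g 0 * w ∈ Fil g (k - 1) P := by
  rw [Fil_eq hg] at hu hv h
  rw [← dd_eq hg 1, ← dd_eq hg 0] at h
  obtain ⟨w, hw, h1, h2⟩ := aDK (W hg) (pbw hg) hg.ne hu hv h
  rw [dd_eq] at h1 h2
  rw [Fil_eq hg, Fil_eq hg]
  exact ⟨w, hw, h1, h2⟩

/-- every operator of order `k ≥ 1` is `d_0 a + d_1 b` modulo lower order -/
theorem DS (hg : Gen g) {k P : ℤ} (hk : 1 ≤ k) {u : Op K} (hu : u ∈ Fil g k P) :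
    ∃ a ∈ Fil g (k - 1) (P + 1), ∃ b ∈ Fil g (k - 1) (P + 1),
      u - (D g 0 * a + D g 1 * b) ∈ Fil g (k - 1) P := by
  rw [Fil_eq hg] at hu
  obtain ⟨a, ha, b, hb, h⟩ := aDS (W hg) hg.ne hk hu
  rw [dd_eq, dd_eq] at h
  rw [Fil_eq hg, Fil_eq hg]
  exact ⟨a, ha, b, hb, h⟩

/-- every operator of degree `P` and order `k` is `x_0 a + x_1 b` modulo lower order, `P + k ≥ 1` -/
theorem XS (hg : Gen g) {k P : ℤ} (hk : 1 ≤ P + k) {u : Op K} (hu : u ∈ Fil g k P) :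
    ∃ a ∈ Fil g k (P - 1), ∃ b ∈ Fil g k (P - 1),
      u - (X 0 * a + X 1 * b) ∈ Fil g (k - 1) P := by
  rw [Fil_eq hg] at hu
  obtain ⟨a, ha, b, hb, h⟩ := aXS (W hg) hk hu
  rw [xx_eq, xx_eq] at h
  rw [Fil_eq hg, Fil_eq hg]
  exact ⟨a, ha, b, hb, h⟩

/-- every operator of degree `P ≥ 1` is `x_0 a + x_1 b` -/
theorem XS' (hg : Gen g) {k P : ℤ} (hP : 1 ≤ P) {u : Op K} (hu : u ∈ Fil g k P) :
    ∃ a ∈ Fil g k (P - 1), ∃ b ∈ Fil g k (P - 1), u = X 0 * a + X 1 * b := by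
  rw [Fil_eq hg] at hu
  obtain ⟨a, ha, b, hb, h⟩ := aXS' (W hg) hP hu
  rw [xx_eq, xx_eq] at h
  rw [Fil_eq hg]
  exact ⟨a, ha, b, hb, h⟩

/-- negative order: zero -/
theorem Fil_neg (hg : Gen g) {k P : ℤ} (hk : k < 0) {u : Op K} (hu : u ∈ Fil g k P) : u = 0 := by
  rw [Fil_eq hg, FM, S_neg hk, Set.image_empty, Submodule.span_empty, Submodule.mem_bot] at hu
  exact hu

/-- degree below `-k`: zero -/
theorem Fil_low (hg : Gen g) {k P : ℤ} (hk : P + k < 0) {u : Op K} (hu : u ∈ Fil g k P) :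
    u = 0 := by
  have h : S k P = ∅ := by
    ext q
    simp only [S, od, dg, Set.mem_ofPred_eq, Set.mem_empty_iff_false, iff_false, not_and]
    intro h1 h2
    omega
  rw [Fil_eq hg, FM, h, Set.image_empty, Submodule.span_empty, Submodule.mem_bot] at hu
  exact hu

/-- `DS` for all `k ≠ 0` -/
theorem DSn (hg : Gen g) {k P : ℤ} (hk : k ≠ 0) {u : Op K} (hu : u ∈ Fil g k P) :
    ∃ a ∈ Fil g (k - 1) (P + 1), ∃ b ∈ Fil g (k - 1) (P + 1),
      u - (D g 0 * a + D g 1 * b) ∈ Fil g (k - 1) P := by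
  rcases lt_or_gt_of_ne hk with h | h
  · obtain rfl := Fil_neg hg h hu
    exact az (K := K) (R := Op K) _ _ _ _ _
  · exact DS hg (by omega) hu

/-- `XS` for all `P + k ≠ 0` or `k < 0` -/
theorem XSn (hg : Gen g) {k P : ℤ} (hk : P + k ≠ 0 ∨ k < 0) {u : Op K} (hu : u ∈ Fil g k P) :
    ∃ a ∈ Fil g k (P - 1), ∃ b ∈ Fil g k (P - 1),
      u - (X 0 * a + X 1 * b) ∈ Fil g (k - 1) P := by
  have key : u = 0 → ∃ a ∈ Fil g k (P - 1), ∃ b ∈ Fil g k (P - 1),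
      u - (X 0 * a + X 1 * b) ∈ Fil g (k - 1) P := by
    rintro rfl
    exact az (K := K) (R := Op K) _ _ _ _ _
  rcases hk with h | h
  · rcases lt_or_gt_of_ne h with h | h
    · exact key (Fil_low hg h hu)
    · exact XS hg (by omega) hu
  · exact key (Fil_neg hg h hu)

end Crest.Agent.R186.B281.Sym461
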