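import Crest.Agent.R186.Frame_515

/-!
Row 186 (helper143): quasi-isomorphism calculus for graded complexes (515's `GC`).
-/

set_option autoImplicit false
set_option linter.style.haveILetI false
set_option linter.unusedSectionVars false

namespace Crest.Agent.R186.TB143

open Frame515

variable {K : Type} [Field K]

/-- exactness in degree `k` -/
def Z (X : GC K) (k : ℤ) : Prop := ∀ x ∈ X.gr k, X.d x = 0 → ∃ y ∈ X.gr (k + 1), X.d y = x

theorem ac_iff {X : GC K} : Ac X ↔ ∀ k, Z X k := Iff.rfl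

theorem gr_cast {X : GC K} {k l : ℤ} {x : X.X} (h : x ∈ X.gr k) (e : k = l) : x ∈ X.gr l := e ▸ h

/-- surjectivity on classes in degree `k` -/
def QS {X Y : GC K} (f : GCHom X Y) (k : ℤ) : Prop := ∀ y ∈ Y.gr k, Y.d y = 0 →
    ∃ x ∈ X.gr k, X.d x = 0 ∧ ∃ z ∈ Y.gr (k + 1), y = f.f x + Y.d z

/-- injectivity on classes in degree `k` -/
def QJ {X Y : GC K} (f : GCHom X Y) (k : ℤ) : Prop := ∀ x ∈ X.gr k, X.d x = 0 →
    (∃ z ∈ Y.gr (k + 1), f.f x = Y.d z) → ∃ w ∈ X.gr (k + 1), x = X.d w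

theorem qi_iff {X Y : GC K} {f : GCHom X Y} : QI f ↔ (∀ k, QS f k) ∧ ∀ k, QJ f k :=
  ⟨fun h => ⟨h.surj, h.inj⟩, fun h => ⟨h.1, h.2⟩⟩

section comp

variable {X Y W : GC K}

/-- the identity -/
def idh (X : GC K) : GCHom X X := ⟨LinearMap.id, fun h => h, fun _ => rfl⟩

/-- composition -/
def comp (g : GCHom Y W) (f : GCHom X Y) : GCHom X W :=
  ⟨g.f ∘ₗ f.f, fun h => g.f_mem (f.f_mem h), fun x => by
    rw [LinearMap.comp_apply, LinearMap.comp_apply, f.f_d, g.f_d]⟩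

theorem QI.id : QI (idh X) :=
  ⟨fun _ y hy h => ⟨y, hy, h, 0, Submodule.zero_mem _, by simp [idh]⟩,
    fun _ _ _ _ ⟨z, hz, e⟩ => ⟨z, hz, e⟩⟩

/-- a bijection on homogeneous elements -/
theorem QI.of_bij {f : GCHom X Y} (h1 : ∀ k, ∀ x ∈ X.gr k, f.f x = 0 → x = 0)
    (h2 : ∀ k, ∀ y ∈ Y.gr k, ∃ x ∈ X.gr k, f.f x = y) : QI f := by
  refine ⟨fun k y hy hd => ?_, fun k x hx hd ⟨z, hz, e⟩ => ?_⟩
  · obtain ⟨x, hx, rfl⟩ := h2 k y hy
    refine ⟨x, hx, ?_, 0, Submodule.zero_mem _, by simp⟩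
    refine h1 _ _ (X.d_mem hx) ?_
    rw [f.f_d, hd]
  · obtain ⟨w, hw, rfl⟩ := h2 _ z hz
    refine ⟨w, hw, ?_⟩
    have h3 : X.d w ∈ X.gr k := gr_cast (X.d_mem hw) (by ring)
    have := h1 k (x - X.d w) (Submodule.sub_mem _ hx h3) (by rw [map_sub, e, f.f_d, sub_self])
    exact sub_eq_zero.1 this

theorem QI.z_right {f : GCHom X Y} {k : ℤ} (h : QS f k) (hX : Z X k) : Z Y k := by
  intro y hy hd
  obtain ⟨x, hx, hdx, z, hz, rfl⟩ := h y hy hd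
  obtain ⟨w, hw, rfl⟩ := hX x hx hdx
  exact ⟨f.f w + z, Submodule.add_mem _ (f.f_mem hw) hz, by rw [map_add, f.f_d]⟩

theorem QI.z_left {f : GCHom X Y} {k : ℤ} (h : QJ f k) (hY : Z Y k) : Z X k := by
  intro x hx hd
  obtain ⟨z, hz, e⟩ := hY (f.f x) (f.f_mem hx) (by rw [← f.f_d, hd, map_zero])
  obtain ⟨w, hw, e'⟩ := h x hx hd ⟨z, hz, e.symm⟩
  exact ⟨w, hw, e'.symm⟩

theorem QI.z_iff {f : GCHom X Y} (h : QI f) (k : ℤ) : Z X k ↔ Z Y k :=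
  ⟨QI.z_right (h.surj k), QI.z_left (h.inj k)⟩

theorem QI.ac {f : GCHom X Y} (h : QI f) : Ac X ↔ Ac Y :=
  ⟨fun hX k => (QI.z_iff h k).1 (hX k), fun hY k => (QI.z_iff h k).2 (hY k)⟩

theorem QI.comp {g : GCHom Y W} {f : GCHom X Y} (hg : QI g) (hf : QI f) :
    QI (TB143.comp g f) := by
  refine ⟨fun k w hw hd => ?_, fun k x hx hd ⟨z, hz, e⟩ => ?_⟩
  · obtain ⟨y, hy, hdy, z, hz, rfl⟩ := hg.surj k w hw hd
    obtain ⟨x, hx, hdx, z', hz', rfl⟩ := hf.surj k y hy hdy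
    refine ⟨x, hx, hdx, g.f z' + z, Submodule.add_mem _ (g.f_mem hz') hz, ?_⟩
    rw [map_add, map_add, g.f_d]
    exact add_assoc _ _ _
  · obtain ⟨y, hy, e'⟩ := hg.inj k (f.f x) (f.f_mem hx) (by rw [← f.f_d, hd, map_zero]) ⟨z, hz, e⟩
    exact hf.inj k x hx hd ⟨y, hy, e'⟩

/-- 2-out-of-3: `g`, `g f` ⇒ `f` -/
theorem QI.of_comp_left {g : GCHom Y W} {f : GCHom X Y} (hg : QI g)
    (h : QI (TB143.comp g f)) : QI f := by
  refine ⟨fun k y hy hd => ?_, fun k x hx hd ⟨z, hz, e⟩ => ?_⟩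
  · obtain ⟨x, hx, hdx, z, hz, e⟩ := h.surj k (g.f y) (g.f_mem hy) (by rw [← g.f_d, hd, map_zero])
    have e1 : g.f (y - f.f x) = W.d z := by
      rw [map_sub, e]
      show g.f (f.f x) + W.d z - g.f (f.f x) = _
      abel
    obtain ⟨w, hw, e'⟩ := hg.inj k (y - f.f x) (Submodule.sub_mem _ hy (f.f_mem hx))
      (by rw [map_sub, hd, ← f.f_d, hdx, map_zero, sub_zero]) ⟨z, hz, e1⟩
    exact ⟨x, hx, hdx, w, hw, by rw [← e']; abel⟩
  · exact h.inj k x hx hd ⟨g.f z, g.f_mem hz, by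
      show g.f (f.f x) = _
      rw [e, g.f_d]⟩

/-- 2-out-of-3: `f`, `g f` ⇒ `g` -/
theorem QI.of_comp_right {g : GCHom Y W} {f : GCHom X Y} (hf : QI f)
    (h : QI (TB143.comp g f)) : QI g := by
  refine ⟨fun k w hw hd => ?_, fun k y hy hd ⟨z, hz, e⟩ => ?_⟩
  · obtain ⟨x, hx, hdx, z, hz, e⟩ := h.surj k w hw hd
    exact ⟨f.f x, f.f_mem hx, by rw [← f.f_d, hdx, map_zero], z, hz, e⟩
  · obtain ⟨x, hx, hdx, z', hz', rfl⟩ := hf.surj k y hy hd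
    obtain ⟨w, hw, e'⟩ := h.inj k x hx hdx ⟨z - g.f z',
      Submodule.sub_mem _ hz (g.f_mem hz'), by
        show g.f (f.f x) = _
        rw [map_sub, ← e, map_add, g.f_d]; abel⟩
    exact ⟨f.f w + z', Submodule.add_mem _ (f.f_mem hw) hz', by rw [map_add, ← f.f_d, ← e']⟩

theorem QI.comp_iff_left {g : GCHom Y W} {f : GCHom X Y} (hg : QI g) :
    QI (TB143.comp g f) ↔ QI f := ⟨QI.of_comp_left hg, QI.comp hg⟩

theorem QI.comp_iff_right {g : GCHom Y W} {f : GCHom X Y} (hf : QI f) :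
    QI (TB143.comp g f) ↔ QI g := ⟨QI.of_comp_right hf, fun hg => QI.comp hg hf⟩

/-- a quasi-isomorphism between acyclic complexes -/
theorem QI.of_ac (f : GCHom X Y) (hX : Ac X) (hY : Ac Y) : QI f := by
  refine ⟨fun k y hy hd => ?_, fun k x hx hd ⟨z, hz, e⟩ => ?_⟩
  · obtain ⟨z, hz, rfl⟩ := hY k y hy hd
    exact ⟨0, Submodule.zero_mem _, map_zero _, z, hz, by simp⟩
  · obtain ⟨w, hw, rfl⟩ := hX k x hx hd
    exact ⟨w, hw, rfl⟩

end comp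

/-! ### short exact sequences -/

/-- a short exact sequence on homogeneous elements -/
structure SES (X Y W : GC K) where
  i : GCHom X Y
  p : GCHom Y W
  zero : ∀ {k : ℤ} {x : X.X}, x ∈ X.gr k → p.f (i.f x) = 0
  inj : ∀ {k : ℤ} {x : X.X}, x ∈ X.gr k → i.f x = 0 → x = 0
  ex : ∀ {k : ℤ} {y : Y.X}, y ∈ Y.gr k → p.f y = 0 → ∃ x ∈ X.gr k, i.f x = y
  sur : ∀ {k : ℤ} {z : W.X}, z ∈ W.gr k → ∃ y ∈ Y.gr k, p.f y = z

namespace SES

variable {X Y W : GC K} (S : SES X Y W)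

include S

theorem mid {k : ℤ} (hX : Z X k) (hW : Z W k) : Z Y k := by
  intro y hy hd
  obtain ⟨z, hz, e⟩ := hW (S.p.f y) (S.p.f_mem hy) (by rw [← S.p.f_d, hd, map_zero])
  obtain ⟨y1, hy1, rfl⟩ := S.sur hz
  have hd1 : Y.d y1 ∈ Y.gr k := gr_cast (Y.d_mem hy1) (by ring)
  obtain ⟨x, hx, ex⟩ := S.ex (Submodule.sub_mem _ hy hd1)
    (by rw [map_sub, S.p.f_d, e, sub_self])
  have hdx : X.d x = 0 := S.inj (X.d_mem hx) (by
    rw [S.i.f_d, ex, map_sub, hd, Y.d_d, sub_zero])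
  obtain ⟨x1, hx1, rfl⟩ := hX x hx hdx
  refine ⟨y1 + S.i.f x1, Submodule.add_mem _ hy1 (S.i.f_mem hx1), ?_⟩
  rw [map_add, ← S.i.f_d, ex]
  abel

theorem right {k : ℤ} (hY : Z Y k) (hX : Z X (k - 1)) : Z W k := by
  intro z hz hd
  obtain ⟨y, hy, rfl⟩ := S.sur hz
  obtain ⟨x, hx, ex⟩ := S.ex (Y.d_mem hy) (by rw [S.p.f_d, hd])
  have hdx : X.d x = 0 := S.inj (X.d_mem hx) (by rw [S.i.f_d, ex, Y.d_d])
  obtain ⟨x1, hx1, rfl⟩ := hX x hx hdx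
  have hx1' : x1 ∈ X.gr k := gr_cast hx1 (by ring)
  obtain ⟨y1, hy1, e1⟩ := hY (y - S.i.f x1) (Submodule.sub_mem _ hy (S.i.f_mem hx1'))
    (by rw [map_sub, ← S.i.f_d, ex, sub_self])
  exact ⟨S.p.f y1, S.p.f_mem hy1, by rw [← S.p.f_d, e1, map_sub, S.zero hx1', sub_zero]⟩

theorem left {k : ℤ} (hY : Z Y k) (hW : Z W (k + 1)) : Z X k := by
  intro x hx hd
  obtain ⟨y, hy, e⟩ := hY (S.i.f x) (S.i.f_mem hx) (by rw [← S.i.f_d, hd, map_zero])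
  obtain ⟨z, hz, e'⟩ := hW (S.p.f y) (S.p.f_mem hy) (by rw [← S.p.f_d, e, S.zero hx])
  obtain ⟨y2, hy2, rfl⟩ := S.sur hz
  have hd2 : Y.d y2 ∈ Y.gr (k + 1) := gr_cast (Y.d_mem hy2) (by ring)
  obtain ⟨x1, hx1, ex⟩ := S.ex (Submodule.sub_mem _ hy hd2)
    (by rw [map_sub, S.p.f_d, e', sub_self])
  have hdx1 : X.d x1 ∈ X.gr k := gr_cast (X.d_mem hx1) (by ring)
  refine ⟨x1, hx1, ?_⟩
  have := S.inj (Submodule.sub_mem _ hdx1 hx) (by
    rw [map_sub, S.i.f_d, ex, map_sub, Y.d_d, sub_zero, e, sub_self])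
  exact sub_eq_zero.1 this

theorem ac_mid (hX : Ac X) (hW : Ac W) : Ac Y := fun k => S.mid (hX k) (hW k)

theorem ac_right (hY : Ac Y) (hX : Ac X) : Ac W := fun k => S.right (hY k) (hX _)

theorem ac_left (hY : Ac Y) (hW : Ac W) : Ac X := fun k => S.left (hY k) (hW _)

/-- `p` is a quasi-isomorphism iff the kernel is acyclic -/
theorem qi_p : QI S.p ↔ Ac X := by
  constructor
  · intro h k x hx hd
    -- `i x` is a boundary, corrected by a cycle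
    obtain ⟨w, hw, e⟩ := h.inj k (S.i.f x) (S.i.f_mem hx) (by rw [← S.i.f_d, hd, map_zero])
      ⟨0, Submodule.zero_mem _, by rw [S.zero hx, map_zero]⟩
    obtain ⟨y, hy, hdy, z, hz, e'⟩ := h.surj (k + 1) (S.p.f w) (S.p.f_mem hw)
      (by rw [← S.p.f_d, ← e, S.zero hx])
    obtain ⟨u, hu, rfl⟩ := S.sur hz
    have hdu : Y.d u ∈ Y.gr (k + 1) := gr_cast (Y.d_mem hu) (by ring)
    obtain ⟨x1, hx1, ex⟩ := S.ex (Submodule.sub_mem _ (Submodule.sub_mem _ hw hy) hdu)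
      (by rw [map_sub, map_sub, e', S.p.f_d]; abel)
    have hdx1 : X.d x1 ∈ X.gr k := gr_cast (X.d_mem hx1) (by ring)
    refine ⟨x1, hx1, ?_⟩
    have := S.inj (Submodule.sub_mem _ hdx1 hx) (by
      rw [map_sub, S.i.f_d, ex, map_sub, map_sub, Y.d_d, hdy, sub_zero, sub_zero, ← e, sub_self])
    exact sub_eq_zero.1 this
  · intro h
    refine ⟨fun k z hz hd => ?_, fun k y hy hd ⟨z, hz, e⟩ => ?_⟩
    · obtain ⟨y, hy, rfl⟩ := S.sur hz
      obtain ⟨x, hx, ex⟩ := S.ex (Y.d_mem hy) (by rw [S.p.f_d, hd])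
      have hdx : X.d x = 0 := S.inj (X.d_mem hx) (by rw [S.i.f_d, ex, Y.d_d])
      obtain ⟨x1, hx1, rfl⟩ := h _ x hx hdx
      have hx1' : x1 ∈ X.gr k := gr_cast hx1 (by ring)
      refine ⟨y - S.i.f x1, Submodule.sub_mem _ hy (S.i.f_mem hx1'), ?_, 0,
        Submodule.zero_mem _, ?_⟩
      · rw [map_sub, ← S.i.f_d, ex, sub_self]
      · rw [map_sub, S.zero hx1', map_zero, sub_zero, add_zero]
    · obtain ⟨u, hu, rfl⟩ := S.sur hz
      have hdu : Y.d u ∈ Y.gr k := gr_cast (Y.d_mem hu) (by ring)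
      obtain ⟨x, hx, ex⟩ := S.ex (Submodule.sub_mem _ hy hdu) (by rw [map_sub, e, S.p.f_d, sub_self])
      have hdx : X.d x = 0 := S.inj (X.d_mem hx) (by
        rw [S.i.f_d, ex, map_sub, hd, Y.d_d, sub_zero])
      obtain ⟨x1, hx1, rfl⟩ := h k x hx hdx
      refine ⟨S.i.f x1 + u, Submodule.add_mem _ (S.i.f_mem hx1) hu, ?_⟩
      rw [map_add, ← S.i.f_d, ex]; abel

/-- `i` is a quasi-isomorphism iff the quotient is acyclic -/
theorem qi_i : QI S.i ↔ Ac W := by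
  constructor
  · intro h k z hz hd
    obtain ⟨y, hy, rfl⟩ := S.sur hz
    obtain ⟨x, hx, ex⟩ := S.ex (Y.d_mem hy) (by rw [S.p.f_d, hd])
    have hdx : X.d x = 0 := S.inj (X.d_mem hx) (by rw [S.i.f_d, ex, Y.d_d])
    obtain ⟨w, hw, e⟩ := h.inj (k - 1) x hx hdx ⟨y, gr_cast hy (by ring), ex⟩
    have hw' : w ∈ X.gr k := gr_cast hw (by ring)
    obtain ⟨x', hx', hdx', u, hu, e'⟩ := h.surj k (y - S.i.f w)
      (Submodule.sub_mem _ hy (S.i.f_mem hw')) (by rw [map_sub, ← S.i.f_d, ← e, ex, sub_self])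
    refine ⟨S.p.f u, S.p.f_mem hu, ?_⟩
    have h1 : S.p.f (y - S.i.f w) = S.p.f (S.i.f x' + Y.d u) := by rw [e']
    rw [map_sub, S.zero hw', sub_zero, map_add, S.zero hx', zero_add, S.p.f_d] at h1
    exact h1.symm
  · intro h
    refine ⟨fun k y hy hd => ?_, fun k x hx hd ⟨z, hz, e⟩ => ?_⟩
    · obtain ⟨z, hz, e⟩ := h k (S.p.f y) (S.p.f_mem hy) (by rw [← S.p.f_d, hd, map_zero])
      obtain ⟨u, hu, rfl⟩ := S.sur hz
      have hdu : Y.d u ∈ Y.gr k := gr_cast (Y.d_mem hu) (by ring)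
      obtain ⟨x, hx, ex⟩ := S.ex (Submodule.sub_mem _ hy hdu) (by rw [map_sub, S.p.f_d, e, sub_self])
      refine ⟨x, hx, S.inj (X.d_mem hx) (by rw [S.i.f_d, ex, map_sub, hd, Y.d_d, sub_zero]),
        u, hu, by rw [ex]; abel⟩
    · obtain ⟨w, hw, e'⟩ := h (k + 1) (S.p.f z) (S.p.f_mem hz) (by rw [← S.p.f_d, ← e, S.zero hx])
      obtain ⟨u, hu, rfl⟩ := S.sur hw
      have hdu : Y.d u ∈ Y.gr (k + 1) := gr_cast (Y.d_mem hu) (by ring)
      obtain ⟨x1, hx1, ex⟩ := S.ex (Submodule.sub_mem _ hz hdu)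
        (by rw [map_sub, S.p.f_d, e', sub_self])
      refine ⟨x1, hx1, ?_⟩
      have hdx1 : X.d x1 ∈ X.gr k := gr_cast (X.d_mem hx1) (by ring)
      have := S.inj (Submodule.sub_mem _ hdx1 hx) (by
        rw [map_sub, S.i.f_d, ex, map_sub, Y.d_d, sub_zero, e, sub_self])
      exact (sub_eq_zero.1 this).symm

end SES

/-! ### the cone -/

/-- the mapping cone -/
@[reducible] def cone {X Y : GC K} (f : GCHom X Y) : GC K where
  X := X.X × Y.X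
  gr k := (X.gr (k - 1)).prod (Y.gr k)
  d := ((-X.d) ∘ₗ LinearMap.fst K X.X Y.X).prod
    (f.f ∘ₗ LinearMap.fst K X.X Y.X + Y.d ∘ₗ LinearMap.snd K X.X Y.X)
  d_mem := by
    rintro k ⟨x, y⟩ ⟨hx, hy⟩
    exact ⟨Submodule.neg_mem _ (X.d_mem hx), Submodule.add_mem _ (f.f_mem hx) (Y.d_mem hy)⟩
  d_d := by
    rintro ⟨x, y⟩
    refine Prod.ext ?_ ?_
    · show -X.d (-X.d x) = 0
      rw [map_neg, X.d_d, neg_zero, neg_zero]
    · show f.f (-X.d x) + Y.d (f.f x + Y.d y) = 0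
      rw [map_neg, map_add, Y.d_d, f.f_d]; abel

theorem cone_d {X Y : GC K} (f : GCHom X Y) (x : X.X) (y : Y.X) :
    (cone f).d ((x, y) : X.X × Y.X) = ((-X.d x, f.f x + Y.d y) : X.X × Y.X) := rfl

theorem mem_cone {X Y : GC K} (f : GCHom X Y) {k : ℤ} {x : X.X} {y : Y.X} :
    ((x, y) : X.X × Y.X) ∈ (cone f).gr k ↔ x ∈ X.gr (k - 1) ∧ y ∈ Y.gr k := Iff.rfl

/-- the sequence `Y → cone f → X[1]` -/
theorem ac_cone {X Y : GC K} {f : GCHom X Y} : Ac (cone f) ↔ QI f := by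
  constructor
  · intro h
    refine ⟨fun k y hy hd => ?_, fun k x hx hd ⟨z, hz, e⟩ => ?_⟩
    · obtain ⟨⟨x, z⟩, ⟨hx, hz⟩, e⟩ := h k (0, y) ⟨Submodule.zero_mem _, hy⟩ (by
        rw [cone_d, hd, map_zero, map_zero, neg_zero, add_zero]; rfl)
      rw [cone_d] at e
      have e1 : -X.d x = 0 := congrArg Prod.fst e
      have e2 : f.f x + Y.d z = y := congrArg Prod.snd e
      exact ⟨x, gr_cast hx (by ring), neg_eq_zero.1 e1, z, hz, e2.symm⟩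
    · obtain ⟨⟨w, u⟩, ⟨hw, hu⟩, e'⟩ := h (k + 1) (x, -z)
        ⟨gr_cast hx (by ring), Submodule.neg_mem _ hz⟩ (by
          rw [cone_d, hd, e, map_neg, add_neg_cancel, neg_zero]; rfl)
      rw [cone_d] at e'
      have e1 : -X.d w = x := congrArg Prod.fst e'
      exact ⟨-w, Submodule.neg_mem _ (gr_cast hw (by ring)), by rw [map_neg, e1]⟩
  · rintro h k ⟨x, y⟩ ⟨hx, hy⟩ hd
    rw [cone_d] at hd
    have e1 : X.d x = 0 := neg_eq_zero.1 (congrArg Prod.fst hd)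
    have e2 : f.f x + Y.d y = 0 := congrArg Prod.snd hd
    obtain ⟨w, hw, e⟩ := h.inj (k - 1) x hx e1 ⟨-y, Submodule.neg_mem _ (gr_cast hy (by ring)),
      by rw [map_neg]; exact eq_neg_of_add_eq_zero_left e2⟩
    have hw' : w ∈ X.gr k := gr_cast hw (by ring)
    obtain ⟨x', hx', hdx', z, hz, e'⟩ := h.surj k (y + f.f w)
      (Submodule.add_mem _ hy (f.f_mem hw')) (by rw [map_add, ← f.f_d, ← e, add_comm, e2])
    refine ⟨((x' - w, z) : X.X × Y.X), ⟨gr_cast (Submodule.sub_mem _ hx' hw') (by ring), hz⟩, ?_⟩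
    rw [cone_d]
    refine Prod.ext ?_ ?_
    · show -X.d (x' - w) = x
      rw [map_sub, hdx', e]; abel
    · show f.f (x' - w) + Y.d z = y
      rw [map_sub, sub_add_eq_add_sub, ← e']; abel

end Crest.Agent.R186.TB143
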