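import Crest.Agent.R186.ThK_763
import Crest.Agent.R186.WLM_982

/-!
Row 186 (A), short road (helper261): the instance `TRD` (810) of the window data
`w = (bdM π s hs).ext` of `Gamma = R'' ⊕ M`.
`Fl i = Fl_(i+1)(R'') ⊕ FM_(i-2)(M)`, `r = 5`.
-/

set_option autoImplicit false

noncomputable section

namespace Crest.Agent.R186.TRDi261

open Crest.Agent.R186.DefsQ830 Crest.Agent.R186.DefsQ830.Gen Crest.Agent.R186.PBW128
open Crest.Agent.R186.Win810 Crest.Agent.R186.SM890 Crest.Agent.R186.TR810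
open Crest.Agent.R186.C2b362 (J pz)
open Crest.Agent.R186.C2b44 (kill)
open Crest.Agent.R186.WLF296 (lq lev)
open Crest.Agent.R186.WLM982 (lM levM ro FM)
open Crest.Agent.R186.ThK763

variable {K : Type} [Field K] (π : Par K) (s : ℕ) (hs : 2 ≤ s)

/-! ### products in `S = R'' ⊕ M` -/

/-- second component -/
def se : (wS π s hs).S →ₗ[K] MM π where
  toFun x := x.2
  map_add' _ _ := rfl
  map_smul' _ _ := rfl

theorem se_mul (a b : (wS π s hs).S) : se π s hs (a * b) =
    fi π s hs a • se π s hs b + MulOpposite.op (fi π s hs b) • se π s hs a := rfl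

theorem se_il (r : R π) : se π s hs (il π s hs r) = 0 := rfl

theorem se_ir (m : MM π) : se π s hs (ir π s hs m) = m := rfl

theorem se_D (z : (wS π s hs).S) : se π s hs ((wS π s hs).D z) = dMM π (se π s hs z) := rfl

theorem se_mem {P A C : ℤ} {z : (wS π s hs).S} (h : z ∈ (wS π s hs).pc P A C) :
    se π s hs z ∈ pcM π s P A C := h.2

theorem S_ext {a b : (wS π s hs).S} (h1 : fi π s hs a = fi π s hs b)
    (h2 : se π s hs a = se π s hs b) : a = b :=
  SExt44.BD.Car.ext (B := bdM π s hs) h1 h2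

theorem ir_pc {P A C : ℤ} {m : MM π} (h : m ∈ pcM π s P A C) :
    ir π s hs m ∈ (wS π s hs).pc P A C := ⟨Submodule.zero_mem _, h⟩

/-! ### the filtration of `R''` is by two-sided ideals -/

theorem Fl1_mul {n : ℕ} {a b : R π} (ha : a ∈ WLF296.Fl π n) (hb : b ∈ J π) :
    a * b ∈ WLF296.Fl π (n + 1) := by
  intro q hq
  rw [WLF296.lq_mul_of_mem ha b q (by omega), (KOS296.mem_J_iff_kill π).1 hb, mul_zero]

theorem Fl_left {n : ℕ} (r : R π) {a : R π} (ha : a ∈ WLF296.Fl π n) :
    r * a ∈ WLF296.Fl π n := by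
  match n, ha with
  | 0, _ => exact WLF296.mem_Fl_zero _
  | 1, ha => exact WLF296.mem_Fl_one.2 (C2b362.left_J r (WLF296.mem_Fl_one.1 ha))
  | 2, ha =>
    have e : a = wq π .pi * lq π .pi a := by
      conv_lhs => rw [WLF296.sum_lq π a]
      rw [Finset.sum_eq_single .pi]
      · intro q _ hq
        rw [ha q, mul_zero]
        cases q with
        | pi => exact absurd rfl hq
        | _ => simp [lev]
      · intro h
        exact absurd (Finset.mem_univ _) h
    rw [e, wq_pi, mul_assoc, ← mul_assoc]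
    refine Fl1_mul π (WLF296.mem_Fl_one.2 (C2b362.mul_Y_mem_J r (.y 0))) ?_
    exact C2b362.right_J (by
      have := C2b362.mul_Y_mem_J (1 : R π) (.y 1)
      rwa [one_mul] at this) _
  | n + 3, ha =>
    rw [WLF296.Fl_three (WLF296.Fl_anti (by omega) ha), mul_zero]
    exact Submodule.zero_mem _

/-- the filtration -/
def Fli (i : ℕ) : Submodule K (wS π s hs).S :=
  (WLF296.Fl π (i + 1)).comap (fi π s hs) ⊓ (FM π (i - 2)).comap (se π s hs)

theorem mem_Fli {i : ℕ} {x : (wS π s hs).S} : x ∈ Fli π s hs i ↔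
    fi π s hs x ∈ WLF296.Fl π (i + 1) ∧ se π s hs x ∈ FM π (i - 2) := Iff.rfl

theorem mem_Fli_zero {x : (wS π s hs).S} : x ∈ Fli π s hs 0 ↔ fi π s hs x ∈ J π := by
  rw [mem_Fli, WLF296.mem_Fl_one]
  exact ⟨fun h => h.1, fun h => ⟨h, WLM982.mem_FM_zero _⟩⟩

theorem fi_zero_of {i : ℕ} (hi : 2 ≤ i) {r : R π} (h : r ∈ WLF296.Fl π (i + 1)) : r = 0 :=
  WLF296.Fl_three (WLF296.Fl_anti (by omega) h)

/-! ### the parts of one level -/

theorem lq_part (r : R π) (n : ℕ) (q' : Wb) :
    lq π q' (∑ q : {q : Wb // lev q = n}, wq π q.1 * lq π q.1 r) =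
      if lev q' = n then lq π q' r else 0 := by
  rw [map_sum]
  split_ifs with h
  · rw [Finset.sum_eq_single ⟨q', h⟩]
    · rw [WLF296.lq_wq π q' q' (WLF296.kill_lq π q' r), if_pos rfl]
    · intro q _ hq
      rw [WLF296.lq_wq π q.1 q' (WLF296.kill_lq π q.1 r), if_neg]
      intro h2
      exact hq (Subtype.ext h2.symm)
    · intro h2
      exact absurd (Finset.mem_univ _) h2
  · refine Finset.sum_eq_zero fun q _ => ?_
    rw [WLF296.lq_wq π q.1 q' (WLF296.kill_lq π q.1 r), if_neg]
    intro h2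
    exact h (h2 ▸ q.2)

theorem lM_part (m : MM π) (n : ℕ) (q' : Wb) :
    lM π q' (∑ q : {q : Wb // levM q + 2 = n}, ro π q.1 (lM π q.1 m)) =
      if levM q' + 2 = n then lM π q' m else 0 := by
  rw [map_sum]
  split_ifs with h
  · rw [Finset.sum_eq_single ⟨q', h⟩]
    · rw [WLM982.lM_ro_of π q' q' (WLM982.kill_lM π q' m), if_pos rfl]
    · intro q _ hq
      rw [WLM982.lM_ro_of π q.1 q' (WLM982.kill_lM π q.1 m), if_neg]
      intro h2
      exact hq (Subtype.ext h2.symm)
    · intro h2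
      exact absurd (Finset.mem_univ _) h2
  · refine Finset.sum_eq_zero fun q _ => ?_
    rw [WLM982.lM_ro_of π q.1 q' (WLM982.kill_lM π q.1 m), if_neg]
    intro h2
    exact h (h2 ▸ q.2)

theorem lev_le (q : Wb) : lev q ≤ 2 := by cases q <;> simp [lev]

theorem wC_le (q : Wb) : wC q.word ≤ 2 := by
  cases q with
  | y t => rcases fin2 t with rfl | rfl <;> simp [Wb.word, wC, Gen.dC]
  | yb t => rcases fin2 t with rfl | rfl <;> simp [Wb.word, wC, Gen.dC]
  | _ => simp [Wb.word, wC, Gen.dC]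

theorem ro_one (q : Wb) : ro π q 1 = oM π q 1 := by
  rw [WLM982.ro_apply, map_one]

/-- index of the pieces -/
abbrev ka (i : ℕ) : Type := {q : Wb // lev q = i + 1} ⊕ {q : Wb // levM q + 2 = i}

/-- generators of the pieces -/
def ui (i : ℕ) : ka i → (wS π s hs).S
  | .inl q => il π s hs (wq π q.1)
  | .inr q => ir π s hs (oM π q.1 1)

/-- `P`-shift -/
def uPi (i : ℕ) : ka i → ℤ
  | .inl _ => 0
  | .inr _ => 1

/-- cohomological shift -/
def uCi (i : ℕ) : ka i → ℕ
  | .inl q => wC q.1.word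
  | .inr q => s - wC q.1.word

theorem fi_sum (i : ℕ) (z : ka i → (wS π s hs).S) :
    fi π s hs (∑ k, ui π s hs i k * z k) =
      ∑ q : {q : Wb // lev q = i + 1}, wq π q.1 * fi π s hs (z (.inl q)) := by
  rw [Fintype.sum_sum_type, map_add, map_sum, map_sum]
  have : ∀ q : {q : Wb // levM q + 2 = i},
      fi π s hs (ui π s hs i (.inr q) * z (.inr q)) = 0 := fun q => by
    rw [fi_mul]
    change (0 : R π) * _ = 0
    rw [zero_mul]
  rw [Finset.sum_eq_zero (fun q _ => this q), add_zero]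
  rfl

theorem se_sum (i : ℕ) (z : ka i → (wS π s hs).S) :
    se π s hs (∑ k, ui π s hs i k * z k) =
      (∑ q : {q : Wb // lev q = i + 1}, wq π q.1 • se π s hs (z (.inl q))) +
      ∑ q : {q : Wb // levM q + 2 = i}, ro π q.1 (fi π s hs (z (.inr q))) := by
  rw [Fintype.sum_sum_type, map_add, map_sum, map_sum]
  congr 1
  · refine Finset.sum_congr rfl fun q _ => ?_
    rw [se_mul]
    change wq π q.1 • _ + MulOpposite.op _ • (0 : MM π) = _
    rw [smul_zero, add_zero]
  · refine Finset.sum_congr rfl fun q _ => ?_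
    rw [se_mul]
    change (0 : R π) • _ + MulOpposite.op _ • oM π q.1 1 = _
    rw [zero_smul, zero_add, WLM982.ro_eq]

theorem gen_i (i : ℕ) {P A C : ℤ} {x : (wS π s hs).S} (hx : x ∈ Fli π s hs i)
    (hm : x ∈ (wS π s hs).pc P A C) : ∃ z : ka i → (wS π s hs).S,
      (∀ k, z k ∈ (wS π s hs).pc (P + uPi i k) A (C - uCi s i k)) ∧
      x - ∑ k, ui π s hs i k * z k ∈ Fli π s hs (i + 1) := by
  refine ⟨fun k => match k with
    | .inl q => il π s hs (lq π q.1 (fi π s hs x))
    | .inr q => il π s hs (lM π q.1 (se π s hs x)), ?_, ?_⟩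
  · rintro (q | q)
    · refine il_pc π s hs ?_
      have h1 := fi_mem π s hs hm
      rw [KOS296.pcZ_eq_pz] at h1 ⊢
      have := WLF296.lq_mem π h1 q.1
      change _ ∈ pz π (P + 0) A _
      rw [add_zero]
      exact this
    · refine il_pc π s hs ?_
      rw [KOS296.pcZ_eq_pz]
      have := WLM982.lM_mem π s (se_mem π s hs hm) q.1
      have h2 := wC_le q.1
      change _ ∈ pz π (P + 1) A (C - ((s - wC q.1.word : ℕ) : ℤ))
      rwa [show C - ((s - wC q.1.word : ℕ) : ℤ) = C - s + wC q.1.word by omega]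
  · rw [mem_Fli, map_sub, map_sub, fi_sum, se_sum]
    constructor
    · intro q' hq'
      rw [map_sub]
      change lq π q' (fi π s hs x) - lq π q' (∑ q : {q : Wb // lev q = i + 1},
        wq π q.1 * lq π q.1 (fi π s hs x)) = 0
      rw [lq_part]
      split_ifs with h
      · rw [sub_self]
      · rw [hx.1 q' (by omega), sub_zero]
    · intro q' hq'
      rw [map_sub, map_add]
      have h0 : (∑ q : {q : Wb // lev q = i + 1}, wq π q.1 •
          se π s hs (il π s hs (lq π q.1 (fi π s hs x)))) = 0 :=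
        Finset.sum_eq_zero fun q _ => by rw [se_il, smul_zero]
      change lM π q' (se π s hs x) - (lM π q' (∑ q : {q : Wb // lev q = i + 1}, wq π q.1 •
          se π s hs (il π s hs (lq π q.1 (fi π s hs x)))) +
        lM π q' (∑ q : {q : Wb // levM q + 2 = i}, ro π q.1 (lM π q.1 (se π s hs x)))) = 0
      rw [h0, map_zero, zero_add, lM_part]
      split_ifs with h
      · rw [sub_self]
      · rw [hx.2 q' (by omega), sub_zero]

theorem uniq_i (i : ℕ) (z : ka i → (wS π s hs).S)
    (h : ∑ k, ui π s hs i k * z k ∈ Fli π s hs (i + 1)) (k : ka i) : z k ∈ Fli π s hs 0 := by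
  rw [mem_Fli, fi_sum, se_sum] at h
  rw [mem_Fli_zero, KOS296.mem_J_iff_kill]
  rcases k with q | q
  · have h1 := h.1 q.1 (by rw [q.2]; omega)
    rw [map_sum, Finset.sum_eq_single q] at h1
    · rwa [WLF296.lq_wq_mul π q.1 q.1 _ le_rfl, if_pos rfl] at h1
    · intro q' _ hq'
      rw [WLF296.lq_wq_mul π q'.1 q.1 _ (by rw [q.2, q'.2]), if_neg]
      intro h2
      exact hq' (Subtype.ext h2.symm)
    · intro h2
      exact absurd (Finset.mem_univ _) h2
  · have h1 := h.2 q.1 (by have := q.2; omega)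
    have h0 : IsEmpty {q : Wb // lev q = i + 1} := ⟨fun q' => by
      have h3 := q'.2
      have h4 := lev_le q'.1
      have h5 := q.2
      omega⟩
    rw [Fintype.sum_empty, zero_add, map_sum, Finset.sum_eq_single q] at h1
    · rwa [WLM982.lM_ro π q.1 q.1 _ le_rfl, if_pos rfl] at h1
    · intro q' _ hq'
      rw [WLM982.lM_ro π q'.1 q.1 _ (by have := q.2; have := q'.2; omega), if_neg]
      intro h2
      exact hq' (Subtype.ext h2.symm)
    · intro h2
      exact absurd (Finset.mem_univ _) h2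

theorem wq_pcZ (q : Wb) : wq π q ∈ pcZ π 0 0 (wC q.word) := by
  have h := WLF296.lq_mem π (P := 0) (A := 0) (C := 0) (r := (1 : R π)) (by
    rw [← KOS296.pcZ_eq_pz]; exact pcZ_one π) .one
  have hn := C2b44.nf_mem_pcZ π (0, 0, 0, [], q) (P := 0) (A := 0) (C := wC q.word)
    (by simp [dPx]) (by simp [dAx]) (by simp [dCx, wC])
  simpa [nf, we_nil] using hn

/-- **the instance** -/
def trd : TRD (wS π s hs) where
  lo := 0
  neg {P A C} hC := by
    rw [eq_bot_iff]
    intro x hx
    rw [Submodule.mem_bot]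
    refine S_ext π s hs ?_ ?_
    · have h1 := fi_mem π s hs hx
      rw [pcZ_neg π (Or.inr hC)] at h1
      exact (Submodule.mem_bot K).1 h1
    · refine WLM982.eq_zero_of_lM π fun q => ?_
      have h1 := WLM982.lM_mem π s (se_mem π s hs hx) q
      have h2 := wC_le q
      exact C2b362.pz_neg (Or.inr (by omega)) h1
  r := 5
  Fl := Fli π s hs
  Fr := by
    rw [eq_bot_iff]
    intro x hx
    rw [Submodule.mem_bot]
    refine S_ext π s hs ?_ ?_
    · exact fi_zero_of π (by norm_num) hx.1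
    · exact WLM982.FM_three hx.2
  anti i x hx := ⟨WLF296.Fl_anti (by omega) hx.1, WLM982.FM_anti (by omega) hx.2⟩
  Fl_l i t a ha := by
    rw [mem_Fli, fi_mul, se_mul]
    refine ⟨Fl_left π _ ha.1, Submodule.add_mem _ (WLM982.FM_left π _ ha.2) ?_⟩
    by_cases hi : i ≤ 2
    · rw [show i - 2 = 0 by omega]
      exact WLM982.mem_FM_zero _
    · rw [fi_zero_of π (by omega) ha.1, MulOpposite.op_zero, zero_smul]
      exact Submodule.zero_mem _
  Fl_r i t a ha := by
    rw [mem_Fli, fi_mul, se_mul]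
    refine ⟨WLF296.Fl_mul ha.1 _, Submodule.add_mem _ ?_ (WLM982.FM_right ha.2 _)⟩
    by_cases hi : i ≤ 2
    · rw [show i - 2 = 0 by omega]
      exact WLM982.mem_FM_zero _
    · rw [fi_zero_of π (by omega) ha.1, zero_smul]
      exact Submodule.zero_mem _
  Fl_D i a ha := ⟨WLF296.Fl_D ha.1, WLM982.FM_D ha.2⟩
  κ := ka
  u := ui π s hs
  uP := uPi
  uP01 i k := by
    rcases k with q | q
    · exact Or.inl rfl
    · exact Or.inr rfl
  uC := uCi s
  u_mem i k := by
    rcases k with q | q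
    · change il π s hs (wq π q.1) ∈ (wS π s hs).pc (-0) 0 (wC q.1.word)
      rw [neg_zero]
      exact il_pc π s hs (wq_pcZ π q.1)
    · change ir π s hs (oM π q.1 1) ∈ (wS π s hs).pc (-1) 0 ((s - wC q.1.word : ℕ) : ℤ)
      refine ir_pc π s hs ?_
      rw [← ro_one]
      refine WLM982.ro_mem π s q.1 ?_
      have h2 := wC_le q.1
      rw [show ((s - wC q.1.word : ℕ) : ℤ) - s + wC q.1.word = 0 by omega,
        show (-1 : ℤ) + 1 = 0 by norm_num, ← KOS296.pcZ_eq_pz]
      exact pcZ_one π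
  u_F i k := by
    rcases k with q | q
    · refine (mem_Fli π s hs).2 ⟨?_, Submodule.zero_mem _⟩
      change wq π q.1 ∈ WLF296.Fl π (i + 1)
      have := WLF296.wq_mem_Fl (π := π) q.1 1
      rwa [mul_one, q.2] at this
    · refine (mem_Fli π s hs).2 ⟨Submodule.zero_mem _, ?_⟩
      change oM π q.1 1 ∈ FM π (i - 2)
      have := WLM982.ro_mem_FM (π := π) q.1 1
      rw [ro_one] at this
      have h2 := q.2
      rwa [show i - 2 = levM q.1 by omega]
  u_J i k t ht := by
    rw [mem_Fli_zero] at ht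
    rcases k with q | q
    · rw [mem_Fli, fi_mul, se_mul]
      constructor
      · have h1 := WLF296.wq_mem_Fl (π := π) q.1 1
        rw [mul_one, q.2] at h1
        exact Fl1_mul π h1 ht
      · have h2 := q.2
        have h3 := lev_le q.1
        rw [show i + 1 - 2 = 0 by omega]
        exact WLM982.mem_FM_zero _
    · rw [mem_Fli, fi_mul, se_mul]
      constructor
      · change (0 : R π) * _ ∈ _
        rw [zero_mul]
        exact Submodule.zero_mem _
      · change (0 : R π) • _ + MulOpposite.op _ • oM π q.1 1 ∈ FM π (i + 1 - 2)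
        rw [zero_smul, zero_add, ← WLM982.ro_eq]
        intro q' hq'
        have h2 := q.2
        rw [WLM982.lM_ro π q.1 q' _ (by omega), (KOS296.mem_J_iff_kill π).1 ht]
        split_ifs <;> rfl
  u_D i k := by
    rcases k with q | q
    · change (wS π s hs).D (il π s hs (wq π q.1)) ∈ _
      rw [il_D, WLF296.D_wq, il_zero]
      exact Submodule.zero_mem _
    · refine (mem_Fli π s hs).2 ⟨?_, ?_⟩
      · change fi π s hs ((wS π s hs).D (ir π s hs (oM π q.1 1))) ∈ _
        rw [fi_D, fi_ir, map_zero]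
        exact Submodule.zero_mem _
      · change se π s hs ((wS π s hs).D (ir π s hs (oM π q.1 1))) ∈ _
        rw [se_D, se_ir, ← ro_one, WLM982.dMM_ro]
        have : Der580.D π (1 : R π) = 0 := by
          have := WLF296.D_wq (π := π) .one
          rwa [wq_one] at this
        rw [this, map_zero]
        exact Submodule.zero_mem _
  gen i {P A C x} _ hx hm := gen_i π s hs i hx hm
  uniq i {P A C} z _ _ h := uniq_i π s hs i z h
  T0 := Tk π s hs (-2)
  T1 := Tk π s hs (-1)
  T2 := Tk π s hs 0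
  T01 θ h := Tk_mono (by norm_num) h
  T12 θ h := Tk_mono (by norm_num) h
  u_th θ hθ i k := by
    rcases k with q | q
    · change θ.t * il π s hs (wq π q.1) - il π s hs (wq π q.1) * θ.t ∈ _
      rw [th_wq hθ, sub_self]
      exact Submodule.zero_mem _
    · change θ.t * ir π s hs (oM π q.1 1) - ir π s hs (oM π q.1 1) * θ.t ∈ _
      rw [th_oM hθ, sub_self]
      exact Submodule.zero_mem _
  x := xS π s hs
  x_mem := xS_mem π s hs
  x_D := xS_D π s hs
  kk := kS π s hs
  kk_mem := kS_mem π s hs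
  kk_D := kS_D π s hs
  x_kk := by
    rw [sum_xk]
    exact Submodule.zero_mem _
  T2x θ hθ := by
    obtain ⟨θ', h1, h2, θ'', h3, h4⟩ := ThK763.T2x hθ
    refine ⟨θ', h1, fun j => ?_, θ'', h3, fun j => ?_⟩
    · rw [h2]
      exact Submodule.zero_mem _
    · rw [h4]
      exact Submodule.zero_mem _
  x_gen {P A C y} hP hy := by
    obtain ⟨z, h1, h2⟩ := ThK763.x_gen hP hy
    refine ⟨z, h1, ?_⟩
    rw [mem_Fli_zero, h2]
    exact Submodule.zero_mem _
  x_ker {P A C} z hz h := by
    rw [mem_Fli_zero] at h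
    obtain ⟨c, h1, h2⟩ := ThK763.x_ker z hz h
    exact ⟨c, h1, fun j => (mem_Fli_zero π s hs).2 (h2 j)⟩
  x_inj {c} h := by
    rw [mem_Fli_zero] at h ⊢
    exact ThK763.x_inj h

end Crest.Agent.R186.TRDi261
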