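import Crest.Agent.R186.ThK_763
import Crest.Agent.R186.WLM_982

/-!
Row 186, half (A), short road (helper57): the instance `trd : TRD (bdM π s hs).ext` of 810's
structure: coordinates `co c` (`c : Wb ⊕ Wb`: left `W`-coordinates of the `R''`-part, right-form
coordinates of the `M`-part), rank `rk c ≤ 5`, `Fl i = {x | ∀ c, rk c ≤ i → co c x = 0}`.
-/

set_option autoImplicit false
set_option linter.unusedVariables false

noncomputable section

namespace Crest.Agent.R186.TRDi57

open Crest.Agent.R186.DefsQ830 Crest.Agent.R186.DefsQ830.Gen Crest.Agent.R186.PBW128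
open Crest.Agent.R186.Win810 Crest.Agent.R186.SM890 Crest.Agent.R186.TR810
open Crest.Agent.R186.C2b362 (J)
open Crest.Agent.R186.C2b44 (kill)
open Crest.Agent.R186.WLF296 (lq lev)
open Crest.Agent.R186.WLM982 (lM ro levM FM)
open Crest.Agent.R186.ThK763

variable {K : Type} [Field K] (π : Par K)

/-! ### left multiplication on the `W`-filtration -/

theorem comm_wq {b : R π} (hb : ∀ y : Y, ∃ c : K, b * X π y.toGen = c • (X π y.toGen * b)) (q : Wb) :
    ∃ c : K, b * wq π q = c • (wq π q * b) := by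
  cases q with
  | one => exact ⟨1, by rw [wq_one, mul_one, one_mul, one_smul]⟩
  | y s => rw [wq_y]; exact hb (.y s)
  | yb s => rw [wq_yb]; exact hb (.yb s)
  | pi =>
    obtain ⟨c0, h0⟩ := hb (.y 0)
    obtain ⟨c1, h1⟩ := hb (.y 1)
    have h0' : b * X π (.y 0) = c0 • (X π (.y 0) * b) := h0
    have h1' : b * X π (.y 1) = c1 • (X π (.y 1) * b) := h1
    refine ⟨c0 * c1, ?_⟩
    rw [wq_pi, ← mul_assoc, h0', smul_mul_assoc, mul_assoc, h1', mul_smul_comm, smul_smul,
      ← mul_assoc]

theorem E_Y (l : E) (y : Y) : ∃ c : K, X π l.toGen * X π y.toGen = c • (X π y.toGen * X π l.toGen) := by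
  refine ⟨(chi π y l)⁻¹, ?_⟩
  rw [rYE, smul_smul, inv_mul_cancel₀ (chi_ne π y l), one_smul]

theorem X_wq (a : Gen) (q : Wb) :
    ∃ (q' : Wb) (z : R π), lev q ≤ lev q' ∧ X π a * wq π q = wq π q' * z := by
  have key : (∀ y : Y, ∃ c : K, X π a * X π y.toGen = c • (X π y.toGen * X π a)) →
      ∃ (q' : Wb) (z : R π), lev q ≤ lev q' ∧ X π a * wq π q = wq π q' * z := by
    intro h
    obtain ⟨c, hc⟩ := comm_wq π h q
    exact ⟨q, c • X π a, le_rfl, by rw [hc, mul_smul_comm]⟩
  have keyY : ∀ b : Y, a = b.toGen →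
      ∃ (q' : Wb) (z : R π), lev q ≤ lev q' ∧ X π a * wq π q = wq π q' * z := by
    intro b hb
    obtain ⟨c, q', h1, h2⟩ := WLF296.wq_mul π (yw b) q
    rw [hb, ← wq_yw, h1]
    rcases h2 with h2 | h2
    · exact ⟨q, 0, le_rfl, by rw [h2, zero_smul, mul_zero]⟩
    · exact ⟨q', c • 1, by omega, by rw [mul_smul_comm, mul_one]⟩
  cases a with
  | x i => exact key fun y => ⟨π.c i, KOS296.xY π y i⟩
  | h => exact key fun y => ⟨1, by rw [one_smul, rh]⟩
  | d j => exact key fun y => E_Y π (.d j) y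
  | f => exact key fun y => E_Y π .f y
  | z j => exact key fun y => E_Y π (.z j) y
  | zc => exact key fun y => E_Y π .zc y
  | u j => exact key fun y => E_Y π (.u j) y
  | e j => exact key fun y => E_Y π (.e j) y
  | gj j => exact key fun y => E_Y π (.gj j) y
  | gc => exact key fun y => E_Y π .gc y
  | v j => exact key fun y => E_Y π (.v j) y
  | y s => exact keyY (.y s) rfl
  | yb s => exact keyY (.yb s) rfl

theorem Fl_left {n : ℕ} (r : R π) : ∀ {m : R π}, m ∈ WLF296.Fl π n → r * m ∈ WLF296.Fl π n := by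
  refine PBW128.R_ind π (P := fun r => ∀ {m : R π}, m ∈ WLF296.Fl π n → r * m ∈ WLF296.Fl π n)
    ?_ ?_ ?_ ?_ r
  · intro c m hm
    rw [← Algebra.smul_def]
    exact Submodule.smul_mem _ _ hm
  · intro a m hm
    have e : X π a * m = ∑ q, X π a * wq π q * lq π q m := by
      conv_lhs => rw [WLF296.sum_lq π m]
      rw [Finset.mul_sum]
      exact Finset.sum_congr rfl fun q _ => (mul_assoc _ _ _).symm
    rw [e]
    refine Submodule.sum_mem _ fun q _ => ?_
    by_cases h : lev q < n
    · rw [hm q h, mul_zero]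
      exact Submodule.zero_mem _
    · obtain ⟨q', z, h1, h2⟩ := X_wq π a q
      rw [h2, mul_assoc]
      exact WLF296.Fl_anti (by omega) (WLF296.wq_mem_Fl q' _)
  · intro a b ha hb m hm
    rw [mul_assoc]
    exact ha (hb hm)
  · intro a b ha hb m hm
    rw [add_mul]
    exact Submodule.add_mem _ (ha hm) (hb hm)

/-! ### coordinates of `S` -/

variable (s : ℕ) (hs : 2 ≤ s)

/-- second component -/
def sn : (wS π s hs).S →ₗ[K] MM π where
  toFun z := z.2
  map_add' _ _ := rfl
  map_smul' _ _ := rfl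

theorem sn_mul (a b : (wS π s hs).S) : sn π s hs (a * b) =
    fi π s hs a • sn π s hs b + MulOpposite.op (fi π s hs b) • sn π s hs a := rfl

@[simp] theorem sn_il (r : R π) : sn π s hs (il π s hs r) = 0 := rfl

@[simp] theorem sn_ir (m : MM π) : sn π s hs (ir π s hs m) = m := rfl

theorem sn_D (z : (wS π s hs).S) : sn π s hs ((wS π s hs).D z) = dMM π (sn π s hs z) := rfl

theorem sn_mem {P A C : ℤ} {z : (wS π s hs).S} (h : z ∈ (wS π s hs).pc P A C) :
    sn π s hs z ∈ pcM π s P A C := h.2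

theorem ext0 {z : (wS π s hs).S} (h1 : fi π s hs z = 0) (h2 : sn π s hs z = 0) : z = 0 :=
  SExt44.BD.Car.ext _ h1 h2

/-- rank of a coordinate -/
def rk : Wb ⊕ Wb → ℕ
  | .inl q => lev q
  | .inr q => 3 + levM q

/-- coordinates -/
def co : Wb ⊕ Wb → ((wS π s hs).S →ₗ[K] R π)
  | .inl q => lq π q ∘ₗ fi π s hs
  | .inr q => lM π q ∘ₗ sn π s hs

/-- generators -/
def uu : Wb ⊕ Wb → (wS π s hs).S
  | .inl q => il π s hs (wq π q)
  | .inr q => ir π s hs (oM π q 1)

theorem lev_le (q : Wb) : lev q ≤ 2 := by cases q <;> simp [lev]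

theorem kill_co (c : Wb ⊕ Wb) (x : (wS π s hs).S) : kill π (co π s hs c x) = co π s hs c x := by
  cases c with
  | inl q => exact WLF296.kill_lq π q _
  | inr q => exact WLM982.kill_lM π q _

/-- **leading part** -/
theorem lead {c c' : Wb ⊕ Wb} (h : rk c' ≤ rk c) (z : (wS π s hs).S) :
    co π s hs c' (uu π s hs c * z) = if c' = c then kill π (fi π s hs z) else 0 := by
  cases c with
  | inl q =>
    cases c' with
    | inl q' =>
      have e : co π s hs (.inl q') (uu π s hs (.inl q) * z) = lq π q' (wq π q * fi π s hs z) := rfl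
      rw [e, WLF296.lq_wq_mul π q q' _ h]
      simp only [Sum.inl.injEq]
    | inr q' =>
      exfalso
      have := lev_le q
      simp only [rk] at h
      omega
  | inr q =>
    cases c' with
    | inl q' =>
      have e : co π s hs (.inl q') (uu π s hs (.inr q) * z) = lq π q' (0 * fi π s hs z) := rfl
      rw [e, zero_mul, map_zero, if_neg (by simp)]
    | inr q' =>
      have e : co π s hs (.inr q') (uu π s hs (.inr q) * z) =
          lM π q' ((0 : R π) • sn π s hs z + MulOpposite.op (fi π s hs z) • oM π q 1) := rfl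
      rw [e, zero_smul, zero_add, ← WLM982.ro_eq, WLM982.lM_ro π q q' _ (by simp only [rk] at h; omega)]
      simp only [Sum.inr.injEq]

/-- **expansion** -/
theorem expand (x : (wS π s hs).S) : x = ∑ c, uu π s hs c * il π s hs (co π s hs c x) := by
  have hfi : fi π s hs (∑ c, uu π s hs c * il π s hs (co π s hs c x)) = fi π s hs x := by
    rw [map_sum, Fintype.sum_sum_type]
    have e1 : ∀ q : Wb, fi π s hs (uu π s hs (.inl q) * il π s hs (co π s hs (.inl q) x)) =
        wq π q * lq π q (fi π s hs x) := fun q => rfl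
    have e2 : ∀ q : Wb, fi π s hs (uu π s hs (.inr q) * il π s hs (co π s hs (.inr q) x)) = 0 := by
      intro q
      have : fi π s hs (uu π s hs (.inr q) * il π s hs (co π s hs (.inr q) x)) =
        0 * co π s hs (.inr q) x := rfl
      rw [this, zero_mul]
    rw [Finset.sum_congr rfl fun q _ => e1 q, Finset.sum_congr rfl fun q _ => e2 q,
      Finset.sum_const_zero, add_zero, ← WLF296.sum_lq]
  have hsn : sn π s hs (∑ c, uu π s hs c * il π s hs (co π s hs c x)) = sn π s hs x := by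
    rw [map_sum, Fintype.sum_sum_type]
    have e1 : ∀ q : Wb, sn π s hs (uu π s hs (.inl q) * il π s hs (co π s hs (.inl q) x)) = 0 := by
      intro q
      rw [sn_mul]
      have h1 : sn π s hs (uu π s hs (.inl q)) = 0 := rfl
      rw [h1, sn_il, smul_zero, smul_zero, add_zero]
    have e2 : ∀ q : Wb, sn π s hs (uu π s hs (.inr q) * il π s hs (co π s hs (.inr q) x)) =
        ro π q (lM π q (sn π s hs x)) := by
      intro q
      rw [sn_mul, sn_il, smul_zero, zero_add, WLM982.ro_eq]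
      rfl
    rw [Finset.sum_congr rfl fun q _ => e1 q, Finset.sum_congr rfl fun q _ => e2 q,
      Finset.sum_const_zero, zero_add, ← WLM982.sum_lM]
  have := ext0 π s hs (z := x - ∑ c, uu π s hs c * il π s hs (co π s hs c x))
    (by rw [map_sub, hfi, sub_self]) (by rw [map_sub, hsn, sub_self])
  exact sub_eq_zero.1 this

/-- the filtration -/
def Fl (i : ℕ) : Submodule K (wS π s hs).S where
  carrier := {x | ∀ c, rk c ≤ i → co π s hs c x = 0}
  zero_mem' c _ := map_zero _
  add_mem' ha hb c hc := by rw [map_add, ha c hc, hb c hc, add_zero]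
  smul_mem' r a ha c hc := by rw [map_smul, ha c hc, smul_zero]

variable {π s hs}

theorem mem_Fl {i : ℕ} {x : (wS π s hs).S} :
    x ∈ Fl π s hs i ↔ ∀ c, rk c ≤ i → co π s hs c x = 0 := Iff.rfl

theorem mem_Fl' {i : ℕ} {x : (wS π s hs).S} :
    x ∈ Fl π s hs i ↔ fi π s hs x ∈ WLF296.Fl π (i + 1) ∧ sn π s hs x ∈ FM π (i - 2) := by
  constructor
  · intro h
    exact ⟨fun q hq => h (.inl q) (by simp only [rk]; omega),
      fun q hq => h (.inr q) (by simp only [rk]; omega)⟩
  · rintro ⟨h1, h2⟩ c hc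
    cases c with
    | inl q => exact h1 q (by simp only [rk] at hc; omega)
    | inr q => exact h2 q (by simp only [rk] at hc; omega)

theorem mem_Fl_zero {x : (wS π s hs).S} : x ∈ Fl π s hs 0 ↔ kill π (fi π s hs x) = 0 := by
  constructor
  · intro h
    have := h (.inl .one) (by simp [rk, lev])
    rw [← WLF296.lq_one]
    exact this
  · intro h c hc
    cases c with
    | inl q =>
      cases q with
      | one => exact (WLF296.lq_one π _).trans h
      | _ => simp [rk, lev] at hc
    | inr q => simp only [rk] at hc; omega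

theorem mem_Fl_zero_J {x : (wS π s hs).S} : x ∈ Fl π s hs 0 ↔ fi π s hs x ∈ J π := by
  rw [mem_Fl_zero, KOS296.mem_J_iff_kill]

theorem Fl_anti {i j : ℕ} (h : i ≤ j) {x : (wS π s hs).S} (hx : x ∈ Fl π s hs j) :
    x ∈ Fl π s hs i := fun c hc => hx c (hc.trans h)

theorem fi_zero_of {i : ℕ} (hi : 3 ≤ i + 1) {x : (wS π s hs).S} (hx : x ∈ Fl π s hs i) :
    fi π s hs x = 0 :=
  WLF296.Fl_three (WLF296.Fl_anti hi (mem_Fl'.1 hx).1)

theorem Fl_l (i : ℕ) (a : (wS π s hs).S) {x : (wS π s hs).S} (hx : x ∈ Fl π s hs i) :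
    a * x ∈ Fl π s hs i := by
  have hx' := mem_Fl'.1 hx
  rw [mem_Fl']
  refine ⟨Fl_left π _ hx'.1, ?_⟩
  rw [sn_mul]
  refine Submodule.add_mem _ (WLM982.FM_left π _ hx'.2) ?_
  by_cases hi : 3 ≤ i
  · rw [fi_zero_of (by omega) hx, MulOpposite.op_zero, zero_smul]
    exact Submodule.zero_mem _
  · have e : i - 2 = 0 := by omega
    rw [e]
    exact WLM982.mem_FM_zero _

theorem Fl_r (i : ℕ) (a : (wS π s hs).S) {x : (wS π s hs).S} (hx : x ∈ Fl π s hs i) :
    x * a ∈ Fl π s hs i := by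
  intro c' hc'
  have e : x * a = ∑ c, uu π s hs c * (il π s hs (co π s hs c x) * a) := by
    conv_lhs => rw [expand π s hs x]
    rw [Finset.sum_mul]
    exact Finset.sum_congr rfl fun c _ => mul_assoc _ _ _
  rw [e, map_sum]
  refine Finset.sum_eq_zero fun c _ => ?_
  by_cases h : rk c ≤ i
  · rw [hx c h, il_zero, zero_mul, mul_zero, map_zero]
  · rw [lead π s hs (by omega), if_neg]
    rintro rfl
    exact h hc'

theorem D_one' : (wS π s hs).D 1 = 0 := by
  have := (wS π s hs).D_mul 1 1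
  rw [mul_one, one_mul, mul_one] at this
  have h2 := (wS π s hs).two ((wS π s hs).D 1)
  rw [h2] at this
  exact this

theorem D_uu (c : Wb ⊕ Wb) : (wS π s hs).D (uu π s hs c) = 0 := by
  cases c with
  | inl q =>
    show (wS π s hs).D (il π s hs (wq π q)) = 0
    rw [il_D, WLF296.D_wq, il_zero]
  | inr q =>
    refine ((bdM π s hs).D_inr (oM π q 1)).trans ?_
    have e : (bdM π s hs).DM (oM π q 1) = 0 := by
      refine (dMM_oM π q 1).trans ?_
      have : Der580.D π (1 : R π) = 0 := by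
        rw [← wq_one π]
        exact WLF296.D_wq .one
      rw [this, map_zero]
      rfl
    rw [e]
    exact map_zero _

theorem Fl_D (i : ℕ) {x : (wS π s hs).S} (hx : x ∈ Fl π s hs i) :
    (wS π s hs).D x ∈ Fl π s hs i := by
  intro c' hc'
  have e : (wS π s hs).D x = ∑ c, uu π s hs c * (wS π s hs).D (il π s hs (co π s hs c x)) := by
    conv_lhs => rw [expand π s hs x]
    rw [map_sum]
    refine Finset.sum_congr rfl fun c _ => ?_
    rw [(wS π s hs).D_mul, D_uu, zero_mul, zero_add]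
  rw [e, map_sum]
  refine Finset.sum_eq_zero fun c _ => ?_
  by_cases h : rk c ≤ i
  · rw [hx c h, il_zero, map_zero, mul_zero, map_zero]
  · rw [lead π s hs (by omega), if_neg]
    rintro rfl
    exact h hc'

theorem Fl_five {x : (wS π s hs).S} (hx : x ∈ Fl π s hs 5) : x = 0 := by
  apply ext0 π s hs
  · exact fi_zero_of (by norm_num) hx
  · exact WLM982.FM_three (mem_Fl'.1 hx).2

variable (s) in
/-- degree of a generator -/
def ug : Wb ⊕ Wb → ℕ
  | .inl q => wC q.word
  | .inr q => s - wC q.word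

/-- `P`-degree of a generator, with the opposite sign -/
def up : Wb ⊕ Wb → ℤ
  | .inl _ => 0
  | .inr _ => 1

theorem uu_mem (c : Wb ⊕ Wb) : uu π s hs c ∈ (wS π s hs).pc (-up c) 0 (ug s c) := by
  cases c with
  | inl q =>
    refine (bdM π s hs).inl_mem ?_
    have h : wq π q ∈ pcZ π 0 0 (wC q.word) := by
      have h1 : wq π q ∈ pc π (wP q.word) (wA q.word) (wC q.word) :=
        Submodule.subset_span ⟨q.word, rfl, rfl, rfl, rfl⟩
      have e1 : wP q.word = 0 := by cases q <;> rfl
      have e2 : wA q.word = 0 := by cases q <;> rfl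
      rw [e1, e2, ← pcZ_nat] at h1
      exact h1
    show wq π q ∈ pcZ π (-0) 0 (wC q.word)
    rw [neg_zero]
    exact h
  | inr q =>
    refine (bdM π s hs).inr_mem ?_
    refine mem_pcM π s q (C' := 0) ?_ ?_
    · have := pcZ_one π
      simpa [up] using this
    · have := wC_word_le q
      simp only [ug]
      rw [Nat.cast_sub (by omega)]
      ring

theorem co_mem {P A C : ℤ} {x : (wS π s hs).S} (hx : x ∈ (wS π s hs).pc P A C) (c : Wb ⊕ Wb) :
    il π s hs (co π s hs c x) ∈ (wS π s hs).pc (P + up c) A (C - ug s c) := by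
  refine il_pc π s hs ?_
  rw [KOS296.pcZ_eq_pz]
  cases c with
  | inl q =>
    have h := fi_mem π s hs hx
    rw [KOS296.pcZ_eq_pz] at h
    have h2 := WLF296.lq_mem π h q
    show lq π q (fi π s hs x) ∈ C2b362.pz π (P + 0) A (C - (wC q.word : ℤ))
    rw [add_zero]
    exact h2
  | inr q =>
    have h := WLM982.lM_mem π s (sn_mem π s hs hx) q
    have := wC_word_le q
    have e : C - (ug s (.inr q) : ℤ) = C - s + wC q.word := by
      simp only [ug]
      rw [Nat.cast_sub (by omega)]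
      ring
    rw [e]
    exact h

theorem gen (i : ℕ) {P A C : ℤ} {x : (wS π s hs).S} (hx : x ∈ Fl π s hs i)
    (hd : x ∈ (wS π s hs).pc P A C) :
    ∃ z : {c : Wb ⊕ Wb // rk c = i + 1} → (wS π s hs).S,
      (∀ k, z k ∈ (wS π s hs).pc (P + up k.1) A (C - ug s k.1)) ∧
      x - ∑ k : {c : Wb ⊕ Wb // rk c = i + 1}, uu π s hs k.1 * z k ∈ Fl π s hs (i + 1) := by
  refine ⟨fun k => il π s hs (co π s hs k.1 x), fun k => co_mem hd k.1, ?_⟩
  intro c' hc'
  rw [map_sub, map_sum]
  by_cases h : rk c' = i + 1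
  · rw [Finset.sum_eq_single (⟨c', h⟩ : {c : Wb ⊕ Wb // rk c = i + 1})]
    · rw [lead π s hs le_rfl, if_pos rfl, fi_il, kill_co, sub_self]
    · intro k _ hk
      rw [lead π s hs (by rw [h, k.2]), if_neg]
      intro h2
      exact hk (Subtype.ext h2.symm)
    · intro h2
      exact absurd (Finset.mem_univ _) h2
  · rw [hx c' (by omega), Finset.sum_eq_zero, sub_zero]
    intro k _
    rw [lead π s hs (by rw [k.2]; exact hc'), if_neg]
    rintro h2
    exact h (h2 ▸ k.2)

theorem uniq (i : ℕ) (z : {c : Wb ⊕ Wb // rk c = i + 1} → (wS π s hs).S)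
    (h : ∑ k : {c : Wb ⊕ Wb // rk c = i + 1}, uu π s hs k.1 * z k ∈ Fl π s hs (i + 1))
    (k : {c : Wb ⊕ Wb // rk c = i + 1}) : z k ∈ Fl π s hs 0 := by
  rw [mem_Fl_zero]
  have h1 := h k.1 (by rw [k.2])
  rw [map_sum, Finset.sum_eq_single k] at h1
  · rwa [lead π s hs le_rfl, if_pos rfl] at h1
  · intro k' _ hk
    rw [lead π s hs (by rw [k.2, k'.2]), if_neg]
    intro h2
    exact hk (Subtype.ext h2.symm)
  · intro h2
    exact absurd (Finset.mem_univ _) h2

theorem u_J {c : Wb ⊕ Wb} {z : (wS π s hs).S} (hz : z ∈ Fl π s hs 0) :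
    uu π s hs c * z ∈ Fl π s hs (rk c) := by
  intro c' hc'
  rw [lead π s hs hc', mem_Fl_zero.1 hz, ite_self]

theorem u_F {i : ℕ} {c : Wb ⊕ Wb} (h : rk c = i + 1) : uu π s hs c ∈ Fl π s hs i := by
  intro c' hc'
  have := lead π s hs (c := c) (c' := c') (by omega) 1
  rw [mul_one] at this
  rw [this, if_neg]
  rintro rfl
  omega

theorem th_uu {b : ℤ} {θ : Th (wS π s hs)} (hθ : Tk π s hs b θ) (c : Wb ⊕ Wb) :
    θ.t * uu π s hs c = uu π s hs c * θ.t := by
  cases c with
  | inl q => exact th_wq hθ q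
  | inr q => exact th_oM hθ q

variable (π s hs)

/-- **the instance** -/
def trd : TRD (bdM π s hs).ext where
  lo := 0
  neg {P A C} hC := by
    rw [eq_bot_iff]
    rintro x ⟨h1, h2⟩
    have h1' : x.1 ∈ pcZ π P A C := h1
    have h2' : x.2 ∈ pcM π s P A C := h2
    rw [pcZ_neg π (Or.inr hC)] at h1'
    rw [pcM_bot π s (fun q => pcZ_neg π (Or.inr (by
      have := wC_word_le q
      omega)))] at h2'
    rw [Submodule.mem_bot]
    exact SExt44.BD.Car.ext _ ((Submodule.mem_bot K).1 h1') ((Submodule.mem_bot K).1 h2')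
  r := 5
  Fl := Fl π s hs
  Fr := by
    rw [eq_bot_iff]
    intro x hx
    rw [Submodule.mem_bot]
    exact Fl_five hx
  anti i := fun x hx => Fl_anti (Nat.le_succ i) hx
  Fl_l i a {x} hx := Fl_l i a hx
  Fl_r i a {x} hx := Fl_r i a hx
  Fl_D i {x} hx := Fl_D i hx
  κ i := {c : Wb ⊕ Wb // rk c = i + 1}
  fκ i := inferInstance
  u i k := uu π s hs k.1
  uP i k := up k.1
  uP01 i k := by
    rcases k with ⟨c | c, _⟩
    · exact Or.inl rfl
    · exact Or.inr rfl
  uC i k := ug s k.1
  u_mem i k := uu_mem k.1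
  u_F i k := u_F k.2
  u_J i k {z} hz := by
    have := u_J (c := k.1) hz
    rwa [k.2] at this
  u_D i k := by
    rw [show (bdM π s hs).ext.D (uu π s hs k.1) = 0 from D_uu k.1]
    exact Submodule.zero_mem _
  gen i {P A C x} _ hx hd := gen i hx hd
  uniq i {P A C} z _ _ h k := uniq i z h k
  T0 := Tk π s hs (-2)
  T1 := Tk π s hs (-1)
  T2 := Tk π s hs 0
  T01 θ h := Tk_mono (by norm_num) h
  T12 θ h := Tk_mono (by norm_num) h
  u_th θ h i k := by
    rw [show θ.t * uu π s hs k.1 = uu π s hs k.1 * θ.t from th_uu h k.1, sub_self]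
    exact Submodule.zero_mem _
  x := xS π s hs
  x_mem := xS_mem π s hs
  x_D := xS_D π s hs
  kk := kS π s hs
  kk_mem := kS_mem π s hs
  kk_D := kS_D π s hs
  x_kk := by
    rw [show ∑ j, xS π s hs j * kS π s hs j = 0 from sum_xk π s hs]
    exact Submodule.zero_mem _
  T2x θ h := by
    obtain ⟨θ', h1, h2, θ'', h3, h4⟩ := T2x h
    refine ⟨θ', h1, fun j => ?_, θ'', h3, fun j => ?_⟩
    · rw [show θ.t * xS π s hs j - xS π s hs j * θ'.t = 0 from h2 j]
      exact Submodule.zero_mem _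
    · rw [show θ'.t * kS π s hs j - kS π s hs j * θ''.t = 0 from h4 j]
      exact Submodule.zero_mem _
  x_gen {P A C y} hP hy := by
    obtain ⟨z, h1, h2⟩ := x_gen hP hy
    refine ⟨z, h1, ?_⟩
    rw [mem_Fl_zero_J]
    exact h2 ▸ Submodule.zero_mem _
  x_ker {P A C} z hz h := by
    rw [mem_Fl_zero_J] at h
    obtain ⟨c, hc, h2⟩ := x_ker z hz h
    exact ⟨c, hc, fun j => mem_Fl_zero_J.2 (h2 j)⟩
  x_inj {c} h := by
    rw [mem_Fl_zero_J] at h ⊢
    exact x_inj h

end Crest.Agent.R186.TRDi57
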