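import Mathlib
import Crest.Prelude.Def_GorProjVanishing
import Crest.Agent.R186.Syz_700

/-!
Row 186 (helper147): a totally reflexive module is Gorenstein-projective.  Data: a left module
`V`, a right module `D` over a two-sided noetherian ring `Λ` and a bimodule pairing
`β : V × D → Λ` which identifies each one with the `Λ`-dual of the other, and the vanishing of
`Ext^i (V, Λ)`, `Ext^i (D, Λ)` for `i > 0`.
-/

set_option autoImplicit false
set_option linter.unusedSectionVars false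
set_option linter.style.haveILetI false

universe u

open CategoryTheory CategoryTheory.Abelian Crest.AlgebraR MulOpposite

namespace Crest.Agent.R186.TR147

open Syz700

section two

variable {A : Type u} [Ring A]

/-- a two-sided sequence of short exact sequences with the extension property towards `A` -/
structure Two (A : Type u) [Ring A] where
  X : ℤ → FM A
  P : ℤ → FM A
  proj : ∀ j, Module.Projective A (P j).X
  f : ∀ j, (X (j + 1)).X →ₗ[A] (P j).X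
  g : ∀ j, (P j).X →ₗ[A] (X j).X
  fi : ∀ j, Function.Injective (f j)
  gs : ∀ j, Function.Surjective (g j)
  ex : ∀ j, Function.Exact (f j) (g j)
  lift : ∀ j (φ : (X (j + 1)).X →ₗ[A] A), ∃ ψ : (P j).X →ₗ[A] A, ψ ∘ₗ f j = φ

theorem Two.gproj (t : Two A) : IsGorensteinProjective A (t.X 0).X := by
  refine ⟨fun n => (t.P n).X, fun n => inferInstance, fun n => inferInstance,
    fun n => t.f n ∘ₗ t.g (n + 1), fun n => ⟨inferInstance, t.proj n⟩, ?_, ?_, ?_⟩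
  · intro n y
    constructor
    · intro hy
      have h1 : t.g (n + 1) y = 0 := by
        apply t.fi n
        rw [map_zero]
        exact hy
      obtain ⟨x, rfl⟩ := (t.ex (n + 1) y).1 h1
      obtain ⟨z, rfl⟩ := t.gs (n + 1 + 1) x
      exact ⟨z, rfl⟩
    · rintro ⟨z, rfl⟩
      show t.f n (t.g (n + 1) (t.f (n + 1) (t.g (n + 1 + 1) z))) = 0
      rw [(t.ex (n + 1) _).2 ⟨_, rfl⟩, map_zero]
  · intro n φ
    constructor
    · intro hφ
      have h0 : φ ∘ₗ (t.f (n + 1) ∘ₗ t.g (n + 1 + 1)) = 0 := hφ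
      have h1 : ∀ x, φ (t.f (n + 1) x) = 0 := by
        intro x
        obtain ⟨z, rfl⟩ := t.gs (n + 1 + 1) x
        exact LinearMap.congr_fun h0 z
      have hker : LinearMap.ker (t.g (n + 1)) ≤ LinearMap.ker φ := by
        intro y hy
        obtain ⟨x, rfl⟩ := (t.ex (n + 1) y).1 hy
        exact h1 x
      let e := LinearMap.quotKerEquivOfSurjective (t.g (n + 1)) (t.gs (n + 1))
      let φ' : (t.X (n + 1)).X →ₗ[A] A := ((LinearMap.ker (t.g (n + 1))).liftQ φ hker) ∘ₗ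
        e.symm.toLinearMap
      have h2 : ∀ y, φ' (t.g (n + 1) y) = φ y := by
        intro y
        have h3 : e.symm (t.g (n + 1) y) = Submodule.Quotient.mk y := by
          rw [LinearEquiv.symm_apply_eq]
          rfl
        show (LinearMap.ker (t.g (n + 1))).liftQ φ hker (e.symm (t.g (n + 1) y)) = φ y
        rw [h3]
        rfl
      obtain ⟨ψ, hψ⟩ := t.lift n φ'
      refine ⟨ψ, LinearMap.ext fun y => ?_⟩
      show ψ (t.f n (t.g (n + 1) y)) = φ y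
      rw [← h2, ← hψ]
      rfl
    · rintro ⟨ψ, rfl⟩
      refine LinearMap.ext fun z => ?_
      show ψ (t.f n (t.g (n + 1) (t.f (n + 1) (t.g (n + 1 + 1) z)))) = 0
      rw [(t.ex (n + 1) _).2 ⟨_, rfl⟩, map_zero, map_zero]
  · have hk : LinearMap.range (t.f 0 ∘ₗ t.g (0 + 1)) = LinearMap.ker (t.g 0) := by
      ext y
      constructor
      · rintro ⟨z, rfl⟩
        exact (t.ex 0 _).2 ⟨_, rfl⟩
      · intro hy
        obtain ⟨x, rfl⟩ := (t.ex 0 y).1 hy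
        obtain ⟨z, rfl⟩ := t.gs (0 + 1) x
        exact ⟨z, rfl⟩
    exact ⟨((Submodule.quotEquivOfEq _ _ hk).trans
      (LinearMap.quotKerEquivOfSurjective (t.g 0) (t.gs 0))).symm⟩

end two

section dual

variable {A : Type u} [Ring A]

/-- precomposition, as a left linear map between the left modules `Hom_{A^op} (-, A)` -/
def dm {X Y : Type u} [AddCommGroup X] [Module Aᵐᵒᵖ X] [AddCommGroup Y] [Module Aᵐᵒᵖ Y]
    (t : X →ₗ[Aᵐᵒᵖ] Y) : (Y →ₗ[Aᵐᵒᵖ] A) →ₗ[A] (X →ₗ[Aᵐᵒᵖ] A) where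
  toFun f := f ∘ₗ t
  map_add' _ _ := rfl
  map_smul' _ _ := rfl

theorem dm_apply {X Y : Type u} [AddCommGroup X] [Module Aᵐᵒᵖ X] [AddCommGroup Y]
    [Module Aᵐᵒᵖ Y] (t : X →ₗ[Aᵐᵒᵖ] Y) (f : Y →ₗ[Aᵐᵒᵖ] A) (x : X) : dm t f x = f (t x) := rfl

/-- the dual of a free right module -/
noncomputable def freeEquiv (n : ℕ) : (Fin n → A) ≃ₗ[A] ((Fin n → Aᵐᵒᵖ) →ₗ[Aᵐᵒᵖ] A) :=
  (Pi.basisFun Aᵐᵒᵖ (Fin n)).constr A

instance (n : ℕ) : Module.Projective A ((Fin n → Aᵐᵒᵖ) →ₗ[Aᵐᵒᵖ] A) :=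
  Module.Projective.of_equiv' (freeEquiv n)

instance (n : ℕ) : Module.Finite A ((Fin n → Aᵐᵒᵖ) →ₗ[Aᵐᵒᵖ] A) :=
  Module.Finite.equiv (freeEquiv n)

/-- coordinate functional -/
def co {n : ℕ} (i : Fin n) : (Fin n → Aᵐᵒᵖ) →ₗ[Aᵐᵒᵖ] A where
  toFun y := (y i).unop
  map_add' _ _ := rfl
  map_smul' _ _ := rfl

theorem expand {n : ℕ} (f : (Fin n → Aᵐᵒᵖ) →ₗ[Aᵐᵒᵖ] A) :
    f = ∑ i, f (Pi.single i 1) • co i := by
  refine LinearMap.ext fun y => ?_
  have h1 : y = ∑ i, (y i) • (Pi.single i 1 : Fin n → Aᵐᵒᵖ) := by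
    funext j
    simp [Finset.sum_apply, Pi.single_apply]
  conv_lhs => rw [h1]
  rw [map_sum, LinearMap.sum_apply]
  refine Finset.sum_congr rfl fun i _ => ?_
  rw [map_smul]
  rfl

/-- every left linear functional on the dual of a free right module is an evaluation -/
theorem free_refl {n : ℕ} (ψ : ((Fin n → Aᵐᵒᵖ) →ₗ[Aᵐᵒᵖ] A) →ₗ[A] A) :
    ∃ y : Fin n → Aᵐᵒᵖ, ∀ f, ψ f = f y := by
  refine ⟨fun i => op (ψ (co i)), fun f => ?_⟩
  conv_lhs => rw [expand f]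
  conv_rhs => rw [expand f]
  rw [map_sum, LinearMap.sum_apply]
  refine Finset.sum_congr rfl fun i _ => ?_
  rw [map_smul]
  rfl

variable [IsNoetherianRing A]

theorem finite_dual (Y : FM Aᵐᵒᵖ) : Module.Finite A (Y.X →ₗ[Aᵐᵒᵖ] A) := by
  refine Module.Finite.of_injective (dm Y.cov) ?_
  intro f g h
  refine LinearMap.ext fun x => ?_
  obtain ⟨y, rfl⟩ := Y.cov_surj x
  exact LinearMap.congr_fun h y

/-- the dual of a bundled right module -/
noncomputable def du (Y : FM Aᵐᵒᵖ) : FM A :=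
  haveI := finite_dual Y
  ⟨Y.X →ₗ[Aᵐᵒᵖ] A⟩

/-- the dual of a free module, bundled -/
noncomputable def fr (A : Type u) [Ring A] (n : ℕ) : FM A :=
  ⟨(Fin n → Aᵐᵒᵖ) →ₗ[Aᵐᵒᵖ] A⟩

/-- reflexivity in element form -/
structure Refl (Y : Type u) [AddCommGroup Y] [Module Aᵐᵒᵖ Y] : Prop where
  ex : ∀ φ : (Y →ₗ[Aᵐᵒᵖ] A) →ₗ[A] A, ∃ y, ∀ f, φ f = f y
  sep : ∀ y : Y, (∀ f : Y →ₗ[Aᵐᵒᵖ] A, f y = 0) → y = 0

variable [IsNoetherianRing Aᵐᵒᵖ]

theorem refl_syz (Y : FM Aᵐᵒᵖ) (hY : Refl (A := A) Y.X)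
    (hl : ∀ g : Y.syz.X →ₗ[Aᵐᵒᵖ] A, ∃ f : (Fin Y.n → Aᵐᵒᵖ) →ₗ[Aᵐᵒᵖ] A, f ∘ₗ Y.inc = g) :
    Refl (A := A) Y.syz.X where
  ex φ := by
    obtain ⟨y, hy⟩ := free_refl (φ ∘ₗ dm Y.inc)
    have h1 : Y.cov y = 0 := by
      apply hY.sep
      intro f
      have h2 := hy (f ∘ₗ Y.cov)
      have h3 : dm Y.inc (f ∘ₗ Y.cov) = 0 := by
        refine LinearMap.ext fun x => ?_
        show f (Y.cov (Y.inc x)) = 0
        rw [show Y.cov (Y.inc x) = 0 from LinearMap.congr_fun Y.cov_inc x, map_zero]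
      rw [LinearMap.comp_apply, h3, map_zero] at h2
      exact h2.symm
    obtain ⟨x, rfl⟩ := Y.exists_inc y h1
    refine ⟨x, fun g => ?_⟩
    obtain ⟨f, rfl⟩ := hl g
    exact hy f
  sep x hx := by
    apply Y.inc_inj
    rw [map_zero]
    funext i
    have h1 := hx (co i ∘ₗ Y.inc)
    exact unop_injective h1

/-- functionals on the dual of `Y` extend to the dual of the free cover -/
theorem lift_dual (Y : FM Aᵐᵒᵖ) (hY : Refl (A := A) Y.X)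
    (φ : (Y.X →ₗ[Aᵐᵒᵖ] A) →ₗ[A] A) :
    ∃ ψ : ((Fin Y.n → Aᵐᵒᵖ) →ₗ[Aᵐᵒᵖ] A) →ₗ[A] A, ψ ∘ₗ dm Y.cov = φ := by
  obtain ⟨z, hz⟩ := hY.ex φ
  obtain ⟨y, rfl⟩ := Y.cov_surj z
  refine ⟨{ toFun := fun f => f y, map_add' := fun _ _ => rfl, map_smul' := fun _ _ => rfl }, ?_⟩
  refine LinearMap.ext fun f => ?_
  rw [hz f]
  rfl

theorem dm_cov_inj (Y : FM Aᵐᵒᵖ) : Function.Injective (dm (A := A) Y.cov) := by
  intro f g h
  refine LinearMap.ext fun x => ?_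
  obtain ⟨y, rfl⟩ := Y.cov_surj x
  exact LinearMap.congr_fun h y

theorem dm_exact (Y : FM Aᵐᵒᵖ) : Function.Exact (dm (A := A) Y.cov) (dm Y.inc) := by
  intro f
  constructor
  · intro hf
    have hker : LinearMap.ker Y.cov ≤ LinearMap.ker f := by
      intro y hy
      obtain ⟨x, rfl⟩ := Y.exists_inc y hy
      exact LinearMap.congr_fun hf x
    refine ⟨(LinearMap.ker Y.cov).liftQ f hker ∘ₗ
      (Y.cov.quotKerEquivOfSurjective Y.cov_surj).symm.toLinearMap, ?_⟩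
    refine LinearMap.ext fun y => ?_
    rw [dm_apply, LinearMap.comp_apply]
    have : (Y.cov.quotKerEquivOfSurjective Y.cov_surj).symm.toLinearMap (Y.cov y)
        = Submodule.Quotient.mk y := by
      apply (Y.cov.quotKerEquivOfSurjective Y.cov_surj).injective
      simp
    rw [this]
    simp
  · rintro ⟨g, rfl⟩
    refine LinearMap.ext fun x => ?_
    have h1 : Y.cov (Y.inc x) = 0 := LinearMap.congr_fun Y.cov_inc x
    show g (Y.cov (Y.inc x)) = 0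
    rw [h1, map_zero]

end dual

section main

variable {A : Type u} [Ring A] [IsNoetherianRing A] [IsNoetherianRing Aᵐᵒᵖ]

theorem refl_Om (D : FM Aᵐᵒᵖ) (hD : Refl (A := A) D.X)
    (e2 : ∀ i : ℕ, 0 < i → Subsingleton (Ext (ModuleCat.of Aᵐᵒᵖ D.X) (ModuleCat.of Aᵐᵒᵖ A) i))
    (j : ℕ) : Refl (A := A) (Om D j).X := by
  induction j with
  | zero => exact hD
  | succ j ih => exact refl_syz (Om D j) ih (lift_Om D A e2 j)

variable (V : FM A) (D : FM Aᵐᵒᵖ) (β : V.X →ₗ[A] (D.X →ₗ[Aᵐᵒᵖ] A))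

/-- the modules -/
noncomputable def XX : ℤ → FM A
  | Int.ofNat j => Om V j
  | Int.negSucc j => du (Om D (j + 1))

/-- the projectives -/
noncomputable def PP : ℤ → FM A
  | Int.ofNat j => ⟨Fin (Om V j).n → A⟩
  | Int.negSucc j => fr A (Om D j).n

/-- the injections -/
noncomputable def ff : ∀ n : ℤ, (XX V D (n + 1)).X →ₗ[A] (PP V D n).X
  | Int.ofNat j => (Om V j).inc
  | Int.negSucc 0 => (dm D.cov ∘ₗ β : V.X →ₗ[A] ((Fin D.n → Aᵐᵒᵖ) →ₗ[Aᵐᵒᵖ] A))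
  | Int.negSucc (j + 1) => (dm (Om D (j + 1)).cov :
      ((Om D (j + 1)).X →ₗ[Aᵐᵒᵖ] A) →ₗ[A] ((Fin (Om D (j + 1)).n → Aᵐᵒᵖ) →ₗ[Aᵐᵒᵖ] A))

/-- the surjections -/
noncomputable def gg : ∀ n : ℤ, (PP V D n).X →ₗ[A] (XX V D n).X
  | Int.ofNat j => (Om V j).cov
  | Int.negSucc j => (dm (Om D j).inc :
      ((Fin (Om D j).n → Aᵐᵒᵖ) →ₗ[Aᵐᵒᵖ] A) →ₗ[A] ((Om D (j + 1)).X →ₗ[Aᵐᵒᵖ] A))

theorem PP_proj : ∀ n : ℤ, Module.Projective A (PP V D n).X
  | Int.ofNat j => inferInstanceAs (Module.Projective A (Fin (Om V j).n → A))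
  | Int.negSucc j =>
    inferInstanceAs (Module.Projective A ((Fin (Om D j).n → Aᵐᵒᵖ) →ₗ[Aᵐᵒᵖ] A))

theorem ff_inj (hb : Function.Bijective β) : ∀ n : ℤ, Function.Injective (ff V D β n)
  | Int.ofNat j => (Om V j).inc_inj
  | Int.negSucc 0 => (dm_cov_inj D).comp hb.1
  | Int.negSucc (j + 1) => dm_cov_inj (Om D (j + 1))

theorem gg_surj (e2 : ∀ i : ℕ, 0 < i →
      Subsingleton (Ext (ModuleCat.of Aᵐᵒᵖ D.X) (ModuleCat.of Aᵐᵒᵖ A) i)) :
    ∀ n : ℤ, Function.Surjective (gg V D n)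
  | Int.ofNat j => (Om V j).cov_surj
  | Int.negSucc j => fun g => lift_Om D A e2 j g

theorem fg_ex (hb : Function.Bijective β) : ∀ n : ℤ, Function.Exact (ff V D β n) (gg V D n)
  | Int.ofNat j => by
    intro y
    constructor
    · intro hy
      exact (Om V j).exists_inc y hy
    · rintro ⟨x, rfl⟩
      exact LinearMap.congr_fun (Om V j).cov_inc x
  | Int.negSucc 0 => by
    intro y
    have h := dm_exact (A := A) D y
    constructor
    · intro hy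
      obtain ⟨x, hx⟩ := h.1 hy
      obtain ⟨v, rfl⟩ := hb.2 x
      exact ⟨v, hx⟩
    · rintro ⟨v, rfl⟩
      exact h.2 ⟨β v, rfl⟩
  | Int.negSucc (j + 1) => dm_exact (A := A) (Om D (j + 1))

theorem lift0 (hb : Function.Bijective β) (hD : Refl (A := A) D.X) (φ : V.X →ₗ[A] A) :
    ∃ ψ : ((Fin D.n → Aᵐᵒᵖ) →ₗ[Aᵐᵒᵖ] A) →ₗ[A] A, ψ ∘ₗ (dm D.cov ∘ₗ β) = φ := by
  let e : V.X ≃ₗ[A] (D.X →ₗ[Aᵐᵒᵖ] A) := LinearEquiv.ofBijective β hb
  obtain ⟨ψ, hψ⟩ := lift_dual D hD (φ ∘ₗ e.symm.toLinearMap)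
  refine ⟨ψ, LinearMap.ext fun v => ?_⟩
  have h2 := LinearMap.congr_fun hψ (β v)
  have h3 : (φ ∘ₗ e.symm.toLinearMap) (β v) = φ v := by
    show φ (e.symm (e v)) = φ v
    rw [e.symm_apply_apply]
  exact h2.trans h3

theorem all_lift (hb : Function.Bijective β)
    (h1 : ∀ φ : V.X →ₗ[A] A, ∃ d : D.X, ∀ v, φ v = β v d)
    (h1' : ∀ d : D.X, (∀ v, β v d = 0) → d = 0)
    (e1 : ∀ i : ℕ, 0 < i → Subsingleton (Ext (ModuleCat.of A V.X) (ModuleCat.of A A) i))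
    (e2 : ∀ i : ℕ, 0 < i →
      Subsingleton (Ext (ModuleCat.of Aᵐᵒᵖ D.X) (ModuleCat.of Aᵐᵒᵖ A) i)) :
    ∀ (n : ℤ) (φ : (XX V D (n + 1)).X →ₗ[A] A),
      ∃ ψ : (PP V D n).X →ₗ[A] A, ψ ∘ₗ ff V D β n = φ := by
  have hD : Refl (A := A) D.X :=
    { ex := by
        intro φ
        obtain ⟨d, hd⟩ := h1 (φ ∘ₗ β)
        refine ⟨d, fun f => ?_⟩
        obtain ⟨v, rfl⟩ := hb.2 f
        exact hd v
      sep := fun d hd => h1' d fun v => hd (β v) }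
  intro n
  match n with
  | Int.ofNat j => exact lift_Om V A e1 j
  | Int.negSucc 0 => exact lift0 V D β hb hD
  | Int.negSucc (j + 1) => exact lift_dual (Om D (j + 1)) (refl_Om D hD e2 (j + 1))

/-- **Totally reflexive modules are Gorenstein-projective.** -/
theorem gproj_FM (hb : Function.Bijective β)
    (h1 : ∀ φ : V.X →ₗ[A] A, ∃ d : D.X, ∀ v, φ v = β v d)
    (h1' : ∀ d : D.X, (∀ v, β v d = 0) → d = 0)
    (e1 : ∀ i : ℕ, 0 < i → Subsingleton (Ext (ModuleCat.of A V.X) (ModuleCat.of A A) i))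
    (e2 : ∀ i : ℕ, 0 < i →
      Subsingleton (Ext (ModuleCat.of Aᵐᵒᵖ D.X) (ModuleCat.of Aᵐᵒᵖ A) i)) :
    IsGorensteinProjective A V.X :=
  Two.gproj
    { X := XX V D
      P := PP V D
      proj := PP_proj V D
      f := ff V D β
      g := gg V D
      fi := ff_inj V D β hb
      gs := gg_surj V D e2
      ex := fg_ex V D β hb
      lift := all_lift V D β hb h1 h1' e1 e2 }

end main

/-- **Totally reflexive modules are Gorenstein-projective** (unbundled). -/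
theorem gproj (Λ : Type u) [Ring Λ] [IsNoetherianRing Λ] [IsNoetherianRing Λᵐᵒᵖ]
    (V : Type u) [AddCommGroup V] [Module Λ V] [Module.Finite Λ V]
    (D : Type u) [AddCommGroup D] [Module Λᵐᵒᵖ D] [Module.Finite Λᵐᵒᵖ D]
    (β : V →ₗ[Λ] (D →ₗ[Λᵐᵒᵖ] Λ)) (hb : Function.Bijective β)
    (h1 : ∀ φ : V →ₗ[Λ] Λ, ∃ d : D, ∀ v, φ v = β v d)
    (h1' : ∀ d : D, (∀ v, β v d = 0) → d = 0)
    (e1 : ∀ i : ℕ, 0 < i → Subsingleton (Ext (ModuleCat.of Λ V) (ModuleCat.of Λ Λ) i))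
    (e2 : ∀ i : ℕ, 0 < i →
      Subsingleton (Ext (ModuleCat.of Λᵐᵒᵖ D) (ModuleCat.of Λᵐᵒᵖ Λ) i)) :
    IsGorensteinProjective Λ V :=
  gproj_FM ⟨V⟩ ⟨D⟩ β hb h1 h1' e1 e2

end Crest.Agent.R186.TR147
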