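import Mathlib

/-!
# Row 186, half (A), short road of helper306 (#34919): abstract part of (TR) (helper461)

* `Cx` graded complexes with degree dependent differential, `Cx.Ex E m` exactness in degree `m`;
* `Ses` short exact sequences, `Ses.mid`, `Ses.right`, `Ses.left`;
* `Mp`, `cone`, `Z θ m` := the cone of `θ` is exact in degree `m`, in elements;
* `Cel` (cells), `Row` (right dg modules seen by the cells), `Row.T` (the complex `N ⊗ X`),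
  exactness of `T`, shifts.
-/

set_option autoImplicit false

namespace Crest.Agent.R186.TR461

variable {K : Type} [Field K]

/-! ### complexes -/

/-- a graded complex (homological degree) -/
structure Cx (K : Type) [Field K] where
  X : Type
  [grp : AddCommGroup X]
  [mod : Module K X]
  gr : ℤ → Submodule K X
  d : ℤ → X →ₗ[K] X
  d_mem : ∀ {m : ℤ} {x : X}, x ∈ gr m → d m x ∈ gr (m - 1)
  d_d : ∀ {m : ℤ} {x : X}, x ∈ gr m → d (m - 1) (d m x) = 0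

attribute [instance] Cx.grp Cx.mod

/-- exactness in degree `m` -/
def Cx.Ex (E : Cx K) (m : ℤ) : Prop :=
  ∀ x ∈ E.gr m, E.d m x = 0 → ∃ y ∈ E.gr (m + 1), E.d (m + 1) y = x

theorem Cx.d_mem' (E : Cx K) {m : ℤ} {x : E.X} (h : x ∈ E.gr (m + 1)) : E.d (m + 1) x ∈ E.gr m := by
  have := E.d_mem h
  rwa [add_sub_cancel_right] at this

theorem Cx.d_d' (E : Cx K) {m : ℤ} {x : E.X} (h : x ∈ E.gr (m + 1)) :
    E.d m (E.d (m + 1) x) = 0 := by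
  have := E.d_d h
  rwa [add_sub_cancel_right] at this

/-- a homogeneous chain map of degree `0` -/
structure Mp (E F : Cx K) where
  f : E.X →ₗ[K] F.X
  mem : ∀ {m : ℤ} {x : E.X}, x ∈ E.gr m → f x ∈ F.gr m
  comm : ∀ {m : ℤ} {x : E.X}, x ∈ E.gr m → F.d m (f x) = f (E.d m x)

/-- a short exact sequence, degreewise -/
structure Ses {A B C : Cx K} (f : Mp A B) (g : Mp B C) : Prop where
  inj : ∀ {m : ℤ} {x : A.X}, x ∈ A.gr m → f.f x = 0 → x = 0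
  mid : ∀ {m : ℤ} {y : B.X}, y ∈ B.gr m → g.f y = 0 → ∃ x ∈ A.gr m, f.f x = y
  zero : ∀ {m : ℤ} {x : A.X}, x ∈ A.gr m → g.f (f.f x) = 0
  surj : ∀ {m : ℤ} {z : C.X}, z ∈ C.gr m → ∃ y ∈ B.gr m, g.f y = z

theorem Ses.mid' {A B C : Cx K} {f : Mp A B} {g : Mp B C} (h : Ses f g) {m : ℤ} (hA : A.Ex m)
    (hC : C.Ex m) : B.Ex m := by
  intro y hy h0
  obtain ⟨z, hz, hz'⟩ := hC (g.f y) (g.mem hy) (by rw [g.comm hy, h0, map_zero])
  obtain ⟨w, hw, hw'⟩ := h.surj hz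
  have h1 : y - B.d (m + 1) w ∈ B.gr m := sub_mem hy (B.d_mem' hw)
  obtain ⟨x, hx, hx'⟩ := h.mid h1 (by rw [map_sub, ← g.comm hw, hw', hz', sub_self])
  have h2 : f.f (A.d m x) = 0 := by
    rw [← f.comm hx, hx', map_sub, h0, B.d_d' hw, sub_zero]
  obtain ⟨x', hx1, hx2⟩ := hA x hx (h.inj (A.d_mem hx) h2)
  refine ⟨w + f.f x', add_mem hw (f.mem hx1), ?_⟩
  rw [map_add, f.comm hx1, hx2, hx', add_sub_cancel]

theorem Ses.right' {A B C : Cx K} {f : Mp A B} {g : Mp B C} (h : Ses f g) {m : ℤ} (hB : B.Ex m)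
    (hA : A.Ex (m - 1)) : C.Ex m := by
  intro z hz h0
  obtain ⟨y, hy, rfl⟩ := h.surj hz
  rw [g.comm hy] at h0
  obtain ⟨x, hx, hx'⟩ := h.mid (B.d_mem hy) h0
  have h1 : f.f (A.d (m - 1) x) = 0 := by rw [← f.comm hx, hx', B.d_d hy]
  obtain ⟨x', hx1, hx2⟩ := hA x hx (h.inj (A.d_mem hx) h1)
  rw [sub_add_cancel] at hx1 hx2
  have h2 : B.d m (y - f.f x') = 0 := by
    rw [map_sub, f.comm hx1, hx2, hx', sub_self]
  obtain ⟨w, hw, hw'⟩ := hB _ (sub_mem hy (f.mem hx1)) h2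
  refine ⟨g.f w, g.mem hw, ?_⟩
  rw [g.comm hw, hw', map_sub, h.zero hx1, sub_zero]

theorem Ses.left' {A B C : Cx K} {f : Mp A B} {g : Mp B C} (h : Ses f g) {m : ℤ} (hB : B.Ex m)
    (hC : C.Ex (m + 1)) : A.Ex m := by
  intro x hx h0
  obtain ⟨y, hy, hy'⟩ := hB (f.f x) (f.mem hx) (by rw [f.comm hx, h0, map_zero])
  have h1 : C.d (m + 1) (g.f y) = 0 := by rw [g.comm hy, hy', h.zero hx]
  obtain ⟨z, hz, hz'⟩ := hC _ (g.mem hy) h1
  obtain ⟨w, hw, hw'⟩ := h.surj hz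
  have h2 : y - B.d (m + 1 + 1) w ∈ B.gr (m + 1) := sub_mem hy (B.d_mem' hw)
  obtain ⟨x', hx1, hx2⟩ := h.mid h2 (by rw [map_sub, ← g.comm hw, hw', hz', sub_self])
  refine ⟨x', hx1, ?_⟩
  have h3 : f.f (A.d (m + 1) x' - x) = 0 := by
    rw [map_sub, ← f.comm hx1, hx2, map_sub, B.d_d' hw, sub_zero, hy', sub_self]
  exact sub_eq_zero.1 (h.inj (sub_mem (A.d_mem' hx1) hx) h3)

/-! ### cones -/

/-- the cone of a map -/
def cone {E F : Cx K} (θ : Mp E F) : Cx K where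
  X := E.X × F.X
  gr m := (E.gr (m - 1)).prod (F.gr m)
  d m := LinearMap.prod (-(E.d (m - 1)) ∘ₗ LinearMap.fst K E.X F.X)
    (θ.f ∘ₗ LinearMap.fst K E.X F.X + F.d m ∘ₗ LinearMap.snd K E.X F.X)
  d_mem {m x} h := by
    obtain ⟨h1, h2⟩ := h
    refine ⟨?_, ?_⟩
    · show -(E.d (m - 1) x.1) ∈ _
      exact neg_mem (E.d_mem h1)
    · show θ.f x.1 + F.d m x.2 ∈ _
      exact add_mem (θ.mem h1) (F.d_mem h2)
  d_d {m x} h := by
    obtain ⟨h1, h2⟩ := h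
    refine Prod.ext ?_ ?_
    · show -(E.d (m - 1 - 1) (-(E.d (m - 1) x.1))) = 0
      rw [map_neg, E.d_d h1, neg_zero, neg_zero]
    · show θ.f (-(E.d (m - 1) x.1)) + F.d (m - 1) (θ.f x.1 + F.d m x.2) = 0
      rw [map_neg, map_add, θ.comm h1, F.d_d h2, add_zero, neg_add_cancel]

/-- the cone of `θ` is exact in degree `m`, in elements -/
def Z {E F : Cx K} (θ : Mp E F) (m : ℤ) : Prop :=
  ∀ x ∈ E.gr (m - 1), ∀ y ∈ F.gr m, E.d (m - 1) x = 0 → θ.f x = F.d m y →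
    ∃ x' ∈ E.gr m, ∃ y' ∈ F.gr (m + 1), E.d m x' = x ∧ y = θ.f x' + F.d (m + 1) y'

theorem cone_ex_iff {E F : Cx K} (θ : Mp E F) (m : ℤ) : (cone θ).Ex m ↔ Z θ m := by
  constructor
  · intro h x hx y hy h0 h1
    obtain ⟨⟨a, b⟩, ⟨ha, hb⟩, hab⟩ := h (x, -y) ⟨hx, neg_mem hy⟩ (by
      refine Prod.ext ?_ ?_
      · show -(E.d (m - 1) x) = 0
        rw [h0, neg_zero]
      · show θ.f x + F.d m (-y) = 0
        rw [map_neg, h1, add_neg_cancel])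
    have h2 : -(E.d (m + 1 - 1) a) = x := congrArg Prod.fst hab
    have h3 : θ.f a + F.d (m + 1) b = -y := congrArg Prod.snd hab
    simp only [add_sub_cancel_right] at ha h2
    refine ⟨-a, neg_mem ha, -b, neg_mem hb, by rw [map_neg]; exact h2, ?_⟩
    rw [map_neg, map_neg, ← neg_add, h3, neg_neg]
  · rintro h ⟨x, y⟩ ⟨hx, hy⟩ h0
    have h1 : -(E.d (m - 1) x) = 0 := congrArg Prod.fst h0
    have h2 : θ.f x + F.d m y = 0 := congrArg Prod.snd h0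
    obtain ⟨a, ha, b, hb, h3, h4⟩ := h x hx (-y) (neg_mem hy) (neg_eq_zero.1 h1) (by
      rw [map_neg]; exact eq_neg_of_add_eq_zero_left h2)
    refine ⟨(-a, -b), ⟨?_, neg_mem hb⟩, Prod.ext ?_ ?_⟩
    · simp only [add_sub_cancel_right]
      exact neg_mem ha
    · show -(E.d (m + 1 - 1) (-a)) = x
      rw [add_sub_cancel_right, map_neg, neg_neg, h3]
    · show θ.f (-a) + F.d (m + 1) (-b) = y
      rw [map_neg, map_neg, ← neg_add, ← h4, neg_neg]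

/-- the map of cones -/
def coneMp {E F E' F' : Cx K} {θ : Mp E F} {θ' : Mp E' F'} (a : Mp E E') (b : Mp F F')
    (h : ∀ {m : ℤ} {x : E.X}, x ∈ E.gr m → b.f (θ.f x) = θ'.f (a.f x)) : Mp (cone θ) (cone θ') where
  f := a.f.prodMap b.f
  mem hx := ⟨a.mem hx.1, b.mem hx.2⟩
  comm {m x} hx := by
    refine Prod.ext ?_ ?_
    · show -(E'.d (m - 1) (a.f x.1)) = a.f (-(E.d (m - 1) x.1))
      rw [a.comm hx.1, map_neg]
    · show θ'.f (a.f x.1) + F'.d m (b.f x.2) = b.f (θ.f x.1 + F.d m x.2)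
      rw [map_add, h hx.1, b.comm hx.2]

theorem coneSes {A B C A' B' C' : Cx K} {α : Mp A A'} {β : Mp B B'} {γ : Mp C C'}
    {f : Mp A B} {g : Mp B C} {f' : Mp A' B'} {g' : Mp B' C'} (h : Ses f g) (h' : Ses f' g')
    (hf : ∀ {m : ℤ} {x : A.X}, x ∈ A.gr m → f'.f (α.f x) = β.f (f.f x))
    (hg : ∀ {m : ℤ} {x : B.X}, x ∈ B.gr m → g'.f (β.f x) = γ.f (g.f x)) :
    Ses (coneMp (θ := α) (θ' := β) f f' hf) (coneMp (θ := β) (θ' := γ) g g' hg) where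
  inj {m x} hx h0 := Prod.ext (h.inj hx.1 (congrArg Prod.fst h0)) (h'.inj hx.2 (congrArg Prod.snd h0))
  mid {m y} hy h0 := by
    obtain ⟨x, hx, hx'⟩ := h.mid hy.1 (congrArg Prod.fst h0)
    obtain ⟨z, hz, hz'⟩ := h'.mid hy.2 (congrArg Prod.snd h0)
    exact ⟨(x, z), ⟨hx, hz⟩, Prod.ext hx' hz'⟩
  zero hx := Prod.ext (h.zero hx.1) (h'.zero hx.2)
  surj {m z} hz := by
    obtain ⟨x, hx, hx'⟩ := h.surj hz.1
    obtain ⟨y, hy, hy'⟩ := h'.surj hz.2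
    exact ⟨(x, y), ⟨hx, hy⟩, Prod.ext hx' hy'⟩

/-- 2 of 3 for `Z`: the middle term -/
theorem Z.mid {A B C A' B' C' : Cx K} {α : Mp A A'} {β : Mp B B'} {γ : Mp C C'}
    {f : Mp A B} {g : Mp B C} {f' : Mp A' B'} {g' : Mp B' C'} (h : Ses f g) (h' : Ses f' g')
    (hf : ∀ {m : ℤ} {x : A.X}, x ∈ A.gr m → f'.f (α.f x) = β.f (f.f x))
    (hg : ∀ {m : ℤ} {x : B.X}, x ∈ B.gr m → g'.f (β.f x) = γ.f (g.f x)) {m : ℤ}
    (hα : Z α m) (hγ : Z γ m) : Z β m := by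
  rw [← cone_ex_iff] at hα hγ ⊢
  exact (coneSes h h' hf hg).mid' hα hγ

/-- 2 of 3 for `Z`: the quotient -/
theorem Z.right {A B C A' B' C' : Cx K} {α : Mp A A'} {β : Mp B B'} {γ : Mp C C'}
    {f : Mp A B} {g : Mp B C} {f' : Mp A' B'} {g' : Mp B' C'} (h : Ses f g) (h' : Ses f' g')
    (hf : ∀ {m : ℤ} {x : A.X}, x ∈ A.gr m → f'.f (α.f x) = β.f (f.f x))
    (hg : ∀ {m : ℤ} {x : B.X}, x ∈ B.gr m → g'.f (β.f x) = γ.f (g.f x)) {m : ℤ}
    (hβ : Z β m) (hα : Z α (m - 1)) : Z γ m := by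
  rw [← cone_ex_iff] at hα hβ ⊢
  exact (coneSes h h' hf hg).right' hβ hα

/-- 2 of 3 for `Z`: the submodule -/
theorem Z.left {A B C A' B' C' : Cx K} {α : Mp A A'} {β : Mp B B'} {γ : Mp C C'}
    {f : Mp A B} {g : Mp B C} {f' : Mp A' B'} {g' : Mp B' C'} (h : Ses f g) (h' : Ses f' g')
    (hf : ∀ {m : ℤ} {x : A.X}, x ∈ A.gr m → f'.f (α.f x) = β.f (f.f x))
    (hg : ∀ {m : ℤ} {x : B.X}, x ∈ B.gr m → g'.f (β.f x) = γ.f (g.f x)) {m : ℤ}
    (hβ : Z β m) (hγ : Z γ (m + 1)) : Z α m := by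
  rw [← cone_ex_iff] at hβ hγ ⊢
  exact (coneSes h h' hf hg).left' hβ hγ

end Crest.Agent.R186.TR461
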