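import Crest.Agent.R186.Res_255

/-!
Row 186 (A), helper772: the start of (TR) (306's short road).  If `X → N` is a left cell resolution
and `th : e_i A → e_j A` (left multiplication by a degree zero element) has an acyclic cone on `N`,
then it has an acyclic cone on the rows of `X`.
-/

set_option autoImplicit false
set_option linter.style.haveILetI false
set_option linter.unusedSectionVars false

open MulOpposite

namespace Crest.Agent.R186.TRin772

open Hat827 Hat827.DGA Frame515 Res255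

variable {K : Type} [Field K] {A : DGA K}

/-- the differential of the cells -/
noncomputable def dX (X : LCells A) : (X.ι →₀ A.C) →ₗ[K] (X.ι →₀ A.C) := (tG (selfR A) X).d

/-- the grading of the cells -/
noncomputable def gX (X : LCells A) (k : ℤ) : Submodule K (X.ι →₀ A.C) := (tG (selfR A) X).gr k

theorem mem_gX (X : LCells A) {k : ℤ} {x : X.ι →₀ A.C} :
    x ∈ gX X k ↔ ∀ σ, x σ ∈ A.G (k - X.s σ) ∧ x σ * X.e σ = x σ := Iff.rfl

/-- left multiplication on the cells -/
noncomputable def lX (X : LCells A) (a : A.C) : (X.ι →₀ A.C) →ₗ[K] (X.ι →₀ A.C) :=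
  Finsupp.mapRange.linearMap (LinearMap.mulLeft K a)

@[simp] theorem lX_apply (X : LCells A) (a : A.C) (x : X.ι →₀ A.C) (σ : X.ι) :
    lX X a x σ = a * x σ := rfl

theorem lX_mul (X : LCells A) (a b : A.C) (x : X.ι →₀ A.C) : lX X a (lX X b x) = lX X (a * b) x := by
  ext σ
  simp [mul_assoc]

theorem lX_mem (X : LCells A) {a : A.C} {k l : ℤ} (ha : a ∈ A.G l) {x : X.ι →₀ A.C}
    (hx : x ∈ gX X k) : lX X a x ∈ gX X (k + l) := by
  intro σ
  obtain ⟨h1, h2⟩ := hx σ
  refine ⟨?_, ?_⟩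
  · change a * x σ ∈ A.G (k + l - X.s σ)
    have := A.mul_mem ha h1
    rwa [show l + (k - (X.s σ : ℤ)) = k + l - X.s σ by ring] at this
  · change a * x σ * X.e σ = a * x σ
    change x σ * X.e σ = x σ at h2
    rw [mul_assoc, h2]

theorem lX_mem0 (X : LCells A) {a : A.C} {k : ℤ} (ha : a ∈ A.G 0) {x : X.ι →₀ A.C}
    (hx : x ∈ gX X k) : lX X a x ∈ gX X k := by
  have := lX_mem X ha hx
  rwa [add_zero] at this

theorem d_apply (X : LCells A) (x : X.ι →₀ A.C) (τ : X.ι) :
    dX X x τ = A.D (x τ) + x.sum fun σ g => g * X.c σ τ :=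
  (twG (selfR A) X).dd_apply x τ

/-- degree zero elements are cycles -/
theorem D_zero {a : A.C} (ha : a ∈ A.G 0) : A.D a = 0 := D_neg ha (by omega)

theorem lX_d (X : LCells A) {a : A.C} (ha : a ∈ A.G 0) (x : X.ι →₀ A.C) :
    dX X (lX X a x) = lX X a (dX X x) := by
  ext τ
  rw [d_apply, lX_apply, lX_apply, d_apply, A.D_mul, D_zero ha, zero_mul, zero_add, mul_add]
  congr 1
  rw [Finsupp.sum_of_support_subset (s := x.support) _ ?_ _ (fun σ _ => zero_mul _), Finsupp.sum,
    Finset.mul_sum]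
  · refine Finset.sum_congr rfl fun σ _ => ?_
    rw [lX_apply, mul_assoc]
  · intro σ hσ
    rw [Finsupp.mem_support_iff] at hσ ⊢
    intro h
    apply hσ
    rw [lX_apply, h, mul_zero]

theorem res_ex (X : LCells A) (N : LM A) (r : LRes X N) (k : ℤ) (x : X.ι →₀ A.C) (n : N.X)
    (hx : x ∈ gX X (k - 1)) (hd : dX X x = 0) (hn : n ∈ N.gr (r.lo + k))
    (h : augL X N r.v x + N.d n = 0) :
    ∃ y ∈ gX X k, ∃ n' ∈ N.gr (r.lo + k + 1), dX X y = x ∧ n = augL X N r.v y + N.d n' :=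
  r.ex k x n hx hd hn h

theorem aug_lX (X : LCells A) (N : LM A) (v : X.ι → N.X) (a : A.C) (x : X.ι →₀ A.C) :
    augL X N v (lX X a x) = a • augL X N v x := by
  have h : augL X N v ∘ₗ lX X a = lmul N a ∘ₗ augL X N v := by
    refine Finsupp.lhom_ext fun σ b => ?_
    rw [LinearMap.comp_apply, LinearMap.comp_apply, augL_single, lmul_apply]
    have : lX X a (Finsupp.single σ b) = Finsupp.single σ (a * b) := by
      simp [lX]
    rw [this, augL_single, mul_smul]
  exact LinearMap.congr_fun h x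

theorem dblN (N : LM A) (n : N.X) : n + n = 0 := by
  have : n = (1 : A.C) • n := by rw [one_smul]
  rw [this, ← add_smul, A.two, zero_smul]

theorem dblX (X : LCells A) (x : X.ι →₀ A.C) : x + x = 0 := by
  ext σ
  exact A.two _

theorem aug_mem (X : LCells A) (N : LM A) (r : LAug X N) {k : ℤ} {x : X.ι →₀ A.C}
    (hx : x ∈ gX X k) : augL X N r.v x ∈ N.gr (r.lo + k) := by
  rw [augL_apply]
  refine Submodule.sum_mem _ fun σ _ => ?_
  have := N.smul_mem (hx σ).1 (r.v_mem σ)
  rwa [show k - (X.s σ : ℤ) + (r.lo + X.s σ) = r.lo + k by ring] at this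

theorem aug_d (X : LCells A) (N : LM A) (r : LAug X N) (x : X.ι →₀ A.C) :
    augL X N r.v (dX X x) = N.d (augL X N r.v x) := by
  have h : augL X N r.v ∘ₗ dX X = N.d ∘ₗ augL X N r.v := by
    refine Finsupp.lhom_ext fun σ b => ?_
    rw [LinearMap.comp_apply, LinearMap.comp_apply, augL_single, N.leib, r.v_d]
    have h1 : dX X (Finsupp.single σ b) = Finsupp.single σ (A.D b) +
        ∑ τ ∈ X.F (X.s σ), Finsupp.single τ (b * X.c σ τ) := (twG (selfR A) X).dd_single σ b
    rw [h1, map_add, map_sum, augL_single, Finset.smul_sum]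
    congr 1
    refine Finset.sum_congr rfl fun τ _ => ?_
    rw [augL_single, mul_smul]
  exact LinearMap.congr_fun h x

/-- **the start of (TR)** -/
theorem start {X : LCells A} {N : LM A} (r : LRes X N) {th ei ej : A.C} (hth : th ∈ A.G 0)
    (hei : ei ∈ A.G 0) (hej : ej ∈ A.G 0) (hii : ei * ei = ei) (hjj : ej * ej = ej)
    (hl : ej * th = th)
    (hN : ∀ (k : ℤ) (n n1 : N.X), n ∈ N.gr k → ei • n = n → N.d n = 0 → n1 ∈ N.gr (k + 1) →
      ej • n1 = n1 → th • n = N.d n1 →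
      ∃ n' ∈ N.gr (k + 1), ei • n' = n' ∧ ∃ n1' ∈ N.gr (k + 2), ej • n1' = n1' ∧
        n = N.d n' ∧ n1 = th • n' + N.d n1')
    (k : ℤ) (x y : X.ι →₀ A.C) (hx : x ∈ gX X k) (hxi : ∀ σ, ei * x σ = x σ)
    (hdx : dX X x = 0) (hy : y ∈ gX X (k + 1))
    (hyj : ∀ σ, ej * y σ = y σ) (hxy : lX X th x = dX X y) :
    ∃ x' ∈ gX X (k + 1), (∀ σ, ei * x' σ = x' σ) ∧
      ∃ y' ∈ gX X (k + 2), (∀ σ, ej * y' σ = y' σ) ∧
        x = dX X x' ∧ y = lX X th x' + dX X y' := by
  have hxi' : lX X ei x = x := by ext σ; exact hxi σ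
  have hyj' : lX X ej y = y := by ext σ; exact hyj σ
  have e1 : ei • augL X N r.v x = augL X N r.v x := by rw [← aug_lX, hxi']
  have e2 : ej • augL X N r.v y = augL X N r.v y := by rw [← aug_lX, hyj']
  obtain ⟨n', hn', hn'i, n1', hn1', hn1'j, h1, h2⟩ := hN (r.lo + k) (augL X N r.v x)
    (augL X N r.v y) (aug_mem X N r.toLAug hx) e1
    (by rw [← aug_d, hdx, map_zero])
    (by
      have := aug_mem X N r.toLAug hy
      rwa [← add_assoc] at this) e2
    (by rw [← aug_lX, hxy, aug_d])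
  -- lift of `n'`
  obtain ⟨x0, hx0, n'', hn'', h3, h4⟩ := res_ex X N r (k + 1) x n'
    (by rwa [add_sub_cancel_right]) hdx
    (by rwa [← add_assoc]) (by rw [h1]; exact dblN N _)
  have hx0' : lX X ei x0 ∈ gX X (k + 1) := lX_mem0 X hei hx0
  have h3' : dX X (lX X ei x0) = x := by rw [lX_d X hei, h3, hxi']
  have h4' : n' = augL X N r.v (lX X ei x0) + N.d (ei • n'') := by
    rw [aug_lX, N.leib, D_zero hei, zero_smul, zero_add, ← smul_add, ← h4, hn'i]
  -- the cycle `z`
  have hz : y + lX X th (lX X ei x0) ∈ gX X (k + 1) :=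
    Submodule.add_mem _ hy (lX_mem0 X hth hx0')
  have hdz : dX X (y + lX X th (lX X ei x0)) = 0 := by
    rw [map_add, lX_d X hth, h3', ← hxy]
    exact dblX X _
  have haz : augL X N r.v (y + lX X th (lX X ei x0)) + N.d (n1' + th • (ei • n'')) = 0 := by
    rw [map_add, h2, aug_lX, map_add N.d, N.leib th, D_zero hth, zero_smul, zero_add]
    have h5 : th • n' = th • augL X N r.v (lX X ei x0) + th • N.d (ei • n'') := by
      rw [← smul_add, ← h4']
    rw [h5]
    have h6 := dblN N (th • augL X N r.v (lX X ei x0))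
    have h7 := dblN N (th • N.d (ei • n''))
    have h8 := dblN N (N.d n1')
    calc th • augL X N r.v (lX X ei x0) + th • N.d (ei • n'') + N.d n1' +
          th • augL X N r.v (lX X ei x0) + (N.d n1' + th • N.d (ei • n''))
        = (th • augL X N r.v (lX X ei x0) + th • augL X N r.v (lX X ei x0)) +
          (th • N.d (ei • n'') + th • N.d (ei • n'')) + (N.d n1' + N.d n1') := by abel
      _ = 0 := by rw [h6, h7, h8, add_zero, add_zero]
  have hmm : n1' + th • (ei • n'') ∈ N.gr (r.lo + (k + 2)) := by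
    refine Submodule.add_mem _ ?_ ?_
    · rwa [← add_assoc]
    · have h9 := N.smul_mem hth (N.smul_mem hei hn'')
      rw [zero_add, zero_add] at h9
      rwa [show r.lo + (k + 1) + 1 = r.lo + (k + 2) by ring] at h9
  obtain ⟨y0, hy0, n3, -, h10, -⟩ := res_ex X N r (k + 2) (y + lX X th (lX X ei x0))
    (n1' + th • (ei • n'')) (by rwa [show k + 2 - 1 = k + 1 by ring]) hdz hmm haz
  have hthj : lX X ej (lX X th (lX X ei x0)) = lX X th (lX X ei x0) := by rw [lX_mul, hl]
  refine ⟨lX X ei x0, hx0', fun σ => ?_, lX X ej y0, lX_mem0 X hej hy0, fun σ => ?_, h3'.symm, ?_⟩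
  · rw [lX_apply, ← mul_assoc, hii]
  · rw [lX_apply, ← mul_assoc, hjj]
  · rw [lX_d X hej, h10, map_add, hyj', hthj]
    rw [add_comm y, ← add_assoc, dblX, zero_add]

/-- the hypothesis for an honest module in degree zero -/
theorem honest (N : LM A) (hd : ∀ n, N.d n = 0) (h0 : ∀ k : ℤ, k ≠ 0 → N.gr k = ⊥) {th ei ej : A.C}
    (hinj : ∀ n ∈ N.gr 0, ei • n = n → th • n = 0 → n = 0)
    (hsur : ∀ n ∈ N.gr 0, ej • n = n → ∃ n' ∈ N.gr 0, ei • n' = n' ∧ th • n' = n)
    (k : ℤ) (n n1 : N.X) (hn : n ∈ N.gr k) (hni : ei • n = n) (_ : N.d n = 0)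
    (hn1 : n1 ∈ N.gr (k + 1)) (hn1j : ej • n1 = n1) (h : th • n = N.d n1) :
    ∃ n' ∈ N.gr (k + 1), ei • n' = n' ∧ ∃ n1' ∈ N.gr (k + 2), ej • n1' = n1' ∧
      n = N.d n' ∧ n1 = th • n' + N.d n1' := by
  have hnz : n = 0 := by
    by_cases hk : k = 0
    · subst hk
      exact hinj n hn hni (by rw [h, hd])
    · rw [h0 k hk] at hn
      exact (Submodule.mem_bot K).1 hn
  by_cases hk : k + 1 = 0
  · rw [hk] at hn1 ⊢
    obtain ⟨n', hn', h1, h2⟩ := hsur n1 hn1 hn1j
    refine ⟨n', hn', h1, 0, Submodule.zero_mem _, smul_zero _, ?_, ?_⟩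
    · rw [hnz, hd]
    · rw [h2, map_zero, add_zero]
  · have : n1 = 0 := by
      rw [h0 _ hk] at hn1
      exact (Submodule.mem_bot K).1 hn1
    refine ⟨0, Submodule.zero_mem _, smul_zero _, 0, Submodule.zero_mem _, smul_zero _, ?_, ?_⟩
    · rw [hnz, map_zero]
    · rw [this, smul_zero, map_zero, add_zero]

end Crest.Agent.R186.TRin772
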