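import Crest.Agent.R186.TR_810
import Crest.Agent.R186.TRin_772

/-!
Row 186 (A), helper461: the start of (TR) of 306's short road (#34919) in 810's form.

`gamC` : `X → N` a cell resolution (255's `LRes`) over the window algebra of `w`, `o, o'` objects at
the positions `(p, a)`, `(p, a + 1)`, the cone of `θ : e_o N → e_o' N` acyclic; then
`AcQ (Yc θ p a X) ⊤ ⊥ n` for all `n`.
`gamH` : the same for `N` in degree `0`, `θ : e_o N → e_o' N` bijective.
-/

set_option autoImplicit false
set_option linter.style.haveILetI false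
set_option linter.unusedSectionVars false

open MulOpposite

namespace Crest.Agent.R186.TRg461

open Hat827 Hat827.DGA Frame515 Res255 Win810 TR810 TRin772

variable {K : Type} [Field K] {w : WD K}

/-! ### rows of the window algebra -/

theorem mr_mem {o : w.Ob} {f : w.Ob → w.S} {c : ℤ} (h : ∀ j, f j ∈ w.q o j c) :
    (Matrix.of fun i j => if i = o then f j else 0 : Matrix w.Ob w.Ob w.S) ∈ w.Win := by
  intro i j
  change (if i = o then f j else 0) ∈ _
  split_ifs with hi
  · subst hi
    exact WD.q_le _ _ c (h j)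
  · exact Submodule.zero_mem _

/-- the element of the window algebra with one row -/
def wr (o : w.Ob) (f : w.Ob → w.S) (c : ℤ) (h : ∀ j, f j ∈ w.q o j c) : w.Win :=
  ⟨Matrix.of fun i j => if i = o then f j else 0, mr_mem h⟩

theorem wr_val (o : w.Ob) (f : w.Ob → w.S) (c : ℤ) (h : ∀ j, f j ∈ w.q o j c) (i j : w.Ob) :
    (wr o f c h).1 i j = if i = o then f j else 0 := rfl

theorem wr_G (o : w.Ob) (f : w.Ob → w.S) (c : ℤ) (h : ∀ j, f j ∈ w.q o j c) :
    wr o f c h ∈ w.G c := by
  intro i j
  rw [wr_val]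
  split_ifs with hi
  · subst hi
    exact h j
  · exact Submodule.zero_mem _

theorem wr_mul (o : w.Ob) (f : w.Ob → w.S) (c : ℤ) (h : ∀ j, f j ∈ w.q o j c) (m : w.Win)
    (i j : w.Ob) : (wr o f c h * m).1 i j = if i = o then ∑ l, f l * m.1 l j else 0 := by
  change ((wr o f c h).1 * m.1) i j = _
  rw [Matrix.mul_apply]
  split_ifs with hi
  · exact Finset.sum_congr rfl fun l _ => by rw [wr_val, if_pos hi]
  · exact Finset.sum_eq_zero fun l _ => by rw [wr_val, if_neg hi, zero_mul]

theorem ws_mul (a b : w.Ob) (s : w.S) (h : s ∈ w.E a b) (m : w.Win) (i j : w.Ob) :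
    (WD.ws a b s h * m).1 i j = if a = i then s * m.1 b j else 0 := by
  change (Matrix.single a b s * m.1) i j = _
  rw [Matrix.mul_apply]
  split_ifs with hi
  · subst hi
    rw [Finset.sum_eq_single b]
    · rw [Matrix.single_apply, if_pos ⟨rfl, rfl⟩]
    · intro l _ hl
      rw [Matrix.single_apply, if_neg (fun h => hl h.2.symm), zero_mul]
    · intro h
      exact absurd (Finset.mem_univ _) h
  · refine Finset.sum_eq_zero fun l _ => ?_
    rw [Matrix.single_apply, if_neg (fun h => hi h.1), zero_mul]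

/-- the idempotent of an object -/
def we (o : w.Ob) : w.dga.C := WD.ws o o 1 (WD.q_le o o 0 (WD.q_one o))

theorem th_E (θ : Th w) {o o' : w.Ob} (hP : w.P o' = w.P o) (hA : w.A o' = w.A o + 1) :
    θ.t ∈ w.E o' o :=
  WD.q_le o' o 0 (pc_cast θ.mem (by rw [hP]; ring) (by rw [hA]; ring) rfl)

/-- the one entry matrix of `θ` -/
def wth (θ : Th w) (o o' : w.Ob) (hP : w.P o' = w.P o) (hA : w.A o' = w.A o + 1) : w.dga.C :=
  WD.ws o' o θ.t (th_E θ hP hA)

theorem we_G (o : w.Ob) : we o ∈ w.dga.G 0 := by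
  intro i j
  change Matrix.single o o (1 : w.S) i j ∈ _
  rw [Matrix.single_apply]
  split_ifs with h
  · obtain ⟨rfl, rfl⟩ := h
    exact WD.q_one _
  · exact Submodule.zero_mem _

theorem wth_G (θ : Th w) {o o' : w.Ob} (hP : w.P o' = w.P o) (hA : w.A o' = w.A o + 1) :
    wth θ o o' hP hA ∈ w.dga.G 0 := by
  intro i j
  change Matrix.single o' o θ.t i j ∈ _
  rw [Matrix.single_apply]
  split_ifs with h
  · obtain ⟨rfl, rfl⟩ := h
    exact pc_cast θ.mem (by rw [hP]; ring) (by rw [hA]; ring) rfl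
  · exact Submodule.zero_mem _

theorem we_mul (o : w.Ob) (m : w.dga.C) (i j : w.Ob) :
    ((we o * m : w.dga.C) : w.Win).1 i j = if o = i then (m : w.Win).1 o j else 0 := by
  have h := ws_mul o o 1 (WD.q_le o o 0 (WD.q_one o)) m i j
  rw [one_mul] at h
  exact h

theorem wth_mul (θ : Th w) {o o' : w.Ob} (hP : w.P o' = w.P o) (hA : w.A o' = w.A o + 1)
    (m : w.dga.C) (i j : w.Ob) :
    ((wth θ o o' hP hA * m : w.dga.C) : w.Win).1 i j =
      if o' = i then θ.t * (m : w.Win).1 o j else 0 :=
  ws_mul o' o θ.t (th_E θ hP hA) m i j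

theorem we_we (o : w.Ob) : we o * we o = we o := by
  apply Subtype.ext
  ext i j
  refine (we_mul o (we o) i j).trans ?_
  change (if o = i then Matrix.single o o (1 : w.S) o j else 0) = Matrix.single o o (1 : w.S) i j
  rw [Matrix.single_apply, Matrix.single_apply]
  by_cases h1 : o = i <;> by_cases h2 : o = j <;> simp [h1, h2]

theorem we_wth (θ : Th w) {o o' : w.Ob} (hP : w.P o' = w.P o) (hA : w.A o' = w.A o + 1) :
    we o' * wth θ o o' hP hA = wth θ o o' hP hA := by
  apply Subtype.ext
  ext i j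
  refine (we_mul o' (wth θ o o' hP hA) i j).trans ?_
  change (if o' = i then Matrix.single o' o θ.t o' j else 0) = Matrix.single o' o θ.t i j
  rw [Matrix.single_apply, Matrix.single_apply]
  by_cases h1 : o' = i <;> by_cases h2 : o = j <;> simp [h1, h2]

/-! ### the translation -/

section tr

variable (θ : Th w) (X : LCells w.dga) {o o' : w.Ob}

theorem mem_Yc {p a k : ℤ} {x : X.ι →₀ CR w} : x ∈ (Yc θ p a X).gr k ↔
    ∀ σ, x σ ∈ grC w p a (k - X.s σ) ∧ op (X.e σ) • x σ = x σ := Iff.rfl

theorem Yc_d {p a : ℤ} (x : X.ι →₀ CR w) (τ : X.ι) (β : Bool) (j : w.Ob)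
    (S : Finset X.ι) (hS : x.support ⊆ S) :
    (show X.ι →₀ CR w from (Yc θ p a X).d x) τ β j =
      w.D (x τ β j) + tb θ.t β * x τ false j +
        ∑ σ ∈ S, ∑ l, x σ β l * (X.c σ τ : w.Win).1 l j := by
  have h := (twG (CRM θ p a) X).dd_apply' x S hS τ
  have h2 : (show X.ι →₀ CR w from (Yc θ p a X).d x) τ =
      (show CR w from (CRM θ p a).d (x τ)) + ∑ σ ∈ S, (show CR w from op (X.c σ τ) • x σ) := h
  rw [h2, CR.add_apply, CR.sum_apply]
  rfl

theorem dX_val (u : X.ι →₀ w.dga.C) (τ : X.ι) (i j : w.Ob) (S : Finset X.ι) (hS : u.support ⊆ S) :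
    (dX X u τ : w.Win).1 i j = w.D ((u τ : w.Win).1 i j) +
      ∑ σ ∈ S, ∑ l, (u σ : w.Win).1 i l * (X.c σ τ : w.Win).1 l j := by
  have h : dX X u τ = w.dga.D (u τ) + ∑ σ ∈ S, u σ * X.c σ τ :=
    (twG (selfR w.dga) X).dd_apply' u S hS τ
  let φ : w.dga.C →+ w.S :=
    { toFun := fun m => (m : w.Win).1 i j, map_zero' := rfl, map_add' := fun _ _ => rfl }
  have h2 := congrArg φ h
  rw [map_add, map_sum] at h2
  exact h2

/-- **the start of (TR), 810's form** -/
theorem gamC {N : LM w.dga} (r : LRes X N) (hP : w.P o' = w.P o) (hA : w.A o' = w.A o + 1)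
    (hN : ∀ (k : ℤ) (n n1 : N.X), n ∈ N.gr k → we o • n = n → N.d n = 0 → n1 ∈ N.gr (k + 1) →
      we o' • n1 = n1 → wth θ o o' hP hA • n = N.d n1 →
      ∃ n' ∈ N.gr (k + 1), we o • n' = n' ∧ ∃ n1' ∈ N.gr (k + 2), we o' • n1' = n1' ∧
        n = N.d n' ∧ n1 = wth θ o o' hP hA • n' + N.d n1') (n : ℤ) :
    AcQ (Yc θ (w.P o) (w.A o) X) ⊤ ⊥ n := by
  classical
  intro x hx _ hdx
  rw [Submodule.mem_bot] at hdx
  have hdx' : ∀ τ β j, w.D ((show X.ι →₀ CR w from x) τ β j) +
      tb θ.t β * (show X.ι →₀ CR w from x) τ false j +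
        ∑ σ ∈ (show X.ι →₀ CR w from x).support, ∑ l, (show X.ι →₀ CR w from x) σ β l *
          (X.c σ τ : w.Win).1 l j = 0 := by
    intro τ β j
    rw [← Yc_d θ X (p := w.P o) (a := w.A o) x τ β j _ (Finset.Subset.refl _)]
    rw [show (show X.ι →₀ CR w from (Yc θ (w.P o) (w.A o) X).d x) = 0 from hdx]
    rfl
  have hx' := (mem_Yc θ X).1 hx
  -- the two rows
  have h0 : ∀ σ j, (show X.ι →₀ CR w from x) σ false j ∈ w.q o j (n - 1 - X.s σ) := fun σ j =>
    pc_cast ((hx' σ).1 false j) rfl (by simp only [ab]; ring) (by simp only [cb]; ring)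
  have h1 : ∀ σ j, (show X.ι →₀ CR w from x) σ true j ∈ w.q o' j (n - 1 + 1 - X.s σ) := fun σ j =>
    pc_cast ((hx' σ).1 true j) (by rw [hP]) (by rw [hA]; simp only [ab])
      (by simp only [cb]; ring)
  let u : X.ι →₀ w.dga.C := Finsupp.onFinset (show X.ι →₀ CR w from x).support
    (fun σ => wr o ((show X.ι →₀ CR w from x) σ false) _ (h0 σ)) (by
      intro σ hσ
      rw [Finsupp.mem_support_iff]
      intro h
      apply hσ
      apply Subtype.ext
      ext i j
      rw [wr_val, h]
      change (if i = o then (0 : w.S) else 0) = 0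
      rw [ite_self])
  let v : X.ι →₀ w.dga.C := Finsupp.onFinset (show X.ι →₀ CR w from x).support
    (fun σ => wr o' ((show X.ι →₀ CR w from x) σ true) _ (h1 σ)) (by
      intro σ hσ
      rw [Finsupp.mem_support_iff]
      intro h
      apply hσ
      apply Subtype.ext
      ext i j
      rw [wr_val, h]
      change (if i = o' then (0 : w.S) else 0) = 0
      rw [ite_self])
  have hu : ∀ σ i j, (u σ : w.Win).1 i j =
      if i = o then (show X.ι →₀ CR w from x) σ false j else 0 := fun σ i j => rfl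
  have hv : ∀ σ i j, (v σ : w.Win).1 i j =
      if i = o' then (show X.ι →₀ CR w from x) σ true j else 0 := fun σ i j => rfl
  have us : u.support ⊆ (show X.ι →₀ CR w from x).support := Finsupp.support_onFinset_subset
  have vs : v.support ⊆ (show X.ι →₀ CR w from x).support := Finsupp.support_onFinset_subset
  have hug : u ∈ gX X (n - 1) := by
    intro σ
    refine ⟨wr_G _ _ _ (h0 σ), ?_⟩
    change u σ * X.e σ = u σ
    apply Subtype.ext
    ext i j
    have e1 : (u σ * X.e σ : w.Win).1 i j = _ := wr_mul o _ _ (h0 σ) (X.e σ) i j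
    rw [show ((u σ * X.e σ : w.dga.C) : w.Win).1 i j = _ from e1, hu]
    split_ifs with hi
    · have e2 := congrFun (congrFun (hx' σ).2 false) j
      exact e2
    · rfl
  have hvg : v ∈ gX X (n - 1 + 1) := by
    intro σ
    refine ⟨wr_G _ _ _ (h1 σ), ?_⟩
    change v σ * X.e σ = v σ
    apply Subtype.ext
    ext i j
    have e1 : (v σ * X.e σ : w.Win).1 i j = _ := wr_mul o' _ _ (h1 σ) (X.e σ) i j
    rw [show ((v σ * X.e σ : w.dga.C) : w.Win).1 i j = _ from e1, hv]
    split_ifs with hi
    · have e2 := congrFun (congrFun (hx' σ).2 true) j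
      exact e2
    · rfl
  have heu : ∀ σ, we o * u σ = u σ := by
    intro σ
    apply Subtype.ext
    ext i j
    rw [show ((we o * u σ : w.dga.C) : w.Win).1 i j = _ from we_mul o (u σ) i j, hu, hu, if_pos rfl]
    by_cases hi : o = i
    · rw [if_pos hi, if_pos hi.symm]
    · rw [if_neg hi, if_neg (fun h => hi h.symm)]
  have hev : ∀ σ, we o' * v σ = v σ := by
    intro σ
    apply Subtype.ext
    ext i j
    rw [show ((we o' * v σ : w.dga.C) : w.Win).1 i j = _ from we_mul o' (v σ) i j, hv, hv,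
      if_pos rfl]
    by_cases hi : o' = i
    · rw [if_pos hi, if_pos hi.symm]
    · rw [if_neg hi, if_neg (fun h => hi h.symm)]
  have hdu : dX X u = 0 := by
    ext τ
    apply Subtype.ext
    ext i j
    rw [dX_val X u τ i j _ us]
    by_cases hi : i = o
    · have := hdx' τ false j
      rw [show tb θ.t false = 0 from rfl, zero_mul, add_zero] at this
      simp only [hu, if_pos hi]
      exact this
    · simp only [hu, if_neg hi, zero_mul, Finset.sum_const_zero, map_zero, add_zero]
      rfl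
  have hdv : lX X (wth θ o o' hP hA) u = dX X v := by
    ext τ
    apply Subtype.ext
    ext i j
    rw [dX_val X v τ i j _ vs]
    rw [show ((lX X (wth θ o o' hP hA) u τ : w.dga.C) : w.Win).1 i j = _ from
      wth_mul θ hP hA (u τ) i j, hu, if_pos rfl]
    by_cases hi : i = o'
    · have := hdx' τ true j
      rw [show tb θ.t true = θ.t from rfl] at this
      simp only [hv, if_pos hi, if_pos hi.symm]
      have e2 : ∀ α β γ : w.S, α + β + γ = 0 → β = α + γ := by
        intro α β γ h
        have h3 : α + γ = (α + β + γ) + β := by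
          rw [show α + β + γ + β = α + γ + (β + β) by abel, w.two, add_zero]
        rw [h3, h, zero_add]
      exact e2 _ _ _ this
    · rw [if_neg (fun h => hi h.symm)]
      simp only [hv, if_neg hi, zero_mul, Finset.sum_const_zero, map_zero, add_zero]
  obtain ⟨x', hx', ex', y', hy', ey', e1, e2⟩ := start r (wth_G θ hP hA) (we_G o) (we_G o')
    (we_we o) (we_we o') (we_wth θ hP hA) hN (n - 1) u v hug heu hdu hvg hev hdv
  -- back
  let z : X.ι →₀ CR w := Finsupp.onFinset (x'.support ∪ y'.support)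
    (fun σ => (fun β j => match β with
      | false => (x' σ : w.Win).1 o j
      | true => (y' σ : w.Win).1 o' j : CR w)) (by
      intro σ hσ
      rw [Finset.mem_union, Finsupp.mem_support_iff, Finsupp.mem_support_iff]
      by_contra hc
      push Not at hc
      apply hσ
      ext β j
      cases β
      · change (x' σ : w.Win).1 o j = 0
        rw [hc.1]; rfl
      · change (y' σ : w.Win).1 o' j = 0
        rw [hc.2]; rfl)
  have hz0 : ∀ σ j, z σ false j = (x' σ : w.Win).1 o j := fun σ j => rfl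
  have hz1 : ∀ σ j, z σ true j = (y' σ : w.Win).1 o' j := fun σ j => rfl
  have zs : z.support ⊆ x'.support ∪ y'.support := Finsupp.support_onFinset_subset
  refine ⟨z, ?_, Submodule.mem_top, ?_⟩
  · refine (mem_Yc θ X).2 fun σ => ⟨fun β j => ?_, ?_⟩
    · cases β
      · rw [hz0]
        exact pc_cast ((hx' σ).1 o j) rfl (by simp only [ab]; ring) (by simp only [cb]; ring)
      · rw [hz1]
        exact pc_cast ((hy' σ).1 o' j) (by rw [hP]) (by rw [hA]; simp only [ab])
          (by simp only [cb]; ring)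
    · ext β j
      rw [CR.act_apply]
      cases β
      · have e3 : (x' σ * X.e σ : w.dga.C) = x' σ := (hx' σ).2
        have e4 : ((x' σ : w.Win).1 * (X.e σ : w.Win).1) o j = (x' σ : w.Win).1 o j :=
          congrFun (congrFun (congrArg Subtype.val e3) o) j
        rw [Matrix.mul_apply] at e4
        exact e4
      · have e3 : (y' σ * X.e σ : w.dga.C) = y' σ := (hy' σ).2
        have e4 : ((y' σ : w.Win).1 * (X.e σ : w.Win).1) o' j = (y' σ : w.Win).1 o' j :=
          congrFun (congrFun (congrArg Subtype.val e3) o') j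
        rw [Matrix.mul_apply] at e4
        exact e4
  · rw [Submodule.mem_bot, sub_eq_zero]
    change (show X.ι →₀ CR w from x) = (show X.ι →₀ CR w from (Yc θ (w.P o) (w.A o) X).d z)
    ext τ β j
    rw [Yc_d θ X z τ β j _ zs]
    cases β
    · rw [show tb θ.t false = 0 from rfl, zero_mul, add_zero]
      have e5 : (u τ : w.Win).1 o j = (dX X x' τ : w.Win).1 o j := by rw [e1]
      rw [hu, if_pos rfl, dX_val X x' τ o j _ Finset.subset_union_left] at e5
      exact e5
    · rw [show tb θ.t true = θ.t from rfl]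
      have e5 : (v τ : w.Win).1 o' j =
          (lX X (wth θ o o' hP hA) x' τ : w.Win).1 o' j + (dX X y' τ : w.Win).1 o' j := by
        rw [e2]; rfl
      rw [hv, if_pos rfl, dX_val X y' τ o' j _ Finset.subset_union_right,
        show ((lX X (wth θ o o' hP hA) x' τ : w.dga.C) : w.Win).1 o' j = _ from
          wth_mul θ hP hA (x' τ) o' j, if_pos rfl] at e5
      rw [e5]
      simp only [hz0, hz1]
      abel

/-- the same for a module in degree `0` -/
theorem gamH {N : LM w.dga} (r : LRes X N) (hP : w.P o' = w.P o) (hA : w.A o' = w.A o + 1)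
    (hd : ∀ n, N.d n = 0) (h0 : ∀ k : ℤ, k ≠ 0 → N.gr k = ⊥)
    (hinj : ∀ n ∈ N.gr 0, we o • n = n → wth θ o o' hP hA • n = 0 → n = 0)
    (hsur : ∀ n ∈ N.gr 0, we o' • n = n → ∃ n' ∈ N.gr 0, we o • n' = n' ∧
      wth θ o o' hP hA • n' = n) (n : ℤ) :
    AcQ (Yc θ (w.P o) (w.A o) X) ⊤ ⊥ n :=
  gamC θ X r hP hA (fun k n n1 a b c d e f => honest N hd h0 hinj hsur k n n1 a b c d e f) n

end tr

end Crest.Agent.R186.TRg461
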