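import Crest.Agent.R186.TRin_772
import Crest.Agent.R186.Res2_255
import Crest.Agent.R186.WinR_810
import Crest.Agent.R186.Cells1_221
import Crest.Agent.R186.SMp_890
import Crest.Agent.R186.TR_810

/-!
Row 186 (A), helper772: the concrete half of the start of (TR): the module `V_{-1}` over the window
of `R''` (and over every `A → L''`), and left multiplication by `h`, `theta_e` on its rows.
-/

set_option autoImplicit false
set_option linter.style.haveILetI false
set_option linter.unusedSectionVars false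

open MulOpposite

namespace Crest.Agent.R186.TRin772

open Hat827 Hat827.DGA Frame515 Res255 Win810 Win810.WD
open Crest.Agent.R186.DefsQ830 Crest.Agent.R186.VOp220 Crest.Agent.R186.Vmod220
open Crest.Agent.R186.Cells221

variable {K : Type} [Field K] (π : Par K)

theorem VR_D (n : ℤ) (a : (WR π).Win) (w : (VR π n).VM) : (WR π).DW a • w = 0 := by
  apply WMod.vext
  intro i
  have h : ∀ j : (WR π).Ob, (VR π n).rho (((WR π).DW a).1 i j) (w j).1 = 0 :=
    fun j => rep_D_zero π (a.1 i j) (w j).1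
  rw [WMod.smul_apply, Finset.sum_congr rfl fun j _ => h j, Finset.sum_const_zero]
  rfl

/-- `V_n` as a module over the strict dg algebra `L''` -/
noncomputable def VL (n : ℤ) : LM (WR π).dga :=
  letI i1 : Module (WR π).dga.C (VR π n).VM := inferInstanceAs (Module (WR π).Win (VR π n).VM)
  letI i2 : IsScalarTower K (WR π).dga.C (VR π n).VM :=
    inferInstanceAs (IsScalarTower K (WR π).Win (VR π n).VM)
  honL (WR π).dga (VR π n).VM
    (fun _ hk _ ha w => WMod.smul_pos (VR π n) hk ha w) (VR_D π n)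

theorem VL_d (n : ℤ) (x : (VL π n).X) : (VL π n).d x = 0 := rfl

theorem VL_gr (n : ℤ) {k : ℤ} (hk : k ≠ 0) : (VL π n).gr k = ⊥ := by
  change (if k = 0 then (⊤ : Submodule K (VR π n).VM) else ⊥) = ⊥
  exact if_neg hk

theorem VL_gr0 (n : ℤ) (x : (VL π n).X) : x ∈ (VL π n).gr 0 := by
  change (show (VR π n).VM from x) ∈ (if (0 : ℤ) = 0 then (⊤ : Submodule K (VR π n).VM) else ⊥)
  rw [if_pos rfl]
  exact Submodule.mem_top

/-- vertices -/
def ob (i : Fin 2) (b : Fin 4) : (WR π).Ob := (i, b)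

/-- the component at a vertex -/
noncomputable def cp (n : ℤ) (o : (WR π).Ob) (x : (VL π n).X) : Pol K :=
  ((show (VR π n).VM from x) o).1

theorem cp_smul (n : ℤ) (a : (WR π).dga.C) (x : (VL π n).X) (i : (WR π).Ob) :
    cp π n i (a • x) = ∑ j, rep π ((show (WR π).Win from a).1 i j) (cp π n j x) := rfl

/-! ### multiplication by a degree zero element on the rows of `V_{-1}` -/

theorem fin2 (i : Fin 2) : i = 0 ∨ i = 1 := by fin_cases i <;> simp

/-- the element `t` acts on `V_{-1}` at the row `1` by a nonzero scalar -/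
def NZ (t : R π) : Prop := ∃ r : K, r ≠ 0 ∧ ∀ v ∈ hom K 0, rep π t v = r • v

section core

variable {i : Fin 2} {b b' : Fin 4} {t : R π} (ht : t ∈ (WR π).E (ob π i b') (ob π i b))

theorem W_zero (b : Fin 4) {v : Pol K} (hv : v ∈ (VR π (-1)).W (ob π 0 b)) : v = 0 := by
  change v ∈ hom K (-1 + ((0 : Fin 2).val : ℤ)) at hv
  rw [hom_neg (by simp)] at hv
  exact (Submodule.mem_bot K).1 hv

theorem W_one (b : Fin 4) {v : Pol K} : v ∈ (VR π (-1)).W (ob π 1 b) ↔ v ∈ hom K 0 := by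
  change v ∈ hom K (-1 + ((1 : Fin 2).val : ℤ)) ↔ _
  have : (-1 + ((1 : Fin 2).val : ℤ)) = 0 := by norm_num
  rw [this]

theorem core_inj (hs : i = 1 → NZ π t) (x : (VR π (-1)).VM)
    (hx : (WD.e (w := WR π) (ob π i b)) • x = x)
    (h0 : (ws (w := WR π) (ob π i b') (ob π i b) t ht) • x = 0) : x = 0 := by
  have hx' := ((VR π (-1)).e_smul_iff (ob π i b) x).1 hx
  apply WMod.vext
  intro l
  by_cases hl : ob π i b = l
  · subst hl
    change (x (ob π i b)).1 = 0
    rcases fin2 i with rfl | rfl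
    · exact W_zero π b (x (ob π 0 b)).2
    · obtain ⟨r, hr, hr'⟩ := hs rfl
      have h1 := congrArg (fun y : (VR π (-1)).VM => (y (ob π 1 b')).1) h0
      have h2 := (VR π (-1)).ws_smul ht x (ob π 1 b')
      rw [if_pos rfl] at h2
      have h3 : rep π t (x (ob π 1 b)).1 = 0 := h2.symm.trans h1
      rw [hr' _ ((W_one π b).1 (x (ob π 1 b)).2)] at h3
      exact (smul_eq_zero.1 h3).resolve_left hr
  · exact hx' l hl

theorem core_sur (hs : i = 1 → NZ π t) (y : (VR π (-1)).VM)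
    (hy : (WD.e (w := WR π) (ob π i b')) • y = y) :
    ∃ x : (VR π (-1)).VM, (WD.e (w := WR π) (ob π i b)) • x = x ∧
      (ws (w := WR π) (ob π i b') (ob π i b) t ht) • x = y := by
  have hy' := ((VR π (-1)).e_smul_iff (ob π i b') y).1 hy
  rcases fin2 i with rfl | rfl
  · refine ⟨0, smul_zero _, ?_⟩
    rw [smul_zero]
    apply WMod.vext
    intro l
    by_cases hl : ob π 0 b' = l
    · subst hl
      exact (W_zero π b' (y (ob π 0 b')).2).symm
    · exact (hy' l hl).symm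
  · obtain ⟨r, hr, hr'⟩ := hs rfl
    have hm : r⁻¹ • (y (ob π 1 b')).1 ∈ (VR π (-1)).W (ob π 1 b) :=
      Submodule.smul_mem _ _ ((W_one π b).2 ((W_one π b').1 (y (ob π 1 b')).2))
    refine ⟨(VR π (-1)).mkV (ob π 1 b) (r⁻¹ • (y (ob π 1 b')).1) hm, ?_, ?_⟩
    · rw [(VR π (-1)).e_smul_iff]
      intro j hj
      rw [WMod.mkV_apply, if_neg hj]
    · apply WMod.vext
      intro l
      rw [(VR π (-1)).ws_smul ht]
      by_cases hl : ob π 1 b' = l
      · subst hl
        rw [if_pos rfl, WMod.mkV_apply, if_pos rfl]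
        have h1 : rep π t (r⁻¹ • (y (ob π 1 b')).1) = r⁻¹ • (r • (y (ob π 1 b')).1) :=
          (map_smul (rep π t) r⁻¹ _).trans
            (congrArg (r⁻¹ • ·) (hr' _ ((W_one π b').1 (y (ob π 1 b')).2)))
        refine h1.trans ?_
        exact (smul_smul r⁻¹ r _).trans (by rw [inv_mul_cancel₀ hr]; exact one_smul K _)
      · rw [if_neg hl]
        exact (hy' l hl).symm

end core

/-! ### the two kinds of elements -/

theorem NZ_h : NZ π (X π .h) := by
  refine ⟨1, one_ne_zero, fun v _ => ?_⟩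
  rw [one_smul, rep_X]
  rfl

/-- `theta_e = t + g^(-e-2) h` -/
noncomputable def theta (e : ℤ) : R π := tR π + (π.g ^ (-e - 2)) • X π .h

theorem NZ_theta {e : ℤ} (he : e ≠ 0) : NZ π (theta π e) := by
  have g0 := π.g0
  refine ⟨(π.g ^ 2)⁻¹ + π.g ^ (-e - 2), ?_, fun v hv => ?_⟩
  · intro h
    have h2 : (2 : K) = 0 := π.two
    have h3 : π.g ^ (-e - 2) = (π.g ^ 2)⁻¹ := by
      have h4 : (π.g ^ 2)⁻¹ + (π.g ^ 2)⁻¹ = 0 := by rw [← two_mul, h2, zero_mul]
      exact add_left_cancel (h.trans h4.symm)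
    have h5 : π.g ^ (-e) = 1 := by
      have h6 : π.g ^ (-e) = π.g ^ (-e - 2) * π.g ^ (2 : ℤ) := by
        rw [← zpow_add₀ g0, sub_add_cancel]
      rw [h6, h3, show π.g ^ (2 : ℤ) = π.g ^ 2 from by norm_cast, inv_mul_cancel₀ (pow_ne_zero 2 g0)]
    rcases lt_trichotomy e 0 with hlt | heq | hgt
    · obtain ⟨n, hn⟩ : ∃ n : ℕ, -e = n := ⟨(-e).toNat, by omega⟩
      rw [hn, zpow_natCast] at h5
      exact π.gn n (by omega) h5
    · exact he heq
    · obtain ⟨n, hn⟩ : ∃ n : ℕ, e = n := ⟨e.toNat, by omega⟩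
      rw [hn, zpow_neg, zpow_natCast, inv_eq_one] at h5
      exact π.gn n (by omega) h5
  · have h1 : rep π (tR π) v = ((π.g⁻¹) ^ (0 + 2)) • v := by
      rw [rep_tR]
      exact TT_hom π (m := 0) (by exact_mod_cast hv)
    have h2 : rep π (X π .h) v = v := by
      rw [rep_X]
      rfl
    rw [theta, map_add, LinearMap.add_apply, h1, map_smul, LinearMap.smul_apply, h2, add_smul]
    simp

theorem theta_mem (e : ℤ) : theta π e ∈ pcZ π 0 1 0 := by
  rw [show (1 : ℤ) = ((1 : ℕ) : ℤ) from rfl, show (0 : ℤ) = ((0 : ℕ) : ℤ) from rfl]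
  have := pcZ_nat π ((0 : ℕ) : ℤ) 1 0
  rw [this]
  exact Submodule.add_mem _ (tR_mem π) (Submodule.smul_mem _ _ (PBW128.X_mem_pc π .h))

theorem h_mem : X π .h ∈ pcZ π 0 1 0 := by
  rw [show (1 : ℤ) = ((1 : ℕ) : ℤ) from rfl, show (0 : ℤ) = ((0 : ℕ) : ℤ) from rfl]
  have := pcZ_nat π ((0 : ℕ) : ℤ) 1 0
  rw [this]
  exact PBW128.X_mem_pc π .h

/-! ### over an algebra mapping to `L''` -/

section gen

variable {A : DGA K} (h : Hm A (WR π).dga) {i : Fin 2} {b b' : Fin 4} {t : R π}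
  (ht : t ∈ (WR π).E (ob π i b') (ob π i b)) {th ei ej : A.C}

/-- **the hypothesis `hN` of `start` for `V_{-1}`** -/
theorem gamN (hs : i = 1 → NZ π t) (hei : h.f ei = WD.e (w := WR π) (ob π i b))
    (hej : h.f ej = WD.e (w := WR π) (ob π i b')) (hth : h.f th = ws (w := WR π) (ob π i b') (ob π i b) t ht)
    (k : ℤ) (n n1 : (resL h (VL π (-1))).X) (hn : n ∈ (resL h (VL π (-1))).gr k)
    (hni : ei • n = n) (hd : (resL h (VL π (-1))).d n = 0)
    (hn1 : n1 ∈ (resL h (VL π (-1))).gr (k + 1)) (hn1j : ej • n1 = n1)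
    (hh : th • n = (resL h (VL π (-1))).d n1) :
    ∃ n' ∈ (resL h (VL π (-1))).gr (k + 1), ei • n' = n' ∧
      ∃ n1' ∈ (resL h (VL π (-1))).gr (k + 2), ej • n1' = n1' ∧
        n = (resL h (VL π (-1))).d n' ∧ n1 = th • n' + (resL h (VL π (-1))).d n1' := by
  refine honest (resL h (VL π (-1))) (fun _ => rfl) (fun k hk => VL_gr π (-1) hk) ?_ ?_ k n n1 hn hni
    hd hn1 hn1j hh
  · intro x _ hx h0
    change h.f ei • (show (VL π (-1)).X from x) = x at hx
    change h.f th • (show (VL π (-1)).X from x) = 0 at h0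
    rw [hei] at hx
    rw [hth] at h0
    exact core_inj π ht hs x hx h0
  · intro y _ hy
    change h.f ej • (show (VL π (-1)).X from y) = y at hy
    rw [hej] at hy
    obtain ⟨x, h1, h2⟩ := core_sur π ht hs y hy
    refine ⟨x, ?_, ?_, ?_⟩
    · exact VL_gr0 π (-1) x
    · change h.f ei • (show (VL π (-1)).X from x) = x
      rw [hei]
      exact h1
    · change h.f th • (show (VL π (-1)).X from x) = y
      rw [hth]
      exact h2

end gen

/-! ### over `Gamma` -/

section gamma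

variable (s : ℕ) (hs : 2 ≤ s)

/-- `V_n` over `Gamma` -/
noncomputable def VG (n : ℤ) : LM (SM890.Gm π s hs) := resL (SM890.HmP π s hs) (VL π n)

theorem HmP_ws (i j : (WR π).Ob) (a : (SM890.bdM π s hs).ext.S)
    (ha : a ∈ (SM890.bdM π s hs).ext.E i j) (ha' : (SM890.bdM π s hs).fst a ∈ (WR π).E i j) :
    (SM890.HmP π s hs).f (ws (w := (SM890.bdM π s hs).ext) i j a ha) =
      ws (w := WR π) i j ((SM890.bdM π s hs).fst a) ha' := by
  apply Subtype.ext
  ext i' j'
  change (SM890.bdM π s hs).fst ((ws (w := (SM890.bdM π s hs).ext) i j a ha).1 i' j') =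
    (ws (w := WR π) i j ((SM890.bdM π s hs).fst a) ha').1 i' j'
  rw [ws_apply, ws_apply]
  by_cases h : i = i' ∧ j = j'
  · exact (congrArg _ (if_pos h)).trans (if_pos h).symm
  · exact (congrArg _ (if_neg h)).trans ((map_zero _).trans (if_neg h).symm)

variable (θ : TR810.Th (SM890.bdM π s hs).ext) (i : Fin 2) {b b' : Fin 4}

theorem th_q (hb : b'.val = b.val + 1) :
    θ.t ∈ (SM890.bdM π s hs).ext.q (ob π i b') (ob π i b) 0 := by
  have h := θ.mem
  have e1 : (SM890.bdM π s hs).ext.P (ob π i b') - (SM890.bdM π s hs).ext.P (ob π i b) = 0 := by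
    change ((i.val : ℕ) : ℤ) - ((i.val : ℕ) : ℤ) = 0
    ring
  have e2 : (SM890.bdM π s hs).ext.A (ob π i b') - (SM890.bdM π s hs).ext.A (ob π i b) = 1 := by
    change ((b'.val : ℕ) : ℤ) - ((b.val : ℕ) : ℤ) = 1
    omega
  unfold WD.q
  rw [e1, e2]
  exact h

/-- the one-entry matrix of `θ` -/
noncomputable def thW (hb : b'.val = b.val + 1) : (SM890.bdM π s hs).ext.Win :=
  ws (w := (SM890.bdM π s hs).ext) (ob π i b') (ob π i b) θ.t
    (q_le (w := (SM890.bdM π s hs).ext) _ _ 0 (th_q π s hs θ i hb))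

/-- **the start of (TR) over `Gamma`, rows of the window algebra** -/
theorem gam (hb : b'.val = b.val + 1) (hz : i = 1 → NZ π ((SM890.bdM π s hs).fst θ.t))
    {X : LCells (SM890.Gm π s hs)} (r : LRes X (VG π s hs (-1))) (k : ℤ)
    (x y : X.ι →₀ (SM890.Gm π s hs).C) (hx : x ∈ gX X k)
    (hxi : ∀ σ, (show (SM890.Gm π s hs).C from WD.e (w := (SM890.bdM π s hs).ext) (ob π i b)) * x σ
      = x σ)
    (hdx : dX X x = 0) (hy : y ∈ gX X (k + 1))
    (hyj : ∀ σ, (show (SM890.Gm π s hs).C from WD.e (w := (SM890.bdM π s hs).ext) (ob π i b')) *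
      y σ = y σ)
    (hxy : lX X (show (SM890.Gm π s hs).C from thW π s hs θ i hb) x = dX X y) :
    ∃ x' ∈ gX X (k + 1), (∀ σ, (show (SM890.Gm π s hs).C from
        WD.e (w := (SM890.bdM π s hs).ext) (ob π i b)) * x' σ = x' σ) ∧
      ∃ y' ∈ gX X (k + 2), (∀ σ, (show (SM890.Gm π s hs).C from
        WD.e (w := (SM890.bdM π s hs).ext) (ob π i b')) * y' σ = y' σ) ∧
        x = dX X x' ∧ y = lX X (show (SM890.Gm π s hs).C from thW π s hs θ i hb) x' + dX X y' := by
  have hm : θ.t ∈ (SM890.bdM π s hs).ext.E (ob π i b') (ob π i b) :=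
    q_le (w := (SM890.bdM π s hs).ext) _ _ 0 (th_q π s hs θ i hb)
  have hm' : (SM890.bdM π s hs).fst θ.t ∈ (WR π).E (ob π i b') (ob π i b) :=
    q_le (w := WR π) _ _ 0 ((SM890.bdM π s hs).fst_mem (th_q π s hs θ i hb))
  refine start r (th := (show (SM890.Gm π s hs).C from thW π s hs θ i hb))
    (ei := (show (SM890.Gm π s hs).C from WD.e (w := (SM890.bdM π s hs).ext) (ob π i b)))
    (ej := (show (SM890.Gm π s hs).C from WD.e (w := (SM890.bdM π s hs).ext) (ob π i b')))
    ?_ ?_ ?_ ?_ ?_ ?_ ?_ k x y hx hxi hdx hy hyj hxy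
  · exact ws_mem_G (w := (SM890.bdM π s hs).ext) (th_q π s hs θ i hb)
  · exact WD.e_mem (w := (SM890.bdM π s hs).ext) _
  · exact WD.e_mem (w := (SM890.bdM π s hs).ext) _
  · exact WD.e_mul_e (w := (SM890.bdM π s hs).ext) _
  · exact WD.e_mul_e (w := (SM890.bdM π s hs).ext) _
  · change WD.e (w := (SM890.bdM π s hs).ext) (ob π i b') * thW π s hs θ i hb = thW π s hs θ i hb
    unfold WD.e thW
    rw [ws_mul]
    apply Subtype.ext
    simp
  · refine gamN π (SM890.HmP π s hs) hm' hz ?_ ?_ ?_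
    · exact HmP_ws π s hs _ _ _ _ _
    · exact HmP_ws π s hs _ _ _ _ _
    · exact HmP_ws π s hs _ _ _ _ _

end gamma

end Crest.Agent.R186.TRin772
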