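import Crest.Agent.R186.TRg_461
import Crest.Agent.R186.TRinC_772

/-!
Row 186 (A), helper772: input (i) of 810's `TRD.main` over `Gamma`, complete: for every cell
resolution `X` of `V_{-1}` over `Gamma`, `T(cone(θ : row (i,b) → row (i,b+1)))` is acyclic.
-/

set_option autoImplicit false
set_option linter.style.haveILetI false
set_option linter.unusedSectionVars false

open MulOpposite

namespace Crest.Agent.R186.TRin772

open Hat827 Hat827.DGA Frame515 Res255 Win810 Win810.WD TR810 TRg461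
open Crest.Agent.R186.DefsQ830 Crest.Agent.R186.Vmod220

variable {K : Type} [Field K] (π : Par K) (s : ℕ) (hs : 2 ≤ s)
  (θ : Th (SM890.bdM π s hs).ext) (i : Fin 2) {b b' : Fin 4}

/-- **input (i) of (TR) over `Gamma`** -/
theorem gamma (hb : b'.val = b.val + 1) (hz : i = 1 → NZ π ((SM890.bdM π s hs).fst θ.t))
    {X : LCells (SM890.bdM π s hs).ext.dga} (r : LRes X (VG π s hs (-1))) (n : ℤ) :
    AcQ (Yc θ ((i.val : ℕ) : ℤ) ((b.val : ℕ) : ℤ) X) ⊤ ⊥ n := by
  have hP : (SM890.bdM π s hs).ext.P (ob π i b') = (SM890.bdM π s hs).ext.P (ob π i b) := rfl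
  have hA : (SM890.bdM π s hs).ext.A (ob π i b') = (SM890.bdM π s hs).ext.A (ob π i b) + 1 := by
    change ((b'.val : ℕ) : ℤ) = ((b.val : ℕ) : ℤ) + 1
    rw [hb]
    push_cast
    ring
  have hm' : (SM890.bdM π s hs).fst θ.t ∈ (WR π).E (ob π i b') (ob π i b) :=
    q_le (w := WR π) _ _ 0 ((SM890.bdM π s hs).fst_mem (th_q π s hs θ i hb))
  refine gamC θ X r hP hA (fun k x x1 h1 h2 h3 h4 h5 h6 => ?_) n
  exact gamN π (SM890.HmP π s hs) hm' hz (HmP_ws π s hs _ _ _ _ _) (HmP_ws π s hs _ _ _ _ _)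
    (HmP_ws π s hs _ _ _ _ _) k x x1 h1 h2 h3 h4 h5 h6

end Crest.Agent.R186.TRin772
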