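import Crest.Agent.R186.TR_810
import Crest.Agent.R186.SMp_890
import Crest.Agent.R186.WLF_296
import Crest.Agent.R186.KosJ_374
import Crest.Agent.R186.VQ_735

/-!
# Row 186, half (A), short road, ROW2 (helper763): the `theta` and Koszul fields of 810's `TRD` on
`w = (bdM π s hs).ext` (`S = R'' ⊕ M`)

`theta e = t + g^(-e-2) h`; `theta e * x_j = g⁻¹ x_j * theta (e - 1)`; `Tk b : Th w → Prop` =
`t = c h` or `t = c theta_e`, `e ≤ b`, `c ≠ 0`; `T0 = Tk (-2)`, `T1 = Tk (-1)`, `T2 = Tk 0`.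
The two-sided ideal `Fl 0` is `J ⊕ M`; all statements are about first components in `J π`.
-/

set_option autoImplicit false

noncomputable section

namespace Crest.Agent.R186.ThK763

open Crest.Agent.R186.DefsQ830 Crest.Agent.R186.DefsQ830.Gen Crest.Agent.R186.PBW128
open Crest.Agent.R186.Win810 Crest.Agent.R186.SM890 Crest.Agent.R186.TR810
open Crest.Agent.R186.C2b362 (J)
open Crest.Agent.R186.C2b44 (kill)
open Crest.Agent.R186.Cells221 (tR)

variable {K : Type} [Field K] (π : Par K)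

/-! ### `R''` -/

/-- `theta_e = t + g^(-e-2) h` -/
def theta (e : ℤ) : R π := tR π + π.g ^ (-e - 2) • X π .h

theorem h_pcZ : X π .h ∈ pcZ π 0 1 0 := by
  have := X_mem_pc π .h
  rw [← pcZ_nat] at this
  exact this

theorem tR_pcZ : tR π ∈ pcZ π 0 1 0 := by
  have := Cells221.tR_mem π
  rw [← pcZ_nat] at this
  exact_mod_cast this

theorem x_pcZ (j : Fin 2) : X π (.x j) ∈ pcZ π 1 0 0 := by
  have := X_mem_pc π (.x j)
  rw [← pcZ_nat] at this
  exact this

theorem theta_pcZ (e : ℤ) : theta π e ∈ pcZ π 0 1 0 :=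
  Submodule.add_mem _ (tR_pcZ π) (Submodule.smul_mem _ _ (h_pcZ π))

theorem D_h : Der580.D π (X π .h) = 0 := by
  rw [Der580.D_X]
  simp [dGen]

theorem D_x (j : Fin 2) : Der580.D π (X π (.x j)) = 0 := by
  rw [Der580.D_X]
  simp [dGen]

theorem D_theta (e : ℤ) : Der580.D π (theta π e) = 0 := by
  rw [theta, map_add, map_smul, Cells221.D_tR, D_h, smul_zero, add_zero]

theorem h_x (j : Fin 2) : X π .h * X π (.x j) = X π (.x j) * X π .h := Der580.h_comm π _

/-- `t x_j = g⁻¹ x_j t` -/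
theorem t_x (j : Fin 2) : tR π * X π (.x j) = π.g⁻¹ • (X π (.x j) * tR π) := by
  rw [VQ735.x_tR, smul_smul, inv_mul_cancel₀ π.g0, one_smul]

/-- `theta_e x_j = g⁻¹ x_j theta_(e-1)` -/
theorem theta_x (e : ℤ) (j : Fin 2) :
    theta π e * X π (.x j) = X π (.x j) * (π.g⁻¹ • theta π (e - 1)) := by
  rw [theta, theta, add_mul, smul_mul_assoc, t_x, h_x, mul_smul_comm, mul_add, smul_add,
    mul_smul_comm, smul_smul]
  congr 2
  rw [show -(e - 1) - 2 = (-e - 2) + 1 by ring, zpow_add_one₀ π.g0]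
  field_simp [π.g0]

theorem theta_wq (e : ℤ) (q : Wb) : theta π e * wq π q = wq π q * theta π e := by
  rw [theta, add_mul, mul_add, smul_mul_assoc, mul_smul_comm, WLF296.h_wq, WLF296.t_wq]

theorem tau_h (t : Tor K) : tau π t (X π .h) = X π .h := by
  rw [tau_X]
  simp [tw]

theorem tau_tR (t : Tor K) : tau π t (tR π) = tR π := by
  have h0 := t.h0
  have h1 := t.h1
  simp only [tR, map_add, map_smul, map_mul, tau_X, tw, if_true,
    if_neg (show ¬ ((1 : Fin 2) = 0) by decide), one_smul, smul_mul_smul_comm,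
    inv_mul_cancel₀ h0, inv_mul_cancel₀ h1]

theorem tau_theta (t : Tor K) (e : ℤ) : tau π t (theta π e) = theta π e := by
  rw [theta, map_add, map_smul, tau_tR, tau_h]

theorem kill_theta (e : ℤ) : kill π (theta π e) = theta π e := by
  rw [theta, map_add, map_smul, C2b44.kill_tR, C2b44.kill_h]

/-! ### the extension -/

variable (s : ℕ) (hs : 2 ≤ s)

/-- the window data -/
abbrev wS : WD K := (bdM π s hs).ext

/-- inclusion of `R''` -/
abbrev il (r : R π) : (wS π s hs).S := (bdM π s hs).inl r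

/-- inclusion of `M` -/
abbrev ir (m : MM π) : (wS π s hs).S := (bdM π s hs).inr m

theorem il_mul (a b : R π) : il π s hs (a * b) = il π s hs a * il π s hs b :=
  map_mul (bdM π s hs).inl a b

theorem il_zero : il π s hs 0 = 0 := map_zero (bdM π s hs).inl

theorem il_smul (c : K) (r : R π) : il π s hs (c • r) = c • il π s hs r :=
  map_smul (bdM π s hs).inl c r

theorem il_D (r : R π) : (wS π s hs).D (il π s hs r) = il π s hs (Der580.D π r) :=
  (bdM π s hs).D_inl r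

theorem il_pc {P A C : ℤ} {r : R π} (h : r ∈ pcZ π P A C) : il π s hs r ∈ (wS π s hs).pc P A C :=
  (bdM π s hs).inl_mem h

/-- first component -/
def fi : (wS π s hs).S →ₗ[K] R π := (bdM π s hs).fst.toLinearMap

theorem fi_apply (z : (wS π s hs).S) : fi π s hs z = z.1 := rfl

theorem fi_mul (a b : (wS π s hs).S) : fi π s hs (a * b) = fi π s hs a * fi π s hs b := rfl

@[simp] theorem fi_il (r : R π) : fi π s hs (il π s hs r) = r := rfl

@[simp] theorem fi_ir (m : MM π) : fi π s hs (ir π s hs m) = 0 := rfl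

theorem fi_D (z : (wS π s hs).S) : fi π s hs ((wS π s hs).D z) = Der580.D π (fi π s hs z) := rfl

theorem fi_mem {P A C : ℤ} {z : (wS π s hs).S} (h : z ∈ (wS π s hs).pc P A C) :
    fi π s hs z ∈ pcZ π P A C := h.1

/-- `c • h`, as an element of `Th` -/
def thH (c : K) : Th (wS π s hs) where
  t := c • il π s hs (X π .h)
  mem := Submodule.smul_mem _ _ (il_pc π s hs (h_pcZ π))
  D0 := by rw [map_smul, il_D, D_h, il_zero, smul_zero]

/-- `c • theta_e`, as an element of `Th` -/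
def thE (c : K) (e : ℤ) : Th (wS π s hs) where
  t := c • il π s hs (theta π e)
  mem := Submodule.smul_mem _ _ (il_pc π s hs (theta_pcZ π e))
  D0 := by rw [map_smul, il_D, D_theta, il_zero, smul_zero]

/-- allowed elements -/
def Tk (b : ℤ) (θ : Th (wS π s hs)) : Prop :=
  ∃ c : K, c ≠ 0 ∧ (θ.t = c • il π s hs (X π .h) ∨ ∃ e : ℤ, e ≤ b ∧ θ.t = c • il π s hs (theta π e))

variable {π s hs}

theorem Tk_mono {b b' : ℤ} (h : b ≤ b') {θ : Th (wS π s hs)} (hθ : Tk π s hs b θ) :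
    Tk π s hs b' θ := by
  obtain ⟨c, hc, h1 | ⟨e, he, h1⟩⟩ := hθ
  · exact ⟨c, hc, Or.inl h1⟩
  · exact ⟨c, hc, Or.inr ⟨e, he.trans h, h1⟩⟩

theorem Tk_H (b : ℤ) {c : K} (hc : c ≠ 0) : Tk π s hs b (thH π s hs c) := ⟨c, hc, Or.inl rfl⟩

theorem Tk_E {b e : ℤ} (he : e ≤ b) {c : K} (hc : c ≠ 0) : Tk π s hs b (thE π s hs c e) :=
  ⟨c, hc, Or.inr ⟨e, he, rfl⟩⟩

/-- allowed elements commute with `wq q` -/
theorem th_wq {b : ℤ} {θ : Th (wS π s hs)} (hθ : Tk π s hs b θ) (q : Wb) :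
    θ.t * il π s hs (wq π q) = il π s hs (wq π q) * θ.t := by
  obtain ⟨c, _, h1 | ⟨e, _, h1⟩⟩ := hθ
  · rw [h1, smul_mul_assoc, mul_smul_comm, ← il_mul, ← il_mul, WLF296.h_wq]
  · rw [h1, smul_mul_assoc, mul_smul_comm, ← il_mul, ← il_mul, theta_wq]

theorem il_ir_comm {r : R π} (hr : ∀ t : Tor K, tau π t r = r) (q : Wb) :
    il π s hs r * ir π s hs (oM π q 1) = ir π s hs (oM π q 1) * il π s hs r := by
  refine ((bdM π s hs).inl_mul_inr r (oM π q 1)).trans
    (Eq.trans ?_ ((bdM π s hs).inr_mul_inl (oM π q 1) r).symm)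
  have e1 : (bdM π s hs).lM r (oM π q 1) = oM π q r := by
    have := smul_oM π q r 1
    rw [mul_one] at this
    exact this
  have e2 : (bdM π s hs).rM r (oM π q 1) = oM π q r := by
    have := op_smul_oM π q r 1
    rw [one_mul, hr] at this
    exact this
  exact congrArg (bdM π s hs).inr (e1.trans e2.symm)

/-- allowed elements commute with `o_q` -/
theorem th_oM {b : ℤ} {θ : Th (wS π s hs)} (hθ : Tk π s hs b θ) (q : Wb) :
    θ.t * ir π s hs (oM π q 1) = ir π s hs (oM π q 1) * θ.t := by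
  obtain ⟨c, _, h1 | ⟨e, _, h1⟩⟩ := hθ
  · rw [h1, smul_mul_assoc, mul_smul_comm, il_ir_comm (fun t => tau_h π t)]
  · rw [h1, smul_mul_assoc, mul_smul_comm, il_ir_comm (fun t => tau_theta π t e)]

variable (π s hs)

/-- `x_j` -/
def xS (j : Fin 2) : (wS π s hs).S := il π s hs (X π (.x j))

/-- the Koszul partners -/
def kS (j : Fin 2) : (wS π s hs).S := il π s hs (X π (.x (1 - j)))

theorem kS_zero : kS π s hs 0 = il π s hs (X π (.x 1)) := rfl
theorem kS_one : kS π s hs 1 = il π s hs (X π (.x 0)) := rfl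

theorem xS_mem (j : Fin 2) : xS π s hs j ∈ (wS π s hs).pc 1 0 0 :=
  (bdM π s hs).inl_mem (x_pcZ π j)

theorem kS_mem (j : Fin 2) : kS π s hs j ∈ (wS π s hs).pc 1 0 0 :=
  (bdM π s hs).inl_mem (x_pcZ π (1 - j))

theorem xS_D (j : Fin 2) : (wS π s hs).D (xS π s hs j) = 0 := by
  rw [xS, il_D, D_x, il_zero]

theorem kS_D (j : Fin 2) : (wS π s hs).D (kS π s hs j) = 0 := by
  rw [kS, il_D, D_x, il_zero]

theorem sum_xk : ∑ j, xS π s hs j * kS π s hs j = 0 := by
  rw [Fin.sum_univ_two, kS_zero, kS_one, xS, xS, ← il_mul, ← il_mul, Der580.r_xx]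
  exact (wS π s hs).two _

variable {π s hs}

/-- allowed elements move through `x_j` -/
theorem th_x {b : ℤ} {θ : Th (wS π s hs)} (hθ : Tk π s hs b θ) : ∃ θ' : Th (wS π s hs),
    Tk π s hs (b - 1) θ' ∧ ∀ j : Fin 2, θ.t * il π s hs (X π (.x j)) = il π s hs (X π (.x j)) * θ'.t := by
  obtain ⟨c, hc, h1 | ⟨e, he, h1⟩⟩ := hθ
  · refine ⟨thH π s hs c, Tk_H _ hc, fun j => ?_⟩
    change _ = il π s hs (X π (.x j)) * (c • il π s hs (X π .h))
    rw [h1, smul_mul_assoc, mul_smul_comm, ← il_mul, ← il_mul, h_x]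
  · refine ⟨thE π s hs (c * π.g⁻¹) (e - 1), Tk_E (by omega) (mul_ne_zero hc (inv_ne_zero π.g0)),
      fun j => ?_⟩
    change _ = il π s hs (X π (.x j)) * ((c * π.g⁻¹) • il π s hs (theta π (e - 1)))
    rw [h1, smul_mul_assoc, mul_smul_comm, ← il_mul, ← il_mul, theta_x, mul_smul_comm, il_smul,
      smul_smul]

/-- field `T2x` -/
theorem T2x {θ : Th (wS π s hs)} (hθ : Tk π s hs 0 θ) : ∃ θ' : Th (wS π s hs),
    Tk π s hs (-1) θ' ∧ (∀ j, θ.t * xS π s hs j - xS π s hs j * θ'.t = 0) ∧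
    ∃ θ'' : Th (wS π s hs), Tk π s hs (-2) θ'' ∧
      ∀ j, θ'.t * kS π s hs j - kS π s hs j * θ''.t = 0 := by
  obtain ⟨θ', h1, h2⟩ := th_x hθ
  obtain ⟨θ'', h3, h4⟩ := th_x h1
  exact ⟨θ', h1, fun j => sub_eq_zero.2 (h2 j), θ'', h3, fun j => sub_eq_zero.2 (h4 (1 - j))⟩

/-- field `x_gen`, `Fl 0 = J ⊕ M` -/
theorem x_gen {P A C : ℤ} {y : (wS π s hs).S} (hP : 1 ≤ P) (hy : y ∈ (wS π s hs).pc P A C) :
    ∃ z : Fin 2 → (wS π s hs).S, (∀ j, z j ∈ (wS π s hs).pc (P - 1) A C) ∧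
      fi π s hs (y - ∑ j, xS π s hs j * z j) = 0 := by
  have h1 : fi π s hs y ∈ C2b362.pz π P A C := by
    rw [← KOS296.pcZ_eq_pz]
    exact fi_mem π s hs hy
  obtain ⟨a, ha, b, hb, e⟩ := Kos374.xl_surZ π hP h1
  rw [← KOS296.pcZ_eq_pz] at ha hb
  refine ⟨![il π s hs a, il π s hs b], ?_, ?_⟩
  · intro j
    rcases fin2 j with rfl | rfl
    · exact il_pc π s hs ha
    · exact il_pc π s hs hb
  · rw [Fin.sum_univ_two, map_sub, map_add, fi_mul, fi_mul]
    exact sub_eq_zero.2 e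

/-- field `x_ker` -/
theorem x_ker {P A C : ℤ} (z : Fin 2 → (wS π s hs).S) (hz : ∀ j, z j ∈ (wS π s hs).pc (P - 1) A C)
    (h : fi π s hs (∑ j, xS π s hs j * z j) ∈ J π) :
    ∃ c ∈ (wS π s hs).pc (P - 2) A C, ∀ j, fi π s hs (z j - kS π s hs j * c) ∈ J π := by
  have two : ∀ r : R π, r + r = 0 := Der580.add_self π
  have neg : ∀ r : R π, -r = r := fun r => neg_eq_of_add_eq_zero_left (two r)
  rw [Fin.sum_univ_two, map_add, fi_mul, fi_mul] at h
  change X π (.x 0) * fi π s hs (z 0) + X π (.x 1) * fi π s hs (z 1) ∈ J π at h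
  have h1 : fi π s hs (z 1) ∈ C2b362.pz π (P - 1) A C := by
    rw [← KOS296.pcZ_eq_pz]
    exact fi_mem π s hs (hz 1)
  have h2 : X π (.x 1) * fi π s hs (z 1) - X π (.x 0) * fi π s hs (z 0) ∈ J π := by
    rw [sub_eq_add_neg, neg, add_comm]
    exact h
  obtain ⟨c, hc, e1, e2⟩ := Kos374.jl_ker π h1 h2
  rw [← KOS296.pcZ_eq_pz] at hc
  refine ⟨il π s hs c, ?_, ?_⟩
  · have := il_pc π s hs hc
    rwa [show P - 1 - 1 = P - 2 by ring] at this
  · intro j
    rcases fin2 j with rfl | rfl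
    · rw [map_sub, fi_mul]
      exact e2
    · rw [map_sub, fi_mul]
      exact e1

/-- field `x_inj` -/
theorem x_inj {c : (wS π s hs).S} (h : fi π s hs (kS π s hs 0 * c) ∈ J π) : fi π s hs c ∈ J π := by
  rw [kS_zero, fi_mul] at h
  exact Kos374.jl_inj π 1 h

end Crest.Agent.R186.ThK763
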