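import Crest.Agent.R186.TRinD_772
import Crest.Agent.R186.ThK_763

/-!
Row 186 (A), helper772: input (i) of `TRD.main` over `Gamma` for the elements allowed by
763's `Tk`, in the two rows `0`, `1`.
-/

set_option autoImplicit false
set_option linter.style.haveILetI false
set_option linter.unusedSectionVars false

open MulOpposite

noncomputable section

namespace Crest.Agent.R186.TRin772

open Hat827 Hat827.DGA Frame515 Res255 Win810 Win810.WD TR810 TRg461
open Crest.Agent.R186.DefsQ830 Crest.Agent.R186.Vmod220 Crest.Agent.R186.VOp220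

variable {K : Type} [Field K] {π : Par K} {s : ℕ} {hs : 2 ≤ s}

theorem NZ_smul {t : R π} (ht : NZ π t) {c : K} (hc : c ≠ 0) : NZ π (c • t) := by
  obtain ⟨r, hr, h⟩ := ht
  refine ⟨c * r, mul_ne_zero hc hr, fun v hv => ?_⟩
  rw [map_smul, LinearMap.smul_apply, h v hv, smul_smul]

theorem NZ_Tk {θ : Th (SM890.bdM π s hs).ext} (h : ThK763.Tk π s hs (-1) θ) :
    NZ π ((SM890.bdM π s hs).fst θ.t) := by
  obtain ⟨c, hc, h | ⟨e, he, h⟩⟩ := h
  · have : (SM890.bdM π s hs).fst θ.t = c • X π .h := by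
      rw [h]
      rfl
    rw [this]
    exact NZ_smul (NZ_h π) hc
  · have : (SM890.bdM π s hs).fst θ.t = c • theta π e := by
      rw [h]
      rfl
    rw [this]
    exact NZ_smul (NZ_theta π (by omega)) hc

/-- row `0`: any `θ` -/
theorem row0 (θ : Th (SM890.bdM π s hs).ext) {X : LCells (SM890.bdM π s hs).ext.dga}
    (r : LRes X (VG π s hs (-1))) {b : ℕ} (hb : b < 3) (n : ℤ) :
    AcQ (Yc θ 0 (b : ℤ) X) ⊤ ⊥ n :=
  gamma π s hs θ 0 (b := ⟨b, by omega⟩) (b' := ⟨b + 1, by omega⟩) rfl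
    (fun h => absurd h (by decide)) r n

/-- row `1`: `h` and `theta_e`, `e ≤ -1` -/
theorem row1 {θ : Th (SM890.bdM π s hs).ext} (hθ : ThK763.Tk π s hs (-1) θ)
    {X : LCells (SM890.bdM π s hs).ext.dga} (r : LRes X (VG π s hs (-1))) {b : ℕ} (hb : b < 3)
    (n : ℤ) : AcQ (Yc θ 1 (b : ℤ) X) ⊤ ⊥ n :=
  gamma π s hs θ 1 (b := ⟨b, by omega⟩) (b' := ⟨b + 1, by omega⟩) rfl (fun _ => NZ_Tk hθ) r n

/-- the module `VG` with arbitrary proofs -/
theorem VG_eq (n : ℤ) (hpos) (hD) :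
    resL (SM890.HmP π s hs) (@honL K _ (WR π).dga (VR π n).VM _ _
      (inferInstanceAs (Module (WR π).Win (VR π n).VM))
      (inferInstanceAs (IsScalarTower K (WR π).Win (VR π n).VM)) hpos hD) = VG π s hs n := rfl

end Crest.Agent.R186.TRin772
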