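import Crest.Agent.R186.TRm_810
import Crest.Agent.R186.TRg_461
import Crest.Agent.R186.TRinC_772
import Crest.Agent.R186.ThK_763

/-!
Row 186 (A), helper461: the join of (TR) (306's short road #34919) over `Gamma`.

`w = (bdM π s hs).ext`, `X → V_{-1}` a left cell resolution over `Gamma`:
* `gamG` : the rows of `Gamma` (all `θ` on the rows `(0, b)`, `θ ∈ Tk (-1)` on the rows `(1, b)`);
* `trG` : (TR) for any instance `T` of 810's `TRD`, with `T.T1 ⊆ Tk (-1)`.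
-/

set_option autoImplicit false
set_option linter.style.haveILetI false
set_option linter.unusedSectionVars false

open MulOpposite

noncomputable section

namespace Crest.Agent.R186.TRj461

open Hat827 Hat827.DGA Frame515 Res255 Win810 TR810 TRin772 TRg461
open Crest.Agent.R186.DefsQ830 Crest.Agent.R186.Vmod220 Crest.Agent.R186.VOp220
open Crest.Agent.R186.SM890
open Crest.Agent.R186.ThK763 (wS Tk)

variable {K : Type} [Field K] (π : Par K) (s : ℕ) (hs : 2 ≤ s)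

variable {π s hs} in
theorem NZ_smul {t : R π} {c : K} (hc : c ≠ 0) (h : NZ π t) : NZ π (c • t) := by
  obtain ⟨r, hr, h1⟩ := h
  refine ⟨c * r, mul_ne_zero hc hr, fun v hv => ?_⟩
  have h2 : rep π (c • t) v = c • rep π t v := by
    rw [map_smul, LinearMap.smul_apply]
  rw [h2, h1 v hv, smul_smul]

variable {π s hs} in
theorem NZ_Tk {b : ℤ} (hb : b < 0) {θ : Th (wS π s hs)} (h : Tk π s hs b θ) :
    NZ π ((bdM π s hs).fst θ.t) := by
  obtain ⟨c, hc, h1 | ⟨e, he, h1⟩⟩ := h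
  · have h2 : (bdM π s hs).fst θ.t = c • X π .h := by
      rw [h1]; rfl
    rw [h2]
    exact NZ_smul hc (NZ_h π)
  · have h2 : (bdM π s hs).fst θ.t = c • TRin772.theta π e := by
      rw [h1]; rfl
    rw [h2]
    exact NZ_smul hc (NZ_theta π (by omega))

/-- **the rows of `Gamma`** -/
theorem gamG (θ : Th (wS π s hs)) (i : Fin 2) {b b' : Fin 4} (hb : b'.val = b.val + 1)
    (hz : i = 1 → NZ π ((bdM π s hs).fst θ.t)) {X : LCells (wS π s hs).dga}
    (r : LRes X (VG π s hs (-1))) (n : ℤ) :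
    AcQ (Yc θ ((i.val : ℕ) : ℤ) ((b.val : ℕ) : ℤ) X) ⊤ ⊥ n := by
  have hP : (wS π s hs).P (ob π i b') = (wS π s hs).P (ob π i b) := rfl
  have hA : (wS π s hs).A (ob π i b') = (wS π s hs).A (ob π i b) + 1 := by
    change ((b'.val : ℕ) : ℤ) = ((b.val : ℕ) : ℤ) + 1
    omega
  have hm' : (bdM π s hs).fst θ.t ∈ (WR π).E (ob π i b') (ob π i b) :=
    WD.q_le (w := WR π) _ _ 0 ((bdM π s hs).fst_mem (th_q π s hs θ i hb))
  refine gamC θ X r (o := ob π i b) (o' := ob π i b') hP hA ?_ n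
  refine gamN π (HmP π s hs) hm' hz ?_ ?_ ?_
  · exact HmP_ws π s hs _ _ _ _ _
  · exact HmP_ws π s hs _ _ _ _ _
  · exact HmP_ws π s hs _ _ _ _ _

theorem wP_le (j : (wS π s hs).Ob) : (wS π s hs).P j ≤ 1 := by
  change ((((j : DefsQ830.Ob).1).val : ℕ) : ℤ) ≤ 1
  have := (j : DefsQ830.Ob).1.2
  omega

variable {π s hs} in
/-- **(TR) over `Gamma`**, for any instance of the algebraic input -/
theorem trG (T : TRD (wS π s hs)) (hT : ∀ θ, T.T1 θ → Tk π s hs (-1) θ)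
    {X : LCells (wS π s hs).dga} (r : LRes X (VG π s hs (-1))) {b : ℕ} (hb : b < 3) :
    (∀ θ, T.T0 θ → ∀ n, AcQ (Yc θ 0 (b : ℤ) X) ⊤ (TF X (T.Fl 0)) n) ∧
      (∀ θ, T.T1 θ → ∀ n, AcQ (Yc θ 1 (b : ℤ) X) ⊤ (TF X (T.Fl 0)) n) ∧
      (∀ θ, T.T2 θ → ∀ n, AcQ (Yc θ 2 (b : ℤ) X) ⊤ (TF X (T.Fl 0)) n) := by
  refine T.main X b (wP_le π s hs) (fun θ _ n => ?_) (fun θ hθ n => ?_)
  · exact gamG π s hs θ 0 (b := ⟨b, by omega⟩) (b' := ⟨b + 1, by omega⟩) rfl
      (fun h => absurd h (by decide)) r n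
  · exact gamG π s hs θ 1 (b := ⟨b, by omega⟩) (b' := ⟨b + 1, by omega⟩) rfl
      (fun _ => NZ_Tk (by norm_num) (hT θ hθ)) r n

end Crest.Agent.R186.TRj461
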