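import Crest.Agent.R186.Opw_671
import Crest.Agent.R186.TRj_461
import Crest.Agent.R186.FinV_988

/-!
Row 186 (A), (V') (helper247): the start of (TR) over the opposite window.

* `opRes : RRes Y G → LRes Y.opL G.opL` over `opD A`; `isoRes` : transport along an isomorphism.
* `wRes : RRes Y G → LRes (cL p0 a0 Y) (gL p0 a0 G)` (671's dictionary).
* `dr_inj`, `dr_sur` : duals of bijective multiplications.
* `gamOp` : input (i) of 810's `TRD.main` over `opW Γ 1 3` for `Y → D V_{-1}`;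
  `trOp` : (TR') for any instance of `TRD (opW Γ 1 3)`.
-/

set_option autoImplicit false
set_option linter.style.haveILetI false
set_option linter.unusedSectionVars false

open MulOpposite

namespace Crest.Agent.R186.TRio247

open Hat827 Hat827.DGA Frame515 Res255 Win810 Opw671

variable {K : Type} [Field K]

/-! ### right resolutions as left resolutions over the opposite algebra -/

section opres

variable {A : DGA K} {Y : RCells A} {G : RM A}

/-- `op` -/
def opE (S : Type) [Ring S] [Algebra K S] : S →ₗ[K] Sᵐᵒᵖ where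
  toFun := op
  map_add' _ _ := rfl
  map_smul' _ _ := rfl

/-- `unop` -/
def unE (S : Type) [Ring S] [Algebra K S] : Sᵐᵒᵖ →ₗ[K] S where
  toFun := unop
  map_add' _ _ := rfl
  map_smul' _ _ := rfl

/-- `unop` on cells -/
noncomputable def uF (Y : RCells A) : (Y.ι →₀ (A.C)ᵐᵒᵖ) →ₗ[K] (Y.ι →₀ A.C) :=
  Finsupp.mapRange.linearMap (unE A.C)

/-- `op` on cells -/
noncomputable def oF (Y : RCells A) : (Y.ι →₀ A.C) →ₗ[K] (Y.ι →₀ (A.C)ᵐᵒᵖ) :=
  Finsupp.mapRange.linearMap (opE A.C)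

theorem uF_apply (x : Y.ι →₀ (A.C)ᵐᵒᵖ) (σ : Y.ι) : uF Y x σ = unop (x σ) := rfl
theorem oF_apply (x : Y.ι →₀ A.C) (σ : Y.ι) : oF Y x σ = op (x σ) := rfl

theorem uF_oF (x : Y.ι →₀ A.C) : uF Y (oF Y x) = x := by
  ext σ
  rfl

theorem oF_uF (x : Y.ι →₀ (A.C)ᵐᵒᵖ) : oF Y (uF Y x) = x := by
  ext σ
  rfl

theorem uF_supp (x : Y.ι →₀ (A.C)ᵐᵒᵖ) : (uF Y x).support ⊆ x.support :=
  Finsupp.support_mapRange (hf := map_zero _)

theorem uF_d (x : Y.ι →₀ (A.C)ᵐᵒᵖ) :
    uF Y ((tG (selfR (opD A)) Y.opL).d x) = (tY Y (selfL A)).d (uF Y x) := by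
  ext τ
  have h1 : (show Y.ι →₀ (A.C)ᵐᵒᵖ from (tG (selfR (opD A)) Y.opL).d x) τ =
      op (A.D (unop (x τ))) + ∑ σ ∈ x.support, x σ * op (Y.c τ σ) :=
    (twG (selfR (opD A)) Y.opL).dd_apply' x x.support (Finset.Subset.refl _) τ
  have h2 : (show Y.ι →₀ A.C from (tY Y (selfL A)).d (uF Y x)) τ =
      A.D (uF Y x τ) + ∑ σ ∈ x.support, Y.c τ σ * uF Y x σ :=
    (twY Y (selfL A)).dd_apply' (uF Y x) x.support (uF_supp x) τ
  have h3 : (uF Y ((tG (selfR (opD A)) Y.opL).d x)) τ =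
      unE (K := K) A.C ((show Y.ι →₀ (A.C)ᵐᵒᵖ from (tG (selfR (opD A)) Y.opL).d x) τ) := rfl
  rw [h3, h1]
  refine Eq.trans ?_ h2.symm
  rw [map_add, map_sum]
  rfl

theorem uF_mem {k : ℤ} {x : Y.ι →₀ (A.C)ᵐᵒᵖ} (hx : x ∈ (tG (selfR (opD A)) Y.opL).gr k) :
    uF Y x ∈ (tY Y (selfL A)).gr k := fun σ =>
  ⟨(hx σ).1, congrArg unop (hx σ).2⟩

theorem oF_mem {k : ℤ} {x : Y.ι →₀ A.C} (hx : x ∈ (tY Y (selfL A)).gr k) :
    oF Y x ∈ (tG (selfR (opD A)) Y.opL).gr k := fun σ =>
  ⟨(hx σ).1, congrArg op (hx σ).2⟩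

theorem aug_uF (v : Y.ι → G.X) (x : Y.ι →₀ (A.C)ᵐᵒᵖ) :
    augR Y G v (uF Y x) = augL Y.opL G.opL v x := by
  have h : augR Y G v ∘ₗ uF Y = augL Y.opL G.opL v := by
    refine Finsupp.lhom_ext fun σ b => ?_
    rw [LinearMap.comp_apply]
    have e : uF Y (Finsupp.single σ b) = Finsupp.single σ (unop b) := by
      simp [uF, unE]
    rw [e, augR_single]
    exact (augL_single Y.opL G.opL v σ b).symm
  exact LinearMap.congr_fun h x

/-- **a right resolution is a left resolution over the opposite algebra** -/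
def opRes (R : RRes Y G) : LRes Y.opL G.opL where
  lo := R.lo
  v := R.v
  v_mem := R.v_mem
  v_e := R.v_e
  v_d := R.v_d
  ex := by
    intro k x n hx hd hn ha
    obtain ⟨y, hy, n', hn', h1, h2⟩ := R.ex k (uF Y x) n (uF_mem hx)
      (by rw [← uF_d, hd]; exact map_zero _) hn (by rw [aug_uF]; exact ha)
    refine ⟨oF Y y, oF_mem hy, n', hn', ?_, ?_⟩
    · have h3 := uF_d (oF Y y)
      rw [uF_oF, h1] at h3
      have h4 := congrArg (oF Y) h3
      rw [oF_uF, oF_uF] at h4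
      exact h4
    · rw [h2, ← uF_oF y, aug_uF, uF_oF]

end opres

/-! ### transport along an isomorphism -/

section iso

variable {A B : DGA K} (h : Hm A B) (h' : Hm B A)

/-- push-forward of families -/
noncomputable def hF (X : LCells A) : (X.ι →₀ A.C) →ₗ[K] (X.ι →₀ B.C) :=
  Finsupp.mapRange.linearMap h.f.toLinearMap

theorem hF_apply (X : LCells A) (x : X.ι →₀ A.C) (σ : X.ι) : hF h X x σ = h.f (x σ) := rfl

theorem hF_d (X : LCells A) (x : X.ι →₀ A.C) :
    hF h X ((tG (selfR A) X).d x) = (tG (selfR B) (pushL h X)).d (hF h X x) := by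
  ext τ
  have h1 : (show X.ι →₀ A.C from (tG (selfR A) X).d x) τ =
      A.D (x τ) + ∑ σ ∈ x.support, x σ * X.c σ τ :=
    (twG (selfR A) X).dd_apply' x x.support (Finset.Subset.refl _) τ
  have h2 : (show X.ι →₀ B.C from (tG (selfR B) (pushL h X)).d (hF h X x)) τ =
      B.D (h.f (x τ)) + ∑ σ ∈ x.support, h.f (x σ) * h.f (X.c σ τ) :=
    (twG (selfR B) (pushL h X)).dd_apply' (hF h X x) x.support
      (Finsupp.support_mapRange (hf := map_zero _)) τ
  refine Eq.trans ?_ h2.symm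
  change h.f ((show X.ι →₀ A.C from (tG (selfR A) X).d x) τ) = _
  rw [h1, map_add, map_sum, h.D]
  congr 1
  exact Finset.sum_congr rfl fun σ _ => map_mul _ _ _

theorem hF_mem (X : LCells A) {k : ℤ} {x : X.ι →₀ A.C} (hx : x ∈ (tG (selfR A) X).gr k) :
    hF h X x ∈ (tG (selfR B) (pushL h X)).gr k := by
  intro σ
  refine ⟨h.mem (hx σ).1, ?_⟩
  have h1 : x σ * X.e σ = x σ := (hx σ).2
  change h.f (x σ) * h.f (X.e σ) = h.f (x σ)
  rw [← map_mul, h1]

variable {h h'}

/-- **transport of a resolution along an isomorphism** -/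
noncomputable def isoRes (h1 : ∀ a, h'.f (h.f a) = a) (h2 : ∀ b, h.f (h'.f b) = b)
    {X : LCells A} {N : LM A} (R : LRes X N) : LRes (pushL h X) (resL h' N) where
  lo := R.lo
  v := R.v
  v_mem := R.v_mem
  v_e σ := by
    change h'.f (h.f (X.e σ)) • R.v σ = R.v σ
    rw [h1]
    exact R.v_e σ
  v_d σ := by
    refine (R.v_d σ).trans ?_
    change ∑ τ ∈ X.F (X.s σ), X.c σ τ • R.v τ = ∑ τ ∈ X.F (X.s σ), h'.f (h.f (X.c σ τ)) • R.v τ
    exact Finset.sum_congr rfl fun τ _ => by rw [h1]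
  ex := by
    intro k x n hx hd hn ha
    let g : (X.ι →₀ B.C) →ₗ[K] (X.ι →₀ A.C) := Finsupp.mapRange.linearMap h'.f.toLinearMap
    have hg : ∀ z : X.ι →₀ B.C, hF h X (g z) = z := by
      intro z
      ext σ
      exact h2 (z σ)
    have hg' : ∀ z : X.ι →₀ A.C, g (hF h X z) = z := by
      intro z
      ext σ
      exact h1 (z σ)
    have haug : ∀ z : X.ι →₀ A.C, augL (pushL h X) (resL h' N) R.v (hF h X z) =
        augL X N R.v z := by
      intro z
      have e : augL (pushL h X) (resL h' N) R.v ∘ₗ hF h X = augL X N R.v := by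
        refine Finsupp.lhom_ext fun σ b => ?_
        have e1 : hF h X (Finsupp.single σ b) = Finsupp.single σ (h.f b) := by
          simp [hF]
        refine (congrArg (augL (pushL h X) (resL h' N) R.v) e1).trans ?_
        refine (augL_single (pushL h X) (resL h' N) R.v σ (h.f b)).trans ?_
        refine Eq.trans ?_ (augL_single X N R.v σ b).symm
        change h'.f (h.f b) • R.v σ = b • R.v σ
        rw [h1]
      exact LinearMap.congr_fun e z
    have hgx : g x ∈ (tG (selfR A) X).gr (k - 1) := by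
      intro σ
      refine ⟨h'.mem (hx σ).1, ?_⟩
      have h3 : x σ * h.f (X.e σ) = x σ := (hx σ).2
      change h'.f (x σ) * X.e σ = h'.f (x σ)
      conv_lhs => rw [← h1 (X.e σ)]
      rw [← map_mul, h3]
    obtain ⟨y, hy, n', hn', e1, e2⟩ := R.ex k (g x) n hgx (by
      have h3 : hF h X ((tG (selfR A) X).d (g x)) = 0 := by
        rw [hF_d, hg]
        exact hd
      have h4 := congrArg g h3
      rw [hg'] at h4
      exact h4.trans (map_zero g)) hn (by rw [← haug, hg]; exact ha)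
    refine ⟨hF h X y, hF_mem h X hy, n', hn', ?_, ?_⟩
    · rw [← hF_d, e1, hg]
    · rw [haug]
      exact e2

end iso

/-! ### the dictionary -/

/-- **right resolutions are left resolutions over the opposite window** -/
noncomputable def wRes {w : WD K} (p0 a0 : ℤ) {Y : RCells w.dga} {G : RM w.dga} (R : RRes Y G) :
    LRes (cL p0 a0 Y) (gL p0 a0 G) :=
  isoRes (fun a => Hpo_Hop a) (fun a => Hop_Hpo a) (opRes R)

/-! ### duals -/

section dual

open FinV988

variable {A : DGA K} {N : LM A} {th ei ej : A.C}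

theorem dr_inj (hjj : ej * ej = ej)
    (hsur : ∀ y : N.X, ej • y = y → ∃ x : N.X, ei • x = x ∧ th • x = y)
    (f : (DR N).X) (hf : op ej • f = f) (h0 : op th • f = 0) : f = 0 := by
  refine DR_ext fun y => ?_
  have h1 : dev N y f = dev N (ej • y) f := by
    conv_lhs => rw [← hf]
    rfl
  obtain ⟨x, -, hx⟩ := hsur (ej • y) (by rw [← mul_smul, hjj])
  rw [h1, ← hx]
  have h2 : dev N (th • x) f = dev N x (op th • f) := rfl
  rw [h2, h0]
  rfl

theorem dr_sur (hii : ei * ei = ei) (hjj : ej * ej = ej) (hth : ej * th = th) (hti : th * ei = th)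
    (hinj : ∀ x : N.X, ei • x = x → th • x = 0 → x = 0)
    (hsur : ∀ y : N.X, ej • y = y → ∃ x : N.X, ei • x = x ∧ th • x = y)
    (f : (DR N).X) (hf : op ei • f = f) :
    ∃ f' : (DR N).X, op ej • f' = f' ∧ op th • f' = f := by
  let Vi : Submodule K N.X := LinearMap.ker (lmul N ei - LinearMap.id)
  let Vj : Submodule K N.X := LinearMap.ker (lmul N ej - LinearMap.id)
  have mi : ∀ x, x ∈ Vi ↔ ei • x = x := by
    intro x
    rw [LinearMap.mem_ker, LinearMap.sub_apply, sub_eq_zero]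
    rfl
  have mj : ∀ x, x ∈ Vj ↔ ej • x = x := by
    intro x
    rw [LinearMap.mem_ker, LinearMap.sub_apply, sub_eq_zero]
    rfl
  let φ : Vi →ₗ[K] Vj := LinearMap.restrict (lmul N th) (p := Vi) (q := Vj) (fun x _ => by
    rw [mj]
    change ej • (th • x) = th • x
    rw [← mul_smul, hth])
  have hφ : Function.Bijective φ := by
    constructor
    · rw [← LinearMap.ker_eq_bot, LinearMap.ker_eq_bot']
      intro x hx
      apply Subtype.ext
      exact hinj x.1 ((mi _).1 x.2) (congrArg Subtype.val hx)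
    · intro y
      obtain ⟨x, h1, h2⟩ := hsur y.1 ((mj _).1 y.2)
      exact ⟨⟨x, (mi _).2 h1⟩, Subtype.ext h2⟩
  let e := LinearEquiv.ofBijective φ hφ
  let q : N.X →ₗ[K] Vj := LinearMap.codRestrict Vj (lmul N ej) (fun x => by
    rw [mj]
    change ej • (ej • x) = ej • x
    rw [← mul_smul, hjj])
  let f' : (DR N).X := (show N.X →ₗ[K] K from f) ∘ₗ Vi.subtype ∘ₗ e.symm.toLinearMap ∘ₗ q
  have hf' : ∀ v, dev N v f' = dev N (e.symm (q v)).1 f := fun v => rfl
  refine ⟨f', DR_ext fun v => ?_, DR_ext fun x => ?_⟩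
  · have h1 : dev N v (op ej • f') = dev N (ej • v) f' := rfl
    rw [h1, hf', hf']
    have h2 : q (ej • v) = q v := by
      apply Subtype.ext
      change ej • (ej • v) = ej • v
      rw [← mul_smul, hjj]
    rw [h2]
  · have h1 : dev N x (op th • f') = dev N (th • x) f' := rfl
    rw [h1, hf']
    have h2 : q (th • x) = e ⟨ei • x, (mi _).2 (by rw [← mul_smul, hii])⟩ := by
      apply Subtype.ext
      change ej • (th • x) = th • (ei • x)
      rw [← mul_smul, ← mul_smul, hth, hti]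
    rw [h2, LinearEquiv.symm_apply_apply]
    conv_rhs => rw [← hf]
    rfl

end dual

/-! ### the start -/

section start

open FinV988 TR810 TRg461 TRin772 SM890 DefsQ830 Vmod220 VOp220 WD
open Crest.Agent.R186.ThK763 (wS Tk)

theorem ws_op {w : WD K} (p0 a0 : ℤ) (i j : w.Ob) (x : (w.S)ᵐᵒᵖ)
    (h : x ∈ (opW w p0 a0).E i j) :
    (show (w.Win)ᵐᵒᵖ from (Hpo w p0 a0).f (WD.ws (w := opW w p0 a0) i j x h)) =
      op (WD.ws j i (unop x) (mem_E_opW.1 h)) := by
  apply unop_injective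
  apply Subtype.ext
  ext a b : 2
  change unop (Matrix.single i j x b a) = Matrix.single j i (unop x) a b
  rw [Matrix.single_apply, Matrix.single_apply]
  by_cases h1 : i = b ∧ j = a
  · rw [if_pos h1, if_pos ⟨h1.2, h1.1⟩]
  · rw [if_neg h1, if_neg (fun h2 => h1 ⟨h2.2, h2.1⟩)]
    rfl

variable (π : Par K) (s : ℕ) (hs : 2 ≤ s)

/-- **input (i) of (TR) over the opposite of `Gamma`**, for `Y → D V_{-1}` -/
theorem gamOp (θ : Th (opW (wS π s hs) 1 3)) (i : Fin 2) {b b' : Fin 4} (hb : b'.val = b.val + 1)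
    (hz : i = 1 → NZ π ((bdM π s hs).fst (unop θ.t)))
    {Y : RCells (wS π s hs).dga} (R : RRes Y (DR (VG π s hs (-1)))) (n : ℤ) :
    AcQ (Yc θ (1 - ((i.val : ℕ) : ℤ)) (3 - ((b'.val : ℕ) : ℤ)) (cL 1 3 Y)) ⊤ ⊥ n := by
  have hP : (opW (wS π s hs) 1 3).P (ob π i b) = (opW (wS π s hs) 1 3).P (ob π i b') := rfl
  have hA : (opW (wS π s hs) 1 3).A (ob π i b) = (opW (wS π s hs) 1 3).A (ob π i b') + 1 := by
    change (3 : ℤ) - ((b.val : ℕ) : ℤ) = 3 - ((b'.val : ℕ) : ℤ) + 1
    omega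
  -- `θ` as a degree zero element of `Gamma`
  let θ' : Th (wS π s hs) := ⟨unop θ.t, θ.mem,
    congrArg unop (show op ((wS π s hs).D (unop θ.t)) = (0 : ((wS π s hs).S)ᵐᵒᵖ) from θ.D0)⟩
  have hq := th_q π s hs θ' i hb
  have hE : θ'.t ∈ (wS π s hs).E (ob π i b') (ob π i b) := WD.q_le _ _ 0 hq
  have hm : (bdM π s hs).fst θ'.t ∈ (WR π).E (ob π i b') (ob π i b) :=
    WD.q_le (w := WR π) _ _ 0 ((bdM π s hs).fst_mem hq)
  -- the three elements of `Gamma`
  let th : (Gm π s hs).C := WD.ws (w := wS π s hs) (ob π i b') (ob π i b) θ'.t hE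
  let ei : (Gm π s hs).C := WD.e (w := wS π s hs) (ob π i b)
  let ej : (Gm π s hs).C := WD.e (w := wS π s hs) (ob π i b')
  have hii : ei * ei = ei := WD.e_mul_e (w := wS π s hs) _
  have hjj : ej * ej = ej := WD.e_mul_e (w := wS π s hs) _
  have hth : ej * th = th := by
    change WD.e (w := wS π s hs) (ob π i b') *
      WD.ws (w := wS π s hs) (ob π i b') (ob π i b) θ'.t hE = _
    unfold WD.e
    rw [WD.ws_mul]
    apply Subtype.ext
    simp
    rfl
  have hti : th * ei = th := by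
    change WD.ws (w := wS π s hs) (ob π i b') (ob π i b) θ'.t hE *
      WD.e (w := wS π s hs) (ob π i b) = _
    unfold WD.e
    rw [WD.ws_mul]
    apply Subtype.ext
    simp
    rfl
  have aei : ∀ x : (VG π s hs (-1)).X, ei • x =
      (show (VG π s hs (-1)).X from WD.e (w := WR π) (ob π i b) • (show (VR π (-1)).VM from x)) := by
    intro x
    have h := HmP_ws π s hs (ob π i b) (ob π i b) 1 (WD.q_le _ _ 0 (WD.q_one _))
      (WD.q_le (w := WR π) _ _ 0 (WD.q_one _))
    exact congrArg (fun a : (WR π).Win => (show (VG π s hs (-1)).X from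
      a • (show (VR π (-1)).VM from x))) h
  have aej : ∀ x : (VG π s hs (-1)).X, ej • x =
      (show (VG π s hs (-1)).X from WD.e (w := WR π) (ob π i b') • (show (VR π (-1)).VM from x)) := by
    intro x
    have h := HmP_ws π s hs (ob π i b') (ob π i b') 1 (WD.q_le _ _ 0 (WD.q_one _))
      (WD.q_le (w := WR π) _ _ 0 (WD.q_one _))
    exact congrArg (fun a : (WR π).Win => (show (VG π s hs (-1)).X from
      a • (show (VR π (-1)).VM from x))) h
  have ath : ∀ x : (VG π s hs (-1)).X, th • x =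
      (show (VG π s hs (-1)).X from WD.ws (w := WR π) (ob π i b') (ob π i b)
        ((bdM π s hs).fst θ'.t) hm • (show (VR π (-1)).VM from x)) := by
    intro x
    have h := HmP_ws π s hs (ob π i b') (ob π i b) θ'.t hE hm
    exact congrArg (fun a : (WR π).Win => (show (VG π s hs (-1)).X from
      a • (show (VR π (-1)).VM from x))) h
  have hinj : ∀ x : (VG π s hs (-1)).X, ei • x = x → th • x = 0 → x = 0 := by
    intro x h1 h2
    rw [aei] at h1
    rw [ath] at h2
    exact core_inj π hm hz x h1 h2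
  have hsur : ∀ y : (VG π s hs (-1)).X, ej • y = y →
      ∃ x : (VG π s hs (-1)).X, ei • x = x ∧ th • x = y := by
    intro y h1
    rw [aej] at h1
    obtain ⟨x, h2, h3⟩ := core_sur π hm hz y h1
    exact ⟨x, (aei x).trans h2, (ath x).trans h3⟩
  have hoo : ∀ (o : (wS π s hs).Ob) (F : (DR (VG π s hs (-1))).X),
      (show (gL (w := wS π s hs) 1 3 (DR (VG π s hs (-1)))).X from
        we (w := opW (wS π s hs) 1 3) o • (show (gL (w := wS π s hs) 1 3
          (DR (VG π s hs (-1)))).X from F)) =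
      (op (show (Gm π s hs).C from WD.e (w := wS π s hs) o) • F : (DR (VG π s hs (-1))).X) := by
    intro o F
    have h := ws_op (w := wS π s hs) 1 3 o o 1
      (WD.q_le (w := opW (wS π s hs) 1 3) o o 0 (WD.q_one (w := opW (wS π s hs) 1 3) o))
    exact congrArg (fun a : ((Gm π s hs).C)ᵐᵒᵖ => (a • F : (DR (VG π s hs (-1))).X)) h
  have hot : ∀ F : (DR (VG π s hs (-1))).X,
      (show (gL (w := wS π s hs) 1 3 (DR (VG π s hs (-1)))).X from
        wth θ (o := ob π i b') (o' := ob π i b) hP hA • (show (gL (w := wS π s hs) 1 3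
          (DR (VG π s hs (-1)))).X from F)) =
      (op th • F : (DR (VG π s hs (-1))).X) := by
    intro F
    have h := ws_op (w := wS π s hs) 1 3 (ob π i b) (ob π i b') θ.t
      (th_E θ (o := ob π i b') (o' := ob π i b) hP hA)
    exact congrArg (fun a : ((Gm π s hs).C)ᵐᵒᵖ => (a • F : (DR (VG π s hs (-1))).X)) h
  refine gamH θ (cL 1 3 Y) (wRes 1 3 R) (o := ob π i b') (o' := ob π i b) hP hA ?_ ?_ ?_ ?_ n
  · intro f
    refine DR_ext (Z := VG π s hs (-1)) fun z => ?_
    change (show (VG π s hs (-1)).X →ₗ[K] K from f) ((VG π s hs (-1)).d z) = 0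
    rw [show (VG π s hs (-1)).d z = 0 from rfl, map_zero]
  · intro k hk
    rw [eq_bot_iff]
    intro f hf
    rw [Submodule.mem_bot]
    refine DR_ext (Z := VG π s hs (-1)) fun z => ?_
    exact hf 0 z (VL_gr0 π (-1) z) (by omega)
  · intro f _ h1 h2
    exact dr_inj (N := VG π s hs (-1)) hjj hsur (show (DR (VG π s hs (-1))).X from f)
      ((hoo _ _).symm.trans h1) ((hot _).symm.trans h2)
  · intro f _ h1
    obtain ⟨f', h2, h3⟩ := dr_sur (N := VG π s hs (-1)) hii hjj hth hti hinj hsur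
      (show (DR (VG π s hs (-1))).X from f) ((hoo _ _).symm.trans h1)
    refine ⟨f', ?_, (hoo _ _).trans h2, (hot _).trans h3⟩
    intro l z hz hl
    have h4 : l = 0 ∨ z = 0 := by
      by_cases h5 : l = 0
      · exact Or.inl h5
      · right
        have h6 := VL_gr π (-1) h5
        have h7 : z ∈ (VL π (-1)).gr l := hz
        rw [h6] at h7
        exact (Submodule.mem_bot K).1 h7
    rcases h4 with h4 | h4
    · exact absurd h4 (by simpa using hl)
    · rw [h4, map_zero]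

/-- **(TR') : (TR) over the opposite of `Gamma`**, for any instance of 810's algebraic input whose
thetas of the row `0` act invertibly on `V_{-1}` -/
theorem trOp (T : TRD (opW (wS π s hs) 1 3))
    (hT : ∀ θ, T.T0 θ → NZ π ((bdM π s hs).fst (unop θ.t)))
    {Y : RCells (wS π s hs).dga} (R : RRes Y (DR (VG π s hs (-1)))) {a : ℕ} (ha : a < 3) :
    (∀ θ, T.T0 θ → ∀ n, AcQ (Yc θ 0 (a : ℤ) (cL 1 3 Y)) ⊤ (TF (cL 1 3 Y) (T.Fl 0)) n) ∧
      (∀ θ, T.T1 θ → ∀ n, AcQ (Yc θ 1 (a : ℤ) (cL 1 3 Y)) ⊤ (TF (cL 1 3 Y) (T.Fl 0)) n) ∧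
      (∀ θ, T.T2 θ → ∀ n, AcQ (Yc θ 2 (a : ℤ) (cL 1 3 Y)) ⊤ (TF (cL 1 3 Y) (T.Fl 0)) n) := by
  refine T.main (cL 1 3 Y) a ?_ (fun θ hθ n => ?_) (fun θ _ n => ?_)
  · intro j
    change (1 : ℤ) - ((((j : DefsQ830.Ob).1).val : ℕ) : ℤ) ≤ 1
    omega
  · have h := gamOp π s hs θ 1 (b := ⟨2 - a, by omega⟩) (b' := ⟨3 - a, by omega⟩)
      (by change 3 - a = 2 - a + 1; omega) (fun _ => hT θ hθ) R n
    have e1 : (1 : ℤ) - (((1 : Fin 2).val : ℕ) : ℤ) = 0 := by simp
    have e2 : (3 : ℤ) - (((⟨3 - a, by omega⟩ : Fin 4).val : ℕ) : ℤ) = (a : ℤ) := by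
      change (3 : ℤ) - ((3 - a : ℕ) : ℤ) = a
      omega
    rw [e1, e2] at h
    exact h
  · have h := gamOp π s hs θ 0 (b := ⟨2 - a, by omega⟩) (b' := ⟨3 - a, by omega⟩)
      (by change 3 - a = 2 - a + 1; omega) (fun h => absurd h (by decide)) R n
    have e1 : (1 : ℤ) - (((0 : Fin 2).val : ℕ) : ℤ) = 1 := by simp
    have e2 : (3 : ℤ) - (((⟨3 - a, by omega⟩ : Fin 4).val : ℕ) : ℤ) = (a : ℤ) := by
      change (3 : ℤ) - ((3 - a : ℕ) : ℤ) = a
      omega
    rw [e1, e2] at h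
    exact h

end start

end Crest.Agent.R186.TRio247
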