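import Crest.Agent.R186.TR_810

/-!
Row 186 (A) (helper301): the devissage theorem (TR) of 306 on 810's structure `TRD`
(induction on the degree), from the rows over the whole algebra.
-/

set_option autoImplicit false
set_option linter.style.haveILetI false
set_option linter.unusedSimpArgs false

open MulOpposite

namespace Crest.Agent.R186.TRm301

open Hat827 Hat827.DGA Frame515 Win810 TR810

variable {K : Type} [Field K] {w : WD K}

/-! ### linear maps on pairs of rows -/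

/-- left multiplication -/
def lc (u : w.S) : CR w →ₗ[K] CR w where
  toFun v := fun β j => u * v β j
  map_add' v v' := by
    ext β j
    exact mul_add _ _ _
  map_smul' r v := by
    ext β j
    exact mul_smul_comm _ _ _

theorem lc_apply (u : w.S) (v : CR w) (β : Bool) (j : w.Ob) : lc u v β j = u * v β j := rfl

/-- right action -/
def ra (m : w.dga.C) : CR w →ₗ[K] CR w where
  toFun v := op m • v
  map_add' v v' := smul_add _ _ _
  map_smul' r v := by
    ext β j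
    rw [CR.act_apply]
    simp only [CR.smul_apply, smul_mul_assoc, RingHom.id_apply]
    rw [← Finset.smul_sum]
    rfl

theorem ra_apply (m : w.dga.C) (v : CR w) (β : Bool) (j : w.Ob) :
    ra m v β j = ∑ l, v β l * (m : w.Win).1 l j := rfl

theorem ra_def (m : w.dga.C) (v : CR w) : ra m v = op m • v := rfl

theorem ra_lc (m : w.dga.C) (u : w.S) (v : CR w) : ra m (lc u v) = lc u (ra m v) := by
  ext β j
  rw [ra_apply, lc_apply, ra_apply, Finset.mul_sum]
  exact Finset.sum_congr rfl fun l _ => by rw [lc_apply, mul_assoc]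

theorem ra_ra (m m' : w.dga.C) (v : CR w) : ra m (ra m' v) = ra (m' * m) v := by
  rw [ra_def, ra_def, ra_def, smul_smul, ← op_mul]

theorem ra_mem {F : Submodule K w.S} (hF : ∀ (s : w.S) {a : w.S}, a ∈ F → a * s ∈ F)
    (m : w.dga.C) {v : CR w} (hv : ∀ β j, v β j ∈ F) (β : Bool) (j : w.Ob) : ra m v β j ∈ F := by
  rw [ra_apply]
  exact Submodule.sum_mem _ fun l _ => hF _ (hv β l)

theorem ra_gr {p a k : ℤ} {m : w.dga.C} (hm : m ∈ w.dga.G 0) {v : CR w} (θ : Th w)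
    (hv : v ∈ grC w p a k) : ra m v ∈ grC w p a k := by
  have := (CRM θ p a).smul_mem hm hv
  rw [zero_add] at this
  exact this

section main

variable (X : LCells w.dga)

/-- left multiplication on families -/
noncomputable def lu (u : w.S) : (X.ι →₀ CR w) →ₗ[K] (X.ι →₀ CR w) :=
  Finsupp.mapRange.linearMap (lc u)

variable {X}

theorem lu_apply (u : w.S) (x : X.ι →₀ CR w) (σ : X.ι) : lu X u x σ = lc u (x σ) := rfl

theorem lu_supp (u : w.S) (x : X.ι →₀ CR w) : (lu X u x).support ⊆ x.support :=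
  Finsupp.support_mapRange (hf := map_zero (lc u))

/-- the differential -/
noncomputable def dY (θ : Th w) : (X.ι →₀ CR w) →ₗ[K] (X.ι →₀ CR w) := (Yc θ 0 0 X).d

theorem dY_apply (θ : Th w) (x : X.ι →₀ CR w) (S : Finset X.ι) (hS : x.support ⊆ S) (τ : X.ι) :
    dY θ x τ = dC θ (x τ) + ∑ σ ∈ S, ra (X.c σ τ) (x σ) :=
  (twG (CRM θ 0 0) X).dd_apply' x S hS τ

theorem d_eq (θ : Th w) (p a : ℤ) (x : X.ι →₀ CR w) : (Yc θ p a X).d x = dY θ x := by
  refine Finsupp.ext fun τ => ?_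
  exact ((twG (CRM θ p a) X).dd_apply' x x.support (Finset.Subset.refl _) τ).trans
    (dY_apply θ x x.support (Finset.Subset.refl _) τ).symm

theorem mem_gr (θ : Th w) (p a n : ℤ) (x : X.ι →₀ CR w) : x ∈ (Yc θ p a X).gr n ↔
    ∀ σ, x σ ∈ grC w p a (n - X.s σ) ∧ ra (X.e σ) (x σ) = x σ := Iff.rfl

/-- commutation with left multiplication -/
theorem d_lu (θ θ' : Th w) (u : w.S) (x : X.ι →₀ CR w) (τ : X.ι) (β : Bool) (j : w.Ob) :
    (dY θ (lu X u x) - lu X u (dY θ' x)) τ β j =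
      w.D u * x τ β j + (tb θ.t β * u - u * tb θ'.t β) * x τ false j := by
  rw [Finsupp.sub_apply, CR.sub_apply, dY_apply θ _ x.support (lu_supp u x), lu_apply, lu_apply,
    dY_apply θ' x x.support (Finset.Subset.refl _), CR.add_apply, lc_apply, CR.add_apply,
    dC_apply, dC_apply, CR.sum_apply, CR.sum_apply, mul_add, Finset.mul_sum]
  have h : ∀ σ ∈ x.support, ra (X.c σ τ) (lu X u x σ) β j = u * ra (X.c σ τ) (x σ) β j := by
    intro σ _
    rw [lu_apply, ra_lc, lc_apply]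
  rw [Finset.sum_congr rfl h, lc_apply, lc_apply, w.D_mul, mul_add, sub_mul, mul_assoc, mul_assoc]
  abel

theorem dY_TF (θ : Th w) {F : Submodule K w.S} (hl : ∀ (s : w.S) {a : w.S}, a ∈ F → s * a ∈ F)
    (hr : ∀ (s : w.S) {a : w.S}, a ∈ F → a * s ∈ F) (hD : ∀ {a : w.S}, a ∈ F → w.D a ∈ F)
    {x : X.ι →₀ CR w} (hx : x ∈ TF X F) : dY θ x ∈ TF X F := by
  intro τ β j
  rw [dY_apply θ x x.support (Finset.Subset.refl _), CR.add_apply, dC_apply, CR.sum_apply]
  refine Submodule.add_mem _ (Submodule.add_mem _ (hD (hx τ β j)) (hl _ (hx τ false j)))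
    (Submodule.sum_mem _ fun σ _ => ra_mem hr _ (hx σ) β j)

/-- build a finitely supported family with properties -/
theorem exists_fam {ι Y Z : Type} [AddCommGroup Y] [AddCommGroup Z] (x : ι →₀ Y)
    (P : ι → Z → Prop) (h0 : ∀ σ, x σ = 0 → P σ 0) (h : ∀ σ, ∃ y, P σ y) :
    ∃ y : ι →₀ Z, ∀ σ, P σ (y σ) := by
  classical
  refine ⟨Finsupp.onFinset x.support (fun σ => if x σ = 0 then 0 else Classical.choose (h σ))
    (fun σ hσ => ?_), fun σ => ?_⟩
  · rw [Finsupp.mem_support_iff]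
    intro h1
    exact hσ (if_pos h1)
  · rw [Finsupp.onFinset_apply]
    split_ifs with h1
    · exact h0 σ h1
    · exact Classical.choose_spec (h σ)

/-- the same with a finite set -/
theorem exists_famS {ι Z : Type} [AddCommGroup Z] (S : Finset ι)
    (P : ι → Z → Prop) (h0 : ∀ σ, σ ∉ S → P σ 0) (h : ∀ σ, ∃ y, P σ y) :
    ∃ y : ι →₀ Z, ∀ σ, P σ (y σ) := by
  classical
  refine ⟨Finsupp.onFinset S (fun σ => if σ ∈ S then Classical.choose (h σ) else 0)
    (fun σ hσ => ?_), fun σ => ?_⟩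
  · by_contra h1
    exact hσ (if_neg h1)
  · rw [Finsupp.onFinset_apply]
    split_ifs with h1
    · exact Classical.choose_spec (h σ)
    · exact h0 σ h1

variable (T : TRD w)

theorem TF_d (θ : Th w) (p a : ℤ) (i : ℕ) (x : X.ι →₀ CR w) (hx : x ∈ TF X (T.Fl i)) :
    (Yc θ p a X).d x ∈ TF X (T.Fl i) := by
  rw [d_eq]
  exact dY_TF θ (fun s _ h => T.Fl_l i s h) (fun s _ h => T.Fl_r i s h) (fun h => T.Fl_D i h) hx

/-- one graded piece -/
theorem piece (θ : Th w) (h2 : T.T2 θ) (p a n : ℤ) (i : ℕ) (hi : i < T.r)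
    (ih : ∀ k : T.κ i, AcQ (Yc θ (p + T.uP i k) a X) ⊤ (TF X (T.Fl 0)) (n - T.uC i k)) :
    AcQ (Yc θ p a X) (TF X (T.Fl i)) (TF X (T.Fl (i + 1))) n := by
  refine AcQ.copies (Y := Yc θ p a X) (κ := T.κ i) (F := TF X (T.Fl i))
    (F' := TF X (T.Fl (i + 1))) (fun x hx => TF_d T θ p a (i + 1) x hx)
    (fun k => Yc θ (p + T.uP i k) a X) (fun _ => TF X (T.Fl 0)) (fun k => (T.uC i k : ℤ))
    (fun k => lu X (T.u i k)) ?_ ?_ ?_ ?_ ?_ ?_ ih
  · intro k m (z : X.ι →₀ CR w) hz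
    have hz' := (mem_gr θ _ a m z).1 hz
    refine (mem_gr θ p a _ _).2 fun σ => ⟨fun β j => ?_, ?_⟩
    · change T.u i k * z σ β j ∈ _
      exact pc_cast (w.mul_mem (T.u_mem i k) ((hz' σ).1 β j)) (by ring) (by ring) (by ring)
    · change ra (X.e σ) (lc (T.u i k) (z σ)) = lc (T.u i k) (z σ)
      rw [ra_lc, (hz' σ).2]
  · intro k (z : X.ι →₀ CR w) σ β j
    change T.u i k * z σ β j ∈ _
    exact T.Fl_r i _ (T.u_F i k)
  · intro k (z : X.ι →₀ CR w) hz σ β j
    change T.u i k * z σ β j ∈ _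
    exact T.u_J i k (hz σ β j)
  · intro k (z : X.ι →₀ CR w)
    have key : dY θ (lu X (T.u i k) z) - lu X (T.u i k) (dY θ z) ∈ TF X (T.Fl (i + 1)) := by
      intro σ β j
      rw [d_lu]
      refine Submodule.add_mem _ (T.Fl_r _ _ (T.u_D i k)) (T.Fl_r _ _ ?_)
      cases β
      · change (0 : w.S) * _ - _ * (0 : w.S) ∈ _
        rw [zero_mul, mul_zero, sub_zero]
        exact Submodule.zero_mem _
      · exact T.u_th θ h2 i k
    rw [← d_eq θ p a (lu X (T.u i k) z), ← d_eq θ (p + T.uP i k) a z] at key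
    exact key
  · intro (x : X.ι →₀ CR w) hx hF
    have hx' := (mem_gr θ p a n x).1 hx
    obtain ⟨y, hy⟩ := exists_fam x (Z := T.κ i → CR w)
      (fun σ y => (∀ k, y k ∈ grC w (p + T.uP i k) a (n - T.uC i k - X.s σ) ∧
        ra (X.e σ) (y k) = y k) ∧ ∀ β j, x σ β j - ∑ k, T.u i k * y k β j ∈ T.Fl (i + 1))
      (fun σ hσ => ⟨fun k => ⟨Submodule.zero_mem _, map_zero _⟩, fun β j => by
        rw [hσ]
        simp only [Pi.zero_apply, CR.zero_apply, mul_zero, Finset.sum_const_zero, sub_zero]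
        exact Submodule.zero_mem _⟩)
      (fun σ => by
        have hg : ∀ β j, ∃ z : T.κ i → w.S,
            (∀ k, z k ∈ w.pc (p - w.P j + T.uP i k) (a + ab β - w.A j)
              (n - X.s σ - cb β - T.uC i k)) ∧ x σ β j - ∑ k, T.u i k * z k ∈ T.Fl (i + 1) :=
          fun β j => T.gen i hi (hF σ β j) ((hx' σ).1 β j)
        choose z hz1 hz2 using hg
        let v : T.κ i → CR w := fun k β j => z β j k
        have hv : ∀ k, v k ∈ grC w (p + T.uP i k) a (n - T.uC i k - X.s σ) := fun k β j =>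
          pc_cast (hz1 β j k) (by ring) rfl (by ring)
        refine ⟨fun k => ra (X.e σ) (v k), fun k => ⟨ra_gr (X.e_mem σ) θ (hv k), ?_⟩,
          fun β j => ?_⟩
        · rw [ra_ra, X.e_idem]
        · have e : x σ β j - ∑ k, T.u i k * ra (X.e σ) (v k) β j =
              ra (X.e σ) (x σ - ∑ k, lc (T.u i k) (v k)) β j := by
            rw [map_sub, map_sum, (hx' σ).2, CR.sub_apply, CR.sum_apply]
            congr 1
            refine Finset.sum_congr rfl fun k _ => ?_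
            rw [ra_lc, lc_apply]
          rw [e]
          refine ra_mem (fun s _ h => T.Fl_r _ s h) _ (fun β j => ?_) β j
          rw [CR.sub_apply, CR.sum_apply]
          exact hz2 β j)
    refine ⟨fun k => Finsupp.mapRange (fun f : T.κ i → CR w => f k) rfl y, fun k =>
      (mem_gr θ _ a _ _).2 fun σ => (hy σ).1 k, ?_⟩
    intro σ β j
    have e : (x - ∑ k, lu X (T.u i k) (Finsupp.mapRange (fun f : T.κ i → CR w => f k) rfl y) :
        X.ι →₀ CR w) σ β j = x σ β j - ∑ k, T.u i k * y σ k β j := by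
      rw [Finsupp.sub_apply, CR.sub_apply, Finset.sum_apply', CR.sum_apply]
      rfl
    exact e ▸ (hy σ).2 β j
  · intro z hz hs k σ β j
    let z' : T.κ i → (X.ι →₀ CR w) := z
    have hz' : ∀ k, ∀ σ, z' k σ ∈ grC w (p + T.uP i k) a (n - 1 - T.uC i k - X.s σ) :=
      fun k σ => ((mem_gr θ _ a _ (z' k)).1 (hz k) σ).1
    have h1 : (∑ k, lu X (T.u i k) (z' k) : X.ι →₀ CR w) σ β j ∈ T.Fl (i + 1) := hs σ β j
    have e : (∑ k, lu X (T.u i k) (z' k) : X.ι →₀ CR w) σ β j =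
        ∑ k, T.u i k * z' k σ β j := by
      rw [Finset.sum_apply', CR.sum_apply]
      rfl
    rw [e] at h1
    exact T.uniq i (P := p - w.P j) (A := a + ab β - w.A j) (C := n - 1 - X.s σ - cb β)
      (fun k => z' k σ β j) hi (fun k => pc_cast (hz' k σ β j) (by ring) rfl
        (by ring)) h1 k

/-- the whole ideal -/
theorem ideal (θ : Th w) (h2 : T.T2 θ) (p a n : ℤ)
    (ih : ∀ i (k : T.κ i), AcQ (Yc θ (p + T.uP i k) a X) ⊤ (TF X (T.Fl 0)) (n - T.uC i k)) :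
    AcQ (Yc θ p a X) (TF X (T.Fl 0)) (⊥ : Submodule K (X.ι →₀ CR w)) n := by
  have anti : ∀ i, T.Fl i ≤ T.Fl 0 := by
    intro i
    induction i with
    | zero => exact le_rfl
    | succ i hi => exact (T.anti i).trans hi
  have mono : ∀ {F F' : Submodule K w.S}, F ≤ F' → TF X F ≤ TF X F' :=
    fun h x hx σ β j => h (hx σ β j)
  have key : ∀ i ≤ T.r, AcQ (Yc θ p a X) (TF X (T.Fl 0)) (TF X (T.Fl i)) n := by
    intro i
    induction i with
    | zero => intro _; exact AcQ.refl _ _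
    | succ i hi =>
      intro h
      exact AcQ.trans (Y := Yc θ p a X) (mono (anti i)) (mono (T.anti i)) (hi (by omega))
        (piece T θ h2 p a n i (by omega) (ih i))
  have h := key T.r le_rfl
  have e : TF X (T.Fl T.r) = ⊥ := by
    rw [T.Fr]
    refine le_antisymm ?_ bot_le
    intro x hx
    refine (Submodule.mem_bot K).2 (Finsupp.ext fun σ => CR.ext fun β j => ?_)
    exact (Submodule.mem_bot K).1 (hx σ β j)
  rw [e] at h
  exact h

/-- the Koszul step -/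
theorem kos (hP : ∀ j, w.P j ≤ 1) (a n : ℤ) (θ : Th w) (h2 : T.T2 θ)
    (a1 : ∀ θ' : Th w, T.T1 θ' → AcQ (Yc θ' 1 a X) ⊤ (TF X (T.Fl 0)) n)
    (a0 : ∀ θ'' : Th w, T.T0 θ'' → AcQ (Yc θ'' 0 a X) ⊤ (TF X (T.Fl 0)) (n - 1)) :
    AcQ (Yc θ 2 a X) ⊤ (TF X (T.Fl 0)) n := by
  obtain ⟨θ', h1, hx, θ'', h0, hk⟩ := T.T2x θ h2
  have comm : ∀ (p p' : ℤ) (θ θ' : Th w) (u : w.S), w.D u = 0 → θ.t * u - u * θ'.t ∈ T.Fl 0 →
      ∀ z : X.ι →₀ CR w, dY θ (lu X u z) - lu X u (dY θ' z) ∈ TF X (T.Fl 0) := by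
    intro p p' θ θ' u hu ht z σ β j
    rw [d_lu, hu, zero_mul, zero_add]
    refine T.Fl_r _ _ ?_
    cases β
    · change (0 : w.S) * _ - _ * (0 : w.S) ∈ _
      rw [zero_mul, mul_zero, sub_zero]
      exact Submodule.zero_mem _
    · exact ht
  have grx : ∀ (p p' : ℤ) (θ θ' : Th w) (u : w.S), p = p' + 1 → u ∈ w.pc 1 0 0 →
      ∀ (m : ℤ) (z : X.ι →₀ CR w), z ∈ (Yc θ' p' a X).gr m → lu X u z ∈ (Yc θ p a X).gr m := by
    rintro p p' θ θ' u rfl hu m z hz
    have hz' := (mem_gr θ' _ a m z).1 hz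
    refine (mem_gr θ _ a _ _).2 fun σ => ⟨fun β j => ?_, ?_⟩
    · change u * z σ β j ∈ _
      exact pc_cast (w.mul_mem hu ((hz' σ).1 β j)) (by ring) (by ring) (by ring)
    · change ra (X.e σ) (lc u (z σ)) = lc u (z σ)
      rw [ra_lc, (hz' σ).2]
  have luJ : ∀ (u : w.S) (z : X.ι →₀ CR w), z ∈ TF X (T.Fl 0) → lu X u z ∈ TF X (T.Fl 0) :=
    fun u z hz σ β j => T.Fl_l 0 u (hz σ β j)
  refine AcQ.koszul (Y := Yc θ 2 a X) (J := TF X (T.Fl 0)) (fun x hx => TF_d T θ 2 a 0 x hx)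
    (Yc θ' 1 a X) (Yc θ'' 0 a X) (TF X (T.Fl 0)) (TF X (T.Fl 0))
    (fun x hx => TF_d T θ' 1 a 0 x hx) (fun j => lu X (T.x j)) (fun j => lu X (T.kk j))
    (fun j => grx 2 1 θ θ' (T.x j) (by norm_num) (T.x_mem j))
    (fun j => grx 1 0 θ' θ'' (T.kk j) (by norm_num) (T.kk_mem j))
    (fun j z => luJ (T.x j) z) (fun j z => luJ (T.kk j) z)
    (fun j (z : X.ι →₀ CR w) => by
      have key := comm 2 1 θ θ' (T.x j) (T.x_D j) (hx j) z
      rw [← d_eq θ 2 a (lu X (T.x j) z), ← d_eq θ' 1 a z] at key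
      exact key)
    (fun j (z : X.ι →₀ CR w) => by
      have key := comm 1 0 θ' θ'' (T.kk j) (T.kk_D j) (hk j) z
      rw [← d_eq θ' 1 a (lu X (T.kk j) z), ← d_eq θ'' 0 a z] at key
      exact key) ?_ ?_ ?_ ?_ (a1 θ' h1) (a0 θ'' h0)
  · intro (z : X.ι →₀ CR w) σ β j
    have e : (∑ i, lu X (T.x i) (lu X (T.kk i) z) : X.ι →₀ CR w) σ β j =
        (∑ i, T.x i * T.kk i) * z σ β j := by
      rw [Finset.sum_apply', CR.sum_apply, Finset.sum_mul]
      exact Finset.sum_congr rfl fun i _ => (mul_assoc _ _ _).symm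
    have h : (∑ i, lu X (T.x i) (lu X (T.kk i) z) : X.ι →₀ CR w) σ β j ∈ T.Fl 0 := by
      rw [e]
      exact T.Fl_r 0 _ T.x_kk
    exact h
  · intro (y : X.ι →₀ CR w) hy
    have hy' := (mem_gr θ 2 a n y).1 hy
    obtain ⟨z, hz⟩ := exists_fam y (Z := Fin 2 → CR w)
      (fun σ z => (∀ k, z k ∈ grC w 1 a (n - X.s σ) ∧ ra (X.e σ) (z k) = z k) ∧
        ∀ β j, y σ β j - ∑ k, T.x k * z k β j ∈ T.Fl 0)
      (fun σ hσ => ⟨fun k => ⟨Submodule.zero_mem _, map_zero _⟩, fun β j => by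
        rw [hσ]
        simp only [Pi.zero_apply, CR.zero_apply, mul_zero, Finset.sum_const_zero, sub_zero]
        exact Submodule.zero_mem _⟩)
      (fun σ => by
        have hg : ∀ β j, ∃ z : Fin 2 → w.S,
            (∀ k, z k ∈ w.pc (2 - w.P j - 1) (a + ab β - w.A j) (n - X.s σ - cb β)) ∧
              y σ β j - ∑ k, T.x k * z k ∈ T.Fl 0 :=
          fun β j => T.x_gen (by have := hP j; omega) ((hy' σ).1 β j)
        choose z hz1 hz2 using hg
        let v : Fin 2 → CR w := fun k β j => z β j k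
        have hv : ∀ k, v k ∈ grC w 1 a (n - X.s σ) := fun k β j =>
          pc_cast (hz1 β j k) (by ring) rfl rfl
        refine ⟨fun k => ra (X.e σ) (v k), fun k => ⟨ra_gr (X.e_mem σ) θ (hv k), ?_⟩,
          fun β j => ?_⟩
        · rw [ra_ra, X.e_idem]
        · have e : y σ β j - ∑ k, T.x k * ra (X.e σ) (v k) β j =
              ra (X.e σ) (y σ - ∑ k, lc (T.x k) (v k)) β j := by
            rw [map_sub, map_sum, (hy' σ).2, CR.sub_apply, CR.sum_apply]
            congr 1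
            refine Finset.sum_congr rfl fun k _ => ?_
            rw [ra_lc, lc_apply]
          rw [e]
          refine ra_mem (fun s _ h => T.Fl_r _ s h) _ (fun β j => ?_) β j
          rw [CR.sub_apply, CR.sum_apply]
          exact hz2 β j)
    refine ⟨fun k => Finsupp.mapRange (fun f : Fin 2 → CR w => f k) rfl z, fun k =>
      (mem_gr θ' _ a _ _).2 fun σ => (hz σ).1 k, ?_⟩
    intro σ β j
    have e : (y - ∑ k, lu X (T.x k) (Finsupp.mapRange (fun f : Fin 2 → CR w => f k) rfl z) :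
        X.ι →₀ CR w) σ β j = y σ β j - ∑ k, T.x k * z σ k β j := by
      rw [Finsupp.sub_apply, CR.sub_apply, Finset.sum_apply', CR.sum_apply]
      rfl
    exact e ▸ (hz σ).2 β j
  · intro z hz hs
    let z' : Fin 2 → (X.ι →₀ CR w) := z
    have hz' : ∀ k, ∀ σ, z' k σ ∈ grC w 1 a (n - 1 - X.s σ) ∧ ra (X.e σ) (z' k σ) = z' k σ :=
      fun k σ => (mem_gr θ' _ a _ (z' k)).1 (hz k) σ
    have h1 : ∀ σ β j, ∑ k, T.x k * z' k σ β j ∈ T.Fl 0 := by
      intro σ β j
      have h1 : (∑ k, lu X (T.x k) (z' k) : X.ι →₀ CR w) σ β j ∈ T.Fl 0 := hs σ β j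
      have e : (∑ k, lu X (T.x k) (z' k) : X.ι →₀ CR w) σ β j =
          ∑ k, T.x k * z' k σ β j := by
        rw [Finset.sum_apply', CR.sum_apply]
        rfl
      rw [e] at h1
      exact h1
    classical
    obtain ⟨s, hs⟩ := exists_famS ((z' 0).support ∪ (z' 1).support) (Z := CR w)
      (fun σ s => (s ∈ grC w 0 a (n - 1 - X.s σ) ∧ ra (X.e σ) s = s) ∧
        ∀ k β j, z' k σ β j - T.kk k * s β j ∈ T.Fl 0)
      (fun σ hσ => by
        have h0 : ∀ k : Fin 2, z' k σ = 0 := by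
          intro k
          rw [Finset.mem_union, not_or, Finsupp.notMem_support_iff,
            Finsupp.notMem_support_iff] at hσ
          fin_cases k
          · exact hσ.1
          · exact hσ.2
        refine ⟨⟨Submodule.zero_mem _, map_zero _⟩, fun k β j => ?_⟩
        rw [h0, CR.zero_apply, mul_zero, sub_zero]
        exact Submodule.zero_mem _)
      (fun σ => by
        have hg : ∀ β j, ∃ s ∈ w.pc (2 - w.P j - 2) (a + ab β - w.A j) (n - 1 - X.s σ - cb β),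
            ∀ k, z' k σ β j - T.kk k * s ∈ T.Fl 0 :=
          fun β j => T.x_ker (fun k => z' k σ β j)
            (fun k => pc_cast ((hz' k σ).1 β j) (by ring) rfl rfl) (h1 σ β j)
        choose s hs1 hs2 using hg
        let v : CR w := fun β j => s β j
        have hv : v ∈ grC w 0 a (n - 1 - X.s σ) := fun β j => pc_cast (hs1 β j) (by ring) rfl rfl
        refine ⟨ra (X.e σ) v, ⟨ra_gr (X.e_mem σ) θ hv, by rw [ra_ra, X.e_idem]⟩,
          fun k β j => ?_⟩
        have e : z' k σ β j - T.kk k * ra (X.e σ) v β j =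
            ra (X.e σ) (z' k σ - lc (T.kk k) v) β j := by
          rw [map_sub, (hz' k σ).2, CR.sub_apply, ra_lc, lc_apply]
        rw [e]
        refine ra_mem (fun s _ h => T.Fl_r _ s h) _ (fun β j => ?_) β j
        rw [CR.sub_apply, lc_apply]
        exact hs2 β j k)
    refine ⟨s, (mem_gr θ'' _ a _ _).2 fun σ => (hs σ).1, fun k => ?_⟩
    have h3 : z' k - lu X (T.kk k) s ∈ TF X (T.Fl 0) := by
      intro σ β j
      rw [Finsupp.sub_apply, CR.sub_apply, lu_apply, lc_apply]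
      exact (hs σ).2 k β j
    exact h3
  · intro (s : X.ι →₀ CR w) hs hk σ β j
    have h : T.kk 0 * s σ β j ∈ T.Fl 0 := hk σ β j
    exact T.x_inj h

/-- **(TR)** -/
theorem main (hP : ∀ j, w.P j ≤ 1) (a : ℤ)
    (g0 : ∀ θ : Th w, T.T0 θ → ∀ n, AcQ (tG (CRM θ 0 a) X) ⊤ ⊥ n)
    (g1 : ∀ θ : Th w, T.T1 θ → ∀ n, AcQ (tG (CRM θ 1 a) X) ⊤ ⊥ n) (n : ℤ) :
    (∀ θ : Th w, T.T0 θ → AcQ (Yc θ 0 a X) ⊤ (TF X (T.Fl 0)) n) ∧
    (∀ θ : Th w, T.T1 θ → AcQ (Yc θ 1 a X) ⊤ (TF X (T.Fl 0)) n) ∧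
    (∀ θ : Th w, T.T2 θ → AcQ (Yc θ 2 a X) ⊤ (TF X (T.Fl 0)) n) := by
  suffices H : ∀ N : ℕ, ∀ n : ℤ, n < T.lo + N →
      (∀ θ : Th w, T.T0 θ → AcQ (Yc θ 0 a X) ⊤ (TF X (T.Fl 0)) n) ∧
      (∀ θ : Th w, T.T1 θ → AcQ (Yc θ 1 a X) ⊤ (TF X (T.Fl 0)) n) ∧
      (∀ θ : Th w, T.T2 θ → AcQ (Yc θ 2 a X) ⊤ (TF X (T.Fl 0)) n) from
    H (n - T.lo + 1).toNat n (by omega)
  intro N
  induction N with
  | zero =>
    intro n hn
    have h0 : ∀ (θ : Th w) (p : ℤ), AcQ (Yc θ p a X) ⊤ (TF X (T.Fl 0)) n := by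
      intro θ p (x : X.ι →₀ CR w) hx _ _
      have hx' := (mem_gr θ p a n x).1 hx
      have e : x = 0 := by
        refine Finsupp.ext fun σ => CR.ext fun β j => ?_
        have h1 := (hx' σ).1 β j
        rw [T.neg (by cases β <;> simp only [cb] <;> push_cast at hn ⊢ <;> omega)] at h1
        exact (Submodule.mem_bot K).1 h1
      refine ⟨0, Submodule.zero_mem _, Submodule.mem_top, ?_⟩
      rw [map_zero, sub_zero, e]
      exact Submodule.zero_mem _
    exact ⟨fun θ _ => h0 θ 0, fun θ _ => h0 θ 1, fun θ _ => h0 θ 2⟩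
  | succ N ih =>
    intro n hn
    have step : ∀ (p : ℤ) (θ : Th w), T.T2 θ → (∀ n, AcQ (tG (CRM θ p a) X) ⊤ ⊥ n) →
        (∀ q : ℤ, q = 0 ∨ q = 1 → ∀ m, m < T.lo + N →
          AcQ (Yc θ (p + q) a X) ⊤ (TF X (T.Fl 0)) m) →
        AcQ (Yc θ p a X) ⊤ (TF X (T.Fl 0)) n := by
      intro p θ h2 hg hq
      have h1 : AcQ (Yc θ p a X) (TF X (T.Fl 0)) (⊥ : Submodule K (X.ι →₀ CR w)) (n - 1) :=
        ideal T θ h2 p a (n - 1) fun i k => hq _ (T.uP01 i k) _ (by push_cast at hn; omega)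
      have h3 : AcQ (Yc θ p a X) ⊤ (⊥ : Submodule K (X.ι →₀ CR w)) (n - 1 + 1) := by
        rw [sub_add_cancel]
        exact hg n
      have h4 := AcQ.quot (Y := Yc θ p a X) (F := ⊤) (F' := TF X (T.Fl 0))
        (F'' := (⊥ : Submodule K (X.ι →₀ CR w))) le_top bot_le h3 h1
      rwa [sub_add_cancel] at h4
    have s0 : ∀ θ : Th w, T.T0 θ → AcQ (Yc θ 0 a X) ⊤ (TF X (T.Fl 0)) n := by
      intro θ h
      refine step 0 θ (T.T12 θ (T.T01 θ h)) (g0 θ h) ?_
      rintro q (rfl | rfl) m hm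
      · exact (ih m hm).1 θ h
      · exact (ih m hm).2.1 θ (T.T01 θ h)
    have s1 : ∀ θ : Th w, T.T1 θ → AcQ (Yc θ 1 a X) ⊤ (TF X (T.Fl 0)) n := by
      intro θ h
      refine step 1 θ (T.T12 θ h) (g1 θ h) ?_
      rintro q (rfl | rfl) m hm
      · exact (ih m hm).2.1 θ h
      · exact (ih m hm).2.2 θ (T.T12 θ h)
    exact ⟨s0, s1, fun θ h2 => kos T hP a n θ h2 s1 fun θ'' h0 =>
      (ih (n - 1) (by push_cast at hn; omega)).1 θ'' h0⟩

end main


end Crest.Agent.R186.TRm301
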