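import Crest.Agent.R186.TR_810

/-!
Row 186 (A) (helper520, spare of 810's TRm): the main theorem of (TR) of 306, on 810's `TRD`.
-/

set_option autoImplicit false
set_option linter.style.haveILetI false
set_option linter.unusedSectionVars false
set_option linter.unusedSimpArgs false

open MulOpposite

namespace Crest.Agent.R186.TRm520

open Hat827 Hat827.DGA Frame515 Win810 TR810

variable {K : Type} [Field K] {w : WD K}

/-- left multiplication of the entries of a pair of rows -/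
def lm (s : w.S) : CR w →ₗ[K] CR w where
  toFun v := fun β j => s * v β j
  map_add' v v' := by
    ext β j
    exact mul_add _ _ _
  map_smul' r v := by
    ext β j
    exact mul_smul_comm _ _ _

theorem lm_apply (s : w.S) (v : CR w) (β : Bool) (j : w.Ob) : lm s v β j = s * v β j := rfl

theorem lm_act (s : w.S) (m : w.dga.C) (v : CR w) : op m • lm s v = lm s (op m • v) := by
  ext β j
  rw [CR.act_apply, lm_apply, CR.act_apply, Finset.mul_sum]
  exact Finset.sum_congr rfl fun l _ => by rw [lm_apply, mul_assoc]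

/-- left multiplication on families -/
noncomputable def lx (X : LCells w.dga) (s : w.S) : (X.ι →₀ CR w) →ₗ[K] (X.ι →₀ CR w) :=
  Finsupp.mapRange.linearMap (lm s)

theorem lx_apply (X : LCells w.dga) (s : w.S) (x : X.ι →₀ CR w) (σ : X.ι) :
    lx X s x σ = lm s (x σ) := rfl

theorem lx_apply' (X : LCells w.dga) (s : w.S) (x : X.ι →₀ CR w) (σ : X.ι) (β : Bool) (j : w.Ob) :
    lx X s x σ β j = s * x σ β j := rfl

theorem mem_gr {θ : Th w} {p a : ℤ} {X : LCells w.dga} {k : ℤ} {x : X.ι →₀ CR w} :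
    x ∈ (Yc θ p a X).gr k ↔ ∀ σ, x σ ∈ grC w p a (k - X.s σ) ∧ op (X.e σ) • x σ = x σ := Iff.rfl

/-- the differential, with its carrier unfolded -/
noncomputable def YD (θ : Th w) (p a : ℤ) (X : LCells w.dga) :
    (X.ι →₀ CR w) →ₗ[K] (X.ι →₀ CR w) := (twG (CRM θ p a) X).dd

theorem Yc_d (θ : Th w) (p a : ℤ) (X : LCells w.dga) (x : X.ι →₀ CR w) (S : Finset X.ι)
    (hS : x.support ⊆ S) (τ : X.ι) (β : Bool) (j : w.Ob) :
    YD θ p a X x τ β j = w.D (x τ β j) + tb θ.t β * x τ false j +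
      ∑ σ ∈ S, ∑ l, x σ β l * (X.c σ τ : w.Win).1 l j := by
  have h : YD θ p a X x τ = dC θ (x τ) + ∑ σ ∈ S, (op (X.c σ τ) • (x σ : CR w) : CR w) :=
    (twG (CRM θ p a) X).dd_apply' x S hS τ
  rw [h, CR.add_apply, CR.sum_apply, dC_apply]
  rfl

/-- the commutator of the differential with a left multiplication -/
theorem lx_d (θ θ' : Th w) (p p' a a' : ℤ) (X : LCells w.dga) (s : w.S) (x : X.ι →₀ CR w)
    (τ : X.ι) (β : Bool) (j : w.Ob) :
    (YD θ p a X (lx X s x) - lx X s (YD θ' p' a' X x)) τ β j =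
      w.D s * x τ β j + (tb θ.t β * s - s * tb θ'.t β) * x τ false j := by
  have hs : (lx X s x).support ⊆ x.support := by
    intro σ hσ
    rw [Finsupp.mem_support_iff] at hσ ⊢
    intro h0
    exact hσ (by rw [lx_apply, h0, map_zero])
  have e1 := Yc_d θ p a X (lx X s x) x.support hs τ β j
  have e2 := Yc_d θ' p' a' X x x.support (Finset.Subset.refl _) τ β j
  rw [Finsupp.sub_apply, CR.sub_apply, e1, lx_apply' X s (YD θ' p' a' X x), e2]
  simp only [lx_apply', w.D_mul, mul_add, Finset.mul_sum, mul_assoc, sub_mul]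
  abel

theorem gr_lx {θ θ' : Th w} {p p' a n n' P' C' : ℤ} {X : LCells w.dga} {s : w.S}
    (hs : s ∈ w.pc P' 0 C') (hp : p = P' + p') (hn : n = n' + C') {x : X.ι →₀ CR w}
    (hx : x ∈ (Yc θ' p' a X).gr n') : lx X s x ∈ (Yc θ p a X).gr n := by
  intro σ
  obtain ⟨h1, h2⟩ := hx σ
  refine ⟨fun β j => ?_, ?_⟩
  · exact pc_cast (w.mul_mem hs (h1 β j)) (by rw [hp]; ring) (by ring) (by rw [hn]; ring)
  · change op (X.e σ) • lm s (x σ) = lm s (x σ)
    rw [lm_act]
    exact congrArg (lm s) h2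

/-- corrected families -/
noncomputable def mk (X : LCells w.dga) (S : Finset X.ι) (v : X.ι → CR w) : X.ι →₀ CR w := by
  classical
  exact Finsupp.onFinset S (fun σ => if σ ∈ S then op (X.e σ) • v σ else 0) (by
    intro σ h
    by_contra hc
    exact h (if_neg hc))

theorem mk_pos {X : LCells w.dga} {S : Finset X.ι} (v : X.ι → CR w) {σ : X.ι} (h : σ ∈ S) :
    mk X S v σ = op (X.e σ) • v σ := by
  classical
  exact if_pos h

theorem mk_neg {X : LCells w.dga} {S : Finset X.ι} (v : X.ι → CR w) {σ : X.ι} (h : σ ∉ S) :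
    mk X S v σ = 0 := by
  classical
  exact if_neg h

theorem mk_gr {θ : Th w} {p a k : ℤ} {X : LCells w.dga} {S : Finset X.ι} {v : X.ι → CR w}
    (h : ∀ σ, v σ ∈ grC w p a (k - X.s σ)) : mk X S v ∈ (Yc θ p a X).gr k := by
  intro σ
  by_cases hσ : σ ∈ S
  · change mk X S v σ ∈ _ ∧ op (X.e σ) • mk X S v σ = mk X S v σ
    rw [mk_pos v hσ]
    refine ⟨?_, ?_⟩
    · have := (CRM θ p a).smul_mem (X.e_mem σ) (h σ)
      rwa [zero_add] at this
    · rw [smul_smul, ← op_mul, X.e_idem]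
  · change mk X S v σ ∈ _ ∧ op (X.e σ) • mk X S v σ = mk X S v σ
    rw [mk_neg v hσ]
    exact ⟨Submodule.zero_mem _, smul_zero _⟩

theorem mk_rel {κ : Type} [Fintype κ] {X : LCells w.dga} {S : Finset X.ι} {F : Submodule K w.S}
    (hF : ∀ (s : w.S) {a : w.S}, a ∈ F → a * s ∈ F) (u : κ → w.S) {x : X.ι →₀ CR w}
    (hx : ∀ σ, op (X.e σ) • x σ = x σ) (hS : x.support ⊆ S) (v : κ → X.ι → CR w)
    (h : ∀ σ, ∀ β j, x σ β j - ∑ k, u k * v k σ β j ∈ F) :
    x - ∑ k, lx X (u k) (mk X S (v k)) ∈ TF X F := by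
  intro σ β j
  rw [Finsupp.sub_apply, Finsupp.finsetSum_apply, CR.sub_apply, CR.sum_apply]
  by_cases hσ : σ ∈ S
  · have e1 : x σ β j = ∑ l, x σ β l * (X.e σ : w.Win).1 l j := by
      conv_lhs => rw [← hx σ]
      rfl
    have e2 : ∀ k, lx X (u k) (mk X S (v k)) σ β j =
        ∑ l, u k * v k σ β l * (X.e σ : w.Win).1 l j := by
      intro k
      rw [lx_apply', mk_pos _ hσ, CR.act_apply, Finset.mul_sum]
      exact Finset.sum_congr rfl fun l _ => by rw [mul_assoc]
    rw [e1, Finset.sum_congr rfl fun k _ => e2 k, Finset.sum_comm, ← Finset.sum_sub_distrib]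
    refine Submodule.sum_mem _ fun l _ => ?_
    rw [← Finset.sum_mul, ← sub_mul]
    exact hF _ (h σ β l)
  · have e1 : x σ = 0 := by
      by_contra hc
      exact hσ (hS (Finsupp.mem_support_iff.2 hc))
    rw [e1]
    have e2 : ∀ k, lx X (u k) (mk X S (v k)) σ β j = 0 := by
      intro k
      rw [lx_apply', mk_neg _ hσ]
      exact mul_zero _
    rw [Finset.sum_congr rfl fun k _ => e2 k, Finset.sum_const_zero]
    change (0 : w.S) - 0 ∈ F
    rw [sub_zero]
    exact Submodule.zero_mem _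

theorem TF_d {X : LCells w.dga} (T : TRD w) (i : ℕ) (θ : Th w) (p a : ℤ) {x : X.ι →₀ CR w}
    (hx : x ∈ TF X (T.Fl i)) : (Yc θ p a X).d x ∈ TF X (T.Fl i) := by
  intro τ β j
  change YD θ p a X x τ β j ∈ _
  rw [Yc_d θ p a X x x.support (Finset.Subset.refl _)]
  refine Submodule.add_mem _ (Submodule.add_mem _ (T.Fl_D i (hx τ β j)) (T.Fl_l i _ (hx τ false j)))
    (Submodule.sum_mem _ fun σ _ => Submodule.sum_mem _ fun l _ => T.Fl_r i _ (hx σ β l))

theorem TF_mono {X : LCells w.dga} {F F' : Submodule K w.S} (h : F ≤ F') : TF X F ≤ TF X F' :=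
  fun _ hx σ β j => h (hx σ β j)

theorem Fl_le (T : TRD w) (i : ℕ) : T.Fl i ≤ T.Fl 0 := by
  induction i with
  | zero => exact le_refl _
  | succ n ih => exact (T.anti n).trans ih

/-- one layer of the filtration -/
theorem layer {X : LCells w.dga} (T : TRD w) (i : ℕ) (hi : i < T.r) (θ : Th w) (h2 : T.T2 θ)
    (p a n : ℤ) (ac : ∀ k, AcQ (Yc θ (p + T.uP i k) a X) ⊤ (TF X (T.Fl 0)) (n - T.uC i k)) :
    AcQ (Yc θ p a X) (TF X (T.Fl i)) (TF X (T.Fl (i + 1))) n := by
  refine AcQ.copies (κ := T.κ i) (fun x hx => TF_d T (i + 1) θ p a hx)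
    (fun k => Yc θ (p + T.uP i k) a X) (fun _ => TF X (T.Fl 0)) (fun k => (T.uC i k : ℤ))
    (fun k => lx X (T.u i k)) ?_ ?_ ?_ ?_ ?_ ?_ ac
  · intro k m z hz
    exact gr_lx (T.u_mem i k) (by ring) rfl hz
  · intro k z σ β j
    exact T.Fl_r i _ (T.u_F i k)
  · intro k z hz σ β j
    exact T.u_J i k (hz σ β j)
  · intro k (z : X.ι →₀ CR w) σ β j
    change (YD θ p a X (lx X (T.u i k) z) - lx X (T.u i k) (YD θ (p + T.uP i k) a X z)) σ β j ∈ _
    rw [lx_d]
    refine Submodule.add_mem _ (T.Fl_r _ _ (T.u_D i k)) ?_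
    cases β
    · change ((0 : w.S) * _ - _ * (0 : w.S)) * _ ∈ _
      rw [zero_mul, mul_zero, sub_zero, zero_mul]
      exact Submodule.zero_mem _
    · exact T.Fl_r _ _ (T.u_th θ h2 i k)
  · intro (x : X.ι →₀ CR w) hx hF
    have h : ∀ σ β j, ∃ z : T.κ i → w.S,
        (∀ k, z k ∈ w.pc (p + T.uP i k - w.P j) (a + ab β - w.A j)
          (n - T.uC i k - X.s σ - cb β)) ∧ x σ β j - ∑ k, T.u i k * z k ∈ T.Fl (i + 1) := by
      intro σ β j
      obtain ⟨z, hz1, hz2⟩ := T.gen i hi (hF σ β j) ((hx σ).1 β j)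
      exact ⟨z, fun k => pc_cast (hz1 k) (by ring) rfl (by ring), hz2⟩
    choose z hz1 hz2 using h
    refine ⟨fun k => mk X x.support fun σ β j => z σ β j k, fun k => mk_gr fun σ β j => hz1 σ β j k,
      ?_⟩
    exact mk_rel (fun s {a} h => T.Fl_r (i + 1) s h) (T.u i) (fun σ => (hx σ).2)
      (Finset.Subset.refl _) (fun k σ β j => z σ β j k) fun σ β j => hz2 σ β j
  · intro (z : T.κ i → X.ι →₀ CR w) hz hF k σ β j
    refine T.uniq i (P := p - w.P j) (A := a + ab β - w.A j) (C := n - 1 - X.s σ - cb β)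
      (fun k => z k σ β j) hi (fun k => pc_cast ((hz k σ).1 β j) (by ring) rfl (by ring)) ?_ k
    have := hF σ β j
    change (∑ k, lx X (T.u i k) (z k)) σ β j ∈ _ at this
    rw [Finsupp.finsetSum_apply, CR.sum_apply] at this
    exact this

/-- the whole filtration -/
theorem ideal {X : LCells w.dga} (T : TRD w) (θ : Th w) (h2 : T.T2 θ) (p a n : ℤ)
    (ac : ∀ i k, AcQ (Yc θ (p + T.uP i k) a X) ⊤ (TF X (T.Fl 0)) (n - T.uC i k)) :
    AcQ (Yc θ p a X) (TF X (T.Fl 0)) ⊥ n := by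
  have key : ∀ i, i ≤ T.r → AcQ (Yc θ p a X) (TF X (T.Fl 0)) (TF X (T.Fl i)) n := by
    intro i
    induction i with
    | zero => exact fun _ => AcQ.refl _ _
    | succ m ih =>
      intro hm
      exact AcQ.trans (TF_mono (Fl_le T m)) (TF_mono (T.anti m)) (ih (by omega))
        (layer T m (by omega) θ h2 p a n (ac m))
  have h := key T.r le_rfl
  rw [T.Fr] at h
  intro x hx hF hd
  obtain ⟨y, hy, hyF, hz⟩ := h x hx hF (by
    intro σ β j
    rw [(Submodule.mem_bot K).1 hd]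
    exact Submodule.zero_mem _)
  refine ⟨y, hy, hyF, ?_⟩
  rw [Submodule.mem_bot]
  refine Finsupp.ext fun σ => CR.ext fun β j => ?_
  exact (Submodule.mem_bot K).1 (hz σ β j)

theorem gr_low (T : TRD w) {θ : Th w} {p a n : ℤ} {X : LCells w.dga} (hn : n < T.lo)
    {x : X.ι →₀ CR w} (hx : x ∈ (Yc θ p a X).gr n) : x = 0 := by
  refine Finsupp.ext fun σ => CR.ext fun β j => ?_
  have h := (hx σ).1 β j
  have hc : 0 ≤ cb β := by cases β <;> simp [cb]
  have hlt : n - (X.s σ : ℤ) - cb β < T.lo := by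
    have : (0 : ℤ) ≤ X.s σ := by positivity
    omega
  have e : w.pc (p - w.P j) (a + ab β - w.A j) (n - X.s σ - cb β) = ⊥ := T.neg hlt
  rw [e] at h
  exact (Submodule.mem_bot K).1 h

/-- **(TR)** -/
theorem main (T : TRD w) (X : LCells w.dga) (a : ℤ) (hP : ∀ j, w.P j ≤ 1)
    (h0 : ∀ θ, T.T0 θ → ∀ n, AcQ (Yc θ 0 a X) ⊤ ⊥ n)
    (h1 : ∀ θ, T.T1 θ → ∀ n, AcQ (Yc θ 1 a X) ⊤ ⊥ n) (n : ℤ) :
    (∀ θ, T.T0 θ → AcQ (Yc θ 0 a X) ⊤ (TF X (T.Fl 0)) n) ∧
    (∀ θ, T.T1 θ → AcQ (Yc θ 1 a X) ⊤ (TF X (T.Fl 0)) n) ∧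
    (∀ θ, T.T2 θ → AcQ (Yc θ 2 a X) ⊤ (TF X (T.Fl 0)) n) := by
  have low : ∀ (θ : Th w) (p m : ℤ), m < T.lo → AcQ (Yc θ p a X) ⊤ (TF X (T.Fl 0)) m := by
    intro θ p m hm (x : X.ι →₀ CR w) hx _ _
    refine ⟨0, Submodule.zero_mem _, Submodule.mem_top, ?_⟩
    have hx0 : x = 0 := gr_low T hm hx
    change x - YD θ p a X 0 ∈ TF X (T.Fl 0)
    rw [hx0, map_zero, sub_zero]
    exact Submodule.zero_mem _
  have key : ∀ (k : ℕ) (m : ℤ), m < T.lo + k →
      (∀ θ, T.T0 θ → AcQ (Yc θ 0 a X) ⊤ (TF X (T.Fl 0)) m) ∧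
      (∀ θ, T.T1 θ → AcQ (Yc θ 1 a X) ⊤ (TF X (T.Fl 0)) m) ∧
      (∀ θ, T.T2 θ → AcQ (Yc θ 2 a X) ⊤ (TF X (T.Fl 0)) m) := by
    intro k
    induction k with
    | zero =>
      intro m hm
      have hm' : m < T.lo := by simpa using hm
      exact ⟨fun θ _ => low θ 0 m hm', fun θ _ => low θ 1 m hm', fun θ _ => low θ 2 m hm'⟩
    | succ k ih =>
      intro m hm
      have hm1 : m - 1 < T.lo + k := by push_cast at hm; omega
      obtain ⟨m', rfl⟩ : ∃ m', m = m' + 1 := ⟨m - 1, by ring⟩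
      rw [add_sub_cancel_right] at hm1
      have r0 : ∀ θ, T.T0 θ → AcQ (Yc θ 0 a X) ⊤ (TF X (T.Fl 0)) (m' + 1) := by
        intro θ hθ
        refine AcQ.quot le_top bot_le (h0 θ hθ (m' + 1))
          (ideal T θ (T.T12 θ (T.T01 θ hθ)) 0 a m' fun i k' => ?_)
        have hlt : m' - (T.uC i k' : ℤ) < T.lo + k := by
          have : (0 : ℤ) ≤ T.uC i k' := by positivity
          omega
        rcases T.uP01 i k' with h | h
        · rw [h]
          simpa using (ih _ hlt).1 θ hθ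
        · rw [h]
          simpa using (ih _ hlt).2.1 θ (T.T01 θ hθ)
      have r1 : ∀ θ, T.T1 θ → AcQ (Yc θ 1 a X) ⊤ (TF X (T.Fl 0)) (m' + 1) := by
        intro θ hθ
        refine AcQ.quot le_top bot_le (h1 θ hθ (m' + 1))
          (ideal T θ (T.T12 θ hθ) 1 a m' fun i k' => ?_)
        have hlt : m' - (T.uC i k' : ℤ) < T.lo + k := by
          have : (0 : ℤ) ≤ T.uC i k' := by positivity
          omega
        rcases T.uP01 i k' with h | h
        · rw [h]
          simpa using (ih _ hlt).2.1 θ hθ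
        · rw [h]
          simpa using (ih _ hlt).2.2 θ (T.T12 θ hθ)
      refine ⟨r0, r1, fun θ hθ => ?_⟩
      obtain ⟨θ', hθ', hx', θ'', hθ'', hk'⟩ := T.T2x θ hθ
      have a0 : AcQ (Yc θ'' 0 a X) ⊤ (TF X (T.Fl 0)) (m' + 1 - 1) := by
        rw [add_sub_cancel_right]
        exact (ih m' hm1).1 θ'' hθ''
      refine AcQ.koszul (fun x hx => TF_d T 0 θ 2 a hx) (Yc θ' 1 a X) (Yc θ'' 0 a X)
        (TF X (T.Fl 0)) (TF X (T.Fl 0)) (fun x hx => TF_d T 0 θ' 1 a hx)
        (fun j => lx X (T.x j)) (fun j => lx X (T.kk j)) ?_ ?_ ?_ ?_ ?_ ?_ ?_ ?_ ?_ ?_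
        (r1 θ' hθ') a0
      · intro j m z hz
        exact gr_lx (T.x_mem j) (by norm_num) (by ring) hz
      · intro j m z hz
        exact gr_lx (T.kk_mem j) (by norm_num) (by ring) hz
      · intro j z hz σ β l
        exact T.Fl_l 0 _ (hz σ β l)
      · intro j z hz σ β l
        exact T.Fl_l 0 _ (hz σ β l)
      · intro j (z : X.ι →₀ CR w) σ β l
        change (YD θ 2 a X (lx X (T.x j) z) - lx X (T.x j) (YD θ' 1 a X z)) σ β l ∈ _
        rw [lx_d, T.x_D, zero_mul, zero_add]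
        cases β
        · change ((0 : w.S) * _ - _ * (0 : w.S)) * _ ∈ _
          rw [zero_mul, mul_zero, sub_zero, zero_mul]
          exact Submodule.zero_mem _
        · exact T.Fl_r _ _ (hx' j)
      · intro j (z : X.ι →₀ CR w) σ β l
        change (YD θ' 1 a X (lx X (T.kk j) z) - lx X (T.kk j) (YD θ'' 0 a X z)) σ β l ∈ _
        rw [lx_d, T.kk_D, zero_mul, zero_add]
        cases β
        · change ((0 : w.S) * _ - _ * (0 : w.S)) * _ ∈ _
          rw [zero_mul, mul_zero, sub_zero, zero_mul]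
          exact Submodule.zero_mem _
        · exact T.Fl_r _ _ (hk' j)
      · intro (z : X.ι →₀ CR w) σ β l
        change (∑ j, lx X (T.x j) (lx X (T.kk j) z)) σ β l ∈ _
        rw [Finsupp.finsetSum_apply, CR.sum_apply]
        have e : ∀ j, lx X (T.x j) (lx X (T.kk j) z) σ β l = T.x j * T.kk j * z σ β l := by
          intro j
          rw [lx_apply', lx_apply', mul_assoc]
        rw [Finset.sum_congr rfl fun j _ => e j, ← Finset.sum_mul]
        exact T.Fl_r 0 _ T.x_kk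
      · intro (y : X.ι →₀ CR w) hy
        have h : ∀ σ β j, ∃ z : Fin 2 → w.S,
            (∀ k, z k ∈ w.pc (1 - w.P j) (a + ab β - w.A j) (m' + 1 - X.s σ - cb β)) ∧
            y σ β j - ∑ k, T.x k * z k ∈ T.Fl 0 := by
          intro σ β j
          have hPj := hP j
          obtain ⟨z, hz1, hz2⟩ := T.x_gen (by omega) ((hy σ).1 β j)
          exact ⟨z, fun k => pc_cast (hz1 k) (by ring) rfl rfl, hz2⟩
        choose z hz1 hz2 using h
        refine ⟨fun k => mk X y.support fun σ β j => z σ β j k,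
          fun k => mk_gr fun σ β j => hz1 σ β j k, ?_⟩
        exact mk_rel (fun s {a} h => T.Fl_r 0 s h) T.x (fun σ => (hy σ).2)
          (Finset.Subset.refl _) (fun k σ β j => z σ β j k) fun σ β j => hz2 σ β j
      · intro (z : Fin 2 → X.ι →₀ CR w) hz hF
        have h : ∀ σ β j, ∃ s ∈ w.pc (0 - w.P j) (a + ab β - w.A j)
            (m' + 1 - 1 - X.s σ - cb β), ∀ k, z k σ β j - T.kk k * s ∈ T.Fl 0 := by
          intro σ β j
          have h2 := hF σ β j
          change (∑ k, lx X (T.x k) (z k)) σ β j ∈ _ at h2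
          rw [Finsupp.finsetSum_apply, CR.sum_apply] at h2
          obtain ⟨s, hs1, hs2⟩ := T.x_ker (P := 2 - w.P j) (fun k => z k σ β j)
            (fun k => pc_cast ((hz k σ).1 β j) (by ring) rfl rfl) h2
          exact ⟨s, pc_cast hs1 (by ring) rfl rfl, hs2⟩
        choose s hs1 hs2 using h
        classical
        refine ⟨mk X ((z 0).support ∪ (z 1).support) s, mk_gr fun σ β j => hs1 σ β j, fun k => ?_⟩
        have hsup : (z k).support ⊆ (z 0).support ∪ (z 1).support := by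
          fin_cases k
          · exact Finset.subset_union_left
          · exact Finset.subset_union_right
        have := mk_rel (κ := Unit) (S := (z 0).support ∪ (z 1).support)
          (fun s {a} h => T.Fl_r 0 s h) (fun _ => T.kk k) (fun σ => (hz k σ).2) hsup
          (fun _ σ => s σ) fun σ β j => by simpa using hs2 σ β j k
        rw [Fintype.sum_unique] at this
        exact this
      · intro s hs hF σ β j
        exact T.x_inj (hF σ β j)
  have hex : ∃ k : ℕ, n < T.lo + k := ⟨(n - T.lo + 1).toNat, by omega⟩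
  obtain ⟨k, hk⟩ := hex
  exact key k n hk

end Crest.Agent.R186.TRm520
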