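import Crest.Agent.R186.TR_810

/-!
Row 186 (A) (helper810): (TR) on `Frame515`: `TRD.main`.
-/

set_option autoImplicit false
set_option linter.style.haveILetI false

open MulOpposite

namespace Crest.Agent.R186.TR810

open Hat827 Hat827.DGA Frame515 Win810

variable {K : Type} [Field K] {w : WD K}

/-- left multiplication on pairs of rows -/
def lmC (u : w.S) : CR w →ₗ[K] CR w where
  toFun v := fun β j => u * v β j
  map_add' v v' := by
    ext β j
    exact mul_add _ _ _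
  map_smul' r v := by
    ext β j
    exact mul_smul_comm _ _ _

theorem lmC_apply (u : w.S) (v : CR w) (β : Bool) (j : w.Ob) : lmC u v β j = u * v β j := rfl

variable {X : LCells w.dga}

/-- left multiplication on families -/
noncomputable def lmT (X : LCells w.dga) (u : w.S) : (X.ι →₀ CR w) →ₗ[K] (X.ι →₀ CR w) :=
  Finsupp.mapRange.linearMap (lmC u)

theorem lmT_apply (u : w.S) (x : X.ι →₀ CR w) (σ : X.ι) (β : Bool) (j : w.Ob) :
    lmT X u x σ β j = u * x σ β j := rfl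

theorem lmT_support (u : w.S) (x : X.ι →₀ CR w) : (lmT X u x).support ⊆ x.support := by
  intro σ hσ
  rw [Finsupp.mem_support_iff] at hσ ⊢
  intro h0
  apply hσ
  change lmC u (x σ) = 0
  rw [h0, map_zero]

/-- the differential of `Yc` -/
noncomputable def dY (θ : Th w) (p a : ℤ) (X : LCells w.dga) :
    (X.ι →₀ CR w) →ₗ[K] (X.ι →₀ CR w) := (Yc θ p a X).d

theorem Yd_apply (θ : Th w) (p a : ℤ) (x : X.ι →₀ CR w) (S : Finset X.ι) (hS : x.support ⊆ S)
    (τ : X.ι) (β : Bool) (j : w.Ob) :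
    dY θ p a X x τ β j = w.D (x τ β j) + tb θ.t β * x τ false j +
      ∑ σ ∈ S, ∑ l, x σ β l * (X.c σ τ : w.Win).1 l j := by
  have h := (twG (CRM θ p a) X).dd_apply' x S hS τ
  have h3 : (dC θ (x τ) + ∑ σ ∈ S, (op (X.c σ τ) • x σ : CR w)) β j =
      w.D (x τ β j) + tb θ.t β * x τ false j +
      ∑ σ ∈ S, ∑ l, x σ β l * (X.c σ τ : w.Win).1 l j := by
    rw [CR.add_apply, CR.sum_apply]
    rfl
  exact (congrArg (CR.evL β j) h).trans h3

/-- homogeneous elements -/
def In (X : LCells w.dga) (p a n : ℤ) (x : X.ι →₀ CR w) : Prop :=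
  ∀ σ, x σ ∈ grC w p a (n - X.s σ) ∧ op (X.e σ) • x σ = x σ

theorem mem_Ygr {θ : Th w} {p a n : ℤ} {x : X.ι →₀ CR w} :
    x ∈ (Yc θ p a X).gr n ↔ In X p a n x := Iff.rfl

/-- two-sided ideals stable under the differential -/
structure Idl (F : Submodule K w.S) : Prop where
  l : ∀ (s : w.S) {a : w.S}, a ∈ F → s * a ∈ F
  r : ∀ (s : w.S) {a : w.S}, a ∈ F → a * s ∈ F
  D : ∀ {a : w.S}, a ∈ F → w.D a ∈ F

theorem TF_d {F : Submodule K w.S} (hF : Idl F) (θ : Th w) (p a : ℤ) {x : X.ι →₀ CR w}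
    (hx : x ∈ TF X F) : dY θ p a X x ∈ TF X F := by
  intro τ β j
  rw [Yd_apply θ p a x x.support (Finset.Subset.refl _)]
  exact Submodule.add_mem _ (Submodule.add_mem _ (hF.D (hx τ β j)) (hF.l _ (hx τ false j)))
    (Submodule.sum_mem _ fun σ _ => Submodule.sum_mem _ fun l _ => hF.r _ (hx σ β l))

theorem TF_mono {F F' : Submodule K w.S} (h : F ≤ F') : TF X F ≤ TF X F' :=
  fun _ hx σ β j => h (hx σ β j)

theorem comm_d {F : Submodule K w.S} (hF : Idl F) (θ θ' : Th w) (p p' a : ℤ) (u : w.S)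
    (hD : w.D u ∈ F) (hθ : θ.t * u - u * θ'.t ∈ F) (x : X.ι →₀ CR w) :
    dY θ p a X (lmT X u x) - lmT X u (dY θ' p' a X x) ∈ TF X F := by
  intro τ β j
  rw [Finsupp.sub_apply, CR.sub_apply, lmT_apply,
    Yd_apply θ p a (lmT X u x) x.support (lmT_support u x),
    Yd_apply θ' p' a x x.support (Finset.Subset.refl _)]
  have e : w.D (lmT X u x τ β j) + tb θ.t β * lmT X u x τ false j +
      ∑ σ ∈ x.support, ∑ l, lmT X u x σ β l * (X.c σ τ : w.Win).1 l j -
      u * (w.D (x τ β j) + tb θ'.t β * x τ false j +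
        ∑ σ ∈ x.support, ∑ l, x σ β l * (X.c σ τ : w.Win).1 l j) =
      w.D u * x τ β j + (tb θ.t β * u - u * tb θ'.t β) * x τ false j := by
    simp only [lmT_apply, w.D_mul, mul_add, Finset.mul_sum, sub_mul, mul_assoc]
    abel
  rw [e]
  refine Submodule.add_mem _ (hF.r _ hD) (hF.r _ ?_)
  cases β
  · change (0 : w.S) * u - u * 0 ∈ F
    rw [zero_mul, mul_zero, sub_zero]
    exact Submodule.zero_mem _
  · exact hθ

theorem lmT_gr {p a n P C : ℤ} {u : w.S} (hu : u ∈ w.pc (-P) 0 C) {x : X.ι →₀ CR w}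
    (hx : In X (p + P) a n x) : In X p a (n + C) (lmT X u x) := by
  intro σ
  constructor
  · intro β j
    rw [lmT_apply]
    exact pc_cast (w.mul_mem hu ((hx σ).1 β j)) (by ring) (by ring) (by ring)
  · ext β j
    rw [CR.act_apply]
    have h := congrArg (CR.evL β j) (hx σ).2
    have h2 : ∑ l, x σ β l * (X.e σ : w.Win).1 l j = x σ β j := h
    rw [lmT_apply, ← h2, Finset.mul_sum]
    exact Finset.sum_congr rfl fun l _ => by rw [lmT_apply, mul_assoc]

/-- lifting of existence statements from rows to families -/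
theorem T_lift {κ1 κ2 : Type} [Fintype κ1] (X : LCells w.dga) (a : ℤ)
    (p1 c1 : κ1 → ℤ) (p2 c2 : κ2 → ℤ) (REL : (κ1 → CR w) → (κ2 → CR w) → Prop)
    (hR0 : REL (fun _ => 0) (fun _ => 0))
    (hRe : ∀ y z (e : w.dga.C), REL y z → REL (fun k => op e • y k) (fun k => op e • z k))
    (HY : (κ1 → CR w) → Prop)
    (h : ∀ (m : ℤ) (y : κ1 → CR w), (∀ k, y k ∈ grC w (p1 k) a (m - c1 k)) → HY y →
      ∃ z : κ2 → CR w, (∀ k, z k ∈ grC w (p2 k) a (m - c2 k)) ∧ REL y z)
    (n : ℤ) (y : κ1 → (X.ι →₀ CR w)) (hy : ∀ k, In X (p1 k) a (n - c1 k) (y k))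
    (hH : ∀ σ, HY (fun k => y k σ)) :
    ∃ z : κ2 → (X.ι →₀ CR w), (∀ k, In X (p2 k) a (n - c2 k) (z k)) ∧
      ∀ σ, REL (fun k => y k σ) (fun k => z k σ) := by
  classical
  have h1 : ∀ σ, ∃ z : κ2 → CR w, (∀ k, z k ∈ grC w (p2 k) a (n - X.s σ - c2 k)) ∧
      REL (fun k => y k σ) z := fun σ => h (n - X.s σ) _ (fun k => by
    have := (hy k σ).1
    rwa [show n - c1 k - (X.s σ : ℤ) = n - X.s σ - c1 k by ring] at this) (hH σ)
  choose z hz hzR using h1
  let S : Finset X.ι := Finset.univ.biUnion fun k => (y k).support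
  let Z : κ2 → (X.ι →₀ CR w) := fun k =>
    Finsupp.onFinset S (fun σ => if σ ∈ S then op (X.e σ) • z σ k else 0) fun σ hσ => by
      by_contra hc
      exact hσ (if_neg hc)
  have hZ : ∀ k σ, Z k σ = if σ ∈ S then op (X.e σ) • z σ k else 0 := fun _ _ => rfl
  refine ⟨Z, fun k σ => ?_, fun σ => ?_⟩
  · rw [hZ]
    split_ifs with hσ
    · constructor
      · intro β j
        rw [CR.act_apply]
        exact Submodule.sum_mem _ fun i _ =>
          pc_cast (w.mul_mem (hz σ k β i) (X.e_mem σ i j)) (by ring) (by ring) (by ring)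
      · rw [smul_smul, ← op_mul, X.e_idem]
    · exact ⟨Submodule.zero_mem _, smul_zero _⟩
  · by_cases hσ : σ ∈ S
    · have h2 := hRe _ _ (X.e σ) (hzR σ)
      have e1 : (fun k => op (X.e σ) • y k σ) = fun k => y k σ := funext fun k => (hy k σ).2
      have e2 : (fun k => Z k σ) = fun k => op (X.e σ) • z σ k := funext fun k => by
        rw [hZ, if_pos hσ]
      rw [e2, ← e1]
      exact h2
    · have e1 : (fun k => y k σ) = fun _ => 0 := funext fun k => by
        by_contra hc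
        exact hσ (Finset.mem_biUnion.2 ⟨k, Finset.mem_univ k, Finsupp.mem_support_iff.2 hc⟩)
      have e2 : (fun k => Z k σ) = fun _ => 0 := funext fun k => by rw [hZ, if_neg hσ]
      rw [e1, e2]
      exact hR0

/-- generation on families -/
theorem T_gen {κ : Type} [Fintype κ] (X : LCells w.dga) (a p n : ℤ) (uP uC : κ → ℤ) (u : κ → w.S)
    (F F' : Submodule K w.S) (hF' : Idl F') (cond : ℤ → Prop) (hc : ∀ j, cond (p - w.P j))
    (gen : ∀ {P A C : ℤ} {x : w.S}, cond P → x ∈ F → x ∈ w.pc P A C →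
      ∃ z : κ → w.S, (∀ k, z k ∈ w.pc (P + uP k) A (C - uC k)) ∧ x - ∑ k, u k * z k ∈ F')
    (x : X.ι →₀ CR w) (hx : In X p a n x) (hF : x ∈ TF X F) :
    ∃ z : κ → (X.ι →₀ CR w), (∀ k, In X (p + uP k) a (n - uC k) (z k)) ∧
      x - ∑ k, lmT X (u k) (z k) ∈ TF X F' := by
  obtain ⟨z, hz, hR⟩ := T_lift (κ1 := Unit) (κ2 := κ) X a (fun _ => p) (fun _ => 0)
    (fun k => p + uP k) uC
    (fun y z => ∀ β j, y () β j - ∑ k, u k * z k β j ∈ F')
    (fun β j => by
      simp only [CR.zero_apply, mul_zero, Finset.sum_const_zero, sub_zero]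
      exact Submodule.zero_mem _)
    (fun y z e h β j => by
      have e1 : (op e • y ()) β j - ∑ k, u k * (op e • z k) β j =
          ∑ l, (y () β l - ∑ k, u k * z k β l) * (e : w.Win).1 l j := by
        simp only [CR.act_apply, sub_mul, Finset.sum_sub_distrib, Finset.mul_sum, Finset.sum_mul,
          mul_assoc]
        rw [Finset.sum_comm (s := Finset.univ) (t := Finset.univ) (f := fun k l =>
          u k * (z k β l * (e : w.Win).1 l j))]
      rw [e1]
      exact Submodule.sum_mem _ fun l _ => hF'.r _ (h β l))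
    (fun y => ∀ β j, y () β j ∈ F)
    (fun m y hy hYF => by
      have h1 : ∀ β j, ∃ z : κ → w.S, (∀ k, z k ∈ w.pc (p - w.P j + uP k) (a + ab β - w.A j)
          (m - 0 - cb β - uC k)) ∧ y () β j - ∑ k, u k * z k ∈ F' := fun β j =>
        gen (hc j) (hYF β j) (hy () β j)
      choose z hz hz2 using h1
      exact ⟨fun k β j => z β j k, fun k β j => pc_cast (hz β j k) (by ring) (by ring) (by ring),
        hz2⟩)
    n (fun _ => x) (fun _ => by rw [sub_zero]; exact hx) (fun σ => hF σ)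
  refine ⟨z, hz, fun σ β j => ?_⟩
  have h2 := hR σ β j
  have e : (x - ∑ k, lmT X (u k) (z k)) σ β j = x σ β j - ∑ k, u k * z k σ β j := by
    rw [Finsupp.sub_apply, CR.sub_apply, Finsupp.finsetSum_apply, CR.sum_apply]
    rfl
  rw [e]
  exact h2

theorem sumT_apply {α : Type} (s : Finset α) (f : α → (X.ι →₀ CR w)) (σ : X.ι) (β : Bool)
    (j : w.Ob) : (∑ i ∈ s, f i) σ β j = ∑ i ∈ s, f i σ β j := by
  rw [Finsupp.finsetSum_apply, CR.sum_apply]

theorem lmT_gr' {p p' a n n' P C : ℤ} {u : w.S} (hu : u ∈ w.pc P 0 C) {x : X.ι →₀ CR w}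
    (hx : In X p' a n x) (hp : p' + P = p) (hn : n + C = n') : In X p a n' (lmT X u x) := by
  subst hp hn
  refine lmT_gr (P := -P) (by rw [neg_neg]; exact hu) ?_
  rw [show p' + P + -P = p' by ring]
  exact hx

namespace TRD

variable (T : TRD w)

theorem idl (i : ℕ) : Idl (T.Fl i) := ⟨T.Fl_l i, T.Fl_r i, T.Fl_D i⟩

/-- the row `2` from the rows `1` and `0` -/
theorem k2 (X : LCells w.dga) (a : ℤ) (hP : ∀ j, w.P j ≤ 1) (m : ℤ)
    (h1 : ∀ θ, T.T1 θ → AcQ (Yc θ 1 a X) ⊤ (TF X (T.Fl 0)) m)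
    (h0 : ∀ θ, T.T0 θ → AcQ (Yc θ 0 a X) ⊤ (TF X (T.Fl 0)) (m - 1))
    (θ : Th w) (hθ : T.T2 θ) : AcQ (Yc θ 2 a X) ⊤ (TF X (T.Fl 0)) m := by
  obtain ⟨θ', hθ', hx, θ'', hθ'', hk⟩ := T.T2x θ hθ
  refine AcQ.koszul (Y := Yc θ 2 a X) (J := TF X (T.Fl 0)) (n := m)
    (fun y hy => TF_d (T.idl 0) θ 2 a hy) (Yc θ' 1 a X) (Yc θ'' 0 a X) (TF X (T.Fl 0))
    (TF X (T.Fl 0)) (fun y hy => TF_d (T.idl 0) θ' 1 a hy)
    (fun j => lmT X (T.x j)) (fun j => lmT X (T.kk j)) ?_ ?_ ?_ ?_ ?_ ?_ ?_ ?_ ?_ ?_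
    (h1 θ' hθ') (h0 θ'' hθ'')
  · intro j n z hz
    exact lmT_gr' (T.x_mem j) (show In X 1 a n z from hz) (by norm_num) (by ring)
  · intro j n z hz
    exact lmT_gr' (T.kk_mem j) (show In X 0 a n z from hz) (by norm_num) (by ring)
  · intro j z hz σ β i
    exact T.Fl_l 0 _ (hz σ β i)
  · intro j z hz σ β i
    exact T.Fl_l 0 _ (hz σ β i)
  · intro j z
    exact comm_d (T.idl 0) θ θ' 2 1 a (T.x j) (by rw [T.x_D]; exact Submodule.zero_mem _) (hx j) z
  · intro j z
    exact comm_d (T.idl 0) θ' θ'' 1 0 a (T.kk j) (by rw [T.kk_D]; exact Submodule.zero_mem _)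
      (hk j) z
  · have xk : ∀ (z : X.ι →₀ CR w) (σ : X.ι) (β : Bool) (i : w.Ob),
        (∑ j, lmT X (T.x j) (lmT X (T.kk j) z)) σ β i ∈ T.Fl 0 := by
      intro z σ β i
      have e : (∑ j, lmT X (T.x j) (lmT X (T.kk j) z)) σ β i =
          (∑ j, T.x j * T.kk j) * z σ β i := by
        rw [sumT_apply, Finset.sum_mul]
        exact Finset.sum_congr rfl fun j _ => (mul_assoc _ _ _).symm
      rw [e]
      exact T.Fl_r 0 _ T.x_kk
    exact fun z σ β i => xk z σ β i
  · intro y hy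
    obtain ⟨z, hz, hz2⟩ := T_gen X a 2 m (fun _ => -1) (fun _ => 0) T.x ⊤ (T.Fl 0) (T.idl 0)
      (fun P => 1 ≤ P) (fun j => by have := hP j; omega)
      (fun {P A C x} hP _ hx => by
        obtain ⟨z, hz, hz2⟩ := T.x_gen hP hx
        exact ⟨z, fun k => pc_cast (hz k) (by ring) rfl (by ring), hz2⟩)
      y hy (fun _ _ _ => Submodule.mem_top)
    refine ⟨z, fun j => ?_, hz2⟩
    have := hz j
    rw [sub_zero, show (2 : ℤ) + -1 = 1 by norm_num] at this
    exact this
  · intro z hz hs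
    obtain ⟨s, hs1, hs2⟩ := T_lift (κ1 := Fin 2) (κ2 := Unit) X a (fun _ => 1) (fun _ => 0)
      (fun _ => 0) (fun _ => 0)
      (fun y s => ∀ β j i, y i β j - T.kk i * s () β j ∈ T.Fl 0)
      (fun β j i => by
        simp only [CR.zero_apply, mul_zero, sub_zero]
        exact Submodule.zero_mem _)
      (fun y s e h β j i => by
        have e1 : (op e • y i) β j - T.kk i * (op e • s ()) β j =
            ∑ l, (y i β l - T.kk i * s () β l) * (e : w.Win).1 l j := by
          simp only [CR.act_apply, sub_mul, Finset.sum_sub_distrib, Finset.mul_sum, mul_assoc]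
        rw [e1]
        exact Submodule.sum_mem _ fun l _ => T.Fl_r 0 _ (h β l i))
      (fun y => ∀ β j, ∑ i, T.x i * y i β j ∈ T.Fl 0)
      (fun n y hy hH => by
        have h1 : ∀ β j, ∃ s ∈ w.pc (2 - w.P j - 2) (a + ab β - w.A j) (n - 0 - cb β),
            ∀ i, y i β j - T.kk i * s ∈ T.Fl 0 := fun β j =>
          T.x_ker (P := 2 - w.P j) (fun i => y i β j)
            (fun i => pc_cast (hy i β j) (by ring) rfl rfl) (hH β j)
        choose s hs hs2 using h1
        exact ⟨fun _ β j => s β j, fun _ β j => pc_cast (hs β j) (by ring) rfl rfl, hs2⟩)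
      (m - 1) z (fun i => by rw [sub_zero]; exact hz i) (fun σ β j => by
        let z' : Fin 2 → (X.ι →₀ CR w) := z
        have h3 : (∑ i, lmT X (T.x i) (z' i)) σ β j ∈ T.Fl 0 := hs σ β j
        rw [sumT_apply] at h3
        exact h3)
    refine ⟨s (), ?_, fun i σ β j => hs2 σ β j i⟩
    have := hs1 ()
    rw [sub_zero] at this
    exact this
  · intro s _ hs σ β j
    exact T.x_inj (hs σ β j)

/-- the rows `0` and `1` in all degrees -/
theorem main01 (X : LCells w.dga) (a : ℤ) (hP : ∀ j, w.P j ≤ 1)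
    (h0 : ∀ θ, T.T0 θ → ∀ n, AcQ (Yc θ 0 a X) ⊤ ⊥ n)
    (h1 : ∀ θ, T.T1 θ → ∀ n, AcQ (Yc θ 1 a X) ⊤ ⊥ n) (n : ℤ) :
    (∀ θ, T.T0 θ → AcQ (Yc θ 0 a X) ⊤ (TF X (T.Fl 0)) n) ∧
      (∀ θ, T.T1 θ → AcQ (Yc θ 1 a X) ⊤ (TF X (T.Fl 0)) n) := by
  have key : ∀ N : ℕ, ∀ n : ℤ, n < T.lo + N →
      (∀ θ, T.T0 θ → AcQ (Yc θ 0 a X) ⊤ (TF X (T.Fl 0)) n) ∧
      (∀ θ, T.T1 θ → AcQ (Yc θ 1 a X) ⊤ (TF X (T.Fl 0)) n) := by
    intro N
    induction N with
    | zero =>
      intro n hn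
      have hz : ∀ (θ : Th w) (p : ℤ), AcQ (Yc θ p a X) ⊤ (TF X (T.Fl 0)) n := by
        intro θ p x hx _ _
        refine ⟨0, Submodule.zero_mem _, Submodule.mem_top, ?_⟩
        rw [map_zero, sub_zero]
        intro σ β j
        have h2 := ((mem_Ygr.1 hx) σ).1 β j
        rw [T.neg (by cases β <;> simp only [cb] <;> push_cast at hn <;> omega)] at h2
        rw [(Submodule.mem_bot K).1 h2]
        exact Submodule.zero_mem _
      exact ⟨fun θ _ => hz θ 0, fun θ _ => hz θ 1⟩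
    | succ N ih =>
      intro n hn
      by_cases hn2 : n < T.lo + N
      · exact ih n hn2
      have hn3 : n = T.lo + N := by push_cast at hn; omega
      -- one row from the lower degrees
      have step : ∀ (p : ℤ) (θ : Th w), T.T2 θ →
          (∀ m < n, AcQ (Yc θ p a X) ⊤ (TF X (T.Fl 0)) m) →
          (∀ m < n, AcQ (Yc θ (p + 1) a X) ⊤ (TF X (T.Fl 0)) m) →
          (∀ m, AcQ (Yc θ p a X) ⊤ ⊥ m) → AcQ (Yc θ p a X) ⊤ (TF X (T.Fl 0)) n := by
        intro p θ hθ hp hp1 hS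
        have hfil : ∀ i, i ≤ T.r → AcQ (Yc θ p a X) (TF X (T.Fl 0)) (TF X (T.Fl i)) (n - 1) := by
          intro i
          induction i with
          | zero => intro _; exact AcQ.refl _ _
          | succ i ihi =>
            intro hi
            refine AcQ.trans (TF_mono ?_) (TF_mono (T.anti i)) (ihi (by omega)) ?_
            · exact antitone_nat_of_succ_le T.anti (Nat.zero_le i)
            refine AcQ.copies (κ := T.κ i) (fun y hy => TF_d (T.idl (i + 1)) θ p a hy)
              (fun k => Yc θ (p + T.uP i k) a X) (fun _ => TF X (T.Fl 0))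
              (fun k => (T.uC i k : ℤ)) (fun k => lmT X (T.u i k)) ?_ ?_ ?_ ?_ ?_ ?_ ?_
            · intro k m z hz
              exact lmT_gr (T.u_mem i k) (show In X (p + T.uP i k) a m z from hz)
            · intro k z σ β j
              exact T.Fl_r i _ (T.u_F i k)
            · intro k z hz σ β j
              exact T.u_J i k (hz σ β j)
            · intro k z
              exact comm_d (T.idl (i + 1)) θ θ p (p + T.uP i k) a (T.u i k) (T.u_D i k)
                (T.u_th θ hθ i k) z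
            · intro x hx hF
              exact T_gen X a p (n - 1) (T.uP i) (fun k => (T.uC i k : ℤ)) (T.u i) (T.Fl i)
                (T.Fl (i + 1)) (T.idl (i + 1)) (fun _ => True) (fun _ => trivial)
                (fun {P A C x} _ h1 h2 => T.gen i (by omega) h1 h2) x hx hF
            · intro z hz hs k σ β j
              let z' : T.κ i → (X.ι →₀ CR w) := z
              refine T.uniq i (P := p - w.P j) (A := a + ab β - w.A j)
                (C := n - 1 - 1 - X.s σ - cb β) (fun k => z' k σ β j) (by omega) (fun k => ?_) ?_ k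
              · exact pc_cast (((mem_Ygr.1 (hz k)) σ).1 β j) (by ring) rfl (by ring)
              · have h3 : (∑ k, lmT X (T.u i k) (z' k)) σ β j ∈ T.Fl (i + 1) := hs σ β j
                rw [sumT_apply] at h3
                exact h3
            · intro k
              rcases T.uP01 i k with hk | hk
              · rw [hk, add_zero]
                exact hp _ (by omega)
              · rw [hk]
                exact hp1 _ (by omega)
        have hbot : TF X (T.Fl T.r) = ⊥ := by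
          rw [T.Fr, eq_bot_iff]
          intro x hx
          rw [Submodule.mem_bot]
          refine Finsupp.ext fun σ => CR.ext fun β j => ?_
          exact (Submodule.mem_bot K).1 (hx σ β j)
        have hJ := hfil T.r le_rfl
        rw [hbot] at hJ
        have := AcQ.quot (Y := Yc θ p a X) (F := ⊤) (F' := TF X (T.Fl 0)) (F'' := ⊥) (n := n - 1)
          le_top bot_le (by rw [sub_add_cancel]; exact hS n) hJ
        rwa [sub_add_cancel] at this
      have H : ∀ m < n, (∀ θ, T.T0 θ → AcQ (Yc θ 0 a X) ⊤ (TF X (T.Fl 0)) m) ∧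
          (∀ θ, T.T1 θ → AcQ (Yc θ 1 a X) ⊤ (TF X (T.Fl 0)) m) := fun m hm => ih m (by omega)
      constructor
      · intro θ hθ
        refine step 0 θ (T.T12 _ (T.T01 _ hθ)) (fun m hm => (H m hm).1 θ hθ) (fun m hm => ?_)
          (h0 θ hθ)
        rw [zero_add]
        exact (H m hm).2 θ (T.T01 _ hθ)
      · intro θ hθ
        refine step 1 θ (T.T12 _ hθ) (fun m hm => (H m hm).2 θ hθ) (fun m hm => ?_) (h1 θ hθ)
        rw [show (1 : ℤ) + 1 = 2 by norm_num]
        exact T.k2 X a hP m (H m hm).2 (H (m - 1) (by omega)).1 θ (T.T12 _ hθ)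
  exact key (n - T.lo + 1).toNat n (by
    have := Int.self_le_toNat (n - T.lo + 1)
    omega)

/-- **(TR)** -/
theorem main (X : LCells w.dga) (a : ℤ) (hP : ∀ j, w.P j ≤ 1)
    (h0 : ∀ θ, T.T0 θ → ∀ n, AcQ (Yc θ 0 a X) ⊤ ⊥ n)
    (h1 : ∀ θ, T.T1 θ → ∀ n, AcQ (Yc θ 1 a X) ⊤ ⊥ n) :
    (∀ θ, T.T0 θ → ∀ n, AcQ (Yc θ 0 a X) ⊤ (TF X (T.Fl 0)) n) ∧
      (∀ θ, T.T1 θ → ∀ n, AcQ (Yc θ 1 a X) ⊤ (TF X (T.Fl 0)) n) ∧
      (∀ θ, T.T2 θ → ∀ n, AcQ (Yc θ 2 a X) ⊤ (TF X (T.Fl 0)) n) := by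
  have H := T.main01 X a hP h0 h1
  exact ⟨fun θ hθ n => (H n).1 θ hθ, fun θ hθ n => (H n).2 θ hθ,
    fun θ hθ n => T.k2 X a hP n (H n).2 (H (n - 1)).1 θ hθ⟩

end TRD

end Crest.Agent.R186.TR810
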