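import Crest.Agent.R186.TR_810

/-!
Row 186 (A) (helper895): the devissage theorem (TR) on 810's structures: `TRm895.main`

-/

set_option autoImplicit false
set_option linter.style.haveILetI false

open MulOpposite

namespace Crest.Agent.R186.TRm895

open Hat827 Hat827.DGA Frame515 Win810 TR810

variable {K : Type} [Field K] {w : WD K}

/-- left multiplication on pairs of rows -/
def lC (a : w.S) : CR w →ₗ[K] CR w where
  toFun v := fun β j => a * v β j
  map_add' v v' := by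
    ext β j
    exact mul_add _ _ _
  map_smul' r v := by
    ext β j
    exact mul_smul_comm _ _ _

@[simp] theorem lC_apply (a : w.S) (v : CR w) (β : Bool) (j : w.Ob) : lC a v β j = a * v β j := rfl

theorem lC_op (a : w.S) (m : w.dga.C) (v : CR w) : lC a (op m • v) = op m • lC a v := by
  ext β j
  rw [lC_apply, CR.act_apply, CR.act_apply, Finset.mul_sum]
  exact Finset.sum_congr rfl fun l _ => by rw [lC_apply, mul_assoc]

/-- left multiplication on families -/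
noncomputable def lF (X : LCells w.dga) (a : w.S) : (X.ι →₀ CR w) →ₗ[K] (X.ι →₀ CR w) :=
  Finsupp.mapRange.linearMap (lC a)

@[simp] theorem lF_apply (X : LCells w.dga) (a : w.S) (x : X.ι →₀ CR w) (σ : X.ι) :
    lF X a x σ = lC a (x σ) := rfl

variable {X : LCells w.dga}

/-- the differential, typed -/
noncomputable def dY (θ : Th w) (p a : ℤ) (X : LCells w.dga) :
    (X.ι →₀ CR w) →ₗ[K] (X.ι →₀ CR w) := (Yc θ p a X).d

/-- the grading, typed -/
noncomputable def gY (θ : Th w) (p a : ℤ) (X : LCells w.dga) (n : ℤ) :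
    Submodule K (X.ι →₀ CR w) := (Yc θ p a X).gr n

theorem mem_gr {θ : Th w} {p a n : ℤ} {x : X.ι →₀ CR w} :
    x ∈ gY θ p a X n ↔ ∀ σ, (∀ β j, x σ β j ∈ w.pc (p - w.P j) (a + ab β - w.A j)
      (n - X.s σ - cb β)) ∧ op (X.e σ) • x σ = x σ := Iff.rfl

theorem Yd_apply (θ : Th w) (p a : ℤ) (x : X.ι →₀ CR w) (τ : X.ι) :
    dY θ p a X x τ = dC θ (x τ) + ∑ σ ∈ x.support, op (X.c σ τ) • x σ :=
  (twG (CRM θ p a) X).dd_apply' x x.support (Finset.Subset.refl _) τ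

theorem Yd_apply' (θ : Th w) (p a : ℤ) (x : X.ι →₀ CR w) (S : Finset X.ι) (hS : x.support ⊆ S)
    (τ : X.ι) : dY θ p a X x τ = dC θ (x τ) + ∑ σ ∈ S, op (X.c σ τ) • x σ :=
  (twG (CRM θ p a) X).dd_apply' x S hS τ

/-- the commutator of `d` and left multiplication -/
theorem comm_apply (θ θ' : Th w) (p p' a : ℤ) (b : w.S) (x : X.ι →₀ CR w) (σ : X.ι) (β : Bool)
    (j : w.Ob) : (dY θ p a X (lF X b x) - lF X b (dY θ' p' a X x)) σ β j =
      w.D b * x σ β j + (tb θ.t β * b - b * tb θ'.t β) * x σ false j := by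
  have hs : (lF X b x).support ⊆ x.support := by
    intro τ hτ
    rw [Finsupp.mem_support_iff] at hτ ⊢
    intro h
    apply hτ
    rw [lF_apply, h, map_zero]
  have e1 := Yd_apply' θ p a (lF X b x) x.support hs σ
  have e2 := Yd_apply θ' p' a x σ
  rw [Finsupp.sub_apply, e1, lF_apply, lF_apply, e2, map_add, map_sum]
  have e3 : ∑ τ ∈ x.support, op (X.c τ σ) • lF X b x τ =
      ∑ τ ∈ x.support, lC b (op (X.c τ σ) • x τ) :=
    Finset.sum_congr rfl fun τ _ => by rw [lF_apply, lC_op]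
  rw [e3, add_sub_add_right_eq_sub, CR.sub_apply, dC_apply, lC_apply, lC_apply, lC_apply, dC_apply,
    w.D_mul, mul_add, sub_mul]
  rw [← mul_assoc, ← mul_assoc]
  abel

theorem TF_r {F : Submodule K w.S} (hF : ∀ (s : w.S) {a : w.S}, a ∈ F → a * s ∈ F) {v : CR w}
    (hv : ∀ β j, v β j ∈ F) (m : w.dga.C) (β : Bool) (j : w.Ob) : (op m • v) β j ∈ F := by
  rw [CR.act_apply]
  exact Submodule.sum_mem _ fun l _ => hF _ (hv β l)

theorem TF_d (T : TRD w) (i : ℕ) (θ : Th w) (p a : ℤ) {x : X.ι →₀ CR w} (hx : x ∈ TF X (T.Fl i)) :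
    dY θ p a X x ∈ TF X (T.Fl i) := by
  intro σ β j
  have e := Yd_apply θ p a x σ
  rw [e, CR.add_apply, CR.sum_apply, dC_apply]
  exact Submodule.add_mem _ (Submodule.add_mem _ (T.Fl_D i (hx σ β j)) (T.Fl_l i _ (hx σ false j)))
    (Submodule.sum_mem _ fun τ _ => TF_r (fun s _ h => T.Fl_r i s h) (hx τ) _ β j)

theorem TF_mono {F F' : Submodule K w.S} (h : F ≤ F') : TF X F ≤ TF X F' :=
  fun _ hx σ β j => h (hx σ β j)

theorem at_eq {F : Submodule K w.S} {y : X.ι →₀ CR w} {σ : X.ι} {u : CR w} (e : y σ = u)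
    {β : Bool} {j : w.Ob} (h : u β j ∈ F) : y σ β j ∈ F := by
  rw [e]
  exact h

theorem TF_bot {x : X.ι →₀ CR w} (hx : x ∈ TF X (⊥ : Submodule K w.S)) : x = 0 := by
  refine Finsupp.ext fun σ => ?_
  ext β j
  exact (Submodule.mem_bot K).1 (hx σ β j)

theorem mem_fam {θ : Th w} {p a n : ℤ} {σ : X.ι} {u v : CR w} (e : u = v)
    (h : v ∈ (CRM θ p a).gr (n - X.s σ) ∧ op (X.e σ) • v = v) :
    (∀ β j, u β j ∈ w.pc (p - w.P j) (a + ab β - w.A j) (n - X.s σ - cb β)) ∧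
      op (X.e σ) • u = u := by
  subst e
  exact h

/-- assembling homogeneous families entry by entry -/
theorem choose_fam {α : Type} [Fintype α] (θ : Th w) (q : α → ℤ) (h : α → ℤ) (a n : ℤ)
    {x : X.ι →₀ CR w} (he : ∀ σ, op (X.e σ) • x σ = x σ) (Q : X.ι → Bool → w.Ob → (α → w.S) → Prop)
    (hQ : ∀ σ β j, ∃ z : α → w.S, (∀ k, z k ∈ w.pc (q k - w.P j) (a + ab β - w.A j)
      (n - h k - X.s σ - cb β)) ∧ Q σ β j z) :
    ∃ z : α → (X.ι →₀ CR w), (∀ k, z k ∈ gY θ (q k) a X (n - h k)) ∧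
      ∀ σ, ∃ v : α → CR w, (∀ β j, Q σ β j (fun k => v k β j)) ∧
        (x σ ≠ 0 → ∀ k, z k σ = op (X.e σ) • v k) ∧ (x σ = 0 → ∀ k, z k σ = 0) := by
  classical
  choose z hz1 hz2 using hQ
  let v : X.ι → α → CR w := fun σ k β j => z σ β j k
  let g : α → X.ι → CR w := fun k σ => if x σ = 0 then 0 else op (X.e σ) • v σ k
  have hg : ∀ k σ, g k σ ≠ 0 → σ ∈ x.support := by
    intro k σ hσ
    rw [Finsupp.mem_support_iff]
    intro h0
    exact hσ (if_pos h0)
  refine ⟨fun k => Finsupp.onFinset x.support (g k) (hg k), fun k σ => ?_, fun σ =>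
    ⟨v σ, fun β j => hz2 σ β j, fun h0 k => if_neg h0, fun h0 k => if_pos h0⟩⟩
  by_cases h0 : x σ = 0
  · have e : (Finsupp.onFinset x.support (g k) (hg k)) σ = 0 := if_pos h0
    exact mem_fam (θ := θ) e ⟨Submodule.zero_mem _, smul_zero _⟩
  · have e : (Finsupp.onFinset x.support (g k) (hg k)) σ = op (X.e σ) • v σ k := if_neg h0
    refine mem_fam (θ := θ) e ?_
    constructor
    · have h1 : v σ k ∈ (CRM θ (q k) a).gr (n - h k - X.s σ) := fun β j => hz1 σ β j k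
      have h2 := (CRM θ (q k) a).smul_mem (X.e_mem σ) h1
      rwa [zero_add] at h2
    · change op (X.e σ) • op (X.e σ) • v σ k = op (X.e σ) • v σ k
      rw [smul_smul, ← op_mul, X.e_idem]

/-- a graded piece of the filtration -/
theorem piece (T : TRD w) (i : ℕ) (hi : i < T.r) (θ : Th w) (hθ : T.T2 θ) (p a n : ℤ)
    (ac : ∀ k, AcQ (Yc θ (p + T.uP i k) a X) ⊤ (TF X (T.Fl 0)) (n - T.uC i k)) :
    AcQ (Yc θ p a X) (TF X (T.Fl i)) (TF X (T.Fl (i + 1))) n := by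
  classical
  refine AcQ.copies (κ := T.κ i) (fun x hx => TF_d T (i + 1) θ p a hx)
    (fun k => Yc θ (p + T.uP i k) a X) (fun _ => TF X (T.Fl 0)) (fun k => (T.uC i k : ℤ))
    (fun k => lF X (T.u i k)) ?_ ?_ ?_ ?_ ?_ ?_ ac
  · intro k m (z : X.ι →₀ CR w) hz σ
    refine ⟨fun β j => ?_, ?_⟩
    · exact pc_cast (w.mul_mem (T.u_mem i k) ((hz σ).1 β j)) (by ring) (by ring) (by ring)
    · change op (X.e σ) • lC (T.u i k) (z σ) = lC (T.u i k) (z σ)
      have h2 : op (X.e σ) • z σ = z σ := (hz σ).2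
      rw [← lC_op, h2]
  · intro k (z : X.ι →₀ CR w) σ β j
    exact T.Fl_r i _ (T.u_F i k)
  · intro k (z : X.ι →₀ CR w) hz σ β j
    exact T.u_J i k (hz σ β j)
  · intro k (z : X.ι →₀ CR w) σ β j
    have e := comm_apply (X := X) θ θ p (p + T.uP i k) a (T.u i k) z σ β j
    change (dY θ p a X (lF X (T.u i k) z) - lF X (T.u i k) (dY θ (p + T.uP i k) a X z))
      σ β j ∈ T.Fl (i + 1)
    rw [e]
    refine Submodule.add_mem _ (T.Fl_r _ _ (T.u_D i k)) (T.Fl_r _ _ ?_)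
    cases β
    · change (0 : w.S) * _ - _ * 0 ∈ _
      rw [zero_mul, mul_zero, sub_zero]
      exact Submodule.zero_mem _
    · exact T.u_th θ hθ i k
  · intro (x : X.ι →₀ CR w) hx hF
    obtain ⟨z, hz, hz2⟩ := choose_fam (X := X) θ (fun k => p + T.uP i k) (fun k => (T.uC i k : ℤ))
      a n (x := x) (fun σ => (hx σ).2)
      (fun σ β j z => x σ β j - ∑ k, T.u i k * z k ∈ T.Fl (i + 1)) (fun σ β j => by
        obtain ⟨z, h1, h2⟩ := T.gen i hi (hF σ β j) ((hx σ).1 β j)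
        exact ⟨z, fun k => pc_cast (h1 k) (by ring) rfl (by ring), h2⟩)
    refine ⟨z, hz, fun σ β j => ?_⟩
    obtain ⟨v, hv, h1, h2⟩ := hz2 σ
    by_cases h0 : x σ = 0
    · have e : (x - ∑ k, lF X (T.u i k) (z k)) σ = 0 := by
        rw [Finsupp.sub_apply, h0, Finsupp.finset_sum_apply, Finset.sum_eq_zero, sub_zero]
        intro k _
        rw [lF_apply, h2 h0 k, map_zero]
      exact at_eq e (Submodule.zero_mem _)
    · have e : (x - ∑ k, lF X (T.u i k) (z k)) σ =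
          op (X.e σ) • (x σ - ∑ k, lC (T.u i k) (v k)) := by
        have h3 : op (X.e σ) • x σ = x σ := (hx σ).2
        rw [Finsupp.sub_apply, Finsupp.finset_sum_apply, smul_sub, h3, Finset.smul_sum]
        congr 1
        refine Finset.sum_congr rfl fun k _ => ?_
        rw [lF_apply, h1 h0 k, lC_op]
      refine at_eq e (TF_r (fun s _ h => T.Fl_r _ s h) (fun β j => ?_) _ β j)
      rw [CR.sub_apply, CR.sum_apply]
      exact hv β j
  · intro (z : T.κ i → X.ι →₀ CR w) hz hS k σ β j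
    refine T.uniq i (P := p - w.P j) (A := a + ab β - w.A j) (C := n - 1 - X.s σ - cb β)
      (fun k => z k σ β j) hi (fun k => ?_) ?_ k
    · exact pc_cast ((hz k σ).1 β j) (by ring) rfl (by ring)
    · have h1 : (∑ k, lF X (T.u i k) (z k) : X.ι →₀ CR w) σ β j ∈ T.Fl (i + 1) := hS σ β j
      rw [Finsupp.finset_sum_apply, CR.sum_apply] at h1
      exact h1

theorem filt (T : TRD w) (θ : Th w) (hθ : T.T2 θ) (p a n : ℤ)
    (ac : ∀ i k, AcQ (Yc θ (p + T.uP i k) a X) ⊤ (TF X (T.Fl 0)) (n - T.uC i k)) :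
    AcQ (Yc θ p a X) (TF X (T.Fl 0)) ⊥ n := by
  have hmono : ∀ i j, i ≤ j → T.Fl j ≤ T.Fl i := by
    intro i j hij
    induction hij with
    | refl => exact le_rfl
    | step _ ih => exact (T.anti _).trans ih
  have key : ∀ m, m ≤ T.r → AcQ (Yc θ p a X) (TF X (T.Fl 0)) (TF X (T.Fl m)) n := by
    intro m
    induction m with
    | zero => intro _; exact AcQ.refl _ _
    | succ m ih =>
      intro hm
      exact AcQ.trans (TF_mono (hmono 0 m (Nat.zero_le _))) (TF_mono (T.anti m)) (ih (by omega))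
        (piece T m (by omega) θ hθ p a n (ac m))
  have h := key T.r le_rfl
  rw [T.Fr] at h
  intro x hx hF hd
  obtain ⟨y, hy, hyF, hz⟩ := h x hx hF (by
    rw [(Submodule.mem_bot K).1 hd]
    exact Submodule.zero_mem _)
  refine ⟨y, hy, hyF, ?_⟩
  rw [TF_bot hz]
  exact Submodule.zero_mem _

/-- low degrees -/
theorem low (T : TRD w) (θ : Th w) (p a n : ℤ) (hn : n < T.lo) (F F' : Submodule K (X.ι →₀ CR w)) :
    AcQ (Yc θ p a X) F F' n := by
  intro (x : X.ι →₀ CR w) hx _ _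
  have h0 : x = 0 := by
    refine Finsupp.ext fun σ => ?_
    ext β j
    have h1 := (hx σ).1 β j
    have h2 : n - (X.s σ : ℤ) - cb β < T.lo := by
      cases β <;> simp only [cb] <;> omega
    have h3 : x σ β j ∈ w.pc (p - w.P j) (a + ab β - w.A j) (n - X.s σ - cb β) := h1
    rw [T.neg h2] at h3
    exact (Submodule.mem_bot K).1 h3
  refine ⟨0, Submodule.zero_mem _, Submodule.zero_mem _, ?_⟩
  rw [h0, map_zero, sub_zero]
  exact Submodule.zero_mem _

/-- the Koszul step -/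
theorem kos (T : TRD w) (hP : ∀ j, w.P j ≤ 1) (θ θ' θ'' : Th w) (a n : ℤ)
    (h1 : ∀ j, θ.t * T.x j - T.x j * θ'.t ∈ T.Fl 0)
    (h2 : ∀ j, θ'.t * T.kk j - T.kk j * θ''.t ∈ T.Fl 0)
    (a1 : AcQ (Yc θ' 1 a X) ⊤ (TF X (T.Fl 0)) n)
    (a0 : AcQ (Yc θ'' 0 a X) ⊤ (TF X (T.Fl 0)) (n - 1)) :
    AcQ (Yc θ 2 a X) ⊤ (TF X (T.Fl 0)) n := by
  classical
  have comm : ∀ (θ θ' : Th w) (p p' : ℤ) (b : w.S), w.D b = 0 →
      θ.t * b - b * θ'.t ∈ T.Fl 0 → ∀ z : X.ι →₀ CR w,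
      dY θ p a X (lF X b z) - lF X b (dY θ' p' a X z) ∈ TF X (T.Fl 0) := by
    intro θ θ' p p' b hb hc z σ β j
    have e := comm_apply (X := X) θ θ' p p' a b z σ β j
    rw [e, hb, zero_mul, zero_add]
    refine T.Fl_r _ _ ?_
    cases β
    · change (0 : w.S) * _ - _ * 0 ∈ _
      rw [zero_mul, mul_zero, sub_zero]
      exact Submodule.zero_mem _
    · exact hc
  have hgr : ∀ (θ θ' : Th w) (p : ℤ) (b : w.S), b ∈ w.pc 1 0 0 → ∀ (m : ℤ) (z : X.ι →₀ CR w),
      z ∈ gY θ' p a X m → lF X b z ∈ gY θ (p + 1) a X m := by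
    intro θ θ' p b hb m z hz σ
    refine ⟨fun β j => ?_, ?_⟩
    · exact pc_cast (w.mul_mem hb ((hz σ).1 β j)) (by ring) (by ring) (by ring)
    · change op (X.e σ) • lC b (z σ) = lC b (z σ)
      have h2 : op (X.e σ) • z σ = z σ := (hz σ).2
      rw [← lC_op, h2]
  refine AcQ.koszul (fun x hx => TF_d T 0 θ 2 a hx) (Yc θ' 1 a X) (Yc θ'' 0 a X) (TF X (T.Fl 0))
    (TF X (T.Fl 0)) (fun x hx => TF_d T 0 θ' 1 a hx) (fun j => lF X (T.x j))
    (fun j => lF X (T.kk j)) ?_ ?_ ?_ ?_ ?_ ?_ ?_ ?_ ?_ ?_ a1 a0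
  · intro j m (z : X.ι →₀ CR w) hz
    exact hgr θ θ' 1 _ (T.x_mem j) m z hz
  · intro j m (z : X.ι →₀ CR w) hz
    exact hgr θ' θ'' 0 _ (T.kk_mem j) m z hz
  · intro j (z : X.ι →₀ CR w) hz σ β j'
    exact T.Fl_l 0 _ (hz σ β j')
  · intro j (z : X.ι →₀ CR w) hz σ β j'
    exact T.Fl_l 0 _ (hz σ β j')
  · intro j (z : X.ι →₀ CR w)
    exact comm θ θ' 2 1 _ (T.x_D j) (h1 j) z
  · intro j (z : X.ι →₀ CR w)
    exact comm θ' θ'' 1 0 _ (T.kk_D j) (h2 j) z
  · intro (z : X.ι →₀ CR w) σ β j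
    have e : (∑ i, lF X (T.x i) (lF X (T.kk i) z)) σ β j = (∑ i, T.x i * T.kk i) * z σ β j := by
      rw [Finsupp.finset_sum_apply, CR.sum_apply, Finset.sum_mul]
      refine Finset.sum_congr rfl fun i _ => ?_
      rw [lF_apply, lF_apply, lC_apply, lC_apply, mul_assoc]
    change (∑ i, lF X (T.x i) (lF X (T.kk i) z)) σ β j ∈ T.Fl 0
    rw [e]
    exact T.Fl_r 0 _ T.x_kk
  · intro (y : X.ι →₀ CR w) hy
    obtain ⟨z, hz, hz2⟩ := choose_fam (X := X) (α := Fin 2) θ' (fun _ => 1) (fun _ => 0)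
      a n (x := y) (fun σ => (hy σ).2)
      (fun σ β j z => y σ β j - ∑ k, T.x k * z k ∈ T.Fl 0) (fun σ β j => by
        obtain ⟨z, h1, h2⟩ := T.x_gen (by have := hP j; omega) ((hy σ).1 β j)
        exact ⟨z, fun k => pc_cast (h1 k) (by ring) rfl (by ring), h2⟩)
    refine ⟨z, fun k => ?_, fun σ β j => ?_⟩
    · have := hz k
      rwa [sub_zero] at this
    obtain ⟨v, hv, h1, h2⟩ := hz2 σ
    by_cases h0 : y σ = 0
    · have e : (y - ∑ k, lF X (T.x k) (z k)) σ = 0 := by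
        rw [Finsupp.sub_apply, h0, Finsupp.finset_sum_apply, Finset.sum_eq_zero, sub_zero]
        intro k _
        rw [lF_apply, h2 h0 k, map_zero]
      exact at_eq e (Submodule.zero_mem _)
    · have e : (y - ∑ k, lF X (T.x k) (z k)) σ =
          op (X.e σ) • (y σ - ∑ k, lC (T.x k) (v k)) := by
        have h3 : op (X.e σ) • y σ = y σ := (hy σ).2
        rw [Finsupp.sub_apply, Finsupp.finset_sum_apply, smul_sub, h3, Finset.smul_sum]
        congr 1
        refine Finset.sum_congr rfl fun k _ => ?_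
        rw [lF_apply, h1 h0 k, lC_op]
      refine at_eq e (TF_r (fun s _ h => T.Fl_r _ s h) (fun β j => ?_) _ β j)
      rw [CR.sub_apply, CR.sum_apply]
      exact hv β j
  · intro (z : Fin 2 → X.ι →₀ CR w) hz hS
    -- a family with the joint support
    obtain ⟨s, hs, hs2⟩ := choose_fam (X := X) (α := Unit) θ'' (fun _ => 0) (fun _ => 0)
      a (n - 1) (x := Finsupp.onFinset ((z 0).support ∪ (z 1).support)
        (fun σ => if z 0 σ = 0 ∧ z 1 σ = 0 then 0 else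
          (if z 0 σ = 0 then z 1 σ else z 0 σ)) (by
          intro σ hσ
          rw [Finset.mem_union, Finsupp.mem_support_iff, Finsupp.mem_support_iff]
          by_contra hc
          push Not at hc
          exact hσ (if_pos hc)))
      (fun σ => by
        change op (X.e σ) • (if z 0 σ = 0 ∧ z 1 σ = 0 then 0 else
          (if z 0 σ = 0 then z 1 σ else z 0 σ)) = _
        have e0 : op (X.e σ) • z 0 σ = z 0 σ := (hz 0 σ).2
        have e1 : op (X.e σ) • z 1 σ = z 1 σ := (hz 1 σ).2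
        change _ = (if z 0 σ = 0 ∧ z 1 σ = 0 then 0 else
          (if z 0 σ = 0 then z 1 σ else z 0 σ))
        split_ifs
        · exact smul_zero _
        · exact e1
        · exact e0)
      (fun σ β j s => ∀ k, z k σ β j - T.kk k * s () ∈ T.Fl 0) (fun σ β j => by
        have h3 : (∑ k, lF X (T.x k) (z k) : X.ι →₀ CR w) σ β j ∈ T.Fl 0 := hS σ β j
        rw [Finsupp.finset_sum_apply, CR.sum_apply] at h3
        obtain ⟨s, h1, h2⟩ := T.x_ker (P := 2 - w.P j) (A := a + ab β - w.A j)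
          (C := n - 1 - X.s σ - cb β) (fun k => z k σ β j)
          (fun k => pc_cast ((hz k σ).1 β j) (by ring) rfl rfl) h3
        exact ⟨fun _ => s, fun _ => pc_cast h1 (by ring) rfl (by ring), h2⟩)
    refine ⟨s (), by have := hs (); rwa [sub_zero] at this, fun k σ β j => ?_⟩
    obtain ⟨v, hv, h1, h2⟩ := hs2 σ
    by_cases h0 : z 0 σ = 0 ∧ z 1 σ = 0
    · have hk : z k σ = 0 := by
        rcases k with ⟨k, hk⟩
        interval_cases k
        · exact h0.1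
        · exact h0.2
      have e : (z k - lF X (T.kk k) (s ())) σ = 0 := by
        rw [Finsupp.sub_apply, hk, lF_apply, h2 (if_pos h0) (), map_zero, sub_zero]
      exact at_eq e (Submodule.zero_mem _)
    · have hne : (if z 0 σ = 0 ∧ z 1 σ = 0 then 0 else
          (if z 0 σ = 0 then z 1 σ else z 0 σ)) ≠ 0 := by
        rw [if_neg h0]
        split_ifs with h4
        · intro h5
          exact h0 ⟨h4, h5⟩
        · exact h4
      have e : (z k - lF X (T.kk k) (s ())) σ = op (X.e σ) • (z k σ - lC (T.kk k) (v ())) := by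
        have h3 : op (X.e σ) • z k σ = z k σ := (hz k σ).2
        rw [Finsupp.sub_apply, smul_sub, h3, lF_apply, h1 hne (), lC_op]
      refine at_eq e (TF_r (fun s _ h => T.Fl_r _ s h) (fun β j => ?_) _ β j)
      rw [CR.sub_apply]
      exact hv β j k
  · intro (s : X.ι →₀ CR w) _ hs σ β j
    exact T.x_inj (hs σ β j)

/-- **(TR)** -/
theorem main (T : TRD w) (hP : ∀ j, w.P j ≤ 1) (a : ℤ)
    (h0 : ∀ θ, T.T0 θ → ∀ n, AcQ (Yc θ 0 a X) ⊤ ⊥ n)
    (h1 : ∀ θ, T.T1 θ → ∀ n, AcQ (Yc θ 1 a X) ⊤ ⊥ n) (n : ℤ) :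
    (∀ θ, T.T0 θ → AcQ (Yc θ 0 a X) ⊤ (TF X (T.Fl 0)) n) ∧
    (∀ θ, T.T1 θ → AcQ (Yc θ 1 a X) ⊤ (TF X (T.Fl 0)) n) ∧
    (∀ θ, T.T2 θ → AcQ (Yc θ 2 a X) ⊤ (TF X (T.Fl 0)) n) := by
  have key : ∀ m : ℕ, ∀ n : ℤ, n < T.lo + m →
      (∀ θ, T.T0 θ → AcQ (Yc θ 0 a X) ⊤ (TF X (T.Fl 0)) n) ∧
      (∀ θ, T.T1 θ → AcQ (Yc θ 1 a X) ⊤ (TF X (T.Fl 0)) n) ∧
      (∀ θ, T.T2 θ → AcQ (Yc θ 2 a X) ⊤ (TF X (T.Fl 0)) n) := by
    intro m
    induction m with
    | zero =>
      intro n hn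
      have hn' : n < T.lo := by simpa using hn
      exact ⟨fun θ _ => low T θ 0 a n hn' _ _, fun θ _ => low T θ 1 a n hn' _ _,
        fun θ _ => low T θ 2 a n hn' _ _⟩
    | succ m ih =>
      intro n hn
      have e : n = (n - 1) + 1 := by ring
      have hJ : ∀ p : ℤ, p = 0 ∨ p = 1 → ∀ θ, (p = 0 → T.T0 θ) → T.T1 θ →
          AcQ (Yc θ p a X) (TF X (T.Fl 0)) ⊥ (n - 1) := by
        intro p hp θ hθ0 hθ1
        refine filt T θ (T.T12 θ hθ1) p a (n - 1) fun i k => ?_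
        have hlt : n - 1 - (T.uC i k : ℤ) < T.lo + m := by push_cast at hn; omega
        obtain ⟨q0, q1, q2⟩ := ih _ hlt
        rcases hp with rfl | rfl <;> rcases T.uP01 i k with hu | hu <;> rw [hu]
        · exact q0 θ (hθ0 rfl)
        · exact q1 θ hθ1
        · exact q1 θ hθ1
        · exact q2 θ (T.T12 θ hθ1)
      have r0 : ∀ θ, T.T0 θ → AcQ (Yc θ 0 a X) ⊤ (TF X (T.Fl 0)) n := by
        intro θ hθ
        rw [e]
        exact AcQ.quot le_top bot_le (h0 θ hθ _) (hJ 0 (Or.inl rfl) θ (fun _ => hθ) (T.T01 θ hθ))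
      have r1 : ∀ θ, T.T1 θ → AcQ (Yc θ 1 a X) ⊤ (TF X (T.Fl 0)) n := by
        intro θ hθ
        rw [e]
        exact AcQ.quot le_top bot_le (h1 θ hθ _)
          (hJ 1 (Or.inr rfl) θ (fun h => absurd h (by norm_num)) hθ)
      refine ⟨r0, r1, fun θ hθ => ?_⟩
      obtain ⟨θ', hθ', e1, θ'', hθ'', e2⟩ := T.T2x θ hθ
      have hlt : n - 1 < T.lo + m := by push_cast at hn; omega
      exact kos T hP θ θ' θ'' a n e1 e2 (r1 θ' hθ') ((ih _ hlt).1 θ'' hθ'')
  exact key (n - T.lo + 1).toNat n (by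
    have := Int.self_le_toNat (n - T.lo + 1)
    omega)

end Crest.Agent.R186.TRm895
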