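import Crest.Agent.R186.CoTRD_296
import Crest.Agent.R186.SMp_890
import Crest.Agent.R186.KOSM_296
import Crest.Agent.R186.Opw_671

/-!
Row 186 (A) (helper296): the coordinates `Co` of the OPPOSITE window data
`opW (bdM π s hs).ext p0 a0` (right multiplications): `r = Σ_q (cq q r) * wq q`,
`m = Σ_q (cM q m) · o_q`.
-/

set_option autoImplicit false

noncomputable section

namespace Crest.Agent.R186.TRopF296

open Hat827 Hat827.DGA Frame515 Win810 TR810 CoTRD296
open Crest.Agent.R186.DefsQ830 Crest.Agent.R186.PBW128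
open Crest.Agent.R186.C2b362 (pz J NZ mem_NZ mem_pz mem_pz_nat mem_J pz_neg)
open Crest.Agent.R186.C2b44 (kill kill_mem kill_x kill_h kill_kill kill_nf kill_D)
open Crest.Agent.R186.KOS296 (kill_pz mem_J_iff_kill pcZ_eq_pz)
open Crest.Agent.R186.WLF296 (lev ext_nf kill_nf' wq_mul)
open Crest.Agent.R186.SM890 (MM oM pcM nf1 nf_eq repM rho cW tW dt dk Tq tw tw_ne tau bdM nonW wq_nonW yw wq_yw
  smul_oM op_smul_oM smul_def op_smul_def mem_pcM dMM dMM_oM repM_wq oM_apply)
open Crest.Agent.R186.KOSM296 (cM sum_cM cM_oM_kill cM_oM cM_mem kill_cM)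
open Crest.Agent.R186.Opw671 (opW)

variable {K : Type} [Field K] (π : Par K)

/-! ### right normal form of `R''` -/

/-- coordinate form -/
def cNq (q : Wb) : N K →ₗ[K] N K :=
  Finsupp.linearCombination K (fun ν : Ix =>
    if ν.2.2.2.2 = q then bv K ν.1 ν.2.1 ν.2.2.1 ν.2.2.2.1 .one else 0)

theorem cNq_bv (q : Wb) (i j k : ℕ) (w : List E) (q' : Wb) : cNq q (bv K i j k w q') =
    if q' = q then bv K i j k w .one else 0 := by
  simp [cNq, bv]

/-- the `q`-component: `r = Σ_q (cq q r) * wq q` -/
def cq (q : Wb) : R π →ₗ[K] R π := Psi π ∘ₗ cNq q ∘ₗ ev π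

theorem cq_nf (q : Wb) (i j k : ℕ) (w : List E) (q' : Wb) : cq π q (nf π (i, j, k, w, q')) =
    if q' = q then nf π (i, j, k, w, .one) else 0 := by
  show Psi π (cNq q (ev π _)) = _
  rw [ev_nf, cNq_bv]
  split_ifs
  · rw [Psi_bv]
  · rw [map_zero]

theorem kill_cq (q : Wb) (r : R π) : kill π (cq π q r) = cq π q r := by
  refine ext_nf π (φ := (kill π).toLinearMap ∘ₗ cq π q) (ψ := cq π q) ?_ r
  intro i j k w q'
  rw [LinearMap.comp_apply, cq_nf]
  split_ifs
  · show kill π _ = _
    rw [kill_nf', if_pos rfl]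
  · rw [map_zero]

theorem cq_one (r : R π) : cq π .one r = kill π r := by
  refine ext_nf π (φ := cq π .one) (ψ := (kill π).toLinearMap) ?_ r
  intro i j k w q'
  rw [cq_nf]
  show _ = kill π _
  rw [kill_nf']
  split_ifs with h
  · rw [h]
  · rfl

theorem sum_cq (r : R π) : r = ∑ q, cq π q r * wq π q := by
  have := ext_nf π (φ := LinearMap.id)
    (ψ := ∑ q, (LinearMap.mulRight K (wq π q)) ∘ₗ cq π q) ?_ r
  · rw [LinearMap.id_apply, LinearMap.sum_apply] at this
    exact this
  · intro i j k w q'
    rw [LinearMap.id_apply, LinearMap.sum_apply, Finset.sum_eq_single q']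
    · rw [LinearMap.comp_apply, cq_nf, if_pos rfl]
      exact nf_eq π i j k w q'
    · intro q _ hq
      rw [LinearMap.comp_apply, cq_nf, if_neg (Ne.symm hq), map_zero]
    · intro h; exact absurd (Finset.mem_univ _) h

theorem cq_kill_wq (q q' : Wb) (r : R π) :
    cq π q (kill π r * wq π q') = if q' = q then kill π r else 0 := by
  refine (ext_nf π (φ := cq π q ∘ₗ LinearMap.mulRight K (wq π q') ∘ₗ (kill π).toLinearMap)
    (ψ := if q' = q then (kill π).toLinearMap else 0) ?_ r).trans ?_
  · intro i j k w q1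
    rw [LinearMap.comp_apply, LinearMap.comp_apply]
    show cq π q (kill π _ * wq π q') = _
    rw [kill_nf']
    by_cases h1 : q1 = .one
    · subst h1
      have e : nf π (i, j, k, w, .one) * wq π q' = nf π (i, j, k, w, q') := (nf_eq π i j k w q').symm
      rw [if_pos rfl, e, cq_nf]
      by_cases h2 : q' = q
      · rw [if_pos h2, if_pos h2]
        show _ = kill π _
        rw [kill_nf', if_pos rfl]
      · rw [if_neg h2, if_neg h2]; rfl
    · rw [if_neg h1, zero_mul, map_zero]
      by_cases h2 : q' = q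
      · rw [if_pos h2]
        show _ = kill π _
        rw [kill_nf', if_neg h1]
      · rw [if_neg h2]; rfl
  · by_cases h2 : q' = q
    · rw [if_pos h2, if_pos h2]; rfl
    · rw [if_neg h2, if_neg h2]; rfl

theorem cq_wq (q q' : Wb) {s : R π} (hs : kill π s = s) :
    cq π q (s * wq π q') = if q' = q then s else 0 := by
  have := cq_kill_wq π q q' s
  rwa [hs] at this

theorem cq_mem {P A C : ℤ} {r : R π} (hr : r ∈ pz π P A C) (q : Wb) :
    cq π q r ∈ pz π P A (C - wC q.word) := by
  have h2 : NZ K P A C ≤ (pz π P A (C - wC q.word)).comap (Psi π ∘ₗ cNq q) := by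
    rw [NZ, Finsupp.supported_eq_span_single, Submodule.span_le]
    rintro _ ⟨⟨i, j, k, w, q'⟩, ⟨h1, h2, h3⟩, rfl⟩
    show Psi π (cNq q (bv K i j k w q')) ∈ pz π P A (C - wC q.word)
    rw [cNq_bv]
    split_ifs with h
    · subst h
      rw [Psi_bv, mem_pz]
      intro ν hν
      rw [ev_nf, bv_apply] at hν
      have hν' : ((i, j, k, w, Wb.one) : Ix) = ν := by
        by_contra h0; exact hν (if_neg h0)
      subst hν'
      refine ⟨h1, h2, ?_⟩
      rw [← h3]
      simp only [dCx]
      have : wC Wb.one.word = 0 := rfl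
      rw [this]
      push_cast
      ring
    · rw [map_zero]; exact Submodule.zero_mem _
  exact h2 hr

/-- leading part of `u * wq q'` -/
theorem cq_mul_wq (q q' : Wb) (u : R π) (h : lev q ≤ lev q') :
    cq π q (u * wq π q') = if q = q' then kill π u else 0 := by
  have e : u * wq π q' = ∑ q₁, cq π q₁ u * (wq π q₁ * wq π q') := by
    conv_lhs => rw [sum_cq π u]
    rw [Finset.sum_mul]
    exact Finset.sum_congr rfl fun q₁ _ => mul_assoc _ _ _
  rw [e, map_sum, Finset.sum_eq_single .one]
  · rw [wq_one, one_mul, cq_one, cq_kill_wq]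
    by_cases h2 : q = q'
    · rw [if_pos h2, if_pos h2.symm]
    · rw [if_neg h2, if_neg (Ne.symm h2)]
  · intro q₁ _ h1
    obtain ⟨c, q₂, e2, h2⟩ := wq_mul π q₁ q'
    rw [e2, mul_smul_comm, map_smul, cq_wq π q q₂ (kill_cq π q₁ u)]
    rcases h2 with h2 | h2
    · rw [h2, zero_smul]
    · have h3 : 1 ≤ lev q₁ := by
        cases q₁ with
        | one => exact absurd rfl h1
        | _ => simp [lev]
      have : q₂ ≠ q := by
        rintro rfl
        omega
      rw [if_neg this, smul_zero]
  · intro h; exact absurd (Finset.mem_univ _) h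

/-- the right form of the `W`-filtration -/
def FR (n : ℕ) : Submodule K (R π) where
  carrier := {r | ∀ q, lev q < n → cq π q r = 0}
  zero_mem' := fun _ _ => map_zero _
  add_mem' := fun {a b} ha hb q hq => by rw [map_add, ha q hq, hb q hq, add_zero]
  smul_mem' := fun c a ha q hq => by rw [map_smul, ha q hq, smul_zero]

theorem mul_wq_FR {n : ℕ} (u : R π) (q' : Wb) (h : n ≤ lev q') : u * wq π q' ∈ FR π n := by
  intro q hq
  rw [cq_mul_wq π q q' u (by omega), if_neg]
  rintro rfl
  omega

/-- the filtration is two-sided -/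
theorem FR_right (n : ℕ) (s : R π) : ∀ a ∈ FR π n, a * s ∈ FR π n := by
  refine R_ind π (P := fun s => ∀ a ∈ FR π n, a * s ∈ FR π n) ?_ ?_ ?_ ?_ s
  · intro c a ha
    rw [← Algebra.commutes, ← Algebra.smul_def]
    exact Submodule.smul_mem _ c ha
  · intro x a ha
    rw [sum_cq π a, Finset.sum_mul]
    refine Submodule.sum_mem _ fun q _ => ?_
    by_cases hq : lev q < n
    · rw [ha q hq, zero_mul, zero_mul]
      exact Submodule.zero_mem _
    · rw [mul_assoc]
      by_cases hx : nonW x = true
      · have h1 : wq π q * X π x = (tw (Tq π q) x)⁻¹ • (X π x * wq π q) := by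
          rw [← wq_nonW π q x hx, smul_smul, inv_mul_cancel₀ (tw_ne _ _), one_smul]
        rw [h1, mul_smul_comm, ← mul_assoc]
        exact Submodule.smul_mem _ _ (mul_wq_FR π _ q (by omega))
      · obtain ⟨y, rfl⟩ : ∃ b : Y, x = b.toGen := by
          cases x with
          | y s => exact ⟨.y s, rfl⟩
          | yb s => exact ⟨.yb s, rfl⟩
          | _ => exact absurd rfl hx
        obtain ⟨c, q2, e, h⟩ := wq_mul π q (yw y)
        rw [← wq_yw, e, mul_smul_comm]
        rcases h with h | h
        · rw [h, zero_smul]; exact Submodule.zero_mem _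
        · exact Submodule.smul_mem _ _ (mul_wq_FR π _ q2 (by omega))
  · intro a b ha hb x hx
    rw [← mul_assoc]
    exact hb _ (ha _ hx)
  · intro a b ha hb x hx
    rw [mul_add]
    exact Submodule.add_mem _ (ha _ hx) (hb _ hx)

theorem cq_wq_mul (q q' : Wb) (s : R π) (h : lev q < lev q') : cq π q (wq π q' * s) = 0 := by
  have h1 : wq π q' ∈ FR π (lev q') := by
    have := mul_wq_FR π 1 q' le_rfl
    rwa [one_mul] at this
  exact FR_right π _ s _ h1 q h

/-! ### `M` -/

theorem lev_tW (q1 q : Wb) : cW π q1 q = 0 ∨ lev q = lev q1 + lev (tW q1 q) := by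
  rcases q1 with _ | s | s | _ <;> rcases q with _ | s' | s' | _ <;>
    (try rcases fin2 s with rfl | rfl) <;> (try rcases fin2 s' with rfl | rfl) <;>
    first
    | (left; simp [cW, dk, dt]; done)
    | (right; rfl)

theorem oM_mul_wq (q q1 : Wb) (a : R π) :
    oM π q (a * wq π q1) = cW π q1 q • oM π (tW q1 q) a := by
  rw [oM_apply, map_mul, Module.End.mul_apply, repM_wq, map_smul]
  rfl

/-- leading coordinates of `z · o_q'` -/
theorem cM_oM_lev (q q' : Wb) (z : R π) (h : lev q' ≤ lev q) :
    cM π q (oM π q' z) = if q = q' then kill π z else 0 := by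
  have e : oM π q' z = ∑ q1, oM π q' (cq π q1 z * wq π q1) := by
    rw [← map_sum, ← sum_cq]
  rw [e, map_sum, Finset.sum_eq_single .one]
  · rw [oM_mul_wq, map_smul, cq_one, cM_oM_kill]
    have h1 : cW π .one q' = 1 := rfl
    rw [h1, one_smul]
    show (if q' = q then _ else _) = _
    by_cases h2 : q = q'
    · rw [if_pos h2, if_pos h2.symm]
    · rw [if_neg h2, if_neg (Ne.symm h2)]
  · intro q1 _ hq1
    rw [oM_mul_wq, map_smul, cM_oM π q _ (kill_cq π q1 z)]
    rcases lev_tW π q1 q' with h0 | h0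
    · rw [h0, zero_smul]
    · have h3 : 1 ≤ lev q1 := by
        cases q1 with
        | one => exact absurd rfl hq1
        | _ => simp [lev]
      rw [if_neg, smul_zero]
      rintro rfl
      omega
  · intro h; exact absurd (Finset.mem_univ _) h

end Crest.Agent.R186.TRopF296
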