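import Crest.Agent.R186.SMp_890
import Crest.Agent.R186.TR_810
import Crest.Agent.R186.WLF_296
import Crest.Agent.R186.KOSZ_296
import Crest.Agent.R186.KosJ_374
import Crest.Agent.R186.VQ_735

/-!
Row 186, half (A) (helper374): the theta and Koszul half of 810's `TRD` for `S = R'' (+) M`
(`(bdM π s hs).ext`), both sides:
* `thR π e = t - g^(-e-2) h` : degree `(0,1,0)`, `D = 0`, commutes with `W` and with the `o_q`,
  `x_j theta_e = g theta_(e+1) x_j`;
* `J1 = {x | kill x.1 = 0}`;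
* RIGHT Koszul (`y = Σ z_j x_j` mod `J1`) `genR kerR injR` and LEFT Koszul `genL kerL injL`.
-/

set_option autoImplicit false
set_option linter.unusedSimpArgs false
set_option linter.unusedSectionVars false

noncomputable section

namespace Crest.Agent.R186.TRopK374

open DefsQ830 PBW128 Win810 SM890 SExt44
open Crest.Agent.R186.Cells221 (tR)
open Crest.Agent.R186.C2b44 (kill)
open Crest.Agent.R186.C2b362 (pz)

variable {K : Type} [Field K] (π : Par K)

/-! ### theta in `R''` -/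

/-- `theta_e = t - g^(-e-2) h` -/
def thR (e : ℤ) : R π := tR π - (π.g ^ (-e - 2)) • X π .h

theorem h_pcZ : X π .h ∈ pcZ π 0 1 0 := by
  rw [KOS296.pcZ_eq_pz]
  exact C2b362.mem_pz_nat.2 (X_mem_pc π .h)

theorem x_pcZ (j : Fin 2) : X π (.x j) ∈ pcZ π 1 0 0 := by
  rw [KOS296.pcZ_eq_pz]
  exact C2b362.mem_pz_nat.2 (X_mem_pc π (.x j))

theorem t_pcZ : tR π ∈ pcZ π 0 1 0 := by
  rw [KOS296.pcZ_eq_pz]
  exact C2b362.mem_pz_nat.2 (Cells221.tR_mem π)

theorem thR_pcZ (e : ℤ) : thR π e ∈ pcZ π 0 1 0 :=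
  Submodule.sub_mem _ (t_pcZ π) (Submodule.smul_mem _ _ (h_pcZ π))

theorem D_h : Der580.D π (X π .h) = 0 := by rw [Der580.D_X]; simp only [dGen, map_zero]

theorem D_x (j : Fin 2) : Der580.D π (X π (.x j)) = 0 := by rw [Der580.D_X]; simp only [dGen, map_zero]

theorem D_thR (e : ℤ) : Der580.D π (thR π e) = 0 := by
  rw [thR, map_sub, map_smul, Cells221.D_tR, D_h, smul_zero, sub_zero]

theorem kill_thR (e : ℤ) : kill π (thR π e) = thR π e := by
  rw [thR, map_sub, map_smul, C2b44.kill_tR, C2b44.kill_h]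

theorem thR_wq (e : ℤ) (q : Wb) : thR π e * wq π q = wq π q * thR π e := by
  rw [thR, sub_mul, mul_sub, WLF296.t_wq, smul_mul_assoc, mul_smul_comm, WLF296.h_wq]

theorem x_h (j : Fin 2) : X π (.x j) * X π .h = X π .h * X π (.x j) := (Der580.h_comm π _).symm

/-- `x_j theta_e = g theta_(e+1) x_j` -/
theorem x_thR (e : ℤ) (j : Fin 2) : X π (.x j) * thR π e = π.g • (thR π (e + 1) * X π (.x j)) := by
  have hz : π.g * π.g ^ (-(e + 1) - 2) = π.g ^ (-e - 2) := by
    rw [← zpow_one_add₀ π.g0]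
    congr 1
    ring
  rw [thR, thR, mul_sub, sub_mul, VQ735.x_tR, mul_smul_comm, x_h, smul_mul_assoc, smul_sub,
    smul_smul, hz]

/-- `theta_e x_j = g^-1 x_j theta_(e-1)` -/
theorem thR_x (e : ℤ) (j : Fin 2) :
    thR π e * X π (.x j) = π.g⁻¹ • (X π (.x j) * thR π (e - 1)) := by
  rw [x_thR, sub_add_cancel, smul_smul, inv_mul_cancel₀ π.g0, one_smul]

theorem tau_h (t : Tor K) : tau π t (X π .h) = X π .h := by
  rw [tau_X]
  exact one_smul _ _

theorem tau_t (t : Tor K) : tau π t (tR π) = tR π := by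
  have hd : ∀ j : Fin 2, tau π t (X π (.d j) * X π (.x j)) = X π (.d j) * X π (.x j) := by
    intro j
    rw [map_mul, tau_X, tau_X, smul_mul_assoc, mul_smul_comm, smul_smul]
    have : tw t (.d j) * tw t (.x j) = 1 := by
      have h0 := t.h0
      have h1 := t.h1
      rcases fin2 j with rfl | rfl
      · simp [tw, h0]
      · simp [tw, h1]
    rw [this, one_smul]
  rw [tR, map_add, map_smul, map_add, hd, hd, tau_h]

theorem tau_thR (t : Tor K) (e : ℤ) : tau π t (thR π e) = thR π e := by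
  rw [thR, map_sub, map_smul, tau_h, tau_t]

/-- left and right multiplication on `o_q` agree -/
theorem oM_comm (q : Wb) {r : R π} (hr : ∀ t, tau π t r = r) :
    repM π r (oM π q 1) = rho π r (oM π q 1) := by
  have h1 : repM π r (oM π q 1) = oM π q (r * 1) := smul_oM π q r 1
  have h2 : rho π r (oM π q 1) = oM π q (1 * tau π (Tq π q) r) := op_smul_oM π q r 1
  rw [h1, h2, hr, one_mul, mul_one]

/-! ### Koszul in `R''`, integer pieces -/

theorem kill_mulx (r : R π) (j : Fin 2) : kill π (r * X π (.x j)) = kill π r * X π (.x j) := by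
  rw [map_mul, C2b44.kill_x]

section ext

variable (s : ℕ) (hs : 2 ≤ s)

/-- the window data of `S = R'' (+) M` -/
abbrev wS : WD K := (bdM π s hs).ext

/-- the inclusion of `R''` -/
def iR (r : R π) : (wS π s hs).S := (bdM π s hs).el r 0

/-- the inclusion of `M` -/
def iM (m : MM π) : (wS π s hs).S := (bdM π s hs).el 0 m

/-- the first component -/
def F1 : (wS π s hs).S →ₗ[K] R π where
  toFun x := (x : (bdM π s hs).Car).1
  map_add' _ _ := rfl
  map_smul' _ _ := rfl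

/-- the second component -/
def F2 : (wS π s hs).S →ₗ[K] N K where
  toFun x := (x : (bdM π s hs).Car).2
  map_add' _ _ := rfl
  map_smul' _ _ := rfl

theorem ext2 {x y : (wS π s hs).S} (h1 : F1 π s hs x = F1 π s hs y) (h2 : F2 π s hs x = F2 π s hs y) :
    x = y := BD.Car.ext (bdM π s hs) h1 h2

theorem F1_mul (x y : (wS π s hs).S) : F1 π s hs (x * y) = F1 π s hs x * F1 π s hs y := rfl

theorem F2_mul (x y : (wS π s hs).S) : F2 π s hs (x * y) =
    repM π (F1 π s hs x) (F2 π s hs y) + rho π (F1 π s hs y) (F2 π s hs x) := rfl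

@[simp] theorem F1_iR (r : R π) : F1 π s hs (iR π s hs r) = r := rfl
@[simp] theorem F2_iR (r : R π) : F2 π s hs (iR π s hs r) = 0 := rfl
@[simp] theorem F1_iM (m : MM π) : F1 π s hs (iM π s hs m) = 0 := rfl
@[simp] theorem F2_iM (m : MM π) : F2 π s hs (iM π s hs m) = (show N K from m) := rfl

theorem mem_pc {P A C : ℤ} {x : (wS π s hs).S} : x ∈ (wS π s hs).pc P A C ↔
    F1 π s hs x ∈ pcZ π P A C ∧ (F2 π s hs x : MM π) ∈ pcM π s P A C := Iff.rfl

theorem iR_mem {P A C : ℤ} {r : R π} (h : r ∈ pcZ π P A C) :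
    iR π s hs r ∈ (wS π s hs).pc P A C := (mem_pc π s hs).2 ⟨h, Submodule.zero_mem _⟩

theorem iR_mul (a b : R π) : iR π s hs a * iR π s hs b = iR π s hs (a * b) := by
  apply ext2
  · rw [F1_mul, F1_iR, F1_iR, F1_iR]
  · rw [F2_mul, F2_iR, F2_iR, F2_iR, map_zero, map_zero, add_zero]

theorem iR_smul (c : K) (a : R π) : c • iR π s hs a = iR π s hs (c • a) := by
  apply ext2
  · rw [map_smul, F1_iR, F1_iR]
  · rw [map_smul, F2_iR, F2_iR, smul_zero]

theorem iR_D (a : R π) : (wS π s hs).D (iR π s hs a) = iR π s hs (Der580.D π a) := by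
  apply ext2
  · rfl
  · exact map_zero (dMM π)

theorem iR_zero : iR π s hs (0 : R π) = 0 := rfl

/-- `J1 = {x | kill x.1 = 0}` -/
def J1 : Submodule K (wS π s hs).S := LinearMap.ker ((kill π).toLinearMap ∘ₗ F1 π s hs)

theorem mem_J1 {x : (wS π s hs).S} : x ∈ J1 π s hs ↔ kill π (F1 π s hs x) = 0 := Iff.rfl

theorem mem_J1' {x : (wS π s hs).S} : x ∈ J1 π s hs ↔ F1 π s hs x ∈ C2b362.J π :=
  (mem_J1 π s hs).trans (KOS296.mem_J_iff_kill π).symm

theorem J1_of_zero {x : (wS π s hs).S} (h : F1 π s hs x = 0) : x ∈ J1 π s hs := by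
  rw [mem_J1, h, map_zero]

/-! ### theta -/

/-- 810's `Th` for `theta_e` -/
def thE (e : ℤ) : TR810.Th (wS π s hs) where
  t := iR π s hs (thR π e)
  mem := iR_mem π s hs (thR_pcZ π e)
  D0 := by rw [iR_D, D_thR, iR_zero]

/-- 810's `Th` for `h` -/
def thH : TR810.Th (wS π s hs) where
  t := iR π s hs (X π .h)
  mem := iR_mem π s hs (h_pcZ π)
  D0 := by rw [iR_D, D_h, iR_zero]

theorem thE_t (e : ℤ) : (thE π s hs e).t = iR π s hs (thR π e) := rfl
theorem thH_t : (thH π s hs).t = iR π s hs (X π .h) := rfl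

theorem thE_iwq (e : ℤ) (q : Wb) :
    (thE π s hs e).t * iR π s hs (wq π q) = iR π s hs (wq π q) * (thE π s hs e).t := by
  rw [thE_t, iR_mul, iR_mul, thR_wq]

theorem thH_iwq (q : Wb) :
    (thH π s hs).t * iR π s hs (wq π q) = iR π s hs (wq π q) * (thH π s hs).t := by
  rw [thH_t, iR_mul, iR_mul, WLF296.h_wq]

theorem iR_iM_comm {r : R π} (hr : ∀ t, tau π t r = r) (q : Wb) :
    iR π s hs r * iM π s hs (oM π q 1) = iM π s hs (oM π q 1) * iR π s hs r := by
  apply ext2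
  · rw [F1_mul, F1_mul, F1_iR, F1_iM, mul_zero, zero_mul]
  · rw [F2_mul, F2_mul, F2_iR, F1_iR, F1_iM, map_zero, map_zero]
    have e := oM_comm π q hr
    have e1 : repM π r (F2 π s hs (iM π s hs (oM π q 1))) =
      rho π r (F2 π s hs (iM π s hs (oM π q 1))) := e
    rw [e1]
    exact (add_zero _).trans (zero_add _).symm

theorem thE_iM (e : ℤ) (q : Wb) :
    (thE π s hs e).t * iM π s hs (oM π q 1) = iM π s hs (oM π q 1) * (thE π s hs e).t :=
  iR_iM_comm π s hs (fun t => tau_thR π t e) q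

theorem thH_iM (q : Wb) :
    (thH π s hs).t * iM π s hs (oM π q 1) = iM π s hs (oM π q 1) * (thH π s hs).t :=
  iR_iM_comm π s hs (fun t => tau_h π t) q

/-- `x_j` -/
def xx (j : Fin 2) : (wS π s hs).S := iR π s hs (X π (.x j))

/-- the other `x` -/
def kx (j : Fin 2) : (wS π s hs).S := xx π s hs (1 - j)

theorem kx_zero : kx π s hs 0 = xx π s hs 1 := rfl
theorem kx_one : kx π s hs 1 = xx π s hs 0 := rfl
theorem F1_xx (j : Fin 2) : F1 π s hs (xx π s hs j) = X π (.x j) := rfl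

theorem xx_mem (j : Fin 2) : xx π s hs j ∈ (wS π s hs).pc 1 0 0 :=
  iR_mem π s hs (x_pcZ π j)

theorem kx_mem (j : Fin 2) : kx π s hs j ∈ (wS π s hs).pc 1 0 0 := xx_mem π s hs _

theorem xx_D (j : Fin 2) : (wS π s hs).D (xx π s hs j) = 0 := by
  rw [xx, iR_D, D_x, iR_zero]

theorem kx_D (j : Fin 2) : (wS π s hs).D (kx π s hs j) = 0 := xx_D π s hs _

/-- commutation, right form -/
theorem xx_thE (e : ℤ) (j : Fin 2) :
    xx π s hs j * (thE π s hs e).t = π.g • ((thE π s hs (e + 1)).t * xx π s hs j) := by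
  rw [thE_t, thE_t, xx, iR_mul, iR_mul, iR_smul, x_thR]

/-- commutation, left form -/
theorem thE_xx (e : ℤ) (j : Fin 2) :
    (thE π s hs e).t * xx π s hs j = π.g⁻¹ • (xx π s hs j * (thE π s hs (e - 1)).t) := by
  rw [thE_t, thE_t, xx, iR_mul, iR_mul, iR_smul, thR_x]

theorem xx_thH (j : Fin 2) : xx π s hs j * (thH π s hs).t = (thH π s hs).t * xx π s hs j := by
  rw [thH_t, xx, iR_mul, iR_mul, x_h]

/-- scalar multiples of a theta -/
def scT (c : K) (θ : TR810.Th (wS π s hs)) : TR810.Th (wS π s hs) where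
  t := c • θ.t
  mem := Submodule.smul_mem _ _ θ.mem
  D0 := by rw [map_smul, θ.D0, smul_zero]

/-! ### right Koszul -/

theorem genR {P A C : ℤ} {y : (wS π s hs).S} (hP : 1 ≤ P) (hy : y ∈ (wS π s hs).pc P A C) :
    ∃ z : Fin 2 → (wS π s hs).S, (∀ j, z j ∈ (wS π s hs).pc (P - 1) A C) ∧
      y - ∑ j, z j * xx π s hs j ∈ J1 π s hs := by
  have hy1 := ((mem_pc π s hs).1 hy).1
  rw [KOS296.pcZ_eq_pz] at hy1
  obtain ⟨a, ha, b, hb, e⟩ := KOS296.xr_surZ π hP hy1
  rw [← KOS296.pcZ_eq_pz] at ha hb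
  refine ⟨fun j => iR π s hs (if j = 0 then a else b), fun j => iR_mem π s hs ?_, ?_⟩
  · split_ifs
    · exact ha
    · exact hb
  · apply J1_of_zero
    rw [Fin.sum_univ_two]
    beta_reduce
    rw [if_pos rfl, if_neg one_ne_zero, map_sub, map_add, F1_mul, F1_mul, F1_iR,
      F1_iR, F1_xx, F1_xx, ← e, sub_self]

theorem kerR {P A C : ℤ} (z : Fin 2 → (wS π s hs).S)
    (hz : ∀ j, z j ∈ (wS π s hs).pc (P - 1) A C) (h : ∑ j, z j * xx π s hs j ∈ J1 π s hs) :
    ∃ v ∈ (wS π s hs).pc (P - 2) A C, ∀ j, z j - v * kx π s hs j ∈ J1 π s hs := by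
  have h2 : ∀ r : R π, -r = r := fun r => by
    rw [neg_eq_iff_add_eq_zero]
    exact Der580.add_self π r
  have hz1 : ∀ j, F1 π s hs (z j) ∈ pz π (P - 1) A C := fun j => by
    have := ((mem_pc π s hs).1 (hz j)).1
    rwa [KOS296.pcZ_eq_pz] at this
  rw [Fin.sum_univ_two, mem_J1', map_add, F1_mul, F1_mul, F1_xx, F1_xx] at h
  have h' : F1 π s hs (z 1) * X π (.x 1) - F1 π s hs (z 0) * X π (.x 0) ∈ C2b362.J π := by
    rw [sub_eq_add_neg, h2, add_comm]
    exact h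
  obtain ⟨c, hc, e1, e0⟩ := KOS296.jr_ker π (hz1 1) h'
  refine ⟨iR π s hs c, iR_mem π s hs ?_, fun j => ?_⟩
  · rw [KOS296.pcZ_eq_pz, show P - 2 = P - 1 - 1 by ring]
    exact hc
  · rw [mem_J1', map_sub, F1_mul, F1_iR]
    rcases fin2 j with rfl | rfl
    · rw [kx_zero, F1_xx]; exact e0
    · rw [kx_one, F1_xx]; exact e1

theorem injR {v : (wS π s hs).S} (h : v * kx π s hs 0 ∈ J1 π s hs) : v ∈ J1 π s hs := by
  rw [mem_J1', F1_mul, kx_zero, F1_xx] at h
  rw [mem_J1']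
  exact KOS296.jr_inj π 1 h

/-! ### left Koszul -/

theorem genL {P A C : ℤ} {y : (wS π s hs).S} (hP : 1 ≤ P) (hy : y ∈ (wS π s hs).pc P A C) :
    ∃ z : Fin 2 → (wS π s hs).S, (∀ j, z j ∈ (wS π s hs).pc (P - 1) A C) ∧
      y - ∑ j, xx π s hs j * z j ∈ J1 π s hs := by
  have hy1 := ((mem_pc π s hs).1 hy).1
  rw [KOS296.pcZ_eq_pz] at hy1
  obtain ⟨a, ha, b, hb, e⟩ := Kos374.xl_surZ π hP hy1
  rw [← KOS296.pcZ_eq_pz] at ha hb
  refine ⟨fun j => iR π s hs (if j = 0 then a else b), fun j => iR_mem π s hs ?_, ?_⟩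
  · split_ifs
    · exact ha
    · exact hb
  · apply J1_of_zero
    rw [Fin.sum_univ_two]
    beta_reduce
    rw [if_pos rfl, if_neg one_ne_zero, map_sub, map_add, F1_mul, F1_mul, F1_iR,
      F1_iR, F1_xx, F1_xx, ← e, sub_self]

theorem kerL {P A C : ℤ} (z : Fin 2 → (wS π s hs).S)
    (hz : ∀ j, z j ∈ (wS π s hs).pc (P - 1) A C) (h : ∑ j, xx π s hs j * z j ∈ J1 π s hs) :
    ∃ v ∈ (wS π s hs).pc (P - 2) A C, ∀ j, z j - kx π s hs j * v ∈ J1 π s hs := by
  have h2 : ∀ r : R π, -r = r := fun r => by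
    rw [neg_eq_iff_add_eq_zero]
    exact Der580.add_self π r
  have hz1 : ∀ j, F1 π s hs (z j) ∈ pz π (P - 1) A C := fun j => by
    have := ((mem_pc π s hs).1 (hz j)).1
    rwa [KOS296.pcZ_eq_pz] at this
  rw [Fin.sum_univ_two, mem_J1', map_add, F1_mul, F1_mul, F1_xx, F1_xx] at h
  have h' : X π (.x 1) * F1 π s hs (z 1) - X π (.x 0) * F1 π s hs (z 0) ∈ C2b362.J π := by
    rw [sub_eq_add_neg, h2, add_comm]
    exact h
  obtain ⟨c, hc, e1, e0⟩ := Kos374.jl_ker π (hz1 1) h'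
  refine ⟨iR π s hs c, iR_mem π s hs ?_, fun j => ?_⟩
  · rw [KOS296.pcZ_eq_pz, show P - 2 = P - 1 - 1 by ring]
    exact hc
  · rw [mem_J1', map_sub, F1_mul, F1_iR]
    rcases fin2 j with rfl | rfl
    · rw [kx_zero, F1_xx]; exact e0
    · rw [kx_one, F1_xx]; exact e1

theorem injL {v : (wS π s hs).S} (h : kx π s hs 0 * v ∈ J1 π s hs) : v ∈ J1 π s hs := by
  rw [mem_J1', F1_mul, kx_zero, F1_xx] at h
  rw [mem_J1']
  exact Kos374.jl_inj π 1 h

/-- the Koszul relation, both orders -/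
theorem x_kR : ∑ j, kx π s hs j * xx π s hs j ∈ J1 π s hs := by
  apply J1_of_zero
  rw [Fin.sum_univ_two, kx_zero, kx_one, map_add, F1_mul, F1_mul, F1_xx, F1_xx, rxx]
  exact Der580.add_self π _

theorem x_kL : ∑ j, xx π s hs j * kx π s hs j ∈ J1 π s hs := by
  apply J1_of_zero
  rw [Fin.sum_univ_two, kx_zero, kx_one, map_add, F1_mul, F1_mul, F1_xx, F1_xx, rxx]
  exact Der580.add_self π _

end ext

end Crest.Agent.R186.TRopK374
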