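import Crest.Agent.R186.TR_810
import Crest.Agent.R186.Opw_671
import Crest.Agent.R186.SMp_890
import Crest.Agent.R186.C1R_808
import Crest.Agent.R186.TRopK_374

/-!
Row 186 (A), short road, (TR') (helper671): the opposite window data and the instance of 810's
`TRD` for the RIGHT multiplications on `Γ = (bdM π s hs).ext`.

* `FR π k`, `FM π k` : filtrations of `R''` (by `|w|`) and of `M` (socle filtration of `DW`).
* `trdOp π s hs : TRD (opW (bdM π s hs).ext 1 3)`.
-/

set_option autoImplicit false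
set_option linter.style.haveILetI false

noncomputable section

namespace Crest.Agent.R186.TRop671

open MulOpposite Hat827 Win810 TR810 Opw671 SExt44
open DefsQ830 DefsQ830.Gen PBW128 SM890 C1R808
open Crest.Agent.R186.Cells221 (tR tR_mem D_tR)
open Crest.Agent.R186.C2b44 (kill kill_kill)

variable {K : Type} [Field K]

/-! ### filtrations -/

variable (π : Par K)

/-- `R'' · (words of length ≥ k)` -/
def FR (k : ℕ) : Submodule K (R π) where
  carrier := {r | ∀ q, nq q < k → zc π q r = 0}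
  add_mem' ha hb q hq := by rw [map_add, ha q hq, hb q hq, add_zero]
  zero_mem' q _ := map_zero _
  smul_mem' c a ha q hq := by rw [map_smul, ha q hq, smul_zero]

/-- the part of `M` with socle degree `< k` -/
def FM (k : ℕ) : Submodule K (N K) where
  carrier := {m | ∀ q, k ≤ nq q → mc π q m = 0}
  add_mem' ha hb q hq := by rw [map_add, ha q hq, hb q hq, add_zero]
  zero_mem' q _ := map_zero _
  smul_mem' c a ha q hq := by rw [map_smul, ha q hq, smul_zero]

variable {π}

theorem mem_FR {k : ℕ} {r : R π} : r ∈ FR π k ↔ ∀ q, nq q < k → zc π q r = 0 := Iff.rfl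
theorem mem_FM {k : ℕ} {m : N K} : m ∈ FM π k ↔ ∀ q, k ≤ nq q → mc π q m = 0 := Iff.rfl

theorem nq_le (q : Wb) : nq q ≤ 2 := by cases q <;> simp [nq]

theorem FR_three {r : R π} (h : r ∈ FR π 3) : r = 0 := by
  rw [← zc_sum π r]
  refine Finset.sum_eq_zero fun q _ => ?_
  rw [h q (by have := nq_le q; omega), zero_mul]

theorem FM_zero {m : N K} (h : m ∈ FM π 0) : m = 0 := by
  rw [← mc_sum π m]
  refine Finset.sum_eq_zero fun q _ => ?_
  rw [h q (Nat.zero_le _), map_zero, LinearMap.zero_apply]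

theorem FM_three (m : N K) : m ∈ FM π 3 := fun q hq => by
  have := nq_le q
  omega

theorem FR_anti {k l : ℕ} (h : k ≤ l) : FR π l ≤ FR π k := fun _ hr q hq => hr q (by omega)
theorem FM_mono {k l : ℕ} (h : k ≤ l) : FM π k ≤ FM π l := fun _ hr q hq => hr q (by omega)

/-- the structure constants of `W`: lengths -/
theorem wt2_len (w q : Wb) : (w ≠ .one → nq q < nq (wt2 w q) ∨ wk2 π w q = 0 ∨ q = .one) ∧
    nq q ≤ nq (wt2 w q) := by
  rcases w with _ | a | a | _ <;> rcases q with _ | b | b | _ <;> simp [wt2, wk2, nq]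

/-- components of `t * wq q` -/
theorem zc_mul_wq_any (q q' : Wb) (t : R π) : zc π q' (t * wq π q) =
    ∑ w, if wt2 w q = q' then wk2 π w q • zc π w t else 0 := by
  conv_lhs => rw [← zc_sum π t, Finset.sum_mul, map_sum]
  refine Finset.sum_congr rfl fun w _ => ?_
  rw [mul_assoc, wq_mul_wq, mul_smul_comm, map_smul, zc_mul_wq π q' _ (zc_mem π w t)]
  split_ifs <;> simp

theorem wq_mem_FR (q : Wb) (t : R π) {k : ℕ} (h : k ≤ nq q) : t * wq π q ∈ FR π k := by
  intro q' hq'
  rw [zc_mul_wq_any]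
  refine Finset.sum_eq_zero fun w _ => ?_
  rw [if_neg]
  rintro rfl
  have := (wt2_len (π := π) w q).2
  omega

theorem FR_ind {k : ℕ} {T : Submodule K (R π)} (h : ∀ q t, k ≤ nq q → t * wq π q ∈ T) :
    FR π k ≤ T := by
  intro r hr
  rw [← zc_sum π r]
  refine Submodule.sum_mem _ fun q _ => ?_
  by_cases hq : k ≤ nq q
  · exact h q _ hq
  · rw [hr q (by omega), zero_mul]
    exact Submodule.zero_mem _

theorem FR_l {k : ℕ} (s : R π) {r : R π} (hr : r ∈ FR π k) : s * r ∈ FR π k := by
  have h : FR π k ≤ (FR π k).comap (LinearMap.mulLeft K s) := by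
    refine FR_ind fun q t hq => ?_
    change s * (t * wq π q) ∈ FR π k
    rw [← mul_assoc]
    exact wq_mem_FR q _ hq
  exact h hr

theorem wq_gen_mem (q : Wb) (a : Gen) (t : R π) {k : ℕ} (hq : k ≤ nq q) :
    t * wq π q * X π a ∈ FR π k := by
  by_cases ha : nonW a = true
  · have h := wq_nonW π q a ha
    have h2 : wq π q * X π a = (tw (Tq π q) a)⁻¹ • (X π a * wq π q) := by
      rw [← h, smul_smul, inv_mul_cancel₀ (tw_ne _ _), one_smul]
    rw [mul_assoc, h2, mul_smul_comm, ← mul_assoc]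
    exact Submodule.smul_mem _ _ (wq_mem_FR q _ hq)
  · obtain ⟨a, rfl⟩ : ∃ b : Y, a = b.toGen := by
      cases a with
      | y s => exact ⟨.y s, rfl⟩
      | yb s => exact ⟨.yb s, rfl⟩
      | _ => exact absurd rfl ha
    rw [← wq_yw, mul_assoc, wq_mul_wq, mul_smul_comm]
    refine Submodule.smul_mem _ _ ?_
    have h := (wt2_len (π := π) (yw a) q).2
    have h' : nq q ≤ nq (wt2 q (yw a)) := by
      rcases q with _ | b | b | _ <;> rcases a with c | c <;> simp [wt2, nq, yw]
    exact wq_mem_FR _ _ (by omega)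

theorem FR_r {k : ℕ} (s : R π) : ∀ {r : R π}, r ∈ FR π k → r * s ∈ FR π k := by
  refine PBW128.R_ind π (P := fun s => ∀ {r : R π}, r ∈ FR π k → r * s ∈ FR π k) ?_ ?_ ?_ ?_ s
  · intro c r hr
    rw [← Algebra.commutes, ← Algebra.smul_def]
    exact Submodule.smul_mem _ _ hr
  · intro a r hr
    have h : FR π k ≤ (FR π k).comap (LinearMap.mulRight K (X π a)) :=
      FR_ind fun q t hq => wq_gen_mem q a t hq
    exact h hr
  · intro a b ha hb r hr
    rw [← mul_assoc]
    exact hb (ha hr)
  · intro a b ha hb r hr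
    rw [mul_add]
    exact Submodule.add_mem _ (ha hr) (hb hr)

theorem FR_D {k : ℕ} {r : R π} (hr : r ∈ FR π k) : Der580.D π r ∈ FR π k := by
  have h : FR π k ≤ (FR π k).comap (Der580.D π) := by
    refine FR_ind fun q t hq => ?_
    change Der580.D π (t * wq π q) ∈ FR π k
    rw [RW_D]
    exact wq_mem_FR q _ hq
  exact h hr

/-! ### `M` -/

theorem dt2_len (w q : Wb) : (w ≠ .one → nq (dt2 w q) < nq q ∨ dk2 π w q = 0) ∧
    (nq (dt2 w q) ≤ nq q ∨ dk2 π w q = 0) := by
  have h10 : (1 : Fin 2) ≠ 0 := by decide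
  have h01 : (0 : Fin 2) ≠ 1 := by decide
  rcases w with _ | a | a | _ <;> rcases q with _ | b | b | _ <;>
    (try rcases fin2 a with rfl | rfl) <;> (try rcases fin2 b with rfl | rfl) <;>
    simp [dt2, dk2, nq, dt, dk, h10, h01]

theorem mc_oM (q q' : Wb) (t : R π) : mc π q' (repM π t (oo K q)) =
    ∑ w, if dt2 w q = q' then dk2 π w q • zc π w t else 0 := by
  rw [repM_eq, map_sum]
  refine Finset.sum_congr rfl fun w _ => ?_
  rw [map_smul, mc_repM π q' _ (zc_mem π w t)]
  split_ifs <;> simp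

theorem oM_mem_FM (q : Wb) (t : R π) {k : ℕ} (h : nq q < k) : repM π t (oo K q) ∈ FM π k := by
  intro q' hq'
  rw [mc_oM]
  refine Finset.sum_eq_zero fun w _ => ?_
  split_ifs with h1
  · subst h1
    rcases (dt2_len (π := π) w q).2 with h2 | h2
    · omega
    · rw [h2, zero_smul]
  · rfl

/-- `J` lowers the socle degree -/
theorem oM_mem_FM_J (q : Wb) {t : R π} (ht : t ∈ FR π 1) {k : ℕ} (h : nq q ≤ k) :
    repM π t (oo K q) ∈ FM π k := by
  intro q' hq'
  rw [mc_oM]
  refine Finset.sum_eq_zero fun w _ => ?_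
  by_cases hw : w = .one
  · subst hw
    rw [ht .one (by simp [nq]), smul_zero]
    split_ifs <;> rfl
  split_ifs with h1
  · subst h1
    rcases (dt2_len (π := π) w q).1 hw with h2 | h2
    · omega
    · rw [h2, zero_smul]
  · rfl

theorem FM_ind {k : ℕ} {T : Submodule K (N K)} (h : ∀ q t, nq q < k → repM π t (oo K q) ∈ T) :
    FM π k ≤ T := by
  intro m hm
  rw [← mc_sum π m]
  refine Submodule.sum_mem _ fun q _ => ?_
  by_cases hq : nq q < k
  · exact h q _ hq
  · rw [hm q (by omega), map_zero, LinearMap.zero_apply]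
    exact Submodule.zero_mem _

theorem FM_l {k : ℕ} (s : R π) {m : N K} (hm : m ∈ FM π k) : repM π s m ∈ FM π k := by
  have h : FM π k ≤ (FM π k).comap (repM π s) := by
    refine FM_ind fun q t hq => ?_
    change repM π s (repM π t (oo K q)) ∈ FM π k
    rw [repM_repM]
    exact oM_mem_FM q _ hq
  exact h hm

theorem FM_r {k : ℕ} (s : R π) {m : N K} (hm : m ∈ FM π k) : rho π s m ∈ FM π k := by
  have h : FM π k ≤ (FM π k).comap (rho π s) := by
    refine FM_ind fun q t hq => ?_
    change rho π s (repM π t (oo K q)) ∈ FM π k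
    rw [rho_repM]
    exact oM_mem_FM q _ hq
  exact h hm

theorem FM_D {k : ℕ} {m : N K} (hm : m ∈ FM π k) : dM π m ∈ FM π k := by
  have h : FM π k ≤ (FM π k).comap (dM π) := by
    refine FM_ind fun q t hq => ?_
    change dM π (repM π t (oo K q)) ∈ FM π k
    rw [dM_repM]
    exact oM_mem_FM q _ hq
  exact h hm

/-! ### degrees -/

theorem nf1_pcZ (i j k : ℕ) (w : List E) : nf1 π i j k w ∈
    pcZ π (dPx (i, j, k, w, .one)) (dAx (i, j, k, w, .one))
      (((w.map (fun l => l.toGen.dC)).sum : ℕ) : ℤ) := by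
  have h4 := nf_mem_pc π (i, j, k, w, .one)
  have e2 : dCx (i, j, k, w, .one) = (w.map (fun l => l.toGen.dC)).sum := by
    simp [dCx, Wb.word, wC]
  rw [e2] at h4
  rw [pcZ_nat]
  exact h4

theorem mc_pcZ {s : ℕ} {P A C : ℤ} {m : N K} (hm : m ∈ pcM π s P A C) (q : Wb) :
    mc π q m ∈ pcZ π (P + 1) A (C - s + wC q.word) := by
  rw [pcM_supported] at hm
  have h : (Finsupp.supported K K (mI s P A C) : Submodule K (N K)) ≤
      (pcZ π (P + 1) A (C - s + wC q.word)).comap (mc π q) := by
    rw [Finsupp.supported_eq_span_single, Submodule.span_le]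
    rintro _ ⟨⟨i, j, k, w, q'⟩, ⟨h1, h2, h3⟩, rfl⟩
    change mc π q (bv K i j k w q') ∈ pcZ π (P + 1) A (C - s + wC q.word)
    rw [mc_bv]
    split_ifs with h
    · subst h
      have h5 := nf1_pcZ (π := π) i j k w
      have e1 : dPx (i, j, k, w, .one) = P + 1 := by
        have : mP (i, j, k, w, q') = dPx (i, j, k, w, .one) - 1 := rfl
        omega
      have e2 : (dAx (i, j, k, w, .one) : ℤ) = A := h2
      have e3 : (((w.map (fun l => l.toGen.dC)).sum : ℕ) : ℤ) = C - s + wC q'.word := by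
        have : mC s (i, j, k, w, q') =
          (((w.map (fun l => l.toGen.dC)).sum : ℕ) : ℤ) - wC q'.word + s := rfl
        omega
      rw [e1, e2, e3] at h5
      exact h5
    · exact Submodule.zero_mem _
  exact h hm

theorem wq_pcZ (q : Wb) : wq π q ∈ pcZ π 0 0 (wC q.word) := by
  have h := nf_mem_pc π (0, 0, 0, [], q)
  have e : nf π (0, 0, 0, [], q) = wq π q := by
    rw [nf_eq, nf1_def]
    simp [we, wd]
  rw [e] at h
  have e2 : dCx (0, 0, 0, [], q) = wC q.word := by simp [dCx]
  have e3 : dPx (0, 0, 0, [], q) = 0 := by simp [dPx]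
  have e4 : dAx (0, 0, 0, [], q) = 0 := by simp [dAx]
  rw [e2, e3, e4] at h
  have := (pcZ_nat π 0 0 (wC q.word))
  rw [← this] at h
  exact_mod_cast h

/-! ### the layers -/

/-- coordinates of the length `l` layer of `R''` -/
theorem FR_uniq {l : ℕ} (hl : 1 ≤ l) (z : Wb → R π)
    (h : ∑ q with nq q = l, z q * wq π q ∈ FR π (l + 1)) (q : Wb) (hq : nq q = l) :
    z q ∈ FR π 1 := by
  have h1 := h q (by omega)
  rw [map_sum, Finset.sum_eq_single q] at h1
  · rw [zc_mul_wq_any, Finset.sum_eq_single .one] at h1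
    · intro q' hq'
      obtain rfl : q' = .one := by
        cases q' with
        | one => rfl
        | y s => simp [nq] at hq'
        | yb s => simp [nq] at hq'
        | pi => simp [nq] at hq'
      have e1 : wt2 .one q = q := rfl
      have e2 : wk2 π .one q = 1 := rfl
      rw [if_pos e1, e2, one_smul] at h1
      exact h1
    · intro w _ hw
      rcases (wt2_len (π := π) w q).1 hw with h2 | h2 | h2
      · rw [if_neg]
        intro h3
        rw [h3] at h2
        omega
      · split_ifs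
        · rw [h2, zero_smul]
        · rfl
      · rw [h2] at hq
        simp [nq] at hq
        omega
    · intro h2
      exact absurd (Finset.mem_univ _) h2
  · intro q' hq' hne
    have hq2 : nq q' = l := by simpa using hq'
    rw [zc_mul_wq_any]
    refine Finset.sum_eq_zero fun w _ => ?_
    by_cases hw : w = .one
    · subst hw
      exact if_neg hne
    · rcases (wt2_len (π := π) w q').1 hw with h2 | h2 | h2
      · rw [if_neg]
        intro h3
        rw [h3] at h2
        omega
      · split_ifs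
        · rw [h2, zero_smul]
        · rfl
      · rw [h2] at hq2
        simp [nq] at hq2
        omega
  · intro h2
    exact absurd (by simpa using hq) h2

theorem FR_gen {l : ℕ} {r : R π} (hr : r ∈ FR π l) :
    r - ∑ q with nq q = l, zc π q r * wq π q ∈ FR π (l + 1) := by
  have e : r - ∑ q with nq q = l, zc π q r * wq π q =
      ∑ q with nq q ≠ l, zc π q r * wq π q := by
    rw [sub_eq_iff_eq_add]
    conv_lhs => rw [← zc_sum π r]
    rw [← Finset.sum_filter_add_sum_filter_not Finset.univ (fun q => nq q = l), add_comm]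
  rw [e]
  refine Submodule.sum_mem _ fun q hq => ?_
  have hq2 : nq q ≠ l := by simpa using hq
  by_cases h : nq q < l
  · rw [hr q h, zero_mul]
    exact Submodule.zero_mem _
  · exact wq_mem_FR q _ (by omega)

/-- coordinates of the socle layer `l` of `M` -/
theorem FM_uniq {l : ℕ} (z : Wb → R π)
    (h : ∑ q with nq q = l, repM π (z q) (oo K q) ∈ FM π l) (q : Wb) (hq : nq q = l) :
    z q ∈ FR π 1 := by
  have h1 := h q (by omega)
  rw [map_sum, Finset.sum_eq_single q] at h1
  · rw [mc_oM, Finset.sum_eq_single .one] at h1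
    · intro q' hq'
      obtain rfl : q' = .one := by
        cases q' with
        | one => rfl
        | y s => simp [nq] at hq'
        | yb s => simp [nq] at hq'
        | pi => simp [nq] at hq'
      have e1 : dt2 .one q = q := rfl
      have e2 : dk2 π .one q = 1 := rfl
      rw [if_pos e1, e2, one_smul] at h1
      exact h1
    · intro w _ hw
      rcases (dt2_len (π := π) w q).1 hw with h2 | h2
      · rw [if_neg]
        intro h3
        rw [h3] at h2
        omega
      · split_ifs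
        · rw [h2, zero_smul]
        · rfl
    · intro h2
      exact absurd (Finset.mem_univ _) h2
  · intro q' hq' hne
    have hq2 : nq q' = l := by simpa using hq'
    rw [mc_oM]
    refine Finset.sum_eq_zero fun w _ => ?_
    by_cases hw : w = .one
    · subst hw
      exact if_neg hne
    · rcases (dt2_len (π := π) w q').1 hw with h2 | h2
      · rw [if_neg]
        intro h3
        rw [h3] at h2
        omega
      · split_ifs
        · rw [h2, zero_smul]
        · rfl
  · intro h2
    exact absurd (by simpa using hq) h2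

theorem FM_gen {l : ℕ} {m : N K} (hm : m ∈ FM π (l + 1)) :
    m - ∑ q with nq q = l, repM π (mc π q m) (oo K q) ∈ FM π l := by
  have e : m - ∑ q with nq q = l, repM π (mc π q m) (oo K q) =
      ∑ q with nq q ≠ l, repM π (mc π q m) (oo K q) := by
    rw [sub_eq_iff_eq_add]
    conv_lhs => rw [← mc_sum π m]
    rw [← Finset.sum_filter_add_sum_filter_not Finset.univ (fun q => nq q = l), add_comm]
  rw [e]
  refine Submodule.sum_mem _ fun q hq => ?_
  have hq2 : nq q ≠ l := by simpa using hq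
  by_cases h : l < nq q
  · rw [hm q (by omega), map_zero, LinearMap.zero_apply]
    exact Submodule.zero_mem _
  · exact oM_mem_FM q _ (by omega)

theorem FR_mul_wq {q : Wb} (hq : q ≠ .one) {a : R π} (ha : a ∈ FR π 1) :
    a * wq π q ∈ FR π (nq q + 1) := by
  intro q' hq'
  rw [zc_mul_wq_any]
  refine Finset.sum_eq_zero fun w _ => ?_
  by_cases hw : w = .one
  · subst hw
    rw [ha .one (by simp [nq]), smul_zero]
    split_ifs <;> rfl
  · rcases (wt2_len (π := π) w q).1 hw with h2 | h2 | h2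
    · rw [if_neg]
      intro h3
      rw [h3] at h2
      omega
    · split_ifs
      · rw [h2, zero_smul]
      · rfl
    · exact absurd h2 hq

theorem mem_FR_one {r : R π} : r ∈ FR π 1 ↔ r ∈ C2b362.J π := by
  rw [mem_J_iff_zc]
  constructor
  · intro h
    exact h .one (by simp [nq])
  · intro h q hq
    cases q with
    | one => exact h
    | y s => simp [nq] at hq
    | yb s => simp [nq] at hq
    | pi => simp [nq] at hq

/-! ### the instance -/

open TRopK374

section inst

variable (π) (s : ℕ) (hs : 2 ≤ s)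

/-- the opposite window data of `Γ` -/
abbrev wO : WD K := opW (wS π s hs) 1 3

/-- thresholds -/
def rk (i : ℕ) : ℕ := if i < 2 then i + 1 else 3
/-- thresholds -/
def mk' (i : ℕ) : ℕ := min 3 (5 - i)
/-- lengths of the letters of the layers -/
def lv (i : ℕ) : ℕ := if i < 2 then i + 1 else if i < 5 then 4 - i else 3

/-- the filtration -/
def Flo (i : ℕ) : Submodule K (wS π s hs).Sᵐᵒᵖ where
  carrier := {x | F1 π s hs x.unop ∈ FR π (rk i) ∧ F2 π s hs x.unop ∈ FM π (mk' i)}
  add_mem' := by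
    rintro a b ⟨h1, h2⟩ ⟨h3, h4⟩
    exact ⟨Submodule.add_mem _ h1 h3, Submodule.add_mem _ h2 h4⟩
  zero_mem' := ⟨Submodule.zero_mem _, Submodule.zero_mem _⟩
  smul_mem' := by
    rintro c a ⟨h1, h2⟩
    exact ⟨Submodule.smul_mem _ c h1, Submodule.smul_mem _ c h2⟩

/-- the underlying element of a theta -/
def tt (θ : Th (wO π s hs)) : (wS π s hs).S := unop (show (wS π s hs).Sᵐᵒᵖ from θ.t)

/-- allowed thetas: `c h`, `c theta_e` with `m ≤ e`, `c ≠ 0` -/
def To (m : ℤ) (θ : Th (wO π s hs)) : Prop :=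
  ∃ c : K, c ≠ 0 ∧ ((∃ e : ℤ, m ≤ e ∧ tt π s hs θ = c • iR π s hs (thR π e)) ∨
    tt π s hs θ = c • iR π s hs (X π .h))

/-- letters of the layers -/
def uo (i : ℕ) (q : Wb) : (wS π s hs).Sᵐᵒᵖ :=
  if i < 2 then op (iR π s hs (wq π q)) else op (iM π s hs (oM π q 1))

variable {π s hs}

theorem mem_Flo {i : ℕ} {x : (wS π s hs).Sᵐᵒᵖ} : x ∈ Flo π s hs i ↔
    F1 π s hs x.unop ∈ FR π (rk i) ∧ F2 π s hs x.unop ∈ FM π (mk' i) := Iff.rfl

theorem mem_Flo_zero {x : (wS π s hs).Sᵐᵒᵖ} : x ∈ Flo π s hs 0 ↔ x.unop ∈ J1 π s hs := by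
  rw [mem_Flo, mem_J1', ← mem_FR_one]
  exact ⟨fun h => h.1, fun h => ⟨h, FM_three _⟩⟩

theorem FR_three_zero : (0 : R π) ∈ FR π 3 := Submodule.zero_mem _

theorem sum_sub {V : Type} [AddCommMonoid V] (l : ℕ) (f : Wb → V) :
    ∑ k : {q : Wb // nq q = l}, f k.1 = ∑ q with nq q = l, f q :=
  (Finset.sum_subtype (Finset.univ.filter fun q => nq q = l) (by simp) f).symm

theorem F2_mul' (x y : (wS π s hs).S) : F2 π s hs (x * y) =
    repM π (F1 π s hs x) (F2 π s hs y) + rho π (F1 π s hs y) (F2 π s hs x) := rfl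

theorem F1_sum {α : Type} (S : Finset α) (f : α → (wS π s hs).Sᵐᵒᵖ) :
    F1 π s hs (∑ k ∈ S, f k).unop = ∑ k ∈ S, F1 π s hs (f k).unop := by
  have h := map_sum ((F1 π s hs) ∘ₗ (opLinearEquiv K).symm.toLinearMap) f S
  exact h

theorem F2_sum {α : Type} (S : Finset α) (f : α → (wS π s hs).Sᵐᵒᵖ) :
    F2 π s hs (∑ k ∈ S, f k).unop = ∑ k ∈ S, F2 π s hs (f k).unop := by
  have h := map_sum ((F2 π s hs) ∘ₗ (opLinearEquiv K).symm.toLinearMap) f S
  exact h

theorem Flo_anti (i : ℕ) : Flo π s hs (i + 1) ≤ Flo π s hs i := by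
  rintro x ⟨h1, h2⟩
  refine ⟨FR_anti ?_ h1, FM_mono ?_ h2⟩
  · unfold rk; split_ifs <;> omega
  · unfold mk'; omega

theorem Flo_five : Flo π s hs 5 = ⊥ := by
  rw [eq_bot_iff]
  rintro x ⟨h1, h2⟩
  rw [Submodule.mem_bot]
  apply unop_injective
  apply ext2 π s hs
  · exact FR_three h1
  · exact FM_zero h2

/-- `FR · M ` is below every socle layer that occurs -/
theorem Flo_mul {i : ℕ} {a : (wS π s hs).S} (b : (wS π s hs).S)
    (ha : F1 π s hs a ∈ FR π (rk i)) (ha2 : F2 π s hs a ∈ FM π (mk' i)) :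
    (F1 π s hs (a * b) ∈ FR π (rk i) ∧ F2 π s hs (a * b) ∈ FM π (mk' i)) ∧
    (F1 π s hs (b * a) ∈ FR π (rk i) ∧ F2 π s hs (b * a) ∈ FM π (mk' i)) := by
  by_cases hi : i < 2
  · have e : mk' i = 3 := by unfold mk'; omega
    refine ⟨⟨?_, ?_⟩, ?_, ?_⟩
    · rw [F1_mul]; exact FR_r _ ha
    · rw [e]; exact FM_three _
    · rw [F1_mul]; exact FR_l _ ha
    · rw [e]; exact FM_three _
  · have e : rk i = 3 := by unfold rk; rw [if_neg hi]
    rw [e] at ha ⊢
    have h0 := FR_three ha
    refine ⟨⟨?_, ?_⟩, ?_, ?_⟩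
    · rw [F1_mul, h0, zero_mul]; exact Submodule.zero_mem _
    · rw [F2_mul, h0, map_zero, LinearMap.zero_apply, zero_add]
      exact FM_r _ ha2
    · rw [F1_mul, h0, mul_zero]; exact Submodule.zero_mem _
    · rw [F2_mul, h0, map_zero, LinearMap.zero_apply, add_zero]
      exact FM_l _ ha2

theorem Flo_D (i : ℕ) {a : (wS π s hs).Sᵐᵒᵖ} (ha : a ∈ Flo π s hs i) :
    (wO π s hs).D a ∈ Flo π s hs i := by
  refine ⟨?_, ?_⟩
  · exact FR_D ha.1
  · exact FM_D ha.2

theorem uo_mem_lo {i : ℕ} {q : Wb} (hi : i < 2) : uo π s hs i q = op (iR π s hs (wq π q)) := by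
  unfold uo; rw [if_pos hi]

theorem uo_mem_hi {i : ℕ} {q : Wb} (hi : ¬ i < 2) : uo π s hs i q = op (iM π s hs (oM π q 1)) := by
  unfold uo; rw [if_neg hi]

theorem oM_one (q : Wb) : (oM π q 1 : MM π) = repM π (1 : R π) (oo K q) := rfl

theorem lv_five {i : ℕ} (hi : ¬ i < 5) (k : {q : Wb // nq q = lv i}) : False := by
  have h : nq k.1 = lv i := k.2
  have h2 := nq_le k.1
  have h3 : lv i = 3 := by
    unfold lv
    rw [if_neg (by omega), if_neg hi]
  omega

theorem uo_F (i : ℕ) (k : {q : Wb // nq q = lv i}) : uo π s hs i k.1 ∈ Flo π s hs i := by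
  by_cases h5 : i < 5
  swap
  · exact (lv_five h5 k).elim
  obtain ⟨q, hk⟩ := k
  unfold lv at hk
  by_cases hi : i < 2
  · rw [uo_mem_lo hi, mem_Flo]
    rw [if_pos hi] at hk
    refine ⟨?_, Submodule.zero_mem _⟩
    change wq π q ∈ FR π (rk i)
    rw [← one_mul (wq π q)]
    apply wq_mem_FR
    unfold rk
    rw [if_pos hi]
    omega
  · rw [uo_mem_hi hi, mem_Flo]
    rw [if_neg hi, if_pos h5] at hk
    refine ⟨Submodule.zero_mem _, ?_⟩
    change repM π (1 : R π) (oo K q) ∈ FM π (mk' i)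
    apply oM_mem_FM
    unfold mk'
    omega

theorem uo_J (i : ℕ) (k : {q : Wb // nq q = lv i}) {x : (wS π s hs).Sᵐᵒᵖ}
    (hx : x ∈ Flo π s hs 0) : uo π s hs i k.1 * x ∈ Flo π s hs (i + 1) := by
  by_cases h5 : i < 5
  swap
  · exact (lv_five h5 k).elim
  obtain ⟨q, hk⟩ := k
  unfold lv at hk
  have hx1 : F1 π s hs x.unop ∈ FR π 1 := hx.1
  by_cases hi : i < 2
  · rw [uo_mem_lo hi, mem_Flo]
    rw [if_pos hi] at hk
    refine ⟨?_, ?_⟩
    · change F1 π s hs x.unop * wq π q ∈ FR π (rk (i + 1))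
      have hq : q ≠ .one := by
        intro h
        rw [h] at hk
        simp [nq] at hk
      have h := FR_mul_wq hq hx1
      rw [hk] at h
      have e : rk (i + 1) = i + 1 + 1 := by
        unfold rk; split_ifs <;> omega
      rw [e]
      exact h
    · have e : mk' (i + 1) = 3 := by unfold mk'; omega
      rw [e]
      exact FM_three _
  · rw [uo_mem_hi hi, mem_Flo]
    rw [if_neg hi, if_pos h5] at hk
    refine ⟨?_, ?_⟩
    · change F1 π s hs (x.unop * iM π s hs (oM π q 1)) ∈ FR π (rk (i + 1))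
      rw [F1_mul, F1_iM, mul_zero]
      exact Submodule.zero_mem _
    · change repM π (F1 π s hs x.unop) (repM π (1 : R π) (oo K q)) +
        rho π (0 : R π) (F2 π s hs x.unop) ∈ FM π (mk' (i + 1))
      rw [map_zero, LinearMap.zero_apply, add_zero, repM_repM, mul_one]
      apply oM_mem_FM_J _ hx1
      unfold mk'
      omega

theorem uo_D (i : ℕ) (q : Wb) : (wO π s hs).D (uo π s hs i q) ∈ Flo π s hs (i + 1) := by
  have h : (wO π s hs).D (uo π s hs i q) = 0 := by
    apply unop_injective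
    apply ext2 π s hs
    · by_cases hi : i < 2
      · rw [uo_mem_lo hi]
        exact C1R808.D_wq π q
      · rw [uo_mem_hi hi]
        exact map_zero (Der580.D π)
    · by_cases hi : i < 2
      · rw [uo_mem_lo hi]
        exact map_zero (dMM π)
      · rw [uo_mem_hi hi]
        change dMM π (oM π q 1) = 0
        rw [dMM_oM, Der580.D_one, map_zero]
  rw [h]
  exact Submodule.zero_mem _

theorem uo_mem (i : ℕ) (q : Wb) : uo π s hs i q ∈ (wO π s hs).pc (-(if i < 2 then (0 : ℤ) else 1)) 0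
    ((if i < 2 then wC q.word else s - wC q.word : ℕ) : ℤ) := by
  by_cases hi : i < 2
  · rw [uo_mem_lo hi, if_pos hi, if_pos hi, neg_zero]
    exact iR_mem π s hs (wq_pcZ q)
  · rw [uo_mem_hi hi, if_neg hi, if_neg hi]
    have h2 := wC_word_le q
    refine (mem_pc π s hs).2 ⟨Submodule.zero_mem _, ?_⟩
    change oM π q 1 ∈ pcM π s (-1) 0 ((s - wC q.word : ℕ) : ℤ)
    refine mem_pcM π s q (C' := 0) ?_ (by omega)
    exact pcZ_one π

theorem uo_th {m : ℤ} (θ : Th (wO π s hs)) (hθ : To π s hs m θ) (i : ℕ) (q : Wb) :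
    op (tt π s hs θ) * uo π s hs i q - uo π s hs i q * op (tt π s hs θ) ∈ Flo π s hs (i + 1) := by
  have h : op (tt π s hs θ) * uo π s hs i q - uo π s hs i q * op (tt π s hs θ) = 0 := by
    rw [sub_eq_zero]
    apply unop_injective
    rw [unop_mul, unop_mul, unop_op]
    obtain ⟨c, _, ⟨e, _, hθ⟩ | hθ⟩ := hθ
    · rw [hθ, mul_smul_comm, smul_mul_assoc]
      congr 1
      by_cases hi : i < 2
      · rw [uo_mem_lo hi, unop_op]
        exact (thE_iwq π s hs e q).symm
      · rw [uo_mem_hi hi, unop_op]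
        exact (thE_iM π s hs e q).symm
    · rw [hθ, mul_smul_comm, smul_mul_assoc]
      congr 1
      by_cases hi : i < 2
      · rw [uo_mem_lo hi, unop_op]
        exact (thH_iwq π s hs q).symm
      · rw [uo_mem_hi hi, unop_op]
        exact (thH_iM π s hs q).symm
  rw [h]
  exact Submodule.zero_mem _

theorem sum_ext (i : ℕ) {V : Type} [AddCommMonoid V] (f : {q : Wb // nq q = lv i} → V) :
    ∑ k, f k = ∑ q with nq q = lv i, (if h : nq q = lv i then f ⟨q, h⟩ else 0) := by
  rw [← sum_sub (lv i) (fun q => if h : nq q = lv i then f ⟨q, h⟩ else 0)]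
  refine Finset.sum_congr rfl fun k _ => ?_
  rw [dif_pos k.2]

theorem Fgen (i : ℕ) {P A C : ℤ} {x : (wS π s hs).Sᵐᵒᵖ} (h5 : i < 5) (hx : x ∈ Flo π s hs i)
    (hp : x.unop ∈ (wS π s hs).pc P A C) :
    ∃ z : {q : Wb // nq q = lv i} → (wS π s hs).Sᵐᵒᵖ,
      (∀ k, (z k).unop ∈ (wS π s hs).pc (P + (if i < 2 then (0 : ℤ) else 1)) A
        (C - ((if i < 2 then wC k.1.word else s - wC k.1.word : ℕ) : ℤ))) ∧
      x - ∑ k, uo π s hs i k.1 * z k ∈ Flo π s hs (i + 1) := by
  obtain ⟨h1, h2⟩ := (mem_pc π s hs).1 hp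
  by_cases hi : i < 2
  · refine ⟨fun k => op (iR π s hs (zc π k.1 (F1 π s hs x.unop))), fun k => ?_, ?_⟩
    · rw [if_pos hi, if_pos hi, add_zero]
      exact iR_mem π s hs (zc_pcZ π k.1 h1)
    · rw [mem_Flo, unop_sub, map_sub, map_sub, F1_sum]
      refine ⟨?_, ?_⟩
      · have e : ∑ k : {q : Wb // nq q = lv i}, F1 π s hs (uo π s hs i k.1 *
            op (iR π s hs (zc π k.1 (F1 π s hs x.unop)))).unop =
            ∑ q with nq q = lv i, zc π q (F1 π s hs x.unop) * wq π q := by
          rw [← sum_sub (lv i) (fun q => zc π q (F1 π s hs x.unop) * wq π q)]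
          refine Finset.sum_congr rfl fun k _ => ?_
          rw [uo_mem_lo hi]
          rfl
        rw [e]
        have e1 : lv i = i + 1 := by unfold lv; rw [if_pos hi]
        have e2 : rk i = i + 1 := by unfold rk; rw [if_pos hi]
        have e3 : rk (i + 1) = i + 1 + 1 := by unfold rk; split_ifs <;> omega
        rw [e3, e1]
        apply FR_gen
        rw [← e2]
        exact hx.1
      · have e : mk' (i + 1) = 3 := by unfold mk'; omega
        rw [e]
        exact FM_three _
  · refine ⟨fun k => op (iR π s hs (mc π k.1 (F2 π s hs x.unop))), fun k => ?_, ?_⟩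
    · rw [if_neg hi, if_neg hi]
      have h3 := mc_pcZ h2 k.1
      have h4 := wC_word_le k.1
      have e : C - ((s - wC k.1.word : ℕ) : ℤ) = C - s + wC k.1.word := by omega
      rw [e]
      exact iR_mem π s hs h3
    · rw [mem_Flo, unop_sub, map_sub, map_sub, F1_sum, F2_sum]
      have e0 : rk i = 3 := by unfold rk; rw [if_neg hi]
      have e0' : rk (i + 1) = 3 := by unfold rk; rw [if_neg (by omega)]
      have h0 : F1 π s hs x.unop = 0 := by
        apply FR_three
        rw [← e0]
        exact hx.1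
      refine ⟨?_, ?_⟩
      · rw [h0, Finset.sum_eq_zero, sub_zero]
        · exact Submodule.zero_mem _
        · intro k _
          rw [uo_mem_hi hi, unop_mul, unop_op, unop_op, F1_mul, F1_iM, mul_zero]
      · have e : ∑ k : {q : Wb // nq q = lv i}, F2 π s hs (uo π s hs i k.1 *
            op (iR π s hs (mc π k.1 (F2 π s hs x.unop)))).unop =
            ∑ q with nq q = lv i, repM π (mc π q (F2 π s hs x.unop)) (oo K q) := by
          rw [← sum_sub (lv i) (fun q => repM π (mc π q (F2 π s hs x.unop)) (oo K q))]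
          refine Finset.sum_congr rfl fun k _ => ?_
          rw [uo_mem_hi hi, unop_mul, unop_op, unop_op, F2_mul, F1_iR, F1_iM, F2_iR, map_zero,
            add_zero]
          change repM π _ (repM π (1 : R π) (oo K k.1)) = _
          rw [repM_repM, mul_one]
        rw [e]
        have e1 : lv i = 4 - i := by unfold lv; rw [if_neg hi, if_pos h5]
        have e2 : mk' i = (4 - i) + 1 := by unfold mk'; omega
        have e3 : mk' (i + 1) = 4 - i := by unfold mk'; omega
        rw [e3, e1]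
        apply FM_gen
        rw [← e2]
        exact hx.2

theorem Funiq (i : ℕ) (h5 : i < 5) (z : {q : Wb // nq q = lv i} → (wS π s hs).Sᵐᵒᵖ)
    (h : ∑ k, uo π s hs i k.1 * z k ∈ Flo π s hs (i + 1)) (k : {q : Wb // nq q = lv i}) :
    z k ∈ Flo π s hs 0 := by
  rw [mem_Flo_zero, mem_J1', ← mem_FR_one]
  obtain ⟨h1, h2⟩ := mem_Flo.1 h
  by_cases hi : i < 2
  · have e1 : lv i = i + 1 := by unfold lv; rw [if_pos hi]
    have e3 : rk (i + 1) = i + 1 + 1 := by unfold rk; split_ifs <;> omega
    rw [F1_sum, e3, sum_ext i] at h1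
    have e : ∑ q with nq q = lv i, (if h : nq q = lv i then
        F1 π s hs (uo π s hs i q * z ⟨q, h⟩).unop else 0) =
        ∑ q with nq q = i + 1, (if h : nq q = lv i then F1 π s hs (z ⟨q, h⟩).unop else 0) *
          wq π q := by
      rw [← e1]
      refine Finset.sum_congr rfl fun q hq => ?_
      have hq' : nq q = lv i := by simpa using hq
      rw [dif_pos hq', dif_pos hq', uo_mem_lo hi]
      rfl
    rw [e] at h1
    have h3 := FR_uniq (l := i + 1) (by omega)
      (fun q => if h : nq q = lv i then F1 π s hs (z ⟨q, h⟩).unop else 0) h1 k.1 (k.2.trans e1)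
    rw [dif_pos k.2] at h3
    exact h3
  · have e1 : lv i = 4 - i := by unfold lv; rw [if_neg hi, if_pos h5]
    have e3 : mk' (i + 1) = 4 - i := by unfold mk'; omega
    rw [F2_sum, e3, sum_ext i] at h2
    have e : ∑ q with nq q = lv i, (if h : nq q = lv i then
        F2 π s hs (uo π s hs i q * z ⟨q, h⟩).unop else 0) =
        ∑ q with nq q = 4 - i, repM π (if h : nq q = lv i then F1 π s hs (z ⟨q, h⟩).unop else 0)
          (oo K q) := by
      rw [← e1]
      refine Finset.sum_congr rfl fun q hq => ?_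
      have hq' : nq q = lv i := by simpa using hq
      rw [dif_pos hq', dif_pos hq', uo_mem_hi hi, unop_mul, unop_op, F2_mul, F1_iM, map_zero,
        LinearMap.zero_apply, add_zero]
      change repM π _ (repM π (1 : R π) (oo K q)) = _
      rw [repM_repM, mul_one]
    rw [e] at h2
    have h3 := FM_uniq (l := 4 - i)
      (fun q => if h : nq q = lv i then F1 π s hs (z ⟨q, h⟩).unop else 0) h2 k.1 (k.2.trans e1)
    rw [dif_pos k.2] at h3
    exact h3

variable (π s hs)

/-- scaled thetas of the opposite side -/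
def mkTh (c : K) (θ : Th (wS π s hs)) : Th (wO π s hs) where
  t := op (c • θ.t)
  mem := Submodule.smul_mem _ c θ.mem
  D0 := by
    apply unop_injective
    change (wS π s hs).D (c • θ.t) = 0
    rw [map_smul, θ.D0, smul_zero]

theorem tt_mkTh (c : K) (θ : Th (wS π s hs)) : tt π s hs (mkTh π s hs c θ) = c • θ.t := rfl

theorem T2x_op (θ : Th (wO π s hs)) (h : To π s hs (-1) θ) :
    ∃ θ' : Th (wO π s hs), To π s hs (-1) θ' ∧
      (∀ j, (op (tt π s hs θ) * op (xx π s hs j) - op (xx π s hs j) * op (tt π s hs θ') :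
        (wS π s hs).Sᵐᵒᵖ) ∈ Flo π s hs 0) ∧
      ∃ θ'' : Th (wO π s hs), To π s hs 1 θ'' ∧
      ∀ j, (op (tt π s hs θ') * op (kx π s hs j) - op (kx π s hs j) * op (tt π s hs θ'') :
        (wS π s hs).Sᵐᵒᵖ) ∈ Flo π s hs 0 := by
  obtain ⟨c, hc, ⟨e, he, h1⟩ | h1⟩ := h
  · refine ⟨mkTh π s hs (c * π.g) (thE π s hs (e + 1)), ⟨c * π.g, mul_ne_zero hc π.g0,
      Or.inl ⟨e + 1, by omega, rfl⟩⟩, fun j => ?_,
      mkTh π s hs (c * π.g * π.g) (thE π s hs (e + 1 + 1)),
      ⟨c * π.g * π.g, mul_ne_zero (mul_ne_zero hc π.g0) π.g0,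
      Or.inl ⟨e + 1 + 1, by omega, rfl⟩⟩, fun j => ?_⟩
    · have h2 := xx_thE π s hs e j
      have h3 : (op (tt π s hs θ) * op (xx π s hs j) - op (xx π s hs j) *
          op (tt π s hs (mkTh π s hs (c * π.g) (thE π s hs (e + 1)))) : (wS π s hs).Sᵐᵒᵖ) = 0 := by
        rw [sub_eq_zero]
        apply unop_injective
        rw [unop_mul, unop_mul, unop_op, unop_op, unop_op, h1, tt_mkTh, ← thE_t, mul_smul_comm,
          h2, smul_smul, smul_mul_assoc]
      rw [h3]
      exact Submodule.zero_mem _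
    · have h2 := xx_thE π s hs (e + 1) (1 - j)
      have h3 : (op (tt π s hs (mkTh π s hs (c * π.g) (thE π s hs (e + 1)))) *
          op (kx π s hs j) - op (kx π s hs j) *
          op (tt π s hs (mkTh π s hs (c * π.g * π.g) (thE π s hs (e + 1 + 1)))) :
            (wS π s hs).Sᵐᵒᵖ) = 0 := by
        rw [sub_eq_zero]
        apply unop_injective
        rw [unop_mul, unop_mul, unop_op, unop_op, unop_op, tt_mkTh, tt_mkTh, mul_smul_comm, kx,
          h2, smul_smul, smul_mul_assoc]
      rw [h3]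
      exact Submodule.zero_mem _
  · refine ⟨mkTh π s hs c (thH π s hs), ⟨c, hc, Or.inr rfl⟩, fun j => ?_,
      mkTh π s hs c (thH π s hs), ⟨c, hc, Or.inr rfl⟩, fun j => ?_⟩
    · have h2 := xx_thH π s hs j
      have h3 : (op (tt π s hs θ) * op (xx π s hs j) - op (xx π s hs j) *
          op (tt π s hs (mkTh π s hs c (thH π s hs))) : (wS π s hs).Sᵐᵒᵖ) = 0 := by
        rw [sub_eq_zero]
        apply unop_injective
        rw [unop_mul, unop_mul, unop_op, unop_op, unop_op, h1, tt_mkTh, ← thH_t, mul_smul_comm,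
          h2, smul_mul_assoc]
      rw [h3]
      exact Submodule.zero_mem _
    · have h2 := xx_thH π s hs (1 - j)
      have h3 : (op (tt π s hs (mkTh π s hs c (thH π s hs))) *
          op (kx π s hs j) - op (kx π s hs j) *
          op (tt π s hs (mkTh π s hs c (thH π s hs))) : (wS π s hs).Sᵐᵒᵖ) = 0 := by
        rw [sub_eq_zero]
        apply unop_injective
        rw [unop_mul, unop_mul, unop_op, unop_op, tt_mkTh, mul_smul_comm, kx,
          h2, smul_mul_assoc]
      rw [h3]
      exact Submodule.zero_mem _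

/-- **810's structure for the right multiplications on `Γ`** -/
def trdOp : TRD (wO π s hs) where
  lo := 0
  neg {P A C} hC := by
    rw [eq_bot_iff]
    intro x hx
    have h := (mem_pc π s hs).1 (show (unop (show (wS π s hs).Sᵐᵒᵖ from x)) ∈ (wS π s hs).pc P A C
      from hx)
    have h1 : pcZ π P A C = ⊥ := pcZ_neg π (Or.inr hC)
    have h2 : pcM π s P A C = ⊥ := by
      apply pcM_bot
      intro q
      have := wC_word_le q
      exact pcZ_neg π (Or.inr (by omega))
    have ha := h.1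
    have hb := h.2
    rw [h1] at ha
    rw [h2] at hb
    rw [Submodule.mem_bot]
    exact unop_injective (ext2 π s hs ((Submodule.mem_bot K).1 ha) ((Submodule.mem_bot K).1 hb))
  r := 5
  Fl := Flo π s hs
  Fr := Flo_five
  anti := Flo_anti
  Fl_l i b a ha := (Flo_mul (unop (show (wS π s hs).Sᵐᵒᵖ from b)) ha.1 ha.2).1
  Fl_r i b a ha := (Flo_mul (unop (show (wS π s hs).Sᵐᵒᵖ from b)) ha.1 ha.2).2
  Fl_D i a ha := Flo_D i ha
  κ i := {q : Wb // nq q = lv i}
  fκ i := inferInstance
  u i k := uo π s hs i k.1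
  uP i _ := if i < 2 then 0 else 1
  uP01 i _ := by split_ifs; exacts [Or.inl rfl, Or.inr rfl]
  uC i k := if i < 2 then wC k.1.word else s - wC k.1.word
  u_mem i k := uo_mem i k.1
  u_F i k := uo_F i k
  u_J i k _ h := uo_J i k h
  u_D i k := uo_D i k.1
  gen i P A C x h5 hx hp := Fgen i h5 hx hp
  uniq i P A C z h5 _ h := Funiq i h5 z h
  T0 := To π s hs 1
  T1 := To π s hs (-1)
  T2 := To π s hs (-1)
  T01 θ := by
    rintro ⟨c, hc, ⟨e, he, h⟩ | h⟩
    · exact ⟨c, hc, Or.inl ⟨e, by omega, h⟩⟩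
    · exact ⟨c, hc, Or.inr h⟩
  T12 θ h := h
  u_th θ h i k := uo_th θ h i k.1
  x j := op (xx π s hs j)
  x_mem j := xx_mem π s hs j
  x_D j := by
    apply unop_injective
    exact xx_D π s hs j
  kk j := op (kx π s hs j)
  kk_mem j := kx_mem π s hs j
  kk_D j := by
    apply unop_injective
    exact kx_D π s hs j
  x_kk := by
    refine mem_Flo_zero.2 ?_
    have h := x_kR π s hs
    rw [Fin.sum_univ_two] at h ⊢
    exact h
  T2x := T2x_op π s hs
  x_gen {P A C y} hP hy := by
    obtain ⟨z, hz, h⟩ := genR π s hs hP hy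
    refine ⟨fun j => op (z j), hz, mem_Flo_zero.2 ?_⟩
    rw [Fin.sum_univ_two] at h ⊢
    exact h
  x_ker {P A C} z hz h := by
    have h0 := mem_Flo_zero.1 h
    obtain ⟨v, hv, h1⟩ := kerR π s hs (fun j => unop (show (wS π s hs).Sᵐᵒᵖ from z j)) hz (by
      rw [Fin.sum_univ_two] at h0 ⊢
      exact h0)
    exact ⟨op v, hv, fun j => mem_Flo_zero.2 (h1 j)⟩
  x_inj h := mem_Flo_zero.2 (injR π s hs (mem_Flo_zero.1 h))

end inst

end Crest.Agent.R186.TRop671
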