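import Crest.Agent.R186.TRj_461
import Crest.Agent.R186.EndV_448

/-!
Row 186 (A), helper461: (TR) on 448's concrete objects `XL`, `RX`.
-/

set_option autoImplicit false
set_option linter.style.haveILetI false
set_option linter.unusedSectionVars false

open MulOpposite

noncomputable section

namespace Crest.Agent.R186.TRj461

open Hat827 Hat827.DGA Frame515 Res255 Win810 TR810
open Crest.Agent.R186.DefsQ830 Crest.Agent.R186.SM890
open Crest.Agent.R186.ThK763 (wS Tk)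

variable {K : Type} [Field K] {π : Par K} {s : ℕ} {hs : 5 ≤ s}

/-- 448's resolution, in 772's letters -/
def RX' : LRes (EndV448.XL π s hs) (TRin772.VG π s (KHc302.two_le hs) (-1)) := EndV448.RX π s hs

/-- **(TR) on 448's cells** -/
theorem trX (T : TRD (wS π s (KHc302.two_le hs)))
    (hT : ∀ θ, T.T1 θ → Tk π s (KHc302.two_le hs) (-1) θ) {b : ℕ} (hb : b < 3) :
    (∀ θ, T.T0 θ → ∀ n, AcQ (Yc θ 0 (b : ℤ) (EndV448.XL π s hs)) ⊤
        (TF (EndV448.XL π s hs) (T.Fl 0)) n) ∧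
      (∀ θ, T.T1 θ → ∀ n, AcQ (Yc θ 1 (b : ℤ) (EndV448.XL π s hs)) ⊤
        (TF (EndV448.XL π s hs) (T.Fl 0)) n) ∧
      (∀ θ, T.T2 θ → ∀ n, AcQ (Yc θ 2 (b : ℤ) (EndV448.XL π s hs)) ⊤
        (TF (EndV448.XL π s hs) (T.Fl 0)) n) :=
  trG T hT (X := EndV448.XL π s hs) RX' hb

end Crest.Agent.R186.TRj461
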