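import Crest.Agent.R186.MRep_890
import Crest.Agent.R186.Der_580

/-!
Row 186, half (A) (helper890), part 2: the diagonal automorphisms `tau` of the dg algebra `R''`
(`o_q · r = tau_q(r) · o_q`), and `tau ∘ D = D ∘ tau`.
-/

set_option autoImplicit false

noncomputable section

namespace Crest.Agent.R186.SM890

open DefsQ830 DefsQ830.Gen Der580

variable {K : Type} [Field K]

variable (K) in
/-- a point of the torus -/
structure Tor where
  a0 : K
  a1 : K
  b : K
  h0 : a0 ≠ 0
  h1 : a1 ≠ 0
  hb : b ≠ 0

/-- weights of the letters -/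
def tw (t : Tor K) : Gen → K
  | .x i => if i = 0 then t.a0 else t.a1
  | .h => 1
  | .d j => if j = 0 then t.a0⁻¹ else t.a1⁻¹
  | .f => 1
  | .z j => if j = 0 then t.a1⁻¹ else t.a0⁻¹
  | .zc => 1
  | .u s => sg t.b s
  | .e j => if j = 0 then t.a0⁻¹ else t.a1⁻¹
  | .gj j => if j = 0 then t.a1⁻¹ else t.a0⁻¹
  | .gc => 1
  | .v s => sg t.b s
  | .y s => sg t.b s
  | .yb s => sg t.b s

theorem tw_ne (t : Tor K) (a : Gen) : tw t a ≠ 0 := by
  have h0 := t.h0
  have h1 := t.h1
  have hb := t.hb
  cases a <;> simp only [tw, sg] <;> (try split) <;> simp [h0, h1, hb]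

/-- scaled letters -/
def tl (π : Par K) (t : Tor K) (a : Gen) : R π := tw t a • X π a

macro "unT" : tactic => `(tactic| simp only [L, map_mul, map_smul, map_add, FreeAlgebra.lift_ι_apply,
    map_zero, tl, tw, if_true, if_false, one_ne_zero, DefsQ830.sg, hs_zero, hs_one])

set_option maxHeartbeats 4000000 in
theorem lift_relT (π : Par K) (t : Tor K) {a b : F K} (hab : Rel π a b) :
    FreeAlgebra.lift K (tl π t) a = FreeAlgebra.lift K (tl π t) b := by
  have : CharP K 2 := CharTwo.of_one_ne_zero_of_two_eq_zero one_ne_zero π.two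
  have g0 := π.g0
  have p0 := π.p0
  have q10 := π.q10
  have q20 := π.q20
  have h0 := t.h0
  have h1 := t.h1
  have hb := t.hb
  cases hab with
  | xx => unT; all_goals (try idR)
  | hc a =>
    simp only [L, map_mul, FreeAlgebra.lift_ι_apply, tl, smul_mul_smul_comm]
    rw [h_comm, mul_comm (tw t h)]
  | x0d0 => unT; all_goals (try idR)
  | x0d1 => unT; all_goals (try idR)
  | x1d0 => unT; all_goals (try idR)
  | x1d1 => unT; all_goals (try idR)
  | xf i =>
    revert i
    fin2 <;> (unT; all_goals (try idR))
  | xz i j =>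
    revert i j
    fin2 <;> (unT; all_goals (try idR))
  | xzc i =>
    revert i
    fin2 <;> (unT; all_goals (try idR))
  | xu i s =>
    revert i s
    fin2 <;> (unT; all_goals (try idR))
  | x0e j =>
    revert j
    fin2 <;> (unT; all_goals (try idR))
  | x1e0 => unT; all_goals (try idR)
  | x1e1 => unT; all_goals (try idR)
  | xgj i j =>
    revert i j
    fin2 <;> (unT; all_goals (try idR))
  | xgc i =>
    revert i
    fin2 <;> (unT; all_goals (try idR))
  | xv i s =>
    revert i s
    fin2 <;> (unT; all_goals (try idR))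
  | xy i s =>
    revert i s
    fin2 <;> (unT; all_goals (try idR))
  | xyb i s =>
    revert i s
    fin2 <;> (unT; all_goals (try idR))
  | yd j s =>
    revert j s
    fin2 <;> (unT; all_goals (try idR))
  | ybd j s =>
    revert j s
    fin2 <;> (unT; all_goals (try idR))
  | ye j s =>
    revert j s
    fin2 <;> (unT; all_goals (try idR))
  | ybe j s =>
    revert j s
    fin2 <;> (unT; all_goals (try idR))
  | yz j s =>
    revert j s
    fin2 <;> (unT; all_goals (try idR))
  | ybz j s =>
    revert j s
    fin2 <;> (unT; all_goals (try idR))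
  | ygj j s =>
    revert j s
    fin2 <;> (unT; all_goals (try idR))
  | ybgj j s =>
    revert j s
    fin2 <;> (unT; all_goals (try idR))
  | yf s =>
    revert s
    fin2 <;> (unT; all_goals (try idR))
  | ybf s =>
    revert s
    fin2 <;> (unT; all_goals (try idR))
  | yzc s =>
    revert s
    fin2 <;> (unT; all_goals (try idR))
  | ybzc s =>
    revert s
    fin2 <;> (unT; all_goals (try idR))
  | ygc s =>
    revert s
    fin2 <;> (unT; all_goals (try idR))
  | ybgc s =>
    revert s
    fin2 <;> (unT; all_goals (try idR))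
  | yu s s' =>
    revert s s'
    fin2 <;> (unT; all_goals (try idR))
  | ybu s s' =>
    revert s s'
    fin2 <;> (unT; all_goals (try idR))
  | yv s s' =>
    revert s s'
    fin2 <;> (unT; all_goals (try idR))
  | ybv s s' =>
    revert s s'
    fin2 <;> (unT; all_goals (try idR))
  | yy s =>
    revert s
    fin2 <;> (unT; all_goals (try idR))
  | y10 => unT; all_goals (try idR)
  | yyb s s' =>
    revert s s'
    fin2 <;> (unT; all_goals (try idR))
  | yby s s' =>
    revert s s'
    fin2 <;> (unT; all_goals (try idR))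
  | ybyb s s' =>
    revert s s'
    fin2 <;> (unT; all_goals (try idR))

/-- the diagonal automorphism -/
def tau (π : Par K) (t : Tor K) : R π →ₐ[K] R π :=
  RingQuot.liftAlgHom K ⟨FreeAlgebra.lift K (tl π t), fun _ _ h => lift_relT π t h⟩

@[simp] theorem tau_mk (π : Par K) (t : Tor K) (a : F K) :
    tau π t (mk π a) = FreeAlgebra.lift K (tl π t) a := by
  simp [tau, mk]

@[simp] theorem tau_X (π : Par K) (t : Tor K) (a : Gen) : tau π t (X π a) = tw t a • X π a := by
  simp [X, L, tl]

set_option maxHeartbeats 4000000 in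
theorem tau_dGen (π : Par K) (t : Tor K) (a : Gen) :
    tau π t (mk π (dGen π a)) = tw t a • mk π (dGen π a) := by
  have : CharP K 2 := CharTwo.of_one_ne_zero_of_two_eq_zero one_ne_zero π.two
  have g0 := π.g0
  have p0 := π.p0
  have q10 := π.q10
  have q20 := π.q20
  have h0 := t.h0
  have h1 := t.h1
  have hb := t.hb
  cases a with
  | x i => simp only [dGen, map_zero, smul_zero]
  | h => simp only [dGen, map_zero, smul_zero]
  | d j => simp only [dGen, map_zero, smul_zero]
  | f => simp only [dGen, map_zero, smul_zero]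
  | y s => simp only [dGen, map_zero, smul_zero]
  | yb s => simp only [dGen, map_zero, smul_zero]
  | zc =>
    simp only [dGen, tF, rF, rhoF, map_mul, map_add, map_smul, mk_L, tau_X, tw, if_true, if_false,
      one_ne_zero, DefsQ830.sg, hs_zero, hs_one]
    all_goals (try idR)
  | gc =>
    simp only [dGen, tF, rF, rhoF, map_mul, map_add, map_smul, mk_L, tau_X, tw, if_true, if_false,
      one_ne_zero, DefsQ830.sg, hs_zero, hs_one]
    all_goals (try idR)
  | z j =>
    revert j
    fin2 <;> (
      simp only [dGen, tF, rF, rhoF, map_mul, map_add, map_smul, mk_L, tau_X, tw, if_true, if_false,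
        one_ne_zero, DefsQ830.sg, hs_zero, hs_one]
      all_goals (try idR))
  | u j =>
    revert j
    fin2 <;> (
      simp only [dGen, tF, rF, rhoF, map_mul, map_add, map_smul, mk_L, tau_X, tw, if_true, if_false,
        one_ne_zero, DefsQ830.sg, hs_zero, hs_one]
      all_goals (try idR))
  | e j =>
    revert j
    fin2 <;> (
      simp only [dGen, tF, rF, rhoF, map_mul, map_add, map_smul, mk_L, tau_X, tw, if_true, if_false,
        one_ne_zero, DefsQ830.sg, hs_zero, hs_one]
      all_goals (try idR))
  | gj j =>
    revert j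
    fin2 <;> (
      simp only [dGen, tF, rF, rhoF, map_mul, map_add, map_smul, mk_L, tau_X, tw, if_true, if_false,
        one_ne_zero, DefsQ830.sg, hs_zero, hs_one]
      all_goals (try idR))
  | v j =>
    revert j
    fin2 <;> (
      simp only [dGen, tF, rF, rhoF, map_mul, map_add, map_smul, mk_L, tau_X, tw, if_true, if_false,
        one_ne_zero, DefsQ830.sg, hs_zero, hs_one]
      all_goals (try idR))

/-- `tau` commutes with the differential -/
theorem tau_D (π : Par K) (t : Tor K) (r : R π) : tau π t (D π r) = D π (tau π t r) := by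
  refine R_ind π (P := fun r => tau π t (D π r) = D π (tau π t r)) (fun c => ?_) (fun a => ?_)
    (fun a b h1 h2 => ?_) (fun a b h1 h2 => ?_) r
  · show tau π t (D π (algebraMap K (R π) c)) = D π (tau π t (algebraMap K (R π) c))
    rw [D_algebraMap, AlgHom.commutes, D_algebraMap, map_zero]
  · show tau π t (D π (X π a)) = D π (tau π t (X π a))
    rw [D_X, tau_dGen, tau_X, map_smul, D_X]
  · show tau π t (D π (a * b)) = D π (tau π t (a * b))
    rw [D_mul, map_add, map_mul, map_mul, h1, h2, map_mul, D_mul]
  · show tau π t (D π (a + b)) = D π (tau π t (a + b))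
    rw [map_add, map_add, h1, h2, map_add, map_add]

end Crest.Agent.R186.SM890
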