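import Crest.Agent.R186.KL_355
import Crest.Agent.R186.LCT_369

/-!
Row 186, S0281, base (helper853): the transpositions of 355's row maps of `K(n)`, `s = 0`
(`KN_355`: `d1f`, `d2w0 d2w1 d2h0 d2h1`, `d3w d3h0 d3h1`) with values in a left `Op K`-module `U`:
they are 369's `D1u D1v`, `D2u D2v D2p`, `D3` (`LCT_369`).
-/

set_option autoImplicit false
set_option linter.unusedVariables false
set_option linter.unusedSimpArgs false
set_option linter.unusedSectionVars false

namespace Crest.Agent.R186.B281.TrD_853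

open KN Finset

variable {K : Type} [Field K] {g : K}

/-- the `q`-numbers as a function on `ℕ` -/
noncomputable def lamN (g : K) (j : ℕ) : K := cq g (j : ℤ)

@[simp] theorem lamN_zero (g : K) : lamN g 0 = 0 := by
  unfold lamN
  rw [Nat.cast_zero, cq_zero]

section shift
variable {U : Type*} [AddCommGroup U]

theorem shift_sum {n : ℕ} (F G : ℕ → U) (h0 : F 0 = 0) (hs : ∀ j, j < n → F (j + 1) = G j)
    (hn : G n = 0) : ∑ j ∈ range (n + 1), F j = ∑ j ∈ range (n + 1), G j := by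
  rw [sum_range_succ', h0, add_zero, sum_range_succ, hn, add_zero]
  exact sum_congr rfl fun j hj => hs j (mem_range.1 hj)

end shift

section
variable {N00 N01 N02 N10 N11 N12 N22 : Type}
    [AddCommGroup N00] [Module K N00] [AddCommGroup N01] [Module K N01]
    [AddCommGroup N02] [Module K N02] [AddCommGroup N10] [Module K N10]
    [AddCommGroup N11] [Module K N11] [AddCommGroup N12] [Module K N12]
    [AddCommGroup N22] [Module K N22]
    {S : LC369.Sq K g N00 N01 N02 N10 N11 N12 N22} {U : Type} [AddCommGroup U] [Module K U]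
    [Module (Op K) U] [IsScalarTower K (Op K) U]
    (T : LC369.Dict S U) (hx : ∀ i u, T.x i u = (X i : Op K) • u)
    (hd : ∀ i u, T.d i u = (D g i : Op K) • u)

include hx hd

/-- transposition of `D1` -/
theorem tr1 (n : ℕ) (V : Fin 2 → ℕ → Fin 2 → Op K) (hV : ∀ e j, n < j → V e j = 0) (φ : ℕ → U) :
    ∑ j ∈ range (n + 1), d1f g n V j • φ j =
      ∑ j ∈ range (n + 1), ((V 0 j 0 • T.D1u (lamN g) n φ 0 j + V 0 j 1 • T.D1v (lamN g) n φ 0 j) +
        (V 1 j 0 • T.D1u (lamN g) n φ 1 j + V 1 j 1 • T.D1v (lamN g) n φ 1 j)) := by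
  have e1 : ∑ j ∈ range (n + 1), cq g (n + 1 - j : ℕ) • (sh (V 0) j 1 • φ j) =
      ∑ j ∈ range (n + 1), cq g (n - j : ℕ) • (V 0 j 1 • φ (j + 1)) := by
    refine shift_sum _ _ ?_ (fun j _ => ?_) ?_
    · rw [sh_zero, Pi.zero_apply, zero_smul, smul_zero]
    · rw [sh_succ, show n + 1 - (j + 1) = n - j by omega]
    · rw [Nat.sub_self, Nat.cast_zero, cq_zero, zero_smul]
  have e2 : ∑ j ∈ range (n + 1), cq g (j + 1 : ℕ) • (V 1 (j + 1) 0 • φ j) =
      ∑ j ∈ range (n + 1), cq g (j : ℕ) • (V 1 j 0 • φ (j - 1)) := by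
    refine (shift_sum _ _ ?_ (fun j _ => ?_) ?_).symm
    · rw [Nat.cast_zero, cq_zero, zero_smul]
    · rw [Nat.add_sub_cancel]
    · rw [hV 1 (n + 1) (by omega), Pi.zero_apply, zero_smul, smul_zero]
  have e3 : ∑ j ∈ range (n + 1), d1f g n V j • φ j =
      ∑ j ∈ range (n + 1), ((cc (V 0 j) * D g 0) • φ j + (cc (V 1 j) * D g 1) • φ j
        - cq g (n - j : ℕ) • (V 0 j 0 • φ j) - cq g j • (V 1 j 1 • φ j)) -
      ∑ j ∈ range (n + 1), cq g (n + 1 - j : ℕ) • (sh (V 0) j 1 • φ j) -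
      ∑ j ∈ range (n + 1), cq g (j + 1 : ℕ) • (V 1 (j + 1) 0 • φ j) := by
    rw [← sum_sub_distrib, ← sum_sub_distrib]
    refine sum_congr rfl fun j _ => ?_
    unfold d1f
    simp only [sub_smul, add_smul, smul_assoc]
  rw [e3, e1, e2, ← sum_sub_distrib, ← sum_sub_distrib]
  refine sum_congr rfl fun j _ => ?_
  simp only [LC369.Dict.D1u, LC369.Dict.D1v, if_true, hx, hd, lamN, cc, smul_sub,
    add_mul, add_smul, mul_smul]
  rw [if_neg (by decide), if_neg (by decide)]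
  simp only [smul_sub, smul_comm (V 0 j 0) (cq g _), smul_comm (V 0 j 1) (cq g _),
    smul_comm (V 1 j 0) (cq g _), smul_comm (V 1 j 1) (cq g _)]
  abel

/-- transposition of `D2` -/
theorem tr2 (n : ℕ) (w : ℕ → Fin 2 → Op K) (h : Fin 2 → ℕ → Op K) (hh : ∀ e, h e n = 0)
    (u v : Fin 2 → ℕ → U) :
    ∑ j ∈ range (n + 1),
      (((d2w0 g w j + d2h0 g n h j) 0 • u 0 j + (d2w0 g w j + d2h0 g n h j) 1 • v 0 j) +
        ((d2w1 g n w j + d2h1 g h j) 0 • u 1 j + (d2w1 g n w j + d2h1 g h j) 1 • v 1 j)) =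
      ∑ j ∈ range (n + 2), (w j 0 • T.D2u (lamN g) n u v j + w j 1 • T.D2v (lamN g) n u v j) +
      ∑ j ∈ range n, (h 0 j • T.D2p (lamN g) n u v 0 j + h 1 j • T.D2p (lamN g) n u v 1 j) := by
  -- the `w`-part
  have ew : ∑ j ∈ range (n + 1), ((d2w0 g w j 0 • u 0 j + d2w0 g w j 1 • v 0 j) +
        (d2w1 g n w j 0 • u 1 j + d2w1 g n w j 1 • v 1 j)) =
      ∑ j ∈ range (n + 2), (w j 0 • T.D2u (lamN g) n u v j + w j 1 • T.D2v (lamN g) n u v j) := by
    have f1 : ∑ j ∈ range (n + 1), cq g (n + 1 - j : ℕ) • (w j 0 • u 1 j + w j 1 • v 1 j) =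
        ∑ j ∈ range (n + 1), cq g (n - j : ℕ) • (w (j + 1) 0 • u 1 (j + 1) +
          w (j + 1) 1 • v 1 (j + 1)) + cq g (n + 1 : ℕ) • (w 0 0 • u 1 0 + w 0 1 • v 1 0) := by
      rw [sum_range_succ', sum_range_succ, Nat.sub_self, Nat.cast_zero, cq_zero, zero_smul,
        add_zero, Nat.sub_zero]
      congr 1
      exact sum_congr rfl fun j _ => by rw [show n + 1 - (j + 1) = n - j by omega]
    have f2 : ∀ (x : U), ∑ j ∈ range (n + 1), (if j = 0 then x else 0) = x := by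
      intro x
      rw [sum_ite_eq' (range (n + 1)) 0 (fun _ => x), if_pos (mem_range.2 (by omega))]
    rw [sum_range_succ' _ (n + 1)]
    have f3 : ∑ j ∈ range (n + 1), ((d2w0 g w j 0 • u 0 j + d2w0 g w j 1 • v 0 j) +
        (d2w1 g n w j 0 • u 1 j + d2w1 g n w j 1 • v 1 j)) =
        ∑ j ∈ range (n + 1), ((cq g (j + 1 : ℕ) • (w (j + 1) 0 • u 0 j + w (j + 1) 1 • v 0 j)
          - (cc (w (j + 1)) * D g 1) • v 0 j) + g⁻¹ • ((cc (w (j + 1)) * D g 0) • v 1 j)) -
        ∑ j ∈ range (n + 1), cq g (n + 1 - j : ℕ) • (w j 0 • u 1 j + w j 1 • v 1 j) -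
        ∑ j ∈ range (n + 1), (if j = 0 then g⁻¹ • ((cc (w 0) * D g 1) • u 0 0) else 0) +
        ∑ j ∈ range (n + 1), (if j = 0 then (cc (w 0) * D g 0) • u 1 0 else 0) := by
      rw [← sum_sub_distrib, ← sum_sub_distrib, ← sum_add_distrib]
      refine sum_congr rfl fun j _ => ?_
      unfold d2w0 d2w1
      by_cases hj : j = 0
      · subst hj
        simp only [if_true, Pi.sub_apply, Pi.add_apply, Pi.neg_apply, Pi.smul_apply,
          Matrix.cons_val_zero, Matrix.cons_val_one, sub_smul, add_smul, neg_smul, smul_assoc,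
          smul_zero, zero_smul, smul_add]
        abel
      · simp only [if_neg hj, Pi.sub_apply, Pi.add_apply, Pi.neg_apply, Pi.smul_apply,
          Matrix.cons_val_zero, Matrix.cons_val_one, Pi.zero_apply, sub_smul, add_smul, neg_smul,
          smul_assoc, smul_zero, zero_smul, smul_add]
        abel
    rw [f3, f1, f2, f2]
    have f4 : ∑ j ∈ range (n + 1), (w (j + 1) 0 • T.D2u (lamN g) n u v (j + 1) +
        w (j + 1) 1 • T.D2v (lamN g) n u v (j + 1)) =
        ∑ j ∈ range (n + 1), ((cq g (j + 1 : ℕ) • (w (j + 1) 0 • u 0 j + w (j + 1) 1 • v 0 j)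
          - (cc (w (j + 1)) * D g 1) • v 0 j) + g⁻¹ • ((cc (w (j + 1)) * D g 0) • v 1 j)) -
        ∑ j ∈ range (n + 1), cq g (n - j : ℕ) • (w (j + 1) 0 • u 1 (j + 1) +
          w (j + 1) 1 • v 1 (j + 1)) := by
      rw [← sum_sub_distrib]
      refine sum_congr rfl fun j _ => ?_
      simp only [LC369.Dict.D2u, LC369.Dict.D2v, hx, hd, lamN, cc, smul_sub, smul_add, add_mul,
        add_smul, mul_smul, smul_comm (w (j + 1) 0) (cq g _), smul_comm (w (j + 1) 1) (cq g _),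
        smul_comm (w (j + 1) 0) g⁻¹, smul_comm (w (j + 1) 1) g⁻¹]
      abel
    rw [f4]
    simp only [LC369.Dict.D2u, LC369.Dict.D2v, hx, hd, lamN, cc, smul_sub, smul_add, smul_neg,
      add_mul, add_smul, mul_smul, smul_comm (w 0 0) (cq g _), smul_comm (w 0 1) (cq g _),
      smul_comm (w 0 0) g⁻¹, smul_comm (w 0 1) g⁻¹]
    abel
  -- the `h`-part
  have eh : ∑ j ∈ range (n + 1), ((d2h0 g n h j 0 • u 0 j + d2h0 g n h j 1 • v 0 j) +
        (d2h1 g h j 0 • u 1 j + d2h1 g h j 1 • v 1 j)) =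
      ∑ j ∈ range n, (h 0 j • T.D2p (lamN g) n u v 0 j + h 1 j • T.D2p (lamN g) n u v 1 j) := by
    have f1 : ∀ e : Fin 2, ∀ x : ℕ → U, ∑ j ∈ range (n + 1), sh (h e) j • x j =
        ∑ j ∈ range n, h e j • x (j + 1) := by
      intro e x
      rw [sum_range_succ', sh_zero, zero_smul, add_zero]
      rfl
    have f2 : ∑ j ∈ range (n + 1), ((d2h0 g n h j 0 • u 0 j + d2h0 g n h j 1 • v 0 j) +
        (d2h1 g h j 0 • u 1 j + d2h1 g h j 1 • v 1 j)) =
        ∑ j ∈ range (n + 1), (h 0 j • v 0 j + g⁻¹ • (h 1 j • v 1 j) +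
          (cq g (n - j : ℕ))⁻¹ • ((h 0 j * D g 0 + h 1 j * D g 1) •
            ((X 1 : Op K) • u 0 j - (X 0 : Op K) • v 0 j))) -
        g⁻¹ • ∑ j ∈ range (n + 1), sh (h 0) j • u 0 j -
        ∑ j ∈ range (n + 1), sh (h 1) j • u 1 j := by
      rw [smul_sum, ← sum_sub_distrib, ← sum_sub_distrib]
      refine sum_congr rfl fun j _ => ?_
      unfold d2h0 d2h1 syz
      simp only [Pi.add_apply, Pi.smul_apply, Matrix.cons_val_zero, Matrix.cons_val_one,
        sub_smul, add_smul, neg_smul, smul_assoc, mul_smul, smul_sub, smul_add, smul_neg]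
      abel
    rw [f2, f1, f1, sum_range_succ, hh 0, hh 1]
    simp only [zero_smul, zero_mul, add_zero, smul_zero]
    rw [smul_sum, ← sum_sub_distrib, ← sum_sub_distrib]
    refine sum_congr rfl fun j _ => ?_
    simp only [LC369.Dict.D2p, if_true, hx, hd, lamN, LC369.Dict.mu]
    rw [if_neg (by decide)]
    simp only [smul_sub, smul_add, smul_neg, add_smul, mul_smul, smul_comm (h 0 j) (cq g _)⁻¹,
      smul_comm (h 1 j) (cq g _)⁻¹, smul_comm (h 0 j) g⁻¹, smul_comm (h 1 j) g⁻¹]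
    abel
  rw [← ew, ← eh, ← sum_add_distrib]
  refine sum_congr rfl fun j _ => ?_
  simp only [Pi.add_apply, add_smul]
  abel

/-- transposition of `D3` -/
theorem tr3 (n : ℕ) (x : ℕ → Op K) (hx' : x (n + 1) = 0) (a b : ℕ → U) (ψ : Fin 2 → ℕ → U) :
    ∑ j ∈ range (n + 2), (d3w g n x j 0 • a j + d3w g n x j 1 • b j) +
      ∑ j ∈ range n, (d3h0 g x j • ψ 0 j + d3h1 g n x j • ψ 1 j) =
      ∑ j ∈ range (n + 1), x j • T.D3 (lamN g) n a b ψ j := by
  have f1 : ∑ j ∈ range (n + 2), (d3w g n x j 0 • a j + d3w g n x j 1 • b j) =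
      ∑ j ∈ range (n + 1), (x j • a (j + 1) - x j • b j - (cq g (n + 1 - j : ℕ))⁻¹ •
        ((x j * D g 0) • ((X 1 : Op K) • a j - (X 0 : Op K) • b j))) -
      (cq g (n + 1 : ℕ))⁻¹ • ((x n * D g 1) • ((X 1 : Op K) • a (n + 1) -
        (X 0 : Op K) • b (n + 1))) := by
    have g1 : ∑ j ∈ range (n + 2), (d3w g n x j 0 • a j + d3w g n x j 1 • b j) =
        ∑ j ∈ range (n + 2), sh x j • a j - ∑ j ∈ range (n + 2), (x j • b j +
          (cq g (n + 1 - j : ℕ))⁻¹ •
            ((x j * D g 0) • ((X 1 : Op K) • a j - (X 0 : Op K) • b j))) -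
        ∑ j ∈ range (n + 2), (if j = n + 1 then (cq g (n + 1 : ℕ))⁻¹ •
          ((x n * D g 1) • ((X 1 : Op K) • a (n + 1) - (X 0 : Op K) • b (n + 1))) else 0) := by
      rw [← sum_sub_distrib, ← sum_sub_distrib]
      refine sum_congr rfl fun j _ => ?_
      unfold d3w syz
      by_cases hj : j = n + 1
      · subst hj
        simp only [if_true, Pi.sub_apply, Pi.add_apply, Pi.smul_apply, Matrix.cons_val_zero,
          Matrix.cons_val_one, sub_smul, add_smul, neg_smul, smul_assoc, mul_smul, smul_sub,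
          smul_add, smul_neg]
        abel
      · simp only [if_neg hj, Pi.sub_apply, Pi.add_apply, Pi.smul_apply, Matrix.cons_val_zero,
          Matrix.cons_val_one, Pi.zero_apply, sub_smul, add_smul, neg_smul, smul_assoc, mul_smul,
          smul_sub, smul_add, smul_neg, zero_smul]
        abel
    rw [g1, sum_ite_eq' (range (n + 2)) (n + 1), if_pos (mem_range.2 (by omega)),
      sum_range_succ' (fun j => sh x j • a j), sh_zero, zero_smul, add_zero,
      sum_range_succ (fun j => x j • b j + _) (n + 1), hx']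
    simp only [zero_smul, zero_mul, smul_zero, add_zero, sh_succ]
    rw [← sum_sub_distrib]
    congr 1
    refine sum_congr rfl fun j _ => ?_
    abel
  have f2 : ∑ j ∈ range n, (d3h0 g x j • ψ 0 j + d3h1 g n x j • ψ 1 j) =
      ∑ j ∈ range n, ((cq g (j + 1 : ℕ) - 1) • (x (j + 1) • ψ 0 j) -
        g • ((x (j + 1) * D g 1 * X 1) • ψ 0 j) + (x (j + 1) * D g 0 * X 1) • ψ 1 j) -
      ∑ j ∈ range (n + 1), cq g (n - j : ℕ) • (x j • ψ 1 j) := by
    rw [sum_range_succ, Nat.sub_self, Nat.cast_zero, cq_zero, zero_smul, add_zero,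
      ← sum_sub_distrib]
    refine sum_congr rfl fun j _ => ?_
    unfold d3h0 d3h1
    simp only [sub_smul, add_smul, smul_assoc, one_smul]
    abel
  have f3 : ∑ j ∈ range (n + 1), x j • T.D3 (lamN g) n a b ψ j =
      ∑ j ∈ range (n + 1), x j • T.D3a (lamN g) n a b ψ j +
      ∑ j ∈ range n, ((cq g (j + 1 : ℕ) - 1) • (x (j + 1) • ψ 0 j) -
        g • ((x (j + 1) * D g 1 * X 1) • ψ 0 j) + (x (j + 1) * D g 0 * X 1) • ψ 1 j) := by
    rw [sum_range_succ', sum_range_succ' (fun j => x j • T.D3a (lamN g) n a b ψ j)]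
    have : ∑ j ∈ range n, x (j + 1) • T.D3 (lamN g) n a b ψ (j + 1) =
        ∑ j ∈ range n, x (j + 1) • T.D3a (lamN g) n a b ψ (j + 1) +
        ∑ j ∈ range n, ((cq g (j + 1 : ℕ) - 1) • (x (j + 1) • ψ 0 j) -
        g • ((x (j + 1) * D g 1 * X 1) • ψ 0 j) + (x (j + 1) * D g 0 * X 1) • ψ 1 j) := by
      rw [← sum_add_distrib]
      refine sum_congr rfl fun j _ => ?_
      simp only [LC369.Dict.D3, hx, hd, lamN, smul_sub, smul_add, add_smul, sub_smul, mul_smul,
        one_smul, smul_comm (x (j + 1)) (cq g _), smul_comm (x (j + 1)) g]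
      abel
    rw [this]
    show _ + x 0 • T.D3a (lamN g) n a b ψ 0 = _
    abel
  rw [f1, f2, f3]
  have f4 : ∑ j ∈ range (n + 1), x j • T.D3a (lamN g) n a b ψ j =
      ∑ j ∈ range (n + 1), (x j • a (j + 1) - x j • b j - (cq g (n + 1 - j : ℕ))⁻¹ •
        ((x j * D g 0) • ((X 1 : Op K) • a j - (X 0 : Op K) • b j))) -
      (cq g (n + 1 : ℕ))⁻¹ • ((x n * D g 1) • ((X 1 : Op K) • a (n + 1) -
        (X 0 : Op K) • b (n + 1))) - ∑ j ∈ range (n + 1), cq g (n - j : ℕ) • (x j • ψ 1 j) := by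
    have g2 : ∑ j ∈ range (n + 1), x j • T.D3a (lamN g) n a b ψ j =
        ∑ j ∈ range (n + 1), (x j • a (j + 1) - x j • b j - (cq g (n + 1 - j : ℕ))⁻¹ •
        ((x j * D g 0) • ((X 1 : Op K) • a j - (X 0 : Op K) • b j))) -
        ∑ j ∈ range (n + 1), (if j = n then (cq g (n + 1 : ℕ))⁻¹ • ((x n * D g 1) •
          ((X 1 : Op K) • a (n + 1) - (X 0 : Op K) • b (n + 1))) else 0) -
        ∑ j ∈ range (n + 1), cq g (n - j : ℕ) • (x j • ψ 1 j) := by
      rw [← sum_sub_distrib, ← sum_sub_distrib]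
      refine sum_congr rfl fun j _ => ?_
      unfold LC369.Dict.D3a
      by_cases hj : j = n
      · subst hj
        simp only [if_true, hx, hd, lamN, LC369.Dict.mu, smul_sub, mul_smul,
          smul_comm (x _) (cq g _), smul_comm (x _) (cq g _)⁻¹]
      · simp only [if_neg hj, hx, hd, lamN, LC369.Dict.mu, smul_sub, mul_smul, smul_zero,
          smul_comm (x _) (cq g _), smul_comm (x _) (cq g _)⁻¹]
    rw [g2, sum_ite_eq' (range (n + 1)) n, if_pos (mem_range.2 (by omega))]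
  rw [f4]
  abel

end

end Crest.Agent.R186.B281.TrD_853
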