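import Crest.Agent.R186.LCE_229

/-!
Row 186 (S0281), helper371: transposition of the row maps `E1 E2 E3` (`s = 1`, 355's `KN`) onto the
tuples of `LCF1_371`: `(G0 φ) ∘ E1 = G1 (δ⁰ φ)`, `(G1 ..) ∘ E2 = G2 (δ¹ ..)`, `(G2 ..) ∘ E3 = G0 (δ² ..)`.
-/

set_option autoImplicit false

namespace Crest.Agent.R186.TrE1_371

open Crest.Agent.R186.B281 Crest.Agent.R186.B281.KN Crest.Agent.R186.LCF1_371

variable {K : Type} [Field K] {g : K}

local notation "𝐱" => (X : Fin 2 → Op K)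
local notation "𝐝" => (D g : Fin 2 → Op K)

/-- the numbers of `LCF1_371` -/
noncomputable def cn (g : K) (m : ℕ) : K := cq g (m : ℤ)

theorem cn_zero (g : K) : cn g 0 = 0 := by
  rw [cn, Nat.cast_zero, cq_zero]

theorem cn_ne (hg : Gen g) (a : ℕ) : cn g (a + 1) ≠ 0 := cq_ne hg (by push_cast; omega)

theorem cn_pred (hg : Gen g) (a : ℕ) : cn g a = 1 + g * cn g (a + 1) := by
  have := cq_pred hg ((a : ℤ) + 1)
  rw [add_sub_cancel_right] at this
  rw [cn, cn, this]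
  push_cast
  rfl

variable {U : Type*} [AddCommGroup U] [Module K U] [Module (Op K) U] [IsScalarTower K (Op K) U]

theorem comm (T : Op K) (c : K) (u : U) : T • c • u = c • T • u := by
  rw [← one_smul (Op K) u, ← smul_assoc c (1 : Op K) u, ← mul_smul, ← mul_smul, mul_smul_comm,
    smul_assoc]

section seq

variable {x d : Fin 2 → U →ₗ[K] U} {n : ℕ}

theorem w0'_lt (hg : Gen g) (hx : ∀ i u, x i u = (X i : Op K) • u)
    (hd : ∀ i u, d i u = (D g i : Op K) • u) (φ : ℕ → U) {j : ℕ} (hj : j ≤ n) :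
    w0' g x d (cn g) n φ j = (D g 0 : Op K) • (X 0 : Op K) • φ j - cn g (n + 1 - j) • φ j := by
  rw [w0', if_neg (by omega), hx, hd, ← mul_smul, ← mul_smul, X_D_self hg, add_smul, one_smul,
    smul_assoc, cn_pred hg (n - j), show n - j + 1 = n + 1 - j by omega]
  rw [add_smul, one_smul, add_sub_add_left_eq_sub, smul_sub, smul_smul g⁻¹, smul_smul g⁻¹,
    ← mul_assoc, inv_mul_cancel₀ hg.1, one_smul, one_mul, mul_smul]

theorem w0'_top (hx : ∀ i u, x i u = (X i : Op K) • u)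
    (hd : ∀ i u, d i u = (D g i : Op K) • u) (φ : ℕ → U) :
    w0' g x d (cn g) n φ (n + 1) = (D g 0 : Op K) • (X 1 : Op K) • φ n := by
  rw [w0', if_pos rfl, hx, hd, ← mul_smul, X_D g (by decide), mul_smul]

theorem w1'_lt (hx : ∀ i u, x i u = (X i : Op K) • u)
    (hd : ∀ i u, d i u = (D g i : Op K) • u) (φ : ℕ → U) {j : ℕ} (hj : j ≤ n) :
    w1' g x d (cn g) n φ j = (D g 1 : Op K) • (X 0 : Op K) • φ j - cn g j • φ (j - 1) := by
  rw [w1', if_neg (by omega), hx, hd, ← mul_smul, X_D g (by decide), mul_smul]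

theorem w1'_top (hg : Gen g) (hx : ∀ i u, x i u = (X i : Op K) • u)
    (hd : ∀ i u, d i u = (D g i : Op K) • u) (φ : ℕ → U) :
    w1' g x d (cn g) n φ (n + 1) =
      (D g 1 : Op K) • (X 1 : Op K) • φ n - cn g (n + 1) • φ n := by
  rw [w1', if_pos rfl, hx, hd, ← mul_smul, ← mul_smul, X_D_self hg, add_smul, one_smul,
    smul_assoc, cn_pred hg n]
  rw [add_smul, one_smul, add_sub_add_left_eq_sub, smul_sub, smul_smul g⁻¹, smul_smul g⁻¹,
    ← mul_assoc, inv_mul_cancel₀ hg.1, one_smul, one_mul, mul_smul]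

theorem sr1w (hx : ∀ i u, x i u = (X i : Op K) • u) (hd : ∀ i u, d i u = (D g i : Op K) • u)
    (φ : ℕ → U) (w : ℕ → Fin 2 → Op K) (hw : ∀ j, n ≤ j → w j = 0) :
    ∑ j ∈ Finset.range (n + 1), e1w g n w j • φ j =
      ∑ j ∈ Finset.range n, (w j 0 • y0' x d (cn g) n φ j + w j 1 • y1' x d (cn g) n φ j) := by
  let A : ℕ → U := fun j =>
    (cn g (n - j))⁻¹ • (w j 0 • 𝐱 0 • 𝐝 0 • φ j + w j 1 • 𝐱 1 • 𝐝 0 • φ j) - w j 0 • φ j
  have hA : A n = 0 := by
    simp only [A, hw n le_rfl, Pi.zero_apply, zero_smul, add_zero, smul_zero, sub_zero]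
  have h1 : ∀ j, e1w g n w j • φ j = A j - sh w j 1 • φ j := by
    intro j
    show _ = (cn g (n - j))⁻¹ • (w j 0 • 𝐱 0 • 𝐝 0 • φ j + w j 1 • 𝐱 1 • 𝐝 0 • φ j) - w j 0 • φ j
        - sh w j 1 • φ j
    simp only [e1w, cc, cn, sub_smul, add_smul, add_mul, smul_assoc, mul_smul]
  have h2 : ∀ j, w j 0 • y0' x d (cn g) n φ j + w j 1 • y1' x d (cn g) n φ j =
      A j - w j 1 • φ (j + 1) := by
    intro j
    show _ = (cn g (n - j))⁻¹ • (w j 0 • 𝐱 0 • 𝐝 0 • φ j + w j 1 • 𝐱 1 • 𝐝 0 • φ j) - w j 0 • φ j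
        - w j 1 • φ (j + 1)
    simp only [y0', y1', hx, hd, smul_sub, smul_add, comm]
    abel
  clear_value A
  rw [Finset.sum_congr rfl fun j _ => h1 j, Finset.sum_congr rfl fun j _ => h2 j,
    Finset.sum_sub_distrib, Finset.sum_sub_distrib, Finset.sum_range_succ A, hA,
    Finset.sum_range_succ' (fun j => sh w j 1 • φ j)]
  simp only [Pi.zero_apply, zero_smul, add_zero, sh_zero, sh_succ]

theorem sr1q (hg : Gen g) (hx : ∀ i u, x i u = (X i : Op K) • u)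
    (hd : ∀ i u, d i u = (D g i : Op K) • u) (φ : ℕ → U) (q : Fin 2 → ℕ → Op K) :
    ∑ j ∈ Finset.range (n + 1), e1q g n q j • φ j =
      ∑ j ∈ Finset.range (n + 2), (q 0 j • w0' g x d (cn g) n φ j +
        q 1 j • w1' g x d (cn g) n φ j) := by
  have h1 : ∀ j, e1q g n q j • φ j =
      (q 0 j • 𝐝 0 • 𝐱 0 • φ j - cn g (n + 1 - j) • q 0 j • φ j + q 1 j • 𝐝 1 • 𝐱 0 • φ j)
      - cn g (j + 1) • q 1 (j + 1) • φ j
      + (if j = n then q 0 (n + 1) • 𝐝 0 • 𝐱 1 • φ n + q 1 (n + 1) • 𝐝 1 • 𝐱 1 • φ n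
          else 0) := by
    intro j
    simp only [e1q]
    split_ifs with h
    · subst h
      simp only [cn, sub_smul, add_smul, smul_assoc, mul_smul]
      abel
    · simp only [cn, sub_smul, add_smul, smul_assoc, mul_smul, zero_smul]
      abel
  have h2 : ∀ j ∈ Finset.range (n + 1), q 0 j • w0' g x d (cn g) n φ j +
      q 1 j • w1' g x d (cn g) n φ j = (q 0 j • 𝐝 0 • 𝐱 0 • φ j -
        cn g (n + 1 - j) • q 0 j • φ j + q 1 j • 𝐝 1 • 𝐱 0 • φ j)
      - cn g j • q 1 j • φ (j - 1) := by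
    intro j hj
    have hj' : j ≤ n := by
      have := Finset.mem_range.1 hj
      omega
    rw [w0'_lt hg hx hd φ hj', w1'_lt hx hd φ hj']
    simp only [smul_sub, comm]
    abel
  rw [Finset.sum_congr rfl fun j _ => h1 j, Finset.sum_add_distrib, Finset.sum_sub_distrib,
    Finset.sum_ite_eq' (Finset.range (n + 1)) n, if_pos (Finset.mem_range.2 (Nat.lt_succ_self n)),
    Finset.sum_range_succ (fun j => q 0 j • w0' g x d (cn g) n φ j +
      q 1 j • w1' g x d (cn g) n φ j) (n + 1), Finset.sum_congr rfl h2, Finset.sum_sub_distrib,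
    w0'_top hx hd, w1'_top hg hx hd]
  have h3 : ∑ j ∈ Finset.range (n + 1), cn g (j + 1) • q 1 (j + 1) • φ j =
      (∑ j ∈ Finset.range (n + 1), cn g j • q 1 j • φ (j - 1)) +
        cn g (n + 1) • q 1 (n + 1) • φ n := by
    have e1 := Finset.sum_range_succ (fun j => cn g j • q 1 j • φ (j - 1)) (n + 1)
    have e2 := Finset.sum_range_succ' (fun j => cn g j • q 1 j • φ (j - 1)) (n + 1)
    simp only [Nat.add_sub_cancel, cn_zero, zero_smul, add_zero] at e1 e2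
    rw [← e1, e2]
  rw [h3]
  simp only [smul_sub, comm]
  abel

set_option maxHeartbeats 2000000 in
theorem sr2 (hx : ∀ i u, x i u = (X i : Op K) • u) (hd : ∀ i u, d i u = (D g i : Op K) • u)
    (y0 y1 w0 w1 : ℕ → U) (hy : ∀ j, n ≤ j → y0 j = 0 ∧ y1 j = 0)
    (v : Fin 2 → ℕ → Fin 2 → Op K) (hv : ∀ e j, n < j → v e j = 0) :
    (∑ j ∈ Finset.range n, (e2w g n v j 0 • y0 j + e2w g n v j 1 • y1 j)) +
      (∑ j ∈ Finset.range (n + 2), (e2q0 g n v j • w0 j + e2q1 g n v j • w1 j)) =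
      ∑ j ∈ Finset.range (n + 1),
        (v 0 j 0 • Y00' g x d (cn g) n y0 w0 w1 j + v 0 j 1 • Y01' x d (cn g) n y0 y1 w0 w1 j +
          (v 1 j 0 • Y10' x d (cn g) n y0 w0 w1 j +
            v 1 j 1 • Y11' g x d (cn g) n y0 y1 w0 w1 j)) := by
  -- the `K₂`-slot
  let A : ℕ → U := fun j => -(cn g (n - j) • (v 0 j 0 • y0 j + v 0 j 1 • y1 j))
    - v 0 j 1 • 𝐝 0 • (𝐱 1 • y0 j - 𝐱 0 • y1 j) - g • v 1 j 1 • 𝐝 1 • (𝐱 1 • y0 j - 𝐱 0 • y1 j)
  have h1 : ∀ j, e2w g n v j 0 • y0 j + e2w g n v j 1 • y1 j =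
      A j - cn g (j + 1) • (v 1 (j + 1) 0 • y0 j + v 1 (j + 1) 1 • y1 j) := by
    intro j
    simp only [A, e2w, syz, cn, Pi.add_apply, Pi.sub_apply, Pi.neg_apply, Pi.smul_apply,
      Matrix.cons_val_zero, Matrix.cons_val_one, sub_smul, add_smul, neg_smul, smul_sub, smul_add,
      smul_neg, smul_assoc, mul_smul]
    abel
  have s1 : ∑ j ∈ Finset.range n, (e2w g n v j 0 • y0 j + e2w g n v j 1 • y1 j) =
      ∑ j ∈ Finset.range (n + 1),
        (A j - cn g j • (v 1 j 0 • y0 (j - 1) + v 1 j 1 • y1 (j - 1))) := by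
    have hA : A n = 0 := by
      simp only [A, (hy n le_rfl).1, (hy n le_rfl).2, smul_zero, add_zero, sub_zero, neg_zero]
    clear_value A
    rw [Finset.sum_congr rfl fun j _ => h1 j, Finset.sum_sub_distrib, Finset.sum_sub_distrib,
      Finset.sum_range_succ A, Finset.sum_range_succ'
        (fun j => cn g j • (v 1 j 0 • y0 (j - 1) + v 1 j 1 • y1 (j - 1)))]
    rw [hA, cn_zero, zero_smul, add_zero, add_zero]
    rfl
  -- the `O(-1)`-slots
  let B : ℕ → U := fun j => g • v 0 j 0 • w0 j + (v 1 j 0 • w1 j + (cn g (n + 1 - j))⁻¹ •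
    (v 1 j 0 • 𝐱 0 • (𝐝 1 • w0 j - 𝐝 0 • w1 j) + v 1 j 1 • 𝐱 1 • (𝐝 1 • w0 j - 𝐝 0 • w1 j)))
  let C : ℕ → U := fun j => sh (v 0) j 1 • w0 j + g • sh (v 1) j 1 • w1 j
  let E : U := (cn g (n + 1))⁻¹ • (v 0 n 0 • 𝐱 0 • (𝐝 0 • w1 (n + 1) - 𝐝 1 • w0 (n + 1)) +
    v 0 n 1 • 𝐱 1 • (𝐝 0 • w1 (n + 1) - 𝐝 1 • w0 (n + 1)))
  have h2 : ∀ j, e2q0 g n v j • w0 j + e2q1 g n v j • w1 j =
      B j + C j + (if j = n + 1 then E else 0) := by
    intro j
    split_ifs with h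
    · subst h
      simp only [B, C, E, e2q0, e2q1, cc, cn, if_true, sub_smul, add_smul, add_mul, neg_smul,
        smul_sub, smul_add, smul_neg, smul_assoc, mul_smul]
      abel
    · simp only [B, C, e2q0, e2q1, cc, cn, if_neg h, sub_smul, add_smul, add_mul, neg_smul,
        smul_sub, smul_add, smul_neg, smul_assoc, mul_smul, zero_smul]
      abel
  have hv0 : v 0 (n + 1) = 0 := hv 0 (n + 1) (by omega)
  have hv1 : v 1 (n + 1) = 0 := hv 1 (n + 1) (by omega)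
  have hB : B (n + 1) = 0 := by
    simp only [B, hv0, hv1, Pi.zero_apply, zero_smul, smul_zero, add_zero]
  have hC : C 0 = 0 := by
    simp only [C, sh_zero, Pi.zero_apply, zero_smul, smul_zero, add_zero]
  have hC' : ∀ j, C (j + 1) = v 0 j 1 • w0 (j + 1) + g • v 1 j 1 • w1 (j + 1) := fun j => rfl
  have s2 : ∑ j ∈ Finset.range (n + 2), (e2q0 g n v j • w0 j + e2q1 g n v j • w1 j) =
      ∑ j ∈ Finset.range (n + 1), (B j + (v 0 j 1 • w0 (j + 1) + g • v 1 j 1 • w1 (j + 1)) +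
        (if j = n then E else 0)) := by
    clear_value A B C E
    rw [Finset.sum_congr rfl fun j _ => h2 j, Finset.sum_add_distrib, Finset.sum_add_distrib,
      Finset.sum_add_distrib, Finset.sum_add_distrib,
      Finset.sum_ite_eq' (Finset.range (n + 2)) (n + 1), if_pos (Finset.mem_range.2 (by omega)),
      Finset.sum_ite_eq' (Finset.range (n + 1)) n, if_pos (Finset.mem_range.2 (by omega)),
      Finset.sum_range_succ B (n + 1), hB, Finset.sum_range_succ' C (n + 1), hC, add_zero,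
      add_zero, Finset.sum_congr rfl fun j _ => hC' j]
  rw [s1, s2, ← Finset.sum_add_distrib]
  refine Finset.sum_congr rfl fun j hj => ?_
  by_cases h : j = n
  · subst h
    simp only [A, B, E, Y00', Y01', Y10', Y11', if_true, hx, hd, smul_add, smul_sub, smul_neg,
      comm]
    abel
  · simp only [A, B, Y00', Y01', Y10', Y11', if_neg h, hx, hd, smul_add, smul_sub, smul_neg,
      comm, smul_zero]
    abel

theorem sr3 (hx : ∀ i u, x i u = (X i : Op K) • u) (hd : ∀ i u, d i u = (D g i : Op K) • u)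
    (Y00 Y01 Y10 Y11 : ℕ → U) (u : ℕ → Op K) (hu : ∀ j, n < j → u j = 0) :
    ∑ j ∈ Finset.range (n + 1), (e3v0 g u j 0 • Y00 j + e3v0 g u j 1 • Y01 j +
        (e3v1 g n u j 0 • Y10 j + e3v1 g n u j 1 • Y11 j)) =
      ∑ j ∈ Finset.range (n + 1), u j • t' x d (cn g) n Y00 Y01 Y10 Y11 j := by
  let A : ℕ → U := fun j => u j • 𝐝 1 • (𝐱 1 • Y00 j - 𝐱 0 • Y01 j)
    - u j • 𝐝 0 • (𝐱 1 • Y10 j - 𝐱 0 • Y11 j) - cn g (j + 1) • u j • Y00 j
    - cn g (n + 1 - j) • u j • Y11 j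
  have h1 : ∀ j, e3v0 g u j 0 • Y00 j + e3v0 g u j 1 • Y01 j +
        (e3v1 g n u j 0 • Y10 j + e3v1 g n u j 1 • Y11 j) =
      A j + cn g (j + 1) • u (j + 1) • Y01 j + cn g (n + 1 - j) • sh u j • Y10 j := by
    intro j
    simp only [A, e3v0, e3v1, cn, Matrix.cons_val_zero, Matrix.cons_val_one, sub_smul, add_smul,
      neg_smul, smul_sub, smul_assoc, mul_smul]
    abel
  have h2 : ∀ j, u j • t' x d (cn g) n Y00 Y01 Y10 Y11 j =
      A j + cn g j • u j • Y01 (j - 1) + cn g (n - j) • u j • Y10 (j + 1) := by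
    intro j
    simp only [A, t', hx, hd, smul_add, smul_sub, comm]
    abel
  rw [Finset.sum_congr rfl fun j _ => h1 j, Finset.sum_congr rfl fun j _ => h2 j]
  simp only [Finset.sum_add_distrib]
  congr 1
  · congr 1
    have e1 := Finset.sum_range_succ (fun j => cn g j • u j • Y01 (j - 1)) (n + 1)
    have e2 := Finset.sum_range_succ' (fun j => cn g j • u j • Y01 (j - 1)) (n + 1)
    simp only [Nat.add_sub_cancel, cn_zero, zero_smul, add_zero, hu (n + 1) (by omega),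
      smul_zero] at e1 e2
    rw [← e1, e2]
  · have e1 := Finset.sum_range_succ' (fun j => cn g (n + 1 - j) • sh u j • Y10 j) n
    have e2 := Finset.sum_range_succ (fun j => cn g (n - j) • u j • Y10 (j + 1)) n
    simp only [sh_zero, sh_succ, zero_smul, smul_zero, add_zero, Nat.sub_self, cn_zero,
      Nat.add_sub_add_right] at e1 e2
    rw [e1, e2]

end seq

section fin

variable {N : Type} [AddCommGroup N] [Module K N] [Module (Op K) N] [IsScalarTower K (Op K) N]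
  {x d : Fin 2 → N →ₗ[K] N} {n : ℕ}

theorem T1 (hg : Gen g) (hx : ∀ i u, x i u = (X i : Op K) • u)
    (hd : ∀ i u, d i u = (D g i : Op K) • u) (φ : ℕ → N) :
    tO (n + 1) φ ∘ₗ KN.E1 g n =
      tP1 n (y0' x d (cn g) n φ) (y1' x d (cn g) n φ) (w0' g x d (cn g) n φ)
        (w1' g x d (cn g) n φ) := by
  apply LinearMap.ext
  rintro ⟨w, q⟩
  have h1 := sr1w hx hd φ (ez w) (fun j hj => ez_of_ge w hj)
  have h2 := sr1q (n := n) hg hx hd φ (ez2 q)
  rw [tP1_apply]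
  show ∑ j : Fin (n + 1), (e1w g n (ez w) j + e1q g n (ez2 q) j) • φ j =
    ∑ j : Fin n, (w j 0 • y0' x d (cn g) n φ j + w j 1 • y1' x d (cn g) n φ j) +
      (∑ j : Fin (n + 2), q 0 j • w0' g x d (cn g) n φ j +
        ∑ j : Fin (n + 2), q 1 j • w1' g x d (cn g) n φ j)
  rw [Finset.sum_range, Finset.sum_range] at h1 h2
  simp only [ez_fin, ez2] at h1 h2
  simp only [add_smul, Finset.sum_add_distrib] at h1 h2 ⊢
  rw [h1, ← h2]

theorem T2 (hx : ∀ i u, x i u = (X i : Op K) • u)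
    (hd : ∀ i u, d i u = (D g i : Op K) • u) (y0 y1 w0 w1 : ℕ → N)
    (hy : ∀ j, n ≤ j → y0 j = 0 ∧ y1 j = 0) :
    tP1 n y0 y1 w0 w1 ∘ₗ KN.E2 g n =
      tP2 n (Y00' g x d (cn g) n y0 w0 w1) (Y01' x d (cn g) n y0 y1 w0 w1)
        (Y10' x d (cn g) n y0 w0 w1) (Y11' g x d (cn g) n y0 y1 w0 w1) := by
  apply LinearMap.ext
  intro v
  have h1 := sr2 (n := n) hx hd y0 y1 w0 w1 hy (ez2 v) (fun e j hj => ez_of_ge (v e) hj)
  rw [tP2_apply]
  show ∑ j : Fin n, (e2w g n (ez2 v) j 0 • y0 j + e2w g n (ez2 v) j 1 • y1 j) +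
      (∑ j : Fin (n + 2), e2q0 g n (ez2 v) j • w0 j +
        ∑ j : Fin (n + 2), e2q1 g n (ez2 v) j • w1 j) =
    ∑ j : Fin (n + 1), (v 0 j 0 • Y00' g x d (cn g) n y0 w0 w1 j +
      v 0 j 1 • Y01' x d (cn g) n y0 y1 w0 w1 j) +
    ∑ j : Fin (n + 1), (v 1 j 0 • Y10' x d (cn g) n y0 w0 w1 j +
      v 1 j 1 • Y11' g x d (cn g) n y0 y1 w0 w1 j)
  rw [Finset.sum_range, Finset.sum_range, Finset.sum_range] at h1
  rw [← Finset.sum_add_distrib, ← Finset.sum_add_distrib, h1]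
  refine Finset.sum_congr rfl fun j _ => ?_
  simp only [ez_fin, ez2]

theorem T3 (hx : ∀ i u, x i u = (X i : Op K) • u)
    (hd : ∀ i u, d i u = (D g i : Op K) • u) (Y00 Y01 Y10 Y11 : ℕ → N) :
    tP2 n Y00 Y01 Y10 Y11 ∘ₗ KN.E3 g n = tO (n + 1) (t' x d (cn g) n Y00 Y01 Y10 Y11) := by
  apply LinearMap.ext
  intro u
  have h1 := sr3 (n := n) hx hd Y00 Y01 Y10 Y11 (ez u) (fun j hj => ez_of_ge u hj)
  show ∑ j : Fin (n + 1), (e3v0 g (ez u) j 0 • Y00 j + e3v0 g (ez u) j 1 • Y01 j) +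
      ∑ j : Fin (n + 1), (e3v1 g n (ez u) j 0 • Y10 j + e3v1 g n (ez u) j 1 • Y11 j) =
    ∑ j : Fin (n + 1), u j • t' x d (cn g) n Y00 Y01 Y10 Y11 j
  rw [Finset.sum_range, Finset.sum_range] at h1
  rw [← Finset.sum_add_distrib, h1]
  refine Finset.sum_congr rfl fun j _ => ?_
  rw [ez_fin]

end fin

end Crest.Agent.R186.TrE1_371
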