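import Crest.Agent.R186.TrE_442
import Crest.Agent.R186.LCE_229

/-!
# Row 186, S0281 base, LCQ `s = 1` (helper442): the transpositions in 229's literal form

`trE1 : tO (n+1) φ ∘ₗ E1 = tP1 n (y0' φ) (y1' φ) (w0' φ) (w1' φ)`,
`trE2 : tP1 n y0 y1 w0 w1 ∘ₗ E2 = tP2 n Y00' Y01' Y10' Y11'` (`y0, y1` zero from `n` on),
`trE3 : tP2 n Y00 Y01 Y10 Y11 ∘ₗ E3 = tO (n+1) t'`.
-/

set_option autoImplicit false
set_option linter.unusedSectionVars false

namespace Crest.Agent.R186.TrL442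

open Crest.Agent.R186.B281 Crest.Agent.R186.LCF1_371
open Crest.Agent.R186.TrE442 (tW tQ tV rs dl lx ld lx_apply ld_apply)

variable {K : Type} [Field K] {g : K}

section ext

variable {N : Type} [AddCommGroup N] [Module (Op K) N]

theorem tO_congr {m : ℕ} {φ ψ : ℕ → N} (h : ∀ j < m, φ j = ψ j) : B281.tO (K := K) m φ = tO m ψ := by
  apply LinearMap.ext
  intro u
  rw [tO_apply, tO_apply]
  exact Finset.sum_congr rfl fun j _ => by rw [h j j.2]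

theorem tK_congr {m : ℕ} {y0 y1 z0 z1 : ℕ → N} (h0 : ∀ j < m, y0 j = z0 j)
    (h1 : ∀ j < m, y1 j = z1 j) : tK (K := K) m y0 y1 = tK m z0 z1 := by
  apply LinearMap.ext
  intro u
  rw [tK_apply, tK_apply]
  exact Finset.sum_congr rfl fun j _ => by rw [h0 j j.2, h1 j j.2]

theorem tP1_congr {n : ℕ} {y0 y1 w0 w1 z0 z1 v0 v1 : ℕ → N} (h0 : ∀ j < n, y0 j = z0 j)
    (h1 : ∀ j < n, y1 j = z1 j) (k0 : ∀ j ≤ n + 1, w0 j = v0 j) (k1 : ∀ j ≤ n + 1, w1 j = v1 j) :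
    tP1 (K := K) n y0 y1 w0 w1 = tP1 n z0 z1 v0 v1 := by
  unfold tP1
  rw [tK_congr h0 h1, tO_congr (m := n + 2) (φ := w0) (ψ := v0) fun j hj => k0 j (by omega),
    tO_congr (m := n + 2) (φ := w1) (ψ := v1) fun j hj => k1 j (by omega)]

theorem tP2_congr {n : ℕ} {y0 y1 w0 w1 z0 z1 v0 v1 : ℕ → N} (h0 : ∀ j ≤ n, y0 j = z0 j)
    (h1 : ∀ j ≤ n, y1 j = z1 j) (k0 : ∀ j ≤ n, w0 j = v0 j) (k1 : ∀ j ≤ n, w1 j = v1 j) :
    tP2 (K := K) n y0 y1 w0 w1 = tP2 n z0 z1 v0 v1 := by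
  unfold tP2
  rw [tK_congr (m := n + 1) (y0 := y0) (y1 := y1) (fun j hj => h0 j (by omega))
      (fun j hj => h1 j (by omega)),
    tK_congr (m := n + 1) (y0 := w0) (y1 := w1) (fun j hj => k0 j (by omega))
      (fun j hj => k1 j (by omega))]

end ext

section

variable {N : Type} [AddCommGroup N] [Module K N] [Module (Op K) N] [IsScalarTower K (Op K) N]

theorem rs_single {A : Type} [Zero A] {m j : ℕ} (h : j < m) (a : A) :
    rs m (dl j a) = Pi.single ⟨j, h⟩ a := TrE442.rs_dl h a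

theorem eq_tO {m : ℕ} (Φ : (Fin m → Op K) →ₗ[Op K] N) : Φ = B281.tO m (TrE442.tO Φ) := by
  apply LinearMap.ext
  intro u
  conv_lhs => rw [← Finset.univ_sum_single u]
  rw [map_sum, tO_apply]
  refine Finset.sum_congr rfl fun j _ => ?_
  rw [← TrE442.tO_dl, rs_single j.2]

theorem eq_tP1 {n : ℕ} (Ψ : ((Fin n → Fin 2 → Op K) × (Fin 2 → Fin (n + 2) → Op K)) →ₗ[Op K] N) :
    Ψ = tP1 n (tW Ψ 0) (tW Ψ 1) (tQ Ψ 0) (tQ Ψ 1) := by
  apply LinearMap.ext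
  rintro ⟨w, q⟩
  rw [tP1_apply]
  show _ = tK n (tW Ψ 0) (tW Ψ 1) w + (B281.tO (n + 2) (tQ Ψ 0) (q 0) +
    B281.tO (n + 2) (tQ Ψ 1) (q 1))
  have hq : ∀ (l : Fin 2) (u : Fin (n + 2) → Op K),
      B281.tO (n + 2) (tQ Ψ l) u = Ψ (0, Pi.single l u) := by
    intro l u
    have h1 : Ψ (0, Pi.single l u) = (Ψ ∘ₗ LinearMap.inr (Op K) _ _ ∘ₗ
      LinearMap.single (Op K) (fun _ : Fin 2 => Fin (n + 2) → Op K) l) u := rfl
    rw [h1, eq_tO (Ψ ∘ₗ LinearMap.inr (Op K) _ _ ∘ₗ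
      LinearMap.single (Op K) (fun _ : Fin 2 => Fin (n + 2) → Op K) l)]
    rfl
  have hw : tK n (tW Ψ 0) (tW Ψ 1) w = Ψ (w, 0) := by
    rw [tK_apply]
    have h2 : ∀ j : Fin n, w j 0 • tW Ψ 0 j + w j 1 • tW Ψ 1 j =
        (Ψ ∘ₗ LinearMap.inl (Op K) _ _) (Pi.single j (w j)) := by
      intro j
      rw [← TrE442.tW_dl, rs_single j.2]
      rfl
    rw [Finset.sum_congr rfl fun j _ => h2 j, ← map_sum, Finset.univ_sum_single]
    rfl
  rw [hq, hq, hw]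
  have hs := TrE442.split1 Ψ w (q 0) (q 1)
  have hqq : ![q 0, q 1] = q := by
    funext e
    fin_cases e <;> rfl
  rw [hqq] at hs
  rw [hs, add_assoc]

theorem eq_tP2 {n : ℕ} (χ : (Fin 2 → Fin (n + 1) → Fin 2 → Op K) →ₗ[Op K] N) :
    χ = tP2 n (tV χ 0 0) (tV χ 0 1) (tV χ 1 0) (tV χ 1 1) := by
  apply LinearMap.ext
  intro v
  rw [tP2_apply]
  have hv : ∀ (l : Fin 2) (u : Fin (n + 1) → Fin 2 → Op K),
      tK (n + 1) (tV χ l 0) (tV χ l 1) u = χ (Pi.single l u) := by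
    intro l u
    rw [tK_apply]
    have h2 : ∀ j : Fin (n + 1), u j 0 • tV χ l 0 j + u j 1 • tV χ l 1 j =
        (χ ∘ₗ LinearMap.single (Op K) (fun _ : Fin 2 => Fin (n + 1) → Fin 2 → Op K) l)
          (Pi.single j (u j)) := by
      intro j
      rw [← TrE442.tV_dl, rs_single j.2]
      rfl
    rw [Finset.sum_congr rfl fun j _ => h2 j, ← map_sum, Finset.univ_sum_single]
    rfl
  rw [hv, hv]
  have hs := TrE442.split2 χ (v 0) (v 1)
  have hqq : ![v 0, v 1] = v := by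
    funext e
    fin_cases e <;> rfl
  rw [hqq] at hs
  exact hs

/-! ### the tuples of 229's maps -/

theorem tO_tO {m j : ℕ} (h : j < m) (φ : ℕ → N) : TrE442.tO (B281.tO (K := K) m φ) j = φ j := by
  show B281.tO (K := K) m φ (rs m (dl j 1)) = φ j
  rw [rs_single h, tO_single, one_smul]

theorem tW_tP1 {n j : ℕ} (h : j < n) (y0 y1 w0 w1 : ℕ → N) (i : Fin 2) :
    tW (tP1 (K := K) n y0 y1 w0 w1) i j = if i = 0 then y0 j else y1 j := by
  show tP1 (K := K) n y0 y1 w0 w1 (rs n (dl j (Pi.single i 1)), 0) = _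
  rw [tP1_apply, rs_single h, tK_single]
  show _ + (B281.tO (K := K) (n + 2) w0 0 + B281.tO (K := K) (n + 2) w1 0) = _
  rw [map_zero, map_zero, add_zero, add_zero]
  fin_cases i
  · show (1 : Op K) • y0 j + (0 : Op K) • y1 j = y0 j
    rw [one_smul, zero_smul, add_zero]
  · show (0 : Op K) • y0 j + (1 : Op K) • y1 j = y1 j
    rw [one_smul, zero_smul, zero_add]

theorem tQ_tP1 {n j : ℕ} (h : j ≤ n + 1) (y0 y1 w0 w1 : ℕ → N) (l : Fin 2) :
    tQ (tP1 (K := K) n y0 y1 w0 w1) l j = if l = 0 then w0 j else w1 j := by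
  show tP1 (K := K) n y0 y1 w0 w1 (0, Pi.single l (rs (n + 2) (dl j 1))) = _
  rw [tP1_apply, rs_single (show j < n + 2 by omega)]
  show tK n y0 y1 0 + _ = _
  rw [map_zero, zero_add]
  fin_cases l
  · show B281.tO (K := K) (n + 2) w0 (Pi.single ⟨j, _⟩ 1) + B281.tO (K := K) (n + 2) w1 0 = w0 j
    rw [map_zero, add_zero, tO_single, one_smul]
  · show B281.tO (K := K) (n + 2) w0 0 + B281.tO (K := K) (n + 2) w1 (Pi.single ⟨j, _⟩ 1) = w1 j
    rw [map_zero, zero_add, tO_single, one_smul]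

theorem tV_tP2 {n j : ℕ} (h : j ≤ n) (Y00 Y01 Y10 Y11 : ℕ → N) (l i : Fin 2) :
    tV (tP2 (K := K) n Y00 Y01 Y10 Y11) l i j =
      if l = 0 then (if i = 0 then Y00 j else Y01 j) else (if i = 0 then Y10 j else Y11 j) := by
  show tP2 (K := K) n Y00 Y01 Y10 Y11 (Pi.single l (rs (n + 1) (dl j (Pi.single i 1)))) = _
  rw [tP2_apply, rs_single (show j < n + 1 by omega)]
  have hz : ∀ a b : ℕ → N, (1 : Op K) • a j + (0 : Op K) • b j = a j := by
    intro a b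
    rw [one_smul, zero_smul, add_zero]
  have hz' : ∀ a b : ℕ → N, (0 : Op K) • a j + (1 : Op K) • b j = b j := by
    intro a b
    rw [one_smul, zero_smul, zero_add]
  fin_cases l
  · show tK (n + 1) Y00 Y01 (Pi.single ⟨j, _⟩ (Pi.single i 1)) + tK (n + 1) Y10 Y11 0 = _
    rw [map_zero, add_zero, tK_single]
    fin_cases i
    · exact hz _ _
    · exact hz' _ _
  · show tK (n + 1) Y00 Y01 0 + tK (n + 1) Y10 Y11 (Pi.single ⟨j, _⟩ (Pi.single i 1)) = _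
    rw [map_zero, zero_add, tK_single]
    fin_cases i
    · exact hz _ _
    · exact hz' _ _

end

/-! ### the three transpositions -/

theorem fx_eq (F : Fam g) : fx F = lx (K := K) (U := F.N) := rfl
theorem fd_eq (F : Fam g) : fd F = ld (K := K) g (U := F.N) := rfl

theorem trE1 (hg : Gen g) (F : Fam g) (n : ℕ) (φ : ℕ → F.N) :
    B281.tO (n + 1) φ ∘ₗ KN.E1 g n =
      tP1 n (y0' (fx F) (fd F) (fun m => cq g (m : ℤ)) n φ)
        (y1' (fx F) (fd F) (fun m => cq g (m : ℤ)) n φ)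
        (w0' g (fx F) (fd F) (fun m => cq g (m : ℤ)) n φ)
        (w1' g (fx F) (fd F) (fun m => cq g (m : ℤ)) n φ) := by
  rw [eq_tP1 (B281.tO (n + 1) φ ∘ₗ KN.E1 g n)]
  have e : ∀ j ≤ n, TrE442.tO (B281.tO (K := K) (n + 1) φ) j = φ j := fun j hj =>
    tO_tO (by omega) φ
  refine tP1_congr (fun j hj => ?_) (fun j hj => ?_) (fun j hj => ?_) (fun j hj => ?_)
  · rw [TrE442.T1w0 hj]
    simp only [y0', e j hj.le]
    rfl
  · rw [TrE442.T1w1 hj]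
    simp only [y1', e j hj.le, e (j + 1) hj]
    rfl
  · rw [TrE442.T1q0 hg hj]
    simp only [w0']
    by_cases h : j = n + 1
    · rw [if_pos h, if_pos h, e n le_rfl]
      rfl
    · rw [if_neg h, if_neg h, e j (by omega)]
      rfl
  · rw [TrE442.T1q1 hg hj]
    simp only [w1']
    by_cases h : j = n + 1
    · rw [if_pos h, if_pos h, e n le_rfl]
      rfl
    · rw [if_neg h, if_neg h, e j (by omega), e (j - 1) (by omega)]
      rfl

theorem trE2 (F : Fam g) (n : ℕ) (y0 y1 w0 w1 : ℕ → F.N)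
    (hz : ∀ j, n ≤ j → y0 j = 0 ∧ y1 j = 0) :
    tP1 n y0 y1 w0 w1 ∘ₗ KN.E2 g n =
      tP2 n (Y00' g (fx F) (fd F) (fun m => cq g (m : ℤ)) n y0 w0 w1)
        (Y01' (fx F) (fd F) (fun m => cq g (m : ℤ)) n y0 y1 w0 w1)
        (Y10' (fx F) (fd F) (fun m => cq g (m : ℤ)) n y0 w0 w1)
        (Y11' g (fx F) (fd F) (fun m => cq g (m : ℤ)) n y0 y1 w0 w1) := by
  rw [eq_tP2 (tP1 n y0 y1 w0 w1 ∘ₗ KN.E2 g n)]
  have ey0 : ∀ j, tW (tP1 (K := K) n y0 y1 w0 w1) 0 j = y0 j := by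
    intro j
    rcases lt_or_ge j n with h | h
    · rw [tW_tP1 h]
      rfl
    · rw [TrE442.tW_ge _ _ h, (hz j h).1]
  have ey1 : ∀ j, tW (tP1 (K := K) n y0 y1 w0 w1) 1 j = y1 j := by
    intro j
    rcases lt_or_ge j n with h | h
    · rw [tW_tP1 h]
      rfl
    · rw [TrE442.tW_ge _ _ h, (hz j h).2]
  have ew0 : ∀ j ≤ n + 1, tQ (tP1 (K := K) n y0 y1 w0 w1) 0 j = w0 j := fun j hj => by
    rw [tQ_tP1 hj]
    rfl
  have ew1 : ∀ j ≤ n + 1, tQ (tP1 (K := K) n y0 y1 w0 w1) 1 j = w1 j := fun j hj => by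
    rw [tQ_tP1 hj]
    rfl
  refine tP2_congr (fun j hj => ?_) (fun j hj => ?_) (fun j hj => ?_) (fun j hj => ?_)
  · rw [TrE442.T200 hj]
    simp only [Y00', ey0, ew0 j (by omega), ew0 (n + 1) le_rfl, ew1 (n + 1) le_rfl]
    rfl
  · rw [TrE442.T201 hj]
    simp only [Y01', ey0, ey1, ew0 (j + 1) (by omega), ew0 (n + 1) le_rfl, ew1 (n + 1) le_rfl]
    rfl
  · rw [TrE442.T210 hj]
    simp only [Y10', ey0, ew0 j (by omega), ew1 j (by omega)]
    rfl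
  · rw [TrE442.T211 hj]
    simp only [Y11', ey0, ey1, ew0 j (by omega), ew1 j (by omega), ew1 (j + 1) (by omega)]
    rfl

theorem trE3 (F : Fam g) (n : ℕ) (Y00 Y01 Y10 Y11 : ℕ → F.N) :
    tP2 n Y00 Y01 Y10 Y11 ∘ₗ KN.E3 g n =
      B281.tO (n + 1) (t' (fx F) (fd F) (fun m => cq g (m : ℤ)) n Y00 Y01 Y10 Y11) := by
  rw [eq_tO (tP2 n Y00 Y01 Y10 Y11 ∘ₗ KN.E3 g n)]
  have e00 : ∀ j ≤ n, tV (tP2 (K := K) n Y00 Y01 Y10 Y11) 0 0 j = Y00 j := fun j hj => by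
    rw [tV_tP2 hj]
    rfl
  have e01 : ∀ j ≤ n, tV (tP2 (K := K) n Y00 Y01 Y10 Y11) 0 1 j = Y01 j := fun j hj => by
    rw [tV_tP2 hj]
    rfl
  have e10 : ∀ j ≤ n, tV (tP2 (K := K) n Y00 Y01 Y10 Y11) 1 0 j = Y10 j := fun j hj => by
    rw [tV_tP2 hj]
    rfl
  have e11 : ∀ j ≤ n, tV (tP2 (K := K) n Y00 Y01 Y10 Y11) 1 1 j = Y11 j := fun j hj => by
    rw [tV_tP2 hj]
    rfl
  refine tO_congr fun j hj => ?_
  have hj' : j ≤ n := by omega
  rw [TrE442.T3 hj']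
  simp only [t', e00 j hj', e01 j hj', e10 j hj', e11 j hj', e01 (j - 1) (by omega)]
  rcases Nat.lt_or_ge j n with h | h
  · rw [e10 (j + 1) h]
    rfl
  · have h2 : n - j = 0 := by omega
    simp only [h2, Nat.cast_zero, cq_zero, zero_smul]
    rfl

end Crest.Agent.R186.TrL442
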