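import Mathlib

/-!
Row 186, half (A), leaf F4 (a) (helper654): triangular exactness, abstract form.

`κ` = the (finitely many) basic cells with degree `cd`, `β` = a basis of the coefficient space with
word length `ln` and degree `qd`, `ln q ≤ qd q`.  `Gr q` = the graded functions at the position of
`q`.  `D` is triangular with respect to `ln` with diagonal `D0 q`.  If each `D0 q` is exact, so is `D`.
-/

set_option autoImplicit false

namespace Crest.Agent.R186.Tri654

variable {K κ β V : Type*} [Field K] [AddCommGroup V] [Module K V]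

/-- **triangular exactness** -/
theorem exact_of_tri (cd : κ → ℕ) (ln qd : β → ℕ) (hle : ∀ q, ln q ≤ qd q)
    (Gr : β → Submodule K (κ → V)) (D0 : β → (κ → V) → (κ → V))
    (hex : ∀ (q : β) (n : ℕ) (φ : κ → V), φ ∈ Gr q → (∀ c, cd c ≠ n → φ c = 0) → D0 q φ = 0 →
      ∃ ψ ∈ Gr q, (∀ c, cd c + 1 ≠ n → ψ c = 0) ∧ D0 q ψ = φ)
    (D : (κ × β → V) →ₗ[K] (κ × β → V))
    (hDD : ∀ φ : κ × β → V, (∀ q, (fun c => φ (c, q)) ∈ Gr q) → D (D φ) = 0)
    (hG : ∀ φ : κ × β → V, (∀ q, (fun c => φ (c, q)) ∈ Gr q) → ∀ q, (fun c => D φ (c, q)) ∈ Gr q)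
    (hs : ∀ (n : ℕ) (φ : κ × β → V), (∀ σ : κ × β, cd σ.1 + qd σ.2 + 1 ≠ n → φ σ = 0) →
      ∀ σ : κ × β, cd σ.1 + qd σ.2 ≠ n → D φ σ = 0)
    (htri : ∀ (N : ℕ) (φ : κ × β → V), (∀ q, (fun c => φ (c, q)) ∈ Gr q) →
      (∀ c q, N < ln q → φ (c, q) = 0) →
      (∀ c q, N < ln q → D φ (c, q) = 0) ∧
      (∀ c q, ln q = N → D φ (c, q) = D0 q (fun c' => φ (c', q)) c))
    (n : ℕ) (φ : κ × β → V) (hφ : ∀ q, (fun c => φ (c, q)) ∈ Gr q)
    (hn : ∀ σ : κ × β, cd σ.1 + qd σ.2 ≠ n → φ σ = 0) (hD : D φ = 0) :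
    ∃ ψ : κ × β → V, (∀ q, (fun c => ψ (c, q)) ∈ Gr q) ∧
      (∀ σ : κ × β, cd σ.1 + qd σ.2 + 1 ≠ n → ψ σ = 0) ∧ φ = D ψ := by
  classical
  have key : ∀ (N : ℕ) (φ : κ × β → V), (∀ q, (fun c => φ (c, q)) ∈ Gr q) →
      (∀ σ : κ × β, cd σ.1 + qd σ.2 ≠ n → φ σ = 0) → D φ = 0 →
      (∀ c q, N ≤ ln q → φ (c, q) = 0) →
      ∃ ψ : κ × β → V, (∀ q, (fun c => ψ (c, q)) ∈ Gr q) ∧
        (∀ σ : κ × β, cd σ.1 + qd σ.2 + 1 ≠ n → ψ σ = 0) ∧ φ = D ψ := by
    intro N
    induction N with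
    | zero =>
      intro φ _ _ _ h0
      refine ⟨0, fun q => Submodule.zero_mem _, fun _ _ => rfl, ?_⟩
      rw [map_zero]
      funext ⟨c, q⟩
      exact h0 c q (Nat.zero_le _)
    | succ N ih =>
      intro φ hφ hn hD h0
      obtain ⟨_, t2⟩ := htri N φ hφ (fun c q h => h0 c q h)
      have hq : ∀ q, ∃ ψ ∈ Gr q, (∀ c, cd c + qd q + 1 ≠ n → ψ c = 0) ∧
          (ln q = N → D0 q ψ = fun c => φ (c, q)) ∧ (ln q ≠ N → ψ = 0) := by
        intro q
        by_cases hl : ln q = N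
        · by_cases hd : qd q ≤ n
          · obtain ⟨ψ, h1, h2, h3⟩ := hex q (n - qd q) (fun c => φ (c, q)) (hφ q)
              (fun c hc => hn (c, q) (by simp only; omega))
              (by
                funext c
                rw [← t2 c q hl, hD]
                rfl)
            exact ⟨ψ, h1, fun c hc => h2 c (by omega), fun _ => h3, fun h => absurd hl h⟩
          · have hz : (fun c => φ (c, q)) = 0 := by
              funext c
              exact hn (c, q) (by simp only; omega)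
            have h00 : D0 q 0 = fun c => φ (c, q) := by
              funext c
              have := t2 c q hl
              rw [hz] at this
              rw [← this, hD]
              exact (congrFun hz c).symm
            exact ⟨0, Submodule.zero_mem _, fun _ _ => rfl, fun _ => h00, fun _ => rfl⟩
        · exact ⟨0, Submodule.zero_mem _, fun _ _ => rfl, fun h => absurd h hl, fun _ => rfl⟩
      choose ψ h1 h2 h3 h4 using hq
      set Ψ : κ × β → V := fun σ => ψ σ.2 σ.1 with hΨ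
      have g1 : ∀ q, (fun c => Ψ (c, q)) ∈ Gr q := fun q => h1 q
      have g2 : ∀ σ : κ × β, cd σ.1 + qd σ.2 + 1 ≠ n → Ψ σ = 0 := fun σ hσ => h2 σ.2 σ.1 hσ
      have g0 : ∀ c q, N < ln q → Ψ (c, q) = 0 := by
        intro c q hl
        change ψ q c = 0
        rw [h4 q (by omega)]
        rfl
      obtain ⟨u1, u2⟩ := htri N Ψ g1 g0
      obtain ⟨Ψ', k1, k2, k3⟩ := ih (φ - D Ψ)
        (fun q => Submodule.sub_mem _ (hφ q) (hG Ψ g1 q))
        (fun σ hσ => by
          rw [Pi.sub_apply, hn σ hσ, hs n Ψ g2 σ hσ, sub_zero])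
        (by rw [map_sub, hD, hDD Ψ g1, sub_zero])
        (fun c q hl => by
          rw [Pi.sub_apply]
          rcases Nat.lt_or_ge N (ln q) with h | h
          · rw [h0 c q h, u1 c q h, sub_zero]
          · have hl' : ln q = N := by omega
            rw [u2 c q hl']
            change φ (c, q) - D0 q (ψ q) c = 0
            rw [h3 q hl', sub_self])
      refine ⟨Ψ + Ψ', fun q => Submodule.add_mem _ (g1 q) (k1 q), fun σ hσ => ?_, ?_⟩
      · rw [Pi.add_apply, g2 σ hσ, k2 σ hσ, add_zero]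
      · rw [map_add, ← k3, add_sub_cancel]
  refine key (n + 1) φ hφ hn hD (fun c q hl => hn (c, q) ?_)
  have := hle q
  simp only
  omega

end Crest.Agent.R186.Tri654
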