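import Crest.Agent.R186.Frame_515

/-!
Row 186 (helper301), half (A): functoriality of twisted complexes over `Frame_515`
(maps, quasi-isomorphisms, short exact sequences, acyclicity up to a degree).
-/

set_option autoImplicit false
set_option linter.style.haveILetI false
set_option linter.unusedSectionVars false
set_option linter.unusedSimpArgs false

open MulOpposite

namespace Crest.Agent.R186.TwQ301

open Hat827 Hat827.DGA Frame515

variable {K : Type} [Field K]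

/-! ### complexes -/

/-- acyclic in degrees `≤ s` -/
def AcU (s : ℤ) (X : GC K) : Prop :=
  ∀ k ≤ s, ∀ x ∈ X.gr k, X.d x = 0 → ∃ y ∈ X.gr (k + 1), X.d y = x

theorem Ac.up {X : GC K} (h : Ac X) (s : ℤ) : AcU s X := fun k _ x hx hd => h k x hx hd

theorem ac_of_up {X : GC K} (h : ∀ s, AcU s X) : Ac X := fun k x hx hd => h k k le_rfl x hx hd

theorem AcU.mono {X : GC K} {s t : ℤ} (h : AcU t X) (hst : s ≤ t) : AcU s X :=
  fun k hk => h k (hk.trans hst)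

theorem AcU.of_qi {X Y : GC K} {φ : GCHom X Y} (q : QI φ) {s : ℤ} (h : AcU s X) : AcU s Y := by
  intro k hk y hy hd
  obtain ⟨x, hx, hdx, z, hz, e⟩ := q.surj k y hy hd
  obtain ⟨w, hw, hdw⟩ := h k hk x hx hdx
  refine ⟨φ.f w + z, Submodule.add_mem _ (φ.f_mem hw) hz, ?_⟩
  rw [map_add, ← φ.f_d, hdw, ← e]

theorem AcU.of_qi' {X Y : GC K} {φ : GCHom X Y} (q : QI φ) {s : ℤ} (h : AcU s Y) : AcU s X := by
  intro k hk x hx hd
  obtain ⟨z, hz, e⟩ := h k hk (φ.f x) (φ.f_mem hx) (by rw [← φ.f_d, hd, map_zero])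
  obtain ⟨w, hw, hw'⟩ := q.inj k x hx hd ⟨z, hz, e.symm⟩
  exact ⟨w, hw, hw'.symm⟩

theorem ac_of_qi {X Y : GC K} {φ : GCHom X Y} (q : QI φ) (h : Ac X) : Ac Y :=
  ac_of_up fun s => AcU.of_qi q (Ac.up h s)

theorem ac_of_qi' {X Y : GC K} {φ : GCHom X Y} (q : QI φ) (h : Ac Y) : Ac X :=
  ac_of_up fun s => AcU.of_qi' q (Ac.up h s)

/-- strict short exact sequence, degreewise -/
structure SES {X0 X1 X2 : GC K} (f : GCHom X0 X1) (g : GCHom X1 X2) : Prop where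
  inj : ∀ x, f.f x = 0 → x = 0
  zero : ∀ x, g.f (f.f x) = 0
  mid : ∀ (k : ℤ) (x : X1.X), x ∈ X1.gr k → g.f x = 0 → ∃ w ∈ X0.gr k, f.f w = x
  surj : ∀ (k : ℤ) (z : X2.X), z ∈ X2.gr k → ∃ y ∈ X1.gr k, g.f y = z

/-- connecting step -/
theorem SES.right {X0 X1 X2 : GC K} {f : GCHom X0 X1} {g : GCHom X1 X2} (h : SES f g) {s : ℤ}
    (h0 : AcU s X0) (h1 : AcU (s + 1) X1) : AcU (s + 1) X2 := by
  intro k hk z hz hd
  obtain ⟨y, hy, rfl⟩ := h.surj k z hz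
  obtain ⟨w, hw, hw'⟩ := h.mid (k - 1) (X1.d y) (X1.d_mem hy) (by rw [g.f_d, hd])
  obtain ⟨v, hv, hv'⟩ := h0 (k - 1) (by omega) w hw (h.inj _ (by rw [f.f_d, hw', X1.d_d]))
  rw [show k - 1 + 1 = k by ring] at hv
  obtain ⟨u, hu, hu'⟩ := h1 k hk (y - f.f v) (Submodule.sub_mem _ hy (f.f_mem hv))
    (by rw [map_sub, ← f.f_d, hv', hw', sub_self])
  refine ⟨g.f u, g.f_mem hu, ?_⟩
  rw [← g.f_d, hu', map_sub, h.zero, sub_zero]

theorem SES.mid_ac {X0 X1 X2 : GC K} {f : GCHom X0 X1} {g : GCHom X1 X2} (h : SES f g) {s : ℤ}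
    (h0 : AcU s X0) (h2 : AcU s X2) : AcU s X1 := by
  intro k hk y hy hd
  obtain ⟨z, hz, hz'⟩ := h2 k hk (g.f y) (g.f_mem hy) (by rw [← g.f_d, hd, map_zero])
  obtain ⟨u, hu, rfl⟩ := h.surj (k + 1) z hz
  obtain ⟨w, hw, hw'⟩ := h.mid k (y - X1.d u)
    (Submodule.sub_mem _ hy (by have := X1.d_mem hu; rwa [add_sub_cancel_right] at this))
    (by rw [map_sub, g.f_d, hz', sub_self])
  obtain ⟨v, hv, hv'⟩ := h0 k hk w hw (h.inj _ (by rw [f.f_d, hw', map_sub, hd, X1.d_d, sub_zero]))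
  refine ⟨f.f v + u, Submodule.add_mem _ (f.f_mem hv) hu, ?_⟩
  rw [map_add, ← f.f_d, hv', hw', sub_add_cancel]

theorem SES.left {X0 X1 X2 : GC K} {f : GCHom X0 X1} {g : GCHom X1 X2} (h : SES f g) {s : ℤ}
    (h1 : AcU s X1) (h2 : AcU (s + 1) X2) : AcU s X0 := by
  intro k hk x hx hd
  obtain ⟨y, hy, hy'⟩ := h1 k hk (f.f x) (f.f_mem hx) (by rw [← f.f_d, hd, map_zero])
  obtain ⟨z, hz, hz'⟩ := h2 (k + 1) (by omega) (g.f y) (g.f_mem hy)
    (by rw [← g.f_d, hy', h.zero])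
  obtain ⟨u, hu, rfl⟩ := h.surj (k + 1 + 1) z hz
  obtain ⟨w, hw, hw'⟩ := h.mid (k + 1) (y - X1.d u)
    (Submodule.sub_mem _ hy (by have := X1.d_mem hu; rwa [add_sub_cancel_right] at this))
    (by rw [map_sub, g.f_d, hz', sub_self])
  refine ⟨w, hw, sub_eq_zero.1 (h.inj _ ?_)⟩
  rw [map_sub, f.f_d, hw', map_sub, X1.d_d, sub_zero, hy', sub_self]

/-! ### the cone -/

section cone

variable {X Y : GC K} (two : ∀ y : Y.X, y + y = 0) (φ : GCHom X Y)

include two in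
/-- the cone -/
def cone : GC K where
  X := X.X × Y.X
  gr k := (X.gr (k - 1)).prod (Y.gr k)
  d := (X.d.comp (LinearMap.fst K X.X Y.X)).prod
    (φ.f.comp (LinearMap.fst K X.X Y.X) + Y.d.comp (LinearMap.snd K X.X Y.X))
  d_mem := by
    rintro k ⟨x, y⟩ ⟨hx, hy⟩
    exact ⟨X.d_mem hx, Submodule.add_mem _ (φ.f_mem hx) (Y.d_mem hy)⟩
  d_d := by
    rintro ⟨x, y⟩
    refine Prod.ext (X.d_d x) ?_
    change φ.f (X.d x) + Y.d (φ.f x + Y.d y) = 0
    rw [map_add, Y.d_d, add_zero, φ.f_d]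
    exact two _

theorem cone_ac (q : QI φ) : Ac (cone two φ) := by
  rintro k ⟨x, y⟩ ⟨hx, hy⟩ hd
  have h1 : X.d x = 0 := congrArg Prod.fst hd
  have h2 : φ.f x + Y.d y = 0 := congrArg Prod.snd hd
  have h3 : φ.f x = Y.d y := by
    have := two (Y.d y)
    calc φ.f x = φ.f x + (Y.d y + Y.d y) := by rw [this, add_zero]
      _ = (φ.f x + Y.d y) + Y.d y := by abel
      _ = Y.d y := by rw [h2, zero_add]
  have hx' : x ∈ X.gr (k - 1) := hx
  have hy' : y ∈ Y.gr (k - 1 + 1) := by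
    rw [sub_add_cancel]; exact hy
  obtain ⟨w, hw, hw'⟩ := q.inj (k - 1) x hx' h1 ⟨y, hy', h3⟩
  rw [sub_add_cancel] at hw
  obtain ⟨x', hx1, hx2, z, hz, e⟩ := q.surj k (y - φ.f w)
    (Submodule.sub_mem _ hy (φ.f_mem hw)) (by rw [map_sub, ← φ.f_d, ← hw', h3, sub_self])
  refine ⟨(w + x', z), ⟨?_, hz⟩, ?_⟩
  · change w + x' ∈ X.gr (k + 1 - 1)
    rw [add_sub_cancel_right]
    exact Submodule.add_mem _ hw hx1
  · refine Prod.ext ?_ ?_
    · change X.d (w + x') = x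
      rw [map_add, hx2, add_zero, ← hw']
    · change φ.f (w + x') + Y.d z = y
      rw [map_add, add_assoc, ← e, add_sub_cancel]

end cone

/-! ### twisting data over a fixed index set -/

/-- index data -/
structure IxD where
  ι : Type
  s : ι → ℕ
  F : ℕ → Finset ι
  mem_F : ∀ n σ, σ ∈ F n ↔ s σ ≤ n

/-- twisting data over a fixed index set -/
structure TwD (I : IxD) (B : GC K) where
  p : I.ι → (B.X →ₗ[K] B.X)
  m : I.ι → I.ι → (B.X →ₗ[K] B.X)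
  p_mem : ∀ σ {k : ℤ} {x : B.X}, x ∈ B.gr k → p σ x ∈ B.gr k
  p_p : ∀ σ x, p σ (p σ x) = p σ x
  p_d : ∀ σ x, p σ (B.d x) = B.d (p σ x)
  m_zero : ∀ σ τ, I.s σ ≤ I.s τ → m σ τ = 0
  m_mem : ∀ σ τ {k : ℤ} {x : B.X}, x ∈ B.gr k → m σ τ x ∈ B.gr (k + (I.s σ - I.s τ - 1))
  p_m : ∀ σ τ x, p τ (m σ τ x) = m σ τ x
  mc : ∀ σ τ x, B.d (m σ τ x) + m σ τ (B.d x) + ∑ ρ ∈ I.F (I.s σ), m ρ τ (m σ ρ x) = 0

/-- forget -/
@[reducible] def TwD.tw {I : IxD} {B : GC K} (T : TwD I B) : Tw B :=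
  { ι := I.ι, s := I.s, F := I.F, mem_F := I.mem_F, p := T.p, m := T.m, p_mem := T.p_mem,
    p_p := T.p_p, p_d := T.p_d, m_zero := T.m_zero, m_mem := T.m_mem, p_m := T.p_m, mc := T.mc }

/-- compatible maps -/
structure Cpt {I : IxD} {B B' : GC K} (T : TwD I B) (T' : TwD I B') (f : GCHom B B') : Prop where
  p : ∀ σ x, f.f (T.p σ x) = T'.p σ (f.f x)
  m : ∀ σ τ x, f.f (T.m σ τ x) = T'.m σ τ (f.f x)

section map

variable {I : IxD} {B B' B'' : GC K} {T : TwD I B} {T' : TwD I B'} {T'' : TwD I B''}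

/-- the induced map -/
noncomputable def tmap {f : GCHom B B'} (h : Cpt T T' f) : GCHom T.tw.cx T'.tw.cx where
  f := Finsupp.mapRange.linearMap f.f
  f_mem := by
    intro k (x : I.ι →₀ B.X) hx σ
    have h1 : x σ ∈ B.gr (k - I.s σ) ∧ T.p σ (x σ) = x σ := hx σ
    refine ⟨f.f_mem h1.1, ?_⟩
    change T'.p σ (f.f (x σ)) = f.f (x σ)
    rw [← h.p]
    exact congrArg f.f h1.2
  f_d := by
    intro (x : I.ι →₀ B.X)
    refine Finsupp.ext fun (τ : I.ι) => ?_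
    have hs : (Finsupp.mapRange.linearMap f.f x).support ⊆ x.support := Finsupp.support_mapRange (hf := map_zero f.f)
    have e1 := T.tw.dd_apply' x x.support (Finset.Subset.refl _) τ
    have e2 := T'.tw.dd_apply' (Finsupp.mapRange.linearMap f.f x) x.support hs τ
    change f.f (T.tw.dd x τ) = T'.tw.dd (Finsupp.mapRange.linearMap f.f x) τ
    rw [e1, e2, map_add, map_sum, f.f_d]
    congr 1
    exact Finset.sum_congr rfl fun σ _ => h.m σ τ _

theorem tmap_apply {f : GCHom B B'} (h : Cpt T T' f) (x : I.ι →₀ B.X) (σ : I.ι) :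
    @DFunLike.coe (I.ι →₀ B'.X) I.ι (fun _ => B'.X) _ ((tmap h).f x) σ = f.f (x σ) := rfl

/-- build a finitely supported family with properties -/
theorem exists_fam {ι X Y : Type} [AddCommGroup X] [AddCommGroup Y] (x : ι →₀ X)
    (P : ι → Y → Prop) (h0 : ∀ σ, x σ = 0 → P σ 0) (h : ∀ σ, ∃ y, P σ y) :
    ∃ y : ι →₀ Y, ∀ σ, P σ (y σ) := by
  classical
  refine ⟨Finsupp.onFinset x.support (fun σ => if x σ = 0 then 0 else Classical.choose (h σ))
    (fun σ hσ => ?_), fun σ => ?_⟩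
  · rw [Finsupp.mem_support_iff]
    intro h1
    exact hσ (if_pos h1)
  · rw [Finsupp.onFinset_apply]
    split_ifs with h1
    · exact h0 σ h1
    · exact Classical.choose_spec (h σ)

/-- exactness -/
theorem tw_ses {f : GCHom B B'} {g : GCHom B' B''} (hf : Cpt T T' f) (hg : Cpt T' T'' g)
    (h : SES f g) : SES (tmap hf) (tmap hg) where
  inj := by
    intro (x : I.ι →₀ B.X) hx
    have hx' : Finsupp.mapRange.linearMap f.f x = 0 := hx
    exact Finsupp.ext fun (σ : I.ι) => h.inj _ (DFunLike.congr_fun hx' σ)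
  zero := by
    intro (x : I.ι →₀ B.X)
    exact Finsupp.ext fun (σ : I.ι) => h.zero (x σ)
  mid := by
    intro k (x : I.ι →₀ B'.X) hx h0
    have h0' : Finsupp.mapRange.linearMap g.f x = 0 := h0
    have hx' : ∀ σ : I.ι, x σ ∈ B'.gr (k - I.s σ) ∧ T'.p σ (x σ) = x σ := hx
    obtain ⟨w, hw⟩ := exists_fam x
      (fun σ w => (w ∈ B.gr (k - I.s σ) ∧ T.p σ w = w) ∧
        f.f w = x σ)
      (fun σ hσ => ⟨⟨Submodule.zero_mem _, map_zero _⟩, by rw [map_zero, hσ]⟩)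
      (fun σ => by
        obtain ⟨w, hw, hw'⟩ := h.mid _ _ (hx' σ).1 (DFunLike.congr_fun h0' σ)
        refine ⟨T.p σ w, ⟨T.p_mem σ hw, T.p_p σ w⟩, ?_⟩
        rw [hf.p, hw']
        exact (hx' σ).2)
    exact ⟨w, fun σ => (hw σ).1, Finsupp.ext fun σ => (hw σ).2⟩
  surj := by
    intro k (z : I.ι →₀ B''.X) hz
    have hz' : ∀ σ : I.ι, z σ ∈ B''.gr (k - I.s σ) ∧ T''.p σ (z σ) = z σ := hz
    obtain ⟨w, hw⟩ := exists_fam z
      (fun σ w => (w ∈ B'.gr (k - I.s σ) ∧ T'.p σ w = w) ∧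
        g.f w = z σ)
      (fun σ hσ => ⟨⟨Submodule.zero_mem _, map_zero _⟩, by rw [map_zero, hσ]⟩)
      (fun σ => by
        obtain ⟨w, hw, hw'⟩ := h.surj _ _ (hz' σ).1
        refine ⟨T'.p σ w, ⟨T'.p_mem σ hw, T'.p_p σ w⟩, ?_⟩
        rw [hg.p, hw']
        exact (hz' σ).2)
    exact ⟨w, fun σ => (hw σ).1, Finsupp.ext fun σ => (hw σ).2⟩

/-- twisting data on the cone -/
noncomputable def coneD (two : ∀ y : B'.X, y + y = 0) {f : GCHom B B'} (h : Cpt T T' f) :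
    TwD I (cone two f) where
  p σ := (T.p σ).prodMap (T'.p σ)
  m σ τ := (T.m σ τ).prodMap (T'.m σ τ)
  p_mem := by
    rintro σ k ⟨x, y⟩ ⟨hx, hy⟩
    exact ⟨T.p_mem σ hx, T'.p_mem σ hy⟩
  p_p := by
    rintro σ ⟨x, y⟩
    exact Prod.ext (T.p_p σ x) (T'.p_p σ y)
  p_d := by
    rintro σ ⟨x, y⟩
    refine Prod.ext (T.p_d σ x) ?_
    change T'.p σ (f.f x + B'.d y) = f.f (T.p σ x) + B'.d (T'.p σ y)
    rw [map_add, h.p, T'.p_d]
  m_zero := by
    intro σ τ hst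
    rw [T.m_zero σ τ hst, T'.m_zero σ τ hst]
    rfl
  m_mem := by
    rintro σ τ k ⟨x, y⟩ ⟨hx, hy⟩
    refine ⟨?_, T'.m_mem σ τ hy⟩
    have := T.m_mem σ τ (show x ∈ B.gr (k - 1) from hx)
    rwa [show k - 1 + ((I.s σ : ℤ) - I.s τ - 1) = k + (I.s σ - I.s τ - 1) - 1 by ring] at this
  p_m := by
    rintro σ τ ⟨x, y⟩
    exact Prod.ext (T.p_m σ τ x) (T'.p_m σ τ y)
  mc := by
    rintro σ τ ⟨x, y⟩
    have e1 : (∑ ρ ∈ I.F (I.s σ), ((T.m ρ τ).prodMap (T'.m ρ τ))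
        (((T.m σ ρ).prodMap (T'.m σ ρ)) (x, y))) =
        (∑ ρ ∈ I.F (I.s σ), T.m ρ τ (T.m σ ρ x), ∑ ρ ∈ I.F (I.s σ), T'.m ρ τ (T'.m σ ρ y)) := by
      exact Prod.ext Prod.fst_sum Prod.snd_sum
    refine Prod.ext ?_ ?_
    · have := T.mc σ τ x
      change B.d (T.m σ τ x) + T.m σ τ (B.d x) + (∑ ρ ∈ I.F (I.s σ),
        ((T.m ρ τ).prodMap (T'.m ρ τ)) (((T.m σ ρ).prodMap (T'.m σ ρ)) (x, y))).1 = 0
      rw [e1]
      exact this
    · have := T'.mc σ τ y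
      change f.f (T.m σ τ x) + B'.d (T'.m σ τ y) + T'.m σ τ (f.f x + B'.d y) +
        (∑ ρ ∈ I.F (I.s σ),
        ((T.m ρ τ).prodMap (T'.m ρ τ)) (((T.m σ ρ).prodMap (T'.m σ ρ)) (x, y))).2 = 0
      rw [e1, map_add, h.m]
      change T'.m σ τ (f.f x) + B'.d (T'.m σ τ y) + (T'.m σ τ (f.f x) + T'.m σ τ (B'.d y)) +
        ∑ ρ ∈ I.F (I.s σ), T'.m ρ τ (T'.m σ ρ y) = 0
      have h2 := two (T'.m σ τ (f.f x))
      calc _ = (T'.m σ τ (f.f x) + T'.m σ τ (f.f x)) + (B'.d (T'.m σ τ y) + T'.m σ τ (B'.d y) +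
          ∑ ρ ∈ I.F (I.s σ), T'.m ρ τ (T'.m σ ρ y)) := by abel
        _ = 0 := by rw [h2, this, zero_add]

/-- **quasi-isomorphisms are preserved** -/
theorem tw_qi (two : ∀ y : B'.X, y + y = 0) {f : GCHom B B'} (h : Cpt T T' f) (q : QI f) :
    QI (tmap h) := by
  have hc : Ac (coneD two h).tw.cx := (coneD two h).tw.cx_ac (cone_ac two f q)
  -- differential of the twisted cone
  have hd : ∀ (x : I.ι →₀ B.X × B'.X), ((coneD two h).tw.dd x) =
      (coneD two h).tw.dd x := fun x => rfl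
  have h1 : ∀ (x : I.ι →₀ B.X × B'.X) (σ : I.ι),
      ((coneD two h).tw.dd x σ).1 = T.tw.dd (Finsupp.mapRange.linearMap
        (LinearMap.fst K B.X B'.X) x) σ := by
    intro x σ
    have hs : (Finsupp.mapRange.linearMap (LinearMap.fst K B.X B'.X) x).support ⊆ x.support :=
      Finsupp.support_mapRange (hf := map_zero (LinearMap.fst K B.X B'.X))
    have a1 := congrArg Prod.fst
      ((coneD two h).tw.dd_apply' x x.support (Finset.Subset.refl _) σ)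
    have a2 := T.tw.dd_apply' _ x.support hs σ
    have e : (∑ ρ ∈ x.support, (coneD two h).tw.m ρ σ (x ρ)).1 =
        ∑ ρ ∈ x.support, ((coneD two h).tw.m ρ σ (x ρ)).1 := Prod.fst_sum
    refine a1.trans (Eq.trans ?_ a2.symm)
    exact congrArg (fun t => B.d (x σ).1 + t) e
  have h2 : ∀ (x : I.ι →₀ B.X × B'.X) (σ : I.ι),
      ((coneD two h).tw.dd x σ).2 = f.f (x σ).1 + T'.tw.dd (Finsupp.mapRange.linearMap
        (LinearMap.snd K B.X B'.X) x) σ := by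
    intro x σ
    have hs : (Finsupp.mapRange.linearMap (LinearMap.snd K B.X B'.X) x).support ⊆ x.support :=
      Finsupp.support_mapRange (hf := map_zero (LinearMap.snd K B.X B'.X))
    have a1 := congrArg Prod.snd
      ((coneD two h).tw.dd_apply' x x.support (Finset.Subset.refl _) σ)
    have a2 := T'.tw.dd_apply' _ x.support hs σ
    have e : (∑ ρ ∈ x.support, (coneD two h).tw.m ρ σ (x ρ)).2 =
        ∑ ρ ∈ x.support, ((coneD two h).tw.m ρ σ (x ρ)).2 := Prod.snd_sum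
    refine a1.trans (Eq.trans ?_ (congrArg (fun t => f.f (x σ).1 + t) a2.symm))
    refine Eq.trans (congrArg (fun t => f.f (x σ).1 + B'.d (x σ).2 + t) e) ?_
    exact add_assoc _ _ _
  have k1 : ∀ (x : I.ι →₀ B.X × B'.X) (x' : I.ι →₀ B.X) (σ : I.ι),
      Finsupp.mapRange.linearMap (LinearMap.fst K B.X B'.X) x = x' →
      ((coneD two h).tw.dd x σ).1 = T.tw.dd x' σ := by
    intro x x' σ hx
    rw [← hx]
    exact h1 x σ
  have k2 : ∀ (x : I.ι →₀ B.X × B'.X) (x' : I.ι →₀ B.X) (y' : I.ι →₀ B'.X) (σ : I.ι),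
      Finsupp.mapRange.linearMap (LinearMap.fst K B.X B'.X) x = x' →
      Finsupp.mapRange.linearMap (LinearMap.snd K B.X B'.X) x = y' →
      ((coneD two h).tw.dd x σ).2 = f.f (x' σ) + T'.tw.dd y' σ := by
    intro x x' y' σ hx hy
    rw [← hx, ← hy]
    exact h2 x σ
  constructor
  · intro k (y : I.ι →₀ B'.X) hy hdy
    have hy' : ∀ σ, y σ ∈ B'.gr (k - I.s σ) ∧ T'.p σ (y σ) = y σ := hy
    let z : I.ι →₀ B.X × B'.X := Finsupp.mapRange.linearMap (LinearMap.inr K B.X B'.X) y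
    have z1 : Finsupp.mapRange.linearMap (LinearMap.fst K B.X B'.X) z = 0 :=
      Finsupp.ext fun σ => rfl
    have z2 : Finsupp.mapRange.linearMap (LinearMap.snd K B.X B'.X) z = y :=
      Finsupp.ext fun σ => rfl
    have hdy' : T'.tw.dd y = 0 := hdy
    have cz : ∀ σ : I.ι, (coneD two h).tw.dd z σ = 0 := fun σ => Prod.ext
      ((k1 z 0 σ z1).trans (DFunLike.congr_fun (map_zero T.tw.dd) σ))
      ((k2 z 0 y σ z1 z2).trans ((congrArg₂ (· + ·) (map_zero f.f)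
        (DFunLike.congr_fun hdy' σ)).trans (add_zero 0)))
    have gz : ∀ σ : I.ι, z σ ∈ (cone two f).gr (k - I.s σ) ∧
        ((T.p σ).prodMap (T'.p σ)) (z σ) = z σ := fun σ =>
      ⟨⟨Submodule.zero_mem _, (hy' σ).1⟩, Prod.ext (map_zero (T.p σ)) (hy' σ).2⟩
    obtain ⟨u, hu, hu'⟩ := hc k z gz (Finsupp.ext cz)
    change I.ι →₀ B.X × B'.X at u
    have hu2 : ∀ σ, u σ ∈ (cone two f).gr (k + 1 - I.s σ) ∧
      ((T.p σ).prodMap (T'.p σ)) (u σ) = u σ := hu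
    have hu3 : (coneD two h).tw.dd u = z := hu'
    refine ⟨Finsupp.mapRange.linearMap (LinearMap.fst K B.X B'.X) u, ?_, ?_,
      Finsupp.mapRange.linearMap (LinearMap.snd K B.X B'.X) u, ?_, ?_⟩
    · intro σ
      refine ⟨?_, congrArg Prod.fst (hu2 σ).2⟩
      have h4 : (u σ).1 ∈ B.gr (k + 1 - I.s σ - 1) := (hu2 σ).1.1
      rw [show k + 1 - (I.s σ : ℤ) - 1 = k - I.s σ by ring] at h4
      exact h4
    · refine Finsupp.ext fun σ => ?_
      have := h1 u σ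
      rw [hu3] at this
      exact this.symm
    · intro σ
      exact ⟨(hu2 σ).1.2, congrArg Prod.snd (hu2 σ).2⟩
    · refine Finsupp.ext fun σ => ?_
      have := h2 u σ
      rw [hu3] at this
      exact this
  · rintro k (x : I.ι →₀ B.X) hx hdx ⟨(z : I.ι →₀ B'.X), hz, e⟩
    have hx' : ∀ σ, x σ ∈ B.gr (k - I.s σ) ∧ T.p σ (x σ) = x σ := hx
    have hz' : ∀ σ, z σ ∈ B'.gr (k + 1 - I.s σ) ∧ T'.p σ (z σ) = z σ := hz
    let u : I.ι →₀ B.X × B'.X := Finsupp.mapRange.linearMap (LinearMap.inl K B.X B'.X) x +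
      Finsupp.mapRange.linearMap (LinearMap.inr K B.X B'.X) z
    have uσ : ∀ σ, u σ = (x σ, z σ) := by
      intro σ
      change (x σ, (0 : B'.X)) + ((0 : B.X), z σ) = _
      rw [Prod.mk_add_mk, add_zero, zero_add]
    have u1 : Finsupp.mapRange.linearMap (LinearMap.fst K B.X B'.X) u = x :=
      Finsupp.ext fun σ => congrArg Prod.fst (uσ σ)
    have u2 : Finsupp.mapRange.linearMap (LinearMap.snd K B.X B'.X) u = z :=
      Finsupp.ext fun σ => congrArg Prod.snd (uσ σ)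
    have hdx' : T.tw.dd x = 0 := hdx
    have e' : Finsupp.mapRange.linearMap f.f x = T'.tw.dd z := e
    have cz : ∀ σ : I.ι, (coneD two h).tw.dd u σ = 0 := fun σ => Prod.ext
      ((k1 u x σ u1).trans (DFunLike.congr_fun hdx' σ))
      ((k2 u x z σ u1 u2).trans (by
          have h3 : f.f (x σ) = T'.tw.dd z σ := DFunLike.congr_fun e' σ
          rw [h3]
          exact two _))
    have gz : ∀ σ : I.ι, u σ ∈ (cone two f).gr (k + 1 - I.s σ) ∧
        ((T.p σ).prodMap (T'.p σ)) (u σ) = u σ := fun σ => by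
      rw [uσ]
      refine ⟨⟨?_, (hz' σ).1⟩, Prod.ext (hx' σ).2 (hz' σ).2⟩
      change _ ∈ B.gr (k + 1 - (I.s σ : ℤ) - 1)
      rw [show k + 1 - (I.s σ : ℤ) - 1 = k - I.s σ by ring]
      exact (hx' σ).1
    obtain ⟨w, hw, hw'⟩ := hc (k + 1) u gz (Finsupp.ext cz)
    change I.ι →₀ B.X × B'.X at w
    have hw2 : ∀ σ, w σ ∈ (cone two f).gr (k + 1 + 1 - I.s σ) ∧
      ((T.p σ).prodMap (T'.p σ)) (w σ) = w σ := hw
    have hw3 : (coneD two h).tw.dd w = u := hw'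
    refine ⟨Finsupp.mapRange.linearMap (LinearMap.fst K B.X B'.X) w, ?_, ?_⟩
    · intro σ
      refine ⟨?_, congrArg Prod.fst (hw2 σ).2⟩
      have h4 : (w σ).1 ∈ B.gr (k + 1 + 1 - I.s σ - 1) := (hw2 σ).1.1
      rw [show k + 1 + 1 - (I.s σ : ℤ) - 1 = k + 1 - I.s σ by ring] at h4
      exact h4
    · refine Finsupp.ext fun σ => ?_
      have h3 := h1 w σ
      rw [hw3] at h3
      exact (congrArg Prod.fst (uσ σ)).symm.trans h3

end map

end Crest.Agent.R186.TwQ301
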