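import Crest.Agent.R186.Acy_154

/-!
Row 186 (A), END (helper124): twisted sums `ι →₀ P` of differential spaces (ungraded), and
quasi-isomorphisms between them.
-/

set_option autoImplicit false
set_option linter.unusedSectionVars false

noncomputable section

namespace Crest.Agent.R186.Tw124

open Acy154

/-- index data of a system of cells -/
structure Ix where
  ι : Type
  s : ι → ℕ
  F : ℕ → Finset ι
  mem_F : ∀ m σ, σ ∈ F m ↔ s σ ≤ m

variable {K : Type*} [Field K] (I : Ix)
variable {P : Type*} [AddCommGroup P] [Module K P]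
variable {P' : Type*} [AddCommGroup P'] [Module K P']

/-- the twisted differential on finitely supported functions -/
def tw (d : P →ₗ[K] P) (t : I.ι → I.ι → P →ₗ[K] P) : (I.ι →₀ P) →ₗ[K] (I.ι →₀ P) :=
  Finsupp.lsum K fun σ =>
    Finsupp.lsingle σ ∘ₗ d + ∑ τ ∈ I.F (I.s σ), Finsupp.lsingle τ ∘ₗ t σ τ

@[simp] theorem tw_single (d : P →ₗ[K] P) (t : I.ι → I.ι → P →ₗ[K] P) (σ : I.ι) (p : P) :
    tw I d t (Finsupp.single σ p) =
      Finsupp.single σ (d p) + ∑ τ ∈ I.F (I.s σ), Finsupp.single τ (t σ τ p) := by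
  simp [tw, LinearMap.sum_apply]

/-- extension of a linear map to finitely supported functions -/
abbrev mp (f : P →ₗ[K] P') : (I.ι →₀ P) →ₗ[K] (I.ι →₀ P') := Finsupp.mapRange.linearMap f

@[simp] theorem mp_single (f : P →ₗ[K] P') (σ : I.ι) (p : P) :
    mp I f (Finsupp.single σ p) = Finsupp.single σ (f p) := by
  simp [mp]

theorem ext_single {Q : Type*} [AddCommGroup Q] [Module K Q] {f g : (I.ι →₀ P) →ₗ[K] Q}
    (h : ∀ σ p, f (Finsupp.single σ p) = g (Finsupp.single σ p)) (x : I.ι →₀ P) : f x = g x := by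
  have : f = g := Finsupp.lhom_ext h
  rw [this]

variable {I}
variable {d : P →ₗ[K] P} {t : I.ι → I.ι → P →ₗ[K] P}
variable {d' : P' →ₗ[K] P'} {t' : I.ι → I.ι → P' →ₗ[K] P'}

theorem tw_map {f : P →ₗ[K] P'} (cf : ∀ x, d' (f x) = f (d x))
    (ct : ∀ σ τ x, t' σ τ (f x) = f (t σ τ x)) (x : I.ι →₀ P) :
    tw I d' t' (mp I f x) = mp I f (tw I d t x) := by
  refine ext_single I (f := tw I d' t' ∘ₗ mp I f) (g := mp I f ∘ₗ tw I d t) (fun σ p => ?_) x
  rw [LinearMap.comp_apply, LinearMap.comp_apply, mp_single, tw_single, tw_single, map_add,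
    map_sum, mp_single, cf]
  congr 1
  exact Finset.sum_congr rfl fun τ _ => by rw [mp_single, ct]

/-- the square of a twisted differential vanishes -/
theorem tw_sq (hd : ∀ x, d (d x) = 0) (hlt : ∀ σ τ, I.s σ ≤ I.s τ → t σ τ = 0)
    (hmc : ∀ σ τ x, d (t σ τ x) + t σ τ (d x) + ∑ ρ ∈ I.F (I.s σ), t ρ τ (t σ ρ x) = 0)
    (x : I.ι →₀ P) : tw I d t (tw I d t x) = 0 := by
  refine ext_single I (f := tw I d t ∘ₗ tw I d t) (g := 0) (fun σ p => ?_) x
  rw [LinearMap.comp_apply, LinearMap.zero_apply, tw_single, map_add, tw_single, map_sum, hd,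
    Finsupp.single_zero, zero_add]
  have h1 : ∀ τ ∈ I.F (I.s σ), tw I d t (Finsupp.single τ (t σ τ p)) =
      Finsupp.single τ (d (t σ τ p)) +
        ∑ ρ ∈ I.F (I.s σ), Finsupp.single ρ (t τ ρ (t σ τ p)) := by
    intro τ hτ
    rw [tw_single]
    congr 1
    refine Finset.sum_subset (fun ρ hρ => ?_) fun ρ _ hρ => ?_
    · rw [I.mem_F] at hρ hτ ⊢
      exact hρ.trans hτ
    · rw [I.mem_F, not_le] at hρ
      rw [hlt τ ρ hρ.le, LinearMap.zero_apply, Finsupp.single_zero]
  rw [Finset.sum_congr rfl h1, Finset.sum_add_distrib, Finset.sum_comm, ← add_assoc,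
    ← Finset.sum_add_distrib, ← Finset.sum_add_distrib]
  refine Finset.sum_eq_zero fun τ _ => ?_
  have h2 : ∑ i ∈ I.F (I.s σ), (Finsupp.single τ (t i τ (t σ i p)) : I.ι →₀ P) =
      Finsupp.single τ (∑ i ∈ I.F (I.s σ), t i τ (t σ i p)) :=
    (map_sum (Finsupp.lsingle τ : P →ₗ[K] I.ι →₀ P) _ _).symm
  rw [h2, ← Finsupp.single_add, ← Finsupp.single_add]
  rw [show t σ τ (d p) + d (t σ τ p) + ∑ i ∈ I.F (I.s σ), t i τ (t σ i p) = 0 from by
    rw [add_comm (t σ τ (d p))]; exact hmc σ τ p]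
  exact Finsupp.single_zero _

/-- elements supported on the cells of level `< n` -/
def lev (n : ℕ) : Submodule K (I.ι →₀ P) := Finsupp.supported P K {σ | I.s σ < n}

theorem single_lev {n : ℕ} {σ : I.ι} (h : I.s σ < n) (p : P) :
    (Finsupp.single σ p : I.ι →₀ P) ∈ (lev n : Submodule K (I.ι →₀ P)) :=
  Finsupp.single_mem_supported K p h

theorem lev_ind {n : ℕ} {Q : Submodule K (I.ι →₀ P')} (f : (I.ι →₀ P) →ₗ[K] (I.ι →₀ P'))
    (h : ∀ σ p, I.s σ < n → f (Finsupp.single σ p) ∈ Q) {x : I.ι →₀ P}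
    (hx : x ∈ (lev n : Submodule K (I.ι →₀ P))) : f x ∈ Q := by
  classical
  rw [← Finsupp.sum_single x, Finsupp.sum, map_sum]
  refine Submodule.sum_mem _ fun σ hσ => h σ _ ?_
  exact (Finsupp.mem_supported K x).1 hx hσ

/-- **a twisted sum of an acyclic space is acyclic** -/
theorem tw_acyc (hd : ∀ x, d (d x) = 0) (hlt : ∀ σ τ, I.s σ ≤ I.s τ → t σ τ = 0)
    (hdd : ∀ x, tw I d t (tw I d t x) = 0) (ha : Acyc d) : Acyc (tw I d t) := by
  obtain ⟨h, hh⟩ := exists_contraction hd ha
  refine acyc_of_incr (tw I d t) hdd (fun n => lev n) ?_ ?_ ?_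
  · intro x hx _
    refine ⟨0, ?_⟩
    rw [map_zero]
    have : x.support = ∅ := by
      rw [Finset.eq_empty_iff_forall_notMem]
      intro σ hσ
      exact absurd ((Finsupp.mem_supported K x).1 hx hσ) (Nat.not_lt_zero _)
    exact (Finsupp.support_eq_empty.1 this).symm
  · intro n x hx hdx
    have h1 : mp I h x ∈ (lev (n + 1) : Submodule K (I.ι →₀ P)) :=
      lev_ind (mp I h) (fun σ p hσ => by rw [mp_single]; exact single_lev hσ _) hx
    refine ⟨mp I h x, h1, ?_⟩
    let ν : (I.ι →₀ P) →ₗ[K] (I.ι →₀ P) :=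
      tw I d t ∘ₗ mp I h + mp I h ∘ₗ tw I d t - LinearMap.id
    have h2 : ν x ∈ (lev n : Submodule K (I.ι →₀ P)) := by
      refine lev_ind ν (fun σ p hσ => ?_) hx
      show (tw I d t ∘ₗ mp I h + mp I h ∘ₗ tw I d t - LinearMap.id : (I.ι →₀ P) →ₗ[K] (I.ι →₀ P))
        (Finsupp.single σ p) ∈ _
      rw [LinearMap.sub_apply, LinearMap.add_apply, LinearMap.comp_apply, LinearMap.comp_apply,
        mp_single, tw_single, tw_single, map_add, mp_single, map_sum, LinearMap.id_apply]
      have h3 : Finsupp.single σ (d (h p)) + ∑ τ ∈ I.F (I.s σ), Finsupp.single τ (t σ τ (h p)) +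
          (Finsupp.single σ (h (d p)) + ∑ τ ∈ I.F (I.s σ), mp I h (Finsupp.single τ (t σ τ p))) -
          Finsupp.single σ p = ∑ τ ∈ I.F (I.s σ), Finsupp.single τ (t σ τ (h p)) +
            ∑ τ ∈ I.F (I.s σ), mp I h (Finsupp.single τ (t σ τ p)) := by
        have h4 : (Finsupp.single σ (d (h p)) : I.ι →₀ P) + Finsupp.single σ (h (d p)) =
            Finsupp.single σ p := by rw [← Finsupp.single_add, hh]
        rw [← h4]; abel
      rw [h3]
      refine add_mem (Submodule.sum_mem _ fun τ _ => ?_) (Submodule.sum_mem _ fun τ _ => ?_)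
      · by_cases hτ : I.s τ < n
        · exact single_lev hτ _
        · rw [hlt σ τ (by omega), LinearMap.zero_apply, Finsupp.single_zero]
          exact zero_mem _
      · rw [mp_single]
        by_cases hτ : I.s τ < n
        · exact single_lev hτ _
        · rw [hlt σ τ (by omega), LinearMap.zero_apply, map_zero, Finsupp.single_zero]
          exact zero_mem _
    have h5 : mp I h (tw I d t x) ∈ (lev n : Submodule K (I.ι →₀ P)) :=
      lev_ind (mp I h) (fun σ p hσ => by rw [mp_single]; exact single_lev hσ _) hdx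
    have h6 : x - tw I d t (mp I h x) = mp I h (tw I d t x) - ν x := by
      show _ = mp I h (tw I d t x) -
        (tw I d t (mp I h x) + mp I h (tw I d t x) - x)
      abel
    rw [h6]
    exact sub_mem h5 h2
  · intro x
    refine ⟨x.support.sup I.s + 1, (Finsupp.mem_supported K x).2 fun σ hσ => ?_⟩
    exact Nat.lt_succ_of_le (Finset.le_sup (f := I.s) hσ)

variable (I) in
/-- `(ι →₀ P) × (ι →₀ P') ≃ ι →₀ P × P'` -/
def prodE (P P' : Type*) [AddCommGroup P] [Module K P] [AddCommGroup P'] [Module K P'] :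
    (I.ι →₀ P × P') ≃ₗ[K] (I.ι →₀ P) × (I.ι →₀ P') :=
  LinearEquiv.ofLinearMap ((mp I (LinearMap.fst K P P')).prod (mp I (LinearMap.snd K P P')))
    ((mp I (LinearMap.inl K P P')).coprod (mp I (LinearMap.inr K P P')))
    (by
      apply LinearMap.prod_ext
      · refine Finsupp.lhom_ext fun σ p => ?_
        simp
      · refine Finsupp.lhom_ext fun σ p => ?_
        simp)
    (by
      refine Finsupp.lhom_ext fun σ p => ?_
      simp [← Finsupp.single_add])

/-- **a twisted sum of quasi-isomorphisms is a quasi-isomorphism** -/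
theorem tw_qi {f : P →ₗ[K] P'} (hd : ∀ x, d (d x) = 0) (hd' : ∀ x, d' (d' x) = 0)
    (hlt : ∀ σ τ, I.s σ ≤ I.s τ → t σ τ = 0) (hlt' : ∀ σ τ, I.s σ ≤ I.s τ → t' σ τ = 0)
    (hdd : ∀ x, tw I d t (tw I d t x) = 0) (hdd' : ∀ x, tw I d' t' (tw I d' t' x) = 0)
    (cf : ∀ x, d' (f x) = f (d x)) (ct : ∀ σ τ x, t' σ τ (f x) = f (t σ τ x))
    (h : QI d d' f) : QI (tw I d t) (tw I d' t') (mp I f) := by
  refine qi_of_cone ?_ (tw_map cf ct)
  let T : I.ι → I.ι → (P × P') →ₗ[K] (P × P') := fun σ τ => (-t σ τ).prodMap (t' σ τ)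
  have key : ∀ x : I.ι →₀ P × P', coneD (tw I d t) (tw I d' t') (mp I f)
      (prodE (K := K) I P P' x) = prodE (K := K) I P P' (tw I (coneD d d' f) T x) := by
    intro x
    refine ext_single I (f := coneD (tw I d t) (tw I d' t') (mp I f) ∘ₗ
        (prodE (K := K) I P P').toLinearMap)
      (g := (prodE (K := K) I P P').toLinearMap ∘ₗ tw I (coneD d d' f) T) (fun σ p => ?_) x
    obtain ⟨p, p'⟩ := p
    have e1 : ∀ (τ : I.ι) (q : P) (q' : P'), prodE (K := K) I P P' (Finsupp.single τ (q, q')) =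
        (Finsupp.single τ q, Finsupp.single τ q') := by
      intro τ q q'
      show ((mp I (LinearMap.fst K P P')) (Finsupp.single τ (q, q')),
        (mp I (LinearMap.snd K P P')) (Finsupp.single τ (q, q'))) = _
      rw [mp_single, mp_single]
      rfl
    rw [LinearMap.comp_apply, LinearMap.comp_apply, LinearEquiv.coe_coe, e1, coneD_apply,
      tw_single, tw_single, tw_single, mp_single, map_add, map_sum]
    have e2 : ∀ τ, prodE (K := K) I P P' (Finsupp.single τ (T σ τ (p, p'))) =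
        (-Finsupp.single τ (t σ τ p), Finsupp.single τ (t' σ τ p')) := by
      intro τ
      show prodE (K := K) I P P' (Finsupp.single τ ((-t σ τ) p, t' σ τ p')) = _
      rw [e1, LinearMap.neg_apply, Finsupp.single_neg]
    rw [Finset.sum_congr rfl fun τ _ => e2 τ, coneD_apply, e1]
    refine Prod.ext ?_ ?_
    · rw [Prod.fst_add, Prod.fst_sum]
      simp only [Finset.sum_neg_distrib, Finsupp.single_neg]
      abel
    · rw [Prod.snd_add, Prod.snd_sum]
      simp only [Finsupp.single_add]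
      abel
  have hc : ∀ x, tw I (coneD d d' f) T (tw I (coneD d d' f) T x) = 0 := by
    intro x
    apply (prodE (K := K) I P P').injective
    rw [← key, ← key, map_zero]
    exact coneD_sq hdd hdd' (tw_map cf ct) _
  refine acyc_of_equiv (prodE (K := K) I P P') key ?_
  refine tw_acyc (coneD_sq hd hd' cf) (fun σ τ hστ => ?_) hc (cone_of_qi h cf)
  show (-t σ τ).prodMap (t' σ τ) = 0
  rw [hlt σ τ hστ, hlt' σ τ hστ, neg_zero]
  ext x <;> simp

end Crest.Agent.R186.Tw124
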