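import Crest.Agent.R186.LinkE_328

/-!
Row 186, S0281 (helper328): the module isomorphisms of `LinkC328.Two` from pairings.
-/

set_option autoImplicit false
set_option linter.unusedSectionVars false
set_option linter.style.haveILetI false

universe u w

open MulOpposite

namespace Crest.Agent.R186.TwoP328

open LinkB328 LinkC328 Dual700 Trans328

variable {K : Type u} [Field K] {A A' : Type u} [Ring A] [Algebra K A] [Ring A'] [Algebra K A']
  (τ : A ≃ₐ[K] A'ᵐᵒᵖ)
  {X Y : Type u} [AddCommGroup X] [Module K X] [Module A X] [IsScalarTower K A X]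
  [AddCommGroup Y] [Module K Y] [Module A' Y] [IsScalarTower K A' Y]

/-- the map of a pairing -/
def pmap (b : X → Y → K) (hl : ∀ x x' y, b (x + x') y = b x y + b x' y)
    (hr : ∀ x y y', b x (y + y') = b x y + b x y') (hc : ∀ (c : K) x y, b x (c • y) = c * b x y)
    (ha : ∀ (a : A) x y, b (a • x) y = b x ((τ a).unop • y)) : X →ₗ[A] Du K τ Y where
  toFun x := Du.mk K τ { toFun := b x, map_add' := hr x, map_smul' := fun c y => hc c x y }
  map_add' x x' := Du.ext fun y => hl x x' y
  map_smul' a x := Du.ext fun y => ha a x y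

theorem pmap_bij (b : X → Y → K) (hl : ∀ x x' y, b (x + x') y = b x y + b x' y)
    (hr : ∀ x y y', b x (y + y') = b x y + b x y') (hc : ∀ (c : K) x y, b x (c • y) = c * b x y)
    (ha : ∀ (a : A) x y, b (a • x) y = b x ((τ a).unop • y))
    [FiniteDimensional K X] [FiniteDimensional K Y]
    (hn : ∀ x, (∀ y, b x y = 0) → x = 0) (hn' : ∀ y, (∀ x, b x y = 0) → y = 0) :
    Function.Bijective (pmap τ b hl hr hc ha) := by
  have hk : ∀ (c : K) x y, b (c • x) y = c * b x y := by
    intro c x y
    have h1 := ha (algebraMap K A c) x y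
    rw [algebraMap_smul, AlgEquiv.commutes] at h1
    rw [h1]
    have h2 : (algebraMap K A'ᵐᵒᵖ c).unop = algebraMap K A' c := rfl
    rw [h2, algebraMap_smul, hc]
  let f : X →ₗ[K] (Y →ₗ[K] K) := LinearMap.mk₂ K b hl hk hr hc
  have hf : Function.Injective f := by
    rw [injective_iff_map_eq_zero]
    intro x hx
    exact hn x fun y => LinearMap.congr_fun hx y
  have hf' : Function.Injective f.flip := by
    rw [injective_iff_map_eq_zero]
    intro y hy
    exact hn' y fun x => LinearMap.congr_fun hy x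
  have h1 : Module.finrank K X ≤ Module.finrank K (Y →ₗ[K] K) :=
    LinearMap.finrank_le_finrank_of_injective hf
  have h2 : Module.finrank K Y ≤ Module.finrank K (X →ₗ[K] K) :=
    LinearMap.finrank_le_finrank_of_injective hf'
  have h3 : Module.finrank K (Y →ₗ[K] K) = Module.finrank K Y := Subspace.dual_finrank_eq
  have h4 : Module.finrank K (X →ₗ[K] K) = Module.finrank K X := Subspace.dual_finrank_eq
  have h5 : Module.finrank K X = Module.finrank K (Y →ₗ[K] K) := by omega
  have hs : Function.Surjective f :=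
    (LinearMap.injective_iff_surjective_of_finrank_eq_finrank h5).1 hf
  constructor
  · intro x x' h
    exact hf (LinearMap.ext fun y => congrArg (fun φ => Du.ev K τ φ y) h)
  · intro φ
    obtain ⟨x, hx⟩ := hs (Du.fn K τ φ)
    exact ⟨x, Du.ext fun y => LinearMap.congr_fun hx y⟩

/-- **the isomorphism of a perfect pairing** with `b (a • x) y = b x (τ a • y)` -/
noncomputable def ofPair [FiniteDimensional K X] [FiniteDimensional K Y]
    (b : X → Y → K) (hl : ∀ x x' y, b (x + x') y = b x y + b x' y)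
    (hr : ∀ x y y', b x (y + y') = b x y + b x y') (hc : ∀ (c : K) x y, b x (c • y) = c * b x y)
    (ha : ∀ (a : A) x y, b (a • x) y = b x ((τ a).unop • y))
    (hn : ∀ x, (∀ y, b x y = 0) → x = 0) (hn' : ∀ y, (∀ x, b x y = 0) → y = 0) :
    X ≃ₗ[A] Du K τ Y :=
  LinearEquiv.ofBijective _ (pmap_bij τ b hl hr hc ha hn hn')

/-- `Dt` (twisted dual of `Trans_328`, also 870's) and `Du` are the same -/
def duDt : Dt K (τ : A ≃+* A'ᵐᵒᵖ) Y ≃ₗ[A] Du K τ Y where
  toFun φ := φ
  invFun φ := φ
  map_add' _ _ := rfl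
  map_smul' _ _ := rfl
  left_inv _ := rfl
  right_inv _ := rfl

/-- **`Two` from pairings**: `bV : V × W' → K`, `bW : W × V' → K` -/
noncomputable def two (S : Side K A) (S' : Side K A')
    (bV : S.V → S'.W → K) (vl : ∀ x x' y, bV (x + x') y = bV x y + bV x' y)
    (vr : ∀ x y y', bV x (y + y') = bV x y + bV x y')
    (vc : ∀ (c : K) x y, bV x (c • y) = c * bV x y)
    (va : ∀ (a : A) x y, bV (a • x) y = bV x ((τ a).unop • y))
    (vn : ∀ x, (∀ y, bV x y = 0) → x = 0) (vn' : ∀ y, (∀ x, bV x y = 0) → y = 0)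
    (bW : S.W → S'.V → K) (wl : ∀ x x' y, bW (x + x') y = bW x y + bW x' y)
    (wr : ∀ x y y', bW x (y + y') = bW x y + bW x y')
    (wc : ∀ (c : K) x y, bW x (c • y) = c * bW x y)
    (wa : ∀ (a : A) x y, bW (a • x) y = bW x ((τ a).unop • y))
    (wn : ∀ x, (∀ y, bW x y = 0) → x = 0) (wn' : ∀ y, (∀ x, bW x y = 0) → y = 0) :
    Two K A A' where
  S := S
  S' := S'
  τ := τ
  eV := ofPair τ bV vl vr vc va vn vn'
  eW := ofPair τ bW wl wr wc wa wn wn'

end Crest.Agent.R186.TwoP328
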