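import Crest.Agent.R186.Frame_515
import Crest.Agent.R186.GrP_44

/-!
Row 186 (A), short road (306), leaf (V1) (helper697): **truncation**.

* `ac_of_hom` : a twisted complex `T.cx` is acyclic if the complexes of families with values in the
  homology of `B` (one level at a time, elementwise) are exact.
* `HM pr N n` : the honest homology module of a right dg module `N` in degree `n`, concentrated in
  degree `0`, on which `op a` acts through the degree zero part of `a`.
* `ac_of_HM` : `(∀ n, Ac (tG (HM pr N n) X)) → Ac (tG N X)`.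
-/

set_option autoImplicit false
set_option linter.style.haveILetI false
set_option linter.unusedSectionVars false
set_option linter.unusedSimpArgs false

open MulOpposite

namespace Crest.Agent.R186.V1697

open Hat827 Hat827.DGA Frame515 GrP44

variable {K : Type} [Field K]

/-! ### the elementwise truncation lemma -/

section one

variable {B : GC K} (T : Tw B)

theorem M_apply (x : T.ι →₀ B.X) (τ : T.ι) : T.M x τ = x.sum fun σ g => T.m σ τ g :=
  mat_apply T.s T.F T.m (fun _ _ h => T.notF h) x τ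

theorem dd_eq (x : T.ι →₀ B.X) (τ : T.ι) : T.dd x τ = B.d (x τ) + T.M x τ := by
  rw [T.dd_apply, M_apply]

/-- only the cells of higher level contribute -/
theorem M_zero {x : T.ι →₀ B.X} {τ : T.ι} (h : ∀ σ, x σ ≠ 0 → T.s σ ≤ T.s τ) : T.M x τ = 0 := by
  rw [M_apply]
  refine Finset.sum_eq_zero fun σ hσ => ?_
  change T.m σ τ (x σ) = 0
  rw [T.m_zero σ τ (h σ (Finsupp.mem_support_iff.1 hσ))]
  rfl

theorem M_congr {x x' : T.ι →₀ B.X} {τ : T.ι} (h : ∀ σ, T.s τ < T.s σ → x σ = x' σ) :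
    T.M x τ = T.M x' τ := by
  have h1 : T.M (x - x') τ = 0 := by
    refine M_zero T fun σ hσ => ?_
    by_contra hc
    apply hσ
    rw [Finsupp.sub_apply, h σ (by omega), sub_self]
  rw [map_sub, Finsupp.sub_apply, sub_eq_zero] at h1
  exact h1

/-- families of cycles of degree `n` on the cells of level `j` -/
structure OnC (n : ℤ) (j : ℕ) (x : T.ι →₀ B.X) : Prop where
  mem : ∀ σ, x σ ∈ B.gr n
  cyc : ∀ σ, B.d (x σ) = 0
  fix : ∀ σ, T.p σ (x σ) = x σ
  lev : ∀ σ, x σ ≠ 0 → T.s σ = j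

/-- families of elements of degree `n` on the cells of level `j` -/
structure OnZ (n : ℤ) (j : ℕ) (x : T.ι →₀ B.X) : Prop where
  mem : ∀ σ, x σ ∈ B.gr n
  fix : ∀ σ, T.p σ (x σ) = x σ
  lev : ∀ σ, x σ ≠ 0 → T.s σ = j

/-- exactness of the families with values in the homology of `B` -/
def HomEx : Prop := ∀ (n : ℤ) (j : ℕ) (x : T.ι →₀ B.X), OnC T n j x →
  (∀ τ, T.s τ + 1 = j → ∃ z ∈ B.gr (n + 1), T.M x τ = B.d z) →
  ∃ y z : T.ι →₀ B.X, OnC T n (j + 1) y ∧ OnZ T (n + 1) j z ∧
    ∀ σ, T.s σ = j → x σ = T.M y σ + B.d (z σ)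

theorem ac_of_hom (h : HomEx T) : Ac T.cx := by
  classical
  have key : ∀ (m : ℕ) (k : ℤ) (x : T.ι →₀ B.X), x ∈ T.gr k → T.dd x = 0 →
      (∀ σ, x σ ≠ 0 → T.s σ < m) → ∃ y ∈ T.gr (k + 1), T.dd y = x := by
    intro m
    induction m with
    | zero =>
      intro k x _ _ hs
      have hx : x = 0 := by
        ext σ
        by_contra hc
        exact absurd (hs σ hc) (by omega)
      exact ⟨0, Submodule.zero_mem _, by rw [hx, map_zero]⟩
    | succ m ih =>
      intro k x hx hd hs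
      set xt : T.ι →₀ B.X := x.filter fun σ => T.s σ = m with hxt
      have hxt1 : ∀ σ, T.s σ = m → xt σ = x σ := fun σ hσ => Finsupp.filter_apply_pos _ _ hσ
      have hxt2 : ∀ σ, T.s σ ≠ m → xt σ = 0 := fun σ hσ => Finsupp.filter_apply_neg _ _ hσ
      have hdx : ∀ τ, B.d (x τ) + T.M x τ = 0 := fun τ => by
        rw [← dd_eq, hd]; rfl
      have h1 : OnC T (k - m) m xt := by
        refine ⟨fun σ => ?_, fun σ => ?_, fun σ => ?_, fun σ hσ => ?_⟩
        · by_cases hσ : T.s σ = m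
          · rw [hxt1 σ hσ]
            have := (hx σ).1
            rwa [hσ] at this
          · rw [hxt2 σ hσ]; exact Submodule.zero_mem _
        · by_cases hσ : T.s σ = m
          · rw [hxt1 σ hσ]
            have h2 := hdx σ
            rw [M_zero T (fun ρ hρ => by have := hs ρ hρ; omega), add_zero] at h2
            exact h2
          · rw [hxt2 σ hσ, map_zero]
        · by_cases hσ : T.s σ = m
          · rw [hxt1 σ hσ, (hx σ).2]
          · rw [hxt2 σ hσ, map_zero]
        · by_contra hc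
          exact hσ (hxt2 σ hc)
      have h2 : ∀ τ, T.s τ + 1 = m → ∃ z ∈ B.gr (k - m + 1), T.M xt τ = B.d z := by
        intro τ hτ
        refine ⟨-(x τ), Submodule.neg_mem _ ?_, ?_⟩
        · have := (hx τ).1
          rwa [show k - (m : ℤ) + 1 = k - T.s τ by omega]
        · have h3 : T.M xt τ = T.M x τ := by
            refine M_congr T fun σ hσ => ?_
            by_cases h4 : T.s σ = m
            · exact hxt1 σ h4
            · rw [hxt2 σ h4]
              by_contra hc
              have := hs σ (Ne.symm hc)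
              omega
          rw [h3, map_neg, eq_neg_iff_add_eq_zero, add_comm]
          exact hdx τ
      obtain ⟨y, z, hy, hz, hyz⟩ := h _ _ _ h1 h2
      have hw : y + z ∈ T.gr (k + 1) := by
        intro σ
        rw [Finsupp.add_apply]
        refine ⟨Submodule.add_mem _ ?_ ?_, by rw [map_add, hy.fix, hz.fix]⟩
        · by_cases h0 : y σ = 0
          · rw [h0]; exact Submodule.zero_mem _
          · have := hy.mem σ
            rwa [show k - (m : ℤ) = k + 1 - T.s σ by have := hy.lev σ h0; omega] at this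
        · by_cases h0 : z σ = 0
          · rw [h0]; exact Submodule.zero_mem _
          · have := hz.mem σ
            rwa [show k - (m : ℤ) + 1 = k + 1 - T.s σ by have := hz.lev σ h0; omega] at this
      have hx' : x - T.dd (y + z) ∈ T.gr k := by
        have := T.dd_mem hw
        rw [add_sub_cancel_right] at this
        exact Submodule.sub_mem _ hx this
      have hd' : T.dd (x - T.dd (y + z)) = 0 := by rw [map_sub, hd, T.dd_dd, sub_zero]
      have hs' : ∀ σ, (x - T.dd (y + z)) σ ≠ 0 → T.s σ < m := by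
        intro σ hσ
        by_contra hc
        apply hσ
        rw [Finsupp.sub_apply, dd_eq, map_add, Finsupp.add_apply, Finsupp.add_apply, map_add,
          hy.cyc σ, zero_add, M_zero T (x := z) (fun ρ hρ => by have := hz.lev ρ hρ; omega),
          add_zero]
        by_cases hm : T.s σ = m
        · rw [← hxt1 σ hm, hyz σ hm]
          abel
        · have e1 : x σ = 0 := by
            by_contra hne
            have := hs σ hne
            omega
          have e2 : z σ = 0 := by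
            by_contra hne
            exact hm (hz.lev σ hne)
          rw [e1, e2, map_zero, zero_add,
            M_zero T (fun ρ hρ => by have := hy.lev ρ hρ; omega), sub_zero]
      obtain ⟨v, hv1, hv2⟩ := ih k _ hx' hd' hs'
      refine ⟨v + (y + z), Submodule.add_mem _ hv1 hw, ?_⟩
      rw [map_add, hv2, sub_add_cancel]
  intro k x hx hd
  exact key (x.support.sup T.s + 1) k x hx hd fun σ hσ =>
    Nat.lt_succ_of_le (Finset.le_sup (f := T.s) (Finsupp.mem_support_iff.2 hσ))

end one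

/-! ### the homology module -/

section hm

variable {A : DGA K} (pr : GrP A)

theorem pi_mul (a b : A.C) : pr.pi 0 (a * b) = pr.pi 0 a * pr.pi 0 b := by
  conv_lhs => rw [← pr.sum a, ← pr.sum b]
  rw [Finset.sum_mul_sum, map_sum, Finset.sum_eq_single 0]
  · rw [map_sum, Finset.sum_eq_single 0]
    · rw [Nat.cast_zero]
      refine pr.same _ _ ?_
      have := A.mul_mem (pr.mem 0 a) (pr.mem 0 b)
      rwa [zero_add] at this
    · intro l _ hl
      refine pr.ne 0 ((0 : ℕ) + (l : ℤ)) _ (by omega) ?_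
      exact A.mul_mem (pr.mem _ a) (pr.mem _ b)
    · intro h
      exact absurd (Finset.mem_range.2 (Nat.succ_pos _)) h
  · intro k _ hk
    rw [map_sum]
    refine Finset.sum_eq_zero fun l _ => ?_
    refine pr.ne 0 ((k : ℤ) + (l : ℤ)) _ (by omega) ?_
    exact A.mul_mem (pr.mem _ a) (pr.mem _ b)
  · intro h
    exact absurd (Finset.mem_range.2 (Nat.succ_pos _)) h

theorem pi_D (a : A.C) : pr.pi 0 (A.D a) = A.D (pr.pi 1 a) := by
  conv_lhs => rw [← pr.sum a]
  rw [map_sum, map_sum]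
  by_cases hN : 1 < A.N + 1
  · rw [Finset.sum_eq_single 1]
    · rw [Nat.cast_one]
      refine pr.same _ _ ?_
      have := A.D_mem (pr.mem 1 a)
      rwa [sub_self] at this
    · intro k _ hk
      exact pr.ne 0 ((k : ℤ) - 1) _ (by omega) (A.D_mem (pr.mem _ a))
    · intro h
      exact absurd (Finset.mem_range.2 hN) h
  · rw [Finset.sum_eq_zero]
    · have h1 : pr.pi 1 a = 0 := by
        have := pr.mem 1 a
        rw [A.G_big 1 (by omega)] at this
        exact (Submodule.mem_bot K).1 this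
      rw [h1, map_zero]
    · intro k hk
      rw [Finset.mem_range] at hk
      exact pr.ne 0 ((k : ℤ) - 1) _ (by omega) (A.D_mem (pr.mem _ a))

theorem pi_one : pr.pi 0 1 = 1 := pr.same _ _ A.one_mem

variable (N : RM A) (n : ℤ)

/-- cycles of degree `n` -/
def Zc : Submodule K N.X := N.gr n ⊓ LinearMap.ker N.d

theorem mem_Zc {x : N.X} : x ∈ Zc N n ↔ x ∈ N.gr n ∧ N.d x = 0 := Iff.rfl

/-- boundaries of degree `n` -/
def Bd : Submodule K (Zc N n) := (Submodule.map N.d (N.gr (n + 1))).comap (Zc N n).subtype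

/-- the homology space -/
abbrev HQ : Type := Zc N n ⧸ Bd N n

/-- the class of a cycle -/
def cls {x : N.X} (h : x ∈ Zc N n) : HQ N n := Submodule.Quotient.mk ⟨x, h⟩

variable {N n}

theorem cls_zero {x : N.X} (h : x ∈ Zc N n) : cls N n h = 0 ↔ ∃ z ∈ N.gr (n + 1), N.d z = x := by
  unfold cls
  rw [Submodule.Quotient.mk_eq_zero]
  exact Iff.rfl

theorem cls_eq {x y : N.X} (hx : x ∈ Zc N n) (hy : y ∈ Zc N n) :
    cls N n hx = cls N n hy ↔ ∃ z ∈ N.gr (n + 1), N.d z = x - y := by
  unfold cls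
  rw [Submodule.Quotient.eq]
  exact Iff.rfl

theorem cls_add {x y : N.X} (hx : x ∈ Zc N n) (hy : y ∈ Zc N n) :
    cls N n (Submodule.add_mem _ hx hy) = cls N n hx + cls N n hy := rfl

theorem cls_surj (q : HQ N n) : ∃ x, ∃ h : x ∈ Zc N n, cls N n h = q := by
  obtain ⟨⟨x, h⟩, rfl⟩ := Submodule.Quotient.mk_surjective _ q
  exact ⟨x, h, rfl⟩

theorem Zc_mul {a : A.C} (ha : a ∈ A.G 0) {x : N.X} (h : x ∈ Zc N n) : op a • x ∈ Zc N n := by
  refine ⟨?_, ?_⟩
  · have := N.smul_mem ha h.1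
    rwa [zero_add] at this
  · have h2 : N.d x = 0 := h.2
    change N.d (op a • x) = 0
    rw [N.leib, D_neg ha (by omega), h2, op_zero, zero_smul, smul_zero, add_zero]

variable (N n)

/-- right multiplication by the degree zero part of `a` on cycles -/
def mulZ (a : A.C) : Zc N n →ₗ[K] Zc N n :=
  (rmul N (pr.pi 0 a)).restrict fun _ h => Zc_mul (pr.mem 0 a) h

theorem mulZ_Bd (a : A.C) : Bd N n ≤ (Bd N n).comap (mulZ pr N n a) := by
  rintro ⟨x, hx⟩ ⟨z, hz, hzx⟩
  refine ⟨op (pr.pi 0 a) • z, ?_, ?_⟩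
  · have := N.smul_mem (pr.mem 0 a) hz
    rwa [zero_add] at this
  · rw [N.leib, D_neg (pr.mem 0 a) (by omega), op_zero, zero_smul, zero_add, hzx]
    rfl

/-- right multiplication by the degree zero part of `a` on homology -/
def mulH (a : A.C) : HQ N n →ₗ[K] HQ N n :=
  Submodule.mapQ _ _ (mulZ pr N n a) (mulZ_Bd pr N n a)

theorem mulH_cls (a : A.C) {x : N.X} (h : x ∈ Zc N n) :
    mulH pr N n a (cls N n h) = cls N n (Zc_mul (pr.mem 0 a) h) := rfl

/-- the action -/
def ρ : A.Cᵐᵒᵖ →ₐ[K] Module.End K (HQ N n) :=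
  AlgHom.ofLinearMap
    { toFun := fun a => mulH pr N n a.unop
      map_add' := fun a b => by
        refine LinearMap.ext fun q => ?_
        obtain ⟨x, h, rfl⟩ := cls_surj q
        rw [LinearMap.add_apply, mulH_cls, mulH_cls, mulH_cls, ← cls_add]
        congr 1
        rw [unop_add, map_add, op_add, add_smul]
      map_smul' := fun r a => by
        refine LinearMap.ext fun q => ?_
        obtain ⟨x, h, rfl⟩ := cls_surj q
        rw [LinearMap.smul_apply, mulH_cls, mulH_cls]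
        have e : op (pr.pi 0 (unop (r • a))) • x = r • (op (pr.pi 0 (unop a)) • x) := by
          rw [unop_smul, map_smul, op_smul, smul_assoc]
        unfold cls
        rw [RingHom.id_apply, ← Submodule.Quotient.mk_smul]
        congr 1
        exact Subtype.ext e }
    (by
      refine LinearMap.ext fun q => ?_
      obtain ⟨x, h, rfl⟩ := cls_surj q
      change mulH pr N n (unop (1 : A.Cᵐᵒᵖ)) _ = _
      rw [mulH_cls]
      change _ = cls N n h
      congr 1
      rw [unop_one, pi_one, op_one, one_smul])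
    (fun a b => by
      refine LinearMap.ext fun q => ?_
      obtain ⟨x, h, rfl⟩ := cls_surj q
      rw [Module.End.mul_apply]
      change mulH pr N n (unop (a * b)) (cls N n h) =
        mulH pr N n (unop a) (mulH pr N n (unop b) (cls N n h))
      rw [mulH_cls, mulH_cls, mulH_cls]
      congr 1
      rw [unop_mul, pi_mul, op_mul, mul_smul])

theorem ρ_op (a : A.C) {x : N.X} (h : x ∈ Zc N n) :
    ρ pr N n (op a) (cls N n h) = cls N n (Zc_mul (pr.mem 0 a) h) := rfl

theorem ρ_ne {k : ℤ} (hk : k ≠ 0) {a : A.C} (ha : a ∈ A.G k) (q : HQ N n) :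
    ρ pr N n (op a) q = 0 := by
  obtain ⟨x, h, rfl⟩ := cls_surj q
  rw [ρ_op, cls_zero]
  refine ⟨0, Submodule.zero_mem _, ?_⟩
  rw [pr.ne 0 k a (Ne.symm hk) ha, op_zero, zero_smul, map_zero]

theorem ρ_D (a : A.C) (q : HQ N n) : ρ pr N n (op (A.D a)) q = 0 := by
  obtain ⟨x, h, rfl⟩ := cls_surj q
  rw [ρ_op, cls_zero]
  refine ⟨op (pr.pi 1 a) • x, ?_, ?_⟩
  · have := N.smul_mem (pr.mem 1 a) h.1
    rwa [add_comm] at this
  · have h2 : N.d x = 0 := h.2
    rw [N.leib, h2, smul_zero, add_zero, pi_D]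

/-- concentrated in degree `0` -/
def grH (k : ℤ) : Submodule K (HQ N n) := if k = 0 then ⊤ else ⊥

theorem grH_zero (q : HQ N n) : q ∈ grH N n 0 := by
  rw [grH, if_pos rfl]
  exact Submodule.mem_top

theorem grH_ne {k : ℤ} (h : k ≠ 0) {q : HQ N n} (hq : q ∈ grH N n k) : q = 0 := by
  rw [grH, if_neg h] at hq
  exact (Submodule.mem_bot K).1 hq

/-- **the homology module of `N` in degree `n`**, concentrated in degree `0` -/
noncomputable def HM : RM A where
  X := HQ N n
  gr := grH N n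
  d := 0
  d_mem := fun _ => Submodule.zero_mem _
  d_d := fun _ => rfl
  act := Module.compHom (HQ N n) (ρ pr N n).toRingHom
  tower := by
    letI : Module A.Cᵐᵒᵖ (HQ N n) := Module.compHom (HQ N n) (ρ pr N n).toRingHom
    refine ⟨fun r a q => ?_⟩
    change ρ pr N n (r • a) q = r • ρ pr N n a q
    rw [map_smul]
    rfl
  smul_mem := by
    letI : Module A.Cᵐᵒᵖ (HQ N n) := Module.compHom (HQ N n) (ρ pr N n).toRingHom
    intro k l a q ha hq
    change ρ pr N n (op a) q ∈ grH N n (k + l)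
    by_cases hl : l = 0
    · by_cases hk : k = 0
      · rw [hk, hl]; exact grH_zero N n _
      · rw [ρ_ne pr N n hk ha]; exact Submodule.zero_mem _
    · rw [grH_ne N n hl hq, map_zero]; exact Submodule.zero_mem _
  leib := by
    letI : Module A.Cᵐᵒᵖ (HQ N n) := Module.compHom (HQ N n) (ρ pr N n).toRingHom
    intro a q
    change (0 : HQ N n) = ρ pr N n (op (A.D a)) q + ρ pr N n (op a) 0
    rw [ρ_D, map_zero, add_zero]

theorem HM_smul (a : A.C) (q : (HM pr N n).X) :
    (op a • q : (HM pr N n).X) = ρ pr N n (op a) q := rfl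

theorem HM_gr0 (q : (HM pr N n).X) : q ∈ (HM pr N n).gr 0 := grH_zero N n q

theorem HM_gr {k : ℤ} (h : k ≠ 0) {q : (HM pr N n).X} (hq : q ∈ (HM pr N n).gr k) : q = 0 :=
  grH_ne N n h hq

theorem HM_d (q : (HM pr N n).X) : (HM pr N n).d q = 0 := rfl

/-- the class of a cycle, linear -/
noncomputable def hcL : Zc N n →ₗ[K] (HM pr N n).X := (Bd N n).mkQ

/-- the class of a cycle -/
noncomputable def hc {x : N.X} (h : x ∈ Zc N n) : (HM pr N n).X := hcL pr N n ⟨x, h⟩

theorem hc_zero {x : N.X} (h : x ∈ Zc N n) :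
    hc pr N n h = 0 ↔ ∃ z ∈ N.gr (n + 1), N.d z = x := cls_zero h

theorem hc_eq {x y : N.X} (hx : x ∈ Zc N n) (hy : y ∈ Zc N n) :
    hc pr N n hx = hc pr N n hy ↔ ∃ z ∈ N.gr (n + 1), N.d z = x - y := cls_eq hx hy

theorem hc_surj (q : (HM pr N n).X) : ∃ x, ∃ h : x ∈ Zc N n, hc pr N n h = q := cls_surj q

theorem hc_congr {x y : N.X} (hx : x ∈ Zc N n) (hy : y ∈ Zc N n) (h : x = y) :
    hc pr N n hx = hc pr N n hy := by
  subst h; rfl

theorem hc_of_zero {x : N.X} (h : x ∈ Zc N n) (h0 : x = 0) : hc pr N n h = 0 := by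
  rw [hc_zero]
  exact ⟨0, Submodule.zero_mem _, by rw [h0, map_zero]⟩

theorem hc_sum {α : Type} (S : Finset α) (f : α → N.X) (hf : ∀ σ, f σ ∈ Zc N n) :
    ∃ hS : ∑ σ ∈ S, f σ ∈ Zc N n, ∑ σ ∈ S, hc pr N n (hf σ) = hc pr N n hS := by
  refine ⟨Submodule.sum_mem _ fun σ _ => hf σ, ?_⟩
  have h1 : (⟨∑ σ ∈ S, f σ, Submodule.sum_mem _ fun σ _ => hf σ⟩ : Zc N n) =
      ∑ σ ∈ S, (⟨f σ, hf σ⟩ : Zc N n) := by
    apply Subtype.ext
    rw [AddSubmonoidClass.coe_finsetSum]
  unfold hc
  rw [h1, map_sum]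

/-- the degree zero elements of the algebra act on homology as on cycles -/
theorem hc_mul {a : A.C} (ha : a ∈ A.G 0) {x : N.X} (h : x ∈ Zc N n) :
    op a • hc pr N n h = hc pr N n (Zc_mul ha h) := by
  change ρ pr N n (op a) (cls N n h) = cls N n (Zc_mul ha h)
  rw [ρ_op]
  congr 1
  rw [pr.same 0 a ha]

theorem HM_ne {k : ℤ} (hk : k ≠ 0) {a : A.C} (ha : a ∈ A.G k) (q : (HM pr N n).X) :
    op a • q = 0 := ρ_ne pr N n hk ha q

end hm

/-! ### truncation -/

section trunc

variable {A : DGA K} (pr : GrP A) (N : RM A) (X : LCells A)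

/-- the differential of a family of classes supported on one level -/
theorem hc_M {n : ℤ} {l : ℕ} {u : X.ι →₀ N.X} (hu : OnC (twG N X) n l u)
    (hu' : ∀ σ, u σ ∈ Zc N n) {v : X.ι →₀ (HM pr N n).X} (hv : ∀ σ, v σ = hc pr N n (hu' σ))
    {τ : X.ι} (hτ : X.s τ + 1 = l) :
    ∃ hS : (twG N X).M u τ ∈ Zc N n, (twG (HM pr N n) X).M v τ = hc pr N n hS := by
  classical
  let cc : X.ι → A.C := fun σ => if X.s σ = l then X.c σ τ else 0
  have hcc : ∀ σ, cc σ ∈ A.G 0 := by
    intro σ
    by_cases hσ : X.s σ = l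
    · simp only [cc, if_pos hσ]
      have := X.c_mem σ τ
      rwa [show (X.s σ : ℤ) - X.s τ - 1 = 0 by omega] at this
    · simp only [cc, if_neg hσ]
      exact Submodule.zero_mem _
  obtain ⟨hS, hS2⟩ := hc_sum pr N n u.support (fun σ => op (cc σ) • u σ)
    fun σ => Zc_mul (hcc σ) (hu' σ)
  have e1 : (twG N X).M u τ = ∑ σ ∈ u.support, op (cc σ) • u σ := by
    rw [M_apply]
    refine Finset.sum_congr rfl fun σ hσ => ?_
    change op (X.c σ τ) • u σ = _
    simp only [cc, if_pos (show X.s σ = l from hu.lev σ (Finsupp.mem_support_iff.1 hσ))]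
  refine ⟨by rw [e1]; exact hS, ?_⟩
  have e2 : (twG (HM pr N n) X).M v τ =
      ∑ σ ∈ u.support, hc pr N n (Zc_mul (hcc σ) (hu' σ)) := by
    rw [M_apply]
    have hsub : v.support ⊆ u.support := by
      intro σ hσ
      rw [Finsupp.mem_support_iff] at hσ ⊢
      intro h0
      exact hσ (by rw [hv]; exact hc_of_zero pr N n _ h0)
    rw [Finsupp.sum_of_support_subset v hsub _ fun σ _ => map_zero _]
    refine Finset.sum_congr rfl fun σ hσ => ?_
    change op (X.c σ τ) • v σ = _
    have hl : X.s σ = l := hu.lev σ (Finsupp.mem_support_iff.1 hσ)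
    have h3 : X.c σ τ = cc σ := by simp only [cc, if_pos hl]
    rw [h3, hv, hc_mul pr N n (hcc σ)]
  rw [e2, hS2]
  exact hc_congr pr N n _ _ e1.symm

theorem homEx_of_HM {n : ℤ} (h : Ac (tG (HM pr N n) X)) (j : ℕ) (x : X.ι →₀ N.X)
    (hx : OnC (twG N X) n j x)
    (hM : ∀ τ, X.s τ + 1 = j → ∃ z ∈ N.gr (n + 1), (twG N X).M x τ = N.d z) :
    ∃ y z : X.ι →₀ N.X, OnC (twG N X) n (j + 1) y ∧ OnZ (twG N X) (n + 1) j z ∧
      ∀ σ, X.s σ = j → x σ = (twG N X).M y σ + N.d (z σ) := by
  classical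
  have hxZ : ∀ σ, x σ ∈ Zc N n := fun σ => ⟨hx.mem σ, hx.cyc σ⟩
  -- the class
  let q : X.ι →₀ (HM pr N n).X := Finsupp.onFinset x.support (fun σ => hc pr N n (hxZ σ)) (by
    intro σ hσ
    rw [Finsupp.mem_support_iff]
    intro h0
    exact hσ (hc_of_zero pr N n _ h0))
  have hq : ∀ σ, q σ = hc pr N n (hxZ σ) := fun _ => rfl
  have hq0 : ∀ σ, X.s σ ≠ j → q σ = 0 := by
    intro σ hσ
    rw [hq]
    refine hc_of_zero pr N n _ ?_
    by_contra hc'
    exact hσ (hx.lev σ hc')
  have hqg : q ∈ (twG (HM pr N n) X).gr j := by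
    intro σ
    by_cases hσ : X.s σ = j
    · refine ⟨?_, ?_⟩
      · have := HM_gr0 pr N n (q σ)
        rwa [show (j : ℤ) - X.s σ = 0 by omega]
      · change op (X.e σ) • q σ = q σ
        rw [hq, hc_mul pr N n (X.e_mem σ)]
        exact hc_congr pr N n _ _ (hx.fix σ)
    · rw [hq0 σ hσ]
      exact ⟨Submodule.zero_mem _, map_zero _⟩
  have hqd : (twG (HM pr N n) X).dd q = 0 := by
    refine Finsupp.ext fun τ => ?_
    rw [dd_eq]
    change (0 : (HM pr N n).X) + _ = 0
    rw [zero_add]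
    by_cases hτ : X.s τ + 1 = j
    · obtain ⟨hS, e⟩ := hc_M pr N X hx hxZ hq hτ
      rw [e, hc_zero]
      obtain ⟨z, hz1, hz2⟩ := hM τ hτ
      exact ⟨z, hz1, hz2.symm⟩
    · rw [M_apply]
      refine Finset.sum_eq_zero fun σ hσ => ?_
      change op (X.c σ τ) • q σ = 0
      by_cases hσj : X.s σ = j
      · exact HM_ne pr N n (k := (X.s σ : ℤ) - X.s τ - 1) (by omega) (X.c_mem σ τ) _
      · rw [hq0 σ hσj, smul_zero]
  obtain ⟨w, hw1, hw2⟩ := h j q hqg hqd
  -- lift `w`
  have hwr : ∀ σ, ∃ u, u ∈ Zc N n ∧ op (X.e σ) • u = u ∧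
      ∀ hu : u ∈ Zc N n, hc pr N n hu = w σ := by
    intro σ
    obtain ⟨u, hu, hu2⟩ := hc_surj pr N n (w σ)
    refine ⟨op (X.e σ) • u, Zc_mul (X.e_mem σ) hu, ?_, fun _ => ?_⟩
    · rw [smul_smul, ← op_mul, X.e_idem]
    · rw [← hc_mul pr N n (X.e_mem σ) hu, hu2]
      exact (hw1 σ).2
  choose u hu1 hu2 hu3 using hwr
  have hw0 : ∀ σ, X.s σ ≠ j + 1 → w σ = 0 := by
    intro σ hσ
    exact HM_gr pr N n (k := (j : ℤ) + 1 - X.s σ) (by omega) (hw1 σ).1
  let y : X.ι →₀ N.X := Finsupp.onFinset w.support (fun σ => if w σ = 0 then 0 else u σ) (by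
    intro σ hσ
    rw [Finsupp.mem_support_iff]
    intro h0
    exact hσ (if_pos h0))
  have hy : ∀ σ, y σ = if w σ = 0 then 0 else u σ := fun _ => rfl
  have hyZ : ∀ σ, y σ ∈ Zc N n := by
    intro σ
    rw [hy]
    split_ifs
    · exact Submodule.zero_mem _
    · exact hu1 σ
  have hyC : OnC (twG N X) n (j + 1) y := by
    refine ⟨fun σ => (hyZ σ).1, fun σ => (hyZ σ).2, fun σ => ?_, fun σ hσ => ?_⟩
    · change op (X.e σ) • y σ = y σ
      rw [hy]
      split_ifs
      · rw [smul_zero]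
      · exact hu2 σ
    · by_contra hc'
      exact hσ (by rw [hy, if_pos (hw0 σ hc')])
  have hyw : ∀ σ, w σ = hc pr N n (hyZ σ) := by
    intro σ
    by_cases h0 : w σ = 0
    · rw [h0]
      symm
      exact hc_of_zero pr N n _ (by rw [hy, if_pos h0])
    · rw [← hu3 σ (hu1 σ)]
      exact hc_congr pr N n _ _ (by rw [hy, if_neg h0])
  have hz : ∀ σ, ∃ z, z ∈ N.gr (n + 1) ∧ op (X.e σ) • z = z ∧
      (X.s σ = j → x σ = (twG N X).M y σ + N.d z) := by
    intro σ
    by_cases hσ : X.s σ = j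
    · obtain ⟨hS, e⟩ := hc_M pr N X hyC hyZ hyw (τ := σ) (by omega)
      have e3 := DFunLike.congr_fun hw2 σ
      change (twG (HM pr N n) X).dd w σ = q σ at e3
      rw [dd_eq] at e3
      change (0 : (HM pr N n).X) + _ = q σ at e3
      rw [zero_add, e, hq] at e3
      obtain ⟨z, hz1, hz2⟩ := (hc_eq pr N n (hxZ σ) hS).1 e3.symm
      refine ⟨op (X.e σ) • z, ?_, ?_, fun _ => ?_⟩
      · have := N.smul_mem (X.e_mem σ) hz1
        rwa [zero_add] at this
      · rw [smul_smul, ← op_mul, X.e_idem]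
      · rw [N.leib, D_neg (X.e_mem σ) (by omega), op_zero, zero_smul, zero_add, hz2, smul_sub]
        have f1 : op (X.e σ) • x σ = x σ := hx.fix σ
        have f2 : op (X.e σ) • (twG N X).M y σ = (twG N X).M y σ := by
          rw [M_apply, Finsupp.sum, Finset.smul_sum]
          exact Finset.sum_congr rfl fun ρ _ => (twG N X).p_m ρ σ _
        rw [f1, f2]
        abel
    · exact ⟨0, Submodule.zero_mem _, smul_zero _, fun h => absurd h hσ⟩
  choose z hz1 hz2 hz3 using hz
  let zz : X.ι →₀ N.X := Finsupp.onFinset (x.support ∪ ((twG N X).M y).support)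
    (fun σ => if X.s σ = j ∧ σ ∈ x.support ∪ ((twG N X).M y).support then z σ else 0) (by
      intro σ hσ
      by_contra hc'
      exact hσ (if_neg fun h => hc' h.2))
  have hzz : ∀ σ, zz σ = if X.s σ = j ∧ σ ∈ x.support ∪ ((twG N X).M y).support then z σ else 0 :=
    fun _ => rfl
  refine ⟨y, zz, hyC, ⟨fun σ => ?_, fun σ => ?_, fun σ hσ => ?_⟩, fun σ hσ => ?_⟩
  · rw [hzz]
    split_ifs
    · exact hz1 σ
    · exact Submodule.zero_mem _
  · change op (X.e σ) • zz σ = zz σ
    rw [hzz]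
    split_ifs
    · exact hz2 σ
    · exact smul_zero _
  · by_contra hc'
    exact hσ (by rw [hzz, if_neg fun h => hc' h.1])
  · by_cases hS : σ ∈ x.support ∪ ((twG N X).M y).support
    · rw [hzz, if_pos ⟨hσ, hS⟩]
      exact hz3 σ hσ
    · rw [hzz, if_neg fun h => hS h.2, map_zero, add_zero]
      rw [Finset.mem_union, not_or, Finsupp.notMem_support_iff, Finsupp.notMem_support_iff] at hS
      rw [hS.1, hS.2]

/-- **truncation**: if `T(H_n(N))` is acyclic for all `n` then `T(N)` is acyclic -/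
theorem ac_of_HM (h : ∀ n, Ac (tG (HM pr N n) X)) : Ac (tG N X) :=
  ac_of_hom (twG N X) fun n j x hx hM => homEx_of_HM pr N X (h n) j x hx hM

end trunc

/-! ### transfer of properties of `N` to its homology modules -/

section prop

variable {A : DGA K} (pr : GrP A) (N : RM A) (n : ℤ)

/-- acyclic columns give zero columns -/
theorem HM_supp {e : A.C} (he : e ∈ A.G 0) (hee : e * e = e)
    (h : ∀ x ∈ N.gr n, N.d x = 0 → op e • x = x → ∃ z ∈ N.gr (n + 1), N.d z = x)
    (q : (HM pr N n).X) : op e • q = 0 := by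
  obtain ⟨x, hx, rfl⟩ := hc_surj pr N n q
  rw [hc_mul pr N n he, hc_zero]
  refine h _ (Zc_mul he hx).1 (Zc_mul he hx).2 ?_
  rw [smul_smul, ← op_mul, hee]

/-- injectivity on homology -/
theorem HM_inj {e a : A.C} (he : e ∈ A.G 0) (hee : e * e = e) (ha : a ∈ A.G 0)
    (h : ∀ x ∈ N.gr n, N.d x = 0 → op e • x = x → (∃ z ∈ N.gr (n + 1), N.d z = op a • x) →
      ∃ z ∈ N.gr (n + 1), N.d z = x)
    (q : (HM pr N n).X) (hq : op e • q = q) (h0 : op a • q = 0) : q = 0 := by
  obtain ⟨x, hx, rfl⟩ := hc_surj pr N n q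
  rw [hc_mul pr N n he] at hq
  rw [← hq, hc_mul pr N n ha, hc_zero] at h0
  rw [← hq, hc_zero]
  refine h _ (Zc_mul he hx).1 (Zc_mul he hx).2 ?_ h0
  rw [smul_smul, ← op_mul, hee]

/-- surjectivity on homology -/
theorem HM_surj {e e' a : A.C} (he : e ∈ A.G 0) (he' : e' ∈ A.G 0) (hee' : e' * e' = e')
    (ha : a ∈ A.G 0)
    (h : ∀ y ∈ N.gr n, N.d y = 0 → op e' • y = y → ∃ x ∈ N.gr n, N.d x = 0 ∧ op e • x = x ∧
      ∃ z ∈ N.gr (n + 1), y = op a • x + N.d z)
    (q : (HM pr N n).X) (hq : op e' • q = q) :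
    ∃ r : (HM pr N n).X, op e • r = r ∧ op a • r = q := by
  obtain ⟨y, hy, rfl⟩ := hc_surj pr N n q
  rw [hc_mul pr N n he'] at hq
  obtain ⟨x, hx1, hx2, hx3, z, hz1, hz2⟩ := h _ (Zc_mul he' hy).1 (Zc_mul he' hy).2
    (by rw [smul_smul, ← op_mul, hee'])
  have hx : x ∈ Zc N n := ⟨hx1, hx2⟩
  refine ⟨hc pr N n hx, ?_, ?_⟩
  · rw [hc_mul pr N n he]
    exact hc_congr pr N n _ _ hx3
  · rw [hc_mul pr N n ha, ← hq, eq_comm, hc_eq]
    exact ⟨z, hz1, by rw [hz2, add_sub_cancel_left]⟩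

end prop

end Crest.Agent.R186.V1697
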