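import Crest.Agent.R186.Frame_515

/-!
Row 186, half (A), short road, leaf (V2) (helper981), part (a): abstract devissage for `G ⊗ X`
on the frame of helper515.

* `dd_map`, `map_mem` : right linear chain maps act on `G ⊗ X`;
* `ac_of_ses` : extension;
* `ac_of_copies` : a direct sum of copies of `P0`.
-/

set_option autoImplicit false
set_option linter.unusedSectionVars false
set_option linter.unusedSimpArgs false

open MulOpposite

namespace Crest.Agent.R186.V2a981

open Hat827 Hat827.DGA Frame515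

variable {K : Type} [Field K] {A : DGA K}

/-- right linear chain map of degree `0` -/
structure RH (G G' : RM A) where
  f : G.X →ₗ[K] G'.X
  f_op : ∀ (a : A.C) (x : G.X), f (op a • x) = op a • f x
  f_d : ∀ x : G.X, f (G.d x) = G'.d (f x)
  f_mem : ∀ {k : ℤ} {x : G.X}, x ∈ G.gr k → f x ∈ G'.gr k

namespace RH

variable {G G' : RM A} (φ : RH G G') (X : LCells A)

/-- the induced map -/
noncomputable def mp : (X.ι →₀ G.X) →ₗ[K] (X.ι →₀ G'.X) := Finsupp.mapRange.linearMap φ.f

theorem mp_apply (x : X.ι →₀ G.X) (σ : X.ι) : φ.mp X x σ = φ.f (x σ) := rfl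

theorem mp_single (σ : X.ι) (x : G.X) :
    φ.mp X (Finsupp.single σ x) = Finsupp.single σ (φ.f x) := by
  simp [mp]

theorem mp_d (x : X.ι →₀ G.X) : φ.mp X ((tG G X).d x) = (tG G' X).d (φ.mp X x) := by
  classical
  suffices h : φ.mp X ∘ₗ (tG G X).d = (tG G' X).d ∘ₗ φ.mp X from LinearMap.congr_fun h x
  refine Finsupp.lhom_ext fun σ x => ?_
  show φ.mp X ((twG G X).dd (Finsupp.single σ x)) = (twG G' X).dd (φ.mp X (Finsupp.single σ x))
  rw [mp_single, Tw.dd_single, Tw.dd_single, map_add, map_sum, mp_single, φ.f_d]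
  congr 1
  refine Finset.sum_congr rfl fun τ _ => ?_
  rw [mp_single]
  exact congrArg _ (φ.f_op _ _)

theorem mp_mem {k : ℤ} {x : X.ι →₀ G.X} (hx : x ∈ (tG G X).gr k) : φ.mp X x ∈ (tG G' X).gr k := by
  intro σ
  refine ⟨φ.f_mem (hx σ).1, ?_⟩
  show op (X.e σ) • φ.f (x σ) = φ.f (x σ)
  rw [← φ.f_op]
  exact congrArg _ (hx σ).2

end RH

/-- extension: `0 → N → P → Q → 0` with `N ⊗ X`, `Q ⊗ X` acyclic -/
theorem ac_of_ses {N P Q : RM A} (i : RH N P) (p : RH P Q) (X : LCells A)
    (inj : Function.Injective i.f)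
    (ker : ∀ (k : ℤ) (x : P.X), x ∈ P.gr k → p.f x = 0 → ∃ y ∈ N.gr k, i.f y = x)
    (sur : ∀ (k : ℤ) (y : Q.X), y ∈ Q.gr k → ∃ x ∈ P.gr k, p.f x = y)
    (hN : Ac (tG N X)) (hQ : Ac (tG Q X)) : Ac (tG P X) := by
  classical
  intro k x hx hd
  -- the image in `Q`
  obtain ⟨q, hq, hqx⟩ := hQ k (p.mp X x) (p.mp_mem X hx) (by rw [← p.mp_d, hd, map_zero])
  -- lift
  have hl : ∀ σ, ∃ y : P.X, y ∈ P.gr (k + 1 - X.s σ) ∧ op (X.e σ) • y = y ∧ p.f y = q σ := by
    intro σ
    obtain ⟨y, hy, hyq⟩ := sur _ (q σ) (hq σ).1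
    refine ⟨op (X.e σ) • y, ?_, ?_, ?_⟩
    · have := P.smul_mem (X.e_mem σ) hy
      rwa [zero_add] at this
    · rw [smul_smul, ← op_mul, X.e_idem]
    · rw [p.f_op, hyq]
      exact (hq σ).2
  choose g hg1 hg2 hg3 using hl
  let z : X.ι →₀ P.X := Finsupp.onFinset q.support (fun σ => if σ ∈ q.support then g σ else 0)
    fun σ h => by
      by_contra hc
      exact h (if_neg hc)
  have hz : ∀ σ, z σ = if σ ∈ q.support then g σ else 0 := fun σ => rfl
  have hzg : z ∈ (tG P X).gr (k + 1) := by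
    intro σ
    show z σ ∈ P.gr (k + 1 - X.s σ) ∧ op (X.e σ) • z σ = z σ
    rw [hz]
    split_ifs
    · exact ⟨hg1 σ, hg2 σ⟩
    · exact ⟨Submodule.zero_mem _, smul_zero _⟩
  have hpz : p.mp X z = q := by
    ext σ
    rw [p.mp_apply, hz]
    split_ifs with h
    · exact hg3 σ
    · rw [map_zero, Finsupp.notMem_support_iff.1 h]
  have hx' : x - (tG P X).d z ∈ (tG P X).gr k := by
    have := (tG P X).d_mem hzg
    rw [add_sub_cancel_right] at this
    exact Submodule.sub_mem _ hx this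
  have hd' : (tG P X).d (x - (tG P X).d z) = 0 := by
    rw [map_sub, hd, (tG P X).d_d, sub_zero]
  have hp' : ∀ σ, p.f ((x - (tG P X).d z) σ) = 0 := by
    intro σ
    have h1 : p.mp X (x - (tG P X).d z) = 0 := by
      rw [map_sub, p.mp_d, hpz, hqx, sub_self]
    exact DFunLike.congr_fun h1 σ
  -- lift to `N`
  set x' := x - (tG P X).d z with hx'def
  have hn : ∀ σ, ∃ y : N.X, y ∈ N.gr (k - X.s σ) ∧ i.f y = x' σ := fun σ =>
    ker _ _ (hx' σ).1 (hp' σ)
  choose m hm1 hm2 using hn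
  let n : X.ι →₀ N.X := Finsupp.onFinset x'.support m fun σ h => by
    by_contra hc
    apply h
    apply inj
    rw [hm2, Finsupp.notMem_support_iff.1 hc, map_zero]
  have hni : i.mp X n = x' := by
    ext σ
    exact hm2 σ
  have hng : n ∈ (tG N X).gr k := by
    intro σ
    refine ⟨hm1 σ, ?_⟩
    apply inj
    show i.f (op (X.e σ) • m σ) = i.f (m σ)
    rw [i.f_op, hm2]
    exact (hx' σ).2
  have hinj : Function.Injective (i.mp X) := by
    intro a b hab
    ext σ
    exact inj (DFunLike.congr_fun hab σ)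
  have hnd : (tG N X).d n = 0 := by
    apply hinj
    rw [i.mp_d, hni, hd', map_zero]
  obtain ⟨n', hn', hnn⟩ := hN k n hng hnd
  refine ⟨z + i.mp X n', Submodule.add_mem _ hzg (i.mp_mem X hn'), ?_⟩
  rw [map_add, ← i.mp_d, hnn, hni, hx'def]
  abel

/-- a direct sum of copies of `P0` -/
theorem ac_of_copies {P0 P : RM A} {I : Type} (φ : I → RH P0 P) (X : LCells A)
    (e : P.X ≃ₗ[K] (I →₀ P0.X)) (he : ∀ (i : I) (x : P0.X), e ((φ i).f x) = Finsupp.single i x)
    (hgr : ∀ (k : ℤ) (x : P.X), x ∈ P.gr k → ∀ i, e x i ∈ P0.gr k)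
    (h0 : Ac (tG P0 X)) : Ac (tG P X) := by
  classical
  -- every element is the sum of its components
  have hsum : ∀ (x : P.X) (J : Finset I), (e x).support ⊆ J → ∑ i ∈ J, (φ i).f (e x i) = x := by
    intro x J hJ
    apply e.injective
    rw [map_sum]
    simp only [he]
    rw [← Finsupp.sum_of_support_subset (e x) hJ (fun i y => Finsupp.single i y)
      (fun i _ => Finsupp.single_zero i)]
    exact Finsupp.sum_single (e x)
  -- the projections
  let ψ : I → P.X →ₗ[K] P0.X := fun i => Finsupp.lapply i ∘ₗ e.toLinearMap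
  have hψ : ∀ i x, ψ i x = e x i := fun _ _ => rfl
  have hop : ∀ (i : I) (a : A.C) (x : P.X), e (op a • x) i = op a • e x i := by
    intro i a x
    have h1 : e (op a • x) = ∑ j ∈ (e x).support, Finsupp.single j (op a • e x j) := by
      conv_lhs => rw [← hsum x (e x).support (Finset.Subset.refl _), Finset.smul_sum, map_sum]
      refine Finset.sum_congr rfl fun j _ => ?_
      rw [← (φ j).f_op, he]
    rw [h1, Finset.sum_apply']
    simp only [Finsupp.single_apply]
    rw [Finset.sum_ite_eq']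
    split_ifs with h
    · rfl
    · rw [Finsupp.notMem_support_iff.1 h, smul_zero]
  have hdd : ∀ (i : I) (x : P.X), e (P.d x) i = P0.d (e x i) := by
    intro i x
    have h1 : e (P.d x) = ∑ j ∈ (e x).support, Finsupp.single j (P0.d (e x j)) := by
      conv_lhs => rw [← hsum x (e x).support (Finset.Subset.refl _), map_sum, map_sum]
      refine Finset.sum_congr rfl fun j _ => ?_
      rw [← (φ j).f_d, he]
    rw [h1, Finset.sum_apply']
    simp only [Finsupp.single_apply]
    rw [Finset.sum_ite_eq']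
    split_ifs with h
    · rfl
    · rw [Finsupp.notMem_support_iff.1 h, map_zero]
  let Ψ : I → RH P P0 := fun i =>
    { f := ψ i
      f_op := fun a x => hop i a x
      f_d := fun x => hdd i x
      f_mem := fun {k x} hx => hgr k x hx i }
  intro k x hx hd
  have hy : ∀ i, ∃ y ∈ (tG P0 X).gr (k + 1), (tG P0 X).d y = (Ψ i).mp X x := fun i =>
    h0 k _ ((Ψ i).mp_mem X hx) (by rw [← (Ψ i).mp_d, hd, map_zero])
  choose y hy1 hy2 using hy
  let J : Finset I := x.support.biUnion fun σ => (e (x σ)).support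
  refine ⟨∑ i ∈ J, (φ i).mp X (y i), Submodule.sum_mem _ fun i _ => (φ i).mp_mem X (hy1 i), ?_⟩
  rw [map_sum]
  have h2 : ∀ i ∈ J, (tG P X).d ((φ i).mp X (y i)) = (φ i).mp X ((Ψ i).mp X x) := by
    intro i _
    rw [← (φ i).mp_d, hy2]
  rw [Finset.sum_congr rfl h2]
  ext σ
  rw [Finset.sum_apply']
  show ∑ i ∈ J, (φ i).f (e (x σ) i) = x σ
  by_cases hσ : σ ∈ x.support
  · exact hsum (x σ) J (Finset.subset_biUnion_of_mem (fun σ => (e (x σ)).support) hσ)
  · rw [Finsupp.notMem_support_iff.1 hσ]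
    simp

end Crest.Agent.R186.V2a981
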