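import Crest.Agent.R186.V2d_510

/-!
Row 186, half (A), short road, leaf (V2) (helper981), part (b): direct sums of copies and extensions
for the row complexes `TAc` of right modules over `H_0(A)` (`HMod`, helper510).
-/

set_option autoImplicit false
set_option linter.unusedSectionVars false
set_option linter.unusedSimpArgs false
set_option linter.unusedVariables false

open MulOpposite

namespace Crest.Agent.R186.V2b981

open Hat827 Hat827.DGA Frame515 V2d510

variable {K : Type} [Field K] {A : DGA K}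

theorem sum_mr {ι X Y Z : Type} [AddCommGroup X] [Module K X] [AddCommGroup Y] [Module K Y]
    [AddCommGroup Z] [Module K Z] (f : X →ₗ[K] Y) (m : ι → Y →ₗ[K] Z) (a : ι →₀ X) :
    ((Finsupp.mapRange.linearMap f a).sum fun σ x => m σ x) = ∑ σ ∈ a.support, m σ (f (a σ)) := by
  rw [Finsupp.sum_of_support_subset (s := a.support) _ ?_ _ (fun i _ => map_zero _)]
  · rfl
  · exact Finsupp.support_mapRange (hf := map_zero f)

theorem sum_ss {ι X Z : Type} [AddCommGroup X] [Module K X]
    [AddCommGroup Z] [Module K Z] (m : ι → X →ₗ[K] Z) (a : ι →₀ X) (S : Finset ι)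
    (h : a.support ⊆ S) : (a.sum fun σ x => m σ x) = ∑ σ ∈ S, m σ (a σ) :=
  Finsupp.sum_of_support_subset _ h _ (fun i _ => map_zero _)

/-- a direct sum of copies -/
theorem copies (U N : HMod A) (J : Type) (φ : J → U.N →ₗ[K] N.N)
    (hφ : ∀ (j : J) (a : A.C), a ∈ A.G 0 → ∀ u, φ j (U.act a u) = N.act a (φ j u))
    (bij : Function.Bijective (Finsupp.lsum K φ : (J →₀ U.N) →ₗ[K] N.N))
    (X : LCells A) (k : ℤ) (hU : TAc U X k) : TAc N X k := by
  classical
  let e : N.N ≃ₗ[K] (J →₀ U.N) := (LinearEquiv.ofBijective _ bij).symm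
  have he0 : ∀ y : J →₀ U.N, e ((Finsupp.lsum K φ : (J →₀ U.N) →ₗ[K] N.N) y) = y := fun y =>
    (LinearEquiv.ofBijective _ bij).symm_apply_apply y
  have he1 : ∀ x : N.N, (Finsupp.lsum K φ : (J →₀ U.N) →ₗ[K] N.N) (e x) = x := fun x =>
    (LinearEquiv.ofBijective _ bij).apply_symm_apply x
  have he : ∀ (j : J) (u : U.N), e (φ j u) = Finsupp.single j u := by
    intro j u
    have := he0 (Finsupp.single j u)
    rwa [Finsupp.lsum_single] at this
  have hsum : ∀ (x : N.N) (S : Finset J), (e x).support ⊆ S → ∑ i ∈ S, φ i (e x i) = x := by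
    intro x S hS
    conv_rhs => rw [← he1 x]
    rw [Finsupp.lsum_apply]
    exact (Finsupp.sum_of_support_subset (e x) hS (fun i y => φ i y)
      (fun i _ => map_zero _)).symm
  have hop : ∀ (i : J) (a : A.C), a ∈ A.G 0 → ∀ x : N.N, e (N.act a x) i = U.act a (e x i) := by
    intro i a ha x
    have h1 : e (N.act a x) = ∑ j ∈ (e x).support, Finsupp.single j (U.act a (e x j)) := by
      conv_lhs => rw [← hsum x (e x).support (Finset.Subset.refl _), map_sum, map_sum]
      refine Finset.sum_congr rfl fun j _ => ?_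
      rw [← hφ j a ha, he]
    rw [h1, Finset.sum_apply']
    simp only [Finsupp.single_apply]
    rw [Finset.sum_ite_eq']
    split_ifs with h
    · rfl
    · rw [Finsupp.notMem_support_iff.1 h, map_zero]
  intro a ha1 ha2 ha3
  let ψ : J → N.N →ₗ[K] U.N := fun i => Finsupp.lapply i ∘ₗ e.toLinearMap
  have hψ : ∀ i x, ψ i x = e x i := fun _ _ => rfl
  have hb : ∀ j, ∃ b : X.ι →₀ U.N, (∀ σ, U.act (X.e σ) (b σ) = b σ) ∧
      (∀ σ, (X.s σ : ℤ) ≠ k + 1 → b σ = 0) ∧
      ∀ τ, (X.s τ : ℤ) = k → e (a τ) j = b.sum fun σ x => U.act (X.c σ τ) x := by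
    intro j
    obtain ⟨b, h1, h2, h3⟩ := hU (Finsupp.mapRange.linearMap (ψ j) a) (by
        intro σ
        show U.act (X.e σ) (e (a σ) j) = e (a σ) j
        rw [← hop j _ (X.e_mem σ), ha1]) (by
        intro σ hσ
        show e (a σ) j = 0
        rw [ha2 σ hσ, map_zero]; rfl) (by
        intro τ hτ
        rw [sum_mr (ψ j) (fun σ => U.act (X.c σ τ)) a]
        have h := ha3 τ hτ
        have h' := congrArg (fun x => e x j) h
        simp only [map_zero, Finsupp.coe_zero, Pi.zero_apply] at h'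
        rw [Finsupp.sum, map_sum, Finset.sum_apply'] at h'
        rw [← h']
        refine Finset.sum_congr rfl fun σ hσ => ?_
        show U.act (X.c σ τ) (e (a σ) j) = _
        rw [hop]
        have hs : (X.s σ : ℤ) = k := by
          by_contra hc
          exact (Finsupp.mem_support_iff.1 hσ) (ha2 σ hc)
        have := X.c_mem σ τ
        rwa [hs, hτ, show k - (k - 1) - 1 = 0 by ring] at this)
    exact ⟨b, h1, h2, fun τ hτ => h3 τ hτ⟩
  choose b hb1 hb2 hb3 using hb
  let S : Finset J := a.support.biUnion fun σ => (e (a σ)).support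
  have hval : ∀ σ, (∑ j ∈ S, Finsupp.mapRange.linearMap (φ j) (b j)) σ = ∑ j ∈ S, φ j (b j σ) := by
    intro σ
    rw [Finset.sum_apply']
    rfl
  refine ⟨∑ j ∈ S, Finsupp.mapRange.linearMap (φ j) (b j), ?_, ?_, ?_⟩
  · intro σ
    rw [hval, map_sum]
    refine Finset.sum_congr rfl fun j _ => ?_
    rw [← hφ j _ (X.e_mem σ), hb1]
  · intro σ hσ
    rw [hval]
    exact Finset.sum_eq_zero fun j _ => by rw [hb2 j σ hσ, map_zero]
  · intro τ hτ
    let T : Finset X.ι := S.biUnion fun j => (b j).support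
    have hT : ∀ j ∈ S, (b j).support ⊆ T := fun j hj =>
      Finset.subset_biUnion_of_mem (fun j => (b j).support) hj
    rw [Finsupp.sum_of_support_subset (s := T) _ (by
      intro σ hσ
      by_contra hc
      apply Finsupp.mem_support_iff.1 hσ
      rw [hval]
      refine Finset.sum_eq_zero fun j hj => ?_
      rw [Finsupp.notMem_support_iff.1 fun h => hc (hT j hj h), map_zero]) _
      (fun i _ => map_zero _)]
    have h1 : ∀ σ ∈ T, N.act (X.c σ τ) ((∑ j ∈ S, Finsupp.mapRange.linearMap (φ j) (b j)) σ) =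
        ∑ j ∈ S, φ j (U.act (X.c σ τ) (b j σ)) := by
      intro σ _
      rw [hval, map_sum]
      refine Finset.sum_congr rfl fun j _ => ?_
      by_cases hs : (X.s σ : ℤ) = k + 1
      · rw [hφ]
        have := X.c_mem σ τ
        rwa [hs, hτ, show k + 1 - k - 1 = 0 by ring] at this
      · rw [hb2 j σ hs, map_zero, map_zero, map_zero, map_zero]
    rw [Finset.sum_congr rfl h1, Finset.sum_comm]
    have h2 : ∀ j ∈ S, ∑ σ ∈ T, φ j (U.act (X.c σ τ) (b j σ)) = φ j (e (a τ) j) := by
      intro j hj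
      rw [hb3 j τ hτ, ← map_sum,
        Finsupp.sum_of_support_subset (s := T) _ (hT j hj) _ (fun i _ => map_zero _)]
    rw [Finset.sum_congr rfl h2]
    symm
    by_cases hσ : τ ∈ a.support
    · exact hsum (a τ) S (Finset.subset_biUnion_of_mem (fun σ => (e (a σ)).support) hσ)
    · rw [Finsupp.notMem_support_iff.1 hσ]
      simp

/-- extension -/
theorem ext (N' N N'' : HMod A) (i : N'.N →ₗ[K] N.N) (p : N.N →ₗ[K] N''.N)
    (hi : ∀ a ∈ A.G 0, ∀ x, i (N'.act a x) = N.act a (i x))
    (hp : ∀ a ∈ A.G 0, ∀ x, p (N.act a x) = N''.act a (p x))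
    (inj : Function.Injective i) (ker : ∀ x, p x = 0 → ∃ y, i y = x)
    (sur : Function.Surjective p)
    (X : LCells A) (k : ℤ) (h' : TAc N' X k) (h'' : TAc N'' X k) : TAc N X k := by
  classical
  intro a ha1 ha2 ha3
  obtain ⟨b2, hb1, hb2, hb3⟩ := h'' (Finsupp.mapRange.linearMap p a) (by
      intro σ
      show N''.act (X.e σ) (p (a σ)) = p (a σ)
      rw [← hp _ (X.e_mem σ), ha1]) (by
      intro σ hσ
      show p (a σ) = 0
      rw [ha2 σ hσ, map_zero]) (by
      intro τ hτ
      rw [sum_mr p (fun σ => N''.act (X.c σ τ)) a]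
      have h := congrArg p (ha3 τ hτ)
      rw [map_zero, Finsupp.sum, map_sum] at h
      rw [← h]
      refine Finset.sum_congr rfl fun σ hσ => ?_
      show N''.act (X.c σ τ) (p (a σ)) = _
      rw [hp]
      have hs : (X.s σ : ℤ) = k := by
        by_contra hc
        exact (Finsupp.mem_support_iff.1 hσ) (ha2 σ hc)
      have := X.c_mem σ τ
      rwa [hs, hτ, show k - (k - 1) - 1 = 0 by ring] at this)
  -- lift
  have hl : ∀ σ, ∃ y : N.N, N.act (X.e σ) y = y ∧ p y = b2 σ := by
    intro σ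
    obtain ⟨y, hy⟩ := sur (b2 σ)
    refine ⟨N.act (X.e σ) y, ?_, ?_⟩
    · rw [← N.act_mul (X.e_mem σ) (X.e_mem σ), X.e_idem]
    · rw [hp _ (X.e_mem σ), hy, hb1]
  choose g hg1 hg2 using hl
  let b1 : X.ι →₀ N.N := Finsupp.onFinset b2.support (fun σ => if σ ∈ b2.support then g σ else 0)
    fun σ h => by
      by_contra hc
      exact h (if_neg hc)
  have hb1v : ∀ σ, b1 σ = if σ ∈ b2.support then g σ else 0 := fun σ => rfl
  have hb1s : b1.support ⊆ b2.support := Finsupp.support_onFinset_subset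
  have hb1e : ∀ σ, N.act (X.e σ) (b1 σ) = b1 σ := by
    intro σ
    rw [hb1v]
    split_ifs
    · exact hg1 σ
    · exact map_zero _
  have hb1l : ∀ σ, (X.s σ : ℤ) ≠ k + 1 → b1 σ = 0 := by
    intro σ hσ
    rw [hb1v, if_neg]
    exact fun h => Finsupp.mem_support_iff.1 h (hb2 σ hσ)
  have hb1p : ∀ σ, p (b1 σ) = b2 σ := by
    intro σ
    rw [hb1v]
    split_ifs with h
    · exact hg2 σ
    · rw [map_zero, Finsupp.notMem_support_iff.1 h]
  have hlev : ∀ σ ∈ b1.support, (X.s σ : ℤ) = k + 1 := fun σ hσ => by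
    by_contra hc
    exact (Finsupp.mem_support_iff.1 hσ) (hb1l σ hc)
  have hc0 : ∀ σ ∈ b1.support, ∀ τ, (X.s τ : ℤ) = k → X.c σ τ ∈ A.G 0 := fun σ hσ τ hτ => by
    have := X.c_mem σ τ
    rwa [hlev σ hσ, hτ, show k + 1 - k - 1 = 0 by ring] at this
  -- the rest
  let r : X.ι → N.N := fun τ => a τ - ∑ σ ∈ b1.support, N.act (X.c σ τ) (b1 σ)
  have hr0 : ∀ τ, (X.s τ : ℤ) = k → p (r τ) = 0 := by
    intro τ hτ
    show p (a τ - ∑ σ ∈ b1.support, N.act (X.c σ τ) (b1 σ)) = 0
    rw [map_sub, map_sum, sub_eq_zero]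
    have h := hb3 τ hτ
    rw [sum_ss (fun σ => N''.act (X.c σ τ)) b2 b2.support (Finset.Subset.refl _)] at h
    refine Eq.trans h ?_
    rw [Finset.sum_subset hb1s (f := fun σ => p (N.act (X.c σ τ) (b1 σ)))]
    · refine Finset.sum_congr rfl fun σ hσ => ?_
      rw [hp, hb1p]
      have hs : (X.s σ : ℤ) = k + 1 := by
        by_contra hc
        exact (Finsupp.mem_support_iff.1 hσ) (hb2 σ hc)
      have := X.c_mem σ τ
      rwa [hs, hτ, show k + 1 - k - 1 = 0 by ring] at this
    · intro σ _ hσ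
      rw [Finsupp.notMem_support_iff.1 hσ, map_zero, map_zero]
  have hr1 : ∀ τ, (X.s τ : ℤ) = k → ∃ y, i y = r τ := fun τ hτ => ker _ (hr0 τ hτ)
  let a'f : X.ι → N'.N := fun τ => if h : (X.s τ : ℤ) = k then Classical.choose (hr1 τ h) else 0
  have ha'v : ∀ τ, (X.s τ : ℤ) = k → i (a'f τ) = r τ := by
    intro τ hτ
    simp only [a'f, dif_pos hτ]
    exact Classical.choose_spec (hr1 τ hτ)
  have ha'0 : ∀ τ, (X.s τ : ℤ) ≠ k → a'f τ = 0 := fun τ hτ => by simp only [a'f, dif_neg hτ]
  let a' : X.ι →₀ N'.N := Finsupp.onFinset (X.F k.toNat) a'f fun τ h => by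
    have hk : (X.s τ : ℤ) = k := by
      by_contra hc
      exact h (ha'0 τ hc)
    exact (X.mem_F _ _).2 (by omega)
  have ha' : ∀ τ, a' τ = a'f τ := fun _ => rfl
  have her : ∀ τ, (X.s τ : ℤ) = k → N.act (X.e τ) (r τ) = r τ := by
    intro τ hτ
    show N.act (X.e τ) (a τ - ∑ σ ∈ b1.support, N.act (X.c σ τ) (b1 σ)) = _
    rw [map_sub, ha1, map_sum]
    congr 1
    refine Finset.sum_congr rfl fun σ hσ => ?_
    rw [← N.act_mul (hc0 σ hσ τ hτ) (X.e_mem τ), X.c_right]
  obtain ⟨b', hb'1, hb'2, hb'3⟩ := h' a' (by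
      intro τ
      rw [ha']
      by_cases hτ : (X.s τ : ℤ) = k
      · apply inj
        rw [hi _ (X.e_mem τ), ha'v τ hτ, her τ hτ]
      · rw [ha'0 τ hτ, map_zero]) (fun τ hτ => ha'0 τ hτ) (by
      intro ρ hρ
      apply inj
      have hsub : a'.support ⊆ X.F k.toNat := Finsupp.support_onFinset_subset
      rw [sum_ss (fun σ => N'.act (X.c σ ρ)) a' _ hsub, map_sum, map_zero]
      have h1 : ∀ τ ∈ X.F k.toNat, i (N'.act (X.c τ ρ) (a' τ)) =
          N.act (X.c τ ρ) (a τ) - if (X.s τ : ℤ) = k then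
            ∑ σ ∈ b1.support, N.act (X.c τ ρ) (N.act (X.c σ τ) (b1 σ)) else 0 := by
        intro τ _
        rw [ha']
        split_ifs with hτ
        · rw [hi, ha'v τ hτ]
          · show N.act (X.c τ ρ) (a τ - ∑ σ ∈ b1.support, N.act (X.c σ τ) (b1 σ)) = _
            rw [map_sub, map_sum]
          · have := X.c_mem τ ρ
            rwa [hτ, hρ, show k - (k - 1) - 1 = 0 by ring] at this
        · rw [ha'0 τ hτ, ha2 τ hτ]
          simp
      rw [Finset.sum_congr rfl h1, Finset.sum_sub_distrib]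
      have h2 : ∑ τ ∈ X.F k.toNat, N.act (X.c τ ρ) (a τ) = 0 := by
        rw [← ha3 ρ hρ]
        refine (sum_ss (fun σ => N.act (X.c σ ρ)) a _ ?_).symm
        intro τ hτ
        have hk : (X.s τ : ℤ) = k := by
          by_contra hc
          exact (Finsupp.mem_support_iff.1 hτ) (ha2 τ hc)
        exact (X.mem_F _ _).2 (by omega)
      rw [h2, zero_sub, neg_eq_zero]
      rw [← Finset.sum_filter, Finset.sum_comm]
      refine Finset.sum_eq_zero fun σ hσ => ?_
      have hσl := hlev σ hσ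
      have h3 : ∀ τ ∈ (X.F k.toNat).filter (fun τ => (X.s τ : ℤ) = k),
          N.act (X.c τ ρ) (N.act (X.c σ τ) (b1 σ)) = N.act (X.c σ τ * X.c τ ρ) (b1 σ) := by
        intro τ hτ
        have hτl := (Finset.mem_filter.1 hτ).2
        have hc := X.c_mem τ ρ
        rw [hτl, hρ, show k - (k - 1) - 1 = 0 by ring] at hc
        rw [N.act_mul (hc0 σ hσ τ hτl) hc]
      rw [Finset.sum_congr rfl h3, ← LinearMap.sum_apply, ← N.act_sum]
      · have h4 : ∑ τ ∈ (X.F k.toNat).filter (fun τ => (X.s τ : ℤ) = k), X.c σ τ * X.c τ ρ =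
            ∑ τ ∈ X.F (X.s σ), X.c σ τ * X.c τ ρ := by
          refine Finset.sum_subset ?_ ?_
          · intro τ hτ
            have hτl := (Finset.mem_filter.1 hτ).2
            exact (X.mem_F _ _).2 (by omega)
          · intro τ _ hτ
            have hne : (X.s τ : ℤ) ≠ k := by
              intro hc
              exact hτ (Finset.mem_filter.2 ⟨(X.mem_F _ _).2 (by omega), hc⟩)
            rcases lt_or_gt_of_ne hne with hlt | hgt
            · rw [LCells.c_zero (σ := τ) (τ := ρ) (by omega), mul_zero]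
            · rw [LCells.c_zero (σ := σ) (τ := τ) (by omega), zero_mul]
        have h5 := X.mc σ ρ
        rw [h4, eq_neg_of_add_eq_zero_right h5]
        have h6 : -A.D (X.c σ ρ) = A.D (-X.c σ ρ) := (map_neg _ _).symm
        rw [h6, N.act_D]
        · rfl
        · have := X.c_mem σ ρ
          rw [hσl, hρ, show k + 1 - (k - 1) - 1 = 1 by ring] at this
          exact Submodule.neg_mem _ this
      · intro τ hτ
        have hτl := (Finset.mem_filter.1 hτ).2
        have hc := X.c_mem τ ρ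
        rw [hτl, hρ, show k - (k - 1) - 1 = 0 by ring] at hc
        have := A.mul_mem (hc0 σ hσ τ hτl) hc
        rwa [add_zero] at this)
  refine ⟨b1 + Finsupp.mapRange.linearMap i b', ?_, ?_, ?_⟩
  · intro σ
    show N.act (X.e σ) (b1 σ + i (b' σ)) = b1 σ + i (b' σ)
    rw [map_add, hb1e, ← hi _ (X.e_mem σ), hb'1]
  · intro σ hσ
    show b1 σ + i (b' σ) = 0
    rw [hb1l σ hσ, hb'2 σ hσ, map_zero, add_zero]
  · intro τ hτ
    rw [Finsupp.sum_add_index' (fun _ => map_zero _) (fun _ _ _ => map_add _ _ _),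
      sum_mr i (fun σ => N.act (X.c σ τ)) b',
      sum_ss (fun σ => N.act (X.c σ τ)) b1 b1.support (Finset.Subset.refl _)]
    have h1 : ∑ σ ∈ b'.support, N.act (X.c σ τ) (i (b' σ)) = i (a' τ) := by
      rw [hb'3 τ hτ, sum_ss (fun σ => N'.act (X.c σ τ)) b' b'.support (Finset.Subset.refl _),
        map_sum]
      refine Finset.sum_congr rfl fun σ hσ => ?_
      rw [hi]
      have hs : (X.s σ : ℤ) = k + 1 := by
        by_contra hc
        exact (Finsupp.mem_support_iff.1 hσ) (hb'2 σ hc)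
      have := X.c_mem σ τ
      rwa [hs, hτ, show k + 1 - k - 1 = 0 by ring] at this
    rw [h1, ha', ha'v τ hτ]
    show a τ = ∑ σ ∈ b1.support, N.act (X.c σ τ) (b1 σ) +
      (a τ - ∑ σ ∈ b1.support, N.act (X.c σ τ) (b1 σ))
    abel

end Crest.Agent.R186.V2b981
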