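import Crest.Agent.R186.V_510

/-!
Row 186, half (A), leaf (V2) of the short road (helper510): right modules over `H_0(A)` and the
complexes `M ⊗ X` in one row; homology modules of a right dg module.
-/

set_option autoImplicit false
set_option linter.style.haveILetI false
set_option linter.unusedSectionVars false
set_option linter.unusedSimpArgs false

open MulOpposite

namespace Crest.Agent.R186.V2d510

open Hat827 Hat827.DGA Frame515 V510

variable {K : Type} [Field K] {A : DGA K}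

/-- a right module over `H_0(A) = A_0 / D A_1` -/
structure HMod (A : DGA K) where
  N : Type
  [grp : AddCommGroup N]
  [mod : Module K N]
  act : A.C → (N →ₗ[K] N)
  act_one : act 1 = LinearMap.id
  act_add : ∀ {a b : A.C}, a ∈ A.G 0 → b ∈ A.G 0 → act (a + b) = act a + act b
  act_smul : ∀ (r : K) {a : A.C}, a ∈ A.G 0 → act (r • a) = r • act a
  act_mul : ∀ {a b : A.C}, a ∈ A.G 0 → b ∈ A.G 0 → ∀ x, act (a * b) x = act b (act a x)
  act_D : ∀ {a : A.C}, a ∈ A.G 1 → act (A.D a) = 0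

attribute [instance] HMod.grp HMod.mod

/-- `M ⊗ X` is acyclic in degree `k` -/
def TAc (M : HMod A) (X : LCells A) (k : ℤ) : Prop :=
  ∀ a : X.ι →₀ M.N, (∀ σ, M.act (X.e σ) (a σ) = a σ) → (∀ σ, (X.s σ : ℤ) ≠ k → a σ = 0) →
    (∀ τ, (X.s τ : ℤ) = k - 1 → (a.sum fun σ x => M.act (X.c σ τ) x) = 0) →
    ∃ b : X.ι →₀ M.N, (∀ σ, M.act (X.e σ) (b σ) = b σ) ∧
      (∀ σ, (X.s σ : ℤ) ≠ k + 1 → b σ = 0) ∧
      ∀ τ, (X.s τ : ℤ) = k → a τ = b.sum fun σ x => M.act (X.c σ τ) x

namespace HMod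

variable (M : HMod A)

theorem act_zero : M.act 0 = 0 := by
  have := M.act_smul 0 A.one_mem
  rwa [zero_smul, zero_smul] at this

theorem act_sum {ι : Type} (S : Finset ι) (f : ι → A.C) (hf : ∀ i ∈ S, f i ∈ A.G 0) :
    M.act (∑ i ∈ S, f i) = ∑ i ∈ S, M.act (f i) := by
  classical
  induction S using Finset.induction_on with
  | empty => rw [Finset.sum_empty, Finset.sum_empty, M.act_zero]
  | insert i S hi ih =>
    rw [Finset.sum_insert hi, Finset.sum_insert hi, M.act_add (hf i (Finset.mem_insert_self i S))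
      (Submodule.sum_mem _ fun j hj => hf j (Finset.mem_insert_of_mem hj)),
      ih fun j hj => hf j (Finset.mem_insert_of_mem hj)]

theorem two (x : M.N) : x + x = 0 := by
  have h : M.act ((1 : A.C) + 1) = M.act 1 + M.act 1 := M.act_add A.one_mem A.one_mem
  rw [A.two, M.act_zero, M.act_one] at h
  exact (LinearMap.congr_fun h x).symm

/-- the composite of two steps -/
theorem act_cc (X : LCells A) (σ τ : X.ι) (h : X.s σ = X.s τ + 2) (S : Finset X.ι)
    (hS : ∀ ρ, X.s ρ = X.s τ + 1 → ρ ∈ S) (x : M.N) :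
    (∑ ρ ∈ S.filter (fun ρ => X.s ρ = X.s τ + 1), M.act (X.c ρ τ) (M.act (X.c σ ρ) x)) = 0 := by
  classical
  have h1 : ∀ ρ, X.s ρ = X.s τ + 1 → X.c σ ρ ∈ A.G 0 ∧ X.c ρ τ ∈ A.G 0 := by
    intro ρ hρ
    refine ⟨?_, ?_⟩
    · have := X.c_mem σ ρ
      rwa [show (X.s σ : ℤ) - X.s ρ - 1 = 0 by omega] at this
    · have := X.c_mem ρ τ
      rwa [show (X.s ρ : ℤ) - X.s τ - 1 = 0 by omega] at this
  have h2 : ∑ ρ ∈ X.F (X.s σ), X.c σ ρ * X.c ρ τ =
      ∑ ρ ∈ S.filter (fun ρ => X.s ρ = X.s τ + 1), X.c σ ρ * X.c ρ τ := by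
    have h3 : ∀ ρ, X.s ρ ≠ X.s τ + 1 → X.c σ ρ * X.c ρ τ = 0 := by
      intro ρ hρ
      by_cases h4 : X.s σ ≤ X.s ρ
      · rw [X.c_zero h4, zero_mul]
      · rw [X.c_zero (show X.s ρ ≤ X.s τ by omega), mul_zero]
    rw [← Finset.sum_filter_add_sum_filter_not (X.F (X.s σ)) (fun ρ => X.s ρ = X.s τ + 1),
      Finset.sum_eq_zero (s := (X.F (X.s σ)).filter _) (f := fun ρ => X.c σ ρ * X.c ρ τ)
        (fun ρ hρ => h3 ρ (Finset.mem_filter.1 hρ).2), add_zero]
    refine Finset.sum_congr ?_ fun _ _ => rfl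
    ext ρ
    rw [Finset.mem_filter, Finset.mem_filter]
    refine ⟨fun h => ⟨hS ρ h.2, h.2⟩, fun h => ⟨(X.mem_F _ _).2 (by omega), h.2⟩⟩
  have h5 : (∑ ρ ∈ S.filter (fun ρ => X.s ρ = X.s τ + 1), M.act (X.c ρ τ) (M.act (X.c σ ρ) x)) =
      M.act (∑ ρ ∈ X.F (X.s σ), X.c σ ρ * X.c ρ τ) x := by
    rw [h2, M.act_sum _ _ fun ρ hρ => by
      have := h1 ρ (Finset.mem_filter.1 hρ).2
      simpa using A.mul_mem this.1 this.2, LinearMap.sum_apply]
    refine Finset.sum_congr rfl fun ρ hρ => ?_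
    have := h1 ρ (Finset.mem_filter.1 hρ).2
    rw [M.act_mul this.1 this.2]
  have h6 : ∑ ρ ∈ X.F (X.s σ), X.c σ ρ * X.c ρ τ = A.D (X.c σ τ) := by
    have h7 := X.mc σ τ
    have h8 := A.two (A.D (X.c σ τ))
    exact add_left_cancel (h7.trans h8.symm)
  have h9 : X.c σ τ ∈ A.G 1 := by
    have := X.c_mem σ τ
    rwa [show (X.s σ : ℤ) - X.s τ - 1 = 1 by omega] at this
  rw [h5, h6, M.act_D h9, LinearMap.zero_apply]

end HMod

/-! ### the homology modules of a right dg module -/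

/-- cycles -/
def Zn (G : GC K) (n : ℤ) : Submodule K G.X := G.gr n ⊓ LinearMap.ker G.d

/-- boundaries -/
def Bn (G : GC K) (n : ℤ) : Submodule K G.X := (G.gr (n + 1)).map G.d

theorem mem_Zn {G : GC K} {n : ℤ} {x : G.X} : x ∈ Zn G n ↔ x ∈ G.gr n ∧ G.d x = 0 := by
  rw [Zn, Submodule.mem_inf, LinearMap.mem_ker]

theorem mem_Bn {G : GC K} {n : ℤ} {x : G.X} : x ∈ Bn G n ↔ ∃ g ∈ G.gr (n + 1), x = G.d g := by
  rw [Bn, Submodule.mem_map]
  exact ⟨fun ⟨g, h1, h2⟩ => ⟨g, h1, h2.symm⟩, fun ⟨g, h1, h2⟩ => ⟨g, h1, h2.symm⟩⟩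

section hn

variable (G : RM A) (n : ℤ)

theorem smul_Zn {a : A.C} (ha : a ∈ A.G 0) {x : G.X} (hx : x ∈ Zn G.toGC n) :
    op a • x ∈ Zn G.toGC n := by
  rw [mem_Zn] at hx ⊢
  refine ⟨?_, ?_⟩
  · have := G.smul_mem ha hx.1
    rwa [zero_add] at this
  · rw [G.leib, D_neg ha (by omega), op_zero, zero_smul, hx.2, smul_zero, add_zero]

theorem smul_Bn {a : A.C} (ha : a ∈ A.G 0) {x : G.X} (hx : x ∈ Bn G.toGC n) :
    op a • x ∈ Bn G.toGC n := by
  rw [mem_Bn] at hx ⊢
  obtain ⟨g, hg, rfl⟩ := hx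
  refine ⟨op a • g, ?_, ?_⟩
  · have := G.smul_mem ha hg
    rwa [zero_add] at this
  · rw [G.leib, D_neg ha (by omega), op_zero, zero_smul, zero_add]

/-- boundaries inside the cycles -/
def BZ : Submodule K (Zn G.toGC n) := (Bn G.toGC n).comap (Zn G.toGC n).subtype

/-- `H_n(G)` -/
abbrev Hn : Type := Zn G.toGC n ⧸ BZ G n

/-- the class of a cycle -/
def cl : Zn G.toGC n →ₗ[K] Hn G n := (BZ G n).mkQ

theorem cl_zero {x : Zn G.toGC n} : cl G n x = 0 ↔ ∃ g ∈ G.gr (n + 1), (x : G.X) = G.d g := by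
  rw [cl, Submodule.mkQ_apply, Submodule.Quotient.mk_eq_zero, BZ, Submodule.mem_comap]
  exact mem_Bn

theorem cl_surj (y : Hn G n) : ∃ x, cl G n x = y := Submodule.mkQ_surjective _ y

/-- the action on cycles -/
def actZ (a : A.C) (ha : a ∈ A.G 0) : Zn G.toGC n →ₗ[K] Zn G.toGC n :=
  (rmul G a).restrict fun _ hx => smul_Zn G n ha hx

/-- the action on homology -/
noncomputable def actH (a : A.C) (ha : a ∈ A.G 0) : Hn G n →ₗ[K] Hn G n :=
  (BZ G n).mapQ (BZ G n) (actZ G n a ha) fun _ hx => smul_Bn G n ha hx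

theorem actH_cl (a : A.C) (ha : a ∈ A.G 0) (x : Zn G.toGC n) :
    actH G n a ha (cl G n x) = cl G n ⟨op a • (x : G.X), smul_Zn G n ha x.2⟩ := rfl

open Classical in
/-- the action -/
noncomputable def actN (a : A.C) : Hn G n →ₗ[K] Hn G n :=
  if ha : a ∈ A.G 0 then actH G n a ha else 0

theorem actN_cl {a : A.C} (ha : a ∈ A.G 0) (x : Zn G.toGC n) :
    actN G n a (cl G n x) = cl G n ⟨op a • (x : G.X), smul_Zn G n ha x.2⟩ := by
  rw [actN, dif_pos ha, actH_cl]

/-- the homology module `H_n(G)` -/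
noncomputable def hn : HMod A where
  N := Hn G n
  act := actN G n
  act_one := by
    ext x
    refine (actN_cl G n A.one_mem x).trans ?_
    change cl G n _ = cl G n x
    congr 1
    exact Subtype.ext (show op (1 : A.C) • (x : G.X) = x by rw [op_one, one_smul])
  act_add := by
    intro a b ha hb
    ext x
    refine (actN_cl G n (Submodule.add_mem _ ha hb) x).trans ?_
    change _ = actN G n a (cl G n x) + actN G n b (cl G n x)
    rw [actN_cl G n ha, actN_cl G n hb, ← map_add]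
    congr 1
    exact Subtype.ext (show op (a + b) • (x : G.X) = op a • (x : G.X) + op b • (x : G.X) by
      rw [op_add, add_smul])
  act_smul := by
    intro r a ha
    ext x
    refine (actN_cl G n (Submodule.smul_mem _ r ha) x).trans ?_
    change _ = r • actN G n a (cl G n x)
    rw [actN_cl G n ha, ← map_smul]
    congr 1
    exact Subtype.ext (show op (r • a) • (x : G.X) = r • op a • (x : G.X) by
      rw [op_smul, smul_assoc])
  act_mul := by
    intro a b ha hb y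
    obtain ⟨x, rfl⟩ := cl_surj G n y
    have hab : a * b ∈ A.G 0 := by simpa using A.mul_mem ha hb
    rw [actN_cl G n hab, actN_cl G n ha, actN_cl G n hb]
    congr 1
    exact Subtype.ext (show op (a * b) • (x : G.X) = op b • op a • (x : G.X) by
      rw [op_mul, mul_smul])
  act_D := by
    intro a ha
    ext x
    have hD : A.D a ∈ A.G 0 := by simpa using A.D_mem ha
    refine (actN_cl G n hD x).trans ?_
    change _ = (0 : Hn G n)
    rw [cl_zero]
    refine ⟨op a • (x : G.X), ?_, ?_⟩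
    · have := G.smul_mem ha (mem_Zn.1 x.2).1
      rwa [add_comm] at this
    · rw [G.leib, (mem_Zn.1 x.2).2, smul_zero, add_zero]

theorem hn_act {a : A.C} (ha : a ∈ A.G 0) (x : Zn G.toGC n) :
    (hn G n).act a (cl G n x) = cl G n ⟨op a • (x : G.X), smul_Zn G n ha x.2⟩ :=
  actN_cl G n ha x

end hn

/-- the class of a sum -/
theorem cl_sum (G : RM A) (n : ℤ) {ι : Type} (S : Finset ι) (f : ι → G.X)
    (hf : ∀ i, f i ∈ Zn G.toGC n) :
    (∑ i ∈ S, cl G n ⟨f i, hf i⟩) =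
      cl G n ⟨∑ i ∈ S, f i, Submodule.sum_mem _ fun i _ => hf i⟩ := by
  rw [← map_sum]
  congr 1
  exact Subtype.ext (by simp)

/-- acyclicity of `H_n(G) ⊗ X` in the module form gives the elementwise form -/
theorem ht_of_tac (G : RM A) (X : LCells A) (n k : ℤ) (h : TAc (hn G n) X (k - n)) :
    HT G X n k := by
  classical
  intro a ha ha0 hcyc
  have haZ : ∀ σ, a σ ∈ Zn G.toGC n := fun σ => mem_Zn.2 ⟨(ha σ).1, (ha σ).2.1⟩
  let a' : X.ι →₀ Hn G n := Finsupp.onFinset a.support (fun σ => cl G n ⟨a σ, haZ σ⟩) fun σ hσ => by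
    rw [Finsupp.mem_support_iff]
    intro h0
    apply hσ
    have : (⟨a σ, haZ σ⟩ : Zn G.toGC n) = 0 := Subtype.ext h0
    rw [this, map_zero]
  have ha' : ∀ σ, a' σ = cl G n ⟨a σ, haZ σ⟩ := fun σ => rfl
  have H1 : ∀ σ, (hn G n).act (X.e σ) (a' σ) = a' σ := by
    intro σ
    rw [ha']
    refine (hn_act G n (X.e_mem σ) _).trans ?_
    congr 1
    exact Subtype.ext (ha σ).2.2
  have H2 : ∀ σ, (X.s σ : ℤ) ≠ k - n → a' σ = 0 := by
    intro σ hσ
    rw [ha']
    have : (⟨a σ, haZ σ⟩ : Zn G.toGC n) = 0 := Subtype.ext (ha0 σ hσ)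
    rw [this, map_zero]
  have H3 : ∀ τ, (X.s τ : ℤ) = k - n - 1 → (a'.sum fun σ x => (hn G n).act (X.c σ τ) x) = 0 := by
    intro τ hτ
    obtain ⟨g, hg, hge⟩ := hcyc τ (by omega)
    have hc : ∀ σ, op (X.c σ τ) • a σ ∈ Zn G.toGC n := by
      intro σ
      by_cases h3 : (X.s σ : ℤ) = k - n
      · refine smul_Zn G n ?_ (haZ σ)
        have := X.c_mem σ τ
        rwa [show (X.s σ : ℤ) - X.s τ - 1 = 0 by omega] at this
      · rw [ha0 σ h3, smul_zero]
        exact Submodule.zero_mem _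
    have h8 : (a'.sum fun σ x => (hn G n).act (X.c σ τ) x) =
        ∑ σ ∈ a.support, (hn G n).act (X.c σ τ) (a' σ) :=
      Finsupp.sum_of_support_subset a' (Finsupp.support_onFinset_subset) _ fun σ _ => map_zero _
    have h4 : ∑ σ ∈ a.support, (hn G n).act (X.c σ τ) (a' σ) =
        ∑ σ ∈ a.support, cl G n ⟨op (X.c σ τ) • a σ, hc σ⟩ := by
      refine Finset.sum_congr rfl fun σ hσ => ?_
      have h3 : (X.s σ : ℤ) = k - n := by
        by_contra h5
        exact (Finsupp.mem_support_iff.1 hσ) (ha0 σ h5)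
      have h6 : X.c σ τ ∈ A.G 0 := by
        have := X.c_mem σ τ
        rwa [show (X.s σ : ℤ) - X.s τ - 1 = 0 by omega] at this
      exact hn_act G n h6 ⟨a σ, haZ σ⟩
    rw [h8, h4, cl_sum]
    exact (cl_zero G n).2 ⟨g, hg, hge⟩
  obtain ⟨b', hb1, hb2, hb3⟩ := h a' H1 H2 H3
  have hlift : ∀ σ, ∃ y : G.X, ∃ hy : y ∈ Zn G.toGC n, op (X.e σ) • y = y ∧
      cl G n ⟨y, hy⟩ = b' σ ∧ (b' σ = 0 → y = 0) := by
    intro σ
    by_cases h0 : b' σ = 0
    · refine ⟨0, Submodule.zero_mem _, smul_zero _, ?_, fun _ => rfl⟩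
      rw [h0]
      exact map_zero (cl G n)
    · obtain ⟨y, hy⟩ := cl_surj G n (b' σ)
      refine ⟨op (X.e σ) • (y : G.X), smul_Zn G n (X.e_mem σ) y.2, ?_, ?_, fun h => absurd h h0⟩
      · rw [smul_smul, ← op_mul, X.e_idem]
      · have := hn_act G n (X.e_mem σ) y
        rw [← this, hy]
        exact hb1 σ
  choose b0 hbZ hbe hbc hb00 using hlift
  let b : X.ι →₀ G.X := Finsupp.onFinset b'.support b0 fun σ hσ => by
    rw [Finsupp.mem_support_iff]
    intro h0
    exact hσ (hb00 σ h0)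
  have hb : ∀ σ, b σ = b0 σ := fun σ => rfl
  refine ⟨b, ?_, ?_, ?_⟩
  · intro σ
    rw [hb]
    exact ⟨(mem_Zn.1 (hbZ σ)).1, (mem_Zn.1 (hbZ σ)).2, hbe σ⟩
  · intro σ hσ
    rw [hb]
    exact hb00 σ (hb2 σ (by omega))
  · intro τ hτ
    have h1 := hb3 τ hτ
    have h2 : (b'.sum fun σ x => (hn G n).act (X.c σ τ) x) =
        ∑ σ ∈ b'.support, (hn G n).act (X.c σ τ) (b' σ) := rfl
    have hc : ∀ σ, op (X.c σ τ) • b σ ∈ Zn G.toGC n := by
      intro σ
      by_cases h3 : (X.s σ : ℤ) = k - n + 1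
      · refine smul_Zn G n ?_ (hbZ σ)
        have := X.c_mem σ τ
        rwa [show (X.s σ : ℤ) - X.s τ - 1 = 0 by omega] at this
      · rw [hb, hb00 σ (hb2 σ (by omega)), smul_zero]
        exact Submodule.zero_mem _
    have h4 : ∑ σ ∈ b'.support, (hn G n).act (X.c σ τ) (b' σ) =
        ∑ σ ∈ b'.support, cl G n ⟨op (X.c σ τ) • b σ, hc σ⟩ := by
      refine Finset.sum_congr rfl fun σ hσ => ?_
      have h3 : (X.s σ : ℤ) = k - n + 1 := by
        by_contra h5
        exact (Finsupp.mem_support_iff.1 hσ) (hb2 σ (by omega))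
      have h6 : X.c σ τ ∈ A.G 0 := by
        have := X.c_mem σ τ
        rwa [show (X.s σ : ℤ) - X.s τ - 1 = 0 by omega] at this
      have := hn_act G n h6 ⟨b0 σ, hbZ σ⟩
      rw [hbc σ] at this
      exact this
    rw [h2, h4, cl_sum] at h1
    have h7 : cl G n (⟨a τ, haZ τ⟩ - ⟨∑ σ ∈ b'.support, op (X.c σ τ) • b σ,
        Submodule.sum_mem _ fun i _ => hc i⟩) = 0 := by
      rw [map_sub, ← h1]
      exact sub_self _
    rw [cl_zero] at h7
    obtain ⟨g, hg, hge⟩ := h7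
    refine ⟨g, hg, ?_⟩
    rw [← hge]
    have h8 : (b.sum fun σ x => op (X.c σ τ) • x) = ∑ σ ∈ b'.support, op (X.c σ τ) • b σ := by
      refine Finsupp.sum_of_support_subset b (Finsupp.support_onFinset_subset) _ fun σ _ =>
        smul_zero _
    rw [h8]
    change a τ = _ + (a τ - _)
    rw [add_sub_cancel]

/-! ### right dg modules in degree zero -/

/-- a right dg module in degree `0` -/
structure Deg0 (U : RM A) : Prop where
  top : ∀ x : U.X, x ∈ U.gr 0
  bot : ∀ k : ℤ, k ≠ 0 → ∀ x ∈ U.gr k, x = 0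

/-- the module over `H_0(A)` of a right dg module in degree `0` -/
noncomputable def hm (U : RM A) (hU : Deg0 U) : HMod A where
  N := U.X
  act a := rmul U a
  act_one := by
    ext x
    change op (1 : A.C) • x = x
    rw [op_one, one_smul]
  act_add := by
    intro a b _ _
    ext x
    change op (a + b) • x = op a • x + op b • x
    rw [op_add, add_smul]
  act_smul := by
    intro r a _
    ext x
    change op (r • a) • x = r • op a • x
    rw [op_smul, smul_assoc]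
  act_mul := by
    intro a b _ _ x
    change op (a * b) • x = op b • op a • x
    rw [op_mul, mul_smul]
  act_D := by
    intro a ha
    ext x
    change op (A.D a) • x = 0
    have h1 := U.leib a x
    have h2 : op a • x = 0 := hU.bot 1 one_ne_zero _ (by
      have := U.smul_mem ha (hU.top x)
      rwa [add_zero] at this)
    have h3 : U.d x = 0 := hU.bot (-1) (by omega) _ (by
      have := U.d_mem (hU.top x)
      rwa [zero_sub] at this)
    rw [h2, map_zero, h3, smul_zero, add_zero] at h1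
    exact h1.symm

/-- acyclicity of `U ⊗ X` for a module in degree `0` -/
theorem tac_of_ac (U : RM A) (hU : Deg0 U) (X : LCells A) (k : ℤ) (h : AcAt (tG U X) k) :
    TAc (hm U hU) X k := by
  classical
  intro a ha ha0 hcyc
  have ha2 : ∀ σ, (show U.X from a σ) ∈ U.gr (k - X.s σ) := by
    intro σ
    by_cases h1 : (X.s σ : ℤ) = k
    · rw [h1, sub_self]; exact hU.top _
    · have := ha0 σ h1
      change (show U.X from a σ) ∈ U.gr (k - X.s σ)
      rw [this]; exact Submodule.zero_mem _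
  have hd0 : ∀ x : U.X, U.d x = 0 := fun x => hU.bot (-1) (by omega) _ (by
      have := U.d_mem (hU.top x)
      rwa [zero_sub] at this)
  have hpos : ∀ (j : ℤ) (c : A.C), c ∈ A.G j → j ≠ 0 → ∀ x : U.X, op c • x = 0 := by
    intro j c hc hj x
    refine hU.bot j hj _ ?_
    have := U.smul_mem hc (hU.top x)
    rwa [add_zero] at this
  obtain ⟨y, hy, hye⟩ := h (show X.ι →₀ U.X from a) (fun σ => ⟨ha2 σ, ha σ⟩) (by
    refine Finsupp.ext fun τ => ?_
    refine ((twG U X).dd_apply (show X.ι →₀ U.X from a) τ).trans ?_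
    rw [hd0, zero_add, Finsupp.zero_apply]
    by_cases h1 : (X.s τ : ℤ) = k - 1
    · exact hcyc τ h1
    · refine Finset.sum_eq_zero fun σ _ => ?_
      change op (X.c σ τ) • (show U.X from a σ) = 0
      by_cases h2 : (X.s σ : ℤ) = k
      · exact hpos _ _ (X.c_mem σ τ) (by omega) _
      · rw [show (show U.X from a σ) = 0 from ha0 σ h2, smul_zero])
  have hy0 : ∀ σ, (X.s σ : ℤ) ≠ k + 1 → (show X.ι →₀ U.X from y) σ = 0 := by
    intro σ hσ
    have h1 : (show X.ι →₀ U.X from y) σ ∈ U.gr (k + 1 - (X.s σ : ℤ)) := (hy σ).1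
    exact hU.bot _ (by omega) _ h1
  refine ⟨y, fun σ => (hy σ).2, hy0, ?_⟩
  intro τ hτ
  have h1 := DFunLike.congr_fun hye τ
  have h2 := (twG U X).dd_apply (show X.ι →₀ U.X from y) τ
  rw [hd0, zero_add] at h2
  exact h1.symm.trans h2

/-- **truncation in the module form** -/
theorem acAt_of_hn (G : RM A) (X : LCells A) (lo : ℤ) (hlo : ∀ k < lo, ∀ x ∈ G.gr k, x = 0) (k : ℤ)
    (h : ∀ n, lo ≤ n → n ≤ k → TAc (hn G n) X (k - n)) : AcAt (tG G X) k :=
  trunc G X lo hlo k fun n h1 h2 => ht_of_tac G X n k (h n h1 h2)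

end Crest.Agent.R186.V2d510
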