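import Crest.Agent.R186.KOS_296
import Crest.Agent.R186.WinR_810

/-!
Row 186, half (A), short road, leaf (V2) (helper981): the degree-zero part of `R''` in P-degree `≤ 0`:
`pc P n 0 ⊆ K h^n + K h^n y_0 + d_0 R'' + d_1 R''` (no `h`-part for `P < 0`).
-/

set_option autoImplicit false

noncomputable section

namespace Crest.Agent.R186.V2k981

open DefsQ830 DefsQ830.Gen PBW128 KOS296 Win810

variable {K : Type} [Field K]

theorem dC_pos (l : E) (h : l.toGen.dC = 0) : ∃ j, l = .d j := by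
  cases l with
  | d j => exact ⟨j, rfl⟩
  | f => exact absurd h (by simp [E.toGen, Gen.dC])
  | z j => exact absurd h (by simp [E.toGen, Gen.dC])
  | zc => exact absurd h (by simp [E.toGen, Gen.dC])
  | u s => exact absurd h (by simp [E.toGen, Gen.dC])
  | e j => exact absurd h (by simp [E.toGen, Gen.dC])
  | gj j => exact absurd h (by simp [E.toGen, Gen.dC])
  | gc => exact absurd h (by simp [E.toGen, Gen.dC])
  | v s => exact absurd h (by simp [E.toGen, Gen.dC])

theorem wC_zero (q : Wb) (h : wC q.word = 0) : q = .one ∨ q = .y 0 := by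
  cases q with
  | one => exact Or.inl rfl
  | y s =>
    rcases fin2 s with rfl | rfl
    · exact Or.inr rfl
    · exact absurd h (by simp [Wb.word, wC, Gen.dC])
  | yb s => exact absurd h (by simp [Wb.word, wC, Gen.dC])
  | pi => exact absurd h (by simp [Wb.word, wC, Gen.dC])

/-- `d_0 R'' + d_1 R''` in a given degree -/
def dS (π : Par K) (P : ℤ) (n : ℕ) : Submodule K (R π) where
  carrier := {r | ∃ s : Fin 2 → R π, (∀ j, s j ∈ pcZ π (P + 1) ((n : ℤ) - 1) 0) ∧
    r = X π (.d 0) * s 0 + X π (.d 1) * s 1}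
  zero_mem' := ⟨0, fun _ => Submodule.zero_mem _, by simp⟩
  add_mem' := by
    rintro _ _ ⟨s, hs, rfl⟩ ⟨t, ht, rfl⟩
    refine ⟨s + t, fun j => Submodule.add_mem _ (hs j) (ht j), ?_⟩
    simp only [Pi.add_apply, mul_add]
    abel
  smul_mem' := by
    rintro c _ ⟨s, hs, rfl⟩
    refine ⟨c • s, fun j => Submodule.smul_mem _ c (hs j), ?_⟩
    simp only [Pi.smul_apply, mul_smul_comm, smul_add]

/-- the normal form in P-degree `≤ 0`, cohomological degree `0` -/
def T0 (π : Par K) (P : ℤ) (n : ℕ) : Submodule K (R π) where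
  carrier := {r | ∃ c c' : K, (P < 0 → c = 0 ∧ c' = 0) ∧
    ∃ s ∈ dS π P n, r = c • X π .h ^ n + c' • (X π .h ^ n * X π (.y 0)) + s}
  zero_mem' := ⟨0, 0, fun _ => ⟨rfl, rfl⟩, 0, Submodule.zero_mem _, by simp⟩
  add_mem' := by
    rintro _ _ ⟨c, c', hc, s, hs, rfl⟩ ⟨b, b', hb, t, ht, rfl⟩
    refine ⟨c + b, c' + b', fun h => ⟨?_, ?_⟩, s + t, Submodule.add_mem _ hs ht, ?_⟩
    · rw [(hc h).1, (hb h).1, add_zero]
    · rw [(hc h).2, (hb h).2, add_zero]
    · rw [add_smul, add_smul]; abel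
  smul_mem' := by
    rintro a _ ⟨c, c', hc, s, hs, rfl⟩
    refine ⟨a * c, a * c', fun h => ⟨?_, ?_⟩, a • s, Submodule.smul_mem _ a hs, ?_⟩
    · rw [(hc h).1, mul_zero]
    · rw [(hc h).2, mul_zero]
    · rw [smul_add, smul_add, smul_smul, smul_smul]

theorem wP_nonneg_of_nil (i j : ℕ) (h : (i : ℤ) + j ≤ 0) : i = 0 ∧ j = 0 := by omega

theorem nr_T0 (π : Par K) {P : ℤ} {n : ℕ} (hP : P ≤ 0) (i j k : ℕ) (w : List E) (q : Wb)
    (h1 : dPx (i, j, k, w, q) = P) (h2 : dAx (i, j, k, w, q) = n) (h3 : dCx (i, j, k, w, q) = 0) :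
    nr π (i, j, k, w, q) ∈ T0 π P n := by
  have h3' : (w.map (fun l => l.toGen.dC)).sum = 0 ∧ wC q.word = 0 := by
    simp only [dCx] at h3
    omega
  cases w with
  | nil =>
    simp only [dPx, dAx, List.map_nil, List.sum_nil, add_zero] at h1 h2
    obtain ⟨rfl, rfl⟩ : i = 0 ∧ j = 0 := by omega
    have hP0 : P = 0 := by rw [← h1]; simp
    subst h2
    rcases wC_zero q h3'.2 with rfl | rfl
    · refine ⟨1, 0, fun h => absurd h (by omega), 0, Submodule.zero_mem _, ?_⟩
      simp [nr, we, wd, wq, Wb.word]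
    · refine ⟨0, 1, fun h => absurd h (by omega), 0, Submodule.zero_mem _, ?_⟩
      simp [nr, we, wd, wq, Wb.word]
  | cons l w =>
    have hl : l.toGen.dC = 0 := by
      have := h3'.1
      simp only [List.map_cons, List.sum_cons] at this
      omega
    obtain ⟨j', rfl⟩ := dC_pos l hl
    have e : nr π (i, j, k, E.d j' :: w, q) = X π (.d j') * nr π (i, j, k, w, q) := by
      simp only [nr, we_cons, ← mul_assoc]
      rw [((comm_h π (E.d j').toGen).pow_left k).eq]
      rfl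
    have hm : nr π (i, j, k, w, q) ∈ pcZ π (P + 1) ((n : ℤ) - 1) 0 := by
      have h4 := nr_mem_pc π (i, j, k, w, q)
      have e1 : dPx (i, j, k, w, q) = P + 1 := by
        simp only [dPx, List.map_cons, List.sum_cons] at h1 ⊢
        have hd : (E.d j').toGen.dP = -1 := rfl
        rw [hd] at h1
        linarith
      have e2 : (dAx (i, j, k, w, q) : ℤ) = (n : ℤ) - 1 := by
        simp only [dAx, List.map_cons, List.sum_cons] at h2 ⊢
        rw [← h2]
        have : (E.d j').toGen.dA = 1 := rfl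
        rw [this]
        push_cast
        ring
      have e3 : dCx (i, j, k, w, q) = 0 := by
        simp only [dCx, List.map_cons, List.sum_cons] at h3 ⊢
        omega
      rw [e1, e3] at h4
      have h5 := pcZ_nat π (P + 1) (dAx (i, j, k, w, q)) 0
      rw [← e2]
      rw [← h5] at h4
      exact_mod_cast h4
    refine ⟨0, 0, fun _ => ⟨rfl, rfl⟩, X π (.d j') * nr π (i, j, k, w, q), ?_, by simp [e]⟩
    refine ⟨Pi.single j' (nr π (i, j, k, w, q)), fun t => ?_, ?_⟩
    · by_cases ht : t = j'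
      · subst ht; rw [Pi.single_eq_same]; exact hm
      · rw [Pi.single_eq_of_ne ht]; exact Submodule.zero_mem _
    · rcases fin2 j' with rfl | rfl
      · simp
      · simp

theorem pc_T0 (π : Par K) {P : ℤ} {n : ℕ} (hP : P ≤ 0) {r : R π} (hr : r ∈ pc π P n 0) :
    r ∈ T0 π P n := by
  obtain ⟨m, hm, rfl⟩ := exists_Th π hr
  have : NS K P n 0 ≤ (T0 π P n).comap (Th π) := by
    rw [NS, Finsupp.supported_eq_span_single, Submodule.span_le]
    rintro _ ⟨⟨i, j, k, w, q⟩, ⟨h1, h2, h3⟩, rfl⟩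
    show Th π (bv K i j k w q) ∈ T0 π P n
    rw [Th_bv]
    exact nr_T0 π hP i j k w q h1 h2 h3
  exact this hm

/-- P-degree `0` -/
theorem split_zero (π : Par K) {n : ℕ} {r : R π} (hr : r ∈ pc π 0 n 0) :
    ∃ c c' : K, ∃ s : Fin 2 → R π, (∀ j, s j ∈ pcZ π 1 ((n : ℤ) - 1) 0) ∧
      r = c • X π .h ^ n + c' • (X π .h ^ n * X π (.y 0)) + (X π (.d 0) * s 0 + X π (.d 1) * s 1) := by
  obtain ⟨c, c', _, _, ⟨s, hs, rfl⟩, rfl⟩ := pc_T0 π le_rfl hr
  exact ⟨c, c', s, fun j => by simpa using hs j, rfl⟩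

/-- negative P-degree -/
theorem split_neg (π : Par K) {P : ℤ} {n : ℕ} (hP : P < 0) {r : R π} (hr : r ∈ pc π P n 0) :
    ∃ s : Fin 2 → R π, (∀ j, s j ∈ pcZ π (P + 1) ((n : ℤ) - 1) 0) ∧
      r = X π (.d 0) * s 0 + X π (.d 1) * s 1 := by
  obtain ⟨c, c', hc, _, ⟨s, hs, rfl⟩, rfl⟩ := pc_T0 π hP.le hr
  refine ⟨s, hs, ?_⟩
  rw [(hc hP).1, (hc hP).2, zero_smul, zero_smul, zero_add, zero_add]

end Crest.Agent.R186.V2k981
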