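import Crest.Agent.R186.V2p_510
import Crest.Agent.R186.RW5_171

/-!
Row 186, half (A), leaf (V2) (helper510): `PB (wdatG ..) (DVs ..)`, `One (DVs ..)` for the official
`DV_{-2}` of helper171, and `(V2)`: `Ac (G ⊗ X)` from `Ac (DV_{-2} ⊗ X)` and 339's `HB`.
-/

set_option autoImplicit false
set_option linter.style.haveILetI false
set_option linter.unusedSectionVars false

noncomputable section

namespace Crest.Agent.R186.V2q510

open Hat827 Win810 DefsQ830 DefsQ830.Gen PBW128 Frame515 RW171 V2c510 V2p510 KHc302 WL221 CR989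

variable {K : Type} [Field K] (π : Par K) (s : ℕ) (hs : 5 ≤ s)

include hs in
theorem three_le : 3 ≤ s := by omega

/-- **`DV_{-2}` is concentrated in degree `0`** -/
theorem ones : VT339.One (DVs π s hs) := one_DV (chs π s hs)

theorem chis_h (n : ℕ) : (chs π s hs).χ ((CEbr247.ev (KHc302.CEr π s hs)).p
    ((SM890.bdM π s (two_le hs)).inl (show R π from X π .h ^ n))) = 1 := by
  change chi π (C2b44.kill π (X π .h ^ n)) = 1
  rw [chi_kill, chi_hpow]

theorem chis_y : (chs π s hs).χ ((CEbr247.ev (KHc302.CEr π s hs)).p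
    ((SM890.bdM π s (two_le hs)).inl (X π (.y 0)))) = 0 := by
  change chi π (C2b44.kill π (X π (.y 0))) = 0
  rw [C2b44.kill_y, map_zero]

/-- **the form of `DV_{-2}` asked by `ac_of_win`** -/
def pbs : VT339.PB (wdatG π s (two_le hs) (three_le s hs)) (DVs π s hs) :=
  pbDV π s (two_le hs) (chs π s hs) rfl (three_le s hs) (chis_h π s hs) (chis_y π s hs)

/-- **(V2)**: a right `Γ`-module complex whose homology is supported on the row `i = 0` with `h`
bijective gives an acyclic `G ⊗ X` if `DV_{-2} ⊗ X` is acyclic -/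
theorem ac_of_HB {G : RM (SM890.Gm π s (two_le hs))} {X : LCells (SM890.Gm π s (two_le hs))}
    (hP : Ac (tG (A := SM890.Gm π s (two_le hs)) (DVs π s hs) X))
    (h : ∀ n, VT339.HB (wdatG π s (two_le hs) (three_le s hs)) G n) : Ac (tG G X) :=
  VT339.ac_of_win (pbs π s hs) (ones π s hs) hP h

end Crest.Agent.R186.V2q510
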