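import Crest.Agent.R186.SM_890
import Crest.Agent.R186.KOSZ_296

/-!
Row 186, half (A) (helper726), leaf V3, part 1: `R''` and `M` as left modules on `N K` with a
filtration by the `W`-level of the index; every level is made of copies of `R''/J`.
-/

set_option autoImplicit false
set_option linter.unusedSimpArgs false

noncomputable section

namespace Crest.Agent.R186.V3x726

open DefsQ830 DefsQ830.Gen PBW128 SM890
open C2b362 (pz J NZ mem_NZ mem_pz mem_J mul_pz D_pz pz_cast)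

variable {K : Type} [Field K]

/-- homological degree of the letters -/
def d1C (ν : Ix) : ℕ := (ν.2.2.2.1.map (fun l => l.toGen.dC)).sum

theorem dCx_eq (ν : Ix) : dCx ν = d1C ν + wC ν.2.2.2.2.word := rfl

/-- basis element over the unit -/
abbrev o (K : Type) [Field K] (q : Wb) : N K := bv K 0 0 0 [] q

/-- a left `R''`-module structure on `N K` with `W`-levels -/
structure VW (π : Par K) where
  ρ : R π →ₐ[K] Module.End K (N K)
  dV : N K →ₗ[K] N K
  lev : Wb → ℕ
  cf : Wb → Wb → K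
  tf : Wb → Wb → Wb
  cV : Wb → ℤ
  pV : ℤ
  ρ_nf : ∀ i j k w q1 q, ρ (nf π (i, j, k, w, q1)) (o K q) = cf q1 q • bv K i j k w (tf q1 q)
  cf_one : ∀ q, cf .one q = 1
  tf_one : ∀ q, tf .one q = q
  lev_lt : ∀ q1 q, q1 ≠ .one → cf q1 q ≠ 0 → lev q < lev (tf q1 q)
  lev_le : ∀ q, lev q ≤ 2
  dV_ρ : ∀ r q, dV (ρ r (o K q)) = ρ (Der580.D π r) (o K q)
  cV_nn : ∀ q, 0 ≤ cV q
  cV_tf : ∀ q1 q, cf q1 q ≠ 0 → cV (tf q1 q) = cV q + wC q1.word

theorem r_ext {π : Par K} {M : Type*} [AddCommMonoid M] [Module K M] {φ ψ : R π →ₗ[K] M}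
    (h : ∀ i j k w q, φ (nf π (i, j, k, w, q)) = ψ (nf π (i, j, k, w, q))) (r : R π) :
    φ r = ψ r := by
  have : φ ∘ₗ Psi π = ψ ∘ₗ Psi π := by
    apply ext_bv
    intro i j k w q
    rw [LinearMap.comp_apply, LinearMap.comp_apply, Psi_bv]
    exact h i j k w q
  have h2 := LinearMap.congr_fun this (ev π r)
  rwa [LinearMap.comp_apply, LinearMap.comp_apply, Psi_ev] at h2

theorem bv_apply (i j k : ℕ) (w : List E) (q : Wb) (ν : Ix) :
    bv K i j k w q ν = if (i, j, k, w, q) = ν then 1 else 0 := by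
  unfold bv
  rw [Finsupp.single_apply]

/-- the `q`-part, moved to the unit -/
def shi (q : Wb) : N K →ₗ[K] N K :=
  Finsupp.linearCombination K (fun ν : Ix =>
    if ν.2.2.2.2 = q then bv K ν.1 ν.2.1 ν.2.2.1 ν.2.2.2.1 .one else 0)

theorem shi_bv (q : Wb) (i j k : ℕ) (w : List E) (q0 : Wb) :
    shi q (bv K i j k w q0) = if q0 = q then bv K i j k w .one else 0 := by
  simp [shi, bv]

theorem shi_apply (q : Wb) (n : N K) (i j k : ℕ) (w : List E) (q' : Wb) :
    shi q n (i, j, k, w, q') = if q' = .one then n (i, j, k, w, q) else 0 := by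
  have h : (Finsupp.lapply (i, j, k, w, q') : N K →ₗ[K] K) ∘ₗ shi q =
      if q' = .one then (Finsupp.lapply (i, j, k, w, q) : N K →ₗ[K] K) else 0 := by
    apply ext_bv
    intro i0 j0 k0 w0 q0
    rw [LinearMap.comp_apply, shi_bv]
    by_cases h1 : q' = .one
    · rw [if_pos h1]
      by_cases h2 : q0 = q
      · rw [if_pos h2, Finsupp.lapply_apply, Finsupp.lapply_apply, bv_apply, bv_apply, h1, h2]
        simp only [Prod.mk.injEq, and_true]
      · rw [if_neg h2, map_zero, Finsupp.lapply_apply, bv_apply, if_neg]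
        simp only [Prod.mk.injEq, not_and]
        intro _ _ _ _ h3
        exact h2 h3
    · rw [if_neg h1]
      by_cases h2 : q0 = q
      · rw [if_pos h2, Finsupp.lapply_apply, bv_apply, if_neg]
        · rfl
        · simp only [Prod.mk.injEq, not_and]
          intro _ _ _ _ h3
          exact h1 h3.symm
      · rw [if_neg h2, map_zero]; rfl
  have h2 := LinearMap.congr_fun h n
  rw [LinearMap.comp_apply, Finsupp.lapply_apply] at h2
  rw [h2]
  split_ifs <;> rfl

namespace VW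

variable {π : Par K} (V : VW π)

theorem ρρ (r s : R π) (n : N K) : V.ρ r (V.ρ s n) = V.ρ (r * s) n := by
  rw [map_mul, Module.End.mul_apply]

/-- evaluation at `o q` -/
def eo (q : Wb) : R π →ₗ[K] N K where
  toFun r := V.ρ r (o K q)
  map_add' r s := by rw [map_add, LinearMap.add_apply]
  map_smul' c r := by rw [map_smul, LinearMap.smul_apply]; rfl

theorem eo_apply (q : Wb) (r : R π) : V.eo q r = V.ρ r (o K q) := rfl

theorem coord (r : R π) (q : Wb) (i j k : ℕ) (w : List E) (q' : Wb) (h : V.lev q' ≤ V.lev q) :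
    V.ρ r (o K q) (i, j, k, w, q') = if q' = q then ev π r (i, j, k, w, .one) else 0 := by
  have key := r_ext (π := π) (φ := (Finsupp.lapply (i, j, k, w, q') : N K →ₗ[K] K) ∘ₗ V.eo q)
    (ψ := if q' = q then (Finsupp.lapply (i, j, k, w, .one) : N K →ₗ[K] K) ∘ₗ (PBW128.coord π).toLinearMap
      else 0) ?_ r
  · rw [LinearMap.comp_apply, Finsupp.lapply_apply, eo_apply] at key
    rw [key]
    split_ifs <;> rfl
  · intro i0 j0 k0 w0 q0
    rw [LinearMap.comp_apply, eo_apply, V.ρ_nf, Finsupp.lapply_apply, Finsupp.smul_apply, bv_apply]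
    by_cases h0 : q0 = .one
    · subst h0
      rw [V.cf_one, V.tf_one, one_smul]
      by_cases h1 : q' = q
      · subst h1
        rw [if_pos rfl, LinearMap.comp_apply, Finsupp.lapply_apply]
        show _ = ev π (nf π (i0, j0, k0, w0, .one)) (i, j, k, w, .one)
        rw [ev_nf, bv_apply]
        simp only [Prod.mk.injEq, and_true]
      · rw [if_neg h1, if_neg]
        · rfl
        · simp only [Prod.mk.injEq, not_and]
          intro _ _ _ _ h3
          exact h1 h3.symm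
    · have hR : (if q' = q then (Finsupp.lapply (i, j, k, w, .one) : N K →ₗ[K] K) ∘ₗ
          (PBW128.coord π).toLinearMap else 0) (nf π (i0, j0, k0, w0, q0)) = 0 := by
        split_ifs
        · rw [LinearMap.comp_apply, Finsupp.lapply_apply]
          show ev π (nf π (i0, j0, k0, w0, q0)) (i, j, k, w, .one) = 0
          rw [ev_nf, bv_apply, if_neg]
          simp only [Prod.mk.injEq, not_and]
          intro _ _ _ _ h3
          exact h0 h3
        · rfl
      rw [hR]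
      by_cases hc : V.cf q0 q = 0
      · rw [hc, zero_smul]
      · rw [if_neg, smul_zero]
        simp only [Prod.mk.injEq, not_and]
        intro _ _ _ _ h3
        have := V.lev_lt q0 q h0 hc
        rw [h3] at this
        omega

/-- levels -/
def Lev (m : ℕ) : Submodule K (N K) where
  carrier := {n | ∀ ν : Ix, V.lev ν.2.2.2.2 < m → n ν = 0}
  zero_mem' := fun ν _ => rfl
  add_mem' := fun {a b} ha hb ν h => by rw [Finsupp.add_apply, ha ν h, hb ν h, add_zero]
  smul_mem' := fun c a ha ν h => by rw [Finsupp.smul_apply, ha ν h, smul_zero]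

theorem mem_Lev {m : ℕ} {n : N K} : n ∈ V.Lev m ↔ ∀ ν : Ix, V.lev ν.2.2.2.2 < m → n ν = 0 := Iff.rfl

theorem Lev_le {m m' : ℕ} (h : m ≤ m') : V.Lev m' ≤ V.Lev m := fun _ hn ν hν => hn ν (by omega)

theorem Lev_zero (n : N K) : n ∈ V.Lev 0 := fun ν h => absurd h (by omega)

theorem Lev_three {n : N K} (h : n ∈ V.Lev 3) : n = 0 := by
  ext ν
  exact h ν (by have := V.lev_le ν.2.2.2.2; omega)

theorem ρ_Lev (r : R π) (q : Wb) : V.ρ r (o K q) ∈ V.Lev (V.lev q) := by
  rintro ⟨i, j, k, w, q'⟩ h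
  rw [V.coord r q i j k w q' (le_of_lt h), if_neg]
  rintro rfl
  exact lt_irrefl _ h

theorem ρ_J {r : R π} (hr : r ∈ J π) (q : Wb) : V.ρ r (o K q) ∈ V.Lev (V.lev q + 1) := by
  rintro ⟨i, j, k, w, q'⟩ h
  rw [V.coord r q i j k w q' (Nat.lt_succ_iff.1 h)]
  split_ifs
  · exact mem_J.1 hr _ rfl
  · rfl

/-- `q`-component -/
def cq (q : Wb) : N K →ₗ[K] R π := Psi π ∘ₗ shi q

theorem ev_cq (q : Wb) (n : N K) : ev π (cq (π := π) q n) = shi q n := ev_Psi π _

theorem sum_cq (n : N K) : n = ∑ q, V.ρ (cq q n) (o K q) := by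
  have h : LinearMap.id = ∑ q, (V.eo q) ∘ₗ (cq (π := π) q) := by
    apply ext_bv
    intro i j k w q0
    rw [LinearMap.sum_apply, Finset.sum_eq_single q0]
    · rw [LinearMap.comp_apply, eo_apply, cq, LinearMap.comp_apply, shi_bv, if_pos rfl, Psi_bv,
        V.ρ_nf, V.cf_one, V.tf_one, one_smul]
      rfl
    · intro q _ hq
      rw [LinearMap.comp_apply, cq, LinearMap.comp_apply, shi_bv, if_neg (Ne.symm hq), map_zero,
        map_zero]
    · intro h
      exact absurd (Finset.mem_univ _) h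
  have h2 := LinearMap.congr_fun h n
  rw [LinearMap.sum_apply] at h2
  exact h2

theorem cq_zero {m : ℕ} {n : N K} (hn : n ∈ V.Lev m) {q : Wb} (hq : V.lev q < m) :
    cq (π := π) q n = 0 := by
  have : shi q n = 0 := by
    ext ⟨i, j, k, w, q'⟩
    rw [shi_apply]
    split_ifs
    · rw [hn _ hq]; rfl
    · rfl
  rw [cq, LinearMap.comp_apply, this, map_zero]

/-- induction on elements of a level -/
theorem Lev_ind {m : ℕ} {n : N K} (hn : n ∈ V.Lev m) (Q : Submodule K (N K))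
    (h : ∀ q, m ≤ V.lev q → V.ρ (cq q n) (o K q) ∈ Q) : n ∈ Q := by
  rw [V.sum_cq n]
  refine Submodule.sum_mem _ fun q _ => ?_
  by_cases hq : V.lev q < m
  · rw [V.cq_zero hn hq, map_zero]
    exact Submodule.zero_mem _
  · exact h q (by omega)

theorem ρ_mem_Lev {m : ℕ} (r : R π) {n : N K} (hn : n ∈ V.Lev m) : V.ρ r n ∈ V.Lev m := by
  refine V.Lev_ind hn ((V.Lev m).comap (V.ρ r)) fun q hq => ?_
  rw [Submodule.mem_comap, V.ρρ]
  exact V.Lev_le hq (V.ρ_Lev _ q)

theorem dV_mem_Lev {m : ℕ} {n : N K} (hn : n ∈ V.Lev m) : V.dV n ∈ V.Lev m := by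
  refine V.Lev_ind hn ((V.Lev m).comap V.dV) fun q hq => ?_
  rw [Submodule.mem_comap, V.dV_ρ]
  exact V.Lev_le hq (V.ρ_Lev _ q)

theorem dV_dV (n : N K) : V.dV (V.dV n) = 0 := by
  refine V.Lev_ind (V.Lev_zero n) (LinearMap.ker (V.dV ∘ₗ V.dV)) fun q _ => ?_
  rw [LinearMap.mem_ker, LinearMap.comp_apply, V.dV_ρ, V.dV_ρ, Der580.D_D, map_zero]
  rfl

theorem leib (r : R π) (n : N K) : V.dV (V.ρ r n) = V.ρ (Der580.D π r) n + V.ρ r (V.dV n) := by
  have := V.Lev_ind (V.Lev_zero n)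
    (LinearMap.ker (V.dV ∘ₗ V.ρ r - (V.ρ (Der580.D π r) + V.ρ r ∘ₗ V.dV))) fun q _ => by
      rw [LinearMap.mem_ker, LinearMap.sub_apply, LinearMap.comp_apply, LinearMap.add_apply,
        LinearMap.comp_apply, V.dV_ρ, V.ρρ, V.ρρ, V.ρρ, V.dV_ρ, Der580.D_mul, map_add,
        LinearMap.add_apply, sub_self]
  rw [LinearMap.mem_ker, LinearMap.sub_apply, sub_eq_zero] at this
  exact this

/-- pieces -/
def NV (P A C : ℤ) : Submodule K (N K) where
  carrier := {n | ∀ ν : Ix, n ν ≠ 0 → dPx ν = P - V.pV ∧ (dAx ν : ℤ) = A ∧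
    (d1C ν : ℤ) + V.cV ν.2.2.2.2 = C}
  zero_mem' := fun ν h => absurd rfl h
  add_mem' := fun {a b} ha hb ν h => by
    by_cases h1 : a ν = 0
    · refine hb ν fun h2 => h ?_
      rw [Finsupp.add_apply, h1, h2, add_zero]
    · exact ha ν h1
  smul_mem' := fun c a ha ν h => ha ν fun h1 => h (by rw [Finsupp.smul_apply, h1, smul_zero])

theorem mem_NV {P A C : ℤ} {n : N K} : n ∈ V.NV P A C ↔ ∀ ν : Ix, n ν ≠ 0 → dPx ν = P - V.pV ∧
    (dAx ν : ℤ) = A ∧ (d1C ν : ℤ) + V.cV ν.2.2.2.2 = C := Iff.rfl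

theorem NV_cast {P A C P' A' C' : ℤ} {n : N K} (h : n ∈ V.NV P A C) (h1 : P = P') (h2 : A = A')
    (h3 : C = C') : n ∈ V.NV P' A' C' := by
  subst h1 h2 h3; exact h

theorem ρ_NV {P A C : ℤ} {r : R π} (hr : r ∈ pz π P A C) (q : Wb) :
    V.ρ r (o K q) ∈ V.NV (P + V.pV) A (C + V.cV q) := by
  have h : NZ K P A C ≤ (V.NV (P + V.pV) A (C + V.cV q)).comap (V.eo q ∘ₗ Psi π) := by
    rw [NZ, Finsupp.supported_eq_span_single, Submodule.span_le]
    rintro _ ⟨⟨i, j, k, w, q1⟩, ⟨h1, h2, h3⟩, rfl⟩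
    show V.eo q (Psi π (Finsupp.single (i, j, k, w, q1) 1)) ∈ V.NV (P + V.pV) A (C + V.cV q)
    have e1 : (Finsupp.single (i, j, k, w, q1) 1 : N K) = bv K i j k w q1 := rfl
    rw [e1, Psi_bv, eo_apply, V.ρ_nf]
    by_cases hc : V.cf q1 q = 0
    · rw [hc, zero_smul]; exact Submodule.zero_mem _
    · refine Submodule.smul_mem _ _ fun ν hν => ?_
      rw [bv_apply] at hν
      split_ifs at hν with h4
      · subst h4
        refine ⟨?_, h2, ?_⟩
        · rw [add_sub_cancel_right]; exact h1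
        · have h5 := V.cV_tf q1 q hc
          rw [dCx_eq] at h3
          push_cast at h3
          show ((d1C (i, j, k, w, q1) : ℕ) : ℤ) + V.cV (V.tf q1 q) = C + V.cV q
          rw [h5]
          have h6 : ((wC (i, j, k, w, q1).2.2.2.2.word : ℕ) : ℤ) = (wC q1.word : ℕ) := rfl
          rw [h6] at h3
          linarith
      · exact absurd rfl hν
  have h2 := h (show ev π r ∈ NZ K P A C from hr)
  rw [Submodule.mem_comap, LinearMap.comp_apply, Psi_ev] at h2
  exact h2

theorem cq_NV {P A C : ℤ} {n : N K} (hn : n ∈ V.NV P A C) (q : Wb) :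
    cq q n ∈ pz π (P - V.pV) A (C - V.cV q) := by
  rw [mem_pz]
  rintro ⟨i, j, k, w, q'⟩ h
  rw [ev_cq, shi_apply] at h
  split_ifs at h with h1
  · subst h1
    obtain ⟨e1, e2, e3⟩ := hn _ h
    refine ⟨e1, e2, ?_⟩
    rw [dCx_eq]
    have h5 : wC (Wb.one).word = 0 := rfl
    show (((d1C (i, j, k, w, Wb.one) + wC (Wb.one).word : ℕ)) : ℤ) = C - V.cV q
    rw [h5, add_zero]
    have e3' : ((d1C (i, j, k, w, q) : ℕ) : ℤ) + V.cV q = C := e3
    have : d1C (i, j, k, w, Wb.one) = d1C (i, j, k, w, q) := rfl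
    rw [this]
    linarith
  · exact absurd rfl h

theorem NV_ind {P A C : ℤ} {n : N K} (hn : n ∈ V.NV P A C) (Q : Submodule K (N K))
    (h : ∀ q, cq q n ∈ pz π (P - V.pV) A (C - V.cV q) → V.ρ (cq q n) (o K q) ∈ Q) : n ∈ Q := by
  rw [V.sum_cq n]
  exact Submodule.sum_mem _ fun q _ => h q (V.cq_NV hn q)

theorem ρ_mem_NV {P A C P' A' C' : ℤ} {r : R π} (hr : r ∈ pz π P A C) {n : N K}
    (hn : n ∈ V.NV P' A' C') : V.ρ r n ∈ V.NV (P + P') (A + A') (C + C') := by
  refine V.NV_ind hn ((V.NV (P + P') (A + A') (C + C')).comap (V.ρ r)) fun q hq => ?_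
  rw [Submodule.mem_comap, V.ρρ]
  exact V.NV_cast (V.ρ_NV (mul_pz hr hq) q) (by ring) rfl (by ring)

theorem dV_mem_NV {P A C : ℤ} {n : N K} (hn : n ∈ V.NV P A C) : V.dV n ∈ V.NV P A (C - 1) := by
  refine V.NV_ind hn ((V.NV P A (C - 1)).comap V.dV) fun q hq => ?_
  rw [Submodule.mem_comap, V.dV_ρ]
  exact V.NV_cast (V.ρ_NV (D_pz hq) q) (by ring) rfl (by ring)

theorem NV_neg {P A C : ℤ} (hC : C < 0) {n : N K} (hn : n ∈ V.NV P A C) : n = 0 := by
  ext ν
  by_contra h
  obtain ⟨-, -, h3⟩ := hn ν h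
  have := V.cV_nn ν.2.2.2.2
  omega

end VW

/-! ### instances -/

/-- product in `W` -/
def tR : Wb → Wb → Wb
  | .one, q => q
  | .y s, q => wt (.y s) q
  | .yb s, q => wt (.yb s) q
  | .pi, q => wt (.y 0) (wt (.y 1) q)

/-- coefficient of the product in `W` -/
def cR (π : Par K) : Wb → Wb → K
  | .one, _ => 1
  | .y s, q => wk π (.y s) q
  | .yb s, q => wk π (.yb s) q
  | .pi, q => wk π (.y 1) q * wk π (.y 0) (wt (.y 1) q)

theorem wq_wq (π : Par K) (q1 q : Wb) : wq π q1 * wq π q = cR π q1 q • wq π (tR q1 q) := by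
  cases q1 with
  | one => rw [wq_one, one_mul]; simp [cR, tR]
  | y s => rw [wq_y]; exact rW π (.y s) q
  | yb s => rw [wq_yb]; exact rW π (.yb s) q
  | pi =>
    rw [wq_pi, mul_assoc]
    have h1 : X π (.y 1) * wq π q = wk π (.y 1) q • wq π (wt (.y 1) q) := rW π (.y 1) q
    have h2 : X π (.y 0) * wq π (wt (.y 1) q) = wk π (.y 0) (wt (.y 1) q) •
      wq π (wt (.y 0) (wt (.y 1) q)) := rW π (.y 0) _
    rw [h1, mul_smul_comm, h2, smul_smul]
    rfl

def levR : Wb → ℕ
  | .one => 0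
  | .y _ => 1
  | .yb _ => 1
  | .pi => 2

def levM : Wb → ℕ
  | .one => 2
  | .y _ => 1
  | .yb _ => 1
  | .pi => 0

theorem fin2' (s : Fin 2) : s = 0 ∨ s = 1 := by omega

/-- `R''` -/
def vR (π : Par K) : VW π where
  ρ := rep π
  dV := (PBW128.coord π).toLinearMap ∘ₗ (Der580.D π) ∘ₗ Psi π
  lev := levR
  cf := cR π
  tf := tR
  cV q := wC q.word
  pV := 0
  ρ_nf i j k w q1 q := by
    have h1 : o K q = ev π (wq π q) := (ev_wq π q).symm
    rw [h1, ← ev_mul, SM890.nf_eq, mul_assoc, wq_wq, mul_smul_comm, map_smul, ← SM890.nf_eq, ev_nf]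
  cf_one _ := rfl
  tf_one _ := rfl
  lev_lt q1 q h hc := by
    rcases q1 with _ | s | s | _ <;> rcases q with _ | t | t | _ <;>
      simp_all [cR, tR, wk, wt, levR]
  lev_le q := by cases q <;> simp [levR]
  dV_ρ r q := by
    show ev π (Der580.D π (Psi π (rep π r (o K q)))) = rep π (Der580.D π r) (o K q)
    rw [Psi_rep, Psi_bv]
    have h1 : nf π (0, 0, 0, [], q) = wq π q := by simp [nf, we_nil]
    rw [h1, Der580.D_mul, SM890.D_wq, mul_zero, add_zero, ev_mul, ev_wq]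
  cV_nn q := by positivity
  cV_tf q1 q hc := by
    rcases q1 with _ | s | s | _ <;> rcases q with _ | t | t | _ <;>
      (try rcases fin2' s with rfl | rfl) <;> (try rcases fin2' t with rfl | rfl) <;>
      simp_all [cR, tR, wk, wt, Wb.word, wC, Gen.dC]

/-- `M`, `kappa` in degree `(-1, 0, s)` -/
def vM (π : Par K) (s : ℕ) (hs : 2 ≤ s) : VW π where
  ρ := repM π
  dV := dM π
  lev := levM
  cf := cW π
  tf := tW
  cV q := s - wC q.word
  pV := -1
  ρ_nf i j k w q1 q := by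
    rw [SM890.nf_eq]
    exact repM_nf π i j k w q1 q
  cf_one _ := rfl
  tf_one _ := rfl
  lev_lt q1 q h hc := by
    rcases q1 with _ | s | s | _ <;> rcases q with _ | t | t | _ <;>
      (try rcases fin2' s with rfl | rfl) <;> (try rcases fin2' t with rfl | rfl) <;>
      simp_all [cW, tW, dk, dt, levM]
  lev_le q := by cases q <;> simp [levM]
  dV_ρ r q := dM_repM π r q
  cV_nn q := by
    have := Win810.wC_word_le q
    omega
  cV_tf q1 q hc := by
    rcases q1 with _ | s | s | _ <;> rcases q with _ | t | t | _ <;>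
      (try rcases fin2' s with rfl | rfl) <;> (try rcases fin2' t with rfl | rfl) <;>
      simp_all [cW, tW, dk, dt, Wb.word, wC, Gen.dC]

end Crest.Agent.R186.V3x726
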