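import Crest.Agent.R186.V3a_726
import Crest.Agent.R186.AcY_726
import Crest.Agent.R186.WBM_163

/-!
Row 186, half (A) (helper726), leaf V3, part 2: columns of `R''` and `M` (and the cones of
multiplication by `h` on them) as window modules over `(WR π).dga`; for all right cells `Y`:
`Y ⊗ (column (0,a) of R'')` acyclic ⇒ `Y ⊗ (column (1,a) of M)` acyclic, and
`Y ⊗ cone(h)` acyclic on the columns `0, 1` of `R''` ⇒ `Y ⊗ cone(h)` acyclic on the column `0` of `M`.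
-/

set_option autoImplicit false
set_option linter.unusedSimpArgs false
set_option linter.style.haveILetI false

noncomputable section

namespace Crest.Agent.R186.V3x726

open DefsQ830 DefsQ830.Gen PBW128 SM890 Win810 Frame515 WBM163 AcY726 Hat827
open C2b362 (pz J NZ mem_NZ mem_pz mem_J mul_pz D_pz pz_cast)

variable {K : Type} [Field K] {π : Par K}

theorem h_pz : X π .h ∈ pz π 0 1 0 := by
  have h := PBW128.X_mem_pc π .h
  rw [← pcZ_nat, KOS296.pcZ_eq_pz] at h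
  exact h

theorem h_comm (r : R π) : X π .h * r = r * X π .h := Der580.h_comm π r

theorem D_h : Der580.D π (X π .h) = 0 := by
  rw [Der580.D_X]; simp [dGen]

theorem D_x (t : Fin 2) : Der580.D π (X π (.x t)) = 0 := by
  rw [Der580.D_X]; simp [dGen]

theorem x_pz (t : Fin 2) : X π (.x t) ∈ pz π 1 0 0 := by
  have h := PBW128.X_mem_pc π (.x t)
  rw [← pcZ_nat, KOS296.pcZ_eq_pz] at h
  exact h

theorem vR_NV {P A C : ℤ} {n : N K} : n ∈ (vR π).NV P A C ↔ Psi π n ∈ pz π P A C := by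
  rw [mem_pz, ev_Psi, VW.mem_NV]
  refine forall_congr' fun ν => imp_congr_right fun _ => ?_
  have e1 : (vR π).pV = 0 := rfl
  have e2 : (vR π).cV ν.2.2.2.2 = (wC ν.2.2.2.2.word : ℤ) := rfl
  rw [e1, e2, sub_zero, dCx_eq]
  push_cast
  rfl

theorem vR_Lev {n : N K} : n ∈ (vR π).Lev 1 ↔ Psi π n ∈ J π := by
  rw [mem_J, ev_Psi, VW.mem_Lev]
  refine forall_congr' fun ν => imp_congr_left ?_
  have e1 : (vR π).lev ν.2.2.2.2 = levR ν.2.2.2.2 := rfl
  rw [e1]
  rcases ν.2.2.2.2 with _ | s | s | _ <;> simp [levR]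

theorem vR_ρ (r : R π) (n : N K) : (vR π).ρ r n = rep π r n := rfl

theorem vR_dV (n : N K) : (vR π).dV n = ev π (Der580.D π (Psi π n)) := rfl

namespace VW

variable (V : VW π)

/-- the pieces of the source of a cone (`c = true`) or zero (`c = false`) -/
def PC (c : Bool) (P A C : ℤ) : Submodule K (N K) := if c then V.NV P A C else ⊥

theorem PC_le {c : Bool} {P A C : ℤ} {n : N K} (h : n ∈ V.PC c P A C) : n ∈ V.NV P A C := by
  cases c with
  | true => exact h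
  | false => rw [(Submodule.mem_bot K).1 h]; exact Submodule.zero_mem _

/-- transport of a property from `NV` to `PC` -/
theorem PC_map {V' : VW π} {c : Bool} {P A C P' A' C' : ℤ} (f : N K →+ N K)
    (hf : ∀ n, n ∈ V.NV P A C → f n ∈ V'.NV P' A' C') {n : N K} (h : n ∈ V.PC c P A C) :
    f n ∈ V'.PC c P' A' C' := by
  cases c with
  | true => exact hf n h
  | false => rw [(Submodule.mem_bot K).1 h, map_zero]; exact Submodule.zero_mem _

/-- the action on pairs -/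
def lR : R π →ₐ[K] Module.End K (N K × N K) where
  toFun := fun r => LinearMap.prodMap (V.ρ r) (V.ρ r)
  map_one' := by
    rw [map_one]; rfl
  map_mul' := fun r s => by
    rw [map_mul]; rfl
  map_zero' := by
    rw [map_zero]; rfl
  map_add' := fun r s => by
    rw [map_add]; rfl
  commutes' := fun c => by
    rw [AlgHom.commutes]; rfl

theorem lR_apply (r : R π) (v : N K × N K) : V.lR r v = (V.ρ r v.1, V.ρ r v.2) := rfl

/-- column `(p,a)` (`c = false`, second component), or cone of `h : (p,a+1) → (p,a)` (`c = true`) -/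
def T (c : Bool) (p a : ℤ) : TL (WR π) where
  B := N K × N K
  l := V.lR
  p P A C := (V.PC c P (A - 1) (C - 1)).prod (V.NV P A C)
  lm := by
    intro P A C P' A' C' r v hr hv
    have hr' : (r : R π) ∈ pz π P A C := by
      rw [← KOS296.pcZ_eq_pz]; exact hr
    refine ⟨V.PC_map (V.ρ r).toAddMonoidHom (fun n hn => ?_) hv.1, V.ρ_mem_NV hr' hv.2⟩
    exact V.NV_cast (V.ρ_mem_NV hr' hn) rfl (by ring) (by ring)
  d :=
    { toFun := fun v => (V.dV v.1, V.dV v.2 + V.ρ (X π .h) v.1)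
      map_add' := fun v w => by
        refine Prod.ext (map_add V.dV _ _) ?_
        show V.dV (v.2 + w.2) + V.ρ (X π .h) (v.1 + w.1) = _ + _ + (_ + _)
        rw [map_add, map_add]; abel
      map_smul' := fun c v => by
        refine Prod.ext (map_smul V.dV _ _) ?_
        show V.dV (c • v.2) + V.ρ (X π .h) (c • v.1) = c • (_ + _)
        rw [map_smul, map_smul, smul_add] }
  d_mem := by
    intro P A C v hv
    refine ⟨V.PC_map V.dV.toAddMonoidHom (fun n hn => ?_) hv.1, Submodule.add_mem _ (V.dV_mem_NV hv.2) ?_⟩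
    · exact V.NV_cast (V.dV_mem_NV hn) rfl rfl (by ring)
    · exact V.NV_cast (V.ρ_mem_NV h_pz (V.PC_le hv.1)) (by ring) (by ring) (by ring)
  d_d v := by
    refine Prod.ext (V.dV_dV _) ?_
    show V.dV (V.dV v.2 + V.ρ (X π .h) v.1) + V.ρ (X π .h) (V.dV v.1) = 0
    rw [map_add, V.dV_dV, zero_add, V.leib, D_h, map_zero, LinearMap.zero_apply, zero_add]
    exact MM_two π (V.ρ (X π .h) (V.dV v.1))
  leib r v := by
    refine Prod.ext (V.leib _ _) ?_
    show V.dV (V.ρ r v.2) + V.ρ (X π .h) (V.ρ r v.1) =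
      V.ρ (Der580.D π r) v.2 + V.ρ r (V.dV v.2 + V.ρ (X π .h) v.1)
    rw [V.leib, map_add, V.ρρ, V.ρρ, h_comm, add_assoc]
  p0 := -p
  a0 := -a

variable {c : Bool} {p a : ℤ}

theorem T_mem {j : ℤ} {x : (V.T c p a).win.X} : x ∈ (V.T c p a).win.gr j ↔
    ∀ i : (WR π).Ob, (x i).1 ∈ V.PC c ((WR π).P i + -p) ((WR π).A i + -a - 1) (j - 1) ∧
      (x i).2 ∈ V.NV ((WR π).P i + -p) ((WR π).A i + -a) j := Iff.rfl

theorem T_d (x : (V.T c p a).win.X) (i : (WR π).Ob) : (V.T c p a).win.d x i =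
    (V.dV (x i).1, V.dV (x i).2 + V.ρ (X π .h) (x i).1) := rfl

theorem T_smul1 (m : (WR π).Win) (x : (V.T c p a).X) (i : (WR π).Ob) :
    ((m • x) i).1 = ∑ l, V.ρ (m.1 i l) (x l).1 := by
  have h : ((m • x) i).1 = (LinearMap.fst K (N K) (N K)) (∑ l, V.lR (m.1 i l) (x l)) := rfl
  rw [h, map_sum]
  rfl

theorem T_smul2 (m : (WR π).Win) (x : (V.T c p a).X) (i : (WR π).Ob) :
    ((m • x) i).2 = ∑ l, V.ρ (m.1 i l) (x l).2 := by
  have h : ((m • x) i).2 = (LinearMap.snd K (N K) (N K)) (∑ l, V.lR (m.1 i l) (x l)) := rfl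
  rw [h, map_sum]
  rfl

theorem T_neg {j : ℤ} (hj : j < 0) : (V.T c p a).win.gr j = ⊥ := by
  rw [eq_bot_iff]
  intro x hx
  rw [Submodule.mem_bot]
  funext i
  have h := (V.T_mem.1 hx) i
  exact Prod.ext (V.NV_neg (by omega) (V.PC_le h.1)) (V.NV_neg hj h.2)

/-- level submodules -/
def SL (c : Bool) (p a : ℤ) (m : ℕ) : Submodule (WR π).dga.C (V.T c p a).win.X where
  carrier := {x | ∀ i : (WR π).Ob, (x i).1 ∈ V.Lev m ∧ (x i).2 ∈ V.Lev m}
  zero_mem' := fun _ => ⟨Submodule.zero_mem _, Submodule.zero_mem _⟩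
  add_mem' := fun {x y} hx hy i => ⟨Submodule.add_mem _ (hx i).1 (hy i).1,
    Submodule.add_mem _ (hx i).2 (hy i).2⟩
  smul_mem' := fun m x hx i => by
    refine ⟨?_, ?_⟩
    · exact (congrArg (fun y => y ∈ V.Lev _) (V.T_smul1 m x i)).mpr
        (Submodule.sum_mem _ fun l _ => V.ρ_mem_Lev _ (hx l).1)
    · exact (congrArg (fun y => y ∈ V.Lev _) (V.T_smul2 m x i)).mpr
        (Submodule.sum_mem _ fun l _ => V.ρ_mem_Lev _ (hx l).2)

theorem mem_SL {m : ℕ} {x : (V.T c p a).win.X} :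
    x ∈ V.SL c p a m ↔ ∀ i : (WR π).Ob, (x i).1 ∈ V.Lev m ∧ (x i).2 ∈ V.Lev m := Iff.rfl

theorem SL_d {m : ℕ} {x : (V.T c p a).win.X} (hx : x ∈ V.SL c p a m) :
    (V.T c p a).win.d x ∈ V.SL c p a m := fun i =>
  ⟨V.dV_mem_Lev (hx i).1, Submodule.add_mem _ (V.dV_mem_Lev (hx i).2) (V.ρ_mem_Lev _ (hx i).1)⟩

theorem SL_le {m m' : ℕ} (h : m ≤ m') : V.SL c p a m' ≤ V.SL c p a m := fun _ hx i =>
  ⟨V.Lev_le h (hx i).1, V.Lev_le h (hx i).2⟩

theorem SL_zero : V.SL c p a 0 = ⊤ := by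
  rw [eq_top_iff]
  exact fun x _ i => ⟨V.Lev_zero _, V.Lev_zero _⟩

theorem SL_three : V.SL c p a 3 = ⊥ := by
  rw [eq_bot_iff]
  intro x hx
  rw [Submodule.mem_bot]
  funext i
  exact Prod.ext (V.Lev_three (hx i).1) (V.Lev_three (hx i).2)

/-- `n ↦ (Psi n) · o_q` -/
def uq (q : Wb) : N K →+ N K := ((V.eo q) ∘ₗ Psi π).toAddMonoidHom

theorem uq_apply (q : Wb) (n : N K) : V.uq q n = V.ρ (Psi π n) (o K q) := rfl

theorem uq_ρ (q : Wb) (r : R π) (n : N K) : V.uq q (rep π r n) = V.ρ r (V.uq q n) := by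
  rw [uq_apply, uq_apply, Psi_rep, V.ρρ]

theorem uq_d (q : Wb) (n : N K) : V.uq q ((vR π).dV n) = V.dV (V.uq q n) := by
  rw [uq_apply, uq_apply, vR_dV, Psi_ev, V.dV_ρ]

theorem uq_NV {P A C : ℤ} {n : N K} (q : Wb) (hn : n ∈ (vR π).NV P A C) :
    V.uq q n ∈ V.NV (P + V.pV) A (C + V.cV q) := V.ρ_NV (vR_NV.1 hn) q

theorem uq_coord (q : Wb) (n : N K) (i j k : ℕ) (w : List E) (q' : Wb) (h : V.lev q' ≤ V.lev q) :
    V.uq q n (i, j, k, w, q') = if q' = q then n (i, j, k, w, .one) else 0 := by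
  rw [uq_apply, V.coord _ _ _ _ _ _ _ h, ev_Psi]

/-- splitting off one level -/
theorem split {m : ℕ} {n : N K} (hn : n ∈ V.Lev m) :
    n - ∑ q : {q : Wb // V.lev q = m}, V.uq q.1 (ev π (cq q.1 n)) ∈ V.Lev (m + 1) := by
  rintro ⟨i, j, k, w, q'⟩ h
  have h1 : V.lev q' ≤ m := Nat.lt_succ_iff.1 h
  rw [Finsupp.sub_apply, Finsupp.finsetSum_apply]
  have h2 : ∀ q : {q : Wb // V.lev q = m}, V.uq q.1 (ev π (cq q.1 n)) (i, j, k, w, q') =
      if q' = q.1 then n (i, j, k, w, q') else 0 := by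
    intro q
    rw [V.uq_coord _ _ _ _ _ _ _ (by rw [q.2]; exact h1), ev_cq, shi_apply, if_pos rfl]
    split_ifs with h3
    · rw [h3]
    · rfl
  rw [Finset.sum_congr rfl fun q _ => h2 q]
  by_cases h4 : V.lev q' = m
  · rw [Finset.sum_eq_single (⟨q', h4⟩ : {q : Wb // V.lev q = m})]
    · rw [if_pos rfl, sub_self]
    · intro q _ hq
      rw [if_neg]
      intro h5
      exact hq (Subtype.ext h5.symm)
    · intro h5
      exact absurd (Finset.mem_univ _) h5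
  · rw [Finset.sum_eq_zero, sub_zero]
    · exact hn _ (by show V.lev q' < m; omega)
    · intro q _
      rw [if_neg]
      intro h5
      exact h4 (by rw [h5]; exact q.2)

theorem uniq {m : ℕ} (r : {q : Wb // V.lev q = m} → N K)
    (h : ∑ q : {q : Wb // V.lev q = m}, V.uq q.1 (r q) ∈ V.Lev (m + 1))
    (q : {q : Wb // V.lev q = m}) : r q ∈ (vR π).Lev 1 := by
  rintro ⟨i, j, k, w, q'⟩ h'
  have hq' : q' = .one := by
    have e1 : levR q' < 1 := h'
    rcases q' with _ | s | s | _ <;> simp_all [levR]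
  subst hq'
  have h1 := h (i, j, k, w, q.1) (by show V.lev q.1 < m + 1; rw [q.2]; omega)
  rw [Finsupp.finsetSum_apply, Finset.sum_eq_single q] at h1
  · rwa [V.uq_coord _ _ _ _ _ _ _ le_rfl, if_pos rfl] at h1
  · intro q2 _ hq2
    rw [V.uq_coord _ _ _ _ _ _ _ (by rw [q.2, q2.2]), if_neg]
    intro h3
    exact hq2 (Subtype.ext h3.symm)
  · intro h3
    exact absurd (Finset.mem_univ _) h3

/-- `u_q` on windows -/
def uX (q : Wb) (c : Bool) (p p' a : ℤ) : ((vR π).T c p' a).win.X →+ (V.T c p a).win.X where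
  toFun := fun x i => (V.uq q (x i).1, V.uq q (x i).2)
  map_zero' := by
    funext i
    exact Prod.ext (map_zero (V.uq q)) (map_zero (V.uq q))
  map_add' := fun x y => by
    funext i
    exact Prod.ext (map_add (V.uq q) _ _) (map_add (V.uq q) _ _)

theorem uX_1 (q : Wb) {p' : ℤ} (x : ((vR π).T c p' a).win.X) (i : (WR π).Ob) :
    (V.uX q c p p' a x i).1 = V.uq q (x i).1 := rfl

theorem uX_2 (q : Wb) {p' : ℤ} (x : ((vR π).T c p' a).win.X) (i : (WR π).Ob) :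
    (V.uX q c p p' a x i).2 = V.uq q (x i).2 := rfl

theorem uX_smul (q : Wb) {p' : ℤ} (s : (WR π).dga.C) (x : ((vR π).T c p' a).win.X) :
    V.uX q c p p' a (s • x) = s • V.uX q c p p' a x := by
  funext i
  refine Prod.ext ?_ ?_
  · calc V.uq q (((s • x : ((vR π).T c p' a).win.X)) i).1
        = V.uq q (∑ l, (vR π).ρ (s.1 i l) (x l).1) := congrArg _ ((vR π).T_smul1 s x i)
      _ = ∑ l, V.ρ (s.1 i l) (V.uX q c p p' a x l).1 := by
          rw [map_sum]
          exact Finset.sum_congr rfl fun l _ => V.uq_ρ _ _ _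
      _ = _ := (V.T_smul1 s (V.uX q c p p' a x) i).symm
  · calc V.uq q (((s • x : ((vR π).T c p' a).win.X)) i).2
        = V.uq q (∑ l, (vR π).ρ (s.1 i l) (x l).2) := congrArg _ ((vR π).T_smul2 s x i)
      _ = ∑ l, V.ρ (s.1 i l) (V.uX q c p p' a x l).2 := by
          rw [map_sum]
          exact Finset.sum_congr rfl fun l _ => V.uq_ρ _ _ _
      _ = _ := (V.T_smul2 s (V.uX q c p p' a x) i).symm

theorem uX_d (q : Wb) {p' : ℤ} (x : ((vR π).T c p' a).win.X) :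
    (V.T c p a).win.d (V.uX q c p p' a x) = V.uX q c p p' a (((vR π).T c p' a).win.d x) := by
  funext i
  rw [T_d]
  refine Prod.ext (V.uq_d _ _).symm ?_
  show V.dV (V.uq q (x i).2) + V.ρ (X π .h) (V.uq q (x i).1) =
    V.uq q ((vR π).dV (x i).2 + (vR π).ρ (X π .h) (x i).1)
  rw [map_add, V.uq_d, vR_ρ, V.uq_ρ]

theorem X_sum {κ : Type} (S : Finset κ) (f : κ → (V.T c p a).win.X) (i : (WR π).Ob) :
    (∑ k ∈ S, f k) i = ∑ k ∈ S, f k i := TL.sum_apply _ S f i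

theorem sum_1 {κ : Type} (S : Finset κ) (f : κ → (V.T c p a).win.X) (i : (WR π).Ob) :
    ((∑ k ∈ S, f k) i).1 = ∑ k ∈ S, (f k i).1 := by
  rw [V.X_sum]
  exact map_sum (LinearMap.fst K (N K) (N K)) _ _

theorem sum_2 {κ : Type} (S : Finset κ) (f : κ → (V.T c p a).win.X) (i : (WR π).Ob) :
    ((∑ k ∈ S, f k) i).2 = ∑ k ∈ S, (f k i).2 := by
  rw [V.X_sum]
  exact map_sum (LinearMap.snd K (N K) (N K)) _ _

/-- one level is a direct sum of shifted copies of `R''/J` -/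
def copies (c : Bool) (p p' a : ℤ) (hp : p' = p + V.pV) (m : ℕ) :
    Copies (V.T c p a).win (V.SL c p a m) (V.SL c p a (m + 1))
    {q : Wb // V.lev q = m} (fun _ => ((vR π).T c p' a).win)
    (fun _ => (vR π).SL c p' a 1) (fun q => V.cV q.1) where
  u q := V.uX q.1 c p p' a
  u_smul q s x := V.uX_smul q.1 s x
  u_mem q j x hx := fun i => by
    have h := (T_mem _).1 hx i
    refine ⟨(vR π).PC_map (V.uq q.1) (fun n hn => ?_) h.1, ?_⟩
    · exact V.NV_cast (V.uq_NV q.1 hn) (by simp only [T]; rw [hp]; ring) (by simp only [T]) (by ring)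
    · exact V.NV_cast (V.uq_NV q.1 h.2) (by simp only [T]; rw [hp]; ring) (by simp only [T]) (by ring)
  u_F q x := fun i =>
    ⟨V.Lev_le q.2.ge (V.ρ_Lev _ q.1), V.Lev_le q.2.ge (V.ρ_Lev _ q.1)⟩
  u_J q x hx := fun i =>
    ⟨V.Lev_le (Nat.succ_le_succ q.2.ge) (V.ρ_J (vR_Lev.1 (hx i).1) q.1),
      V.Lev_le (Nat.succ_le_succ q.2.ge) (V.ρ_J (vR_Lev.1 (hx i).2) q.1)⟩
  u_d q x := by
    rw [V.uX_d, sub_self]
    exact Submodule.zero_mem _
  gen {j x} hx hF := by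
    refine ⟨fun q i => (ev π (cq q.1 (x i).1), ev π (cq q.1 (x i).2)), fun q i => ?_, fun i => ?_⟩
    · have h := V.T_mem.1 hx i
      refine ⟨V.PC_map ((PBW128.coord π).toLinearMap ∘ₗ cq q.1).toAddMonoidHom (fun n hn => ?_) h.1, ?_⟩
      · show ev π (cq q.1 n) ∈ _
        rw [vR_NV, Psi_ev]
        exact pz_cast (V.cq_NV hn q.1) (by simp only [T]; rw [hp]; ring) (by simp only [T]) (by ring)
      · show ev π (cq q.1 (x i).2) ∈ (vR π).NV _ _ _
        refine vR_NV.2 ?_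
        rw [Psi_ev]
        exact pz_cast (V.cq_NV h.2 q.1) (by simp only [T]; rw [hp]; ring) (by simp only [T]) (by ring)
    · refine ⟨?_, ?_⟩
      · have h1 := V.split (hF i).1
        have h2 := V.sum_1 (c := c) (p := p) (a := a) Finset.univ
          (fun q : {q : Wb // V.lev q = m} => V.uX q.1 c p p' a
            (fun i => (ev π (cq q.1 (x i).1), ev π (cq q.1 (x i).2)))) i
        exact (congrArg (fun y => (x i).1 - y ∈ V.Lev (m + 1)) h2).mpr h1
      · have h1 := V.split (hF i).2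
        have h2 := V.sum_2 (c := c) (p := p) (a := a) Finset.univ
          (fun q : {q : Wb // V.lev q = m} => V.uX q.1 c p p' a
            (fun i => (ev π (cq q.1 (x i).1), ev π (cq q.1 (x i).2)))) i
        exact (congrArg (fun y => (x i).2 - y ∈ V.Lev (m + 1)) h2).mpr h1
  uniq j r hr h q := fun i => by
    have h1 := (h i).1
    have h2 := (h i).2
    have e1 := V.sum_1 (c := c) (p := p) (a := a) Finset.univ
      (fun q : {q : Wb // V.lev q = m} => V.uX q.1 c p p' a (r q)) i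
    have e2 := V.sum_2 (c := c) (p := p) (a := a) Finset.univ
      (fun q : {q : Wb // V.lev q = m} => V.uX q.1 c p p' a (r q)) i
    exact ⟨V.uniq (fun q => (r q i).1) ((congrArg (fun y => y ∈ V.Lev (m + 1)) e1).mp h1) q,
      V.uniq (fun q => (r q i).2) ((congrArg (fun y => y ∈ V.Lev (m + 1)) e2).mp h2) q⟩

/-- the chain of levels from level `m0` on -/
def chain (c : Bool) (p p' a : ℤ) (hp : p' = p + V.pV) (m0 : ℕ) (hm : m0 ≤ 3) :
    Chain (V.T c p a).win ((vR π).T c p' a).win ((vR π).SL c p' a 1) (3 - m0) where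
  F i := V.SL c p a (m0 + i)
  F_d i x hx := V.SL_d hx
  F_le i := V.SL_le (by omega)
  F_bot := by rw [show m0 + (3 - m0) = 3 by omega]; exact V.SL_three
  κ i := {q : Wb // V.lev q = m0 + i}
  fin i := inferInstance
  c i q := V.cV q.1
  c_nn i q := V.cV_nn q.1
  cop i _ := V.copies c p p' a hp (m0 + i)

end VW

/-! ### the right Koszul column -/

theorem rep_ev (r z : R π) : rep π r (ev π z) = ev π (r * z) := by
  rw [← ev_Psi π (rep π r (ev π z)), Psi_rep, Psi_ev]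

/-- right multiplication by `x_t` -/
def rx (π : Par K) (t : Fin 2) : N K →ₗ[K] N K :=
  (PBW128.coord π).toLinearMap ∘ₗ LinearMap.mulRight K (X π (.x t)) ∘ₗ Psi π

theorem rx_apply (t : Fin 2) (n : N K) : rx π t n = ev π (Psi π n * X π (.x t)) := rfl

theorem rx_ρ (t : Fin 2) (r : R π) (n : N K) :
    rx π t ((vR π).ρ r n) = (vR π).ρ r (rx π t n) := by
  rw [vR_ρ, vR_ρ, rx_apply, rx_apply, Psi_rep, rep_ev, mul_assoc]

theorem rx_d (t : Fin 2) (n : N K) : rx π t ((vR π).dV n) = (vR π).dV (rx π t n) := by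
  rw [vR_dV, vR_dV, rx_apply, rx_apply, Psi_ev, Psi_ev, Der580.D_mul, D_x, mul_zero, add_zero]

theorem rx_Lev (t : Fin 2) {n : N K} (hn : n ∈ (vR π).Lev 1) : rx π t n ∈ (vR π).Lev 1 := by
  rw [vR_Lev] at hn ⊢
  rw [rx_apply, Psi_ev, KOS296.mem_J_iff_kill, map_mul, (KOS296.mem_J_iff_kill π).1 hn, zero_mul]

theorem rx_inj {t : Fin 2} {n : N K} (hn : rx π t n ∈ (vR π).Lev 1) : n ∈ (vR π).Lev 1 := by
  rw [vR_Lev] at hn ⊢
  rw [rx_apply, Psi_ev] at hn
  exact KOS296.jr_inj π t hn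

theorem rx_NV (t : Fin 2) {P A C : ℤ} {n : N K} (hn : n ∈ (vR π).NV P A C) :
    rx π t n ∈ (vR π).NV (P + 1) A C := by
  rw [vR_NV] at hn ⊢
  rw [rx_apply, Psi_ev]
  exact pz_cast (mul_pz hn (x_pz t)) rfl (add_zero _) (add_zero _)

theorem rx_rx (n : N K) : rx π 0 (rx π 1 n) + rx π 1 (rx π 0 n) = 0 := by
  simp only [rx_apply, Psi_ev]
  rw [mul_assoc, mul_assoc, ← PBW128.rxx]
  exact MM_two π _

theorem rx_gen {P A C : ℤ} {n : N K} (hn : n ∈ (vR π).NV P A C) (hP : 1 ≤ P) :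
    ∃ r : Fin 2 → N K, (∀ t, r t ∈ (vR π).NV (P - 1) A C) ∧ n = rx π 0 (r 0) + rx π 1 (r 1) := by
  obtain ⟨a, ha, b, hb, e⟩ := KOS296.xr_surZ π hP (vR_NV.1 hn)
  refine ⟨![ev π a, ev π b], fun t => ?_, ?_⟩
  · have ht : t = 0 ∨ t = 1 := by omega
    rcases ht with rfl | rfl
    · show ev π a ∈ _
      rw [vR_NV, Psi_ev]; exact ha
    · show ev π b ∈ _
      rw [vR_NV, Psi_ev]; exact hb
  · show n = ev π (Psi π (ev π a) * X π (.x 0)) + ev π (Psi π (ev π b) * X π (.x 1))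
    have e3 : ev π (a * X π (.x 0)) + ev π (b * X π (.x 1)) = ev π (a * X π (.x 0) + b * X π (.x 1)) :=
      (map_add (PBW128.coord π) _ _).symm
    rw [Psi_ev, Psi_ev, e3, ← e, ev_Psi]

theorem rx_ker {P A C : ℤ} {r0 r1 : N K} (h0 : r0 ∈ (vR π).NV P A C) (h1 : r1 ∈ (vR π).NV P A C)
    (h : rx π 0 r0 + rx π 1 r1 ∈ (vR π).Lev 1) :
    ∃ z ∈ (vR π).NV (P - 1) A C, r0 - rx π 1 z ∈ (vR π).Lev 1 ∧ r1 - rx π 0 z ∈ (vR π).Lev 1 := by
  have h2 : Psi π r1 * X π (.x 1) - Psi π r0 * X π (.x 0) ∈ J π := by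
    have h3 := vR_Lev.1 h
    rw [map_add, rx_apply, rx_apply, Psi_ev, Psi_ev] at h3
    have h4 : ∀ y : R π, -y = y := fun y => neg_eq_of_add_eq_zero_left (Der580.add_self π y)
    rw [sub_eq_add_neg, h4, add_comm]
    exact h3
  obtain ⟨c, hc, e1, e2⟩ := KOS296.jr_ker π (vR_NV.1 h1) h2
  refine ⟨ev π c, ?_, ?_, ?_⟩
  · rw [vR_NV, Psi_ev]; exact hc
  · rw [vR_Lev, map_sub, rx_apply, Psi_ev, Psi_ev]; exact e2
  · rw [vR_Lev, map_sub, rx_apply, Psi_ev, Psi_ev]; exact e1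

theorem PC_gen {c : Bool} {P A C : ℤ} {n : N K} (hn : n ∈ (vR π).PC c P A C) (hP : 1 ≤ P) :
    ∃ r : Fin 2 → N K, (∀ t, r t ∈ (vR π).PC c (P - 1) A C) ∧ n = rx π 0 (r 0) + rx π 1 (r 1) := by
  cases c with
  | true => exact rx_gen hn hP
  | false =>
    refine ⟨0, fun t => Submodule.zero_mem _, ?_⟩
    rw [(Submodule.mem_bot K).1 hn]
    show (0 : N K) = rx π 0 0 + rx π 1 0
    rw [map_zero, map_zero, add_zero]

theorem PC_ker {c : Bool} {P A C : ℤ} {r0 r1 : N K} (h0 : r0 ∈ (vR π).PC c P A C)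
    (h1 : r1 ∈ (vR π).PC c P A C) (h : rx π 0 r0 + rx π 1 r1 ∈ (vR π).Lev 1) :
    ∃ z ∈ (vR π).PC c (P - 1) A C, r0 - rx π 1 z ∈ (vR π).Lev 1 ∧ r1 - rx π 0 z ∈ (vR π).Lev 1 := by
  cases c with
  | true => exact rx_ker h0 h1 h
  | false =>
    refine ⟨0, Submodule.zero_mem _, ?_, ?_⟩
    · rw [(Submodule.mem_bot K).1 h0, map_zero, sub_zero]; exact Submodule.zero_mem _
    · rw [(Submodule.mem_bot K).1 h1, map_zero, sub_zero]; exact Submodule.zero_mem _

/-- right multiplication by `x_t` on windows -/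
def rX (t : Fin 2) (c : Bool) (p p' a : ℤ) : ((vR π).T c p' a).win.X →+ ((vR π).T c p a).win.X where
  toFun := fun x i => (rx π t (x i).1, rx π t (x i).2)
  map_zero' := by
    funext i
    exact Prod.ext (map_zero (rx π t)) (map_zero (rx π t))
  map_add' := fun x y => by
    funext i
    exact Prod.ext (map_add (rx π t) _ _) (map_add (rx π t) _ _)

theorem rX_smul (t : Fin 2) {c : Bool} {p p' a : ℤ} (s : (WR π).dga.C)
    (x : ((vR π).T c p' a).win.X) : rX t c p p' a (s • x) = s • rX t c p p' a x := by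
  funext i
  refine Prod.ext ?_ ?_
  · calc rx π t (((s • x : ((vR π).T c p' a).win.X)) i).1
        = rx π t (∑ l, (vR π).ρ (s.1 i l) (x l).1) := congrArg _ ((vR π).T_smul1 s x i)
      _ = ∑ l, (vR π).ρ (s.1 i l) (rX t c p p' a x l).1 := by
          rw [map_sum]
          exact Finset.sum_congr rfl fun l _ => rx_ρ _ _ _
      _ = _ := ((vR π).T_smul1 s (rX t c p p' a x) i).symm
  · calc rx π t (((s • x : ((vR π).T c p' a).win.X)) i).2
        = rx π t (∑ l, (vR π).ρ (s.1 i l) (x l).2) := congrArg _ ((vR π).T_smul2 s x i)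
      _ = ∑ l, (vR π).ρ (s.1 i l) (rX t c p p' a x l).2 := by
          rw [map_sum]
          exact Finset.sum_congr rfl fun l _ => rx_ρ _ _ _
      _ = _ := ((vR π).T_smul2 s (rX t c p p' a x) i).symm

theorem rX_d (t : Fin 2) {c : Bool} {p p' a : ℤ} (x : ((vR π).T c p' a).win.X) :
    ((vR π).T c p a).win.d (rX t c p p' a x) = rX t c p p' a (((vR π).T c p' a).win.d x) := by
  funext i
  rw [VW.T_d]
  refine Prod.ext (rx_d _ _).symm ?_
  show (vR π).dV (rx π t (x i).2) + (vR π).ρ (X π .h) (rx π t (x i).1) =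
    rx π t ((vR π).dV (x i).2 + (vR π).ρ (X π .h) (x i).1)
  rw [map_add, rx_d, rx_ρ]

theorem rX_mem (t : Fin 2) {c : Bool} {p p' a j : ℤ} (hp : p' = p + 1)
    {x : ((vR π).T c p' a).win.X} (hx : x ∈ ((vR π).T c p' a).win.gr j) :
    rX t c p p' a x ∈ ((vR π).T c p a).win.gr j := fun i => by
  have h := ((vR π).T_mem.1 hx) i
  refine ⟨(vR π).PC_map (rx π t).toAddMonoidHom (fun n hn => ?_) h.1, ?_⟩
  · exact (vR π).NV_cast (rx_NV t hn) (by simp only [VW.T]; rw [hp]; ring) rfl rfl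
  · exact (vR π).NV_cast (rx_NV t h.2) (by simp only [VW.T]; rw [hp]; ring) rfl rfl

theorem P_nn (i : (WR π).Ob) : 0 ≤ (WR π).P i := by
  show (0 : ℤ) ≤ ((show DefsQ830.Ob from i).1.val : ℤ)
  exact Int.natCast_nonneg _

/-- the right Koszul column -/
def kos (c : Bool) (a : ℤ) : Kos ((vR π).T c 1 a).win ((vR π).T c 0 a).win ((vR π).T c (-1) a).win
    ((vR π).SL c 1 a 1) ((vR π).SL c 0 a 1) ((vR π).SL c (-1) a 1) where
  a t := rX (if t = 0 then 1 else 0) c 0 1 a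
  b t := rX t c (-1) 0 a
  a_smul t s r := rX_smul _ s r
  b_smul t s r := rX_smul _ s r
  a_mem t {j r} hr := rX_mem _ (by norm_num) hr
  b_mem t {j r} hr := rX_mem _ (by norm_num) hr
  a_d t r := rX_d _ r
  b_d t r := rX_d _ r
  b_J t r hr := fun i => ⟨rx_Lev _ (hr i).1, rx_Lev _ (hr i).2⟩
  ba r := fun i => by
    have h1 : rx π 0 (rx π 1 (r i).1) + rx π 1 (rx π 0 (r i).1) ∈ (vR π).Lev 1 := by
      rw [rx_rx]; exact Submodule.zero_mem _
    have h2 : rx π 0 (rx π 1 (r i).2) + rx π 1 (rx π 0 (r i).2) ∈ (vR π).Lev 1 := by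
      rw [rx_rx]; exact Submodule.zero_mem _
    exact ⟨h1, h2⟩
  gen {j x} hx := by
    have hx' := (vR π).T_mem.1 hx
    have H1 : ∀ i, ∃ r : Fin 2 → N K, (∀ t, r t ∈ (vR π).PC c ((WR π).P i + -0)
        ((WR π).A i + -a - 1) (j - 1)) ∧ (x i).1 = rx π 0 (r 0) + rx π 1 (r 1) := by
      intro i
      obtain ⟨r, h1, h2⟩ := PC_gen (hx' i).1 (by have := P_nn i; omega)
      refine ⟨r, fun t => ?_, h2⟩
      have := h1 t
      rwa [show (WR π).P i + - -1 - 1 = (WR π).P i + -0 by ring] at this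
    have H2 : ∀ i, ∃ r : Fin 2 → N K, (∀ t, r t ∈ (vR π).NV ((WR π).P i + -0)
        ((WR π).A i + -a) j) ∧ (x i).2 = rx π 0 (r 0) + rx π 1 (r 1) := by
      intro i
      obtain ⟨r, h1, h2⟩ := rx_gen (hx' i).2 (by have := P_nn i; omega)
      refine ⟨r, fun t => ?_, h2⟩
      have := h1 t
      rwa [show (WR π).P i + - -1 - 1 = (WR π).P i + -0 by ring] at this
    choose r1 hr1 e1 using H1
    choose r2 hr2 e2 using H2
    refine ⟨fun t i => (r1 i t, r2 i t), fun t i => ⟨hr1 i t, hr2 i t⟩, fun i => ⟨?_, ?_⟩⟩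
    · show (x i).1 - (rx π 0 (r1 i 0) + rx π 1 (r1 i 1)) ∈ (vR π).Lev 1
      rw [← e1, sub_self]; exact Submodule.zero_mem _
    · show (x i).2 - (rx π 0 (r2 i 0) + rx π 1 (r2 i 1)) ∈ (vR π).Lev 1
      rw [← e2, sub_self]; exact Submodule.zero_mem _
  ker {j} r hr h := by
    have hr' := fun t => (vR π).T_mem.1 (hr t)
    have H1 : ∀ i, ∃ z ∈ (vR π).PC c ((WR π).P i + -1) ((WR π).A i + -a - 1) (j - 1),
        (r 0 i).1 - rx π 1 z ∈ (vR π).Lev 1 ∧ (r 1 i).1 - rx π 0 z ∈ (vR π).Lev 1 := by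
      intro i
      obtain ⟨z, hz, h1⟩ := PC_ker (hr' 0 i).1 (hr' 1 i).1 (h i).1
      refine ⟨z, ?_, h1⟩
      rwa [show (WR π).P i + -0 - 1 = (WR π).P i + -1 by ring] at hz
    have H2 : ∀ i, ∃ z ∈ (vR π).NV ((WR π).P i + -1) ((WR π).A i + -a) j,
        (r 0 i).2 - rx π 1 z ∈ (vR π).Lev 1 ∧ (r 1 i).2 - rx π 0 z ∈ (vR π).Lev 1 := by
      intro i
      obtain ⟨z, hz, h1⟩ := rx_ker (hr' 0 i).2 (hr' 1 i).2 (h i).2
      refine ⟨z, ?_, h1⟩
      rwa [show (WR π).P i + -0 - 1 = (WR π).P i + -1 by ring] at hz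
    choose z1 hz1 e1 using H1
    choose z2 hz2 e2 using H2
    refine ⟨fun i => (z1 i, z2 i), fun i => ⟨hz1 i, hz2 i⟩, fun t i => ?_⟩
    have ht : t = 0 ∨ t = 1 := by omega
    rcases ht with rfl | rfl
    · exact ⟨(e1 i).1, (e2 i).1⟩
    · exact ⟨(e1 i).2, (e2 i).2⟩
  inj {j z} _ h := fun i => ⟨rx_inj (h i).1, rx_inj (h i).2⟩

/-! ### the theorems -/

variable {Y : RCells (WR π).dga}

theorem jacR {c : Bool} {p a : ℤ} (h : ∀ n, AcQ Y ((vR π).T c p a).win ⊤ ⊥ n) (n : ℤ) :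
    AcQ Y ((vR π).T c p a).win ⊤ ((vR π).SL c p a 1) n :=
  jac (r := 2) (by norm_num) ((vR π).chain c p p a (by show p = p + 0; ring) 1 (by norm_num)) rfl
    (fun j hj => (vR π).T_neg hj) h n

/-- **columns `(1,a)` of `M`** -/
theorem colM (s : ℕ) (hs : 2 ≤ s) {a : ℤ} (h : ∀ n, AcQ Y ((vR π).T false 0 a).win ⊤ ⊥ n) (n : ℤ) :
    AcQ Y ((vM π s hs).T false 1 a).win ⊤ ⊥ n := by
  have h1 := ((vM π s hs).chain false 1 0 a (by show (0 : ℤ) = 1 + -1; norm_num) 0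
    (by norm_num)).acQ (Y := Y) (n := n) (fun m _ => jacR h m) (by norm_num)
  have h2 : ((vM π s hs).chain false 1 0 a (by show (0 : ℤ) = 1 + -1; norm_num) 0
    (by norm_num)).F 0 = ⊤ := (vM π s hs).SL_zero
  rw [h2] at h1
  exact h1

/-- **cones of `h` on the columns `(0,a+1) → (0,a)` of `M`** -/
theorem coneM (s : ℕ) (hs : 2 ≤ s) {a : ℤ} (h0 : ∀ n, AcQ Y ((vR π).T true 0 a).win ⊤ ⊥ n)
    (h1 : ∀ n, AcQ Y ((vR π).T true 1 a).win ⊤ ⊥ n) (n : ℤ) :
    AcQ Y ((vM π s hs).T true 0 a).win ⊤ ⊥ n := by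
  have hk : ∀ m, AcQ Y ((vR π).T true (-1) a).win ⊤ ((vR π).SL true (-1) a 1) m := fun m =>
    (kos true a).acQ (fun x hx => (vR π).SL_d hx) (fun x hx => (vR π).SL_d hx)
      (fun t r hr i => ⟨rx_Lev _ (hr i).1, rx_Lev _ (hr i).2⟩) (jacR h0 m) (jacR h1 (m - 1))
  have h3 := ((vM π s hs).chain true 0 (-1) a (by show (-1 : ℤ) = 0 + -1; norm_num) 0
    (by norm_num)).acQ (Y := Y) (n := n) (fun m _ => hk m) (by norm_num)
  have h4 : ((vM π s hs).chain true 0 (-1) a (by show (-1 : ℤ) = 0 + -1; norm_num) 0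
    (by norm_num)).F 0 = ⊤ := (vM π s hs).SL_zero
  rw [h4] at h3
  exact h3

end Crest.Agent.R186.V3x726
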