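import Crest.Agent.R186.V3b_726
import Crest.Agent.R186.ColHB_977
import Crest.Agent.R186.ColB_790

/-!
Row 186, half (A) (helper726), leaf V3, part 3: binding of `V3b_726` to the literals of
`ColHB_977.hb_cols` and `ColB_790.base0 / base`.
-/

set_option autoImplicit false
set_option linter.unusedSimpArgs false
set_option linter.style.haveILetI false
set_option linter.unusedSectionVars false

open MulOpposite

noncomputable section

namespace Crest.Agent.R186.V3x726

open DefsQ830 DefsQ830.Gen PBW128 SM890 Win810 Frame515 WBM163 AcY726 Hat827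
open C2b362 (pz J NZ mem_NZ mem_pz mem_J mul_pz D_pz pz_cast)
open Col921 ColB790 ColAd977 TB143 Res255

/-! ### transport of acyclicity -/

section tr

variable {K : Type} [Field K] {A : DGA K} {Y : RCells A} {N N' : LM A}

theorem um_gr (u : N'.X →+ N.X) (hu : ∀ (a : A.C) r, u (a • r) = a • u r) {c : ℤ}
    (hm : ∀ {j : ℤ} {r}, r ∈ N'.gr j → u r ∈ N.gr (j + c)) {m : ℤ} {x : Y.ι →₀ N'.X}
    (hx : x ∈ (tY Y N').gr m) : um (Y := Y) u x ∈ (tY Y N).gr (m + c) := fun σ => by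
  have h := hm (hx σ).1
  rw [show m - (Y.s σ : ℤ) + c = m + c - Y.s σ by ring] at h
  exact ⟨h, (hu _ _).symm.trans (congrArg u (hx σ).2)⟩

theorem um_gr0 (u : N'.X →+ N.X) (hu : ∀ (a : A.C) r, u (a • r) = a • u r)
    (hm : ∀ {j : ℤ} {r}, r ∈ N'.gr j → u r ∈ N.gr j) {m : ℤ} {x : Y.ι →₀ N'.X}
    (hx : x ∈ (tY Y N').gr m) : um (Y := Y) u x ∈ (tY Y N).gr m := fun σ =>
  ⟨hm (hx σ).1, (hu _ _).symm.trans (congrArg u (hx σ).2)⟩

/-- commutation with the differential up to another map -/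
theorem um_dw (u w : N'.X →+ N.X) (hu : ∀ (a : A.C) r, u (a • r) = a • u r)
    (hd : ∀ r, N.d (u r) = u (N'.d r) + w r) (x : Y.ι →₀ N'.X) :
    (tY Y N).d (um u x) = um u ((tY Y N').d x) + um w x := by
  refine Finsupp.ext fun τ => ?_
  have e1 := d_apply (Y := Y) (N := N) (um u x) x.support Finsupp.support_mapRange τ
  have e2 := d_apply (Y := Y) (N := N') x x.support (Finset.Subset.refl _) τ
  have e3 : (um u ((tY Y N').d x) + um w x : Y.ι →₀ N.X) τ = u ((tY Y N').d x τ) + w (x τ) := rfl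
  rw [e3, e1, e2, map_add, map_sum, um_apply, hd]
  have e4 : ∑ σ ∈ x.support, Y.c τ σ • (um u x) σ = ∑ σ ∈ x.support, u (Y.c τ σ • x σ) :=
    Finset.sum_congr rfl fun σ _ => by rw [hu, um_apply]
  rw [e4]
  abel

theorem um_zero (u : N'.X →+ N.X) : um (Y := Y) u 0 = 0 := Finsupp.ext fun σ => map_zero u

theorem acQ_tr (f : N.X →+ N'.X) (g : N'.X →+ N.X)
    (f_smul : ∀ (a : A.C) x, f (a • x) = a • f x) (g_smul : ∀ (a : A.C) y, g (a • y) = a • g y)
    (f_mem : ∀ {j : ℤ} {x}, x ∈ N.gr j → f x ∈ N'.gr j)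
    (g_mem : ∀ {j : ℤ} {y}, y ∈ N'.gr j → g y ∈ N.gr j)
    (g_d : ∀ y, N.d (g y) = g (N'.d y))
    (gf : ∀ {j : ℤ} {x}, x ∈ N.gr j → g (f x) = x) (fg : ∀ y, f (g y) = y) (n : ℤ) :
    AcQ Y N ⊤ ⊥ n ↔ AcQ Y N' ⊤ ⊥ n := by
  have hd : ∀ y : Y.ι →₀ N'.X, (tY Y N).d (um g y) = um g ((tY Y N').d y) := fun y => by
    have h := um_dw (Y := Y) g 0 g_smul (fun r => by rw [g_d]; exact (add_zero _).symm) y
    rw [h]
    refine Finsupp.ext fun σ => ?_
    exact add_zero _
  have hgf : ∀ {m : ℤ} {x : Y.ι →₀ N.X}, x ∈ (tY Y N).gr m → um (Y := Y) g (um f x) = x :=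
    fun hx => Finsupp.ext fun σ => gf (hx σ).1
  have hfg : ∀ y : Y.ι →₀ N'.X, um (Y := Y) f (um g y) = y := fun y => Finsupp.ext fun σ => fg _
  rw [acQ_iff, acQ_iff]
  constructor
  · intro h y hy hdy
    obtain ⟨x, hx, e⟩ := h (um g y) (um_gr0 g g_smul g_mem hy) (by rw [hd, hdy, um_zero])
    refine ⟨um f x, um_gr0 f f_smul f_mem hx, ?_⟩
    have h1 := hfg ((tY Y N').d (um f x))
    rw [← hd, hgf hx, e, hfg] at h1
    exact h1.symm
  · intro h x hx hdx
    have h1 := hfg ((tY Y N').d (um f x))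
    rw [← hd, hgf hx, hdx, um_zero] at h1
    obtain ⟨y, hy, e⟩ := h (um f x) (um_gr0 f f_smul f_mem hx) h1.symm
    exact ⟨um g y, um_gr0 g g_smul g_mem hy, by rw [hd, e, hgf hx]⟩

end tr

variable {K : Type} [Field K] {π : Par K}

/-! ### the side of `M` -/

theorem vM_NV {s : ℕ} {hs : 2 ≤ s} {P A C : ℤ} {n : N K} :
    n ∈ (vM π s hs).NV P A C ↔ n ∈ pcM π s P A C := by
  constructor
  · intro hn
    rw [(vM π s hs).sum_cq n]
    refine Submodule.sum_mem _ fun q _ => ?_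
    refine mem_pcM π s q (t := VW.cq q n) (C' := C - (s - wC q.word)) ?_ (by ring)
    rw [KOS296.pcZ_eq_pz]
    exact pz_cast ((vM π s hs).cq_NV hn q) (by show P - -1 = P + 1; ring) rfl rfl
  · intro hn
    refine pcM_ind π s (Q := (vM π s hs).NV P A C) ?_ hn
    intro q t ht
    rw [KOS296.pcZ_eq_pz] at ht
    exact (vM π s hs).NV_cast ((vM π s hs).ρ_NV ht q) (by show P + 1 + -1 = P; ring) rfl
      (by show C - s + wC q.word + (s - wC q.word) = C; ring)

theorem rho_h (m : MM π) : rho π (X π .h) m = repM π (X π .h) m := by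
  have hm : m = ∑ q, repM π (VW.cq q m) (oo K q) := (vM π 2 le_rfl).sum_cq m
  rw [hm, map_sum, map_sum]
  refine Finset.sum_congr rfl fun q _ => ?_
  have ht : tau π (Tq π q) (X π .h) = X π .h := by
    rw [tau_X]; exact one_smul _ _
  rw [rho_repM, ht, ← h_comm]
  exact ((vM π 2 le_rfl).ρρ _ _ _).symm

/-! ### identification of columns -/

theorem cvx' {B : LB (WR π)} {v v' : Cv B} (h : ∀ i, v i = v' i) : v = v' := funext h

/-- identification of the entries -/
structure Idf (V : VW π) (B : LB (WR π)) where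
  φ : N K →+ B.B
  ψ : B.B →+ N K
  φψ : ∀ b, φ (ψ b) = b
  ψφ : ∀ n, ψ (φ n) = n
  act : ∀ (r : R π) (n : N K), φ (V.ρ r n) = (show (WR π).S from r) • φ n
  d : ∀ n, φ (V.dV n) = B.d (φ n)
  mem : ∀ {P A C : ℤ} {n : N K}, n ∈ V.NV P A C ↔ φ n ∈ B.pb P A C

/-- `M` -/
def idM (π : Par K) (s : ℕ) (hs : 2 ≤ s) : Idf (vM π s hs) (MB π s hs) where
  φ := AddMonoidHom.id _
  ψ := AddMonoidHom.id _
  φψ _ := rfl
  ψφ _ := rfl
  act _ _ := rfl
  d _ := rfl
  mem := vM_NV

/-- `R''` -/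
def idR (π : Par K) : Idf (vR π) (selfLB (WR π)) where
  φ := (Psi π).toAddMonoidHom
  ψ := (ev π).toAddMonoidHom
  φψ b := Psi_ev π b
  ψφ n := ev_Psi π n
  act r n := Psi_rep π r n
  d n := Psi_ev π _
  mem {P A C n} := by
    rw [vR_NV, ← KOS296.pcZ_eq_pz]
    rfl

namespace Idf

variable {V : VW π} {B : LB (WR π)} (I : Idf V B)

theorem ψ_act (r : R π) (b : B.B) : I.ψ ((show (WR π).S from r) • b) = V.ρ r (I.ψ b) := by
  rw [← I.ψφ (V.ρ r (I.ψ b)), I.act, I.φψ]

theorem ψ_d (b : B.B) : I.ψ (B.d b) = V.dV (I.ψ b) := by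
  rw [← I.ψφ (V.dV (I.ψ b)), I.d, I.φψ]

theorem ψ_mem {P A C : ℤ} {b : B.B} (h : b ∈ B.pb P A C) : I.ψ b ∈ V.NV P A C := by
  rw [I.mem, I.φψ]; exact h

/-- second component -/
def f2 (c : Bool) (p a : ℤ) : (V.T c p a).win.X →+ Cv B where
  toFun x := fun i => I.φ (x i).2
  map_zero' := cvx' fun i => map_zero I.φ
  map_add' x y := cvx' fun i => map_add I.φ _ _

/-- first component -/
def f1 (c : Bool) (p a : ℤ) : (V.T c p a).win.X →+ Cv B where
  toFun x := fun i => I.φ (x i).1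
  map_zero' := cvx' fun i => map_zero I.φ
  map_add' x y := cvx' fun i => map_add I.φ _ _

/-- from the second component -/
def g2 (c : Bool) (p a : ℤ) : Cv B →+ (V.T c p a).win.X where
  toFun v := fun i => (0, I.ψ (v i))
  map_zero' := funext fun i => Prod.ext rfl (map_zero I.ψ)
  map_add' x y := funext fun i => Prod.ext (add_zero _).symm (map_add I.ψ _ _)

/-- from the first component -/
def g1 (c : Bool) (p a : ℤ) : Cv B →+ (V.T c p a).win.X where
  toFun v := fun i => (I.ψ (v i), 0)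
  map_zero' := funext fun i => Prod.ext (map_zero I.ψ) rfl
  map_add' x y := funext fun i => Prod.ext (map_add I.ψ _ _) (add_zero _).symm

variable {c : Bool} {p a : ℤ}

theorem f2_smul (m : (WR π).dga.C) (x : (V.T c p a).win.X) : I.f2 c p a (m • x) = m • I.f2 c p a x :=
  cvx' fun i => by
    calc I.φ ((m • x : (V.T c p a).win.X) i).2
        = I.φ (∑ l, V.ρ (m.1 i l) (x l).2) := congrArg _ (V.T_smul2 m x i)
      _ = ∑ l, (show (WR π).S from m.1 i l) • I.φ (x l).2 := by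
          rw [map_sum]
          exact Finset.sum_congr rfl fun l _ => I.act _ _
      _ = _ := rfl

theorem f1_smul (m : (WR π).dga.C) (x : (V.T c p a).win.X) : I.f1 c p a (m • x) = m • I.f1 c p a x :=
  cvx' fun i => by
    calc I.φ ((m • x : (V.T c p a).win.X) i).1
        = I.φ (∑ l, V.ρ (m.1 i l) (x l).1) := congrArg _ (V.T_smul1 m x i)
      _ = ∑ l, (show (WR π).S from m.1 i l) • I.φ (x l).1 := by
          rw [map_sum]
          exact Finset.sum_congr rfl fun l _ => I.act _ _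
      _ = _ := rfl

theorem g2_smul (m : (WR π).dga.C) (v : Cv B) : I.g2 c p a (m • v) = m • I.g2 c p a v := by
  funext i
  refine Prod.ext ?_ ?_
  · refine Eq.trans ?_ (V.T_smul1 m (I.g2 c p a v) i).symm
    refine (Finset.sum_eq_zero fun l _ => ?_).symm
    exact map_zero (V.ρ _)
  · refine Eq.trans ?_ (V.T_smul2 m (I.g2 c p a v) i).symm
    show I.ψ (∑ l, (show (WR π).S from m.1 i l) • v l) = ∑ l, V.ρ (m.1 i l) (I.ψ (v l))
    rw [map_sum]
    exact Finset.sum_congr rfl fun l _ => I.ψ_act _ _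

theorem g1_smul (m : (WR π).dga.C) (v : Cv B) : I.g1 c p a (m • v) = m • I.g1 c p a v := by
  funext i
  refine Prod.ext ?_ ?_
  · refine Eq.trans ?_ (V.T_smul1 m (I.g1 c p a v) i).symm
    show I.ψ (∑ l, (show (WR π).S from m.1 i l) • v l) = ∑ l, V.ρ (m.1 i l) (I.ψ (v l))
    rw [map_sum]
    exact Finset.sum_congr rfl fun l _ => I.ψ_act _ _
  · refine Eq.trans ?_ (V.T_smul2 m (I.g1 c p a v) i).symm
    refine (Finset.sum_eq_zero fun l _ => ?_).symm
    exact map_zero (V.ρ _)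

theorem f2_mem {j : ℤ} {x : (V.T c p a).win.X} (hx : x ∈ (V.T c p a).win.gr j) :
    I.f2 c p a x ∈ grc B p a j := fun i =>
  B.cast (I.mem.1 ((V.T_mem.1 hx) i).2) (by ring) (by ring) rfl

theorem g2_mem {j : ℤ} {v : Cv B} (hv : v ∈ grc B p a j) : I.g2 c p a v ∈ (V.T c p a).win.gr j :=
  fun i => ⟨Submodule.zero_mem _, V.NV_cast (I.ψ_mem (hv i)) (by simp only [VW.T]; ring)
    (by simp only [VW.T]; ring) rfl⟩

include I in
/-- **single columns** -/
theorem single {Y : RCells (WR π).dga} (n : ℤ) :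
    AcQ Y (V.T false p a).win ⊤ ⊥ n ↔ AcQ Y (colL B p a) ⊤ ⊥ n := by
  refine acQ_tr (N := (V.T false p a).win) (N' := colL B p a) (I.f2 false p a) (I.g2 false p a)
    I.f2_smul I.g2_smul I.f2_mem I.g2_mem ?_ ?_ ?_ n
  · intro v
    funext i
    rw [VW.T_d]
    refine Prod.ext (map_zero V.dV) ?_
    show V.dV (I.ψ (v i)) + V.ρ (X π .h) 0 = I.ψ (B.d (v i))
    rw [map_zero, add_zero, I.ψ_d]
  · intro j x hx
    funext i
    have h := ((V.T_mem.1 hx) i).1
    exact Prod.ext ((Submodule.mem_bot K).1 h).symm (I.ψφ _)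
  · intro v
    exact cvx' fun i => I.φψ _

/-- left multiplication by `h` -/
def hh (B : LB (WR π)) : Cv B →+ Cv B where
  toFun v := fun i => (show (WR π).S from X π .h) • v i
  map_zero' := cvx' fun i => smul_zero _
  map_add' x y := cvx' fun i => smul_add _ _ _

theorem f1_mem {j : ℤ} {x : (V.T true p a).win.X} (hx : x ∈ (V.T true p a).win.gr j) :
    I.f1 true p a x ∈ grc B p (a + 1) (j + -1) := fun i =>
  B.cast (I.mem.1 ((V.T_mem.1 hx) i).1) (by ring) (by ring) (by ring)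

theorem g1_mem {j : ℤ} {v : Cv B} (hv : v ∈ grc B p (a + 1) j) :
    I.g1 true p a v ∈ (V.T true p a).win.gr (j + 1) :=
  fun i => ⟨V.NV_cast (I.ψ_mem (hv i)) (by simp only [VW.T]; ring)
    (by simp only [VW.T]; ring) (by ring), Submodule.zero_mem _⟩

include I in
/-- **cones, from the elementwise form** -/
theorem cone_of {Y : RCells (WR π).dga}
    (H : ∀ (k : ℤ) (x y : Y.ι →₀ Cv B), x ∈ (tY Y (colL B p (a + 1))).gr k →
      (tY Y (colL B p (a + 1))).d x = 0 → y ∈ (tY Y (colL B p a)).gr (k + 1) →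
      um (N := colL B p a) (N' := colL B p (a + 1)) (hh B) x = (tY Y (colL B p a)).d y →
      ∃ x' ∈ (tY Y (colL B p (a + 1))).gr (k + 1), ∃ y' ∈ (tY Y (colL B p a)).gr (k + 2),
        x = (tY Y (colL B p (a + 1))).d x' ∧
        y = um (N := colL B p a) (N' := colL B p (a + 1)) (hh B) x' + (tY Y (colL B p a)).d y')
    (n : ℤ) : AcQ Y (V.T true p a).win ⊤ ⊥ n := by
  rw [acQ_iff]
  intro z hz hdz
  have e1 := um_dw (Y := Y) (N := colL B p (a + 1)) (N' := (V.T true p a).win) (I.f1 true p a) 0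
    I.f1_smul (fun r => cvx' fun i => by
      show B.d (I.φ (r i).1) = I.φ (V.dV (r i).1) + 0
      rw [I.d, add_zero]) z
  have e2 := um_dw (Y := Y) (N := colL B p a) (N' := (V.T true p a).win) (I.f2 true p a)
    ((hh B).comp (I.f1 true p a)) I.f2_smul (fun r => cvx' fun i => by
      show B.d (I.φ (r i).2) = I.φ (V.dV (r i).2 + V.ρ (X π .h) (r i).1) +
        (show (WR π).S from X π .h) • I.φ (r i).1
      rw [map_add, I.d, I.act, add_assoc, B.two, add_zero]) z
  rw [hdz, um_zero, zero_add] at e1 e2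
  have a1 := um_gr (Y := Y) (N := colL B p (a + 1)) (N' := (V.T true p a).win) (I.f1 true p a)
    I.f1_smul I.f1_mem hz
  have a2 : (tY Y (colL B p (a + 1))).d (um (I.f1 true p a) z) = 0 :=
    e1.trans (Finsupp.ext fun σ => rfl)
  have a3 : um (N := colL B p a) (I.f2 true p a) z ∈ (tY Y (colL B p a)).gr (n + -1 + 1) := by
    have := um_gr0 (Y := Y) (N := colL B p a) (N' := (V.T true p a).win) (I.f2 true p a)
      I.f2_smul I.f2_mem hz
    rwa [show n + -1 + 1 = n by ring]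
  have a5 : um (Y := Y) (N := colL B p a) (N' := colL B p (a + 1)) (hh B)
      (um (N := colL B p (a + 1)) (I.f1 true p a) z) =
      um (Y := Y) (N := colL B p a) (N' := (V.T true p a).win) ((hh B).comp (I.f1 true p a)) z :=
    Finsupp.ext fun σ => rfl
  have a4 := a5.trans e2.symm
  obtain ⟨x', hx', y', hy', h1, h2⟩ := H (n + -1) _ _ a1 a2 a3 a4
  refine ⟨um (N := (V.T true p a).win) (N' := colL B p (a + 1)) (I.g1 true p a) x' +
    um (N := (V.T true p a).win) (N' := colL B p a) (I.g2 true p a) y', ?_, ?_⟩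
  · refine Submodule.add_mem _ ?_ ?_
    · have := um_gr (Y := Y) (N := (V.T true p a).win) (N' := colL B p (a + 1)) (c := 1)
        (I.g1 true p a) I.g1_smul I.g1_mem hx'
      rwa [show n + -1 + 1 + 1 = n + 1 by ring] at this
    · have := um_gr0 (Y := Y) (N := (V.T true p a).win) (N' := colL B p a)
        (I.g2 true p a) I.g2_smul I.g2_mem hy'
      rwa [show n + -1 + 2 = n + 1 by ring] at this
  · have e3 := um_dw (Y := Y) (N := (V.T true p a).win) (N' := colL B p (a + 1)) (I.g1 true p a)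
      ((I.g2 true p a).comp (hh B)) I.g1_smul (fun r => by
        funext i
        rw [VW.T_d]
        refine Prod.ext ?_ ?_
        · show V.dV (I.ψ (r i)) = I.ψ (B.d (r i)) + 0
          rw [I.ψ_d, add_zero]
        · show V.dV 0 + V.ρ (X π .h) (I.ψ (r i)) = 0 + I.ψ ((show (WR π).S from X π .h) • r i)
          rw [map_zero, I.ψ_act]) x'
    have e4 := um_dw (Y := Y) (N := (V.T true p a).win) (N' := colL B p a) (I.g2 true p a)
      0 I.g2_smul (fun r => by
        funext i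
        rw [VW.T_d]
        refine Prod.ext ?_ ?_
        · show V.dV 0 = 0 + 0
          rw [map_zero, add_zero]
        · show V.dV (I.ψ (r i)) + V.ρ (X π .h) 0 = I.ψ (B.d (r i)) + 0
          rw [map_zero, I.ψ_d]) y'
    rw [map_add, e3, e4, ← h1]
    refine Finsupp.ext fun σ => ?_
    have h2' := DFunLike.congr_fun h2 σ
    funext i
    have h3 : I.φ (z σ i).2 = (show (WR π).S from X π .h) • x' σ i +
        ((tY Y (colL B p a)).d y') σ i := congrFun h2' i
    refine Prod.ext ?_ ?_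
    · show I.ψ (I.φ (z σ i).1) + 0 + (0 + 0) = (z σ i).1
      rw [I.ψφ, add_zero, add_zero, add_zero]
    · show 0 + I.ψ ((show (WR π).S from X π .h) • x' σ i) + (I.ψ (((tY Y (colL B p a)).d y') σ i) + 0)
        = (z σ i).2
      rw [zero_add, add_zero, ← map_add, ← h3, I.ψφ]

end Idf

/-! ### the conclusions -/

variable {Y : RCells (WR π).dga}

theorem ac_of_acQ {N : LM (WR π).dga} (h : ∀ n, AcQ Y N ⊤ ⊥ n) : Ac (tY Y N) :=
  fun n x hx hd => acQ_iff.1 (h n) x hx hd

theorem acQ_of_ac {N : LM (WR π).dga} (h : Ac (tY Y N)) (n : ℤ) : AcQ Y N ⊤ ⊥ n :=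
  acQ_iff.2 fun x hx hd => h n x hx hd

/-- **the columns `(1,b)` of `M`** (the hypothesis `h1` of `ColHB_977.hb_cols`) -/
theorem ac_col (s : ℕ) (hs : 2 ≤ s) {a : ℤ} (h : Ac (tY Y (colL (selfLB (WR π)) 0 a))) :
    Ac (tY Y (colL (MB π s hs) 1 a)) :=
  ac_of_acQ fun n => ((idM π s hs).single n).1
    (colM s hs (fun m => ((idR π).single m).2 (acQ_of_ac h m)) n)

/-- the elementwise form of "multiplication by `h` : `(p,a+1) → (p,a)` is a quasi-isomorphism" -/
def El (Y : RCells (WR π).dga) (B : LB (WR π)) (p a : ℤ) : Prop :=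
  ∀ (k : ℤ) (x y : Y.ι →₀ Cv B), x ∈ (tY Y (colL B p (a + 1))).gr k →
      (tY Y (colL B p (a + 1))).d x = 0 → y ∈ (tY Y (colL B p a)).gr (k + 1) →
      um (N := colL B p a) (N' := colL B p (a + 1)) (Idf.hh B) x = (tY Y (colL B p a)).d y →
      ∃ x' ∈ (tY Y (colL B p (a + 1))).gr (k + 1), ∃ y' ∈ (tY Y (colL B p a)).gr (k + 2),
        x = (tY Y (colL B p (a + 1))).d x' ∧
        y = um (N := colL B p a) (N' := colL B p (a + 1)) (Idf.hh B) x' + (tY Y (colL B p a)).d y'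

/-- column maps -/
def fM (s : ℕ) (hs : 2 ≤ s) (b : Fin 3) : ((vM π s hs).T true 0 ((b : ℕ) : ℤ)).win.X →+
    (coneL (hSt π s hs b)).X where
  toFun z := (fun i => (z i).1, fun i => (z i).2)
  map_zero' := rfl
  map_add' x y := rfl

def gM (s : ℕ) (hs : 2 ≤ s) (b : Fin 3) : (coneL (hSt π s hs b)).X →+
    ((vM π s hs).T true 0 ((b : ℕ) : ℤ)).win.X where
  toFun z := fun i => (z.1 i, z.2 i)
  map_zero' := rfl
  map_add' x y := rfl

theorem neg_MM (m : MM π) : -m = m := neg_eq_of_add_eq_zero_left (MM_two π m)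

/-- **right multiplication by `h` on the columns `(0,b+1) → (0,b)` of `M`**
(the hypothesis `h2` of `ColHB_977.hb_cols`) -/
theorem qi_h (s : ℕ) (hs : 2 ≤ s) (b : Fin 3) (h0 : El Y (selfLB (WR π)) 0 ((b : ℕ) : ℤ))
    (h1 : El Y (selfLB (WR π)) 1 ((b : ℕ) : ℤ)) : QI (tYmap Y (hSt π s hs b)) := by
  refine qi_of_cone _ Y (ac_of_acQ fun n => ?_)
  refine (acQ_tr (Y := Y) (N := ((vM π s hs).T true 0 ((b : ℕ) : ℤ)).win)
    (N' := coneL (hSt π s hs b)) (fM s hs b) (gM s hs b) ?_ ?_ ?_ ?_ ?_ ?_ ?_ n).1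
    (coneM s hs (fun m => (idR π).cone_of h0 m) (fun m => (idR π).cone_of h1 m) n)
  · intro m x
    refine Prod.ext ?_ ?_
    · funext i
      exact (vM π s hs).T_smul1 m x i
    · funext i
      exact (vM π s hs).T_smul2 m x i
  · intro m x
    funext i
    refine Prod.ext ?_ ?_
    · exact ((vM π s hs).T_smul1 m (gM s hs b x) i).symm
    · exact ((vM π s hs).T_smul2 m (gM s hs b x) i).symm
  · intro j x hx
    have h := (vM π s hs).T_mem.1 hx
    refine ⟨fun i => ?_, fun i => ?_⟩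
    · refine (MB π s hs).cast (vM_NV.1 (h i).1) rfl ?_ rfl
      show (WR π).A i + -((b : ℕ) : ℤ) - 1 = (WR π).A i - (((b.succ : Fin 4) : ℕ) : ℤ)
      rw [Fin.val_succ]; push_cast; ring
    · exact (MB π s hs).cast (vM_NV.1 (h i).2) rfl rfl rfl
  · intro j x hx
    obtain ⟨h1, h2⟩ := hx
    refine (vM π s hs).T_mem.2 fun i => ⟨?_, ?_⟩
    · show x.1 i ∈ (vM π s hs).NV _ _ _
      refine vM_NV.2 ((MB π s hs).cast (h1 i) rfl ?_ rfl)
      show (WR π).A i - (((b.succ : Fin 4) : ℕ) : ℤ) = (WR π).A i + -((b : ℕ) : ℤ) - 1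
      rw [Fin.val_succ]; push_cast; ring
    · show x.2 i ∈ (vM π s hs).NV _ _ _
      exact vM_NV.2 ((MB π s hs).cast (h2 i) rfl rfl rfl)
  · intro x
    funext i
    rw [VW.T_d]
    refine Prod.ext ?_ ?_
    · exact (neg_MM (π := π) (dM π (x.1 i))).symm
    · exact (add_comm (dM π (x.2 i)) (repM π (X π .h) (x.1 i))).trans
        (congrArg (fun w => w + dM π (x.2 i)) (rho_h (π := π) (x.1 i)).symm)
  · intro j x _
    rfl
  · intro x
    rfl

end Crest.Agent.R186.V3x726
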