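import Crest.Agent.R186.S3f_774
import Crest.Agent.R186.S3r_774

/-!
Row 186 (helper774), half (A): the two joints of (V) on Frame_515.
`h : L'' → Γ`, `π : Γ → L''`, `π h = id`, `M = ker π`.
-/

set_option autoImplicit false
set_option linter.style.haveILetI false
set_option linter.unusedSectionVars false
set_option linter.unusedSimpArgs false

open MulOpposite

namespace Crest.Agent.R186.VJ774

open Hat827 Hat827.DGA Frame515 Res255 AcIff492 S3i774 S3r774 S3f774

variable {K : Type} [Field K]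

/-- exactness of the quotient in one degree -/
theorem ses_z {X Y W : GC K} (S : Ses X Y W) {k : ℤ} (hY : Z Y k) (hX : Z X (k - 1)) : Z W k := by
  intro z hz hdz
  obtain ⟨y, hy, hyz⟩ := S.sur hz
  have hdy : Y.d y ∈ Y.gr (k - 1) := Y.d_mem hy
  obtain ⟨x, hx, hxy⟩ := S.ex hdy (by rw [S.p.f_d, hyz, hdz])
  have hdx : X.d x = 0 := S.inj (X.d_mem hx) (by rw [S.i.f_d, hxy, Y.d_d])
  obtain ⟨x', hx', hxx⟩ := hX x hx hdx
  rw [sub_add_cancel] at hx'
  have hcyc : Y.d (y - S.i.f x') = 0 := by rw [map_sub, ← S.i.f_d, hxx, hxy, sub_self]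
  obtain ⟨w, hw, hwy⟩ := hY _ (Submodule.sub_mem _ hy (S.i.f_mem hx')) hcyc
  refine ⟨S.p.f w, S.p.f_mem hw, ?_⟩
  rw [← S.p.f_d, hwy, map_sub, hyz, S.zero, sub_zero]

variable {A B : DGA K} (h : Hm B A) (π : Hm A B)

/-- **left joint** (340's (V')): `Y` right `Γ`-cells of `G`, `X''` left `L''`-cells of `V`,
`X` left `Γ`-cells of `V`; `Y ⊗ (M ⊗ X'')` acyclic and `G ⊗_{L''} X''` exact in degree `n`
give `G ⊗_Γ X` exact in degree `n` (all resolutions starting in degree `0`). -/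
theorem vjoinL {M : BM A B} (k : Kr h π M) {Y : RCells A} {G : RM A} (R : RRes Y G)
    (hR : R.lo = 0) {X'' : LCells B} {V : LM B} (S : LRes X'' V) (hS : S.lo = 0)
    {X : LCells A} (T : LRes X (resL π V)) (hT : T.lo = 0) (n : ℤ)
    (hM : Z (tY Y (tP M X'')) (n - 1)) (hC : Z (tG (resR h G) X'') n) : Z (tG G X) n := by
  have h1 : Z (tY Y (tP (resBR h (selfB A)) X'')) n := by
    refine (z_mid h R X'' n).2 ?_
    rwa [hR, zero_add]
  have h2 : Z (tY Y (tP (resBL π (selfB B)) X'')) n :=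
    ses_z (tY_ses Y (tP_ses (k.ses h π) X'')) h1 hM
  have h3 : Z (tY Y (resL π V)) n := by
    have := (z_quot π Y S n).1 h2
    rwa [hS, zero_add] at this
  have h4 := (z_iff R T n).2 (by rwa [hT, zero_add])
  rwa [hR, zero_add] at h4

/-- `Γ`-module structure through `π`, restricted back along `h` -/
theorem z_back (sec : ∀ b, π.f (h.f b) = b) (Y : RCells B) (V : LM B) (n : ℤ) :
    Z (tY Y (resL h (resL π V))) n ↔ Z (tY Y V) n := by
  have hs : ∀ (b : B.C) (x : V.X), lmul (resL h (resL π V)) b x = lmul V b x := by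
    intro b x
    have : π.f (h.f b) • x = b • x := by rw [sec]
    exact this
  have hg : ∀ (m : ℤ) (x : Y.ι →₀ V.X),
      x ∈ (twY Y (resL h (resL π V))).gr m ↔ x ∈ (twY Y V).gr m := by
    intro m x
    constructor
    · intro hx σ
      exact ⟨(hx σ).1, (hs _ _).symm.trans (hx σ).2⟩
    · intro hx σ
      exact ⟨(hx σ).1, (hs _ _).trans (hx σ).2⟩
  have hd : ∀ x : Y.ι →₀ V.X, (twY Y (resL h (resL π V))).dd x = (twY Y V).dd x := by
    intro x
    refine Finsupp.ext fun τ => ?_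
    refine ((twY Y (resL h (resL π V))).dd_apply' x x.support (Finset.Subset.refl _) τ).trans ?_
    refine Eq.trans ?_ ((twY Y V).dd_apply' x x.support (Finset.Subset.refl _) τ).symm
    refine congrArg₂ (· + ·) rfl (Finset.sum_congr rfl fun σ _ => ?_)
    exact hs _ _
  constructor
  · intro H x hx hdx
    obtain ⟨y, hy, hyx⟩ := H x ((hg _ _).2 hx) ((hd x).trans hdx)
    exact ⟨y, (hg _ _).1 hy, (hd y).symm.trans hyx⟩
  · intro H x hx hdx
    obtain ⟨y, hy, hyx⟩ := H x ((hg _ _).1 hx) ((hd x).symm.trans hdx)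
    exact ⟨y, (hg _ _).2 hy, (hd y).trans hyx⟩

/-- **right joint** (306's (V)): `Y` right `L''`-cells of `G`, `X''` left `L''`-cells of `V`,
`X` left `Γ`-cells of `V`; `(Y ⊗ M) ⊗_Γ X` acyclic and `G ⊗_{L''} X''` exact in degree `n`
give `G ⊗_Γ X` exact in degree `n`. -/
theorem vjoinR {M : BM B A} (k : KrR h π M) {Y : RCells B} {G : RM B} (R : RRes Y G)
    (hR : R.lo = 0) {X'' : LCells B} {V : LM B} (S : LRes X'' V) (hS : S.lo = 0)
    {X : LCells A} (T : LRes X (resL π V)) (hT : T.lo = 0) (n : ℤ)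
    (hM : Z (tG (tQ Y M) X) (n - 1)) (hC : Z (tG G X'') n) : Z (tG (resR π G) X) n := by
  have h1 : Z (tG (tQ Y (resBL h (selfB A))) X) n := by
    refine (asc_z Y (resBL h (selfB A)) X n).2 ?_
    refine (z_Y (pushR h Y) T n).2 ?_
    rw [hT, zero_add]
    refine (z_back h π k.sec Y V n).2 ?_
    have := (z_iff R S n).1 (by rwa [hR, zero_add])
    rwa [hS, zero_add] at this
  have h2 : Z (tG (tQ Y (resBR π (selfB B))) X) n :=
    ses_z (tG_ses X (tQ_ses Y (k.ses h π))) h1 hM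
  have h3 := (z_G R (pushL π X) n).1 h2
  rwa [hR, zero_add] at h3

end Crest.Agent.R186.VJ774
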