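import Crest.Agent.R186.VJ_774
import Crest.Agent.R186.FinV_988
import Crest.Agent.R186.FDual_162

/-!
Row 186 (helper774), half (A): the joints of (V) plugged into 988's `pcells`
(`DR` of 988, `dRM` of 162).
-/

set_option autoImplicit false
set_option linter.style.haveILetI false
set_option linter.unusedSectionVars false
set_option linter.unusedSimpArgs false

open MulOpposite

namespace Crest.Agent.R186.VK774

open Hat827 Hat827.DGA Frame515 Res255 AcIff492 S3i774 S3r774 S3f774 VJ774 FinV988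

variable {K : Type} [Field K]

/-- isomorphic right modules have the same exactness after `⊗ X` -/
theorem z_iso {A : DGA K} {G G' : RM A} (φ : RHom G G') (ψ : RHom G' G)
    (h1 : ∀ x, ψ.f (φ.f x) = x) (h2 : ∀ y, φ.f (ψ.f y) = y) (X : LCells A) (k : ℤ) :
    Z (tG G X) k ↔ Z (tG G' X) k := by
  have e1 : ∀ x : X.ι →₀ G.X, fG X ψ (fG X φ x) = x := fun x => Finsupp.ext fun σ => h1 _
  have e2 : ∀ x : X.ι →₀ G'.X, fG X φ (fG X ψ x) = x := fun x => Finsupp.ext fun σ => h2 _
  constructor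
  · intro H y hy hd
    obtain ⟨w, hw, hwy⟩ := H ((tGmap X ψ).f y) ((tGmap X ψ).f_mem hy)
      (by rw [← (tGmap X ψ).f_d, hd, map_zero])
    refine ⟨(tGmap X φ).f w, (tGmap X φ).f_mem hw, ?_⟩
    rw [← (tGmap X φ).f_d, hwy]
    exact e2 y
  · intro H y hy hd
    obtain ⟨w, hw, hwy⟩ := H ((tGmap X φ).f y) ((tGmap X φ).f_mem hy)
      (by rw [← (tGmap X φ).f_d, hd, map_zero])
    refine ⟨(tGmap X ψ).f w, (tGmap X ψ).f_mem hw, ?_⟩
    rw [← (tGmap X ψ).f_d, hwy]
    exact e1 y

/-- 162's dual and 988's dual -/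
theorem z_dual {A : DGA K} (N : LM A) (X : LCells A) (k : ℤ) :
    Z (tG (FDual162.dRM N) X) k ↔ Z (tG (DR N) X) k := by
  let φ : RHom (FDual162.dRM N) (DR N) :=
    { f := (LinearMap.id : Module.Dual K N.X →ₗ[K] Module.Dual K N.X)
      f_mem := fun {k f} hf l z hz hl => hf l hl z hz
      f_d := fun _ => rfl
      smul := fun _ _ => rfl }
  let ψ : RHom (DR N) (FDual162.dRM N) :=
    { f := (LinearMap.id : Module.Dual K N.X →ₗ[K] Module.Dual K N.X)
      f_mem := fun {k f} hf l hl z hz => hf l z hz hl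
      f_d := fun _ => rfl
      smul := fun _ _ => rfl }
  exact z_iso φ ψ (fun _ => rfl) (fun _ => rfl) X k

variable {A B : DGA K} (h : Hm B A) (π : Hm A B)

/-- the dual of `V` as a `Γ`-module, restricted to `L''` -/
theorem z_back_dual (sec : ∀ b, π.f (h.f b) = b) (V : LM B) (X : LCells B) (k : ℤ) :
    Z (tG (resR h (DR (resL π V))) X) k ↔ Z (tG (DR V) X) k := by
  let φ : RHom (resR h (DR (resL π V))) (DR V) :=
    { f := (LinearMap.id : (V.X →ₗ[K] K) →ₗ[K] (V.X →ₗ[K] K))
      f_mem := fun {k f} hf => hf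
      f_d := fun _ => rfl
      smul := fun b f => LinearMap.ext fun z => by
        have e : π.f (h.f b) • (show V.X from z) = b • (show V.X from z) := by rw [sec]
        exact congrArg (show V.X →ₗ[K] K from f) e }
  let ψ : RHom (DR V) (resR h (DR (resL π V))) :=
    { f := (LinearMap.id : (V.X →ₗ[K] K) →ₗ[K] (V.X →ₗ[K] K))
      f_mem := fun {k f} hf => hf
      f_d := fun _ => rfl
      smul := fun b f => LinearMap.ext fun z => by
        have e : b • (show V.X from z) = π.f (h.f b) • (show V.X from z) := by rw [sec]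
        exact congrArg (show V.X →ₗ[K] K from f) e }
  exact z_iso φ ψ (fun _ => rfl) (fun _ => rfl) X k

/-- **(V), left variant** (340's (V')) in the letters of `FinV988.pcells` -/
theorem hT_left {M : BM A B} (k : Kr h π M) {V : LM B} {Y : RCells A}
    (R : RRes Y (DR (resL π V))) (hR : R.lo = 0) {X'' : LCells B} (S : LRes X'' V)
    (hS : S.lo = 0) {X : LCells A} (T : LRes X (resL π V)) (hT : T.lo = 0)
    (hM : Ac (tY Y (tP M X''))) (hC : ∀ k : ℤ, 1 ≤ k → Z (tG (DR V) X'') k) :
    ∀ k : ℤ, 1 ≤ k → ExAt (tG (DR (resL π V)) X) k := fun n hn =>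
  vjoinL h π k R hR S hS T hT n (hM _) ((z_back_dual h π k.sec V X'' n).2 (hC n hn))

/-- **(V), right variant** (306's (V)) in the letters of `FinV988.pcells` -/
theorem hT_right {M : BM B A} (k : KrR h π M) {V : LM B} {Y : RCells B}
    (R : RRes Y (DR V)) (hR : R.lo = 0) {X'' : LCells B} (S : LRes X'' V)
    (hS : S.lo = 0) {X : LCells A} (T : LRes X (resL π V)) (hT : T.lo = 0)
    (hM : Ac (tG (tQ Y M) X)) (hC : ∀ k : ℤ, 1 ≤ k → Z (tG (DR V) X'') k) :
    ∀ k : ℤ, 1 ≤ k → ExAt (tG (DR (resL π V)) X) k := fun n hn =>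
  vjoinR h π k R hR S hS T hT n (hM _) (hC n hn)

end Crest.Agent.R186.VK774
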