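import Mathlib

/-!
# Row 186, leaf R4 (helper220): the `q`-Weyl operators on `K[x, y]`

`Pol K = (ℕ × ℕ) →₀ K` with basis `mon a b = x^a y^b`.
Operators (LEFT composition): `X0, X1` multiplication, `D0 (x^a y^b) = [a] x^(a-1) y^b`,
`D1 (x^a y^b) = g^a [b] x^a y^(b-1)`, `T0 (x^a y^b) = g^(a+b) x^a y^b`.
-/

set_option autoImplicit false

namespace Crest.Agent.R186.VOp220

open Finset

variable {K : Type*} [Field K] (g : K)

/-- `[a] = 1 + g + ... + g^(a-1)` -/
def qn (g : K) (a : ℕ) : K := ∑ i ∈ range a, g ^ i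

@[simp] lemma qn_zero : qn g 0 = 0 := by simp [qn]

lemma qn_succ (a : ℕ) : qn g (a + 1) = 1 + g * qn g a := by
  unfold qn
  rw [Finset.sum_range_succ', Finset.mul_sum]
  simp only [pow_succ']
  simp [add_comm]

lemma qn_succ' (a : ℕ) : qn g (a + 1) = qn g a + g ^ a := by
  simp [qn, Finset.sum_range_succ]

lemma sub_mul_qn (a : ℕ) : (g - 1) * qn g a = g ^ a - 1 := by
  unfold qn
  rw [mul_comm]
  exact geom_sum_mul g a

lemma qn_ne_zero {a : ℕ} (ha : g ^ a ≠ 1) : qn g a ≠ 0 := by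
  intro h
  have := sub_mul_qn g a
  rw [h, mul_zero] at this
  exact ha (by linear_combination -this)

/-- polynomials in two variables (basis `mon a b`) -/
abbrev Pol (K : Type*) [Field K] : Type _ := (ℕ × ℕ) →₀ K

/-- the monomial `x^a y^b` -/
noncomputable def mon (K : Type*) [Field K] (a b : ℕ) : Pol K := Finsupp.single (a, b) 1

/-- the diagonal-shift operator: `x^a y^b ↦ c(a,b) x^(s a) y^(t b)` -/
noncomputable def op (c : ℕ → ℕ → K) (s t : ℕ → ℕ) : Pol K →ₗ[K] Pol K :=
  Finsupp.lsum K (fun p : ℕ × ℕ => (LinearMap.toSpanSingleton K (Pol K) (c p.1 p.2 • mon K (s p.1) (t p.2))))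

@[simp] lemma op_mon (c : ℕ → ℕ → K) (s t : ℕ → ℕ) (a b : ℕ) :
    op c s t (mon K a b) = c a b • mon K (s a) (t b) := by
  simp [op, mon]

lemma ext_mon {M : Type*} [AddCommGroup M] [Module K M] {f h : Pol K →ₗ[K] M}
    (H : ∀ a b, f (mon K a b) = h (mon K a b)) : f = h := by
  refine Finsupp.lhom_ext' fun p => LinearMap.ext_ring ?_
  simpa [mon] using H p.1 p.2

noncomputable def X0 : Pol K →ₗ[K] Pol K := op (fun _ _ => 1) (fun a => a + 1) (fun b => b)
noncomputable def X1 : Pol K →ₗ[K] Pol K := op (fun _ _ => 1) (fun a => a) (fun b => b + 1)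
noncomputable def D0 : Pol K →ₗ[K] Pol K := op (fun a _ => qn g a) (fun a => a - 1) (fun b => b)
noncomputable def D1 : Pol K →ₗ[K] Pol K := op (fun a b => g ^ a * qn g b) (fun a => a) (fun b => b - 1)
noncomputable def T0 : Pol K →ₗ[K] Pol K := op (fun a b => g ^ (a + b)) (fun a => a) (fun b => b)

@[simp] lemma X0_mon (a b : ℕ) : X0 (mon K a b) = mon K (a + 1) b := by simp [X0]
@[simp] lemma X1_mon (a b : ℕ) : X1 (mon K a b) = mon K a (b + 1) := by simp [X1]
@[simp] lemma D0_mon (a b : ℕ) : D0 g (mon K a b) = qn g a • mon K (a - 1) b := by simp [D0]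
@[simp] lemma D1_mon (a b : ℕ) : D1 g (mon K a b) = (g ^ a * qn g b) • mon K a (b - 1) := by simp [D1]
@[simp] lemma T0_mon (a b : ℕ) : T0 g (mon K a b) = g ^ (a + b) • mon K a b := by simp [T0]

/-! ## relations, `LEFT` order -/

lemma rel_x : (X0 : Pol K →ₗ[K] Pol K) * X1 = X1 * X0 := by
  apply ext_mon; intro a b; simp

lemma rel_d0x0 : D0 g * X0 = 1 + g • (X0 * D0 g) := by
  apply ext_mon; intro a b
  rcases a with _ | a
  · simp [qn_succ]
  · simp only [Module.End.mul_apply, X0_mon, D0_mon, LinearMap.add_apply, LinearMap.smul_apply, map_smul,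
      Module.End.one_apply, Nat.add_sub_cancel]
    rw [qn_succ g (a + 1), add_smul, one_smul, mul_smul]

lemma rel_d0x1 : D0 g * X1 = X1 * D0 g := by
  apply ext_mon; intro a b; simp

lemma rel_d1x0 : D1 g * X0 = g • (X0 * D1 g) := by
  apply ext_mon; intro a b
  simp only [Module.End.mul_apply, X0_mon, D1_mon, LinearMap.smul_apply, map_smul, smul_smul]
  congr 1
  ring

lemma e_l (a : ℕ) (c : K) (b : ℕ) : (c * qn g a) • mon K (a - 1 + 1) b = (c * qn g a) • mon K a b := by
  rcases a with _ | a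
  · simp
  · simp

lemma e_r (a : ℕ) (c : K) (b : ℕ) : (c * qn g b) • mon K a (b - 1 + 1) = (c * qn g b) • mon K a b := by
  rcases b with _ | b
  · simp
  · simp

lemma rel_d1x1 : D1 g * X1 = 1 + g • (X1 * D1 g) + (g - 1) • (X0 * D0 g) := by
  apply ext_mon; intro a b
  simp only [Module.End.mul_apply, LinearMap.add_apply, LinearMap.smul_apply, X1_mon, X0_mon, D1_mon, D0_mon,
    map_smul, Module.End.one_apply, Nat.add_sub_cancel, smul_smul, ← mul_assoc]
  rw [e_l, e_r, sub_mul_qn, qn_succ]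
  rw [show mon K a b + (g * g ^ a * qn g b) • mon K a b + (g ^ a - 1) • mon K a b
      = (1 + (g * g ^ a * qn g b) + (g ^ a - 1)) • mon K a b by
    rw [add_smul, add_smul, one_smul]]
  congr 1
  ring

lemma rel_dd : D0 g * D1 g = g • (D1 g * D0 g) := by
  apply ext_mon; intro a b
  rcases a with _ | a
  · simp
  · simp only [Module.End.mul_apply, D0_mon, D1_mon, LinearMap.smul_apply, map_smul, smul_smul,
      Nat.add_sub_cancel]
    congr 1
    ring

lemma T0_eq : T0 g = 1 + (g - 1) • (X0 * D0 g + X1 * D1 g) := by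
  apply ext_mon; intro a b
  simp only [Module.End.mul_apply, LinearMap.add_apply, LinearMap.smul_apply, X1_mon, X0_mon, D1_mon, D0_mon,
    map_smul, Module.End.one_apply, T0_mon, smul_add, smul_smul, ← mul_assoc]
  rw [e_l, e_r, sub_mul_qn, show (g - 1) * g ^ a * qn g b = g ^ a * ((g - 1) * qn g b) by ring, sub_mul_qn]
  rw [show mon K a b + ((g ^ a - 1) • mon K a b + (g ^ a * (g ^ b - 1)) • mon K a b)
      = (1 + (g ^ a - 1 + g ^ a * (g ^ b - 1))) • mon K a b by rw [add_smul, one_smul, add_smul]]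
  congr 1
  rw [pow_add]; ring

lemma comm_XT (g : K) : T0 g * X0 = g • (X0 * T0 g) := by
  apply ext_mon; intro a b
  simp only [Module.End.mul_apply, X0_mon, T0_mon, LinearMap.smul_apply, map_smul, smul_smul]
  congr 1; ring

lemma comm_YT (g : K) : T0 g * X1 = g • (X1 * T0 g) := by
  apply ext_mon; intro a b
  simp only [Module.End.mul_apply, X1_mon, T0_mon, LinearMap.smul_apply, map_smul, smul_smul]
  congr 1; ring

/-! ## homogeneous parts -/

/-- degree `m` part (`m : ℤ`, zero for `m < 0`) -/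
def hom (K : Type*) [Field K] (m : ℤ) : Submodule K (Pol K) :=
  Finsupp.supported K K {p : ℕ × ℕ | (p.1 : ℤ) + p.2 = m}

lemma hom_eq_span (m : ℤ) :
    hom K m = Submodule.span K {v | ∃ a b : ℕ, (a : ℤ) + b = m ∧ v = mon K a b} := by
  rw [hom, Finsupp.supported_eq_span_single]
  congr 1
  ext v
  constructor
  · rintro ⟨p, hp, rfl⟩
    exact ⟨p.1, p.2, hp, rfl⟩
  · rintro ⟨a, b, hab, rfl⟩
    exact ⟨(a, b), hab, rfl⟩

lemma mon_mem {a b : ℕ} {m : ℤ} (h : (a : ℤ) + b = m) : mon K a b ∈ hom K m := by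
  rw [hom_eq_span]; exact Submodule.subset_span ⟨a, b, h, rfl⟩

lemma hom_le {m : ℤ} {p : Submodule K (Pol K)} (H : ∀ a b : ℕ, (a : ℤ) + b = m → mon K a b ∈ p) :
    hom K m ≤ p := by
  rw [hom_eq_span, Submodule.span_le]
  rintro v ⟨a, b, hab, rfl⟩
  exact H a b hab

/-- two linear maps agree on the degree `m` part as soon as they agree on monomials of degree `m` -/
lemma eq_on {M : Type*} [AddCommGroup M] [Module K M] {f h : Pol K →ₗ[K] M} {m : ℤ}
    (H : ∀ a b : ℕ, (a : ℤ) + b = m → f (mon K a b) = h (mon K a b)) {v : Pol K} (hv : v ∈ hom K m) :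
    f v = h v := by
  have : hom K m ≤ LinearMap.eqLocus f h := hom_le fun a b hab => H a b hab
  exact this hv

lemma hom_neg {m : ℤ} (hm : m < 0) : hom K m = ⊥ := by
  rw [eq_bot_iff]
  refine hom_le fun a b hab => ?_
  exfalso; omega

/-- `K[x,y]_m` has the monomials `x^i y^(m-i)` as a basis -/
lemma hom_nat (m : ℕ) : hom K (m : ℤ) = Submodule.span K (Set.range fun i : Fin (m + 1) => mon K (i : ℕ) (m - i)) := by
  apply le_antisymm
  · refine hom_le fun a b hab => ?_
    have : a + b = m := by exact_mod_cast hab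
    refine Submodule.subset_span ⟨⟨a, by omega⟩, ?_⟩
    show mon K a (m - a) = mon K a b
    rw [← this, Nat.add_sub_cancel_left]
  · rw [Submodule.span_le]
    rintro v ⟨i, rfl⟩
    apply mon_mem
    have := i.2
    show ((i : ℕ) : ℤ) + ((m - (i : ℕ) : ℕ) : ℤ) = m
    omega

instance hom_fd (m : ℤ) : FiniteDimensional K (hom K m) := by
  rcases lt_or_ge m 0 with hm | hm
  · rw [hom_neg hm]; infer_instance
  · obtain ⟨n, rfl⟩ := Int.eq_ofNat_of_zero_le hm
    rw [hom_nat]
    exact FiniteDimensional.span_of_finite K (Set.finite_range _)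

lemma X0_hom {m : ℤ} {v : Pol K} (hv : v ∈ hom K m) : X0 v ∈ hom K (m + 1) := by
  have : hom K m ≤ (hom K (m + 1)).comap X0 := hom_le fun a b hab => by
    rw [Submodule.mem_comap]
    rw [X0_mon]; apply mon_mem; push_cast; omega
  exact this hv

lemma X1_hom {m : ℤ} {v : Pol K} (hv : v ∈ hom K m) : X1 v ∈ hom K (m + 1) := by
  have : hom K m ≤ (hom K (m + 1)).comap X1 := hom_le fun a b hab => by
    rw [Submodule.mem_comap]
    rw [X1_mon]; apply mon_mem; push_cast; omega
  exact this hv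

lemma D0_hom {m : ℤ} {v : Pol K} (hv : v ∈ hom K m) : D0 g v ∈ hom K (m - 1) := by
  have : hom K m ≤ (hom K (m - 1)).comap (D0 g) := hom_le fun a b hab => by
    rw [Submodule.mem_comap]
    rw [D0_mon]
    rcases a with _ | a
    · simp
    · apply Submodule.smul_mem; apply mon_mem
      simp only [Nat.add_sub_cancel]; push_cast at hab; omega
  exact this hv

lemma D1_hom {m : ℤ} {v : Pol K} (hv : v ∈ hom K m) : D1 g v ∈ hom K (m - 1) := by
  have : hom K m ≤ (hom K (m - 1)).comap (D1 g) := hom_le fun a b hab => by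
    rw [Submodule.mem_comap]
    rw [D1_mon]
    rcases b with _ | b
    · simp
    · apply Submodule.smul_mem; apply mon_mem
      simp only [Nat.add_sub_cancel]; push_cast at hab; omega
  exact this hv

lemma T0_hom {m : ℕ} {v : Pol K} (hv : v ∈ hom K (m : ℤ)) : T0 g v = g ^ m • v := by
  refine eq_on (f := T0 g) (h := g ^ m • LinearMap.id) (fun a b hab => ?_) hv
  have : a + b = m := by exact_mod_cast hab
  simp [this]

lemma T0_mem {m : ℤ} {v : Pol K} (hv : v ∈ hom K m) : T0 g v ∈ hom K m := by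
  have : hom K m ≤ (hom K m).comap (T0 g) := hom_le fun a b hab => by
    rw [Submodule.mem_comap]
    rw [T0_mon]
    exact Submodule.smul_mem _ _ (mon_mem hab)
  exact this hv

/-- Euler: `x d_x + y d_y = [m]` in degree `m` -/
lemma euler {m : ℕ} {v : Pol K} (hv : v ∈ hom K (m : ℤ)) :
    X0 (D0 g v) + X1 (D1 g v) = qn g m • v := by
  refine eq_on (f := X0 * D0 g + X1 * D1 g) (h := qn g m • LinearMap.id) (fun a b hab => ?_) hv
  have hab' : a + b = m := by exact_mod_cast hab
  simp only [Module.End.mul_apply, LinearMap.add_apply, X1_mon, X0_mon, D1_mon, D0_mon,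
    map_smul, LinearMap.smul_apply, LinearMap.id_apply]
  have e1 := e_l g a 1 b
  rw [one_mul] at e1
  rw [e1, e_r, ← add_smul]
  congr 1
  rw [← hab', qn, qn, qn, Finset.sum_range_add, Finset.mul_sum]
  simp only [pow_add]

/-- gradient is injective in positive degrees -/
lemma grad_inj {m : ℕ} (hm : qn g m ≠ 0) {v : Pol K} (hv : v ∈ hom K (m : ℤ)) (h0 : D0 g v = 0)
    (h1 : D1 g v = 0) : v = 0 := by
  have := euler g hv
  rw [h0, h1, map_zero, map_zero, add_zero] at this
  exact (smul_eq_zero.mp this.symm).resolve_left hm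

/-- closed 1-forms are exact: `D0 w1 = g D1 w0` -/
lemma curl_exact {m : ℕ} (hm : qn g (m + 1) ≠ 0) {w0 w1 : Pol K} (h0 : w0 ∈ hom K (m : ℤ))
    (h1 : w1 ∈ hom K (m : ℤ)) (h : D0 g w1 = g • D1 g w0) :
    ∃ v ∈ hom K ((m : ℤ) + 1), D0 g v = w0 ∧ D1 g v = w1 := by
  have E0 := euler g h0
  have E1 := euler g h1
  have a1 : ∀ v, D0 g (X0 v) = v + g • X0 (D0 g v) := fun v => by
    simpa using congrArg (fun F : Pol K →ₗ[K] Pol K => F v) (rel_d0x0 g)
  have a2 : ∀ v, D0 g (X1 v) = X1 (D0 g v) := fun v => by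
    simpa using congrArg (fun F : Pol K →ₗ[K] Pol K => F v) (rel_d0x1 g)
  have a3 : ∀ v, D1 g (X0 v) = g • X0 (D1 g v) := fun v => by
    simpa using congrArg (fun F : Pol K →ₗ[K] Pol K => F v) (rel_d1x0 g)
  have a4 : ∀ v, D1 g (X1 v) = v + g • X1 (D1 g v) + (g - 1) • X0 (D0 g v) := fun v => by
    simpa using congrArg (fun F : Pol K →ₗ[K] Pol K => F v) (rel_d1x1 g)
  refine ⟨(qn g (m + 1))⁻¹ • (X0 w0 + X1 w1),
    Submodule.smul_mem _ _ (Submodule.add_mem _ (X0_hom h0) (X1_hom h1)), ?_, ?_⟩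
  · rw [map_smul, map_add, a1, a2, h, map_smul]
    rw [show w0 + g • X0 (D0 g w0) + g • X1 (D1 g w0) = w0 + g • (X0 (D0 g w0) + X1 (D1 g w0)) by
      rw [smul_add, add_assoc], E0, smul_smul,
      show w0 + (g * qn g m) • w0 = (1 + g * qn g m) • w0 by rw [add_smul, one_smul], ← qn_succ,
      smul_smul, inv_mul_cancel₀ hm, one_smul]
  · rw [map_smul, map_add, a3, a4, ← map_smul X0 g (D1 g w0), ← h]
    rw [show X0 (D0 g w1) + (w1 + g • X1 (D1 g w1) + (g - 1) • X0 (D0 g w1))
        = w1 + g • (X0 (D0 g w1) + X1 (D1 g w1)) by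
      rw [smul_add, sub_smul, one_smul]; abel, E1, smul_smul,
      show w1 + (g * qn g m) • w1 = (1 + g * qn g m) • w1 by rw [add_smul, one_smul], ← qn_succ,
      smul_smul, inv_mul_cancel₀ hm, one_smul]

/-- the gradient has curl zero -/
lemma curl_grad (v : Pol K) : D0 g (D1 g v) = g • D1 g (D0 g v) := by
  simpa using congrArg (fun F : Pol K →ₗ[K] Pol K => F v) (rel_dd g)

/-- `D0` is surjective -/
lemma D0_surj (hg : ∀ n : ℕ, 0 < n → qn g n ≠ 0) {m : ℤ} {s : Pol K} (hs : s ∈ hom K (m - 1)) :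
    ∃ w ∈ hom K m, D0 g w = s := by
  let I : Pol K →ₗ[K] Pol K := op (fun a _ => (qn g (a + 1))⁻¹) (fun a => a + 1) (fun b => b)
  have hI : ∀ a b, I (mon K a b) = (qn g (a + 1))⁻¹ • mon K (a + 1) b := fun a b => op_mon _ _ _ a b
  refine ⟨I s, ?_, ?_⟩
  · have : hom K (m - 1) ≤ (hom K m).comap I := hom_le fun a b hab => by
      rw [Submodule.mem_comap]
      rw [hI]
      exact Submodule.smul_mem _ _ (mon_mem (by push_cast; omega))
    exact this hs
  · refine eq_on (f := D0 g * I) (h := LinearMap.id) (fun a b _ => ?_) hs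
    simp only [Module.End.mul_apply, hI, map_smul, D0_mon, Nat.add_sub_cancel, smul_smul, LinearMap.id_apply]
    rw [inv_mul_cancel₀ (hg (a + 1) (Nat.succ_pos a)), one_smul]

/-- division by `x` -/
noncomputable def S0 : Pol K →ₗ[K] Pol K := op (fun a _ => if a = 0 then 0 else 1) (fun a => a - 1) (fun b => b)
noncomputable def S1 : Pol K →ₗ[K] Pol K := op (fun _ b => if b = 0 then 0 else 1) (fun a => a) (fun b => b - 1)

@[simp] lemma S0_mon (a b : ℕ) : S0 (mon K a b) = (if a = 0 then (0 : K) else 1) • mon K (a - 1) b := by simp [S0]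
@[simp] lemma S1_mon (a b : ℕ) : S1 (mon K a b) = (if b = 0 then (0 : K) else 1) • mon K a (b - 1) := by simp [S1]

lemma S0_hom {m : ℤ} {v : Pol K} (hv : v ∈ hom K m) : S0 v ∈ hom K (m - 1) := by
  have : hom K m ≤ (hom K (m - 1)).comap S0 := hom_le fun a b hab => by
    rw [Submodule.mem_comap]
    rw [S0_mon]
    rcases a with _ | a
    · simp
    · apply Submodule.smul_mem; apply mon_mem
      simp only [Nat.add_sub_cancel]; push_cast at hab; omega
  exact this hv

lemma S1_hom {m : ℤ} {v : Pol K} (hv : v ∈ hom K m) : S1 v ∈ hom K (m - 1) := by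
  have : hom K m ≤ (hom K (m - 1)).comap S1 := hom_le fun a b hab => by
    rw [Submodule.mem_comap]
    rw [S1_mon]
    rcases b with _ | b
    · simp
    · apply Submodule.smul_mem; apply mon_mem
      simp only [Nat.add_sub_cancel]; push_cast at hab; omega
  exact this hv

lemma S0_X0 (v : Pol K) : S0 (X0 v) = v := by
  have : (S0 * X0 : Pol K →ₗ[K] Pol K) = 1 := by apply ext_mon; intro a b; simp
  simpa using congrArg (fun F : Pol K →ₗ[K] Pol K => F v) this

lemma S1_X1 (v : Pol K) : S1 (X1 v) = v := by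
  have : (S1 * X1 : Pol K →ₗ[K] Pol K) = 1 := by apply ext_mon; intro a b; simp
  simpa using congrArg (fun F : Pol K →ₗ[K] Pol K => F v) this

lemma X0_inj : Function.Injective (X0 : Pol K →ₗ[K] Pol K) := fun v w h => by
  rw [← S0_X0 v, h, S0_X0]

lemma X1_inj : Function.Injective (X1 : Pol K →ₗ[K] Pol K) := fun v w h => by
  rw [← S1_X1 v, h, S1_X1]

lemma X_comm (v : Pol K) : X0 (X1 v) = X1 (X0 v) := by
  simpa using congrArg (fun F : Pol K →ₗ[K] Pol K => F v) (rel_x (K := K))

/-- Koszul exactness in the middle -/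
lemma koszul_mid {m : ℤ} {w0 w1 : Pol K} (h0 : w0 ∈ hom K m) (h : X0 w1 = X1 w0) :
    ∃ s ∈ hom K (m - 1), w0 = X0 s ∧ w1 = X1 s := by
  have c : ∀ v : Pol K, X0 (S0 (X1 v)) = X1 (X0 (S0 v)) := fun v => by
    have : (X0 * S0 * X1 : Pol K →ₗ[K] Pol K) = X1 * X0 * S0 := by
      apply ext_mon; intro a b
      rcases a with _ | a <;> simp
    simpa using congrArg (fun F : Pol K →ₗ[K] Pol K => F v) this
  have hw0 : X0 (S0 w0) = w0 := by
    apply X1_inj
    rw [← c, ← h, S0_X0]
  refine ⟨S0 w0, S0_hom h0, hw0.symm, ?_⟩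
  apply X0_inj
  rw [X_comm, hw0, h]

/-- Koszul: `(x, y)` generates every positive degree -/
lemma koszul_surj {m : ℤ} (hm : 0 ≤ m) {v : Pol K} (hv : v ∈ hom K (m + 1)) :
    ∃ w0 ∈ hom K m, ∃ w1 ∈ hom K m, X0 w1 + X1 w0 = v := by
  refine ⟨S1 (v - X0 (S0 v)), ?_, S0 v, ?_, ?_⟩
  · have h1 : v - X0 (S0 v) ∈ hom K (m + 1) := by
      refine Submodule.sub_mem _ hv ?_
      have := X0_hom (S0_hom hv)
      rwa [sub_add_cancel] at this
    have := S1_hom h1
    rwa [add_sub_cancel_right] at this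
  · have := S0_hom hv
    rwa [add_sub_cancel_right] at this
  · refine eq_on (f := X0 * S0 + X1 * S1 * (1 - X0 * S0)) (h := LinearMap.id) (fun a b hab => ?_) hv
    rcases a with _ | a
    · rcases b with _ | b
      · exfalso; push_cast at hab; omega
      · simp
    · simp

end Crest.Agent.R186.VOp220
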