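import Crest.Agent.R186.Frame_515

/-!
Row 186 (helper339), half (A), short road of helper306, leaf (V1) + (V2 abstract):
acyclicity of `G ⊗ X` (`X` left cells over a dg algebra) from the homology modules of `G`,
and from a filtration of the cycles with layers `⊕ P`, `P` a right module in one degree.
-/

set_option autoImplicit false
set_option linter.style.haveILetI false
set_option linter.unusedSectionVars false
set_option linter.unusedSimpArgs false

open MulOpposite

namespace Crest.Agent.R186.VT339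

open Hat827 Hat827.DGA Frame515

variable {K : Type} [Field K] {A : DGA K}

/-- boundaries of degree `n` -/
def bd (G : RM A) (n : ℤ) : Submodule K G.X where
  carrier := {x | ∃ y ∈ G.gr (n + 1), G.d y = x}
  zero_mem' := ⟨0, Submodule.zero_mem _, map_zero _⟩
  add_mem' := by
    rintro _ _ ⟨y, hy, rfl⟩ ⟨z, hz, rfl⟩
    exact ⟨y + z, Submodule.add_mem _ hy hz, map_add _ _ _⟩
  smul_mem' := by
    rintro r _ ⟨y, hy, rfl⟩
    exact ⟨r • y, Submodule.smul_mem _ r hy, map_smul _ _ _⟩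

/-- cycles of degree `n` -/
def cyc (G : RM A) (n : ℤ) : Submodule K G.X where
  carrier := {x | x ∈ G.gr n ∧ G.d x = 0}
  zero_mem' := ⟨Submodule.zero_mem _, map_zero _⟩
  add_mem' := by
    rintro x y ⟨hx, hx'⟩ ⟨hy, hy'⟩
    exact ⟨Submodule.add_mem _ hx hy, by rw [map_add, hx', hy', add_zero]⟩
  smul_mem' := by
    rintro r x ⟨hx, hx'⟩
    exact ⟨Submodule.smul_mem _ r hx, by rw [map_smul, hx', smul_zero]⟩

theorem bd_le_cyc (G : RM A) (n : ℤ) : bd G n ≤ cyc G n := by
  rintro _ ⟨y, hy, rfl⟩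
  refine ⟨?_, G.d_d y⟩
  have := G.d_mem hy
  rwa [add_sub_cancel_right] at this

theorem two_G (G : RM A) (y : G.X) : y + y = 0 := by
  have : y = op (1 : A.C) • y := by rw [op_one, one_smul]
  rw [this, ← add_smul, ← op_add, A.two, op_zero, zero_smul]

theorem sub_G (G : RM A) (x y : G.X) : x - y = x + y := by
  rw [sub_eq_add_neg]
  congr 1
  exact neg_eq_of_add_eq_zero_left (two_G G y)

theorem cyc_act {G : RM A} {n : ℤ} {x : G.X} (hx : x ∈ cyc G n) {a : A.C} (ha : a ∈ A.G 0) :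
    op a • x ∈ cyc G n := by
  refine ⟨?_, ?_⟩
  · have := G.smul_mem ha hx.1
    rwa [zero_add] at this
  · rw [G.leib, D_neg ha (by omega), op_zero, zero_smul, zero_add, hx.2, smul_zero]

theorem bd_act {G : RM A} {n : ℤ} {x : G.X} (hx : x ∈ bd G n) {a : A.C} (ha : a ∈ A.G 0) :
    op a • x ∈ bd G n := by
  obtain ⟨y, hy, rfl⟩ := hx
  refine ⟨op a • y, ?_, ?_⟩
  · have := G.smul_mem ha hy
    rwa [zero_add] at this
  · rw [G.leib, D_neg ha (by omega), op_zero, zero_smul, zero_add]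

/-- `Σ σ, z σ · c σ τ` over the cells of level `m` -/
noncomputable def bdry (G : RM A) (X : LCells A) (m : ℕ) (z : X.ι → G.X) (τ : X.ι) : G.X :=
  ∑ σ ∈ (X.F m).filter (fun σ => X.s σ = m), op (X.c σ τ) • z σ

/-- exactness at the layer `F / F'`: families over the cells of one level `m` -/
def EL (G : RM A) (X : LCells A) (F F' : Submodule K G.X) : Prop :=
  ∀ (m : ℕ) (z : X.ι → G.X), (∀ σ, X.s σ = m → z σ ∈ F ∧ op (X.e σ) • z σ = z σ) →
    (∀ τ, X.s τ + 1 = m → bdry G X m z τ ∈ F') →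
    ∃ w : X.ι → G.X, (∀ ρ, X.s ρ = m + 1 → w ρ ∈ F ∧ op (X.e ρ) • w ρ = w ρ) ∧
      ∀ σ, X.s σ = m → z σ + bdry G X (m + 1) w σ ∈ F'

/-- cells of level `m` -/
noncomputable def lev (X : LCells A) (m : ℕ) : Finset X.ι := (X.F m).filter fun σ => X.s σ = m

theorem mem_lev {X : LCells A} {m : ℕ} {σ : X.ι} : σ ∈ lev X m ↔ X.s σ = m := by
  unfold lev
  rw [Finset.mem_filter, X.mem_F]
  constructor
  · exact fun h => h.2
  · exact fun h => ⟨h.le, h⟩

theorem bdry_def (G : RM A) (X : LCells A) (m : ℕ) (z : X.ι → G.X) (τ : X.ι) :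
    bdry G X m z τ = ∑ σ ∈ lev X m, op (X.c σ τ) • z σ := rfl

theorem bdry_e (G : RM A) (X : LCells A) (m : ℕ) (z : X.ι → G.X) (τ : X.ι) :
    op (X.e τ) • bdry G X m z τ = bdry G X m z τ := by
  rw [bdry_def, Finset.smul_sum]
  refine Finset.sum_congr rfl fun σ _ => ?_
  rw [smul_smul, ← op_mul, X.c_right]

theorem bdry_add (G : RM A) (X : LCells A) (m : ℕ) (z w : X.ι → G.X) (τ : X.ι) :
    bdry G X m (fun σ => z σ + w σ) τ = bdry G X m z τ + bdry G X m w τ := by
  simp only [bdry_def, smul_add, Finset.sum_add_distrib]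

/-- two levels apart: a boundary -/
theorem bdry_bdry {G : RM A} {X : LCells A} {n : ℤ} {m : ℕ} {w : X.ι → G.X}
    (hw : ∀ ρ, X.s ρ = m + 1 → w ρ ∈ cyc G n) {τ : X.ι} (hτ : X.s τ + 1 = m) :
    bdry G X m (fun σ => bdry G X (m + 1) w σ) τ ∈ bd G n := by
  have h1 : bdry G X m (fun σ => bdry G X (m + 1) w σ) τ =
      ∑ ρ ∈ lev X (m + 1), op (∑ σ ∈ lev X m, X.c ρ σ * X.c σ τ) • w ρ := by
    simp only [bdry_def, Finset.smul_sum]
    rw [Finset.sum_comm]
    refine Finset.sum_congr rfl fun ρ _ => ?_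
    rw [show op (∑ σ ∈ lev X m, X.c ρ σ * X.c σ τ) = ∑ σ ∈ lev X m, op (X.c ρ σ * X.c σ τ) from
      map_sum (opAddEquiv (α := A.C)) _ _, Finset.sum_smul]
    refine Finset.sum_congr rfl fun σ _ => ?_
    rw [smul_smul, ← op_mul]
  rw [h1]
  refine Submodule.sum_mem _ fun ρ hρ => ?_
  have hs := mem_lev.1 hρ
  have h2 : ∑ σ ∈ lev X m, X.c ρ σ * X.c σ τ = ∑ σ ∈ X.F (X.s ρ), X.c ρ σ * X.c σ τ := by
    refine Finset.sum_subset (fun σ hσ => (X.mem_F _ _).2 (by rw [mem_lev.1 hσ]; omega)) ?_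
    intro σ hσ hn
    have h3 : X.s σ ≠ m := fun h => hn (mem_lev.2 h)
    have h4 := (X.mem_F _ _).1 hσ
    rcases Nat.lt_or_ge (X.s σ) m with h5 | h5
    · rw [LCells.c_zero (σ := σ) (τ := τ) (by omega), mul_zero]
    · rw [LCells.c_zero (σ := ρ) (τ := σ) (by omega), zero_mul]
  have h3 : ∑ σ ∈ lev X m, X.c ρ σ * X.c σ τ = A.D (X.c ρ τ) := by
    rw [h2]
    have h4 := X.mc ρ τ
    have h5 := A.two (A.D (X.c ρ τ))
    exact (add_left_cancel (h4.trans h5.symm))
  rw [h3]
  refine ⟨op (X.c ρ τ) • w ρ, ?_, ?_⟩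
  · have h4 := G.smul_mem (X.c_mem ρ τ) (hw ρ hs).1
    rwa [show (X.s ρ : ℤ) - X.s τ - 1 + n = n + 1 by rw [hs]; push_cast; omega] at h4
  · rw [G.leib, (hw ρ hs).2, smul_zero, add_zero]

/-- composition of layers -/
theorem EL.comp {G : RM A} {X : LCells A} {n : ℤ} {F F' F'' : Submodule K G.X}
    (hF : F ≤ cyc G n) (h1 : F' ≤ F) (h2 : F'' ≤ F') (h3 : bd G n ≤ F'')
    (E : EL G X F F') (E' : EL G X F' F'') : EL G X F F'' := by
  intro m z hz hb
  obtain ⟨w, hw, hw'⟩ := E m z hz fun τ hτ => h2 (hb τ hτ)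
  obtain ⟨v, hv, hv'⟩ := E' m (fun σ => z σ + bdry G X (m + 1) w σ)
    (fun σ hσ => ⟨hw' σ hσ, by rw [smul_add, (hz σ hσ).2, bdry_e]⟩)
    (fun τ hτ => by
      rw [bdry_add]
      exact Submodule.add_mem _ (hb τ hτ) (h3 (bdry_bdry (fun ρ hρ => hF (hw ρ hρ).1) hτ)))
  refine ⟨fun ρ => w ρ + v ρ, fun ρ hρ => ⟨Submodule.add_mem _ (hw ρ hρ).1 (h1 (hv ρ hρ).1), ?_⟩,
    fun σ hσ => ?_⟩
  · rw [smul_add, (hw ρ hρ).2, (hv ρ hρ).2]
  · rw [bdry_add, ← add_assoc]
    exact hv' σ hσ

/-- the differential of `G ⊗ X`, retyped -/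
noncomputable def DD (G : RM A) (X : LCells A) : (X.ι →₀ G.X) →ₗ[K] (X.ι →₀ G.X) := (twG G X).dd

/-- the grading of `G ⊗ X`, retyped -/
noncomputable def GR (G : RM A) (X : LCells A) (k : ℤ) : Submodule K (X.ι →₀ G.X) := (twG G X).gr k

theorem mem_GR {G : RM A} {X : LCells A} {k : ℤ} {x : X.ι →₀ G.X} :
    x ∈ GR G X k ↔ ∀ σ, x σ ∈ G.gr (k - X.s σ) ∧ op (X.e σ) • x σ = x σ := Iff.rfl

theorem DD_apply' (G : RM A) (X : LCells A) (x : X.ι →₀ G.X) (S : Finset X.ι)
    (hS : x.support ⊆ S) (τ : X.ι) :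
    DD G X x τ = G.d (x τ) + ∑ σ ∈ S, op (X.c σ τ) • x σ := (twG G X).dd_apply' x S hS τ

theorem DD_DD (G : RM A) (X : LCells A) (x : X.ι →₀ G.X) : DD G X (DD G X x) = 0 :=
  (twG G X).dd_dd x

theorem DD_mem {G : RM A} {X : LCells A} {k : ℤ} {x : X.ι →₀ G.X} (hx : x ∈ GR G X k) :
    DD G X x ∈ GR G X (k - 1) := (twG G X).dd_mem hx

theorem ac_iff {G : RM A} {X : LCells A} : Ac (tG G X) ↔
    ∀ (k : ℤ) (x : X.ι →₀ G.X), x ∈ GR G X k → DD G X x = 0 →
      ∃ y ∈ GR G X (k + 1), DD G X y = x := Iff.rfl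

/-- **(V1)** acyclicity of `G ⊗ X` from exactness on the homology modules of `G` -/
theorem ac_of_EL {G : RM A} {X : LCells A} (E : ∀ n : ℤ, EL G X (cyc G n) (bd G n)) :
    Ac (tG G X) := by
  classical
  rw [ac_iff]
  have key : ∀ (m : ℕ) (k : ℤ) (x : X.ι →₀ G.X), x ∈ GR G X k → DD G X x = 0 →
      (∀ σ ∈ x.support, X.s σ < m) → ∃ y ∈ GR G X (k + 1), DD G X y = x := by
    intro m
    induction m with
    | zero =>
      intro k x _ _ hs
      have hx : x = 0 := by
        rw [← Finsupp.support_eq_empty]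
        exact Finset.eq_empty_of_forall_notMem fun σ hσ => absurd (hs σ hσ) (by omega)
      refine ⟨0, Submodule.zero_mem _, ?_⟩
      rw [map_zero, hx]
    | succ m ih =>
      intro k x hx hd hs
      have hc : ∀ σ, X.s σ = m → x σ ∈ cyc G (k - m) ∧ op (X.e σ) • x σ = x σ := by
        intro σ hσ
        have hg := mem_GR.1 hx σ
        refine ⟨⟨?_, ?_⟩, hg.2⟩
        · have := hg.1
          rwa [hσ] at this
        · have h := DFunLike.congr_fun hd σ
          rw [DD_apply' G X x x.support (Finset.Subset.refl _), Finset.sum_eq_zero, add_zero] at h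
          · exact h
          · intro ρ hρ
            rw [LCells.c_zero (by have := hs ρ hρ; omega), op_zero, zero_smul]
      have hb : ∀ τ, X.s τ + 1 = m → bdry G X m x τ ∈ bd G (k - m) := by
        intro τ hτ
        have h := DFunLike.congr_fun hd τ
        rw [DD_apply' G X x x.support (Finset.Subset.refl _)] at h
        have h1 : ∑ σ ∈ x.support, op (X.c σ τ) • x σ = bdry G X m x τ := by
          rw [bdry_def]
          have h2 : ∑ σ ∈ x.support, op (X.c σ τ) • x σ =
              ∑ σ ∈ x.support ∪ lev X m, op (X.c σ τ) • x σ := by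
            refine Finset.sum_subset Finset.subset_union_left fun σ _ hσ => ?_
            rw [Finsupp.notMem_support_iff.1 hσ, smul_zero]
          rw [h2]
          refine (Finset.sum_subset Finset.subset_union_right fun σ hσ hn => ?_).symm
          have h3 : X.s σ ≠ m := fun h => hn (mem_lev.2 h)
          rcases Nat.lt_or_ge (X.s σ) m with h5 | h5
          · rw [LCells.c_zero (σ := σ) (τ := τ) (by omega), op_zero, zero_smul]
          · have h6 : x σ = 0 := by
              by_contra hne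
              have := hs σ (Finsupp.mem_support_iff.2 hne)
              omega
            rw [h6, smul_zero]
        rw [h1] at h
        refine ⟨x τ, ?_, ?_⟩
        · have h2 := (mem_GR.1 hx τ).1
          rwa [show k - (X.s τ : ℤ) = k - m + 1 by omega] at h2
        · have h3 : G.d (x τ) + bdry G X m x τ = bdry G X m x τ + bdry G X m x τ := by
            rw [two_G]; exact h
          exact add_right_cancel h3
      obtain ⟨w, hw, hw'⟩ := E (k - m) m x hc hb
      -- correction by cells of level m + 1 and m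
      have hy : ∀ σ, X.s σ = m → ∃ y, y ∈ G.gr (k - m + 1) ∧ op (X.e σ) • y = y ∧
          G.d y = x σ + bdry G X (m + 1) w σ := by
        intro σ hσ
        obtain ⟨y, hy1, hy2⟩ := hw' σ hσ
        refine ⟨op (X.e σ) • y, ?_, ?_, ?_⟩
        · have := G.smul_mem (X.e_mem σ) hy1
          rwa [zero_add] at this
        · rw [smul_smul, ← op_mul, X.e_idem]
        · rw [G.leib, LCells.De, op_zero, zero_smul, zero_add, hy2, smul_add, (hc σ hσ).2, bdry_e]
      let g : X.ι → G.X := fun σ => if h : X.s σ = m then Classical.choose (hy σ h) else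
        if X.s σ = m + 1 then w σ else 0
      have hg1 : ∀ σ (h : X.s σ = m), g σ ∈ G.gr (k - m + 1) ∧ op (X.e σ) • g σ = g σ ∧
          G.d (g σ) = x σ + bdry G X (m + 1) w σ := by
        intro σ h
        have := Classical.choose_spec (hy σ h)
        simp only [g, dif_pos h]
        exact this
      have hg2 : ∀ σ, X.s σ = m + 1 → g σ = w σ := by
        intro σ h
        simp only [g, dif_neg (show ¬ X.s σ = m by omega), if_pos h]
      have hg3 : ∀ σ, σ ∉ lev X m ∪ lev X (m + 1) → g σ = 0 := by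
        intro σ h
        rw [Finset.mem_union, mem_lev, mem_lev] at h
        rw [not_or] at h
        simp only [g, dif_neg h.1, if_neg h.2]
      let z : X.ι →₀ G.X := Finsupp.onFinset (lev X m ∪ lev X (m + 1)) g fun σ h => by
        by_contra hc
        exact h (hg3 σ hc)
      have hz : ∀ σ : X.ι, z σ = g σ := fun σ => rfl
      have hzs : z.support ⊆ lev X m ∪ lev X (m + 1) := Finsupp.support_onFinset_subset
      have hzg : z ∈ GR G X (k + 1) := by
        rw [mem_GR]
        intro σ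
        rw [hz]
        by_cases h1 : X.s σ = m
        · have := hg1 σ h1
          refine ⟨?_, this.2.1⟩
          rw [show k + 1 - (X.s σ : ℤ) = k - m + 1 by omega]
          exact this.1
        · by_cases h2 : X.s σ = m + 1
          · rw [hg2 σ h2]
            refine ⟨?_, (hw σ h2).2⟩
            rw [show k + 1 - (X.s σ : ℤ) = k - m by omega]
            exact (hw σ h2).1.1
          · rw [hg3 σ (by rw [Finset.mem_union, mem_lev, mem_lev]; tauto)]
            exact ⟨Submodule.zero_mem _, smul_zero _⟩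
      have hx' : x - DD G X z ∈ GR G X k := by
        have := DD_mem hzg
        rw [add_sub_cancel_right] at this
        exact Submodule.sub_mem _ hx this
      have hd' : DD G X (x - DD G X z) = 0 := by
        rw [map_sub, hd, DD_DD, sub_zero]
      have hs' : ∀ σ ∈ (x - DD G X z).support, X.s σ < m := by
        intro σ hσ
        by_contra hc'
        rw [Finsupp.mem_support_iff] at hσ
        apply hσ
        rw [Finsupp.sub_apply, DD_apply' G X z _ hzs]
        have hdisj : Disjoint (lev X m) (lev X (m + 1)) := by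
          rw [Finset.disjoint_left]
          intro ρ h1 h2
          rw [mem_lev] at h1 h2
          omega
        rw [Finset.sum_union hdisj]
        have e1 : ∑ ρ ∈ lev X m, op (X.c ρ σ) • z ρ = 0 := by
          refine Finset.sum_eq_zero fun ρ hρ => ?_
          rw [LCells.c_zero (by rw [mem_lev.1 hρ]; omega), op_zero, zero_smul]
        rw [e1, zero_add]
        by_cases h1 : X.s σ = m
        · have e2 : ∑ ρ ∈ lev X (m + 1), op (X.c ρ σ) • z ρ = bdry G X (m + 1) w σ := by
            rw [bdry_def]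
            refine Finset.sum_congr rfl fun ρ hρ => ?_
            rw [hz, hg2 ρ (mem_lev.1 hρ)]
          rw [e2, hz, (hg1 σ h1).2.2, add_assoc, two_G, add_zero, sub_self]
        · have hxσ : x σ = 0 := by
            by_contra hne
            have := hs σ (Finsupp.mem_support_iff.2 hne)
            omega
          have e2 : ∑ ρ ∈ lev X (m + 1), op (X.c ρ σ) • z ρ = 0 := by
            refine Finset.sum_eq_zero fun ρ hρ => ?_
            rw [LCells.c_zero (by rw [mem_lev.1 hρ]; omega), op_zero, zero_smul]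
          rw [e2, hxσ, hz]
          by_cases h2 : X.s σ = m + 1
          · rw [hg2 σ h2, (hw σ h2).1.2]
            simp
          · rw [hg3 σ (by rw [Finset.mem_union, mem_lev, mem_lev]; tauto)]
            simp
      obtain ⟨y, hy1, hy2⟩ := ih k (x - DD G X z) hx' hd' hs'
      refine ⟨y + z, Submodule.add_mem _ hy1 hzg, ?_⟩
      rw [map_add, hy2, sub_add_cancel]
  intro k x hx hd
  exact key (x.support.sup X.s + 1) k x hx hd fun σ hσ =>
    Nat.lt_succ_of_le (Finset.le_sup (f := X.s) hσ)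

/-! ### layers that are sums of copies of a module in one degree -/

/-- `P` is concentrated in degree `0` -/
structure One (P : RM A) : Prop where
  all : ∀ p : P.X, p ∈ P.gr 0
  bot : ∀ (k : ℤ), k ≠ 0 → ∀ p ∈ P.gr k, p = 0

theorem One.d {P : RM A} (h : One P) (p : P.X) : P.d p = 0 :=
  h.bot (0 - 1) (by omega) _ (P.d_mem (h.all p))

/-- exactness for the module `P` itself -/
theorem One.ex {P : RM A} (h : One P) {X : LCells A} (hP : Ac (tG P X)) (m : ℕ) (z : X.ι → P.X)
    (hz : ∀ σ, X.s σ = m → op (X.e σ) • z σ = z σ) (hb : ∀ τ, X.s τ + 1 = m → bdry P X m z τ = 0) :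
    ∃ w : X.ι → P.X, (∀ ρ, X.s ρ = m + 1 → op (X.e ρ) • w ρ = w ρ) ∧
      ∀ σ, X.s σ = m → z σ = bdry P X (m + 1) w σ := by
  classical
  let x : X.ι →₀ P.X := Finsupp.onFinset (lev X m) (fun σ => if X.s σ = m then z σ else 0)
    fun σ h => by
      rw [mem_lev]
      by_contra hc
      exact h (if_neg hc)
  have hx1 : ∀ σ, X.s σ = m → x σ = z σ := fun σ h => if_pos h
  have hx2 : ∀ σ, X.s σ ≠ m → x σ = 0 := fun σ h => if_neg h
  have hxs : x.support ⊆ lev X m := Finsupp.support_onFinset_subset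
  have hxg : x ∈ GR P X m := by
    rw [mem_GR]
    intro σ
    by_cases hσ : X.s σ = m
    · rw [hx1 σ hσ, hσ, sub_self]
      exact ⟨h.all _, hz σ hσ⟩
    · rw [hx2 σ hσ]
      exact ⟨Submodule.zero_mem _, smul_zero _⟩
  have hxd : DD P X x = 0 := by
    refine Finsupp.ext fun τ => ?_
    rw [DD_apply' P X x _ hxs, h.d, zero_add, Finsupp.zero_apply]
    by_cases h1 : X.s τ + 1 = m
    · rw [← hb τ h1, bdry_def]
      exact Finset.sum_congr rfl fun σ hσ => by rw [hx1 σ (mem_lev.1 hσ)]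
    · refine Finset.sum_eq_zero fun σ hσ => ?_
      have hσ' := mem_lev.1 hσ
      refine h.bot (X.s σ - X.s τ - 1 + 0) (by omega) _ (P.smul_mem (X.c_mem σ τ) (h.all _))
  obtain ⟨y, hy, hyx⟩ := ac_iff.1 hP m x hxg hxd
  have hy0 : ∀ ρ, X.s ρ ≠ m + 1 → y ρ = 0 := fun ρ hρ =>
    h.bot _ (by omega) _ (mem_GR.1 hy ρ).1
  refine ⟨y, fun ρ _ => (mem_GR.1 hy ρ).2, fun σ hσ => ?_⟩
  rw [← hx1 σ hσ, ← hyx, DD_apply' P X y (lev X (m + 1)), h.d, zero_add, bdry_def]
  intro ρ hρ
  rw [mem_lev]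
  by_contra hc
  exact (Finsupp.mem_support_iff.1 hρ) (hy0 ρ hc)

/-- the layer `F / F'` is a direct sum of copies of `P` -/
structure Lay (G P : RM A) (F F' : Submodule K G.X) where
  β : Type
  φ : β → P.X →ₗ[K] G.X
  mem : ∀ b p, φ b p ∈ F
  act : ∀ b p (a : A.C), a ∈ A.G 0 → φ b (op a • p) + op a • φ b p ∈ F'
  sur : ∀ z ∈ F, ∃ p : β →₀ P.X, z + p.sum (fun b q => φ b q) ∈ F'
  inj : ∀ p : β →₀ P.X, p.sum (fun b q => φ b q) ∈ F' → p = 0

/-- the projection `x ↦ x e` of a family of vectors -/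
noncomputable def pe (P : RM A) {β : Type} (a : A.C) : (β →₀ P.X) →ₗ[K] (β →₀ P.X) :=
  Finsupp.mapRange.linearMap (rmul P a)

theorem pe_apply (P : RM A) {β : Type} (a : A.C) (p : β →₀ P.X) (b : β) :
    pe P a p b = op a • p b := rfl

variable {G P : RM A} {F F' : Submodule K G.X}

/-- evaluation of a family -/
noncomputable def Lay.ev (L : Lay G P F F') : (L.β →₀ P.X) →ₗ[K] G.X := Finsupp.lsum K L.φ

theorem Lay.ev_def (L : Lay G P F F') (p : L.β →₀ P.X) : L.ev p = p.sum fun b q => L.φ b q := by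
  rw [Lay.ev, Finsupp.lsum_apply]

theorem Lay.ev_mem (L : Lay G P F F') (p : L.β →₀ P.X) : L.ev p ∈ F := by
  rw [L.ev_def]
  exact Submodule.sum_mem _ fun b _ => L.mem b _

theorem Lay.ev_act (L : Lay G P F F') (p : L.β →₀ P.X) {a : A.C} (ha : a ∈ A.G 0) :
    L.ev (pe P a p) + op a • L.ev p ∈ F' := by
  induction p using Finsupp.induction_linear with
  | zero => rw [map_zero, map_zero, smul_zero, add_zero]; exact Submodule.zero_mem _
  | add f g hf hg =>
    rw [map_add, map_add, map_add, smul_add, add_add_add_comm]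
    exact Submodule.add_mem _ hf hg
  | single b q =>
    have h1 : pe P a (Finsupp.single b q) = Finsupp.single b (op a • q) := by
      simp [pe, rmul_apply]
    have h2 : ∀ q : P.X, L.ev (Finsupp.single b q) = L.φ b q := fun q => by
      rw [L.ev_def]
      exact Finsupp.sum_single_index (h := fun b q => L.φ b q) (map_zero (L.φ b))
    rw [h1, h2, h2]
    exact L.act b q a ha

theorem Lay.sur' (L : Lay G P F F') {z : G.X} (hz : z ∈ F) : ∃ p, z + L.ev p ∈ F' := by
  obtain ⟨p, hp⟩ := L.sur z hz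
  exact ⟨p, by rwa [L.ev_def]⟩

theorem Lay.inj' (L : Lay G P F F') {p : L.β →₀ P.X} (hp : L.ev p ∈ F') : p = 0 :=
  L.inj p (by rwa [L.ev_def] at hp)

/-- **(V2)** a layer of copies of `P` is exact if `P ⊗ X` is acyclic -/
theorem EL.of_lay (hP1 : One P) {X : LCells A} (hP : Ac (tG P X)) (L : Lay G P F F')
    (hF' : ∀ x ∈ F', ∀ a ∈ A.G 0, op a • x ∈ F') (hF : ∀ x ∈ F, ∀ a ∈ A.G 0, op a • x ∈ F) :
    EL G X F F' := by
  classical
  intro m z hz hb
  have key : ∀ σ, X.s σ = m → ∃ p : L.β →₀ P.X, pe P (X.e σ) p = p ∧ z σ + L.ev p ∈ F' := by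
    intro σ hσ
    obtain ⟨p, hp⟩ := L.sur' (hz σ hσ).1
    refine ⟨pe P (X.e σ) p, ?_, ?_⟩
    · refine Finsupp.ext fun b => ?_
      rw [pe_apply, pe_apply, smul_smul, ← op_mul, X.e_idem]
    · have h1 := hF' _ hp (X.e σ) (X.e_mem σ)
      have h2 := L.ev_act p (X.e_mem σ)
      rw [smul_add, (hz σ hσ).2] at h1
      have h3 := Submodule.add_mem _ h1 h2
      rwa [show z σ + op (X.e σ) • L.ev p + (L.ev (pe P (X.e σ) p) + op (X.e σ) • L.ev p) =
        z σ + L.ev (pe P (X.e σ) p) + (op (X.e σ) • L.ev p + op (X.e σ) • L.ev p) by abel,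
        two_G, add_zero] at h3
  let q : X.ι → (L.β →₀ P.X) := fun σ => if h : X.s σ = m then Classical.choose (key σ h) else 0
  have hq : ∀ σ, X.s σ = m → pe P (X.e σ) (q σ) = q σ ∧ z σ + L.ev (q σ) ∈ F' := by
    intro σ h
    have := Classical.choose_spec (key σ h)
    simp only [q, dif_pos h]
    exact this
  -- the components are cycles
  have hcy : ∀ τ, X.s τ + 1 = m → ∑ σ ∈ lev X m, pe P (X.c σ τ) (q σ) = 0 := by
    intro τ hτ
    apply L.inj'
    rw [map_sum]
    have h1 : ∀ σ ∈ lev X m, L.ev (pe P (X.c σ τ) (q σ)) + op (X.c σ τ) • z σ ∈ F' := by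
      intro σ hσ
      have hσ' := mem_lev.1 hσ
      have hc0 : X.c σ τ ∈ A.G 0 := by
        have := X.c_mem σ τ
        rwa [show (X.s σ : ℤ) - X.s τ - 1 = 0 by omega] at this
      have h2 := L.ev_act (q σ) hc0
      have h3 := hF' _ (hq σ hσ').2 _ hc0
      rw [smul_add] at h3
      have h4 := Submodule.add_mem _ h2 h3
      rwa [show L.ev (pe P (X.c σ τ) (q σ)) + op (X.c σ τ) • L.ev (q σ) +
        (op (X.c σ τ) • z σ + op (X.c σ τ) • L.ev (q σ)) =
        L.ev (pe P (X.c σ τ) (q σ)) + op (X.c σ τ) • z σ +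
          (op (X.c σ τ) • L.ev (q σ) + op (X.c σ τ) • L.ev (q σ)) by abel, two_G, add_zero] at h4
    have h2 := Submodule.sum_mem _ h1
    rw [Finset.sum_add_distrib] at h2
    have h3 := Submodule.add_mem _ h2 (hb τ hτ)
    rwa [bdry_def, add_assoc, two_G, add_zero] at h3
  -- solve in each component
  have hsol : ∀ b : L.β, ∃ w : X.ι → P.X, (∀ ρ, X.s ρ = m + 1 → op (X.e ρ) • w ρ = w ρ) ∧
      ∀ σ, X.s σ = m → q σ b = bdry P X (m + 1) w σ := by
    intro b
    refine hP1.ex hP m (fun σ => q σ b) (fun σ hσ => ?_) fun τ hτ => ?_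
    · have := DFunLike.congr_fun (hq σ hσ).1 b
      rwa [pe_apply] at this
    · have := DFunLike.congr_fun (hcy τ hτ) b
      rw [Finset.sum_apply'] at this
      rw [bdry_def]
      exact this
  choose W hW1 hW2 using hsol
  let S : Finset L.β := (lev X m).biUnion fun σ => (q σ).support
  let w : X.ι → G.X := fun ρ => op (X.e ρ) • ∑ b ∈ S, L.φ b (W b ρ)
  refine ⟨w, fun ρ _ => ⟨hF _ (Submodule.sum_mem _ fun b _ => L.mem b _) _ (X.e_mem ρ), ?_⟩,
    fun σ hσ => ?_⟩
  · simp only [w]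
    rw [smul_smul, ← op_mul, X.e_idem]
  · -- compare
    have h1 : L.ev (q σ) = ∑ b ∈ S, L.φ b (q σ b) := by
      rw [L.ev_def]
      refine Finsupp.sum_of_support_subset _ ?_ _ fun b _ => map_zero _
      exact Finset.subset_biUnion_of_mem (fun σ => (q σ).support) (mem_lev.2 hσ)
    have h2 : bdry G X (m + 1) w σ + L.ev (q σ) ∈ F' := by
      have h3 : bdry G X (m + 1) w σ =
          ∑ b ∈ S, ∑ ρ ∈ lev X (m + 1), op (X.c ρ σ) • L.φ b (W b ρ) := by
        rw [bdry_def, Finset.sum_comm]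
        refine Finset.sum_congr rfl fun ρ _ => ?_
        simp only [w]
        rw [smul_smul, ← op_mul, X.c_left, Finset.smul_sum]
      have h4 : L.ev (q σ) = ∑ b ∈ S, ∑ ρ ∈ lev X (m + 1), L.φ b (op (X.c ρ σ) • W b ρ) := by
        rw [h1]
        refine Finset.sum_congr rfl fun b _ => ?_
        rw [hW2 b σ hσ, bdry_def, map_sum]
      rw [h3, h4, ← Finset.sum_add_distrib]
      refine Submodule.sum_mem _ fun b _ => ?_
      rw [← Finset.sum_add_distrib]
      refine Submodule.sum_mem _ fun ρ hρ => ?_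
      have hc0 : X.c ρ σ ∈ A.G 0 := by
        have := X.c_mem ρ σ
        rwa [show (X.s ρ : ℤ) - X.s σ - 1 = 0 by rw [mem_lev.1 hρ, hσ]; push_cast; ring] at this
      have := L.act b (W b ρ) _ hc0
      rwa [add_comm] at this
    have h5 := Submodule.add_mem _ (hq σ hσ).2 h2
    rwa [show z σ + L.ev (q σ) + (bdry G X (m + 1) w σ + L.ev (q σ)) =
      z σ + bdry G X (m + 1) w σ + (L.ev (q σ) + L.ev (q σ)) by abel, two_G, add_zero] at h5

/-- **(V1) + (V2)**: two layers (the case of `y_x² = 0`) -/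
theorem ac_of_two {G P : RM A} (hP1 : One P) {X : LCells A} (hP : Ac (tG P X))
    (M : ℤ → Submodule K G.X) (h1 : ∀ n, bd G n ≤ M n) (h2 : ∀ n, M n ≤ cyc G n)
    (hM : ∀ n, ∀ x ∈ M n, ∀ a ∈ A.G 0, op a • x ∈ M n)
    (L1 : ∀ n, Lay G P (cyc G n) (M n)) (L2 : ∀ n, Lay G P (M n) (bd G n)) : Ac (tG G X) :=
  ac_of_EL fun n => EL.comp le_rfl (h2 n) (h1 n) le_rfl
    (EL.of_lay hP1 hP (L1 n) (hM n) fun _ hx _ ha => cyc_act hx ha)
    (EL.of_lay hP1 hP (L2 n) (fun _ hx _ ha => bd_act hx ha) (hM n))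

end Crest.Agent.R186.VT339
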