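import Crest.Agent.R186.VTop_429

/-!
Row 186 (helper429), half (A), short road, leaf (V): right modules supported at one row with `h`
bijective are direct sums of copies of `DV_{-2}`; the level-`n` hypothesis of the truncation lemma.
-/

set_option autoImplicit false
set_option linter.style.haveILetI false
set_option linter.unusedSectionVars false

open MulOpposite

namespace Crest.Agent.R186.VTop429

open Hat827 Hat827.DGA Frame515

variable {K : Type} [Field K] {A : DGA K}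

theorem rmul_rmul (G : RM A) (a b : A.C) (x : G.X) : rmul G b (rmul G a x) = rmul G (a * b) x := by
  rw [rmul_apply, rmul_apply, rmul_apply, smul_smul, ← op_mul]

/-- no `y`: `U/U'` supported at the vertices `b : β`, `h` bijective, everything else acts as on
`P` -/
theorem EQG.of_supp (X : LCells A) (P N : RM A) (j : ℤ) (hP : ZG P X j)
    (hPd : ∀ v : P.X, P.d v = 0) (hP0 : ∀ k : ℤ, k ≠ 0 → ∀ v ∈ P.gr k, v = 0)
    {β : Type} [Fintype β] [DecidableEq β] (b0 : β) (e Hh : β → A.C)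
    (heG : ∀ b, e b ∈ A.G 0) (hHG : ∀ b, Hh b ∈ A.G 0)
    (hHe : ∀ b b', Hh b * e b' = if b = b' then Hh b else 0) (heH : ∀ b, e b0 * Hh b = Hh b)
    (u : Module.Basis β K P.X) (hu : ∀ b, rmul P (Hh b) (u b0) = u b) (hu0 : ∀ b, u b ∈ P.gr 0)
    {U U' : Submodule K N.X}
    (hU : ∀ x ∈ U, ∀ c ∈ A.G 0, rmul N c x ∈ U) (hU' : ∀ x ∈ U', ∀ c ∈ A.G 0, rmul N c x ∈ U')
    (supp : ∀ x ∈ U, x - ∑ b, rmul N (e b) x ∈ U')
    (hinj : ∀ b, ∀ x ∈ U, rmul N (e b0) x = x → rmul N (Hh b) x ∈ U' → x ∈ U')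
    (hsurj : ∀ b, ∀ x ∈ U, ∃ y ∈ U, rmul N (e b0) y = y ∧ rmul N (e b) x - rmul N (Hh b) y ∈ U')
    (NF : ∀ c ∈ A.G 0, e b0 * c = c → ∃ lam : β → K, rmul P c (u b0) = ∑ b, lam b • u b ∧
      ∀ x ∈ U, rmul N (e b0) x = x → rmul N c x - ∑ b, lam b • rmul N (Hh b) x ∈ U') :
    EQG N X U U' j := by
  classical
  let E0 : Submodule K N.X := LinearMap.ker (rmul N (e b0) - LinearMap.id)
  have hE0 : ∀ x, x ∈ E0 ↔ rmul N (e b0) x = x := fun x => by
    rw [LinearMap.mem_ker, LinearMap.sub_apply, LinearMap.id_apply, sub_eq_zero]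
  let W : Submodule K (N.X ⧸ U') := (U ⊓ E0).map U'.mkQ
  let B := Module.Basis.ofVectorSpace K W
  have hv : ∀ i, ∃ v : N.X, (v ∈ U ∧ rmul N (e b0) v = v) ∧ U'.mkQ v = (B i : N.X ⧸ U') := by
    intro i
    obtain ⟨v, hv1, hv2⟩ := (B i).2
    exact ⟨v, ⟨hv1.1, (hE0 v).1 hv1.2⟩, hv2⟩
  choose v hv1 hv2 using hv
  let φ : Module.Basis.ofVectorSpaceIndex K W → P.X →ₗ[K] N.X := fun i =>
    u.constr K fun b => rmul N (Hh b) (v i)
  have hφ : ∀ i b, φ i (u b) = rmul N (Hh b) (v i) := fun i b => u.constr_basis K _ b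
  have hφ' : ∀ i (w : P.X), φ i w = ∑ b, u.repr w b • rmul N (Hh b) (v i) := by
    intro i w
    conv_lhs => rw [← u.sum_repr w]
    rw [map_sum]
    exact Finset.sum_congr rfl fun b _ => by rw [map_smul, hφ]
  -- linear combinations of the `v i`
  have hlin : ∀ y ∈ U, rmul N (e b0) y = y → ∃ k : Module.Basis.ofVectorSpaceIndex K W →₀ K,
      y - k.sum (fun i c => c • v i) ∈ U' := by
    intro y hy1 hy2
    have hyW : U'.mkQ y ∈ W := ⟨y, ⟨hy1, (hE0 y).2 hy2⟩, rfl⟩
    refine ⟨B.repr ⟨U'.mkQ y, hyW⟩, ?_⟩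
    rw [← Submodule.Quotient.mk_eq_zero, ← Submodule.mkQ_apply, map_sub, sub_eq_zero]
    have h1 := B.linearCombination_repr ⟨U'.mkQ y, hyW⟩
    have h2 := congrArg (Submodule.subtype W) h1
    rw [Finsupp.linearCombination_apply, Finsupp.sum, map_sum] at h2
    rw [Finsupp.sum, map_sum]
    refine h2.symm.trans (Finset.sum_congr rfl fun i _ => ?_)
    rw [map_smul, map_smul, hv2]
    rfl
  have hindep : ∀ k : Module.Basis.ofVectorSpaceIndex K W →₀ K,
      k.sum (fun i c => c • v i) ∈ U' → k = 0 := by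
    intro k hk
    rw [← Submodule.Quotient.mk_eq_zero, ← Submodule.mkQ_apply] at hk
    rw [Finsupp.sum, map_sum] at hk
    have h1 : Finsupp.linearCombination K B k = 0 := by
      apply Subtype.ext
      rw [Finsupp.linearCombination_apply, Finsupp.sum]
      have : ((∑ i ∈ k.support, k i • B i : W) : N.X ⧸ U') =
          ∑ i ∈ k.support, U'.mkQ (k i • v i) := by
        rw [Submodule.coe_sum]
        refine Finset.sum_congr rfl fun i _ => ?_
        rw [map_smul, hv2]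
        rfl
      rw [this, hk]
      rfl
    exact (linearIndependent_iff.1 B.linearIndependent) k h1
  refine EQG.of_copies X P N j hP hPd hP0 φ (fun i w _ => ?_) (fun i w _ c hc => ?_)
    (fun x hx => ?_) (fun ξ _ hξ => ?_) hU hU'
  · rw [hφ']
    exact Submodule.sum_mem _ fun b _ => Submodule.smul_mem _ _ (hU _ (hv1 i).1 _ (hHG b))
  · -- compatibility with the action
    have hb : ∀ b, φ i (rmul P c (u b)) - rmul N c (φ i (u b)) ∈ U' := by
      intro b
      have hc' : Hh b * c ∈ A.G 0 := by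
        have := A.mul_mem (hHG b) hc
        rwa [zero_add] at this
      obtain ⟨lam, h1, h2⟩ := NF (Hh b * c) hc' (by rw [← mul_assoc, heH])
      have h3 := h2 (v i) (hv1 i).1 (hv1 i).2
      have h4 : φ i (rmul P c (u b)) = ∑ b', lam b' • rmul N (Hh b') (v i) := by
        rw [← hu b, rmul_rmul, h1, map_sum]
        exact Finset.sum_congr rfl fun b' _ => by rw [map_smul, hφ]
      rw [h4, hφ, rmul_rmul]
      have := Submodule.neg_mem _ h3
      rwa [neg_sub] at this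
    have hw : φ i (op c • w) - op c • φ i w =
        ∑ b, u.repr w b • (φ i (rmul P c (u b)) - rmul N c (φ i (u b))) := by
      change φ i (rmul P c w) - rmul N c (φ i w) = _
      conv_lhs => rw [← u.sum_repr w]
      simp only [map_sum, map_smul, smul_sub, Finset.sum_sub_distrib]
    rw [hw]
    exact Submodule.sum_mem _ fun b _ => Submodule.smul_mem _ _ (hb b)
  · -- surjectivity
    choose y hy1 hy2 hy3 using fun b => hsurj b x hx
    choose k hk using fun b => hlin (y b) (hy1 b) (hy2 b)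
    refine ⟨∑ b, (k b).mapRange (fun c => c • u b) (zero_smul _ _), fun i => ?_, ?_⟩
    · rw [Finset.sum_apply']
      exact Submodule.sum_mem _ fun b _ => by
        rw [Finsupp.mapRange_apply]
        exact Submodule.smul_mem _ _ (hu0 b)
    · have h1 : Finsupp.lsum K φ (∑ b, (k b).mapRange (fun c => c • u b) (zero_smul _ _)) =
          ∑ b, rmul N (Hh b) ((k b).sum fun i c => c • v i) := by
        rw [map_sum]
        refine Finset.sum_congr rfl fun b _ => ?_
        rw [Finsupp.lsum_apply, Finsupp.sum_mapRange_index (fun i => map_zero _), Finsupp.sum,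
          Finsupp.sum, map_sum]
        refine Finset.sum_congr rfl fun i _ => ?_
        rw [map_smul, map_smul, hφ]
      have h2 : ∀ b, rmul N (e b) x - rmul N (Hh b) ((k b).sum fun i c => c • v i) ∈ U' := by
        intro b
        have h3 := hU' _ (hk b) _ (hHG b)
        rw [map_sub] at h3
        have := Submodule.add_mem _ (hy3 b) h3
        rwa [sub_add_sub_cancel] at this
      have h3 := Submodule.add_mem _ (supp x hx) (Submodule.sum_mem U' (t := Finset.univ) fun b _ => h2 b)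
      rw [Finset.sum_sub_distrib, sub_add_sub_cancel] at h3
      rw [h1]
      exact h3
  · -- injectivity
    have hk : ∀ b, ξ.mapRange (fun w => u.repr w b) (by simp) = 0 := by
      intro b
      apply hindep
      rw [Finsupp.sum_mapRange_index (h := fun i (c : K) => c • v i) (fun i => zero_smul K (v i))]
      refine hinj b _ ?_ ?_ ?_
      · exact Submodule.sum_mem _ fun i _ => Submodule.smul_mem _ _ (hv1 i).1
      · rw [Finsupp.sum, map_sum]
        refine Finset.sum_congr rfl fun i _ => ?_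
        rw [map_smul, (hv1 i).2]
      · have h1 := hU' _ hξ (e b) (heG b)
        rw [Finsupp.lsum_apply, Finsupp.sum, map_sum] at h1
        rw [Finsupp.sum, map_sum]
        have hrw : ∑ i ∈ ξ.support, rmul N (Hh b) (u.repr (ξ i) b • v i) =
            ∑ i ∈ ξ.support, rmul N (e b) (φ i (ξ i)) := ?_
        · rw [hrw]; exact h1
        refine Finset.sum_congr rfl fun i _ => ?_
        rw [hφ', map_sum, map_smul]
        symm
        rw [Finset.sum_eq_single b]
        · rw [map_smul, rmul_rmul, hHe, if_pos rfl]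
        · intro b' _ hb'
          rw [map_smul, rmul_rmul, hHe, if_neg hb']
          rw [rmul_apply, op_zero, zero_smul, smul_zero]
        · intro h; exact absurd (Finset.mem_univ b) h
    refine Finsupp.ext fun i => ?_
    rw [Finsupp.zero_apply]
    apply u.repr.injective
    rw [map_zero]
    refine Finsupp.ext fun b => ?_
    have := DFunLike.congr_fun (hk b) i
    rw [Finsupp.mapRange_apply] at this
    exact this

/-- with the letter `y` (`y² = 0`): the filtration `U ⊇ {x | x y ∈ U'} ⊇ U'` -/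
theorem EQG.of_supp_y (X : LCells A) (P N : RM A) (n j : ℤ) (hP : ZG P X j)
    (hPd : ∀ v : P.X, P.d v = 0) (hP0 : ∀ k : ℤ, k ≠ 0 → ∀ v ∈ P.gr k, v = 0)
    {β : Type} [Fintype β] [DecidableEq β] (b0 : β) (e Hh : β → A.C) (Yt : A.C)
    (heG : ∀ b, e b ∈ A.G 0) (hHG : ∀ b, Hh b ∈ A.G 0) (hYG : Yt ∈ A.G 0)
    (hHe : ∀ b b', Hh b * e b' = if b = b' then Hh b else 0) (heH : ∀ b, e b0 * Hh b = Hh b)
    (hYe : ∀ b, e b * Yt = Yt * e b) (hYH : ∀ b, Hh b * Yt = Yt * Hh b) (hYY : Yt * Yt = 0)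
    (u : Module.Basis β K P.X) (hu : ∀ b, rmul P (Hh b) (u b0) = u b) (hu0 : ∀ b, u b ∈ P.gr 0)
    {U U' : Submodule K N.X} (hUZ : U ≤ Zn N.toGC n) (hBU : Bn N.toGC n ≤ U') (hUU : U' ≤ U)
    (hU : ∀ x ∈ U, ∀ c ∈ A.G 0, rmul N c x ∈ U) (hU' : ∀ x ∈ U', ∀ c ∈ A.G 0, rmul N c x ∈ U')
    (supp : ∀ x ∈ U, x - ∑ b, rmul N (e b) x ∈ U')
    (hinj : ∀ b, ∀ x ∈ U, rmul N (e b0) x = x → rmul N (Hh b) x ∈ U' → x ∈ U')
    (hsurj : ∀ b, ∀ x ∈ U, ∃ y ∈ U, rmul N (e b0) y = y ∧ rmul N (e b) x - rmul N (Hh b) y ∈ U')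
    (NF : ∀ c ∈ A.G 0, e b0 * c = c → ∃ lam mu : β → K, rmul P c (u b0) = ∑ b, lam b • u b ∧
      ∀ x ∈ U, rmul N (e b0) x = x → rmul N c x - ∑ b, (lam b • rmul N (Hh b) x +
        mu b • rmul N (Hh b) (rmul N Yt x)) ∈ U') :
    EQG N X U U' j := by
  classical
  let U1 : Submodule K N.X := U ⊓ U'.comap (rmul N Yt)
  have hU1 : ∀ x, x ∈ U1 ↔ x ∈ U ∧ rmul N Yt x ∈ U' := fun x => Iff.rfl
  have hY0 : ∀ y, rmul N (e b0) y = y → rmul N (e b0) (rmul N Yt y) = rmul N Yt y := by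
    intro y hy
    rw [rmul_rmul, ← hYe, ← rmul_rmul, hy]
  have hYH' : ∀ b y, rmul N (Hh b) (rmul N Yt y) = rmul N Yt (rmul N (Hh b) y) := by
    intro b y
    rw [rmul_rmul, rmul_rmul, hYH]
  -- `y` with `y Hh_b` killed by `Yt` modulo `U'` is killed by `Yt`
  have hkill : ∀ b, ∀ y ∈ U, rmul N (e b0) y = y → rmul N Yt (rmul N (Hh b) y) ∈ U' →
      rmul N Yt y ∈ U' := by
    intro b y hy he h
    refine hinj b _ (hU _ hy _ hYG) (hY0 y he) ?_
    rw [hYH']
    exact h
  have hYYN : ∀ y, rmul N Yt (rmul N Yt y) = 0 := by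
    intro y
    rw [rmul_rmul, hYY, rmul_apply, op_zero, zero_smul]
  have hU'1 : U' ≤ U1 := fun x hx => ⟨hUU hx, hU' x hx _ hYG⟩
  have hstab : ∀ x ∈ U1, ∀ c ∈ A.G 0, rmul N c x ∈ U1 := by
    intro x hx c hc
    refine ⟨hU x hx.1 c hc, ?_⟩
    change rmul N Yt (rmul N c x) ∈ U'
    -- decompose `x`
    choose y hy1 hy2 hy3 using fun b => hsurj b x hx.1
    have hyk : ∀ b, rmul N Yt (y b) ∈ U' := by
      intro b
      refine hkill b (y b) (hy1 b) (hy2 b) ?_
      have h1 := hU' _ (hy3 b) _ hYG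
      rw [map_sub, rmul_rmul, hYe, ← rmul_rmul] at h1
      have h2 := hU' _ hx.2 _ (heG b)
      have := Submodule.sub_mem _ h2 h1
      rwa [sub_sub_cancel] at this
    have hterm : ∀ b, rmul N Yt (rmul N c (rmul N (Hh b) (y b))) ∈ U' := by
      intro b
      have hc' : Hh b * c ∈ A.G 0 := by
        have := A.mul_mem (hHG b) hc
        rwa [zero_add] at this
      obtain ⟨lam, mu, _, h2⟩ := NF (Hh b * c) hc' (by rw [← mul_assoc, heH])
      have h3 := hU' _ (h2 (y b) (hy1 b) (hy2 b)) _ hYG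
      rw [map_sub, ← rmul_rmul] at h3
      have h4 : rmul N Yt (∑ b', (lam b' • rmul N (Hh b') (y b) +
          mu b' • rmul N (Hh b') (rmul N Yt (y b)))) ∈ U' := by
        rw [map_sum]
        refine Submodule.sum_mem _ fun b' _ => ?_
        rw [map_add, map_smul, map_smul, hYH', hYYN, smul_zero, add_zero, ← hYH']
        exact Submodule.smul_mem _ _ (hU' _ (hyk b) _ (hHG b'))
      have := Submodule.add_mem _ h3 h4
      rwa [sub_add_cancel] at this
    have hx' : x - ∑ b, rmul N (Hh b) (y b) ∈ U' := by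
      have h3 := Submodule.add_mem _ (supp x hx.1)
        (Submodule.sum_mem U' (t := Finset.univ) fun b _ => hy3 b)
      rwa [Finset.sum_sub_distrib, sub_add_sub_cancel] at h3
    have h5 := hU' _ (hU' _ hx' _ hc) _ hYG
    rw [map_sub, map_sub, map_sum, map_sum] at h5
    have := Submodule.add_mem _ h5 (Submodule.sum_mem U' (t := Finset.univ) fun b _ => hterm b)
    rwa [sub_add_cancel] at this
  refine EQG.ext (n := n) (U1 := U1) ?_ ?_ hUZ hBU hU'1 inf_le_left
  · refine EQG.of_supp X P N j hP hPd hP0 b0 e Hh heG hHG hHe heH u hu hu0 hU hstab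
      (fun x hx => hU'1 (supp x hx)) (fun b x hx he h => ⟨hx, ?_⟩) (fun b x hx => ?_)
      (fun c hc hce => ?_)
    · exact hkill b x hx he h.2
    · obtain ⟨y, h1, h2, h3⟩ := hsurj b x hx
      exact ⟨y, h1, h2, hU'1 h3⟩
    · obtain ⟨lam, mu, h1, h2⟩ := NF c hc hce
      refine ⟨lam, h1, fun x hx he => ?_⟩
      have h3 := hU'1 (h2 x hx he)
      rw [Finset.sum_add_distrib, sub_add_eq_sub_sub] at h3
      have h4 : ∑ b, mu b • rmul N (Hh b) (rmul N Yt x) ∈ U1 := by
        refine Submodule.sum_mem _ fun b _ => Submodule.smul_mem _ _ ⟨?_, ?_⟩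
        · exact hU _ (hU _ hx _ hYG) _ (hHG b)
        · change rmul N Yt (rmul N (Hh b) (rmul N Yt x)) ∈ U'
          rw [hYH', hYYN]
          simp
      have := Submodule.add_mem _ h3 h4
      rwa [sub_add_cancel] at this
  · refine EQG.of_supp X P N j hP hPd hP0 b0 e Hh heG hHG hHe heH u hu hu0 hstab hU'
      (fun x hx => supp x hx.1) (fun b x hx he h => hinj b x hx.1 he h) (fun b x hx => ?_)
      (fun c hc hce => ?_)
    · obtain ⟨y, h1, h2, h3⟩ := hsurj b x hx.1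
      refine ⟨y, ⟨h1, ?_⟩, h2, h3⟩
      refine hkill b y h1 h2 ?_
      have h4 := hU' _ h3 _ hYG
      rw [map_sub, rmul_rmul, hYe, ← rmul_rmul] at h4
      have h5 := hU' _ hx.2 _ (heG b)
      have := Submodule.sub_mem _ h5 h4
      rwa [sub_sub_cancel] at this
    · obtain ⟨lam, mu, h1, h2⟩ := NF c hc hce
      refine ⟨lam, h1, fun x hx he => ?_⟩
      have h3 := h2 x hx.1 he
      rw [Finset.sum_add_distrib, sub_add_eq_sub_sub] at h3
      have h4 : ∑ b, mu b • rmul N (Hh b) (rmul N Yt x) ∈ U' :=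
        Submodule.sum_mem _ fun b _ => Submodule.smul_mem _ _ (hU' _ hx.2 _ (hHG b))
      have := Submodule.add_mem _ h3 h4
      rwa [sub_add_cancel] at this

theorem Zn_stable (N : RM A) (n : ℤ) : ∀ x ∈ Zn N.toGC n, ∀ c ∈ A.G 0, rmul N c x ∈ Zn N.toGC n := by
  intro x hx c hc
  rw [mem_Zn] at hx ⊢
  refine ⟨?_, ?_⟩
  · have := N.smul_mem hc hx.1
    rwa [zero_add] at this
  · rw [rmul_apply, N.leib, hx.2, smul_zero, add_zero, D_neg hc (by norm_num), op_zero, zero_smul]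

theorem Bn_stable (N : RM A) (n : ℤ) : ∀ x ∈ Bn N.toGC n, ∀ c ∈ A.G 0, rmul N c x ∈ Bn N.toGC n := by
  intro x hx c hc
  obtain ⟨b, hb, rfl⟩ := mem_Bn.1 hx
  refine mem_Bn.2 ⟨rmul N c b, ?_, ?_⟩
  · have := N.smul_mem hc hb
    rwa [zero_add] at this
  · rw [rmul_apply, N.leib, D_neg hc (by norm_num), op_zero, zero_smul, zero_add]
    rfl

/-- **(V1) + (V2)**: the homology of `N` is supported at the vertices `β` with `h` bijective;
then `N ⊗ X` is acyclic as soon as `P ⊗ X` is (`P = DV_{-2}`) -/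
theorem ac_of_supp (X : LCells A) (P N : RM A) (hP : Ac (tG P X))
    (hPd : ∀ v : P.X, P.d v = 0) (hP0 : ∀ k : ℤ, k ≠ 0 → ∀ v ∈ P.gr k, v = 0)
    {β : Type} [Fintype β] [DecidableEq β] (b0 : β) (e Hh : β → A.C) (Yt : A.C)
    (heG : ∀ b, e b ∈ A.G 0) (hHG : ∀ b, Hh b ∈ A.G 0) (hYG : Yt ∈ A.G 0)
    (hHe : ∀ b b', Hh b * e b' = if b = b' then Hh b else 0) (heH : ∀ b, e b0 * Hh b = Hh b)
    (hYe : ∀ b, e b * Yt = Yt * e b) (hYH : ∀ b, Hh b * Yt = Yt * Hh b) (hYY : Yt * Yt = 0)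
    (u : Module.Basis β K P.X) (hu : ∀ b, rmul P (Hh b) (u b0) = u b) (hu0 : ∀ b, u b ∈ P.gr 0)
    (supp : ∀ n, ∀ x ∈ Zn N.toGC n, x - ∑ b, rmul N (e b) x ∈ Bn N.toGC n)
    (hinj : ∀ n b, ∀ x ∈ Zn N.toGC n, rmul N (e b0) x = x → rmul N (Hh b) x ∈ Bn N.toGC n →
      x ∈ Bn N.toGC n)
    (hsurj : ∀ n b, ∀ x ∈ Zn N.toGC n, ∃ y ∈ Zn N.toGC n, rmul N (e b0) y = y ∧
      rmul N (e b) x - rmul N (Hh b) y ∈ Bn N.toGC n)
    (NF : ∀ n, ∀ c ∈ A.G 0, e b0 * c = c → ∃ lam mu : β → K, rmul P c (u b0) = ∑ b, lam b • u b ∧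
      ∀ x ∈ Zn N.toGC n, rmul N (e b0) x = x → rmul N c x - ∑ b, (lam b • rmul N (Hh b) x +
        mu b • rmul N (Hh b) (rmul N Yt x)) ∈ Bn N.toGC n) :
    Ac (tG N X) :=
  ac_of_EQG fun n j => EQG.of_supp_y X P N n j (ac_iff.1 hP j) hPd hP0 b0 e Hh Yt heG hHG hYG
    hHe heH hYe hYH hYY u hu hu0 le_rfl le_rfl (Bn_le n) (Zn_stable N n) (Bn_stable N n)
    (supp n) (hinj n) (hsurj n) (NF n)

end Crest.Agent.R186.VTop429
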