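import Crest.Agent.R186.Frame_515

/-!
Row 186 (helper429), half (A), short road, leaf (V): the homology of `N ⊗ X` from the homology
modules of `N` (elementwise, no quotient modules).

* `EQ X N U U' j` : for `U' ⊆ U ⊆ N` the complex `U/U' ⊗ X` (cells of neighbouring levels only)
  is exact at level `j`.
* `z_of_EQ` : `EQ` for all pairs (cycles of degree `n`, boundaries) ⟹ `N ⊗ X` acyclic.
* `EQ.ext` : extensions.
* `EQ.of_copies` : `U/U'` a direct sum of copies of a module `P` with `P ⊗ X` acyclic.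
-/

set_option autoImplicit false
set_option linter.style.haveILetI false
set_option linter.unusedSectionVars false

open MulOpposite

namespace Crest.Agent.R186.VTop429

open Hat827 Hat827.DGA Frame515

variable {K : Type} [Field K]

section tw

variable {B : GC K} (T : Tw B)

theorem M_apply' (x : T.ι →₀ B.X) (S : Finset T.ι) (hS : x.support ⊆ S) (τ : T.ι) :
    T.M x τ = ∑ σ ∈ S, T.m σ τ (x σ) :=
  mat_apply' T.s T.F T.m (fun _ _ h => T.notF h) x S hS τ

theorem dd_eq (x : T.ι →₀ B.X) (τ : T.ι) : T.dd x τ = B.d (x τ) + T.M x τ := by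
  rw [Tw.dd, LinearMap.add_apply, Finsupp.add_apply]
  rfl

theorem M_low {x : T.ι →₀ B.X} {τ : T.ι} (h : ∀ σ, T.s τ < T.s σ → x σ = 0) : T.M x τ = 0 := by
  rw [M_apply' T x x.support (Finset.Subset.refl _)]
  refine Finset.sum_eq_zero fun σ _ => ?_
  by_cases hs : T.s τ < T.s σ
  · rw [h σ hs, map_zero]
  · rw [T.m_zero σ τ (by omega), LinearMap.zero_apply]

theorem M_congr {x x' : T.ι →₀ B.X} {τ : T.ι} (h : ∀ σ, T.s τ < T.s σ → x σ = x' σ) :
    T.M x τ = T.M x' τ := by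
  have h1 : T.M (x - x') τ = 0 := M_low T fun σ hσ => by
    rw [Finsupp.sub_apply, h σ hσ, sub_self]
  rw [map_sub, Finsupp.sub_apply, sub_eq_zero] at h1
  exact h1

theorem p_M (x : T.ι →₀ B.X) (τ : T.ι) : T.p τ (T.M x τ) = T.M x τ := by
  rw [M_apply' T x x.support (Finset.Subset.refl _), map_sum]
  exact Finset.sum_congr rfl fun σ _ => T.p_m σ τ _

/-- exactness at level `j` of the complex with coefficients `U/U'` -/
def EQ (U U' : Submodule K B.X) (j : ℤ) : Prop :=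
  ∀ x : T.ι →₀ B.X, (∀ σ, (T.s σ : ℤ) ≠ j → x σ = 0) → (∀ σ, x σ ∈ U) →
    (∀ σ, T.p σ (x σ) = x σ) → (∀ τ, (T.s τ : ℤ) + 1 = j → T.M x τ ∈ U') →
    ∃ y : T.ι →₀ B.X, (∀ σ, (T.s σ : ℤ) ≠ j + 1 → y σ = 0) ∧ (∀ σ, y σ ∈ U) ∧
      (∀ σ, T.p σ (y σ) = y σ) ∧ ∀ σ, (T.s σ : ℤ) = j → x σ - T.M y σ ∈ U'

/-- cycles of degree `n` -/
def Zn (B : GC K) (n : ℤ) : Submodule K B.X := B.gr n ⊓ LinearMap.ker B.d

/-- boundaries of degree `n` -/
def Bn (B : GC K) (n : ℤ) : Submodule K B.X := (B.gr (n + 1)).map B.d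

theorem mem_Zn {n : ℤ} {x : B.X} : x ∈ Zn B n ↔ x ∈ B.gr n ∧ B.d x = 0 := by
  rw [Zn, Submodule.mem_inf, LinearMap.mem_ker]

theorem mem_Bn {n : ℤ} {x : B.X} : x ∈ Bn B n ↔ ∃ b ∈ B.gr (n + 1), B.d b = x := Iff.rfl

theorem Bn_le (n : ℤ) : Bn B n ≤ Zn B n := by
  rintro x ⟨b, hb, rfl⟩
  refine mem_Zn.2 ⟨?_, B.d_d b⟩
  have := B.d_mem hb
  rwa [add_sub_cancel_right] at this

/-- **(V1)** the truncation lemma -/
theorem z_of_EQ (k : ℤ) (h : ∀ n j : ℤ, n + j = k → EQ T (Zn B n) (Bn B n) j)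
    (x : T.ι →₀ B.X) (hx : x ∈ T.gr k) (hd : T.dd x = 0) : ∃ y ∈ T.gr (k + 1), T.dd y = x := by
  classical
  have key : ∀ (N : ℕ) (x : T.ι →₀ B.X), x ∈ T.gr k → T.dd x = 0 →
      (∀ σ, N ≤ T.s σ → x σ = 0) → ∃ y ∈ T.gr (k + 1), T.dd y = x := by
    intro N
    induction N with
    | zero =>
      intro x _ _ hs
      have hx : x = 0 := Finsupp.ext fun σ => hs σ (Nat.zero_le _)
      exact ⟨0, Submodule.zero_mem _, by rw [hx, map_zero]⟩
    | succ N ih =>
      intro x hx hd hs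
      have htop : ∀ σ, T.s σ = N → B.d (x σ) = 0 := by
        intro σ hσ
        have h1 := DFunLike.congr_fun hd σ
        rw [dd_eq, M_low T (fun ρ hρ => hs ρ (by omega)), add_zero] at h1
        exact h1
      let x0 : T.ι →₀ B.X := x.filter fun σ => T.s σ = N
      have hx0 : ∀ σ, T.s σ = N → x0 σ = x σ := fun σ hσ => Finsupp.filter_apply_pos _ _ hσ
      have hx0' : ∀ σ, T.s σ ≠ N → x0 σ = 0 := fun σ hσ => Finsupp.filter_apply_neg _ _ hσ
      obtain ⟨y, hy1, hy2, hy3, hy4⟩ := h (k - N) N (by omega) x0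
        (fun σ hσ => hx0' σ (by omega))
        (fun σ => by
          by_cases hσ : T.s σ = N
          · rw [hx0 σ hσ]
            have := (hx σ).1
            rw [hσ] at this
            exact mem_Zn.2 ⟨this, htop σ hσ⟩
          · rw [hx0' σ hσ]; exact Submodule.zero_mem _)
        (fun σ => by
          by_cases hσ : T.s σ = N
          · rw [hx0 σ hσ]; exact (hx σ).2
          · rw [hx0' σ hσ, map_zero])
        (fun τ hτ => by
          have h1 := DFunLike.congr_fun hd τ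
          rw [dd_eq, M_congr T (x' := x0) (fun σ hσ => by
            by_cases hσN : T.s σ = N
            · rw [hx0 σ hσN]
            · rw [hx0' σ hσN, hs σ (by omega)])] at h1
          refine mem_Bn.2 ⟨-x τ, ?_, ?_⟩
          · have := (hx τ).1
            rw [show k - (T.s τ : ℤ) = k - N + 1 by omega] at this
            exact Submodule.neg_mem _ this
          · rw [map_neg]
            exact (eq_neg_of_add_eq_zero_right h1).symm)
      -- the correction on level `N`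
      have hb : ∀ σ, T.s σ = N → ∃ b, b ∈ B.gr (k - N + 1) ∧ T.p σ b = b ∧
          B.d b = x σ - T.M y σ := by
        intro σ hσ
        obtain ⟨b, hb1, hb2⟩ := mem_Bn.1 (hy4 σ (by omega))
        rw [hx0 σ hσ] at hb2
        refine ⟨T.p σ b, T.p_mem σ hb1, T.p_p σ b, ?_⟩
        rw [← T.p_d, hb2, map_sub, p_M, (hx σ).2]
      let g : T.ι → B.X := fun σ => if hσ : T.s σ = N then Classical.choose (hb σ hσ) else 0
      have hg : ∀ σ (hσ : T.s σ = N), g σ ∈ B.gr (k - N + 1) ∧ T.p σ (g σ) = g σ ∧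
          B.d (g σ) = x σ - T.M y σ := by
        intro σ hσ
        have := Classical.choose_spec (hb σ hσ)
        simp only [g, dif_pos hσ]
        exact this
      have hg0 : ∀ σ, T.s σ ≠ N → g σ = 0 := fun σ hσ => by simp only [g, dif_neg hσ]
      let z : T.ι →₀ B.X := Finsupp.onFinset (T.F N) g fun σ hσ => by
        rw [T.mem_F]
        by_contra hc
        exact hσ (hg0 σ (by omega))
      have hz : ∀ σ, z σ = g σ := fun σ => rfl
      have hzg : z ∈ T.gr (k + 1) := by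
        intro σ
        rw [hz]
        by_cases hσ : T.s σ = N
        · refine ⟨?_, (hg σ hσ).2.1⟩
          have := (hg σ hσ).1
          rwa [show k - (N : ℤ) + 1 = k + 1 - T.s σ by omega] at this
        · rw [hg0 σ hσ]; exact ⟨Submodule.zero_mem _, map_zero _⟩
      have hyg : y ∈ T.gr (k + 1) := by
        intro σ
        by_cases hσ : (T.s σ : ℤ) = N + 1
        · refine ⟨?_, hy3 σ⟩
          have := (mem_Zn.1 (hy2 σ)).1
          rwa [show k - (N : ℤ) = k + 1 - T.s σ by omega] at this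
        · rw [hy1 σ hσ]; exact ⟨Submodule.zero_mem _, map_zero _⟩
      have hw : y + z ∈ T.gr (k + 1) := Submodule.add_mem _ hyg hzg
      have hx' : x - T.dd (y + z) ∈ T.gr k := by
        have := T.dd_mem hw
        rw [add_sub_cancel_right] at this
        exact Submodule.sub_mem _ hx this
      have hd' : T.dd (x - T.dd (y + z)) = 0 := by rw [map_sub, hd, T.dd_dd, sub_zero]
      have hs' : ∀ σ, N ≤ T.s σ → (x - T.dd (y + z)) σ = 0 := by
        intro σ hσ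
        have hMz : T.M z σ = 0 := M_low T fun ρ hρ => by
          rw [hz, hg0 ρ (by omega)]
        have hdy : B.d (y σ) = 0 := (mem_Zn.1 (hy2 σ)).2
        rw [Finsupp.sub_apply, dd_eq, Finsupp.add_apply, map_add, map_add, Finsupp.add_apply, hMz,
          hdy, zero_add, add_zero, hz]
        by_cases hσN : T.s σ = N
        · rw [(hg σ hσN).2.2]
          abel
        · rw [hg0 σ hσN, map_zero, zero_add, hs σ (by omega),
            M_low T (fun ρ hρ => hy1 ρ (by omega)), sub_zero]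
      obtain ⟨w, hw1, hw2⟩ := ih _ hx' hd' hs'
      exact ⟨w + (y + z), Submodule.add_mem _ hw1 hw, by rw [map_add, hw2, sub_add_cancel]⟩
  exact key (x.support.sup T.s + 1) x hx hd fun σ hσ => by
    by_contra hc
    have := Finset.le_sup (f := T.s) (Finsupp.mem_support_iff.2 hc)
    omega

theorem ac_of_EQ (h : ∀ n j : ℤ, EQ T (Zn B n) (Bn B n) j) : Ac T.cx := fun k x hx hd =>
  z_of_EQ T k (fun n j _ => h n j) x hx hd

theorem MM_mem {n j : ℤ} {y : T.ι →₀ B.X} (hy1 : ∀ σ, (T.s σ : ℤ) ≠ j + 1 → y σ = 0)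
    (hy2 : ∀ σ, y σ ∈ Zn B n) {τ : T.ι} (hτ : (T.s τ : ℤ) + 1 = j) :
    T.M (T.M y) τ ∈ Bn B n := by
  have hdd : T.dd y = T.M y := Finsupp.ext fun σ => by
    rw [dd_eq, (mem_Zn.1 (hy2 σ)).2, zero_add]
  have h1 := DFunLike.congr_fun (T.dd_dd y) τ
  rw [hdd, dd_eq] at h1
  refine mem_Bn.2 ⟨-T.M y τ, ?_, ?_⟩
  · refine Submodule.neg_mem _ ?_
    rw [M_apply' T y y.support (Finset.Subset.refl _)]
    refine Submodule.sum_mem _ fun σ _ => ?_
    by_cases hσ : (T.s σ : ℤ) = j + 1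
    · have := T.m_mem σ τ (mem_Zn.1 (hy2 σ)).1
      rwa [show n + ((T.s σ : ℤ) - T.s τ - 1) = n + 1 by omega] at this
    · rw [hy1 σ hσ, map_zero]
      exact Submodule.zero_mem _
  · rw [map_neg]
    exact (eq_neg_of_add_eq_zero_right h1).symm

/-- extensions -/
theorem EQ.ext {U U1 U' : Submodule K B.X} {n j : ℤ} (h1 : EQ T U U1 j) (h2 : EQ T U1 U' j)
    (hU : U ≤ Zn B n) (hU' : Bn B n ≤ U') (h01 : U' ≤ U1) (h12 : U1 ≤ U) : EQ T U U' j := by
  classical
  intro x hx1 hx2 hx3 hx4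
  obtain ⟨y, hy1, hy2, hy3, hy4⟩ := h1 x hx1 hx2 hx3 fun τ hτ => h01 (hx4 τ hτ)
  let x' : T.ι →₀ B.X := (x - T.M y).filter fun σ => (T.s σ : ℤ) = j
  have hx' : ∀ σ, (T.s σ : ℤ) = j → x' σ = x σ - T.M y σ := fun σ hσ =>
    Finsupp.filter_apply_pos (fun σ => (T.s σ : ℤ) = j) (x - T.M y) hσ
  have hx'0 : ∀ σ, (T.s σ : ℤ) ≠ j → x' σ = 0 := fun σ hσ => Finsupp.filter_apply_neg _ _ hσ
  obtain ⟨y', hy1', hy2', hy3', hy4'⟩ := h2 x' hx'0
    (fun σ => by
      by_cases hσ : (T.s σ : ℤ) = j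
      · rw [hx' σ hσ]; exact hy4 σ hσ
      · rw [hx'0 σ hσ]; exact Submodule.zero_mem _)
    (fun σ => by
      by_cases hσ : (T.s σ : ℤ) = j
      · rw [hx' σ hσ, map_sub, hx3, p_M]
      · rw [hx'0 σ hσ, map_zero])
    (fun τ hτ => by
      have e1 : T.M x' τ = T.M (x - T.M y) τ := M_congr T fun σ hσ => by
        by_cases hσj : (T.s σ : ℤ) = j
        · rw [hx' σ hσj]; rfl
        · rw [hx'0 σ hσj, Finsupp.sub_apply, hx1 σ hσj, zero_sub,
            M_low T (fun ρ hρ => hy1 ρ (by omega)), neg_zero]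
      rw [e1, map_sub, Finsupp.sub_apply]
      exact Submodule.sub_mem _ (hx4 τ hτ) (hU' (MM_mem T hy1 (fun σ => hU (hy2 σ)) hτ)))
  refine ⟨y + y', fun σ hσ => ?_, fun σ => ?_, fun σ => ?_, fun σ hσ => ?_⟩
  · rw [Finsupp.add_apply, hy1 σ hσ, hy1' σ hσ, add_zero]
  · exact Submodule.add_mem _ (hy2 σ) (h12 (hy2' σ))
  · rw [Finsupp.add_apply, map_add, hy3, hy3']
  · have := hy4' σ hσ
    rw [hx' σ hσ] at this
    rw [map_add, Finsupp.add_apply, ← sub_sub]
    exact this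

/-- nothing to prove when `U = U'` -/
theorem EQ.triv {U U' : Submodule K B.X} (h : U ≤ U') (j : ℤ) : EQ T U U' j := by
  intro x _ hx2 _ _
  exact ⟨0, fun _ _ => rfl, fun _ => Submodule.zero_mem _, fun σ => by simp, fun σ _ => by
    rw [map_zero, Finsupp.zero_apply, sub_zero]; exact h (hx2 σ)⟩

end tw

section copies

variable {A : DGA K}

/-- cellular part of the differential of `G ⊗ X`, with literal index type -/
noncomputable def MG (G : RM A) (X : LCells A) : (X.ι →₀ G.X) →ₗ[K] (X.ι →₀ G.X) := (twG G X).M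

/-- differential of `G ⊗ X`, with literal index type -/
noncomputable def dG (G : RM A) (X : LCells A) : (X.ι →₀ G.X) →ₗ[K] (X.ι →₀ G.X) := (twG G X).dd

theorem MG_apply (G : RM A) (X : LCells A) (x : X.ι →₀ G.X) (S : Finset X.ι) (hS : x.support ⊆ S)
    (τ : X.ι) : MG G X x τ = ∑ σ ∈ S, op (X.c σ τ) • x σ :=
  M_apply' (twG G X) x S hS τ

theorem dG_apply (G : RM A) (X : LCells A) (x : X.ι →₀ G.X) (τ : X.ι) :
    dG G X x τ = G.d (x τ) + MG G X x τ := dd_eq (twG G X) x τ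

/-- homogeneous elements of `G ⊗ X` -/
def HG (G : RM A) (X : LCells A) (k : ℤ) (x : X.ι →₀ G.X) : Prop :=
  ∀ σ, x σ ∈ G.gr (k - X.s σ) ∧ op (X.e σ) • x σ = x σ

theorem mem_tG {G : RM A} {X : LCells A} {k : ℤ} {x : X.ι →₀ G.X} :
    x ∈ (tG G X).gr k ↔ HG G X k x := Iff.rfl

theorem dG_mem {G : RM A} {X : LCells A} {k : ℤ} {x : X.ι →₀ G.X} (hx : HG G X k x) :
    HG G X (k - 1) (dG G X x) := (twG G X).dd_mem hx

/-- exactness of `G ⊗ X` in degree `k` -/
def ZG (G : RM A) (X : LCells A) (k : ℤ) : Prop :=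
  ∀ x : X.ι →₀ G.X, HG G X k x → dG G X x = 0 → ∃ y : X.ι →₀ G.X, HG G X (k + 1) y ∧ dG G X y = x

theorem ac_iff {G : RM A} {X : LCells A} : Ac (tG G X) ↔ ∀ k, ZG G X k := Iff.rfl

/-- exactness at level `j` of `U/U' ⊗ X` -/
def EQG (G : RM A) (X : LCells A) (U U' : Submodule K G.X) (j : ℤ) : Prop :=
  ∀ x : X.ι →₀ G.X, (∀ σ, (X.s σ : ℤ) ≠ j → x σ = 0) → (∀ σ, x σ ∈ U) →
    (∀ σ, op (X.e σ) • x σ = x σ) → (∀ τ, (X.s τ : ℤ) + 1 = j → MG G X x τ ∈ U') →
    ∃ y : X.ι →₀ G.X, (∀ σ, (X.s σ : ℤ) ≠ j + 1 → y σ = 0) ∧ (∀ σ, y σ ∈ U) ∧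
      (∀ σ, op (X.e σ) • y σ = y σ) ∧ ∀ σ, (X.s σ : ℤ) = j → x σ - MG G X y σ ∈ U'

theorem EQG_iff {G : RM A} {X : LCells A} {U U' : Submodule K G.X} {j : ℤ} :
    EQG G X U U' j ↔ EQ (twG G X) U U' j := Iff.rfl

/-- **(V1)** -/
theorem ZG_of_EQG {G : RM A} {X : LCells A} (k : ℤ)
    (h : ∀ n j : ℤ, n + j = k → EQG G X (Zn G.toGC n) (Bn G.toGC n) j) : ZG G X k :=
  z_of_EQ (twG G X) k h

theorem ac_of_EQG {G : RM A} {X : LCells A}
    (h : ∀ n j : ℤ, EQG G X (Zn G.toGC n) (Bn G.toGC n) j) : Ac (tG G X) :=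
  ac_of_EQ (twG G X) h

theorem EQG.ext {G : RM A} {X : LCells A} {U U1 U' : Submodule K G.X} {n j : ℤ}
    (h1 : EQG G X U U1 j) (h2 : EQG G X U1 U' j)
    (hU : U ≤ Zn G.toGC n) (hU' : Bn G.toGC n ≤ U') (h01 : U' ≤ U1) (h12 : U1 ≤ U) :
    EQG G X U U' j := EQ.ext (twG G X) h1 h2 hU hU' h01 h12

theorem EQG.triv {G : RM A} {X : LCells A} {U U' : Submodule K G.X} (h : U ≤ U') (j : ℤ) :
    EQG G X U U' j := EQ.triv (twG G X) h j

/-- **(V2)** `U/U'` is a direct sum of copies of `P` -/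
theorem EQG.of_copies (X : LCells A) (P N : RM A) (j : ℤ) (hP : ZG P X j)
    (hPd : ∀ v : P.X, P.d v = 0) (hP0 : ∀ k : ℤ, k ≠ 0 → ∀ v ∈ P.gr k, v = 0)
    {U U' : Submodule K N.X} {α : Type} (φ : α → P.X →ₗ[K] N.X)
    (φ_mem : ∀ i, ∀ v ∈ P.gr 0, φ i v ∈ U)
    (φ_act : ∀ i, ∀ v ∈ P.gr 0, ∀ c ∈ A.G 0, φ i (op c • v) - op c • φ i v ∈ U')
    (sur : ∀ x ∈ U, ∃ ξ : α →₀ P.X, (∀ i, ξ i ∈ P.gr 0) ∧ x - Finsupp.lsum K φ ξ ∈ U')
    (inj : ∀ ξ : α →₀ P.X, (∀ i, ξ i ∈ P.gr 0) → Finsupp.lsum K φ ξ ∈ U' → ξ = 0)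
    (hU : ∀ x ∈ U, ∀ c ∈ A.G 0, op c • x ∈ U) (hU' : ∀ x ∈ U', ∀ c ∈ A.G 0, op c • x ∈ U') :
    EQG N X U U' j := by
  classical
  intro x hx1 hx2 hx3 hx4
  set Φ : (α →₀ P.X) →ₗ[K] N.X := Finsupp.lsum K φ with hΦ
  have hΦs : ∀ (S : Finset α) (ξ : α →₀ P.X), ξ.support ⊆ S → Φ ξ = ∑ i ∈ S, φ i (ξ i) := by
    intro S ξ hS
    rw [hΦ, Finsupp.lsum_apply]
    exact Finsupp.sum_of_support_subset _ hS _ fun i _ => map_zero _
  have hact : ∀ (c : A.C), c ∈ A.G 0 → ∀ ξ : α →₀ P.X, (∀ i, ξ i ∈ P.gr 0) →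
      Φ (Finsupp.mapRange.linearMap (rmul P c) ξ) - op c • Φ ξ ∈ U' := by
    intro c hc ξ hξ
    have h1 : (Finsupp.mapRange.linearMap (rmul P c) ξ).support ⊆ ξ.support := by
      intro i hi
      rw [Finsupp.mem_support_iff] at hi ⊢
      intro h0
      apply hi
      rw [Finsupp.mapRange.linearMap_apply, Finsupp.mapRange_apply, h0, map_zero]
    rw [hΦs ξ.support _ h1, hΦs ξ.support ξ (Finset.Subset.refl _), Finset.smul_sum,
      ← Finset.sum_sub_distrib]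
    exact Submodule.sum_mem _ fun i _ => φ_act i _ (hξ i) c hc
  -- lifts
  have hlift : ∀ σ, ∃ ξ : α →₀ P.X, (∀ i, ξ i ∈ P.gr 0) ∧ (∀ i, op (X.e σ) • ξ i = ξ i) ∧
      x σ - Φ ξ ∈ U' ∧ (x σ = 0 → ξ = 0) := by
    intro σ
    by_cases h0 : x σ = 0
    · exact ⟨0, fun i => Submodule.zero_mem _, fun i => smul_zero _, by
        rw [h0, map_zero, sub_zero]; exact Submodule.zero_mem _, fun _ => rfl⟩
    obtain ⟨ξ, hξ1, hξ2⟩ := sur (x σ) (hx2 σ)
    refine ⟨Finsupp.mapRange.linearMap (rmul P (X.e σ)) ξ, fun i => ?_, fun i => ?_, ?_,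
      fun h => absurd h h0⟩
    · have := P.smul_mem (X.e_mem σ) (hξ1 i)
      rw [zero_add] at this
      exact this
    · rw [Finsupp.mapRange.linearMap_apply, Finsupp.mapRange_apply, rmul_apply, smul_smul,
        ← op_mul, X.e_idem]
    · have h1 := hact (X.e σ) (X.e_mem σ) ξ hξ1
      have h2 := hU' _ hξ2 (X.e σ) (X.e_mem σ)
      rw [smul_sub, hx3 σ] at h2
      have := Submodule.sub_mem _ h2 h1
      rwa [sub_sub_sub_cancel_right] at this
  choose ξ hξ1 hξ2 hξ3 hξ4 using hlift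
  let I : Finset α := x.support.biUnion fun σ => (ξ σ).support
  have hI : ∀ σ, (ξ σ).support ⊆ I := by
    intro σ i hi
    by_cases h0 : x σ = 0
    · rw [hξ4 σ h0] at hi
      simp at hi
    · exact Finset.mem_biUnion.2 ⟨σ, Finsupp.mem_support_iff.2 h0, hi⟩
  let Xi : α → (X.ι →₀ P.X) := fun i => Finsupp.onFinset x.support (fun σ => ξ σ i) fun σ hσ => by
    rw [Finsupp.mem_support_iff]
    intro h0
    apply hσ
    rw [hξ4 σ h0, Finsupp.zero_apply]
  have hXi : ∀ i σ, Xi i σ = ξ σ i := fun i σ => rfl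
  have hXis : ∀ i, (Xi i).support ⊆ x.support := fun i => Finsupp.support_onFinset_subset
  have hXig : ∀ i, HG P X j (Xi i) := by
    intro i σ
    rw [hXi]
    by_cases hσ : (X.s σ : ℤ) = j
    · refine ⟨?_, hξ2 σ i⟩
      have := hξ1 σ i
      rwa [show j - (X.s σ : ℤ) = 0 by omega]
    · rw [hξ4 σ (hx1 σ hσ), Finsupp.zero_apply]
      exact ⟨Submodule.zero_mem _, smul_zero _⟩
  have hddM : ∀ (v : X.ι →₀ P.X) (τ : X.ι), dG P X v τ = MG P X v τ := by
    intro v τ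
    rw [dG_apply, hPd, zero_add]
  have hXid : ∀ i, dG P X (Xi i) = 0 := by
    intro i
    refine Finsupp.ext fun τ => ?_
    have hm := (dG_mem (hXig i) τ).1
    by_cases hτ : (X.s τ : ℤ) + 1 = j
    · let ζ : α →₀ P.X := ∑ σ ∈ x.support, Finsupp.mapRange.linearMap (rmul P (X.c σ τ)) (ξ σ)
      have hζ : ∀ i, ζ i = dG P X (Xi i) τ := by
        intro i
        rw [hddM, MG_apply P X (Xi i) x.support (hXis i), Finset.sum_apply']
        rfl
      have hc0 : ∀ σ ∈ x.support, X.c σ τ ∈ A.G 0 := by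
        intro σ hσ
        have hσj : (X.s σ : ℤ) = j := by
          by_contra hc
          exact Finsupp.mem_support_iff.1 hσ (hx1 σ hc)
        have := X.c_mem σ τ
        rwa [show (X.s σ : ℤ) - X.s τ - 1 = 0 by omega] at this
      have h1 : MG N X x τ - Φ ζ ∈ U' := by
        rw [MG_apply N X x x.support (Finset.Subset.refl _), map_sum, ← Finset.sum_sub_distrib]
        refine Submodule.sum_mem _ fun σ hσ => ?_
        have h2 := hact (X.c σ τ) (hc0 σ hσ) (ξ σ) (hξ1 σ)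
        have h3 := hU' _ (hξ3 σ) (X.c σ τ) (hc0 σ hσ)
        rw [smul_sub] at h3
        have := Submodule.sub_mem _ h3 h2
        rwa [sub_sub_sub_cancel_right] at this
      have h2 : Φ ζ ∈ U' := by
        have := Submodule.sub_mem _ (hx4 τ hτ) h1
        rwa [sub_sub_cancel] at this
      have h3 : ζ = 0 := by
        refine inj ζ (fun i => ?_) h2
        rw [hζ]
        have := (dG_mem (hXig i) τ).1
        rwa [show j - 1 - (X.s τ : ℤ) = 0 by omega] at this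
      rw [← hζ, h3]
      rfl
    · exact hP0 _ (by omega) _ hm
  choose η hη using fun i => hP (Xi i) (hXig i) (hXid i)
  have hη0 : ∀ i ρ, (X.s ρ : ℤ) ≠ j + 1 → η i ρ = 0 := fun i ρ hρ =>
    hP0 _ (by omega) _ ((hη i).1 ρ).1
  have hηg : ∀ i ρ, η i ρ ∈ P.gr 0 := by
    intro i ρ
    by_cases hρ : (X.s ρ : ℤ) = j + 1
    · have := ((hη i).1 ρ).1
      rwa [show j + 1 - (X.s ρ : ℤ) = 0 by omega] at this
    · rw [hη0 i ρ hρ]; exact Submodule.zero_mem _
  let S : Finset X.ι := X.F (j + 1).toNat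
  have hS : ∀ ρ, (X.s ρ : ℤ) = j + 1 → ρ ∈ S := fun ρ hρ => (X.mem_F _ _).2 (by omega)
  let y : X.ι →₀ N.X := Finsupp.onFinset S
    (fun ρ => op (X.e ρ) • ∑ i ∈ I, φ i (η i ρ)) fun ρ hρ => hS ρ (by
      by_contra hc
      apply hρ
      rw [Finset.sum_eq_zero fun i _ => by rw [hη0 i ρ hc, map_zero], smul_zero])
  have hy : ∀ ρ, y ρ = op (X.e ρ) • ∑ i ∈ I, φ i (η i ρ) := fun ρ => rfl
  have hys : y.support ⊆ S := Finsupp.support_onFinset_subset
  refine ⟨y, fun ρ hρ => ?_, fun ρ => ?_, fun ρ => ?_, fun σ hσ => ?_⟩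
  · rw [hy, Finset.sum_eq_zero fun i _ => by rw [hη0 i ρ hρ, map_zero], smul_zero]
  · rw [hy]
    exact hU _ (Submodule.sum_mem _ fun i _ => φ_mem i _ (hηg i ρ)) _ (X.e_mem ρ)
  · rw [hy, smul_smul, ← op_mul, X.e_idem]
  · have hηs : ∀ i, (η i).support ⊆ S := fun i ρ hρ => hS ρ (by
      by_contra hc
      exact Finsupp.mem_support_iff.1 hρ (hη0 i ρ hc))
    have e1 : Φ (ξ σ) = ∑ i ∈ I, φ i (MG P X (η i) σ) := by
      rw [hΦs I _ (hI σ)]
      refine Finset.sum_congr rfl fun i _ => ?_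
      rw [← hddM, (hη i).2, hXi]
    have h1 : MG N X y σ - Φ (ξ σ) ∈ U' := by
      rw [e1, MG_apply N X y S hys]
      simp only [MG_apply P X (η _) S (hηs _), map_sum]
      rw [Finset.sum_comm, ← Finset.sum_sub_distrib]
      refine Submodule.sum_mem _ fun ρ _ => ?_
      rw [hy, smul_smul, ← op_mul, X.c_left, Finset.smul_sum, ← Finset.sum_sub_distrib]
      refine Submodule.sum_mem _ fun i _ => ?_
      by_cases hρ : (X.s ρ : ℤ) = j + 1
      · have hc : X.c ρ σ ∈ A.G 0 := by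
          have := X.c_mem ρ σ
          rwa [show (X.s ρ : ℤ) - X.s σ - 1 = 0 by omega] at this
        have := Submodule.neg_mem _ (φ_act i (η i ρ) (hηg i ρ) _ hc)
        rwa [neg_sub] at this
      · rw [hη0 i ρ hρ, map_zero, smul_zero, smul_zero, map_zero, sub_zero]
        exact Submodule.zero_mem _
    have := Submodule.sub_mem _ (hξ3 σ) h1
    rwa [sub_sub_sub_cancel_right] at this

end copies

end Crest.Agent.R186.VTop429
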