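import Crest.Agent.R186.VH_339
import Crest.Agent.R186.V2k_981
import Crest.Agent.R186.WinA_810
import Crest.Agent.R186.SMp_890
import Crest.Agent.R186.EndV_448
import Crest.Agent.R186.C2G_307

/-!
Row 186 (helper339), half (A), leaf (V): the window data `VT339.Wdat` for a tri-graded window with
four vertices in `P = 0` and four in `P = 1`, and the instance for `Γ`.
-/

set_option autoImplicit false
set_option linter.style.haveILetI false
set_option linter.unusedSectionVars false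

noncomputable section

open MulOpposite

namespace Crest.Agent.R186.VT339

open Hat827 Hat827.DGA Frame515 Win810 Win810.WD

variable {K : Type} [Field K]

section ws

variable {w : WD K}

theorem ws_mul_ws {i j l : w.Ob} {a b : w.S} (ha : a ∈ w.E i j) (hb : b ∈ w.E j l) :
    ws i j a ha * ws j l b hb = ws i l (a * b) (E_mul ha hb) := by
  apply Subtype.ext
  change Matrix.single i j a * Matrix.single j l b = Matrix.single i l (a * b)
  rw [Matrix.single_mul_single_same]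

theorem ws_mul_ws_ne {i j j' l : w.Ob} (h : j ≠ j') {a b : w.S} (ha : a ∈ w.E i j)
    (hb : b ∈ w.E j' l) : ws i j a ha * ws j' l b hb = 0 := by
  apply Subtype.ext
  change Matrix.single i j a * Matrix.single j' l b = 0
  rw [Matrix.single_mul_single_of_ne _ _ _ _ h]

theorem ws_mem {i j : w.Ob} {a : w.S} {k : ℤ} (ha : a ∈ w.q i j k) :
    ws i j a (q_le i j k ha) ∈ w.G k := by
  intro i' j'
  change Matrix.single i j a i' j' ∈ _
  rw [Matrix.single_apply]
  split_ifs with h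
  · obtain ⟨rfl, rfl⟩ := h
    exact ha
  · exact Submodule.zero_mem _

theorem ws_add {i j : w.Ob} {a b : w.S} (ha : a ∈ w.E i j) (hb : b ∈ w.E i j) :
    ws i j (a + b) (Submodule.add_mem _ ha hb) = ws i j a ha + ws i j b hb := by
  apply Subtype.ext
  change Matrix.single i j (a + b) = Matrix.single i j a + Matrix.single i j b
  rw [Matrix.single_add]

theorem ws_smul {i j : w.Ob} (r : K) {a : w.S} (ha : a ∈ w.E i j) :
    ws i j (r • a) (Submodule.smul_mem _ r ha) = r • ws i j a ha := by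
  apply Subtype.ext
  change Matrix.single i j (r • a) = r • Matrix.single i j a
  rw [Matrix.smul_single]

theorem ws_congr {i j : w.Ob} {a b : w.S} (h : a = b) (ha : a ∈ w.E i j) :
    ws i j a ha = ws i j b (h ▸ ha) := by
  subst h
  rfl

theorem ws_zero {i j : w.Ob} (h : (0 : w.S) ∈ w.E i j) : ws i j 0 h = 0 := by
  apply Subtype.ext
  change Matrix.single i j (0 : w.S) = 0
  rw [Matrix.single_zero]

theorem one_E (i : w.Ob) : (1 : w.S) ∈ w.E i i := q_le i i 0 (q_one i)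

/-- the idempotent of a vertex -/
def id' (i : w.Ob) : w.Win := ws i i 1 (one_E i)

theorem id_mem (i : w.Ob) : id' i ∈ w.G 0 := ws_mem (q_one i)

theorem id_mul {i j : w.Ob} {a : w.S} (ha : a ∈ w.E i j) : id' i * ws i j a ha = ws i j a ha := by
  unfold id'
  rw [ws_mul_ws]
  exact ws_congr (one_mul a) _

theorem mul_id {i j : w.Ob} {a : w.S} (ha : a ∈ w.E i j) : ws i j a ha * id' j = ws i j a ha := by
  unfold id'
  rw [ws_mul_ws]
  exact ws_congr (mul_one a) _

theorem id_mul_ne {i i' j : w.Ob} (h : i' ≠ i) {a : w.S} (ha : a ∈ w.E i j) :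
    id' i' * ws i j a ha = 0 := ws_mul_ws_ne h _ _

theorem id_id (i : w.Ob) : id' (w := w) i * id' i = id' i := id_mul _

theorem id_id_ne {i j : w.Ob} (h : i ≠ j) : id' (w := w) i * id' j = 0 := ws_mul_ws_ne h _ _

theorem sum_id : ∑ i : w.Ob, id' (w := w) i = 1 := by
  apply Subtype.ext
  have h1 : ((∑ i : w.Ob, id' (w := w) i : w.Win) : Matrix w.Ob w.Ob w.S) =
      ∑ i : w.Ob, Matrix.single i i (1 : w.S) := by
    rw [← Subalgebra.coe_val, map_sum]
    rfl
  rw [h1]
  ext i j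
  rw [Matrix.sum_apply]
  change _ = (1 : Matrix w.Ob w.Ob w.S) i j
  rw [Matrix.one_apply]
  by_cases h : i = j
  · subst h
    rw [if_pos rfl, Finset.sum_eq_single i]
    · rw [Matrix.single_apply, if_pos ⟨rfl, rfl⟩]
    · intro k _ hk
      rw [Matrix.single_apply, if_neg (fun h => hk h.1)]
    · intro h
      exact absurd (Finset.mem_univ _) h
  · rw [if_neg h]
    refine Finset.sum_eq_zero fun k _ => ?_
    rw [Matrix.single_apply, if_neg]
    rintro ⟨rfl, rfl⟩
    exact h rfl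

theorem id_mul_id (m : w.Win) (hm : m ∈ w.G 0) (i j : w.Ob) :
    id' i * m * id' j = ws i j (m.1 i j) (q_le i j 0 (hm i j)) := by
  apply Subtype.ext
  change Matrix.single i i (1 : w.S) * m.1 * Matrix.single j j (1 : w.S) =
    Matrix.single i j (m.1 i j)
  ext i' j'
  by_cases h1 : j = j'
  · subst h1
    rw [Matrix.mul_single_apply_same]
    by_cases h2 : i = i'
    · subst h2
      rw [Matrix.single_mul_apply_same, Matrix.single_apply, if_pos ⟨rfl, rfl⟩, one_mul, mul_one]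
    · rw [Matrix.single_mul_apply_of_ne _ _ _ _ _ (fun h0 => h2 h0.symm), Matrix.single_apply,
        if_neg (fun h => h2 h.1), zero_mul]
  · rw [Matrix.mul_single_apply_of_ne _ _ _ _ _ (fun h0 => h1 h0.symm), Matrix.single_apply,
      if_neg (fun h => h1 h.2)]

end ws

/-- input of `wdat` -/
structure WIn (w : WD K) where
  ε : Fin 4 ⊕ Fin 4 ≃ w.Ob
  P0 : ∀ b, w.P (ε (Sum.inl b)) = 0
  P1 : ∀ b, w.P (ε (Sum.inr b)) = 1
  A0 : ∀ b : Fin 4, w.A (ε (Sum.inl b)) = (b.val : ℤ)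
  A1 : ∀ b : Fin 4, w.A (ε (Sum.inr b)) = (b.val : ℤ)
  h : w.S
  y : w.S
  d : Fin 2 → w.S
  hm : h ∈ w.pc 0 1 0
  ym : y ∈ w.pc 0 0 0
  dm : ∀ j, d j ∈ w.pc (-1) 1 0
  yy : y * y = 0
  hy : h * y = y * h
  neg : ∀ (P n : ℤ), n < 0 → w.pc P n 0 = ⊥
  sp : ∀ (n : ℕ) (r : w.S), r ∈ w.pc 0 n 0 → ∃ c c' : K, ∃ s : Fin 2 → w.S,
    (∀ j, s j ∈ w.pc 1 ((n : ℤ) - 1) 0) ∧
    r = c • h ^ n + c' • (h ^ n * y) + (d 0 * s 0 + d 1 * s 1)

namespace WIn

variable {w : WD K} (I : WIn w)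

/-- vertices with `P = 0` -/
def v (b : Fin 4) : w.Ob := I.ε (Sum.inl b)

/-- vertices with `P = 1` -/
def u (b : Fin 4) : w.Ob := I.ε (Sum.inr b)

theorem v_inj {b b' : Fin 4} (h : I.v b = I.v b') : b = b' := Sum.inl.inj (I.ε.injective h)

theorem v_ne_u (b b' : Fin 4) : I.v b ≠ I.u b' := fun h => by
  have := I.ε.injective h
  cases this

theorem u_inj {b b' : Fin 4} (h : I.u b = I.u b') : b = b' := Sum.inr.inj (I.ε.injective h)

theorem hpow (n : ℕ) : I.h ^ n ∈ w.pc 0 n 0 := by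
  induction n with
  | zero => simpa using w.one_mem
  | succ n ih =>
    rw [pow_succ]
    have := w.mul_mem ih I.hm
    simpa using this

theorem hpow_q {b b' : Fin 4} (hb : b' ≤ b) : I.h ^ (b.val - b'.val) ∈ w.q (I.v b) (I.v b') 0 := by
  have h1 := I.hpow (b.val - b'.val)
  have h2 : b'.val ≤ b.val := hb
  unfold q v
  rw [I.P0, I.P0, I.A0, I.A0, sub_self]
  rwa [Nat.cast_sub h2] at h1

theorem y_q (b : Fin 4) : I.y ∈ w.q (I.v b) (I.v b) 0 := by
  unfold q
  rw [sub_self, sub_self]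
  exact I.ym

/-- `h^(b-b')` at `(v b, v b')` -/
def H (b b' : Fin 4) : w.Win :=
  if hb : b' ≤ b then ws (I.v b) (I.v b') (I.h ^ (b.val - b'.val)) (q_le _ _ 0 (I.hpow_q hb)) else 0

/-- coefficient -/
def T (b b' : Fin 4) : K := if b' ≤ b then 1 else 0

/-- the sum of the idempotents of the column `P = 1` -/
def fs : w.Win := ∑ b, id' (I.u b)

/-- `y` at the vertices `v b` -/
def Y : w.Win := ∑ b, ws (I.v b) (I.v b) I.y (q_le _ _ 0 (I.y_q b))

theorem fs_mem : I.fs ∈ w.G 0 := Submodule.sum_mem _ fun b _ => id_mem _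

theorem Y_mem : I.Y ∈ w.G 0 := Submodule.sum_mem _ fun b _ => ws_mem (I.y_q b)

theorem H_mem (b b' : Fin 4) : I.H b b' ∈ w.G 0 := by
  unfold H
  split_ifs with hb
  · exact ws_mem (I.hpow_q hb)
  · exact Submodule.zero_mem _

theorem e_H (b b' : Fin 4) : id' (I.v b) * I.H b b' = I.H b b' := by
  unfold H
  split_ifs with hb
  · exact id_mul _
  · exact mul_zero _

theorem H_e (b b' : Fin 4) : I.H b b' * id' (I.v b') = I.H b b' := by
  unfold H
  split_ifs with hb
  · exact mul_id _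
  · exact zero_mul _

theorem Y_ws {b : Fin 4} {j : w.Ob} {a : w.S} (ha : a ∈ w.E (I.v b) j) :
    I.Y * ws (I.v b) j a ha = ws (I.v b) j (I.y * a) (E_mul (q_le _ _ 0 (I.y_q b)) ha) := by
  unfold Y
  rw [Finset.sum_mul, Finset.sum_eq_single b]
  · exact ws_mul_ws _ _
  · intro c _ hc
    exact ws_mul_ws_ne (fun h => hc (I.v_inj h)) _ _
  · intro h
    exact absurd (Finset.mem_univ _) h

theorem ws_Y {b : Fin 4} {i : w.Ob} {a : w.S} (ha : a ∈ w.E i (I.v b)) :
    ws i (I.v b) a ha * I.Y = ws i (I.v b) (a * I.y) (E_mul ha (q_le _ _ 0 (I.y_q b))) := by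
  unfold Y
  rw [Finset.mul_sum, Finset.sum_eq_single b]
  · exact ws_mul_ws _ _
  · intro c _ hc
    exact ws_mul_ws_ne (fun h => hc (I.v_inj h).symm) _ _
  · intro h
    exact absurd (Finset.mem_univ _) h

theorem hy_pow (n : ℕ) : I.y * I.h ^ n = I.h ^ n * I.y := by
  have h1 : Commute I.y I.h := I.hy.symm
  exact (h1.pow_right n).eq

theorem thru_one (b b' : Fin 4) (c : Fin 4) {δ s : w.S} (h1 : δ ∈ w.q (I.v b) (I.u c) 0)
    (h2 : s ∈ w.q (I.u c) (I.v b') 0) :
    ws (I.v b) (I.v b') (δ * s) (E_mul (q_le _ _ 0 h1) (q_le _ _ 0 h2)) ∈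
      thru w.dga I.fs := by
  refine Submodule.subset_span ⟨ws _ _ δ (q_le _ _ 0 h1), ws_mem h1, ws _ _ s (q_le _ _ 0 h2),
    ws_mem h2, ?_⟩
  have h3 : I.fs * ws (I.u c) (I.v b') s (q_le _ _ 0 h2) =
      ws (I.u c) (I.v b') s (q_le _ _ 0 h2) := by
    unfold fs
    rw [Finset.sum_mul, Finset.sum_eq_single c]
    · exact id_mul _
    · intro c' _ hc
      exact id_mul_ne (fun h => hc (I.u_inj h)) _
    · intro h
      exact absurd (Finset.mem_univ _) h
  have h4 : ws (I.v b) (I.u c) δ (q_le _ _ 0 h1) * I.fs * ws (I.u c) (I.v b') s (q_le _ _ 0 h2) =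
      ws (I.v b) (I.v b') (δ * s) (E_mul (q_le _ _ 0 h1) (q_le _ _ 0 h2)) := by
    rw [mul_assoc, h3, ws_mul_ws]
  exact h4.symm

theorem split_aux (b b' : Fin 4) (r : w.S) (h0 : r ∈ w.q (I.v b) (I.v b') 0) : ∃ l m : K,
    ws (I.v b) (I.v b') r (q_le _ _ 0 h0) - (l • I.H b b' + m • (I.Y * I.H b b')) ∈
      thru w.dga I.fs := by
  have h1 : r ∈ w.pc 0 ((b.val : ℤ) - b'.val) 0 := by
    have h2 := h0
    unfold q v at h2
    rwa [I.P0, I.P0, I.A0, I.A0, sub_self] at h2
  by_cases hb : b' ≤ b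
  · have hb' : b'.val ≤ b.val := hb
    rw [← Nat.cast_sub hb'] at h1
    obtain ⟨l, m, s, hs, rfl⟩ := I.sp _ _ h1
    refine ⟨l, m, ?_⟩
    have e1 : I.H b b' = ws (I.v b) (I.v b') (I.h ^ (b.val - b'.val)) (q_le _ _ 0 (I.hpow_q hb)) := by
      unfold H
      rw [dif_pos hb]
    -- the `d`-part
    have key : ∀ j : Fin 2, ∃ hd : I.d j * s j ∈ w.E (I.v b) (I.v b'),
        ws (I.v b) (I.v b') (I.d j * s j) hd ∈ thru w.dga I.fs := by
      intro j
      by_cases hlt : b'.val < b.val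
      · have hc : b.val - 1 < 4 := by omega
        have q1 : I.d j ∈ w.q (I.v b) (I.u ⟨b.val - 1, hc⟩) 0 := by
          unfold q v u
          rw [I.P0, I.P1, I.A0, I.A1]
          have h3 : ((b.val : ℤ) - ((b.val - 1 : ℕ) : ℤ)) = 1 := by omega
          change I.d j ∈ w.pc (0 - 1) ((b.val : ℤ) - ((b.val - 1 : ℕ) : ℤ)) 0
          rw [h3]
          simpa using I.dm j
        have q2 : s j ∈ w.q (I.u ⟨b.val - 1, hc⟩) (I.v b') 0 := by
          unfold q v u
          rw [I.P0, I.P1, I.A0, I.A1]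
          change s j ∈ w.pc (1 - 0) (((b.val - 1 : ℕ) : ℤ) - (b'.val : ℤ)) 0
          have h3 : (((b.val - 1 : ℕ) : ℤ) - (b'.val : ℤ)) = ((b.val - b'.val : ℕ) : ℤ) - 1 := by omega
          rw [h3]
          simpa using hs j
        exact ⟨E_mul (q_le _ _ 0 q1) (q_le _ _ 0 q2), I.thru_one b b' _ q1 q2⟩
      · have h4 : s j = 0 := by
          have h5 := hs j
          rw [I.neg 1 _ (by omega)] at h5
          exact (Submodule.mem_bot K).1 h5
        have h6 : I.d j * s j = 0 := by rw [h4, mul_zero]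
        refine ⟨by rw [h6]; exact Submodule.zero_mem _, ?_⟩
        rw [ws_congr h6, ws_zero]
        exact Submodule.zero_mem _
    obtain ⟨d0, k0⟩ := key 0
    obtain ⟨d1, k1⟩ := key 1
    have hE := q_le (w := w) (I.v b) (I.v b') 0 (I.hpow_q hb)
    have hE2 : I.h ^ (b.val - b'.val) * I.y ∈ w.E (I.v b) (I.v b') :=
      E_mul hE (q_le _ _ 0 (I.y_q b'))
    have e2 : I.Y * I.H b b' = ws (I.v b) (I.v b') (I.h ^ (b.val - b'.val) * I.y) hE2 := by
      rw [e1, I.Y_ws]
      exact ws_congr (I.hy_pow _) _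
    have e3 : ws (I.v b) (I.v b') (l • I.h ^ (b.val - b'.val) +
        m • (I.h ^ (b.val - b'.val) * I.y) + (I.d 0 * s 0 + I.d 1 * s 1)) (q_le _ _ 0 h0) =
        l • I.H b b' + m • (I.Y * I.H b b') +
          (ws (I.v b) (I.v b') (I.d 0 * s 0) d0 + ws (I.v b) (I.v b') (I.d 1 * s 1) d1) := by
      rw [e1, I.Y_ws, ws_congr (I.hy_pow _) _, ← ws_smul, ← ws_smul, ← ws_add, ← ws_add, ← ws_add]
    rw [e3, add_sub_cancel_left]
    exact Submodule.add_mem _ k0 k1
  · refine ⟨0, 0, ?_⟩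
    have h2 : r = 0 := by
      have hb' : ¬ b'.val ≤ b.val := hb
      rw [I.neg 0 _ (by omega)] at h1
      exact (Submodule.mem_bot K).1 h1
    rw [zero_smul, zero_smul, add_zero, sub_zero, ws_congr h2, ws_zero]
    exact Submodule.zero_mem _

theorem split (a : w.Win) (ha : a ∈ w.G 0) (b b' : Fin 4) : ∃ l m : K,
    id' (I.v b) * a * id' (I.v b') - (l • I.H b b' + m • (I.Y * I.H b b')) ∈
      thru w.dga I.fs := by
  obtain ⟨l, m, h⟩ := I.split_aux b b' _ (ha (I.v b) (I.v b'))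
  exact ⟨l, m, by rwa [id_mul_id a ha]⟩

theorem H_H (b b' : Fin 4) : I.H 3 b * I.H b b' = (T b b' : K) • I.H 3 b' := by
  have h3 : ∀ c : Fin 4, c ≤ 3 := fun c => by omega
  unfold T
  split_ifs with h
  · rw [one_smul]
    unfold H
    rw [dif_pos (h3 b), dif_pos h, dif_pos (h3 b'), ws_mul_ws]
    refine ws_congr ?_ _
    rw [← pow_add]
    congr 1
    have h4 : b'.val ≤ b.val := h
    have h5 : b.val ≤ 3 := h3 b
    change (3 - b.val) + (b.val - b'.val) = 3 - b'.val
    omega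
  · rw [zero_smul]
    have h6 : I.H b b' = 0 := by
      unfold H
      rw [dif_neg h]
    rw [h6, mul_zero]

/-- **the window data** -/
def wdat : Wdat w.dga where
  ι := Fin 4
  o := 3
  e b := id' (I.v b)
  fs := I.fs
  H := I.H
  T := T
  y := I.Y
  e_mem b := id_mem _
  fs_mem := I.fs_mem
  H_mem := I.H_mem
  y_mem := I.Y_mem
  one := by
    have h1 : ∑ i : w.Ob, id' (w := w) i = ∑ b, id' (I.v b) + ∑ b, id' (I.u b) := by
      rw [← I.ε.sum_comp, Fintype.sum_sum_type]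
      rfl
    exact h1.symm.trans sum_id
  e_e b b' := by
    change id' (I.v b) * id' (I.v b') = if b = b' then id' (I.v b) else 0
    split_ifs with h
    · subst h
      exact id_id _
    · exact id_id_ne fun h0 => h (I.v_inj h0)
  e_H := I.e_H
  H_e := I.H_e
  H_H := I.H_H
  T_o b := by
    change T 3 b = 1
    unfold T
    rw [if_pos (by omega)]
  H_o := by
    change I.H 3 3 = id' (I.v 3)
    unfold H
    rw [dif_pos (le_refl _)]
    refine ws_congr ?_ _
    rw [Nat.sub_self, pow_zero]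
  y_y := by
    change I.Y * I.Y = 0
    conv_lhs => rw [show I.Y * I.Y = I.Y * ∑ b, ws (I.v b) (I.v b) I.y (q_le _ _ 0 (I.y_q b)) from rfl]
    rw [Finset.mul_sum]
    refine Finset.sum_eq_zero fun b _ => ?_
    rw [I.Y_ws, ws_congr I.yy, ws_zero]
  y_H b b' := by
    change I.Y * I.H b b' = I.H b b' * I.Y
    unfold H
    split_ifs with hb
    · rw [I.Y_ws, I.ws_Y]
      exact ws_congr (I.hy_pow _) _
    · rw [mul_zero, zero_mul]
  y_e b := by
    change I.Y * id' (I.v b) = id' (I.v b) * I.Y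
    unfold id'
    rw [I.Y_ws, I.ws_Y]
    exact ws_congr (by rw [mul_one, one_mul]) _
  split := I.split

end WIn

/-! ### the instance for `Γ` -/

open DefsQ830 DefsQ830.Gen PBW128 SM890

/-- the vertices -/
def eps4 : Fin 4 ⊕ Fin 4 ≃ Fin 2 × Fin 4 where
  toFun x := match x with
    | Sum.inl b => (0, b)
    | Sum.inr b => (1, b)
  invFun x := if x.1 = 0 then Sum.inl x.2 else Sum.inr x.2
  left_inv x := by
    cases x with
    | inl b => simp
    | inr b => simp
  right_inv x := by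
    obtain ⟨i, b⟩ := x
    fin_cases i <;> simp

theorem SP_cast {π : Par K} (n : ℕ) {r : R π} : r ∈ pcZ π 0 n 0 ↔ r ∈ pc π 0 n 0 := by
  rw [← pcZ_nat π 0 n 0]
  rfl

variable (π : Par K) (s : ℕ) (hs : 5 ≤ s)

/-- the inclusion, retyped -/
def iR : R π →ₐ[K] (bdM π s (KHc302.two_le hs)).ext.S := (bdM π s (KHc302.two_le hs)).inl

theorem iR_mem {P A C : ℤ} {r : R π} (h : r ∈ pcZ π P A C) :
    iR π s hs r ∈ (bdM π s (KHc302.two_le hs)).ext.pc P A C :=
  (bdM π s (KHc302.two_le hs)).inl_mem h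

/-- `Γ` -/
def winI : WIn (bdM π s (KHc302.two_le hs)).ext where
  ε := eps4
  P0 b := rfl
  P1 b := rfl
  A0 b := rfl
  A1 b := rfl
  h := iR π s hs (X π .h)
  y := iR π s hs (X π (.y 0))
  d j := iR π s hs (X π (.d j))
  hm := iR_mem π s hs (C2M307.X_pcZ π .h)
  ym := iR_mem π s hs (C2M307.X_pcZ π (.y 0))
  dm j := iR_mem π s hs (C2M307.X_pcZ π (.d j))
  yy := by
    rw [← map_mul, ryy, map_zero]
  hy := by
    rw [← map_mul, ← map_mul, Der580.h_comm]
  neg P n hn := by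
    rw [eq_bot_iff]
    rintro x ⟨h1, h2⟩
    change x.1 ∈ pcZ π P n 0 at h1
    change x.2 ∈ pcM π s P n 0 at h2
    rw [pcZ_neg π (Or.inl hn)] at h1
    rw [pcM_bot π s (fun q => pcZ_neg π (Or.inl hn))] at h2
    rw [Submodule.mem_bot]
    exact SExt44.BD.Car.ext _ ((Submodule.mem_bot K).1 h1) ((Submodule.mem_bot K).1 h2)
  sp n r hr := by
    obtain ⟨h1, h2⟩ := hr
    change r.1 ∈ pcZ π 0 n 0 at h1
    change r.2 ∈ pcM π s 0 n 0 at h2
    rw [pcM_bot π s (fun q => pcZ_neg π (Or.inr (by have := wC_word_le q; omega)))] at h2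
    have h3 : r = iR π s hs r.1 := by
      apply SExt44.BD.Car.ext
      · rfl
      · exact (Submodule.mem_bot K).1 h2
    obtain ⟨c, c', t, ht, h4⟩ := V2k981.split_zero π (SP_cast n |>.1 h1)
    refine ⟨c, c', fun j => iR π s hs (t j), fun j => iR_mem π s hs (ht j), ?_⟩
    have h5 := congrArg (iR π s hs) h4
    simp only [map_add, map_smul, map_mul, map_pow] at h5
    exact h3.trans h5

/-- **the window data of `Γ`** -/
def wdatG : Wdat (EndV448.Gam π s hs) := (winI π s hs).wdat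

end Crest.Agent.R186.VT339
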