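import Crest.Agent.R186.Frame_515

/-!
Row 186, half (A), short road of helper306 (#34919), leaf (V) (helper510), part 1:
truncation: if `H_n(G) ⊗ X` is acyclic for every homology module of the right dg module `G`,
then `G ⊗ X` is acyclic.  Everything elementwise, on `Frame_515`.
-/

set_option autoImplicit false
set_option linter.style.haveILetI false
set_option linter.unusedSectionVars false
set_option linter.unusedSimpArgs false

open MulOpposite

namespace Crest.Agent.R186.V510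

open Hat827 Hat827.DGA Frame515

variable {K : Type} [Field K] {A : DGA K}

/-- acyclicity in one degree -/
def AcAt (X : GC K) (k : ℤ) : Prop :=
  ∀ x ∈ X.gr k, X.d x = 0 → ∃ y ∈ X.gr (k + 1), X.d y = x

theorem ac_iff (X : GC K) : Ac X ↔ ∀ k, AcAt X k := Iff.rfl

/-- elementwise form of: `H_n(G) ⊗ X` is acyclic in total degree `k` -/
def HT (G : RM A) (X : LCells A) (n k : ℤ) : Prop :=
  ∀ a : X.ι →₀ G.X, (∀ σ, a σ ∈ G.gr n ∧ G.d (a σ) = 0 ∧ op (X.e σ) • a σ = a σ) →
    (∀ σ, (X.s σ : ℤ) ≠ k - n → a σ = 0) →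
    (∀ τ, (X.s τ : ℤ) = k - n - 1 →
      ∃ g ∈ G.gr (n + 1), (a.sum fun σ x => op (X.c σ τ) • x) = G.d g) →
    ∃ b : X.ι →₀ G.X, (∀ σ, b σ ∈ G.gr n ∧ G.d (b σ) = 0 ∧ op (X.e σ) • b σ = b σ) ∧
      (∀ σ, (X.s σ : ℤ) ≠ k - n + 1 → b σ = 0) ∧
      ∀ τ, (X.s τ : ℤ) = k - n →
        ∃ e ∈ G.gr (n + 1), a τ = (b.sum fun σ x => op (X.c σ τ) • x) + G.d e

theorem sum_congr_supp {ι M N : Type} [AddCommGroup M] [AddCommGroup N] (x y : ι →₀ M)
    (f : ι → M → N) (hf : ∀ σ, f σ 0 = 0) (h : ∀ σ, f σ (x σ) = f σ (y σ)) :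
    x.sum f = y.sum f := by
  classical
  rw [Finsupp.sum_of_support_subset x (Finset.subset_union_left (s₂ := y.support)) f
      (fun σ _ => hf σ),
    Finsupp.sum_of_support_subset y (Finset.subset_union_right (s₁ := x.support)) f
      (fun σ _ => hf σ)]
  exact Finset.sum_congr rfl fun σ _ => h σ

/-- the truncation step -/
theorem trunc_step (G : RM A) (X : LCells A) (n k : ℤ) (hT : HT G X n k)
    (x : X.ι →₀ G.X) (hx : x ∈ (twG G X).gr k) (hd : (twG G X).dd x = 0)
    (h1 : ∀ σ, k - (X.s σ : ℤ) < n → x σ = 0) (h2 : ∀ σ, k - (X.s σ : ℤ) = n → G.d (x σ) = 0) :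
    ∃ y : X.ι →₀ G.X, y ∈ (twG G X).gr (k + 1) ∧
      (∀ σ, k - (X.s σ : ℤ) < n + 1 → (x - (twG G X).dd y) σ = 0) ∧
      (∀ σ, k - (X.s σ : ℤ) = n + 1 → G.d ((x - (twG G X).dd y) σ) = 0) := by
  classical
  have hxs : ∀ σ, x σ ∈ G.gr (k - X.s σ) ∧ op (X.e σ) • x σ = x σ := hx
  -- the bottom layer
  let a : X.ι →₀ G.X := x.filter fun σ => (X.s σ : ℤ) = k - n
  have ha : ∀ σ, (X.s σ : ℤ) = k - n → a σ = x σ := fun σ h => Finsupp.filter_apply_pos _ _ h
  have ha0 : ∀ σ, (X.s σ : ℤ) ≠ k - n → a σ = 0 := fun σ h => Finsupp.filter_apply_neg _ _ h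
  have haZ : ∀ σ, a σ ∈ G.gr n ∧ G.d (a σ) = 0 ∧ op (X.e σ) • a σ = a σ := by
    intro σ
    by_cases h : (X.s σ : ℤ) = k - n
    · rw [ha σ h]
      refine ⟨?_, h2 σ (by omega), (hxs σ).2⟩
      have := (hxs σ).1
      rwa [h, show k - (k - n) = n by ring] at this
    · rw [ha0 σ h]
      exact ⟨Submodule.zero_mem _, map_zero _, smul_zero _⟩
  have hcyc : ∀ τ, (X.s τ : ℤ) = k - n - 1 →
      ∃ g ∈ G.gr (n + 1), (a.sum fun σ x => op (X.c σ τ) • x) = G.d g := by
    intro τ hτ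
    have e1 := DFunLike.congr_fun hd τ
    rw [Tw.dd_apply] at e1
    have e2 : (x.sum fun σ g => (twG G X).m σ τ g) = a.sum fun σ x => op (X.c σ τ) • x := by
      refine sum_congr_supp x a (fun σ g => op (X.c σ τ) • g) (fun σ => smul_zero _) fun σ => ?_
      by_cases h : (X.s σ : ℤ) = k - n
      · rw [ha σ h]
      · rw [ha0 σ h]
        by_cases h3 : k - (X.s σ : ℤ) < n
        · rw [h1 σ h3]
        · have : X.c σ τ = 0 := X.c_zero (by omega)
          rw [this, op_zero, zero_smul, zero_smul]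
    refine ⟨-x τ, ?_, ?_⟩
    · have := (hxs τ).1
      rw [hτ, show k - (k - n - 1) = n + 1 by ring] at this
      exact Submodule.neg_mem _ this
    · rw [map_neg, ← e2]
      exact eq_neg_of_add_eq_zero_right e1
  obtain ⟨b, hb, hb0, hbe⟩ := hT a haZ ha0 hcyc
  -- the corrections
  have hE : ∀ σ, ∃ e : G.X, e ∈ G.gr (n + 1) ∧ op (X.e σ) • e = e ∧ ((X.s σ : ℤ) = k - n →
      a σ = (b.sum fun ρ x => op (X.c ρ σ) • x) + G.d e) ∧ ((X.s σ : ℤ) ≠ k - n → e = 0) := by
    intro σ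
    by_cases h : (X.s σ : ℤ) = k - n
    · obtain ⟨e, he, heq⟩ := hbe σ h
      refine ⟨op (X.e σ) • e, ?_, ?_, ?_, fun h' => absurd h h'⟩
      · have := G.smul_mem (X.e_mem σ) he
        rwa [zero_add] at this
      · rw [smul_smul, ← op_mul, X.e_idem]
      · intro _
        have h3 := congrArg (fun z => op (X.e σ) • z) heq
        simp only [smul_add] at h3
        rw [(haZ σ).2.2] at h3
        rw [h3, G.leib, LCells.De, op_zero, zero_smul, zero_add]
        congr 1
        rw [Finsupp.smul_sum]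
        refine Finset.sum_congr rfl fun ρ _ => ?_
        dsimp only
        rw [smul_smul, ← op_mul, X.c_right]
    · exact ⟨0, Submodule.zero_mem _, smul_zero _, fun h' => absurd h' h, fun _ => rfl⟩
  choose e0 he1 he2 he3 he4 using hE
  let e : X.ι →₀ G.X := Finsupp.onFinset (X.F (k - n).toNat) e0 fun σ hσ => by
    rw [X.mem_F]
    by_contra hc
    apply hσ
    apply he4
    omega
  have hee : ∀ σ, e σ = e0 σ := fun σ => rfl
  have hsum : ∀ τ, ((b + e).sum fun σ g => (twG G X).m σ τ g) =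
      (b.sum fun σ g => op (X.c σ τ) • g) + e.sum fun σ g => op (X.c σ τ) • g := by
    intro τ
    exact Finsupp.sum_add_index' (fun σ => smul_zero (op (X.c σ τ)))
      fun σ x y => smul_add (op (X.c σ τ)) x y
  have hes : ∀ τ, (X.s τ : ℤ) ≥ k - n → (e.sum fun σ g => op (X.c σ τ) • g) = 0 := by
    intro τ hτ
    refine Finset.sum_eq_zero fun σ _ => ?_
    dsimp only
    rw [hee]
    by_cases h : (X.s σ : ℤ) = k - n
    · rw [X.c_zero (show X.s σ ≤ X.s τ by omega), op_zero, zero_smul]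
    · rw [he4 σ h, smul_zero]
  have hbs : ∀ τ, (X.s τ : ℤ) ≥ k - n + 1 → (b.sum fun σ g => op (X.c σ τ) • g) = 0 := by
    intro τ hτ
    refine Finset.sum_eq_zero fun σ _ => ?_
    dsimp only
    by_cases h : (X.s σ : ℤ) = k - n + 1
    · rw [X.c_zero (show X.s σ ≤ X.s τ by omega), op_zero, zero_smul]
    · rw [hb0 σ h, smul_zero]
  have hzero : ∀ σ, k - (X.s σ : ℤ) < n + 1 → (x - (twG G X).dd (b + e)) σ = 0 := by
    intro σ hσ
    rw [Finsupp.sub_apply, Tw.dd_apply, hsum, hes σ (by omega), add_zero, Finsupp.add_apply,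
      map_add, (hb σ).2.1, zero_add, hee]
    by_cases h : (X.s σ : ℤ) = k - n
    · rw [← ha σ h, he3 σ h, add_comm (G.d (e0 σ)), sub_self]
    · rw [h1 σ (by omega), he4 σ h, map_zero, hbs σ (by omega), zero_add, sub_zero]
  refine ⟨b + e, ?_, ?_, ?_⟩
  · intro σ
    refine ⟨?_, ?_⟩
    · rw [Finsupp.add_apply]
      refine Submodule.add_mem _ ?_ ?_
      · by_cases h : (X.s σ : ℤ) = k - n + 1
        · have := (hb σ).1
          change b σ ∈ G.gr (k + 1 - X.s σ)
          rwa [h, show k + 1 - (k - n + 1) = n by ring]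
        · rw [hb0 σ h]; exact Submodule.zero_mem _
      · rw [hee]
        by_cases h : (X.s σ : ℤ) = k - n
        · change e0 σ ∈ G.gr (k + 1 - X.s σ)
          rw [h, show k + 1 - (k - n) = n + 1 by ring]
          exact he1 σ
        · rw [he4 σ h]; exact Submodule.zero_mem _
    · change op (X.e σ) • ((b + e) σ) = (b + e) σ
      rw [Finsupp.add_apply, smul_add, (hb σ).2.2, hee, he2]
  · exact hzero
  · intro σ hσ
    have hd' : (twG G X).dd (x - (twG G X).dd (b + e)) = 0 := by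
      rw [map_sub, hd, Tw.dd_dd, sub_zero]
    have e1 := DFunLike.congr_fun hd' σ
    rw [Tw.dd_apply] at e1
    have e2 : ((x - (twG G X).dd (b + e)).sum fun ρ g => (twG G X).m ρ σ g) = 0 := by
      refine Finset.sum_eq_zero fun ρ _ => ?_
      by_cases h : X.s ρ ≤ X.s σ
      · have hc : (twG G X).m ρ σ = 0 := (twG G X).m_zero ρ σ h
        exact LinearMap.congr_fun hc _
      · dsimp only
        rw [hzero ρ (by omega)]
        exact map_zero _
    rw [e2, add_zero] at e1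
    exact e1

/-- **truncation**: acyclicity of `G ⊗ X` in degree `k` from acyclicity of all `H_n(G) ⊗ X` -/
theorem trunc (G : RM A) (X : LCells A) (lo : ℤ) (hlo : ∀ k < lo, ∀ x ∈ G.gr k, x = 0) (k : ℤ)
    (hT : ∀ n, lo ≤ n → n ≤ k → HT G X n k) : AcAt (tG G X) k := by
  classical
  have key : ∀ (m : ℕ) (n : ℤ), lo ≤ n → n + m = k + 1 → ∀ x : X.ι →₀ G.X,
      x ∈ (twG G X).gr k → (twG G X).dd x = 0 → (∀ σ, k - (X.s σ : ℤ) < n → x σ = 0) →
      (∀ σ, k - (X.s σ : ℤ) = n → G.d (x σ) = 0) →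
      ∃ y ∈ (twG G X).gr (k + 1), (twG G X).dd y = x := by
    intro m
    induction m with
    | zero =>
      intro n _ hn x hx _ h1 _
      have : x = 0 := by
        ext σ
        exact h1 σ (by omega)
      exact ⟨0, Submodule.zero_mem _, by rw [this, map_zero]⟩
    | succ m ih =>
      intro n hn0 hn x hx hd h1 h2
      obtain ⟨y, hy, h3, h4⟩ := trunc_step G X n k (hT n hn0 (by omega)) x hx hd h1 h2
      obtain ⟨z, hz, hz2⟩ := ih (n + 1) (by omega) (by push_cast at hn ⊢; omega)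
        (x - (twG G X).dd y)
        (Submodule.sub_mem _ hx (by
          have := (twG G X).dd_mem hy
          rwa [add_sub_cancel_right] at this))
        (by rw [map_sub, hd, Tw.dd_dd, sub_zero]) h3 h4
      exact ⟨z + y, Submodule.add_mem _ hz hy, by rw [map_add, hz2, sub_add_cancel]⟩
  intro x hx hd
  have hxs : ∀ σ, x σ ∈ G.gr (k - X.s σ) ∧ op (X.e σ) • x σ = x σ := hx
  by_cases hk : lo ≤ k + 1
  · refine key (k + 1 - lo).toNat lo le_rfl (by omega) x hx hd ?_ ?_
    · intro σ hσ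
      exact hlo _ hσ _ (hxs σ).1
    · intro σ hσ
      have := G.d_mem (hxs σ).1
      exact hlo _ (by omega) _ this
  · have : x = 0 := by
      ext σ
      exact hlo _ (by omega) _ (hxs σ).1
    exact ⟨0, Submodule.zero_mem _, by rw [this, map_zero]⟩

end Crest.Agent.R186.V510
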