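import Crest.Agent.R186.W4a_822
import Crest.Agent.R186.BiI_322
import Crest.Agent.R186.PDef_580
import Crest.Agent.R186.KGen_693
import Crest.Agent.R186.FilPBW_633

/-!
# Row 186, S0281 base, leaf W0 (s = 0), helper822: exactness of
`0 → P 2 → (P 1)^4 → (P 3)^2 → P 0` over `A g 0` for all `A`-linear maps which are 322's `d3`, `d2`,
`d1` on rows.
-/

set_option autoImplicit false
set_option linter.unusedSectionVars false

open Matrix

namespace Crest.Agent.R186.W0A822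

open Crest.Agent.R186.B281 Crest.Agent.R186.W4a822

variable {K : Type} [Field K] {g : K}

/-- right multiplication by `x_i` -/
noncomputable abbrev Xr : Fin 2 → Op K →ₗ[K] Op K := fun i => LinearMap.mulRight K (X i : Op K)

/-- right multiplication by `d_i` -/
noncomputable abbrev Dr (g : K) : Fin 2 → Op K →ₗ[K] Op K := fun i => LinearMap.mulRight K (D g i)

/-- left multiplication by `x_i` -/
noncomputable abbrev Lr : Fin 2 → Op K →ₗ[K] Op K := fun i => LinearMap.mulLeft K (X i : Op K)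

/-- the pieces in 322's order -/
noncomputable abbrev Fr (g : K) : ℤ → ℤ → Submodule K (Op K) := fun P A => Fil g A P

theorem fmul (hg : Gen g) : FMul g := fun hT hS => FilPBW633.Fil_mul hg hT hS

/-! ### reading and building rows -/

noncomputable def rd34 (y : Fin 2 → Fin 7 → Op K) : Fin 2 → Fin 2 → Op K := fun k => ![y k 3, y k 4]

noncomputable def bd34 (u : Fin 2 → Fin 2 → Op K) : Fin 2 → Fin 7 → Op K := fun k => ![0, 0, 0, u k 0, u k 1, 0, 0]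

def rd1 (y : Fin 2 × Fin 2 → Fin 7 → Op K) : Fin 2 → Fin 2 → Op K := fun k i => y (k, i) 1

noncomputable def bd1 (u : Fin 2 → Fin 2 → Op K) : Fin 2 × Fin 2 → Fin 7 → Op K :=
  fun p => ![0, u p.1 p.2, 0, 0, 0, 0, 0]

def rd2 (y : Unit → Fin 7 → Op K) : Op K := y () 2

noncomputable def bd2 (w : Op K) : Unit → Fin 7 → Op K := fun _ => ![0, 0, w, 0, 0, 0, 0]

theorem rd34_bd34 (u : Fin 2 → Fin 2 → Op K) : rd34 (bd34 u) = u := by
  funext k i
  fin_cases i <;> rfl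

theorem rd1_bd1 (u : Fin 2 → Fin 2 → Op K) : rd1 (bd1 u) = u := rfl

theorem rd2_bd2 (w : Op K) : rd2 (bd2 w) = w := rfl

theorem bd34_rd34 {y : Fin 2 → Fin 7 → Op K} (h : ∀ l j, blk7 j ≠ 3 → y l j = 0) :
    bd34 (rd34 y) = y := by
  funext k j
  fin_cases j
  exacts [(h k 0 (by decide)).symm, (h k 1 (by decide)).symm, (h k 2 (by decide)).symm, rfl, rfl,
    (h k 5 (by decide)).symm, (h k 6 (by decide)).symm]

theorem bd1_rd1 {y : Fin 2 × Fin 2 → Fin 7 → Op K} (h : ∀ l j, blk7 j ≠ 1 → y l j = 0) :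
    bd1 (rd1 y) = y := by
  funext k j
  fin_cases j
  exacts [(h k 0 (by decide)).symm, rfl, (h k 2 (by decide)).symm, (h k 3 (by decide)).symm,
    (h k 4 (by decide)).symm, (h k 5 (by decide)).symm, (h k 6 (by decide)).symm]

theorem bd2_rd2 {y : Unit → Fin 7 → Op K} (h : ∀ l j, blk7 j ≠ 2 → y l j = 0) :
    bd2 (rd2 y) = y := by
  funext k j
  fin_cases j
  exacts [(h k 0 (by decide)).symm, (h k 1 (by decide)).symm, rfl, (h k 3 (by decide)).symm,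
    (h k 4 (by decide)).symm, (h k 5 (by decide)).symm, (h k 6 (by decide)).symm]

theorem rd34_xx (z z' : Fin 2 → Fin 7 → Op K) :
    rd34 (xx z z') = WRes322.Lw Lr ![rd34 z, rd34 z'] := by
  funext k i
  fin_cases i <;> rfl

theorem rd1_xx (z z' : Fin 2 × Fin 2 → Fin 7 → Op K) :
    rd1 (xx z z') = WRes322.Lw Lr ![rd1 z, rd1 z'] := rfl

theorem rd2_xx (z z' : Unit → Fin 7 → Op K) :
    rd2 (xx z z') = WRes322.Lv Lr ![rd2 z, rd2 z'] := rfl

/-! ### the lattices -/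

theorem LT34 {k P : ℤ} {y : Fin 2 → Fin 7 → Op K} (h : LT g 0 (Fin 2) 3 k P y) :
    WRes322.Row Xr (Fr g) P k (k - 1) (rd34 y) := by
  refine ⟨fun l i => ?_, fun l => ?_⟩
  · have h3 := (h l).1.2.2.2.1.1
    have h4 := (h l).1.2.2.2.1.2.1
    rw [sub_zero] at h3 h4
    fin_cases i
    · exact h3
    · exact h4
  · have h5 := (h l).1.2.2.2.1.2.2
    rw [sub_zero] at h5
    exact h5

theorem LT34' {k P : ℤ} {u : Fin 2 → Fin 2 → Op K}
    (h : WRes322.Row Xr (Fr g) P k (k - 1) u) : LT g 0 (Fin 2) 3 k P (bd34 u) := by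
  intro l
  refine ⟨?_, fun j hj => ?_⟩
  · refine row_mem1 0 k P (u l 0) (u l 1) ?_ ?_ ?_
    · rw [sub_zero]; exact h.1 l 0
    · rw [sub_zero]; exact h.1 l 1
    · rw [sub_zero]; exact h.2 l
  · fin_cases j
    exacts [rfl, rfl, rfl, absurd rfl hj, absurd rfl hj, rfl, rfl]

theorem LT1 {k P : ℤ} {y : Fin 2 × Fin 2 → Fin 7 → Op K} (hg : Gen g)
    (h : LT g 0 (Fin 2 × Fin 2) 1 k P y) :
    WRes322.Row Xr (Fr g) P (k - 1) (k - 1) (rd1 y) := by
  have h1 : ∀ l i, rd1 y l i ∈ Fr g P (k - 1) := fun l i => (h (l, i)).1.2.1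
  refine ⟨h1, fun l => ?_⟩
  exact WRes322.cc_mem (BiI322.fil hg) (fun i => h1 l i)

theorem single_one (k P : ℤ) (T : Op K) (hT : T ∈ Fil g (k - 1) P) :
    (![0, T, 0, 0, 0, 0, 0] : Fin 7 → Op K) ∈ Lat g 0 k P := by
  refine ⟨zero_mem _, hT, zero_mem _, ⟨zero_mem _, zero_mem _, ?_⟩, zero_mem _, zero_mem _, ?_⟩ <;>
  · show (0 : Op K) * X 0 + 0 * X 1 ∈ _
    rw [zero_mul, zero_mul, add_zero]
    exact zero_mem _

theorem single_two (k P : ℤ) (T : Op K) (hT : T ∈ Fil g (k - 2) P) :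
    (![0, 0, T, 0, 0, 0, 0] : Fin 7 → Op K) ∈ Lat g 0 k P := by
  refine ⟨zero_mem _, zero_mem _, hT, ⟨zero_mem _, zero_mem _, ?_⟩, zero_mem _, zero_mem _, ?_⟩ <;>
  · show (0 : Op K) * X 0 + 0 * X 1 ∈ _
    rw [zero_mul, zero_mul, add_zero]
    exact zero_mem _

theorem LT1' {k P B : ℤ} {u : Fin 2 → Fin 2 → Op K}
    (h : WRes322.Row Xr (Fr g) P (k - 1) B u) : LT g 0 (Fin 2 × Fin 2) 1 k P (bd1 u) := by
  intro l
  refine ⟨single_one k P _ (h.1 l.1 l.2), fun j hj => ?_⟩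
  fin_cases j
  exacts [rfl, absurd rfl hj, rfl, rfl, rfl, rfl, rfl]

theorem LT2 {k P : ℤ} {y : Unit → Fin 7 → Op K} (h : LT g 0 Unit 2 k P y) :
    rd2 y ∈ Fr g P (k - 2) := (h ()).1.2.2.1

theorem LT2' {k P : ℤ} {w : Op K} (h : w ∈ Fr g P (k - 2)) : LT g 0 Unit 2 k P (bd2 w) := by
  intro l
  refine ⟨single_two k P _ h, fun j hj => ?_⟩
  fin_cases j
  exacts [rfl, rfl, absurd rfl hj, rfl, rfl, rfl, rfl]

/-! ### the vertices -/

/-- `(P 1)^4 → (P 3)^2` on rows -/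
noncomputable def f21 (g : K) (y : Fin 2 × Fin 2 → Fin 7 → Op K) : Fin 2 → Fin 7 → Op K :=
  bd34 (WRes322.d2 g Xr (Dr g) (rd1 y))

/-- `P 2 → (P 1)^4` on rows -/
noncomputable def f32 (g : K) (y : Unit → Fin 7 → Op K) : Fin 2 × Fin 2 → Fin 7 → Op K :=
  bd1 (WRes322.d3 Xr (Dr g) (rd2 y))

def C21 (g : K) (z : Fin 2 → Fin 7 → Op K) : Prop := WRes322.d1 Xr (Dr g) (rd34 z) = 0

def C32 (g : K) (z : Fin 2 × Fin 2 → Fin 7 → Op K) : Prop := WRes322.d2 g Xr (Dr g) (rd1 z) = 0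

theorem onto21 (hg : Gen g) {e : ℤ} (h0 : 0 ≤ e) (h1 : e ≤ 1) :
    OntoO g 0 1 3 (f21 g) (C21 g) e := by
  intro c _ z hz hC
  obtain ⟨v, hv, ev⟩ := WRes322.ex1 (BiI322.fil hg) hg.1 h0 h1 (le_refl (c - 1)) (LT34 hz) hC
  refine ⟨bd1 v, LT1' hv, ?_⟩
  rw [f21, rd1_bd1, ev, bd34_rd34 fun l => (hz l).2]

theorem onto32 (hg : Gen g) (e : ℤ) : OntoO g 0 2 1 (f32 g) (C32 g) e := by
  intro c _ z hz hC
  obtain ⟨w, hw, ew⟩ := WRes322.ex2 (BiI322.fil hg) hg.1 (LT1 hg hz) hC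
  refine ⟨bd2 w, LT2' hw, ?_⟩
  rw [f32, rd2_bd2, ew, bd1_rd1 fun l => (hz l).2]

theorem ontoK21 (hg : Gen g) {e : ℤ} (h0 : 0 ≤ e) (h1 : e ≤ 1) :
    OntoK g 0 1 3 (f21 g) (C21 g) e := by
  intro a b hab z z' hz hz' hx hC hC'
  have hba : b ≤ a := by omega
  obtain ⟨v, hv, hv', ev⟩ := WRes322.vert1 (BiI322.bi hg) hg.1 (a := a) (b := b) (B := a - 1)
    (B' := b - 1) (u := ![rd34 z, rd34 z']) h0 h1 hba le_rfl le_rfl (by omega)
    (fun i => by
      fin_cases i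
      · exact LT34 hz
      · exact LT34 hz')
    (by rw [← rd34_xx]; exact LT34 hx)
    (fun i => by
      fin_cases i
      · exact hC
      · exact hC')
  refine ⟨bd1 (v 0), bd1 (v 1), LT1' (hv 0), LT1' (hv 1), ?_, ?_, ?_⟩
  · have e1 : xx (bd1 (v 0)) (bd1 (v 1)) = bd1 (WRes322.Lw Lr v) := by
      have h2 : ∀ l j, blk7 j ≠ 1 → xx (bd1 (v 0)) (bd1 (v 1)) l j = 0 := by
        intro l j hj
        have h3 : bd1 (v 0) l j = 0 := (LT1' (hv 0) l).2 j hj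
        have h4 : bd1 (v 1) l j = 0 := (LT1' (hv 1) l).2 j hj
        show X 1 * bd1 (v 0) l j - X 0 * bd1 (v 1) l j = 0
        rw [h3, h4, mul_zero, mul_zero]
        exact op_sub
      rw [← bd1_rd1 h2, rd1_xx, rd1_bd1, rd1_bd1]
      rfl
    rw [e1]
    exact LT1' hv'
  · rw [f21, rd1_bd1, ev 0]
    exact bd34_rd34 fun l => (hz l).2
  · rw [f21, rd1_bd1, ev 1]
    exact bd34_rd34 fun l => (hz' l).2

theorem ontoK32 (hg : Gen g) (e : ℤ) : OntoK g 0 2 1 (f32 g) (C32 g) e := by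
  intro a b hab z z' hz hz' hx hC hC'
  obtain ⟨v, hv, hv', ev⟩ := WRes322.vert2 (BiI322.bi hg) hg.1 (a := a) (b := b) (B := a - 1)
    (B' := b - 1) (e := e) (u := ![rd1 z, rd1 z'])
    (fun i => by
      fin_cases i
      · exact LT1 hg hz
      · exact LT1 hg hz')
    (by rw [← rd1_xx]; exact LT1 hg hx)
    (fun i => by
      fin_cases i
      · exact hC
      · exact hC')
  refine ⟨bd2 (v 0), bd2 (v 1), LT2' (hv 0), LT2' (hv 1), ?_, ?_, ?_⟩
  · have e1 : xx (bd2 (v 0)) (bd2 (v 1)) = bd2 (WRes322.Lv Lr v) := by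
      have h2 : ∀ l j, blk7 j ≠ 2 → xx (bd2 (v 0)) (bd2 (v 1)) l j = 0 := by
        intro l j hj
        have h3 : bd2 (v 0) l j = 0 := (LT2' (hv 0) l).2 j hj
        have h4 : bd2 (v 1) l j = 0 := (LT2' (hv 1) l).2 j hj
        show X 1 * bd2 (v 0) l j - X 0 * bd2 (v 1) l j = 0
        rw [h3, h4, mul_zero, mul_zero]
        exact op_sub
      rw [← bd2_rd2 h2, rd2_xx, rd2_bd2, rd2_bd2]
      rfl
    rw [e1]
    exact LT2' hv'
  · rw [f32, rd2_bd2, ev 0]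
    exact bd1_rd1 fun l => (hz l).2
  · rw [f32, rd2_bd2, ev 1]
    exact bd1_rd1 fun l => (hz' l).2

/-! ### over `A` -/

/-- the entries of a column of `A` -/
def ff {v : Fin 5} (x : Pv g 0 v) (i j : Fin 7) : Op K := (x : A g 0).1.fst i j

def ss {v : Fin 5} (x : Pv g 0 v) (i j : Fin 7) : Op K := (x : A g 0).1.snd i j

theorem ff_def {v : Fin 5} (x : Pv g 0 v) (i j : Fin 7) : ff x i j = (x : A g 0).1.fst i j := rfl

theorem ss_def {v : Fin 5} (x : Pv g 0 v) (i j : Fin 7) : ss x i j = (x : A g 0).1.snd i j := rfl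

theorem ff_zero {v : Fin 5} (x : Pv g 0 v) (i j : Fin 7) (h : blk j ≠ v) : ff x i j = 0 :=
  (mem_Pv.1 x.2 i j h).1

theorem ss_zero {v : Fin 5} (x : Pv g 0 v) (i j : Fin 7) (h : blk j ≠ v) : ss x i j = 0 :=
  (mem_Pv.1 x.2 i j h).2

theorem ff_O {v : Fin 5} (i j : Fin 7) : ff (0 : Pv g 0 v) i j = 0 := rfl

theorem ss_O {v : Fin 5} (i j : Fin 7) : ss (0 : Pv g 0 v) i j = 0 := rfl

theorem Pv_ext {v : Fin 5} {x y : Pv g 0 v} (h : ∀ i j, blk j = v → ff x i j = ff y i j)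
    (h' : ∀ i j, blk j = v → ss x i j = ss y i j) : x = y := by
  apply Subtype.ext
  refine A_ext (fun i j => ?_) (fun i j => ?_)
  · by_cases hj : blk j = v
    · exact h i j hj
    · exact (ff_zero x i j hj).trans (ff_zero y i j hj).symm
  · by_cases hj : blk j = v
    · exact h' i j hj
    · exact (ss_zero x i j hj).trans (ss_zero y i j hj).symm

theorem blk_zero {j : Fin 7} (h : blk j = 0) : j = 0 := by revert h; revert j; decide
theorem blk_one {j : Fin 7} (h : blk j = 1) : j = 1 := by revert h; revert j; decide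
theorem blk_two {j : Fin 7} (h : blk j = 2) : j = 2 := by revert h; revert j; decide
theorem blk_three {j : Fin 7} (h : blk j = 3) : j = 3 ∨ j = 4 := by revert h; revert j; decide

/-- the `i`-th rows of a pair in `P 3` -/
def r3f (Z : Fin 2 → Pv g 0 3) (i : Fin 7) : Fin 2 → Fin 2 → Op K :=
  fun k => ![ff (Z k) i 3, ff (Z k) i 4]

def r3s (Z : Fin 2 → Pv g 0 3) (i : Fin 7) : Fin 2 → Fin 2 → Op K :=
  fun k => ![ss (Z k) i 3, ss (Z k) i 4]

def r1f (Z : Fin 2 → Fin 2 → Pv g 0 1) (i : Fin 7) : Fin 2 → Fin 2 → Op K :=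
  fun k l => ff (Z k l) i 1

def r1s (Z : Fin 2 → Fin 2 → Pv g 0 1) (i : Fin 7) : Fin 2 → Fin 2 → Op K :=
  fun k l => ss (Z k l) i 1

theorem ext3 {Y Z : Fin 2 → Pv g 0 3} (h : ∀ i, r3f Y i = r3f Z i) (h' : ∀ i, r3s Y i = r3s Z i) :
    Y = Z := by
  funext k
  refine Pv_ext (fun i j hj => ?_) (fun i j hj => ?_)
  · have e := congrFun (h i) k
    rcases blk_three hj with rfl | rfl
    · exact congrFun e 0
    · exact congrFun e 1
  · have e := congrFun (h' i) k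
    rcases blk_three hj with rfl | rfl
    · exact congrFun e 0
    · exact congrFun e 1

theorem ext1 {Y Z : Fin 2 → Fin 2 → Pv g 0 1} (h : ∀ i, r1f Y i = r1f Z i)
    (h' : ∀ i, r1s Y i = r1s Z i) : Y = Z := by
  funext k l
  refine Pv_ext (fun i j hj => ?_) (fun i j hj => ?_)
  · rw [blk_one hj]
    exact congrFun (congrFun (h i) k) l
  · rw [blk_one hj]
    exact congrFun (congrFun (h' i) k) l

theorem r3f_O (i : Fin 7) : r3f (0 : Fin 2 → Pv g 0 3) i = 0 := by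
  funext k j
  fin_cases j <;> rfl

theorem r3s_O (i : Fin 7) : r3s (0 : Fin 2 → Pv g 0 3) i = 0 := by
  funext k j
  fin_cases j <;> rfl

theorem r1f_O (i : Fin 7) : r1f (0 : Fin 2 → Fin 2 → Pv g 0 1) i = 0 := rfl

theorem r1s_O (i : Fin 7) : r1s (0 : Fin 2 → Fin 2 → Pv g 0 1) i = 0 := rfl

section

variable (d3 : Pv g 0 2 →ₗ[A g 0] (Fin 2 → Fin 2 → Pv g 0 1))
  (d2 : (Fin 2 → Fin 2 → Pv g 0 1) →ₗ[A g 0] (Fin 2 → Pv g 0 3))
  (d1 : (Fin 2 → Pv g 0 3) →ₗ[A g 0] Pv g 0 0)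

/-- `d3` is 322's `d3` on rows -/
def Is3 : Prop := ∀ (x : Pv g 0 2) (i : Fin 7),
  r1f (d3 x) i = WRes322.d3 Xr (Dr g) (ff x i 2) ∧
  r1s (d3 x) i = WRes322.d3 Xr (Dr g) (ss x i 2)

/-- `d2` is 322's `d2` on rows -/
def Is2 : Prop := ∀ (u : Fin 2 → Fin 2 → Pv g 0 1) (i : Fin 7),
  r3f (d2 u) i = WRes322.d2 g Xr (Dr g) (r1f u i) ∧
  r3s (d2 u) i = WRes322.d2 g Xr (Dr g) (r1s u i)

/-- `d1` is 322's `d1` on rows -/
def Is1 : Prop := ∀ (u : Fin 2 → Pv g 0 3) (i : Fin 7),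
  ff (d1 u) i 0 = WRes322.d1 Xr (Dr g) (r3f u i) ∧
  ss (d1 u) i 0 = WRes322.d1 Xr (Dr g) (r3s u i)

variable {d3 d2 d1}

theorem d1_d2 (hg : Gen g) (h2 : Is2 d2) (h1 : Is1 d1) (u : Fin 2 → Fin 2 → Pv g 0 1) :
    d1 (d2 u) = 0 := by
  refine Pv_ext (fun i j hj => ?_) (fun i j hj => ?_)
  · rw [blk_zero hj, (h1 (d2 u) i).1, (h2 u i).1, ff_O]
    exact WRes322.d1_d2 (BiI322.fil hg) _
  · rw [blk_zero hj, (h1 (d2 u) i).2, (h2 u i).2, ss_O]
    exact WRes322.d1_d2 (BiI322.fil hg) _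

theorem d2_d3 (hg : Gen g) (h3 : Is3 d3) (h2 : Is2 d2) (x : Pv g 0 2) : d2 (d3 x) = 0 := by
  refine ext3 (fun i => ?_) (fun i => ?_)
  · rw [(h2 (d3 x) i).1, (h3 x i).1, r3f_O]
    exact WRes322.d2_d3 (BiI322.fil hg) _
  · rw [(h2 (d3 x) i).2, (h3 x i).2, r3s_O]
    exact WRes322.d2_d3 (BiI322.fil hg) _

/-- **exactness at `(P 3)^2`** -/
theorem e21 (hg : Gen g) (h2 : Is2 d2) (h1 : Is1 d1) : Function.Exact d2 d1 := by
  intro Z
  constructor
  · intro hZ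
    have c1 : ∀ i, C21 g (fun l => (Z l : A g 0).1.fst i) := fun i => by
      have := (h1 Z i).1
      rw [hZ, ff_O] at this
      exact this.symm
    have c2 : ∀ i, C21 g (fun l => (Z l : A g 0).1.snd i) := fun i => by
      have := (h1 Z i).2
      rw [hZ, ss_O] at this
      exact this.symm
    obtain ⟨Y, s1, s2, s3⟩ := lift_exact (kgen hg) (fmul hg) (v := 1) (w := 3) (f21 g) (C21 g) (C21 g)
      (onto21 hg le_rfl zero_le_one) (ontoK21 hg le_rfl zero_le_one)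
      (onto21 hg zero_le_one le_rfl) (ontoK21 hg zero_le_one le_rfl)
      (fun l => (Z l : A g 0)) (fun l i j hj => mem_Pv.1 (Z l).2 i j hj) c1 c2
    have u1 : ∀ i, WRes322.d2 g Xr (Dr g)
        (r1f (fun k l => (⟨Y (k, l), mem_Pv.2 (s1 (k, l))⟩ : Pv g 0 1)) i) = r3f Z i := fun i => by
      have e := congrArg rd34 (s2 i)
      rw [f21, rd34_bd34] at e
      exact e
    have u2 : ∀ i, WRes322.d2 g Xr (Dr g)
        (r1s (fun k l => (⟨Y (k, l), mem_Pv.2 (s1 (k, l))⟩ : Pv g 0 1)) i) = r3s Z i := fun i => by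
      have e := congrArg rd34 (s3 i)
      rw [f21, rd34_bd34] at e
      exact e
    refine ⟨fun k l => ⟨Y (k, l), mem_Pv.2 (s1 (k, l))⟩, ?_⟩
    exact ext3 (fun i => ((h2 _ i).1).trans (u1 i)) (fun i => ((h2 _ i).2).trans (u2 i))
  · rintro ⟨u, hu⟩
    rw [← hu]
    exact d1_d2 hg h2 h1 u

/-- **exactness at `(P 1)^4`** -/
theorem e32 (hg : Gen g) (h3 : Is3 d3) (h2 : Is2 d2) : Function.Exact d3 d2 := by
  intro Z
  constructor
  · intro hZ
    have c1 : ∀ i, C32 g (fun l => (Z l.1 l.2 : A g 0).1.fst i) := fun i => by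
      have := (h2 Z i).1
      rw [hZ, r3f_O] at this
      exact this.symm
    have c2 : ∀ i, C32 g (fun l => (Z l.1 l.2 : A g 0).1.snd i) := fun i => by
      have := (h2 Z i).2
      rw [hZ, r3s_O] at this
      exact this.symm
    obtain ⟨Y, s1, s2, s3⟩ := lift_exact (ι := Unit) (kgen hg) (fmul hg) (v := 2) (w := 1) (f32 g)
      (C32 g) (C32 g) (onto32 hg 0) (ontoK32 hg 0) (onto32 hg 1) (ontoK32 hg 1)
      (fun l => (Z l.1 l.2 : A g 0)) (fun l i j hj => mem_Pv.1 (Z l.1 l.2).2 i j hj) c1 c2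
    have u1 : ∀ i, WRes322.d3 Xr (Dr g)
        (ff (⟨Y (), mem_Pv.2 (s1 ())⟩ : Pv g 0 2) i 2) = r1f Z i := fun i => by
      have e := congrArg rd1 (s2 i)
      rw [f32, rd1_bd1] at e
      exact e
    have u2 : ∀ i, WRes322.d3 Xr (Dr g)
        (ss (⟨Y (), mem_Pv.2 (s1 ())⟩ : Pv g 0 2) i 2) = r1s Z i := fun i => by
      have e := congrArg rd1 (s3 i)
      rw [f32, rd1_bd1] at e
      exact e
    refine ⟨⟨Y (), mem_Pv.2 (s1 ())⟩, ?_⟩
    exact ext1 (fun i => ((h3 _ i).1).trans (u1 i)) (fun i => ((h3 _ i).2).trans (u2 i))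
  · rintro ⟨u, hu⟩
    rw [← hu]
    exact d2_d3 hg h3 h2 u

/-- **injectivity of `d3`** -/
theorem inj3 (hg : Gen g) (h3 : Is3 d3) : Function.Injective d3 := by
  rw [injective_iff_map_eq_zero]
  intro x hx
  refine Pv_ext (fun i j hj => ?_) (fun i j hj => ?_)
  · have e := (h3 x i).1
    rw [hx, r1f_O] at e
    rw [blk_two hj, ff_O]
    obtain ⟨k, hk⟩ := (x : A g 0).2.1.entry i 2
    exact WRes322.ex3 (BiI322.fil hg) (BiI322.bi hg).Dinj (w := ff x i 2) (P := 0) (A := k) hk e.symm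
  · have e := (h3 x i).2
    rw [hx, r1s_O] at e
    rw [blk_two hj, ss_O]
    obtain ⟨k, hk⟩ := (x : A g 0).2.2.entry i 2
    exact WRes322.ex3 (BiI322.fil hg) (BiI322.bi hg).Dinj (w := ss x i 2) (P := 1) (A := k) hk e.symm

end

end Crest.Agent.R186.W0A822
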