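import Crest.Agent.R186.W0eps_881

/-!
Row 186, S0281 base, leaf B281.W0, `s = 0` (helper881): `Pv g 0 2 → (Pv g 0 1)^(2×2) → (Pv g 0 3)^2 → Pv g 0 0`
is exact, and the first map is injective (transposing helper322's `W1A_322`).
-/

set_option autoImplicit false
set_option linter.unusedSectionVars false

open Matrix

namespace Crest.Agent.R186.B281.W0ex881

open W4a822 WRes322 W1A322 W0eps881

variable {K : Type} [Field K] {g : K}

/-! ### lattices of rows -/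

/-- rows at `O(-1)` -/
noncomputable def of1 (u : Fin 2 → Fin 2 → Op K) : Fin 2 × Fin 2 → Fin 7 → Op K :=
  fun p => ![0, u p.1 p.2, 0, 0, 0, 0, 0]

/-- entries at `O(-1)` -/
def ent1 (r : Fin 2 × Fin 2 → Fin 7 → Op K) : Fin 2 → Fin 2 → Op K := fun a b => r (a, b) 1

theorem ent1_of1 (u : Fin 2 → Fin 2 → Op K) : ent1 (of1 u) = u := rfl

theorem LT1_row {c e : ℤ} {r : Fin 2 × Fin 2 → Fin 7 → Op K} (hg : Gen g)
    (h : LT g 0 (Fin 2 × Fin 2) 1 c e r) : Row (rX K) (FF g) e (c - 1) (c - 1) (ent1 r) :=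
  ⟨fun k i => (h (k, i)).1.2.1, fun k => add_mem
    ((BiI322.fil hg).Xm 0 _ _ _ (h (k, 0)).1.2.1) ((BiI322.fil hg).Xm 1 _ _ _ (h (k, 1)).1.2.1)⟩

theorem LT1_eq {c e : ℤ} {r : Fin 2 × Fin 2 → Fin 7 → Op K} (h : LT g 0 (Fin 2 × Fin 2) 1 c e r) :
    of1 (ent1 r) = r := by
  funext k j
  have h' := (h k).2 j
  fin_cases j
  exacts [(h' (by decide)).symm, rfl, (h' (by decide)).symm, (h' (by decide)).symm,
    (h' (by decide)).symm, (h' (by decide)).symm, (h' (by decide)).symm]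

theorem LT1_of {c e : ℤ} {u : Fin 2 → Fin 2 → Op K} (h : ∀ a b, u a b ∈ FF g e (c - 1)) :
    LT g 0 (Fin 2 × Fin 2) 1 c e (of1 u) := fun p => by
  refine ⟨⟨zero_mem _, h p.1 p.2, zero_mem _, ⟨zero_mem _, zero_mem _, ?_⟩, zero_mem _, zero_mem _, ?_⟩,
    fun j hj => ?_⟩
  · show (0 : Op K) * X 0 + 0 * X 1 ∈ _
    rw [zero_mul, zero_mul, add_zero]; exact zero_mem _
  · show (0 : Op K) * X 0 + 0 * X 1 ∈ _
    rw [zero_mul, zero_mul, add_zero]; exact zero_mem _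
  · fin_cases j
    exacts [rfl, absurd rfl hj, rfl, rfl, rfl, rfl, rfl]

theorem LT3_eq0 {c e : ℤ} {r : Fin 2 → Fin 7 → Op K} (h : LT g 0 (Fin 2) 3 c e r) :
    of3 (ent p3 r) = r := by
  funext k j
  have h' := (h k).2 j
  fin_cases j
  exacts [(h' (by decide)).symm, (h' (by decide)).symm, (h' (by decide)).symm, rfl, rfl,
    (h' (by decide)).symm, (h' (by decide)).symm]

theorem LT2_of0 {c e : ℤ} {w : Op K} (h : w ∈ FF g e (c - 2)) : LT g 0 Unit 2 c e (of2 w) := fun k => by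
  refine ⟨⟨zero_mem _, zero_mem _, h, ⟨zero_mem _, zero_mem _, ?_⟩, zero_mem _, zero_mem _, ?_⟩,
    fun j hj => ?_⟩
  · show (0 : Op K) * X 0 + 0 * X 1 ∈ _
    rw [zero_mul, zero_mul, add_zero]; exact zero_mem _
  · show (0 : Op K) * X 0 + 0 * X 1 ∈ _
    rw [zero_mul, zero_mul, add_zero]; exact zero_mem _
  · fin_cases j
    exacts [rfl, rfl, absurd rfl hj, rfl, rfl, rfl, rfl]

/-! ### the differentials on rows -/

noncomputable def g3 (g : K) (r : Unit → Fin 7 → Op K) : Fin 2 × Fin 2 → Fin 7 → Op K :=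
  of1 (d3 (rX K) (rD g) (r () 2))

noncomputable def g2 (g : K) (r : Fin 2 × Fin 2 → Fin 7 → Op K) : Fin 2 → Fin 7 → Op K :=
  of3 (d2 g (rX K) (rD g) (ent1 r))

def B1 (g : K) (z : Fin 2 → Fin 7 → Op K) : Prop := d1 (rX K) (rD g) (ent p3 z) = 0
def B2 (g : K) (z : Fin 2 × Fin 2 → Fin 7 → Op K) : Prop := d2 g (rX K) (rD g) (ent1 z) = 0

theorem onto2 (hg : Gen g) {e : ℤ} (he : 0 ≤ e) (he1 : e ≤ 1) : OntoO g 0 1 3 (g2 g) (B1 g) e := by
  intro c _ z hz hC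
  obtain ⟨v, hv, hvz⟩ := ex1 (BiI322.fil hg) hg.1 he he1 le_rfl (LT3_row0 hz) hC
  refine ⟨of1 v, LT1_of hv.1, ?_⟩
  rw [g2, ent1_of1, hvz, LT3_eq0 hz]

theorem onto3 (hg : Gen g) {e : ℤ} : OntoO g 0 2 1 (g3 g) (B2 g) e := by
  intro c _ z hz hC
  obtain ⟨w, hw, hwz⟩ := ex2 (BiI322.fil hg) hg.1 (LT1_row hg hz) hC
  refine ⟨of2 w, LT2_of0 hw, ?_⟩
  show of1 (d3 (rX K) (rD g) w) = z
  rw [hwz, LT1_eq hz]

theorem z0 : (0 : Op K) = X 1 * 0 - X 0 * 0 := by rw [mul_zero, mul_zero, sub_zero]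

theorem ontoK2 (hg : Gen g) {e : ℤ} (he : 0 ≤ e) (he1 : e ≤ 1) : OntoK g 0 1 3 (g2 g) (B1 g) e := by
  intro a b hab z z' hz hz' hzz hC hC'
  have h1 : ∀ i, Row (rX K) (FF g) e a (a - 1) ((![ent p3 z, ent p3 z'] : Fin 2 → Fin 2 → Fin 2 → Op K) i) := by
    intro i; fin_cases i
    · exact LT3_row0 hz
    · exact LT3_row0 hz'
  have h0 : ∀ i, d1 (rX K) (rD g) ((![ent p3 z, ent p3 z'] : Fin 2 → Fin 2 → Fin 2 → Op K) i) = 0 := by
    intro i; fin_cases i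
    · exact hC
    · exact hC'
  obtain ⟨v, hv, hv', hvz⟩ := vert1 (BiI322.bi hg) hg.1 he he1 (by omega : b ≤ a) le_rfl le_rfl
    (by omega : b - 1 ≤ a - 1) h1 (LT3_row0 hzz) h0
  refine ⟨of1 (v 0), of1 (v 1), LT1_of (hv 0).1, LT1_of (hv 1).1, ?_, ?_, ?_⟩
  · have h2 := LT1_of (c := b) (e := e + 1) hv'.1
    have h3 : of1 (Lw (lX K) v) = xx (of1 (v 0)) (of1 (v 1)) := by
      funext k j
      fin_cases j
      exacts [z0, rfl, z0, z0, z0, z0, z0]
    rw [← h3]; exact h2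
  · rw [g2, ent1_of1, hvz 0]; exact LT3_eq0 hz
  · rw [g2, ent1_of1, hvz 1]; exact LT3_eq0 hz'

theorem ontoK3 (hg : Gen g) {e : ℤ} : OntoK g 0 2 1 (g3 g) (B2 g) e := by
  intro a b hab z z' hz hz' hzz hC hC'
  have h1 : ∀ i, Row (rX K) (FF g) e (a - 1) (a - 1)
      ((![ent1 z, ent1 z'] : Fin 2 → Fin 2 → Fin 2 → Op K) i) := by
    intro i; fin_cases i
    · exact LT1_row hg hz
    · exact LT1_row hg hz'
  have h0 : ∀ i, d2 g (rX K) (rD g) ((![ent1 z, ent1 z'] : Fin 2 → Fin 2 → Fin 2 → Op K) i) = 0 := by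
    intro i; fin_cases i
    · exact hC
    · exact hC'
  obtain ⟨v, hv, hv', hvz⟩ := vert2 (BiI322.bi hg) hg.1 h1 (LT1_row hg hzz) h0
  refine ⟨of2 (v 0), of2 (v 1), LT2_of0 (hv 0), LT2_of0 (hv 1), ?_, ?_, ?_⟩
  · have h2 := LT2_of0 (c := b) (e := e + 1) hv'
    have h3 : of2 (Lv (lX K) v) = xx (of2 (v 0)) (of2 (v 1)) := by
      funext k j
      fin_cases j
      exacts [z0, z0, rfl, z0, z0, z0, z0]
    rw [← h3]; exact h2
  · show of1 (d3 (rX K) (rD g) (v 0)) = z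
    rw [hvz 0]; exact LT1_eq hz
  · show of1 (d3 (rX K) (rD g) (v 1)) = z'
    rw [hvz 1]; exact LT1_eq hz'

/-! ### row formulas -/

/-- `ι`-tuples of elements of `Pv` are determined by their rows -/
theorem pv_ext0 {ι : Type} {v : Fin 5} {x y : ι → Pv g 0 v}
    (h : ∀ i, (fun l => (x l : A g 0).1.fst i) = fun l => (y l : A g 0).1.fst i)
    (h' : ∀ i, (fun l => (x l : A g 0).1.snd i) = fun l => (y l : A g 0).1.snd i) : x = y := by
  funext l
  refine Subtype.ext (A_ext (fun i j => ?_) (fun i j => ?_))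
  · exact congrFun (congrFun (h i) l) j
  · exact congrFun (congrFun (h' i) l) j

/-- a row of an element of `Pv g 0 3` -/
theorem row3 {r : Fin 7 → Op K} (h : ∀ j, blk j ≠ 3 → r j = 0) :
    r = ![0, 0, 0, r 3, r 4, 0, 0] := by
  funext j
  fin_cases j
  exacts [h 0 (by decide), h 1 (by decide), h 2 (by decide), rfl, rfl, h 5 (by decide),
    h 6 (by decide)]

theorem row1 {r : Fin 7 → Op K} (h : ∀ j, blk j ≠ 1 → r j = 0) :
    r = ![0, r 1, 0, 0, 0, 0, 0] := by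
  funext j
  fin_cases j
  exacts [h 0 (by decide), rfl, h 2 (by decide), h 3 (by decide), h 4 (by decide), h 5 (by decide),
    h 6 (by decide)]

theorem m2_mul (M : Mat K) (a b k : Fin 2) (l : Fin 7) :
    (M * (Matrix.single 1 3 (W0.c2 g a b k 0) + Matrix.single 1 4 (W0.c2 g a b k 1)) : Mat K) l 3 =
      M l 1 * W0.c2 g a b k 0 ∧
    (M * (Matrix.single 1 3 (W0.c2 g a b k 0) + Matrix.single 1 4 (W0.c2 g a b k 1)) : Mat K) l 4 =
      M l 1 * W0.c2 g a b k 1 := by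
  have h : ∀ (i j m : Fin 7) (T : Op K), j ≠ m → (M * Matrix.single i j T : Mat K) l m = 0 := by
    intro i j m T h
    rw [Matrix.mul_apply]
    refine Finset.sum_eq_zero fun b _ => ?_
    rw [Matrix.single_apply_of_col_ne _ _ h, mul_zero]
  have h' : ∀ (i j : Fin 7) (T : Op K), (M * Matrix.single i j T : Mat K) l j = M l i * T := by
    intro i j T
    rw [Matrix.mul_apply, Finset.sum_eq_single i]
    · rw [Matrix.single_apply_same]
    · intro b _ hb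
      rw [Matrix.single_apply_of_row_ne (Ne.symm hb), mul_zero]
    · intro h
      exact absurd (Finset.mem_univ i) h
  constructor
  · rw [Matrix.mul_add, Matrix.add_apply, h', h 1 4 3 _ (by decide), add_zero]
  · rw [Matrix.mul_add, Matrix.add_apply, h', h 1 3 4 _ (by decide), zero_add]

theorem m3_mul (M : Mat K) (T : Op K) (l : Fin 7) :
    (M * Matrix.single 2 1 T : Mat K) l 1 = M l 2 * T := by
  rw [Matrix.mul_apply, Finset.sum_eq_single 2]
  · rw [Matrix.single_apply_same]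
  · intro b _ hb
    rw [Matrix.single_apply_of_row_ne (Ne.symm hb), mul_zero]
  · intro h
    exact absurd (Finset.mem_univ _) h

set_option maxHeartbeats 400000 in
/-- the formula of `d2` -/
theorem d2_formula (u : Fin 2 → Fin 2 → Op K) (k i : Fin 2) :
    (u 0 0 * W0.c2 g 0 0 k i + u 0 1 * W0.c2 g 0 1 k i) +
      (u 1 0 * W0.c2 g 1 0 k i + u 1 1 * W0.c2 g 1 1 k i) = d2 g (rX K) (rD g) u k i := by
  fin_cases k <;> fin_cases i
  · show (u 0 0 * 1 + u 0 1 * (D g 0 * X 1)) + (u 1 0 * 0 + u 1 1 * (g • (D g 1 * X 1))) =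
      u 0 0 + (u 0 1 * D g 0) * X 1 + g • ((u 1 1 * D g 1) * X 1)
    rw [mul_one, mul_zero, zero_add, mul_smul_comm, mul_assoc, mul_assoc]
  · show (u 0 0 * 0 + u 0 1 * (1 - D g 0 * X 0)) + (u 1 0 * 0 + u 1 1 * -(g • (D g 1 * X 0))) =
      u 0 1 + -((u 0 1 * D g 0) * X 0) + g • -((u 1 1 * D g 1) * X 0)
    rw [mul_zero, mul_zero, zero_add, zero_add, mul_sub, mul_one, mul_neg, mul_smul_comm,
      mul_assoc, mul_assoc, smul_neg, sub_eq_add_neg]
  · show (u 0 0 * -(g • (D g 0 * X 1)) + u 0 1 * 0) + (u 1 0 * (1 - D g 1 * X 1) + u 1 1 * 0) =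
      u 1 0 - g • ((u 0 0 * D g 0) * X 1) - (u 1 0 * D g 1) * X 1
    rw [mul_zero, mul_zero, add_zero, add_zero, mul_sub, mul_one, mul_neg, mul_smul_comm,
      mul_assoc, mul_assoc]
    abel
  · show (u 0 0 * (g • (D g 0 * X 0)) + u 0 1 * 0) + (u 1 0 * (D g 1 * X 0) + u 1 1 * 1) =
      u 1 1 - g • -((u 0 0 * D g 0) * X 0) - -((u 1 0 * D g 1) * X 0)
    rw [mul_zero, add_zero, mul_one, mul_smul_comm, mul_assoc, mul_assoc, smul_neg, sub_neg_eq_add,
      sub_neg_eq_add]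
    abel

set_option maxHeartbeats 400000 in
/-- the formula of `d3` -/
theorem d3_formula (w : Op K) (k i : Fin 2) : w * W0.c3 g k i = d3 (rX K) (rD g) w k i := by
  have e0 : d3 (rX K) (rD g) w 0 = - syz (rX K) (w * D g 1) := rfl
  have e1 : d3 (rX K) (rD g) w 1 = syz (rX K) (w * D g 0) := rfl
  have a0 : W0.c3 g 0 0 = -(D g 1 * X 1) := rfl
  have a1 : W0.c3 g 0 1 = D g 1 * X 0 := rfl
  have a2 : W0.c3 g 1 0 = D g 0 * X 1 := rfl
  have a3 : W0.c3 g 1 1 = -(D g 0 * X 0) := rfl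
  have s0 : ∀ y : Op K, syz (rX K) y 0 = y * X 1 := fun _ => rfl
  have s1 : ∀ y : Op K, syz (rX K) y 1 = -(y * X 0) := fun _ => rfl
  have hk : k = 0 ∨ k = 1 := by fin_cases k <;> simp
  have hi : i = 0 ∨ i = 1 := by fin_cases i <;> simp
  rcases hk with rfl | rfl <;> rcases hi with rfl | rfl
  · rw [e0, a0, Pi.neg_apply, s0, mul_neg, mul_assoc]
  · rw [e0, a1, Pi.neg_apply, s1, neg_neg, mul_assoc]
  · rw [e1, a2, s0, mul_assoc]
  · rw [e1, a3, s1, mul_neg, mul_assoc]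

theorem d2_sum (hg : Gen g) (u : Fin 2 → Fin 2 → Pv g 0 1) (k : Fin 2) :
    (W0.d2 hg u k : A g 0) = ((u 0 0 : A g 0) * W0.m2 hg 0 0 k + (u 0 1 : A g 0) * W0.m2 hg 0 1 k) +
      ((u 1 0 : A g 0) * W0.m2 hg 1 0 k + (u 1 1 : A g 0) * W0.m2 hg 1 1 k) := by
  rw [W0.d2_coe, Fin.sum_univ_two, Fin.sum_univ_two, Fin.sum_univ_two]

theorem m2_fst (hg : Gen g) (x : A g 0) (a b k : Fin 2) (l : Fin 7) :
    (x * W0.m2 hg a b k).1.fst l 3 = x.1.fst l 1 * W0.c2 g a b k 0 ∧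
    (x * W0.m2 hg a b k).1.fst l 4 = x.1.fst l 1 * W0.c2 g a b k 1 := m2_mul x.1.fst a b k l

theorem m2_snd (hg : Gen g) (x : A g 0) (a b k : Fin 2) (l : Fin 7) :
    (x * W0.m2 hg a b k).1.snd l 3 = x.1.snd l 1 * W0.c2 g a b k 0 ∧
    (x * W0.m2 hg a b k).1.snd l 4 = x.1.snd l 1 * W0.c2 g a b k 1 := by
  have h : (x * W0.m2 hg a b k).1.snd = x.1.snd *
      (Matrix.single 1 3 (W0.c2 g a b k 0) + Matrix.single 1 4 (W0.c2 g a b k 1)) := by
    rw [snd_mulA]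
    show x.1.fst * 0 + x.1.snd * _ = _
    rw [Matrix.mul_zero, zero_add]
    rfl
  rw [h]
  exact m2_mul x.1.snd a b k l

theorem d2_fst (hg : Gen g) (u : Fin 2 → Fin 2 → Pv g 0 1) (i : Fin 7) :
    (fun l => (W0.d2 hg u l : A g 0).1.fst i) = g2 g (fun p => (u p.1 p.2 : A g 0).1.fst i) := by
  funext k
  refine (row3 (fun j hj => (mem_Pv.1 (W0.d2 hg u k).2 i j hj).1)).trans ?_
  have e3 : (W0.d2 hg u k : A g 0).1.fst i 3 =
      d2 g (rX K) (rD g) (ent1 fun p => (u p.1 p.2 : A g 0).1.fst i) k 0 := by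
    rw [← d2_formula, d2_sum hg]
    exact congrArg₂ (· + ·) (congrArg₂ (· + ·) (m2_fst hg _ 0 0 k i).1 (m2_fst hg _ 0 1 k i).1)
      (congrArg₂ (· + ·) (m2_fst hg _ 1 0 k i).1 (m2_fst hg _ 1 1 k i).1)
  have e4 : (W0.d2 hg u k : A g 0).1.fst i 4 =
      d2 g (rX K) (rD g) (ent1 fun p => (u p.1 p.2 : A g 0).1.fst i) k 1 := by
    rw [← d2_formula, d2_sum hg]
    exact congrArg₂ (· + ·) (congrArg₂ (· + ·) (m2_fst hg _ 0 0 k i).2 (m2_fst hg _ 0 1 k i).2)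
      (congrArg₂ (· + ·) (m2_fst hg _ 1 0 k i).2 (m2_fst hg _ 1 1 k i).2)
  rw [e3, e4]
  rfl

theorem d2_snd (hg : Gen g) (u : Fin 2 → Fin 2 → Pv g 0 1) (i : Fin 7) :
    (fun l => (W0.d2 hg u l : A g 0).1.snd i) = g2 g (fun p => (u p.1 p.2 : A g 0).1.snd i) := by
  funext k
  refine (row3 (fun j hj => (mem_Pv.1 (W0.d2 hg u k).2 i j hj).2)).trans ?_
  have e3 : (W0.d2 hg u k : A g 0).1.snd i 3 =
      d2 g (rX K) (rD g) (ent1 fun p => (u p.1 p.2 : A g 0).1.snd i) k 0 := by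
    rw [← d2_formula, d2_sum hg]
    exact congrArg₂ (· + ·) (congrArg₂ (· + ·) (m2_snd hg _ 0 0 k i).1 (m2_snd hg _ 0 1 k i).1)
      (congrArg₂ (· + ·) (m2_snd hg _ 1 0 k i).1 (m2_snd hg _ 1 1 k i).1)
  have e4 : (W0.d2 hg u k : A g 0).1.snd i 4 =
      d2 g (rX K) (rD g) (ent1 fun p => (u p.1 p.2 : A g 0).1.snd i) k 1 := by
    rw [← d2_formula, d2_sum hg]
    exact congrArg₂ (· + ·) (congrArg₂ (· + ·) (m2_snd hg _ 0 0 k i).2 (m2_snd hg _ 0 1 k i).2)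
      (congrArg₂ (· + ·) (m2_snd hg _ 1 0 k i).2 (m2_snd hg _ 1 1 k i).2)
  rw [e3, e4]
  rfl

theorem d3_fst (hg : Gen g) (w : Pv g 0 2) (i : Fin 7) :
    (fun p : Fin 2 × Fin 2 => (W0.d3 hg w p.1 p.2 : A g 0).1.fst i) =
      g3 g (fun _ => (w : A g 0).1.fst i) := by
  funext p
  refine (row1 (fun j hj => (mem_Pv.1 (W0.d3 hg w p.1 p.2).2 i j hj).1)).trans ?_
  have e : (W0.d3 hg w p.1 p.2 : A g 0).1.fst i 1 = d3 (rX K) (rD g) ((w : A g 0).1.fst i 2) p.1 p.2 := by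
    rw [← d3_formula]
    exact m3_mul (w : A g 0).1.fst _ i
  rw [e]
  rfl

theorem d3_snd (hg : Gen g) (w : Pv g 0 2) (i : Fin 7) :
    (fun p : Fin 2 × Fin 2 => (W0.d3 hg w p.1 p.2 : A g 0).1.snd i) =
      g3 g (fun _ => (w : A g 0).1.snd i) := by
  funext p
  refine (row1 (fun j hj => (mem_Pv.1 (W0.d3 hg w p.1 p.2).2 i j hj).2)).trans ?_
  have e : (W0.d3 hg w p.1 p.2 : A g 0).1.snd i 1 = d3 (rX K) (rD g) ((w : A g 0).1.snd i 2) p.1 p.2 := by
    rw [← d3_formula, W0.d3_coe]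
    have h : ((w : A g 0) * W0.m3 hg p.1 p.2).1.snd = (w : A g 0).1.snd *
        Matrix.single 2 1 (W0.c3 g p.1 p.2) := by
      rw [snd_mulA]
      show (w : A g 0).1.fst * 0 + (w : A g 0).1.snd * _ = _
      rw [Matrix.mul_zero, zero_add]
      rfl
    rw [h]
    exact m3_mul (w : A g 0).1.snd _ i
  rw [e]
  rfl

/-! ### exactness -/

/-- exactness at `Fin 2 → Pv g 0 3` -/
theorem e21 (hg : Gen g) : Function.Exact (W0.d2 hg) (W0.d1 hg) := by
  intro x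
  constructor
  · intro hx
    have hc : ∀ i, B1 g (fun l => (x l : A g 0).1.fst i) := fun i => by
      have := W0eps881.d1_fst hg x i
      rw [hx] at this
      exact this.symm
    have hc' : ∀ i, B1 g (fun l => (x l : A g 0).1.snd i) := fun i => by
      have := W0eps881.d1_snd hg x i
      rw [hx] at this
      exact this.symm
    obtain ⟨Y, hY, e, e'⟩ := lift_exact (kgen hg) (fmul hg) (g2 g) (B1 g) (B1 g)
      (onto2 hg le_rfl zero_le_one) (ontoK2 hg le_rfl zero_le_one) (onto2 hg zero_le_one le_rfl)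
      (ontoK2 hg zero_le_one le_rfl) (fun l => (x l : A g 0)) (fun l => supA0 (x l)) hc hc'
    refine ⟨fun a b => ⟨Y (a, b), mem_Pv.2 (hY (a, b))⟩, pv_ext0 (fun i => ?_) (fun i => ?_)⟩
    · rw [d2_fst]; exact e i
    · rw [d2_snd]; exact e' i
  · rintro ⟨y, rfl⟩
    refine Subtype.ext (A_ext (fun i j => ?_) (fun i j => ?_))
    · by_cases hj : j = 0
      · subst hj
        rw [W0eps881.d1_fst, d2_fst]
        show d1 (rX K) (rD g) (ent p3 (of3 _)) = 0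
        rw [ent3_of3, d1_d2 (BiI322.fil hg)]
      · exact (mem_Pv.1 (W0.d1 hg _).2 i j (by fin_cases j <;> first | exact absurd rfl hj | decide)).1
    · by_cases hj : j = 0
      · subst hj
        rw [W0eps881.d1_snd, d2_snd]
        show d1 (rX K) (rD g) (ent p3 (of3 _)) = 0
        rw [ent3_of3, d1_d2 (BiI322.fil hg)]
      · exact (mem_Pv.1 (W0.d1 hg _).2 i j (by fin_cases j <;> first | exact absurd rfl hj | decide)).2

theorem of3_zero : of3 (0 : Fin 2 → Fin 2 → Op K) = fun _ _ => 0 := by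
  funext k j; fin_cases j <;> rfl

theorem g2_g3 (hg : Gen g) (r : Unit → Fin 7 → Op K) : g2 g (g3 g r) = fun _ _ => 0 := by
  rw [g2, g3, ent1_of1, d2_d3 (BiI322.fil hg), of3_zero]

/-- exactness at `Fin 2 → Fin 2 → Pv g 0 1` -/
theorem e32 (hg : Gen g) : Function.Exact (W0.d3 hg) (W0.d2 hg) := by
  intro x
  constructor
  · intro hx
    have hc : ∀ i, B2 g (fun p : Fin 2 × Fin 2 => (x p.1 p.2 : A g 0).1.fst i) := fun i => by
      have e1 := d2_fst hg x i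
      rw [hx] at e1
      have e2 := congrArg (ent p3) e1
      rw [g2, ent3_of3] at e2
      exact e2.symm.trans rfl
    have hc' : ∀ i, B2 g (fun p : Fin 2 × Fin 2 => (x p.1 p.2 : A g 0).1.snd i) := fun i => by
      have e1 := d2_snd hg x i
      rw [hx] at e1
      have e2 := congrArg (ent p3) e1
      rw [g2, ent3_of3] at e2
      exact e2.symm.trans rfl
    obtain ⟨Y, hY, e, e'⟩ := lift_exact (kgen hg) (fmul hg) (g3 g) (B2 g) (B2 g)
      (onto3 hg) (ontoK3 hg) (onto3 hg) (ontoK3 hg) (fun p : Fin 2 × Fin 2 => (x p.1 p.2 : A g 0))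
      (fun p => supA0 (x p.1 p.2)) hc hc'
    refine ⟨⟨Y (), mem_Pv.2 (hY ())⟩, ?_⟩
    funext a b
    refine Subtype.ext (A_ext (fun i j => ?_) (fun i j => ?_))
    · have := (d3_fst hg (⟨Y (), mem_Pv.2 (hY ())⟩ : Pv g 0 2) i).trans (e i)
      exact congrFun (congrFun this (a, b)) j
    · have := (d3_snd hg (⟨Y (), mem_Pv.2 (hY ())⟩ : Pv g 0 2) i).trans (e' i)
      exact congrFun (congrFun this (a, b)) j
  · rintro ⟨y, rfl⟩
    refine pv_ext0 (fun i => ?_) (fun i => ?_)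
    · rw [d2_fst, d3_fst]; exact g2_g3 hg _
    · rw [d2_snd, d3_snd]; exact g2_g3 hg _

/-- injectivity of `d3` -/
theorem h3 (hg : Gen g) : Function.Injective (W0.d3 hg) := by
  refine LinearMap.ker_eq_bot.1 (LinearMap.ker_eq_bot'.2 fun x hx => ?_)
  refine Subtype.ext (A_ext (fun i j => ?_) (fun i j => ?_))
  · by_cases hj : j = 2
    · subst hj
      have e1 := d3_fst hg x i
      rw [hx] at e1
      have e2 := congrArg ent1 e1
      rw [g3, ent1_of1] at e2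
      obtain ⟨k, hk⟩ := rows_mem (kgen hg) (fmul hg) (x : A g 0).2.1 i
      exact ex3 (P := 0) (A := k - 2) (BiI322.fil hg) (BiI322.bi hg).Dinj hk.2.2.1 (e2.symm.trans rfl)
    · exact (mem_Pv.1 x.2 i j (by fin_cases j <;> first | exact absurd rfl hj | decide)).1
  · by_cases hj : j = 2
    · subst hj
      have e1 := d3_snd hg x i
      rw [hx] at e1
      have e2 := congrArg ent1 e1
      rw [g3, ent1_of1] at e2
      obtain ⟨k, hk⟩ := rows_mem (kgen hg) (fmul hg) (x : A g 0).2.2 i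
      exact ex3 (P := 1) (A := k - 2) (BiI322.fil hg) (BiI322.bi hg).Dinj hk.2.2.1 (e2.symm.trans rfl)
    · exact (mem_Pv.1 x.2 i j (by fin_cases j <;> first | exact absurd rfl hj | decide)).2

end Crest.Agent.R186.B281.W0ex881
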