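import Mathlib
import Crest.Agent.R186.WRes_322

/-!
Row 186, S0281 base (helper952): the resolution of `W` over `A g 1`, lattice level and the
vertex chase, over an abstract ring `R` with elements `x_i`, `d_i` and pieces `F k P`
(level `k`, degree `P`).
-/

set_option autoImplicit false

namespace Crest.Agent.R186.W1

open Crest.Agent.R186.WRes322 (cc syz kap ef Row d1 d2 d3)

/-- the vertex chase: `C*a` = level `a`, degree `e`; `C*e` = level `a`, degree `e+1`;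
`C*b` = level `b`, degree `e+1` -/
theorem chase {R N3 N2 N1 N0 : Type*} [Mul R] [AddCommGroup N3] [AddCommGroup N2] [AddCommGroup N1]
    [AddCommGroup N0] (x : Fin 2 → R) (mu3 : R → N3 → N3) (mu2 : R → N2 → N2) (mu1 : R → N1 → N1)
    (h2s : ∀ T x y, mu2 T (x - y) = mu2 T x - mu2 T y)
    (kk : N3 →+ N2) (f : N2 →+ N1) (h : N1 →+ N0)
    (hk : ∀ T x, kk (mu3 T x) = mu2 T (kk x)) (hf : ∀ T x, f (mu2 T x) = mu1 T (f x))
    (hfk : ∀ x, f (kk x) = 0)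
    (C3a C3b C3e : AddSubgroup N3) (C2a C2b C2e : AddSubgroup N2) (C1a C1b : AddSubgroup N1)
    (m2 : ∀ (i : Fin 2) y, y ∈ C2a → mu2 (x i) y ∈ C2e)
    (b2 : ∀ y, y ∈ C2b → y ∈ C2e)
    (k3 : ∀ y, y ∈ C3a → kk y ∈ C2a) (k3b : ∀ y, y ∈ C3b → kk y ∈ C2b)
    (H1 : ∀ z ∈ C1a, h z = 0 → ∃ y ∈ C2a, f y = z)
    (H2 : ∀ z ∈ C1b, (∃ y ∈ C2e, f y = z) → ∃ y ∈ C2b, f y = z)
    (H3 : ∀ y ∈ C2e, f y = 0 → ∃ t ∈ C3e, y - kk t ∈ C2b)
    (H4 : ∀ t ∈ C3e, ∃ t0 ∈ C3a, ∃ t1 ∈ C3a, ∃ t2 ∈ C3b,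
      t = mu3 (x 1) t0 - mu3 (x 0) t1 + t2)
    {z0 z1 : N1} (hz0 : z0 ∈ C1a) (hz1 : z1 ∈ C1a) (hz : mu1 (x 1) z0 - mu1 (x 0) z1 ∈ C1b)
    (h0 : h z0 = 0) (h1 : h z1 = 0) :
    ∃ y0 ∈ C2a, ∃ y1 ∈ C2a, mu2 (x 1) y0 - mu2 (x 0) y1 ∈ C2b ∧ f y0 = z0 ∧ f y1 = z1 := by
  obtain ⟨y0, hy0, e0⟩ := H1 z0 hz0 h0
  obtain ⟨y1, hy1, e1⟩ := H1 z1 hz1 h1
  have hye : mu2 (x 1) y0 - mu2 (x 0) y1 ∈ C2e := sub_mem (m2 1 _ hy0) (m2 0 _ hy1)
  have hfe : f (mu2 (x 1) y0 - mu2 (x 0) y1) = mu1 (x 1) z0 - mu1 (x 0) z1 := by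
    rw [map_sub, hf, hf, e0, e1]
  obtain ⟨q, hq, eq⟩ := H2 _ hz ⟨_, hye, hfe⟩
  obtain ⟨t, ht, htb⟩ := H3 (mu2 (x 1) y0 - mu2 (x 0) y1 - q) (sub_mem hye (b2 _ hq))
    (by rw [map_sub, hfe, eq, sub_self])
  obtain ⟨t0, ht0, t1, ht1, t2, ht2, et⟩ := H4 t ht
  refine ⟨y0 - kk t0, sub_mem hy0 (k3 _ ht0), y1 - kk t1, sub_mem hy1 (k3 _ ht1), ?_, ?_, ?_⟩
  · have e : mu2 (x 1) (y0 - kk t0) - mu2 (x 0) (y1 - kk t1) =
        (mu2 (x 1) y0 - mu2 (x 0) y1 - q - kk t) + q + kk t2 := by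
      rw [h2s, h2s, et, map_add, map_sub, hk, hk]
      abel
    rw [e]
    exact add_mem (add_mem htb hq) (k3b _ ht2)
  · rw [map_sub, hfk, sub_zero, e0]
  · rw [map_sub, hfk, sub_zero, e1]

/-! ### the abstract data -/

section

variable {K R : Type} [Field K] [Ring R] [Algebra K R]

/-- the PBW facts which are used -/
structure PB (g : K) (x d : Fin 2 → R) (F : ℤ → ℤ → Submodule K R) (res : R →ₗ[K] K) : Prop where
  g0 : g ≠ 0
  xx : x 1 * x 0 = x 0 * x 1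
  dd : d 1 * d 0 = d 0 * d 1
  xd0 : x 0 * d 0 = 1 + g • (d 0 * x 0)
  xd1 : x 1 * d 1 = 1 + g • (d 1 * x 1)
  xd01 : x 0 * d 1 = d 1 * x 0
  xd10 : x 1 * d 0 = d 0 * x 1
  neg : ∀ {k P : ℤ}, k < 0 → F k P = ⊥
  mono : ∀ {k l P : ℤ}, k ≤ l → F k P ≤ F l P
  mul : ∀ {k l P Q : ℤ} {a b : R}, a ∈ F k P → b ∈ F l Q → a * b ∈ F (k + l) (P + Q)
  one_mem : (1 : R) ∈ F 0 0
  xm : ∀ i, x i ∈ F 0 1
  dm : ∀ i, d i ∈ F 1 (-1)
  xinj : ∀ i (m : R), m * x i = 0 → m = 0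
  rx1 : ∀ {k P : ℤ} {m : R}, 1 ≤ P → m ∈ F k P →
    ∃ p ∈ F k (P - 1), ∃ q ∈ F k (P - 1), m = p * x 0 + q * x 1
  rx2 : ∀ {k P : ℤ} {u v : R}, u ∈ F k P → v ∈ F k P → u * x 0 + v * x 1 = 0 →
    ∃ e ∈ F k (P - 1), u = e * x 1 ∧ v = - (e * x 0)
  rd1 : ∀ {k P : ℤ} {m : R}, P ≤ -1 → m ∈ F k P →
    ∃ p ∈ F (k - 1) (P + 1), ∃ q ∈ F (k - 1) (P + 1), m = p * d 0 + q * d 1
  rd2 : ∀ {k P : ℤ} {u v : R}, u ∈ F k P → v ∈ F k P → u * d 0 + v * d 1 = 0 →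
    ∃ e ∈ F (k - 1) (P + 1), u = e * d 1 ∧ v = - (e * d 0)
  lx1 : ∀ {k P : ℤ} {m : R}, 1 ≤ P → m ∈ F k P →
    ∃ p ∈ F k (P - 1), ∃ q ∈ F k (P - 1), m = x 0 * p + x 1 * q
  rx0 : ∀ {k : ℤ} {m : R}, m ∈ F k 0 →
    ∃ t : K, ∃ p ∈ F k (-1), ∃ q ∈ F k (-1), m = t • 1 + (p * x 0 + q * x 1)
  lx0 : ∀ {k : ℤ} {m : R}, m ∈ F k 0 →
    ∃ t : K, ∃ p ∈ F k (-1), ∃ q ∈ F k (-1), m = t • 1 + (x 0 * p + x 1 * q)
  rd0 : ∀ {k : ℤ} {m : R}, m ∈ F k 0 →
    ∃ t : K, ∃ p ∈ F (k - 1) 1, ∃ q ∈ F (k - 1) 1, m = t • 1 + (p * d 0 + q * d 1)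
  one_ne : ∀ {t : K} {k P : ℤ} {p q : R}, p ∈ F k P → q ∈ F k P → t • 1 = p * d 0 + q * d 1 → t = 0
  gen : ∀ {j k P : ℤ} {a b : R}, 1 ≤ j → a ∈ F k P → b ∈ F k P →
    a * x 0 + b * x 1 ∈ F (k - j) (P + 1) →
    ∃ a2 ∈ F (k - j) P, ∃ b2 ∈ F (k - j) P, ∃ e ∈ F k (P - 1),
      a = a2 + e * x 1 ∧ b = b2 - e * x 0
  res1 : res 1 = 1
  resx : ∀ {k P : ℤ} (i : Fin 2) {m : R}, m ∈ F k P → res (m * x i) = 0

variable {g : K} {x d : Fin 2 → R} {F : ℤ → ℤ → Submodule K R} {res : R →ₗ[K] K}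

/-- right multiplications -/
def rm (y : Fin 2 → R) (i : Fin 2) : R →ₗ[K] R := LinearMap.mulRight K (y i)

theorem rm_apply (y : Fin 2 → R) (i : Fin 2) (T : R) : rm (K := K) y i T = T * y i := rfl

theorem PB.fil (h : PB g x d F res) :
    WRes322.Fil g (rm (K := K) x) (rm (K := K) d) (fun P k => F k P) where
  xx m := by simp only [rm_apply, mul_assoc, h.xx]
  dd m := by simp only [rm_apply, mul_assoc, h.dd]
  dx0 m := by
    simp only [rm_apply, mul_assoc, h.xd0, mul_add, mul_one, mul_smul_comm]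
  dx1 m := by
    simp only [rm_apply, mul_assoc, h.xd1, mul_add, mul_one, mul_smul_comm]
  d0x1 m := by simp only [rm_apply, mul_assoc, h.xd10]
  d1x0 m := by simp only [rm_apply, mul_assoc, h.xd01]
  mono P A m hm := h.mono (by omega) hm
  Xm i P A m hm := by
    have := h.mul hm (h.xm i)
    rwa [add_zero] at this
  Dm i P A m hm := h.mul hm (h.dm i)
  inj i m hm := h.xinj i m hm
  X1 P A m hP hm := h.rx1 hP hm
  X2 P A u v hu hv huv := h.rx2 hu hv huv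
  D1 P A m hP hm := h.rd1 hP hm
  D2 P A u v hu hv huv := h.rd2 hu hv huv

/-- pairs of rows with two entries -/
abbrev Q (R : Type) : Type := Fin 2 → Fin 2 → R

/-- left multiplication on pairs of rows -/
def lm (T : R) (u : Q R) : Q R := fun k i => T * u k i

theorem lm_sub (T : R) (u v : Q R) : lm T (u - v) = lm T u - lm T v := by
  funext k i
  exact mul_sub _ _ _

theorem lm_add (T : R) (u v : Q R) : lm T (u + v) = lm T u + lm T v := by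
  funext k i
  exact mul_add _ _ _

variable (K) in
/-- `C1 → C0` -/
def D1 (x d : Fin 2 → R) : Q R →+ R :=
  AddMonoidHom.mk' (d1 (rm (K := K) x) (rm (K := K) d)) (by
    intro u v
    simp only [d1, cc, Pi.add_apply, map_add]
    abel)

/-- `C2 → C1` -/
def D2 (g : K) (x d : Fin 2 → R) : Q R →+ Q R :=
  AddMonoidHom.mk' (d2 g (rm (K := K) x) (rm (K := K) d)) (fun u v => WRes322.d2_add u v)

variable (K) in
/-- `C3 → C2` -/
def D3 (x d : Fin 2 → R) : R →+ Q R :=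
  AddMonoidHom.mk' (d3 (rm (K := K) x) (rm (K := K) d)) (by
    intro u v
    funext k i
    fin_cases k <;> fin_cases i <;> simp [d3, syz] <;> abel)

theorem D1_apply (u : Q R) : D1 K x d u =
    (u 0 0 * x 0 + u 0 1 * x 1) * d 0 - u 0 0 + ((u 1 0 * x 0 + u 1 1 * x 1) * d 1 - u 1 1) := rfl

theorem D2_apply (u : Q R) : D2 g x d u = d2 g (rm (K := K) x) (rm (K := K) d) u := rfl

theorem D2_00 (u : Q R) : D2 g x d u 0 0 =
    u 0 0 + u 0 1 * d 0 * x 1 + g • (u 1 1 * d 1 * x 1) := rfl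

theorem D2_01 (u : Q R) : D2 g x d u 0 1 =
    u 0 1 + -(u 0 1 * d 0 * x 0) + g • -(u 1 1 * d 1 * x 0) := rfl

theorem D2_10 (u : Q R) : D2 g x d u 1 0 =
    u 1 0 - g • (u 0 0 * d 0 * x 1) - u 1 0 * d 1 * x 1 := rfl

theorem D2_11 (u : Q R) : D2 g x d u 1 1 =
    u 1 1 - g • -(u 0 0 * d 0 * x 0) - -(u 1 0 * d 1 * x 0) := rfl

theorem D3_apply (w : R) : D3 K x d w = d3 (rm (K := K) x) (rm (K := K) d) w := rfl

theorem D3_00 (w : R) : D3 K x d w 0 0 = -(w * d 1 * x 1) := rfl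
theorem D3_01 (w : R) : D3 K x d w 0 1 = - -(w * d 1 * x 0) := rfl
theorem D3_10 (w : R) : D3 K x d w 1 0 = w * d 0 * x 1 := rfl
theorem D3_11 (w : R) : D3 K x d w 1 1 = -(w * d 0 * x 0) := rfl

theorem D1_lm (T : R) (u : Q R) : D1 K x d (lm T u) = T * D1 K x d u := by
  simp only [D1_apply, lm]
  noncomm_ring

theorem D2_lm (T : R) (u : Q R) : D2 g x d (lm T u) = lm T (D2 g x d u) := by
  funext k i
  fin_cases k <;> fin_cases i
  · show D2 g x d (lm T u) 0 0 = T * D2 g x d u 0 0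
    simp only [D2_00, lm, mul_add, mul_smul_comm, mul_assoc]
  · show D2 g x d (lm T u) 0 1 = T * D2 g x d u 0 1
    simp only [D2_01, lm, mul_add, mul_smul_comm, mul_assoc, mul_neg]
  · show D2 g x d (lm T u) 1 0 = T * D2 g x d u 1 0
    simp only [D2_10, lm, mul_sub, mul_smul_comm, mul_assoc]
  · show D2 g x d (lm T u) 1 1 = T * D2 g x d u 1 1
    simp only [D2_11, lm, mul_sub, mul_smul_comm, mul_assoc, mul_neg]

theorem D3_lm (T w : R) : D3 K x d (T * w) = lm T (D3 K x d w) := by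
  funext k i
  fin_cases k <;> fin_cases i
  · show D3 K x d (T * w) 0 0 = T * D3 K x d w 0 0
    simp only [D3_00, mul_assoc, mul_neg]
  · show D3 K x d (T * w) 0 1 = T * D3 K x d w 0 1
    simp only [D3_01, mul_assoc, mul_neg]
  · show D3 K x d (T * w) 1 0 = T * D3 K x d w 1 0
    simp only [D3_10, mul_assoc]
  · show D3 K x d (T * w) 1 1 = T * D3 K x d w 1 1
    simp only [D3_11, mul_assoc, mul_neg]

variable (F)

/-- `C0` at level `k`, degree `P` -/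
def L0 (k P : ℤ) : AddSubgroup R := (F k P).toAddSubgroup

/-- `C3` at level `k`, degree `P` -/
def L3 (k P : ℤ) : AddSubgroup R := (F (k - 2) P).toAddSubgroup

/-- pairs of rows with entries in `F k P` and `cc ∈ F l (P+1)` -/
def LR (x : Fin 2 → R) (k l P : ℤ) : AddSubgroup (Q R) where
  carrier := {u | (∀ k' i, u k' i ∈ F k P) ∧ ∀ k', u k' 0 * x 0 + u k' 1 * x 1 ∈ F l (P + 1)}
  zero_mem' := ⟨fun k i => zero_mem _, fun k => by simp⟩
  add_mem' := fun {u v} hu hv => ⟨fun k i => add_mem (hu.1 k i) (hv.1 k i), fun k => by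
    have : (u + v) k 0 * x 0 + (u + v) k 1 * x 1 =
        (u k 0 * x 0 + u k 1 * x 1) + (v k 0 * x 0 + v k 1 * x 1) := by
      simp only [Pi.add_apply, add_mul]; abel
    rw [this]; exact add_mem (hu.2 k) (hv.2 k)⟩
  neg_mem' := fun {u} hu => ⟨fun k i => neg_mem (hu.1 k i), fun k => by
    have : (-u) k 0 * x 0 + (-u) k 1 * x 1 = -(u k 0 * x 0 + u k 1 * x 1) := by
      simp only [Pi.neg_apply, neg_mul]; abel
    rw [this]; exact neg_mem (hu.2 k)⟩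

/-- `C1` at level `k`, degree `P` -/
abbrev L1 (x : Fin 2 → R) (k P : ℤ) : AddSubgroup (Q R) := LR F x k (k - 2) P

/-- `C2` at level `k`, degree `P` -/
abbrev L2 (x : Fin 2 → R) (k P : ℤ) : AddSubgroup (Q R) := LR F x (k - 1) (k - 2) P

variable {F}

theorem mem_L0 {k P : ℤ} {u : R} : u ∈ L0 F k P ↔ u ∈ F k P := Iff.rfl

theorem mem_L3 {k P : ℤ} {u : R} : u ∈ L3 F k P ↔ u ∈ F (k - 2) P := Iff.rfl

theorem mem_LR {k l P : ℤ} {u : Q R} : u ∈ LR F x k l P ↔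
    ((∀ k' i, u k' i ∈ F k P) ∧ ∀ k', u k' 0 * x 0 + u k' 1 * x 1 ∈ F l (P + 1)) := Iff.rfl

theorem row_iff {k l P : ℤ} {u : Q R} : u ∈ LR F x k l P ↔
    Row (rm (K := K) x) (fun P k => F k P) P k l u := Iff.rfl

section
variable (h : PB g x d F res)
include h

theorem D1_mem {k P : ℤ} {u : Q R} (hu : u ∈ L1 F x k P) : D1 K x d u ∈ L0 F k P :=
  WRes322.d1_mem h.fil (by omega) (row_iff.1 hu)

theorem D2_mem {k P : ℤ} {u : Q R} (hu : u ∈ L2 F x k P) : D2 g x d u ∈ L1 F x k P :=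
  WRes322.d2_mem h.fil (row_iff.1 hu)

theorem D3_mem {k P : ℤ} {w : R} (hw : w ∈ L3 F k P) : D3 K x d w ∈ L2 F x k P :=
  WRes322.d3_mem h.fil hw

theorem D1_D2 (u : Q R) : D1 K x d (D2 g x d u) = 0 := WRes322.d1_d2 h.fil u

theorem D2_D3 (w : R) : D2 g x d (D3 K x d w) = 0 := WRes322.d2_d3 h.fil w

theorem F_neg {k P : ℤ} (hk : k < 0) {m : R} (hm : m ∈ F k P) : m = 0 := by
  rw [h.neg hk] at hm
  exact (Submodule.mem_bot K).1 hm

/-- `y d_1 = 0 → y = 0` -/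
theorem D_inj : ∀ (n : ℕ) (k P : ℤ), k < n → ∀ y : R, y ∈ F k P → y * d 1 = 0 → y = 0 := by
  intro n
  induction n with
  | zero => exact fun k P hk y hy _ => F_neg h (by simpa using hk) hy
  | succ n ih =>
    intro k P hk y hy h0
    obtain ⟨e, he, e1, e2⟩ := h.rd2 (zero_mem (F k P)) hy (by rw [zero_mul, zero_add, h0])
    have := ih (k - 1) (P + 1) (by push_cast at hk; omega) e he e1.symm
    rw [e2, this, zero_mul, neg_zero]

theorem D3_inj {k P : ℤ} {w : R} (hw : w ∈ L3 F k P) (h0 : D3 K x d w = 0) : w = 0 := by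
  have h1 : -(w * d 1 * x 1) = 0 := by rw [← D3_00 (K := K), h0]; rfl
  exact D_inj h ((k - 2).toNat + 1) (k - 2) P (by omega) w hw (h.xinj 1 _ (neg_eq_zero.1 h1))

/-! ### exactness at one bidegree -/

theorem E1 {k P : ℤ} (hP : 0 ≤ P) (hP1 : P ≤ 1) {u : Q R} (hu : u ∈ L1 F x k P)
    (h0 : D1 K x d u = 0) : ∃ v ∈ L2 F x k P, D2 g x d v = u :=
  WRes322.ex1 h.fil h.g0 hP hP1 (by omega) (row_iff.1 hu) h0

theorem E2 {k P : ℤ} {u : Q R} (hu : u ∈ L2 F x k P) (h0 : D2 g x d u = 0) :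
    ∃ w ∈ L3 F k P, D3 K x d w = u :=
  WRes322.ex2 h.fil h.g0 (row_iff.1 hu) h0

theorem E0p {k P : ℤ} (hP : 1 ≤ P) {z : R} (hz : z ∈ L0 F k P) :
    ∃ u ∈ L1 F x k P, D1 K x d u = z :=
  WRes322.ex0_pos h.fil hP hz

theorem E00 {k : ℤ} {z : R} (hz : z ∈ L0 F k 0) (h0 : res z = 0) :
    ∃ u ∈ L1 F x k 0, D1 K x d u = z := by
  obtain ⟨t, p, hp, q, hq, e⟩ := h.rx0 hz
  have ht : t = 0 := by
    rw [e, map_add, map_add, map_smul, h.res1, h.resx 0 hp, h.resx 1 hq] at h0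
    simpa using h0
  rw [ht, zero_smul, zero_add] at e
  obtain ⟨u, hu, hu'⟩ := WRes322.ex0 (P := 0) (A := k) (B := k - 2) h.fil
    (p := p) (q := q) hp hq
  exact ⟨u, row_iff.2 hu, hu'.trans e.symm⟩

omit h in
theorem kap_add (a b : R) : kap (rm (K := K) x) (a + b) =
    kap (rm (K := K) x) a + kap (rm (K := K) x) b := by
  funext k i
  fin_cases i
  · show (a + b) * x k * x 1 = a * x k * x 1 + b * x k * x 1
    rw [add_mul, add_mul]
  · show -((a + b) * x k * x 0) = -(a * x k * x 0) + -(b * x k * x 0)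
    rw [add_mul, add_mul, neg_add]

theorem kap_inj {a b : R} (hab : kap (rm (K := K) x) a = kap (rm (K := K) x) b) : a = b := by
  have h1 : a * x 0 * x 1 = b * x 0 * x 1 := congrFun (congrFun hab 0) 0
  rw [← sub_eq_zero]
  apply h.xinj 0
  apply h.xinj 1
  rw [sub_mul, sub_mul, h1, sub_self]

/-- boundaries with vanishing `cc` -/
theorem ef_d2 {k P : ℤ} {p q : R} (hp : p ∈ F (k - 1) (P - 1)) (hq : q ∈ F (k - 1) (P - 1)) :
    ∃ v ∈ L2 F x k P, D2 g x d v = kap (rm (K := K) x) (p * d 0 + q * d 1) := by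
  have he : ∀ i, (fun i => - g⁻¹ • (![p, q] : Fin 2 → R) i) i ∈ F (k - 1) (P - 1) := fun i => by
    fin_cases i
    · exact Submodule.smul_mem _ _ hp
    · exact Submodule.smul_mem _ _ hq
  refine ⟨ef (rm (K := K) x) (fun i => - g⁻¹ • (![p, q] : Fin 2 → R) i), row_iff.2
    (WRes322.ef_mem h.fil (P := P) (A := k - 1) (B := k - 2) he), ?_⟩
  rw [D2_apply, WRes322.d2_ef h.fil]
  congr 1
  show - g • (- g⁻¹ • p * d 0 + - g⁻¹ • q * d 1) = _
  rw [smul_mul_assoc, smul_mul_assoc, ← smul_add, smul_smul, neg_mul_neg, mul_inv_cancel₀ h.g0,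
    one_smul]

/-- cycles of `C1` in degree `2` -/
theorem cyc {k : ℤ} {u : Q R} (hu : u ∈ L1 F x k 2) (h0 : D1 K x d u = 0) :
    ∃ v ∈ L2 F x k 2, ∃ t : K, u = D2 g x d v + kap (rm (K := K) x) (t • 1) := by
  obtain ⟨v, hv, c, hc, e⟩ := WRes322.cyc1 h.fil (P := 2) (A := k) (B := k - 2) (by omega)
    (by omega) (row_iff.1 hu) h0
  obtain ⟨t, p, hp, q, hq, e'⟩ := h.rd0 (m := c) hc
  obtain ⟨w, hw, e''⟩ := ef_d2 h (k := k) (P := 2) hp hq
  refine ⟨v + w, add_mem (row_iff.2 hv) hw, t, ?_⟩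
  rw [map_add, e'', e, e', kap_add, D2_apply]
  abel

/-- `D2 w = kap (t • 1)` only for `t = 0` -/
theorem kap_ne {k : ℤ} {w : Q R} (hw : w ∈ L2 F x k 2) {t : K}
    (e : D2 g x d w = kap (rm (K := K) x) (t • 1)) : t = 0 := by
  have hcc : ∀ i, w i 0 * x 0 + w i 1 * x 1 = 0 := fun i => by
    have h1 := WRes322.cc_d2 h.fil w i
    rw [← D2_apply, e] at h1
    have h2 : cc (rm (K := K) x) (kap (rm (K := K) x) (t • (1 : R)) i) = 0 :=
      WRes322.cc_syz h.fil _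
    rw [h2] at h1
    exact h1.symm
  have key : ∀ i, ∃ c ∈ F (k - 1) (2 - 1), w i = syz (rm (K := K) x) c := fun i => by
    obtain ⟨c, hc, h1, h2⟩ := h.rx2 (hw.1 i 0) (hw.1 i 1) (hcc i)
    refine ⟨c, hc, ?_⟩
    funext j
    fin_cases j
    · exact h1
    · exact h2
  choose c hc hct using key
  have hw' : w = ef (rm (K := K) x) c := funext hct
  rw [hw', D2_apply, WRes322.d2_ef h.fil] at e
  have e2 := kap_inj h e
  have e3 : t • (1 : R) = (- g • c 0) * d 0 + (- g • c 1) * d 1 := by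
    rw [← e2, smul_mul_assoc, smul_mul_assoc, ← smul_add]
    rfl
  exact h.one_ne (Submodule.smul_mem _ _ (hc 0)) (Submodule.smul_mem _ _ (hc 1)) e3

theorem L1_mono {k l P : ℤ} (hkl : k ≤ l) : L1 F x k P ≤ L1 F x l P := fun u hu =>
  ⟨fun i j => h.mono hkl (hu.1 i j), fun i => h.mono (by omega) (hu.2 i)⟩

theorem L2_mono {k l P : ℤ} (hkl : k ≤ l) : L2 F x k P ≤ L2 F x l P := fun u hu =>
  ⟨fun i j => h.mono (by omega) (hu.1 i j), fun i => h.mono (by omega) (hu.2 i)⟩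

theorem lm_LR {k l P : ℤ} (i : Fin 2) {u : Q R} (hu : u ∈ LR F x k l P) :
    lm (x i) u ∈ LR F x k l (P + 1) := by
  refine ⟨fun a b => ?_, fun a => ?_⟩
  · have := h.mul (h.xm i) (hu.1 a b)
    rwa [zero_add, add_comm] at this
  · have := h.mul (h.xm i) (hu.2 a)
    rw [zero_add] at this
    have e : lm (x i) u a 0 * x 0 + lm (x i) u a 1 * x 1 = x i * (u a 0 * x 0 + u a 1 * x 1) := by
      simp only [lm, mul_add, mul_assoc]
    rw [e]
    rwa [show 1 + (P + 1) = P + 1 + 1 by ring] at this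

theorem xF {k P : ℤ} (i : Fin 2) {u : R} (hu : u ∈ F k P) : x i * u ∈ F k (P + 1) := by
  have := h.mul (h.xm i) hu
  rwa [zero_add, add_comm] at this

/-- generation of `C3` from the left -/
theorem gen3 {e : ℤ} (he : 0 ≤ e) {k : ℤ} {t : R} (ht : t ∈ F k (e + 1)) :
    ∃ t0 ∈ F k e, ∃ t1 ∈ F k e, t = x 1 * t0 - x 0 * t1 := by
  obtain ⟨p, hp, q, hq, e1⟩ := h.lx1 (by omega) ht
  rw [add_sub_cancel_right] at hp hq
  exact ⟨q, hq, -p, neg_mem hp, by rw [e1, mul_neg, sub_neg_eq_add, add_comm]⟩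

/-- generation of one row of `K₁'` from the left, level `2` -/
theorem gen2row {e : ℤ} (he : 0 ≤ e) {a b : R} (ha : a ∈ F 1 (e + 1)) (hb : b ∈ F 1 (e + 1))
    (hab : a * x 0 + b * x 1 ∈ F 0 (e + 1 + 1)) :
    ∃ a0 ∈ F 1 e, ∃ b0 ∈ F 1 e, a0 * x 0 + b0 * x 1 ∈ F 0 (e + 1) ∧
    ∃ a1 ∈ F 1 e, ∃ b1 ∈ F 1 e, a1 * x 0 + b1 * x 1 ∈ F 0 (e + 1) ∧
      a = x 1 * a0 - x 0 * a1 ∧ b = x 1 * b0 - x 0 * b1 := by
  obtain ⟨a2, ha2, b2, hb2, c, hc, e1, e2⟩ := h.gen (j := 1) le_rfl ha hb (by simpa using hab)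
  rw [sub_self] at ha2 hb2
  rw [add_sub_cancel_right] at hc
  obtain ⟨p0, hp0, p1, hp1, e3⟩ := gen3 h he ha2
  obtain ⟨q0, hq0, q1, hq1, e4⟩ := gen3 h he hb2
  have hm : ∀ {r : R}, r ∈ F 0 e → r ∈ F 1 e := fun hr => h.mono (by omega) hr
  have hx : ∀ (i : Fin 2) {k P : ℤ} {r : R}, r ∈ F k P → r * x i ∈ F k (P + 1) := fun i k P r hr => by
    have := h.mul hr (h.xm i)
    rwa [add_zero] at this
  -- the part `(c x1, -c x0)`
  have key : ∃ a0 ∈ F 1 e, ∃ b0 ∈ F 1 e, a0 * x 0 + b0 * x 1 ∈ F 0 (e + 1) ∧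
      ∃ a1 ∈ F 1 e, ∃ b1 ∈ F 1 e, a1 * x 0 + b1 * x 1 ∈ F 0 (e + 1) ∧
      c * x 1 = x 1 * a0 - x 0 * a1 ∧ -(c * x 0) = x 1 * b0 - x 0 * b1 := by
    have z : ∀ r : R, r * x 1 * x 0 + -(r * x 0) * x 1 = 0 := fun r => by
      rw [neg_mul, mul_assoc, mul_assoc, h.xx, add_neg_cancel]
    rcases he.lt_or_eq with h1 | h1
    · obtain ⟨r, hr, s, hs, e5⟩ := h.lx1 (m := c) (by omega) hc
      have hr' := hx 1 hr
      have hs' := hx 1 hs
      have hr'' := hx 0 hr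
      have hs'' := hx 0 hs
      rw [sub_add_cancel] at hr' hs' hr'' hs''
      refine ⟨s * x 1, hs', -(s * x 0), neg_mem hs'', by rw [z]; exact zero_mem _,
        -(r * x 1), neg_mem hr', r * x 0, hr'', ?_, ?_, ?_⟩
      · have : -(r * x 1) * x 0 + r * x 0 * x 1 = 0 := by
          rw [neg_mul, mul_assoc, mul_assoc, h.xx, neg_add_cancel]
        rw [this]; exact zero_mem _
      · rw [e5, add_mul, mul_neg, sub_neg_eq_add, mul_assoc, mul_assoc, add_comm]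
      · rw [e5, add_mul, mul_neg, mul_assoc, mul_assoc]
        abel
    · subst h1
      obtain ⟨t, r, hr, s, hs, e5⟩ := h.lx0 hc
      have hr' := hx 1 hr
      have hs' := hx 1 hs
      have hr'' := hx 0 hr
      have hs'' := hx 0 hs
      rw [neg_add_cancel] at hr' hs' hr'' hs''
      have h1m : t • (1 : R) ∈ F 1 0 := Submodule.smul_mem _ _ (h.mono (by omega) h.one_mem)
      have hxt : ∀ i, t • (1 : R) * x i ∈ F 0 (0 + 1) := fun i => by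
        have := Submodule.smul_mem (F 0 1) t (h.xm i)
        rwa [smul_mul_assoc, one_mul, zero_add]
      refine ⟨t • 1 + s * x 1, add_mem h1m hs', -(s * x 0), neg_mem hs'', ?_,
        -(r * x 1), neg_mem hr', t • 1 + r * x 0, add_mem h1m hr'', ?_, ?_, ?_⟩
      · have : (t • 1 + s * x 1) * x 0 + -(s * x 0) * x 1 = t • (1 : R) * x 0 := by
          rw [add_mul, add_assoc, z, add_zero]
        rw [this]; exact hxt 0
      · have : -(r * x 1) * x 0 + (t • 1 + r * x 0) * x 1 = t • (1 : R) * x 1 := by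
          rw [add_mul, neg_mul, mul_assoc, mul_assoc, h.xx]
          abel
        rw [this]; exact hxt 1
      · rw [e5]
        simp only [add_mul, mul_add, mul_neg, sub_neg_eq_add, mul_assoc, smul_mul_assoc,
          mul_smul_comm, one_mul, mul_one]
        abel
      · rw [e5]
        simp only [add_mul, mul_add, mul_neg, mul_assoc, smul_mul_assoc,
          mul_smul_comm, one_mul, mul_one, neg_add]
        abel
  obtain ⟨a0, ha0, b0, hb0, hab0, a1, ha1, b1, hb1, hab1, e5, e6⟩ := key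
  refine ⟨p0 + a0, add_mem (hm hp0) ha0, q0 + b0, add_mem (hm hq0) hb0, ?_,
    p1 + a1, add_mem (hm hp1) ha1, q1 + b1, add_mem (hm hq1) hb1, ?_, ?_, ?_⟩
  · have : (p0 + a0) * x 0 + (q0 + b0) * x 1 = (p0 * x 0 + q0 * x 1) + (a0 * x 0 + b0 * x 1) := by
      rw [add_mul, add_mul]; abel
    rw [this]
    exact add_mem (add_mem (hx 0 hp0) (hx 1 hq0)) hab0
  · have : (p1 + a1) * x 0 + (q1 + b1) * x 1 = (p1 * x 0 + q1 * x 1) + (a1 * x 0 + b1 * x 1) := by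
      rw [add_mul, add_mul]; abel
    rw [this]
    exact add_mem (add_mem (hx 0 hp1) (hx 1 hq1)) hab1
  · rw [e1, e3, e5, mul_add, mul_add]; abel
  · rw [e2, sub_eq_add_neg, e4, e6, mul_add, mul_add]; abel

/-- generation of `C2` from the left, level `2` -/
theorem gen2 {e : ℤ} (he : 0 ≤ e) {t : Q R} (ht : t ∈ L2 F x 2 (e + 1)) :
    ∃ t0 ∈ L2 F x 2 e, ∃ t1 ∈ L2 F x 2 e, t = lm (x 1) t0 - lm (x 0) t1 := by
  have key := fun k => gen2row h he (ht.1 k 0) (ht.1 k 1) (by simpa using ht.2 k)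
  choose a0 ha0 b0 hb0 hab0 a1 ha1 b1 hb1 hab1 e1 e2 using key
  refine ⟨fun k => ![a0 k, b0 k], ⟨fun k i => ?_, fun k => hab0 k⟩,
    fun k => ![a1 k, b1 k], ⟨fun k i => ?_, fun k => hab1 k⟩, ?_⟩
  · fin_cases i
    · exact ha0 k
    · exact hb0 k
  · fin_cases i
    · exact ha1 k
    · exact hb1 k
  · funext k i
    fin_cases i
    · exact e1 k
    · exact e2 k

/-! ### exactness at the vertices `K_j` -/

/-- exactness at `C1`, vertex `(2, b)`, degree `e = 0, 1` -/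
theorem V1 {b e : ℤ} (hb : b ≤ 2) (he : 0 ≤ e) (he1 : e ≤ 1) {z0 z1 : Q R}
    (hz0 : z0 ∈ L1 F x 2 e) (hz1 : z1 ∈ L1 F x 2 e)
    (hz : lm (x 1) z0 - lm (x 0) z1 ∈ L1 F x b (e + 1))
    (h0 : D1 K x d z0 = 0) (h1 : D1 K x d z1 = 0) :
    ∃ y0 ∈ L2 F x 2 e, ∃ y1 ∈ L2 F x 2 e, lm (x 1) y0 - lm (x 0) y1 ∈ L2 F x b (e + 1) ∧
      D2 g x d y0 = z0 ∧ D2 g x d y1 = z1 := by
  refine chase x (fun T u => T * u) lm lm lm_sub (D3 K x d) (D2 g x d) (D1 K x d) D3_lm D2_lm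
    (D2_D3 h) (L3 F 2 e) (L3 F b (e + 1)) (L3 F 2 (e + 1)) (L2 F x 2 e) (L2 F x b (e + 1))
    (L2 F x 2 (e + 1)) (L1 F x 2 e) (L1 F x b (e + 1)) (fun i y hy => lm_LR h i hy)
    (fun y hy => L2_mono h hb hy) (fun y hy => D3_mem h hy) (fun y hy => D3_mem h hy)
    (fun z hz h0 => E1 h he he1 hz h0) ?_ ?_ ?_ hz0 hz1 hz h0 h1
  · rintro z hz ⟨y, hy, rfl⟩
    rcases he1.lt_or_eq with h2 | h2
    · exact E1 h (by omega) (by omega) hz (D1_D2 h y)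
    · subst h2
      obtain ⟨v, hv, t, e3⟩ := cyc h (k := b) hz (D1_D2 h y)
      have ht : t = 0 := by
        apply kap_ne h (k := 2) (w := y - v) (sub_mem hy (L2_mono h hb hv))
        rw [map_sub, e3, add_sub_cancel_left]
      refine ⟨v, hv, ?_⟩
      rw [e3, ht, zero_smul]
      have : kap (rm (K := K) x) (0 : R) = 0 := by
        funext k i
        fin_cases i
        · show (0 : R) * x k * x 1 = 0
          rw [zero_mul, zero_mul]
        · show -((0 : R) * x k * x 0) = 0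
          rw [zero_mul, zero_mul, neg_zero]
      rw [this, add_zero]
  · intro y hy h3
    obtain ⟨w, hw, e3⟩ := E2 h hy h3
    exact ⟨w, hw, by rw [e3, sub_self]; exact zero_mem _⟩
  · intro t ht
    obtain ⟨t0, h4, t1, h5, e3⟩ := gen3 h he (k := 2 - 2) ht
    exact ⟨t0, h4, t1, h5, 0, zero_mem _, by rw [e3, add_zero]⟩

/-- exactness at `C2`, vertex `(2, b)` -/
theorem V2 {b e : ℤ} (hb : b ≤ 2) {z0 z1 : Q R}
    (hz0 : z0 ∈ L2 F x 2 e) (hz1 : z1 ∈ L2 F x 2 e)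
    (hz : lm (x 1) z0 - lm (x 0) z1 ∈ L2 F x b (e + 1))
    (h0 : D2 g x d z0 = 0) (h1 : D2 g x d z1 = 0) :
    ∃ y0 ∈ L3 F 2 e, ∃ y1 ∈ L3 F 2 e, x 1 * y0 - x 0 * y1 ∈ L3 F b (e + 1) ∧
      D3 K x d y0 = z0 ∧ D3 K x d y1 = z1 := by
  refine chase x (fun _ (u : R) => u) (fun T u => T * u) lm (fun T a b => mul_sub T a b)
    (0 : R →+ R) (D3 K x d) (D2 g x d) (fun _ _ => by simp) D3_lm
    (fun _ => by simp) ⊥ ⊥ ⊥ (L3 F 2 e) (L3 F b (e + 1))
    (L3 F 2 (e + 1)) (L2 F x 2 e) (L2 F x b (e + 1)) (fun i y hy => xF h i hy)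
    (fun y hy => h.mono (by omega) hy) (fun y _ => zero_mem _) (fun y _ => zero_mem _)
    (fun z hz h0 => E2 h hz h0) ?_ ?_ ?_ hz0 hz1 hz h0 h1
  · rintro z hz ⟨y, hy, rfl⟩
    exact E2 h hz (D2_D3 h y)
  · intro y hy h3
    have := D3_inj h hy h3
    exact ⟨0, zero_mem _, by rw [this]; simp⟩
  · intro t ht
    have : t = 0 := (AddSubgroup.mem_bot).1 ht
    subst this
    exact ⟨0, zero_mem _, 0, zero_mem _, 0, zero_mem _, by simp⟩

/-- exactness at `C0`, vertex `(2, b)`, degree `e = 0, 1` -/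
theorem V0 {b e : ℤ} (hb : b ≤ 2) (hb0 : 0 ≤ b) (he : 0 ≤ e) (he1 : e ≤ 1) {z0 z1 : R}
    (hz0 : z0 ∈ L0 F 2 e) (hz1 : z1 ∈ L0 F 2 e)
    (hz : x 1 * z0 - x 0 * z1 ∈ L0 F b (e + 1))
    (h0 : e = 0 → res z0 = 0) (h1 : e = 0 → res z1 = 0) :
    ∃ y0 ∈ L1 F x 2 e, ∃ y1 ∈ L1 F x 2 e, lm (x 1) y0 - lm (x 0) y1 ∈ L1 F x b (e + 1) ∧
      D1 K x d y0 = z0 ∧ D1 K x d y1 = z1 := by
  refine chase x lm lm (fun T u => T * u) lm_sub (D2 g x d) (D1 K x d)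
    (if e = 0 then res.toAddMonoidHom else 0) D2_lm D1_lm
    (D1_D2 h) (L2 F x 2 e) (L2 F x b (e + 1)) (L2 F x 2 (e + 1)) (L1 F x 2 e) (L1 F x b (e + 1))
    (L1 F x 2 (e + 1)) (L0 F 2 e) (L0 F b (e + 1)) (fun i y hy => lm_LR h i hy)
    (fun y hy => L1_mono h hb hy) (fun y hy => D2_mem h hy) (fun y hy => D2_mem h hy)
    ?_ ?_ ?_ ?_ hz0 hz1 hz ?_ ?_
  · intro z hz h2
    rcases he.lt_or_eq with h3 | h3
    · exact E0p h (by omega) hz
    · subst h3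
      rw [if_pos rfl] at h2
      exact E00 h hz h2
  · rintro z hz -
    exact E0p h (by omega) hz
  · intro y hy h3
    rcases he1.lt_or_eq with h2 | h2
    · obtain ⟨w, hw, e3⟩ := E1 h (by omega) (by omega) hy h3
      exact ⟨w, hw, by rw [e3, sub_self]; exact zero_mem _⟩
    · subst h2
      obtain ⟨v, hv, t, e3⟩ := cyc h (k := 2) hy h3
      refine ⟨v, hv, ?_⟩
      rw [e3, add_sub_cancel_left]
      have h1m : t • (1 : R) ∈ F b (2 - 2) := Submodule.smul_mem _ _ (h.mono hb0 h.one_mem)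
      have hx : ∀ (i : Fin 2) {k P : ℤ} {r : R}, r ∈ F k P → r * x i ∈ F k (P + 1) :=
        fun i k P r hr => by
          have := h.mul hr (h.xm i)
          rwa [add_zero] at this
      have hx2 : ∀ i j, t • (1 : R) * x i * x j ∈ F b (1 + 1) := fun i j => by
        have := hx j (hx i h1m)
        rwa [show (2 : ℤ) - 2 + 1 + 1 = 1 + 1 by norm_num] at this
      refine ⟨fun k i => ?_, fun k => ?_⟩
      · fin_cases i
        · exact hx2 k 1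
        · exact neg_mem (hx2 k 0)
      · have : kap (rm (K := K) x) (t • (1 : R)) k 0 * x 0 +
            kap (rm (K := K) x) (t • (1 : R)) k 1 * x 1 = 0 :=
          WRes322.cc_syz h.fil _
        rw [this]; exact zero_mem _
  · intro t ht
    obtain ⟨t0, h4, t1, h5, e3⟩ := gen2 h he ht
    exact ⟨t0, h4, t1, h5, 0, zero_mem _, by rw [e3, add_zero]⟩
  · by_cases h3 : e = 0
    · rw [if_pos h3]; exact h0 h3
    · rw [if_neg h3]; rfl
  · by_cases h3 : e = 0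
    · rw [if_pos h3]; exact h1 h3
    · rw [if_neg h3]; rfl

end

end

end Crest.Agent.R186.W1
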