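import Crest.Agent.R186.W1a_952
import Crest.Agent.R186.W1def_952
import Crest.Agent.R186.BiI_322
import Crest.Agent.R186.Inst_823

/-!
Row 186, S0281, base, leaf B281.W1 (helper952): 128's `Op K`, `Fil` are an instance of the abstract
data `PB` of `W1a_952`.
-/

set_option autoImplicit false
set_option linter.unusedSectionVars false

namespace Crest.Agent.R186.W1

open Crest.Agent.R186.B281

variable {K : Type} [Field K]

/-- the residue as a linear map -/
noncomputable def resL (K : Type) [Field K] : Op K →ₗ[K] K where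
  toFun := res
  map_add' _ _ := rfl
  map_smul' _ _ := rfl

theorem resL_apply (T : Op K) : resL K T = res T := rfl

theorem X_dl (i : Fin 2) : X i (dl K) ∈ NN K := by
  rw [dl, X_single]
  refine Finsupp.single_mem_supported K _ ?_
  fin_cases i <;> simp [ev]

theorem res_mulX {g : K} {k P : ℤ} (i : Fin 2) {m : Op K} (hm : m ∈ Fil g k P) :
    res (m * X i) = 0 := by
  unfold res
  rw [Module.End.mul_apply]
  exact NN_apply (Fil_NN hm (X_dl i))

theorem pb {g : K} (hg : Gen g) : PB (K := K) (R := Op K) g X (D g) (Fil g) (resL K) where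
  g0 := hg.1
  xx := X_comm 1 0
  dd := D_comm g 1 0
  xd0 := X_D_self hg 0
  xd1 := X_D_self hg 1
  xd01 := X_D g (by decide)
  xd10 := X_D g (by decide)
  neg hk := LatK881.Fil_zero_of g hk
  mono h := Fil_mono g h
  mul ha hb := FD757.Fil_mul hg ha hb
  one_mem := one_mem_Fil g le_rfl
  xm i := mXi hg i
  dm i := mDi hg i
  xinj i _ h := BiI322.mulX_inj i h
  rx1 hP hm := BiI322.X1r hg hP hm
  rx2 hu hv h := BiI322.X2r hg hu hv h
  rd1 hP hm := BiI322.D1r hg hP hm
  rd2 hu hv h := BiI322.D2r hg hu hv h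
  lx1 hP hm := BiI322.X1l hg hP hm
  rx0 hm := by
    obtain ⟨t, a, ha, b, hb, e⟩ := BiI322.X1r0 hg hm
    exact ⟨t, a, ha, b, hb, by rw [e, add_assoc]⟩
  lx0 hm := by
    obtain ⟨t, a, ha, b, hb, e⟩ := BiI322.X1l0 hg hm
    exact ⟨t, a, ha, b, hb, by rw [e, add_assoc]⟩
  rd0 hm := by
    obtain ⟨t, a, ha, b, hb, e⟩ := BiI322.D1r0 hg hm
    exact ⟨t, a, ha, b, hb, by rw [e, add_assoc]⟩
  one_ne _ _ h := BiI322.const_zero h
  gen hj ha hb hab := by
    obtain ⟨a2, ha2, b2, hb2, e, he, e1, e2⟩ := LatK881.LK_gen hg (by omega) ⟨ha, hb, hab⟩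
    exact ⟨a2, ha2, b2, hb2, e, he, e1, e2⟩
  res1 := res_one
  resx i _ hm := res_mulX i hm

end Crest.Agent.R186.W1
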