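import Crest.Agent.R186.W1def_952
import Crest.Agent.R186.W1A_322

/-!
Row 186, S0281, base, leaf B281.W1 (helper520): for 952's maps `d1`, `ε` (s = 1),
`hε : ε` is onto and `e10 : Function.Exact d1 ε`.
-/

set_option autoImplicit false
set_option linter.unusedSectionVars false

open Matrix

namespace Crest.Agent.R186.W1eps520

open B281 W4a822 WRes322 W1A322

variable {K : Type} [Field K] {g : K}

/-! ### residues -/

theorem X_dl (i : Fin 2) : X i (dl K) ∈ NN K := by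
  rw [dl, X_single]
  refine Finsupp.single_mem_supported K _ ?_
  simp only [Set.mem_ofPred_eq]
  fin_cases i <;> simp [ev]

theorem res_mul_X {k P : ℤ} {T : Op K} (hT : T ∈ Fil g k P) (i : Fin 2) :
    res (T * X i) = 0 := by
  unfold res
  rw [Module.End.mul_apply]
  exact NN_apply (Fil_NN hT (X_dl i))

/-- `res T = 0` ⇒ `T = a x₀ + b x₁` -/
theorem of_res (hg : Gen g) {k : ℤ} {T : Op K} (hT : T ∈ Fil g k 0) (h : res T = 0) :
    ∃ a ∈ Fil g k (-1), ∃ b ∈ Fil g k (-1), T = a * X 0 + b * X 1 := by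
  obtain ⟨t, a, ha, b, hb, e⟩ := BiI322.X1r0 hg hT
  have h1 : res T = t := by
    rw [e, res_add, res_add, res_smul, res_one, res_mul_X ha, res_mul_X hb, mul_one, add_zero,
      add_zero]
  refine ⟨a, ha, b, hb, ?_⟩
  rw [e, ← h1, h, zero_smul, zero_add]

/-- `res ∘ d1 = 0` -/
theorem res_d1 (hg : Gen g) {k00 k01 k10 k11 : ℤ} {u : Fin 2 → Fin 2 → Op K}
    (h00 : u 0 0 ∈ Fil g k00 0) (h01 : u 0 1 ∈ Fil g k01 0) (h10 : u 1 0 ∈ Fil g k10 0)
    (h11 : u 1 1 ∈ Fil g k11 0) : res (WRes322.d1 (rX K) (rD g) u) = 0 := by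
  have e : WRes322.d1 (rX K) (rD g) u = (g • (u 0 0 * D g 0)) * X 0 + (u 0 1 * D g 0) * X 1 +
      ((u 1 0 * D g 1) * X 0 + (g • (u 1 1 * D g 1)) * X 1) := by
    have F := BiI322.fil hg
    have a1 := F.dx0 (u 0 0)
    have a2 := F.d0x1 (u 0 1)
    have a3 := F.d1x0 (u 1 0)
    have a4 := F.dx1 (u 1 1)
    simp only [LinearMap.mulRight_apply] at a1 a2 a3 a4
    show (u 0 0 * X 0 + u 0 1 * X 1) * D g 0 - u 0 0 + ((u 1 0 * X 0 + u 1 1 * X 1) * D g 1 - u 1 1)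
      = _
    rw [add_mul, add_mul, a1, a2, a3, a4, smul_mul_assoc, smul_mul_assoc]
    abel
  have m : ∀ {k : ℤ} {T : Op K} (i : Fin 2), T ∈ Fil g k 0 → T * D g i ∈ B281.Fil g (k + 1) (-1) := by
    intro k T i hT
    have := (BiI322.fil hg).Dm i 0 k T hT
    rwa [zero_sub] at this
  rw [e, res_add, res_add, res_add, res_mul_X (Submodule.smul_mem _ _ (m 0 h00)),
    res_mul_X (m 0 h01), res_mul_X (m 1 h10), res_mul_X (Submodule.smul_mem _ _ (m 1 h11))]
  simp only [add_zero]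

/-! ### rows at the vertex `O(0)` -/

/-- one row at position `0` -/
noncomputable def of0 (w : Op K) : Unit → Fin 7 → Op K := fun _ => ![w, 0, 0, 0, 0, 0, 0]

/-- the row map -/
noncomputable def f0 (g : K) (r : Fin 2 → Fin 7 → Op K) : Unit → Fin 7 → Op K := of0 (f1 g r)

theorem LT0_mem {c e : ℤ} {r : Unit → Fin 7 → Op K} (h : LT g 1 Unit 0 c e r) :
    r () 0 ∈ Fil g c e := (h ()).1.1

theorem LT0_eq {c e : ℤ} {r : Unit → Fin 7 → Op K} (h : LT g 1 Unit 0 c e r) :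
    of0 (r () 0) = r := by
  funext k j
  have h' := (h k).2 j
  fin_cases j
  exacts [rfl, (h' (by decide)).symm, (h' (by decide)).symm, (h' (by decide)).symm,
    (h' (by decide)).symm, (h' (by decide)).symm, (h' (by decide)).symm]

theorem f0_of4 (u : Fin 2 → Fin 2 → Op K) : f0 g (of4 u) = of0 (WRes322.d1 (rX K) (rD g) u) := by
  rw [f0, f1, ent4_of4]

/-- the row conditions of degree `e` -/
def CC (e : ℤ) (z : Unit → Fin 7 → Op K) : Prop := e = 0 → res (z () 0) = 0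

theorem pre (hg : Gen g) {c e : ℤ} (he : 0 ≤ e) {w : Op K} (hw : w ∈ Fil g c e)
    (h : e = 0 → res w = 0) :
    ∃ u, Row (rX K) (FF g) e c (c - 2) u ∧ WRes322.d1 (rX K) (rD g) u = w := by
  rcases eq_or_lt_of_le he with h0 | h0
  · obtain rfl : e = 0 := h0.symm
    obtain ⟨a, ha, b, hb, rfl⟩ := of_res hg hw (h rfl)
    exact ex0 (BiI322.fil hg) (by simpa using ha) (by simpa using hb)
  · exact ex0_pos (BiI322.fil hg) (by omega) hw

theorem ontoO (hg : Gen g) {e : ℤ} (he : 0 ≤ e) : OntoO g 1 4 0 (f0 g) (CC e) e := by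
  intro c _ z hz hC
  obtain ⟨u, hu, hd⟩ := pre hg he (LT0_mem hz) hC
  refine ⟨of4 u, LT4_of hu, ?_⟩
  rw [f0_of4, hd, LT0_eq hz]

theorem ontoK (hg : Gen g) {e : ℤ} (he : 0 ≤ e) (he1 : e ≤ 1) :
    OntoK g 1 4 0 (f0 g) (CC e) e := by
  intro a b hab z z' hz hz' hzz hC hC'
  have hba : b ≤ a ∧ 0 ≤ b ∧ a = 2 := by rcases hab with h | h <;> omega
  have hm : ∀ i, ∃ y, Row (rX K) (FF g) e a (a - 2) y ∧
      WRes322.d1 (rX K) (rD g) y = (![z () 0, z' () 0] : Fin 2 → Op K) i := by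
    intro i
    fin_cases i
    · exact pre hg he (LT0_mem hz) hC
    · exact pre hg he (LT0_mem hz') hC'
  obtain ⟨y, hy, hy', hyz⟩ := vert0 (BiI322.bi hg) hg.1 he he1 hba.1 hba.2.1 (by omega)
    (by omega) (by omega : b - 2 ≤ a - 2) hm (LT0_mem hzz)
  refine ⟨of4 (y 0), of4 (y 1), LT4_of (hy 0), LT4_of (hy 1), ?_, ?_, ?_⟩
  · have h2 := LT4_of (c := b) (e := e + 1) hy'
    have h3 : of4 (Lw (lX K) y) = xx (of4 (y 0)) (of4 (y 1)) := by
      funext k j
      fin_cases j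
      exacts [(by show (0 : Op K) = X 1 * 0 - X 0 * 0; simp),
        (by show (0 : Op K) = X 1 * 0 - X 0 * 0; simp),
        (by show (0 : Op K) = X 1 * 0 - X 0 * 0; simp),
        (by show (0 : Op K) = X 1 * 0 - X 0 * 0; simp),
        (by show (0 : Op K) = X 1 * 0 - X 0 * 0; simp), rfl, rfl]
    rw [← h3]; exact h2
  · rw [f0_of4, hyz 0]; exact LT0_eq hz
  · rw [f0_of4, hyz 1]; exact LT0_eq hz'

/-! ### `A g 1` level, any maps with the row formulas -/

theorem exact10 (hg : Gen g) (D1 : (Fin 2 → Pv g 1 4) →ₗ[A g 1] Pv g 1 0)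
    (h1 : ∀ x i, (D1 x : A g 1).1.fst i 0 = f1 g (fun l => (x l : A g 1).1.fst i))
    (h1' : ∀ x i, (D1 x : A g 1).1.snd i 0 = f1 g (fun l => (x l : A g 1).1.snd i)) :
    Function.Exact D1 (W1.ε g) := by
  intro x
  constructor
  · intro hx
    have hr : ∀ i, res ((x : A g 1).1.fst i 0) = 0 := fun i => congrFun hx i
    obtain ⟨Y, hY, e, e'⟩ := lift_exact (kgen hg) (fmul hg) (f0 g) (CC 0) (CC 1)
      (ontoO hg le_rfl) (ontoK hg le_rfl zero_le_one) (ontoO hg zero_le_one)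
      (ontoK hg zero_le_one le_rfl) (fun _ : Unit => (x : A g 1)) (fun _ => supA x)
      (fun i _ => hr i) (fun i h => absurd h (by decide))
    refine ⟨fun l => ⟨Y l, mem_Pv.2 (hY l)⟩, ?_⟩
    refine Subtype.ext (A_ext (fun i j => ?_) (fun i j => ?_))
    · by_cases hj : j = 0
      · subst hj
        rw [h1]; exact congrFun (congrFun (e i) ()) 0
      · have hb : W4a822.blk7 j ≠ 0 := by fin_cases j <;> first | exact absurd rfl hj | decide
        rw [(supA (D1 _) i j hb).1, (supA x i j hb).1]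
    · by_cases hj : j = 0
      · subst hj
        rw [h1']; exact congrFun (congrFun (e' i) ()) 0
      · have hb : W4a822.blk7 j ≠ 0 := by fin_cases j <;> first | exact absurd rfl hj | decide
        rw [(supA (D1 _) i j hb).2, (supA x i j hb).2]
  · rintro ⟨y, rfl⟩
    funext i
    show res ((D1 y : A g 1).1.fst i 0) = 0
    rw [h1]
    obtain ⟨k00, h00⟩ := (y 0 : A g 1).2.1.entry i 5
    obtain ⟨k01, h01⟩ := (y 0 : A g 1).2.1.entry i 6
    obtain ⟨k10, h10⟩ := (y 1 : A g 1).2.1.entry i 5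
    obtain ⟨k11, h11⟩ := (y 1 : A g 1).2.1.entry i 6
    exact res_d1 hg h00 h01 h10 h11

/-! ### 952's maps -/

theorem mul_mat1 (N : Mat K) (a b : Op K) (i : Fin 7) :
    (N * W1.mat1 a b : Mat K) i 0 = N i 5 * a + N i 6 * b := by
  rw [Matrix.mul_apply, Fin.sum_univ_seven]
  show N i 0 * 0 + N i 1 * 0 + N i 2 * 0 + N i 3 * 0 + N i 4 * 0 +
    N i 5 * (Pi.single 0 a : Fin 7 → Op K) 0 + N i 6 * (Pi.single 0 b : Fin 7 → Op K) 0 = _
  rw [Pi.single_eq_same, Pi.single_eq_same]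
  simp only [mul_zero, zero_add]

theorem key_row (N N' : Mat K) (i : Fin 7) :
    (N * W1.mat1 (X 0 * D g 0 - 1) (X 1 * D g 0) : Mat K) i 0 +
      (N' * W1.mat1 (X 0 * D g 1) (X 1 * D g 1 - 1) : Mat K) i 0 =
      (N i 5 * X 0 + N i 6 * X 1) * D g 0 - N i 5 +
        ((N' i 5 * X 0 + N' i 6 * X 1) * D g 1 - N' i 6) := by
  rw [mul_mat1, mul_mat1]
  simp only [mul_sub, add_mul, mul_one, mul_assoc]
  abel

theorem d1_fst (hg : Gen g) (x : Fin 2 → Pv g 1 4) (i : Fin 7) :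
    (W1.d1 hg x : A g 1).1.fst i 0 = f1 g (fun l => (x l : A g 1).1.fst i) :=
  key_row _ _ i

theorem d1_snd (hg : Gen g) (x : Fin 2 → Pv g 1 4) (i : Fin 7) :
    (W1.d1 hg x : A g 1).1.snd i 0 = f1 g (fun l => (x l : A g 1).1.snd i) := by
  have e0 : (((x 0 : A g 1) * W1.b1 hg 0 : A g 1)).1.snd =
      (x 0 : A g 1).1.snd * W1.mat1 (X 0 * D g 0 - 1) (X 1 * D g 0) := by
    rw [snd_mulA]
    show (x 0 : A g 1).1.fst * (0 : Mat K) + _ = _
    rw [Matrix.mul_zero, zero_add]; rfl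
  have e1 : (((x 1 : A g 1) * W1.b1 hg 1 : A g 1)).1.snd =
      (x 1 : A g 1).1.snd * W1.mat1 (X 0 * D g 1) (X 1 * D g 1 - 1) := by
    rw [snd_mulA]
    show (x 1 : A g 1).1.fst * (0 : Mat K) + _ = _
    rw [Matrix.mul_zero, zero_add]; rfl
  show (((x 0 : A g 1) * W1.b1 hg 0 : A g 1)).1.snd i 0 +
    (((x 1 : A g 1) * W1.b1 hg 1 : A g 1)).1.snd i 0 = _
  rw [e0, e1]
  exact key_row _ _ i

/-- **exactness at `Pv g 1 0`** -/
theorem e10 (hg : Gen g) : Function.Exact (W1.d1 hg) (W1.ε g) :=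
  exact10 hg _ (d1_fst hg) (d1_snd hg)

/-! ### surjectivity -/

/-- column `0` = constants -/
noncomputable def col (w : Fin 7 → K) : Mat K := fun i => Pi.single 0 (w i • (1 : Op K))

theorem xcol (a b : Op K) : (fun j => X 1 * (Pi.single 0 a : Fin 7 → Op K) j -
    X 0 * (Pi.single 0 b : Fin 7 → Op K) j) = Pi.single 0 (X 1 * a - X 0 * b) := by
  funext j
  by_cases hj : j = 0
  · subst hj
    simp only [Pi.single_eq_same]
  · rw [Pi.single_eq_of_ne hj, Pi.single_eq_of_ne hj, Pi.single_eq_of_ne hj, mul_zero, mul_zero,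
      sub_zero]

theorem pres_col (hg : Gen g) (s : ℤ) (hs : 0 ≤ s) (w : Fin 7 → K) : Pres g s 0 (col w) := by
  have h1 : ∀ {k : ℤ} (_ : 0 ≤ k) (t : K), t • (1 : Op K) ∈ Fil g k 0 := fun hk t =>
    Submodule.smul_mem _ t (one_mem_Fil g hk)
  have h2 : ∀ {k : ℤ} (_ : 0 ≤ k) (t t' : K),
      X 1 * (t • (1 : Op K)) - X 0 * (t' • (1 : Op K)) ∈ Fil g k (1 + 0) := by
    intro k hk t t'
    rw [mul_smul_comm, mul_smul_comm, mul_one, mul_one, add_zero]
    exact sub_mem (Submodule.smul_mem _ _ (Fil_mono g hk (W1.mXi hg 1)))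
      (Submodule.smul_mem _ _ (Fil_mono g hk (W1.mXi hg 0)))
  rw [LatK881.Pres_iff hg]
  refine ⟨LatK881.single0 (h1 (by omega) _), LatK881.single0 (h1 (by omega) _),
    LatK881.single0 (h1 (by omega) _), LatK881.single0 (h1 (by omega) _),
    LatK881.single0 (h1 (by omega) _), ?_, LatK881.single0 (h1 (by omega) _),
    LatK881.single0 (h1 (by omega) _), ?_⟩
  · have := xcol (K := K) (w 3 • (1 : Op K)) (w 4 • (1 : Op K))
    show (fun j => X 1 * (Pi.single 0 (w 3 • (1 : Op K)) : Fin 7 → Op K) j -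
      X 0 * (Pi.single 0 (w 4 • (1 : Op K)) : Fin 7 → Op K) j) ∈ _
    rw [this]
    exact LatK881.single0 (h2 (by omega) _ _)
  · have := xcol (K := K) (w 5 • (1 : Op K)) (w 6 • (1 : Op K))
    show (fun j => X 1 * (Pi.single 0 (w 5 • (1 : Op K)) : Fin 7 → Op K) j -
      X 0 * (Pi.single 0 (w 6 • (1 : Op K)) : Fin 7 → Op K) j) ∈ _
    rw [this]
    exact LatK881.single0 (h2 le_rfl _ _)

theorem col_sup (w : Fin 7 → K) (i j : Fin 7) (hj : j ≠ 0) : col w i j = 0 :=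
  Pi.single_eq_of_ne hj _

/-- **`ε` is onto** -/
theorem hε (hg : Gen g) : Function.Surjective (W1.ε g) := by
  intro w
  refine ⟨⟨ofM (col w) 0 (pres_col hg 1 zero_le_one w) (Pres.zero g 1 1),
    mem_Pv.2 fun i j hj => ⟨col_sup w i j (fun h => hj (by rw [h]; rfl)), rfl⟩⟩, ?_⟩
  funext i
  show res ((Pi.single 0 ((w : Fin 7 → K) i • (1 : Op K)) : Fin 7 → Op K) 0) = w i
  rw [Pi.single_eq_same, res_smul, res_one, mul_one]

end Crest.Agent.R186.W1eps520
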