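import Crest.Agent.R186.W1A_322
import Crest.Agent.R186.W1def_952

/-!
# Row 186, S0281 base: exactness of 952's resolution of `W g 1` (helper322)
-/

set_option autoImplicit false
set_option linter.unusedSectionVars false

open Matrix

namespace Crest.Agent.R186.W1A322

open B281 W4a822 WRes322

variable {K : Type} [Field K] {g : K}

theorem mul_mat1 (M : Mat K) (a b : Op K) (i : Fin 7) :
    (M * W1.mat1 a b) i 0 = M i 5 * a + M i 6 * b := by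
  rw [Matrix.mul_apply, Fin.sum_univ_seven]
  show M i 0 * 0 + M i 1 * 0 + M i 2 * 0 + M i 3 * 0 + M i 4 * 0 +
    M i 5 * (Pi.single 0 a : Fin 7 → Op K) 0 + M i 6 * (Pi.single 0 b : Fin 7 → Op K) 0 = _
  rw [Pi.single_eq_same, Pi.single_eq_same]
  simp only [mul_zero, zero_add]

theorem mul_mat2 (M : Mat K) (a b c d : Op K) (i : Fin 7) :
    (M * W1.mat2 a b c d) i = ![0, 0, 0, 0, 0, M i 3 * a + M i 4 * c, M i 3 * b + M i 4 * d] := by
  funext j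
  rw [Matrix.mul_apply, Fin.sum_univ_seven]
  have key : ∀ j : Fin 7, M i 0 * (0 : Fin 7 → Op K) j + M i 1 * (0 : Fin 7 → Op K) j +
      M i 2 * (0 : Fin 7 → Op K) j + M i 3 * (Pi.single 5 a + Pi.single 6 b : Fin 7 → Op K) j +
      M i 4 * (Pi.single 5 c + Pi.single 6 d : Fin 7 → Op K) j + M i 5 * (0 : Fin 7 → Op K) j +
      M i 6 * (0 : Fin 7 → Op K) j =
      M i 3 * ((Pi.single 5 a : Fin 7 → Op K) j + (Pi.single 6 b : Fin 7 → Op K) j) +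
      M i 4 * ((Pi.single 5 c : Fin 7 → Op K) j + (Pi.single 6 d : Fin 7 → Op K) j) := fun j => by
    simp only [Pi.zero_apply, mul_zero, zero_add, add_zero, Pi.add_apply]
  refine (key j).trans ?_
  fin_cases j <;> simp

theorem mul_mat3 (M : Mat K) (a b : Op K) (i : Fin 7) :
    (M * W1.mat3 a b) i = ![0, 0, 0, M i 2 * a, M i 2 * b, 0, 0] := by
  funext j
  rw [Matrix.mul_apply, Fin.sum_univ_seven]
  have key : ∀ j : Fin 7, M i 0 * (0 : Fin 7 → Op K) j + M i 1 * (0 : Fin 7 → Op K) j +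
      M i 2 * (Pi.single 3 a + Pi.single 4 b : Fin 7 → Op K) j +
      M i 3 * (0 : Fin 7 → Op K) j + M i 4 * (0 : Fin 7 → Op K) j + M i 5 * (0 : Fin 7 → Op K) j +
      M i 6 * (0 : Fin 7 → Op K) j =
      M i 2 * ((Pi.single 3 a : Fin 7 → Op K) j + (Pi.single 4 b : Fin 7 → Op K) j) := fun j => by
    simp only [Pi.zero_apply, mul_zero, zero_add, add_zero, Pi.add_apply]
  refine (key j).trans ?_
  fin_cases j <;> simp

/-- `snd (x * (M, 0)) = snd x * M` -/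
theorem snd_mul_ofM (x : A g 1) (M : Mat K) (hM : Pres g 1 0 M) :
    (x * ofM M 0 hM (Pres.zero g 1 1)).1.snd = x.1.snd * M := by
  rw [snd_mulA, ofM_snd, ofM_fst, mul_zero, zero_add]

theorem fst_mul_ofM (x : A g 1) (M : Mat K) (hM : Pres g 1 0 M) :
    (x * ofM M 0 hM (Pres.zero g 1 1)).1.fst = x.1.fst * M := rfl

theorem id1 (u : Fin 2 → Fin 2 → Op K) : u 0 0 * (X 0 * D g 0 - 1) + u 0 1 * (X 1 * D g 0) +
    (u 1 0 * (X 0 * D g 1) + u 1 1 * (X 1 * D g 1 - 1)) = d1 (rX K) (rD g) u := by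
  show _ = (u 0 0 * X 0 + u 0 1 * X 1) * D g 0 - u 0 0 + ((u 1 0 * X 0 + u 1 1 * X 1) * D g 1 - u 1 1)
  simp only [mul_sub, add_mul, mul_one, mul_assoc]
  abel

theorem h1 (hg : Gen g) (x : Fin 2 → Pv g 1 4) (i : Fin 7) : (W1.d1 hg x : A g 1).1.fst i 0 =
    f1 g (fun l => (x l : A g 1).1.fst i) := by
  rw [f1, ← id1, W1.d1_coe]
  show ((x 0 : A g 1).1.fst * W1.mat1 (X 0 * D g 0 - 1) (X 1 * D g 0) : Mat K) i 0 +
    ((x 1 : A g 1).1.fst * W1.mat1 (X 0 * D g 1) (X 1 * D g 1 - 1) : Mat K) i 0 = _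
  rw [mul_mat1, mul_mat1]; rfl

theorem h1' (hg : Gen g) (x : Fin 2 → Pv g 1 4) (i : Fin 7) : (W1.d1 hg x : A g 1).1.snd i 0 =
    f1 g (fun l => (x l : A g 1).1.snd i) := by
  rw [f1, ← id1, W1.d1_coe]
  show ((x 0 : A g 1) * ofM _ 0 (W1.p1_0 hg) (Pres.zero g 1 1)).1.snd i 0 +
    ((x 1 : A g 1) * ofM _ 0 (W1.p1_1 hg) (Pres.zero g 1 1)).1.snd i 0 = _
  rw [snd_mul_ofM, snd_mul_ofM, mul_mat1, mul_mat1]; rfl

theorem id2 (u : Fin 2 → Fin 2 → Op K) :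
    ![![(u 0 0 * 1 + u 0 1 * (D g 0 * X 1)) + (u 1 0 * 0 + u 1 1 * (g • (D g 1 * X 1))),
        (u 0 0 * 0 + u 0 1 * (1 - D g 0 * X 0)) + (u 1 0 * 0 + u 1 1 * (-(g • (D g 1 * X 0))))],
      ![(u 0 0 * (-(g • (D g 0 * X 1))) + u 0 1 * 0) + (u 1 0 * (1 - D g 1 * X 1) + u 1 1 * 0),
        (u 0 0 * (g • (D g 0 * X 0)) + u 0 1 * 0) + (u 1 0 * (D g 1 * X 0) + u 1 1 * 1)]] =
      d2 g (rX K) (rD g) u := by
  funext k i
  fin_cases k <;> fin_cases i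
  · show (u 0 0 * 1 + u 0 1 * (D g 0 * X 1)) + (u 1 0 * 0 + u 1 1 * (g • (D g 1 * X 1))) =
      u 0 0 + (u 0 1 * D g 0) * X 1 + g • ((u 1 1 * D g 1) * X 1)
    simp only [mul_one, mul_zero, zero_add, mul_smul_comm, mul_assoc]
  · show (u 0 0 * 0 + u 0 1 * (1 - D g 0 * X 0)) + (u 1 0 * 0 + u 1 1 * (-(g • (D g 1 * X 0)))) =
      u 0 1 + -((u 0 1 * D g 0) * X 0) + g • -((u 1 1 * D g 1) * X 0)
    simp only [mul_one, mul_zero, zero_add, mul_sub, mul_neg, mul_smul_comm, mul_assoc, smul_neg]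
    abel
  · show (u 0 0 * (-(g • (D g 0 * X 1))) + u 0 1 * 0) + (u 1 0 * (1 - D g 1 * X 1) + u 1 1 * 0) =
      u 1 0 - g • ((u 0 0 * D g 0) * X 1) - (u 1 0 * D g 1) * X 1
    simp only [mul_one, mul_zero, add_zero, mul_sub, mul_neg, mul_smul_comm, mul_assoc]
    abel
  · show (u 0 0 * (g • (D g 0 * X 0)) + u 0 1 * 0) + (u 1 0 * (D g 1 * X 0) + u 1 1 * 1) =
      u 1 1 - g • -((u 0 0 * D g 0) * X 0) - -((u 1 0 * D g 1) * X 0)
    simp only [mul_one, mul_zero, add_zero, mul_smul_comm, mul_assoc, smul_neg, sub_neg_eq_add]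
    abel

/-- the rows of `d2` -/
noncomputable def R2 (g : K) (M0 M1 : Mat K) (i : Fin 7) : Fin 2 → Fin 7 → Op K :=
  ![(M0 * W1.mat2 1 0 (D g 0 * X 1) (1 - D g 0 * X 0) : Mat K) i +
        (M1 * W1.mat2 0 0 (g • (D g 1 * X 1)) (-(g • (D g 1 * X 0))) : Mat K) i,
      (M0 * W1.mat2 (-(g • (D g 0 * X 1))) (g • (D g 0 * X 0)) 0 0 : Mat K) i +
        (M1 * W1.mat2 (1 - D g 1 * X 1) (D g 1 * X 0) 0 1 : Mat K) i]

theorem vec56_add (a b c d : Op K) : (![0, 0, 0, 0, 0, a, b] : Fin 7 → Op K) + ![0, 0, 0, 0, 0, c, d] =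
    ![0, 0, 0, 0, 0, a + c, b + d] := by
  rw [Matrix.cons_add_cons, Matrix.cons_add_cons, Matrix.cons_add_cons, Matrix.cons_add_cons,
    Matrix.cons_add_cons, Matrix.cons_add_cons, Matrix.cons_add_cons, Matrix.empty_add_empty, add_zero]

theorem of4_zero' (a b c d : Op K) : of4 ![![a, b], ![c, d]] 0 = ![0, 0, 0, 0, 0, a, b] := rfl
theorem of4_one' (a b c d : Op K) : of4 ![![a, b], ![c, d]] 1 = ![0, 0, 0, 0, 0, c, d] := rfl

theorem row2 (M0 M1 : Mat K) (i : Fin 7) : R2 g M0 M1 i = f2 g (![M0 i, M1 i] : Fin 2 → Fin 7 → Op K) := by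
  have e := id2 (g := g) (ent p3 (![M0 i, M1 i] : Fin 2 → Fin 7 → Op K))
  rw [f2, ← e]
  funext l
  fin_cases l
  · show (M0 * W1.mat2 1 0 (D g 0 * X 1) (1 - D g 0 * X 0) : Mat K) i +
        (M1 * W1.mat2 0 0 (g • (D g 1 * X 1)) (-(g • (D g 1 * X 0))) : Mat K) i = of4 _ 0
    rw [mul_mat2, mul_mat2, vec56_add, of4_zero']
    rfl
  · show (M0 * W1.mat2 (-(g • (D g 0 * X 1))) (g • (D g 0 * X 0)) 0 0 : Mat K) i +
        (M1 * W1.mat2 (1 - D g 1 * X 1) (D g 1 * X 0) 0 1 : Mat K) i = of4 _ 1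
    rw [mul_mat2, mul_mat2, vec56_add, of4_one']
    rfl

theorem h2 (hg : Gen g) (x : Fin 2 → Pv g 1 3) (i : Fin 7) : (fun l => (W1.d2 hg x l : A g 1).1.fst i) =
    f2 g (fun l => (x l : A g 1).1.fst i) := by
  have e : (fun l => (x l : A g 1).1.fst i) = (![(x 0 : A g 1).1.fst i, (x 1 : A g 1).1.fst i] :
      Fin 2 → Fin 7 → Op K) := by funext l; fin_cases l <;> rfl
  rw [e, ← row2]
  funext l
  fin_cases l <;> rfl

theorem h2' (hg : Gen g) (x : Fin 2 → Pv g 1 3) (i : Fin 7) : (fun l => (W1.d2 hg x l : A g 1).1.snd i) =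
    f2 g (fun l => (x l : A g 1).1.snd i) := by
  have e : (fun l => (x l : A g 1).1.snd i) = (![(x 0 : A g 1).1.snd i, (x 1 : A g 1).1.snd i] :
      Fin 2 → Fin 7 → Op K) := by funext l; fin_cases l <;> rfl
  rw [e, ← row2]
  funext l
  fin_cases l
  · show ((x 0 : A g 1) * ofM _ 0 (W1.p2_00 hg) (Pres.zero g 1 1)).1.snd i +
      ((x 1 : A g 1) * ofM _ 0 (W1.p2_10 hg) (Pres.zero g 1 1)).1.snd i = _
    rw [snd_mul_ofM, snd_mul_ofM]; rfl
  · show ((x 0 : A g 1) * ofM _ 0 (W1.p2_01 hg) (Pres.zero g 1 1)).1.snd i +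
      ((x 1 : A g 1) * ofM _ 0 (W1.p2_11 hg) (Pres.zero g 1 1)).1.snd i = _
    rw [snd_mul_ofM, snd_mul_ofM]; rfl

/-- the rows of `d3` -/
noncomputable def R3 (g : K) (M : Mat K) (i : Fin 7) : Fin 2 → Fin 7 → Op K :=
  ![(M * W1.mat3 (-(D g 1 * X 1)) (D g 1 * X 0) : Mat K) i,
    (M * W1.mat3 (D g 0 * X 1) (-(D g 0 * X 0)) : Mat K) i]

theorem of3_zero' (a b c d : Op K) : of3 ![![a, b], ![c, d]] 0 = ![0, 0, 0, a, b, 0, 0] := rfl
theorem of3_one' (a b c d : Op K) : of3 ![![a, b], ![c, d]] 1 = ![0, 0, 0, c, d, 0, 0] := rfl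

theorem id3 (w : Op K) : d3 (rX K) (rD g) w =
    ![![-(w * D g 1 * X 1), - -(w * D g 1 * X 0)], ![w * D g 0 * X 1, -(w * D g 0 * X 0)]] := by
  funext k i
  fin_cases k <;> fin_cases i <;> rfl

theorem row3 (M : Mat K) (i : Fin 7) : R3 g M i = f3 g (fun _ => M i) := by
  rw [f3, id3]
  funext l
  fin_cases l
  · show (M * W1.mat3 (-(D g 1 * X 1)) (D g 1 * X 0) : Mat K) i = of3 _ 0
    rw [mul_mat3, of3_zero', mul_neg, neg_neg, mul_assoc, mul_assoc]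
  · show (M * W1.mat3 (D g 0 * X 1) (-(D g 0 * X 0)) : Mat K) i = of3 _ 1
    rw [mul_mat3, of3_one', mul_neg, mul_assoc, mul_assoc]

theorem h3 (hg : Gen g) (x : Pv g 1 2) (i : Fin 7) : (fun l => (W1.d3 hg x l : A g 1).1.fst i) =
    f3 g (fun _ => (x : A g 1).1.fst i) := by
  rw [← row3]
  funext l
  fin_cases l <;> rfl

theorem h3' (hg : Gen g) (x : Pv g 1 2) (i : Fin 7) : (fun l => (W1.d3 hg x l : A g 1).1.snd i) =
    f3 g (fun _ => (x : A g 1).1.snd i) := by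
  rw [← row3]
  funext l
  fin_cases l
  · show ((x : A g 1) * ofM _ 0 (W1.p3_0 hg) (Pres.zero g 1 1)).1.snd i = _
    rw [snd_mul_ofM]; rfl
  · show ((x : A g 1) * ofM _ 0 (W1.p3_1 hg) (Pres.zero g 1 1)).1.snd i = _
    rw [snd_mul_ofM]; rfl

/-- **exactness of 952's resolution** -/
theorem e21W (hg : Gen g) : Function.Exact (W1.d2 hg) (W1.d1 hg) :=
  e21 hg _ _ (h1 hg) (h1' hg) (h2 hg) (h2' hg)

theorem e32W (hg : Gen g) : Function.Exact (W1.d3 hg) (W1.d2 hg) :=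
  e32 hg _ _ (h3 hg) (h3' hg) (h2 hg) (h2' hg)

theorem h3W (hg : Gen g) : Function.Injective (W1.d3 hg) := inj3 hg _ (h3 hg) (h3' hg)

end Crest.Agent.R186.W1A322
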