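import Crest.Agent.R186.SMp_890
import Crest.Agent.R186.KOSM_296

/-!
Row 186, half (A), leaf A.C1 (helper226): `890's M` is left cofree over `W`, entrywise: the
operators `sOp g` (`Σ_g sOp g (y_g m) = m` modulo the socle), `uOp g` (`y_g m = uOp g (π m)` modulo
the socle), `pOp`, and their degrees.
-/

set_option autoImplicit false
set_option linter.unusedSectionVars false

noncomputable section

namespace Crest.Agent.R186.WN226

open Crest.Agent.R186.DefsQ830 Crest.Agent.R186.PBW128
open Crest.Agent.R186.SM890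
open Crest.Agent.R186.WLF296 (sc_ne)
open Crest.Agent.R186.KOSM296 (cM cM_oM_nf oM_nf1 cM_oM_kill kill_cM sum_cM)

variable {K : Type} [Field K]

/-- operator given by coefficients and a map of the `W`-index -/
def Lop (c : Ix → K) (t : Wb → Wb) : N K →ₗ[K] N K :=
  Finsupp.linearCombination K (fun ν : Ix => c ν • bv K ν.1 ν.2.1 ν.2.2.1 ν.2.2.2.1 (t ν.2.2.2.2))

@[simp] theorem Lop_bv (c : Ix → K) (t : Wb → Wb) (i j k : ℕ) (w : List E) (q : Wb) :
    Lop c t (bv K i j k w q) = c (i, j, k, w, q) • bv K i j k w (t q) := by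
  simp [Lop, bv]

theorem Lop_mem (π : Par K) (s : ℕ) (c : Ix → K) (t : Wb → Wb) (e : ℤ)
    (h : ∀ ν : Ix, c ν ≠ 0 → (wC ν.2.2.2.2.word : ℤ) - wC (t ν.2.2.2.2).word = e)
    {P A C : ℤ} {n : MM π} (hn : n ∈ pcM π s P A C) :
    (Lop c t n : MM π) ∈ pcM π s P A (C + e) := by
  rw [pcM_supported] at hn ⊢
  have key : (Finsupp.supported K K (mI s P A C) : Submodule K (N K)) ≤
      (Finsupp.supported K K (mI s P A (C + e)) : Submodule K (N K)).comap (Lop c t) := by
    rw [Finsupp.supported_eq_span_single, Submodule.span_le]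
    rintro _ ⟨⟨i, j, k, w, q⟩, ⟨h1, h2, h3⟩, rfl⟩
    have e1 : (Finsupp.single (i, j, k, w, q) (1 : K) : N K) = bv K i j k w q := rfl
    change Lop c t (Finsupp.single (i, j, k, w, q) (1 : K)) ∈
      (Finsupp.supported K K (mI s P A (C + e)) : Submodule K (N K))
    rw [e1, Lop_bv]
    by_cases hc : c (i, j, k, w, q) = 0
    · rw [hc, zero_smul]
      exact Submodule.zero_mem _
    · refine Submodule.smul_mem _ _ ?_
      refine Finsupp.single_mem_supported K _ ⟨h1, h2, ?_⟩
      have h4 := h (i, j, k, w, q) hc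
      change (wC q.word : ℤ) - wC (t q).word = e at h4
      change (((w.map (fun l => l.toGen.dC)).sum : ℕ) : ℤ) - wC q.word + s = C at h3
      change (((w.map (fun l => l.toGen.dC)).sum : ℕ) : ℤ) - wC (t q).word + s = C + e
      omega
  exact key hn

/-! ### the operators -/

def sT : Y → Wb → Wb
  | g, .one => yw g
  | _, _ => .pi

def sK : Y → Wb → K
  | _, .one => 1
  | .y 1, .y 0 => 1
  | _, _ => 0

/-- left inverse of the `W`-letters -/
def sOp (π : Par K) (g : Y) : N K →ₗ[K] N K :=
  Lop (fun ν => (sc π g ν.1 ν.2.1 ν.2.2.2.1)⁻¹ * sK g ν.2.2.2.2) (sT g)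

def uK (π : Par K) (g : Y) : Wb → K
  | .one => dk π g .pi
  | _ => 0

/-- `y_g m = uOp g (π m)` modulo the socle -/
def uOp (π : Par K) (g : Y) : N K →ₗ[K] N K :=
  Lop (fun ν => (sc π (.y 0) ν.1 ν.2.1 ν.2.2.2.1 * sc π (.y 1) ν.1 ν.2.1 ν.2.2.2.1)⁻¹ *
    (sc π g ν.1 ν.2.1 ν.2.2.2.1 * uK π g ν.2.2.2.2)) (fun _ => dt g .pi)

/-- action of `π` -/
def piOp (π : Par K) : N K →ₗ[K] N K := opD π (.y 0) ∘ₗ opD π (.y 1)

/-- section of the action of `π` on the socle -/
def pOp (π : Par K) : N K →ₗ[K] N K :=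
  Lop (fun ν => (sc π (.y 0) ν.1 ν.2.1 ν.2.2.2.1 * sc π (.y 1) ν.1 ν.2.1 ν.2.2.2.1)⁻¹ *
    (if ν.2.2.2.2 = .one then 1 else 0)) (fun _ => .pi)

/-- projection onto the socle -/
def E1 (K : Type) [Field K] : N K →ₗ[K] N K :=
  Lop (fun ν => if ν.2.2.2.2 = .one then 1 else 0) id

theorem sumY {M : Type*} [AddCommMonoid M] (f : Y → M) :
    ∑ g, f g = f (.y 0) + f (.y 1) + (f (.yb 0) + f (.yb 1)) := by
  have h : (Finset.univ : Finset Y) = {.y 0, .y 1, .yb 0, .yb 1} := by decide
  rw [h]
  rw [Finset.sum_insert (by decide), Finset.sum_insert (by decide), Finset.sum_insert (by decide),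
    Finset.sum_singleton]
  abel

theorem piOp_bv (π : Par K) (i j k : ℕ) (w : List E) (q : Wb) : piOp π (bv K i j k w q) =
    if q = .pi then (sc π (.y 0) i j w * sc π (.y 1) i j w) • bv K i j k w .one else 0 := by
  rw [piOp, LinearMap.comp_apply, opD_bv, map_smul, opD_bv, smul_smul]
  rcases q with _ | s | s | _
  · simp [dk]
  · rcases fin2 s with rfl | rfl <;> simp [dk, dt]
  · simp [dk]
  · simp [dk, dt, mul_comm]

/-- **(1)** -/
theorem id1 (π : Par K) (n : N K) : n = ∑ g, sOp π g (opD π g n) + E1 K n := by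
  have h : LinearMap.id = (∑ g, sOp π g ∘ₗ opD π g) + E1 K := by
    apply ext_bv
    intro i j k w q
    rw [LinearMap.add_apply, LinearMap.sum_apply, sumY, LinearMap.id_apply]
    simp only [LinearMap.comp_apply, opD_bv, map_smul, sOp, E1, Lop_bv, smul_smul]
    rcases q with _ | s | s | _
    · simp [dk]
    · rcases fin2 s with rfl | rfl <;> simp [dk, dt, sK, sT, yw, sc_ne]
    · rcases fin2 s with rfl | rfl <;> simp [dk, dt, sK, sT, yw, sc_ne]
    · simp [dk, dt, sK, sT, yw, sc_ne]
  have := LinearMap.congr_fun h n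
  rw [LinearMap.add_apply, LinearMap.sum_apply] at this
  exact this

/-- **(2)** -/
theorem id2 (π : Par K) (g : Y) (n : N K) : opD π g n = uOp π g (piOp π n) + E1 K (opD π g n) := by
  have h : opD π g = uOp π g ∘ₗ piOp π + E1 K ∘ₗ opD π g := by
    apply ext_bv
    intro i j k w q
    rw [LinearMap.add_apply, LinearMap.comp_apply, LinearMap.comp_apply, piOp_bv, opD_bv, map_smul]
    rcases q with _ | s | s | _
    · simp [dk]
    · rcases g with t | t <;> rcases fin2 t with rfl | rfl <;> rcases fin2 s with rfl | rfl <;>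
        simp [dk, dt, E1]
    · rcases g with t | t <;> rcases fin2 t with rfl | rfl <;> rcases fin2 s with rfl | rfl <;>
        simp [dk, dt, E1]
    · rw [if_pos rfl, map_smul, uOp, Lop_bv, E1, Lop_bv, smul_smul]
      have h0 := sc_ne π (.y 0) i j w
      have h1 := sc_ne π (.y 1) i j w
      have e : sc π (.y 0) i j w * sc π (.y 1) i j w *
          ((sc π (.y 0) i j w * sc π (.y 1) i j w)⁻¹ * (sc π g i j w * uK π g .one)) =
          sc π g i j w * dk π g .pi := by
        rw [← mul_assoc, mul_inv_cancel₀ (mul_ne_zero h0 h1), one_mul]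
        rfl
      rw [e]
      rcases g with t | t <;> rcases fin2 t with rfl | rfl <;> simp [dk, dt]
  have := LinearMap.congr_fun h n
  exact this

/-- **(3)** -/
theorem id3 (π : Par K) (n : N K) : piOp π n = E1 K (piOp π n) := by
  have h : piOp π = E1 K ∘ₗ piOp π := by
    apply ext_bv
    intro i j k w q
    rw [LinearMap.comp_apply, piOp_bv]
    split_ifs
    · rw [map_smul, E1, Lop_bv]
      simp
    · rw [map_zero]
  exact LinearMap.congr_fun h n

/-- **(4)** -/
theorem id4 (π : Par K) (g g' : Y) (n : N K) : opD π g' (sOp π g (E1 K n)) =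
    if g' = g then E1 K n else 0 := by
  have h : opD π g' ∘ₗ sOp π g ∘ₗ E1 K = if g' = g then E1 K else 0 := by
    apply ext_bv
    intro i j k w q
    rw [LinearMap.comp_apply, LinearMap.comp_apply, E1, Lop_bv, map_smul, map_smul, sOp]
    by_cases hq : q = .one
    · subst hq
      simp only [id, if_true, Lop_bv, map_smul, opD_bv, smul_smul, sT, sK]
      by_cases hg : g' = g
      · subst hg
        rw [if_pos rfl]
        rcases g' with t | t <;> rcases fin2 t with rfl | rfl <;>
          simp [dk, dt, yw, sc_ne]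
      · rw [if_neg hg]
        rcases g with t | t <;> rcases fin2 t with rfl | rfl <;>
          rcases g' with t' | t' <;> rcases fin2 t' with rfl | rfl <;>
          first
          | exact absurd rfl hg
          | simp [dk, dt, yw]
    · rw [if_neg hq, zero_smul]
      split_ifs
      · rw [Lop_bv, if_neg hq, zero_smul]
      · rfl
  have h2 := LinearMap.congr_fun h n
  rw [LinearMap.comp_apply, LinearMap.comp_apply] at h2
  rw [h2]
  split_ifs <;> rfl

theorem id4' (π : Par K) (g : Y) (n : N K) : piOp π (sOp π g (E1 K n)) = 0 := by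
  rw [piOp, LinearMap.comp_apply, id4]
  split_ifs with h
  · have h2 : opD π (.y 0) ∘ₗ E1 K = 0 := by
      apply ext_bv
      intro i j k w q
      rw [LinearMap.comp_apply, E1, Lop_bv, map_smul]
      by_cases hq : q = .one
      · subst hq
        simp [dk]
      · rw [if_neg hq, zero_smul]
        rfl
    exact LinearMap.congr_fun h2 n
  · exact map_zero _

/-- **(5)** -/
theorem id5 (π : Par K) (n : N K) : piOp π (pOp π (E1 K n)) = E1 K n := by
  have h : piOp π ∘ₗ pOp π ∘ₗ E1 K = E1 K := by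
    apply ext_bv
    intro i j k w q
    rw [LinearMap.comp_apply, LinearMap.comp_apply, E1, Lop_bv, map_smul, map_smul, pOp]
    by_cases hq : q = .one
    · subst hq
      have h0 := sc_ne π (.y 0) i j w
      have h1 := sc_ne π (.y 1) i j w
      simp only [if_true]
      rw [id, Lop_bv, map_smul, piOp_bv, if_pos rfl, smul_smul]
      simp only [if_true, mul_one]
      rw [one_mul, smul_smul, inv_mul_cancel₀ (mul_ne_zero h0 h1)]
    · rw [if_neg hq, zero_smul, zero_smul]
  exact LinearMap.congr_fun h n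

/-! ### degrees -/

theorem sOp_mem (π : Par K) (s : ℕ) (g : Y) {P A C : ℤ} {n : MM π} (hn : n ∈ pcM π s P A C) :
    (sOp π g n : MM π) ∈ pcM π s P A (C - g.toGen.dC) := by
  rw [sub_eq_add_neg]
  refine Lop_mem π s _ _ _ ?_ hn
  rintro ⟨i, j, k, w, q⟩ h
  have h' : sK (K := K) g q ≠ 0 := fun h0 => h (by
    change _ * sK g q = 0
    rw [h0, mul_zero])
  clear h
  rcases q with _ | t | t | _ <;> rcases g with t' | t' <;> rcases fin2 t' with rfl | rfl <;>
    (try rcases fin2 t with rfl | rfl) <;>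
    first
    | (exfalso; exact h' rfl)
    | (simp [sT, yw, Wb.word, wC, Gen.dC, Y.toGen]; done)

theorem uOp_mem (π : Par K) (s : ℕ) (g : Y) {P A C : ℤ} {n : MM π} (hn : n ∈ pcM π s P A C) :
    (uOp π g n : MM π) ∈ pcM π s P A (C + g.toGen.dC - 1) := by
  rw [add_sub_assoc]
  refine Lop_mem π s _ _ _ ?_ hn
  rintro ⟨i, j, k, w, q⟩ h
  have h' : uK π g q ≠ 0 := fun h0 => h (by
    change _ * (_ * uK π g q) = 0
    rw [h0, mul_zero, mul_zero])
  clear h
  rcases q with _ | t | t | _ <;> rcases g with t' | t' <;> rcases fin2 t' with rfl | rfl <;>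
    (try rcases fin2 t with rfl | rfl) <;>
    first
    | (exfalso; exact h' rfl)
    | (simp [dt, Wb.word, wC, Gen.dC, Y.toGen]; done)

theorem pOp_mem (π : Par K) (s : ℕ) {P A C : ℤ} {n : MM π} (hn : n ∈ pcM π s P A C) :
    (pOp π n : MM π) ∈ pcM π s P A (C - 1) := by
  rw [sub_eq_add_neg]
  refine Lop_mem π s _ _ _ ?_ hn
  rintro ⟨i, j, k, w, q⟩ h
  have h' : q = .one := by
    by_contra h0
    refine h ?_
    change _ * (if q = .one then (1 : K) else 0) = 0
    rw [if_neg h0, mul_zero]
  subst h'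
  simp [Wb.word, wC, Gen.dC]

/-! ### the socle -/

theorem E1_soc (π : Par K) (r : R π) : (E1 K (oM π .one r) : N K) = oM π .one r := by
  have h : E1 K ∘ₗ evM π (oo K .one) = evM π (oo K .one) := by
    refine nf_ext π fun i j k w q => ?_
    rw [LinearMap.comp_apply]
    have e : evM π (oo K .one) (nf1 π i j k w * wq π q) =
        cW π q .one • bv K i j k w (tW q .one) := by
      rw [← nf_eq]
      exact SM890.oM_nf π i j k w q .one
    rw [e, map_smul, E1, Lop_bv]
    rcases q with _ | t | t | _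
    · simp [tW]
    · rcases fin2 t with rfl | rfl <;> simp [cW, dk]
    · simp [cW, dk]
    · simp [cW, dk, dt]
  exact LinearMap.congr_fun h r

theorem soc_cM (π : Par K) (n : MM π) : oM π .one (cM π .one n) = E1 K n := by
  have h : evM π (oo K .one) ∘ₗ KOSM296.cN π .one = E1 K := by
    apply ext_bv
    intro i j k w q
    rw [LinearMap.comp_apply, KOSM296.cN_bv, E1, Lop_bv]
    by_cases hq : q = .one
    · subst hq
      rw [if_pos rfl]
      change repM π (nf1 π i j k w) (oo K .one) = _
      rw [repM_nf1]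
      simp
    · rw [if_neg hq, map_zero, if_neg hq, zero_smul]
  exact LinearMap.congr_fun h n

end Crest.Agent.R186.WN226
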