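import Crest.Agent.R186.C2W_655
import Crest.Agent.R186.TLW_890
import Crest.Agent.R186.C2G_226
import Crest.Agent.R186.WNa_226

/-!
Row 186, half (A), leaf A.C1 (helper226): the concrete instances.

* `wnM` : 890's window `M` is cofree over `W` with socle `tL`;
* `wgM : WG (waR π) (DM π s hs) (DtL π s)` : input of 655's `c2pp`;
* `welR : FWI226.WEl (WR π).dga`, `rfreeR`, `rfreeY`, `rfreeM` : input of 468's `c2s`.
-/

set_option autoImplicit false
set_option linter.unusedSectionVars false

noncomputable section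

open MulOpposite

namespace Crest.Agent.R186.WNM226

open Hat827 Win810 Win810.WD Frame515 WBM163 FinV988 Core890 SExt44 DefsQ830 WL221
open PBW128 SM890 WN226 C2G226 C2pp655
open C2W655 (yW piW dy dpi waR dgw en en_ext)

variable {K : Type} [Field K] (π : Par K) (s : ℕ) (hs : 2 ≤ s)

/-! ### entrywise operators on the window of `M` -/

/-- entrywise operator -/
def opW (f : MM π →ₗ[K] MM π) (e : ℤ)
    (hf : ∀ {P A C : ℤ} {m : MM π}, m ∈ pcM π s P A C → f m ∈ pcM π s P A (C + e)) :
    (MW π s hs).X →ₗ[K] (MW π s hs).X where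
  toFun m := (⟨fun i j => f (m.1 i j), fun i j => by
    have h : E (tbOf (bdM π s hs)) i j ≤ (E (tbOf (bdM π s hs)) i j).comap f := by
      refine iSup_le fun k x hx => ?_
      refine q_le_E (tbOf (bdM π s hs)) i j (k + e) ?_
      exact (le_of_eq (q_tbOf (bdM π s hs) i j (k + e)).symm)
        (hf ((le_of_eq (q_tbOf (bdM π s hs) i j k)) hx))
    exact h (m.2 i j)⟩ : Xs (tbOf (bdM π s hs)))
  map_add' m n := by
    apply Subtype.ext
    funext i j
    exact map_add f _ _
  map_smul' c m := by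
    apply Subtype.ext
    funext i j
    exact map_smul f _ _

variable {π s hs}

theorem opW_apply (f : MM π →ₗ[K] MM π) (e : ℤ)
    (hf : ∀ {P A C : ℤ} {m : MM π}, m ∈ pcM π s P A C → f m ∈ pcM π s P A (C + e))
    (m : (MW π s hs).X) (i j : DefsQ830.Ob) : (opW π s hs f e hf m).1 i j = f (m.1 i j) := rfl

theorem opW_mem (f : MM π →ₗ[K] MM π) (e : ℤ)
    (hf : ∀ {P A C : ℤ} {m : MM π}, m ∈ pcM π s P A C → f m ∈ pcM π s P A (C + e))
    {k : ℤ} {m : (MW π s hs).X} (hm : m ∈ (MW π s hs).gr k) :
    opW π s hs f e hf m ∈ (MW π s hs).gr (k + e) :=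
  (mem_grM (bdM π s hs)).2 fun i j => hf ((mem_grM (bdM π s hs)).1 hm i j)

theorem mw_ext {m n : (MW π s hs).X} (h : ∀ i j, m.1 i j = n.1 i j) : m = n := by
  apply Subtype.ext
  funext i j
  exact h i j

/-- left multiplication by a diagonal matrix -/
theorem dgw_smul (a : R π) (c : ℤ) (ha : a ∈ (WR π).pc 0 0 c) (m : (MW π s hs).X)
    (i j : DefsQ830.Ob) : ((show (WR π).dga.C from dgw (WR π) a c ha) • m : (MW π s hs).X).1 i j =
      repM π a (m.1 i j) := by
  change ∑ l : DefsQ830.Ob, repM π (Matrix.diagonal (fun _ => a) i l) (m.1 l j) = _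
  rw [Finset.sum_eq_single i]
  · rw [Matrix.diagonal_apply_eq]
  · intro l _ hl
    rw [Matrix.diagonal_apply_ne _ (Ne.symm hl), map_zero]
    rfl
  · intro h
    exact absurd (Finset.mem_univ i) h

theorem yW_smul (g : Y) (m : (MW π s hs).X) (i j : DefsQ830.Ob) :
    ((show (WR π).dga.C from yW π g) • m : (MW π s hs).X).1 i j = opD π g (m.1 i j) := by
  refine (dgw_smul _ _ _ m i j).trans ?_
  rw [repM_Y]

theorem repM_pi (n : N K) : repM π (wq π .pi) n = piOp π n := by
  rw [wq_pi, map_mul, Module.End.mul_apply, show X π (.y 1) = X π (Y.y 1).toGen from rfl,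
    show X π (.y 0) = X π (Y.y 0).toGen from rfl, repM_Y, repM_Y]
  rfl

theorem piW_smul (m : (MW π s hs).X) (i j : DefsQ830.Ob) :
    ((show (WR π).dga.C from piW π) • m : (MW π s hs).X).1 i j = piOp π (m.1 i j) :=
  (dgw_smul _ _ _ m i j).trans (repM_pi _)

/-- projection onto the socle = section ∘ retraction -/
theorem soc_ret (m : MM π) : socE π (retE π m) = E1 K m := by
  change socE π (prL π (KOSM296.cM π .one m)) = _
  rw [socE_prL]
  exact soc_cM π m

theorem socW_retW (m : (MW π s hs).X) (i j : DefsQ830.Ob) :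
    (socW π s hs (retW π s hs m)).1 i j = E1 K (m.1 i j) := by
  rw [socW_apply, retW_apply]
  exact soc_ret _

theorem E1_socE (z : RL π) : E1 K (socE π z : N K) = socE π z := E1_soc π z.1

theorem id4s (g g' : Y) (z : RL π) : opD π g' (sOp π g (socE π z)) =
    if g' = g then (socE π z : N K) else 0 := by
  have h := id4 π g g' (socE π z)
  rw [E1_socE] at h
  exact h

theorem id4s' (g : Y) (z : RL π) : piOp π (sOp π g (socE π z)) = 0 := by
  have h := id4' π g (socE π z)
  rw [E1_socE] at h
  exact h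

theorem id5s (z : RL π) : piOp π (pOp π (socE π z)) = socE π z := by
  have h := id5 π (socE π z)
  rw [E1_socE] at h
  exact h

theorem coe_sumY (f : Y → (MW π s hs).X) (i j : DefsQ830.Ob) :
    (∑ g, f g : (MW π s hs).X).1 i j = ∑ g, (f g).1 i j :=
  coe_sumS (T := tbOf (bdM π s hs)) Finset.univ
    (fun g => (show Xs (tbOf (bdM π s hs)) from f g)) i j

theorem coe_add (a b : (MW π s hs).X) (i j : DefsQ830.Ob) :
    (a + b : (MW π s hs).X).1 i j = a.1 i j + b.1 i j := rfl

variable (π s hs)

theorem dpi_one : dpi = 1 := by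
  simp [dpi, Wb.word, wC, Gen.dC]

/-- the operator `s_g` -/
def sW (g : Y) : (MW π s hs).X →ₗ[K] (MW π s hs).X :=
  opW π s hs (sOp π g) (-(dy g : ℤ)) fun hm => by
    rw [← sub_eq_add_neg]
    exact sOp_mem π s g hm

/-- the operator `u_g` -/
def uW (g : Y) : (MW π s hs).X →ₗ[K] (MW π s hs).X :=
  opW π s hs (uOp π g) ((dy g : ℤ) - dpi) fun hm => by
    rw [← add_sub_assoc, dpi_one]
    exact uOp_mem π s g hm

/-- section of `π` -/
def pW : (MW π s hs).X →ₗ[K] (MW π s hs).X :=
  opW π s hs (pOp π) (-1) fun hm => by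
    rw [← sub_eq_add_neg]
    exact pOp_mem π s hm

/-- **`M` is cofree over `W` with socle `tL`** -/
def wnM : WN (A := (WR π).dga) (yW π) dy (piW π) dpi (C2W655.prHm π) (MW π s hs).toLM
    (tLW π s).toLM where
  i := socW π s hs
  i_d := socW_d
  i_smul := socW_l
  i_mem := socW_mem
  r := retW π s hs
  r_mem := retW_mem
  r_i := retW_socW π s hs
  P := prLM π s hs
  s := sW π s hs
  s_mem g {k n} hn := by
    have := opW_mem (π := π) (s := s) (hs := hs) (sOp π g) (-(dy g : ℤ)) (fun hm => by
      rw [← sub_eq_add_neg]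
      exact sOp_mem π s g hm) hn
    rwa [← sub_eq_add_neg] at this
  u := uW π s hs
  u_mem g {k n} hn := by
    have := opW_mem (π := π) (s := s) (hs := hs) (uOp π g) ((dy g : ℤ) - dpi) (fun hm => by
      rw [← add_sub_assoc, dpi_one]
      exact uOp_mem π s g hm) hn
    rwa [← add_sub_assoc] at this
  hs n := by
    refine ⟨retW π s hs n, mw_ext fun i j => ?_⟩
    refine (id1 π _).trans ?_
    refine Eq.trans ?_ (coe_add _ _ i j).symm
    refine congrArg₂ (· + ·) ?_ (socW_retW n i j).symm
    refine Eq.trans ?_ (coe_sumY _ i j).symm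
    exact Finset.sum_congr rfl fun g _ => congrArg (sOp π g) (yW_smul g n i j).symm
  hu g n := by
    refine ⟨retW π s hs ((show (WR π).dga.C from yW π g) • n), mw_ext fun i j => ?_⟩
    refine (yW_smul g n i j).trans ((id2 π g _).trans ?_)
    refine Eq.trans ?_ (coe_add _ _ i j).symm
    refine congrArg₂ (· + ·) (congrArg (uOp π g) (piW_smul n i j).symm) ?_
    refine Eq.trans ?_ (socW_retW _ i j).symm
    exact congrArg (E1 K) (yW_smul g n i j).symm
  hp n := by
    refine ⟨retW π s hs ((show (WR π).dga.C from piW π) • n), mw_ext fun i j => ?_⟩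
    refine (piW_smul n i j).trans ((id3 π _).trans ?_)
    refine Eq.trans ?_ (socW_retW _ i j).symm
    exact congrArg (E1 K) (piW_smul n i j).symm
  f1 g z := by
    refine ⟨sW π s hs g (socW π s hs z), mw_ext fun i j => ?_, fun g' hg => mw_ext fun i j => ?_,
      mw_ext fun i j => ?_⟩
    · exact (yW_smul g _ i j).trans ((id4s g g _).trans (if_pos rfl))
    · exact (yW_smul g' _ i j).trans ((id4s g g' _).trans (if_neg hg))
    · exact (piW_smul _ i j).trans (id4s' g _)
  f2 z := by
    refine ⟨pW π s hs (socW π s hs z), mw_ext fun i j => ?_⟩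
    exact (piW_smul _ i j).trans (id5s _)

/-- **655's `WG` for `D(M) → D(tL)`** -/
def wgM : WG (waR π) (DM π s hs) (DtL π s) := wgOf (waR π) (wnM π s hs)

/-- **(c2'')**: right cells of `D(M)` push forward to right cells of `D(tL)` -/
def c2ppM {Yc : RCells (WR π).dga} (R : Res255.RRes Yc (DM π s hs)) :
    Res255.RRes (Res255.pushR (C2W655.prHm π) Yc) (DtL π s) := c2pp (waR π) (wgM π s hs) R

end Crest.Agent.R186.WNM226
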