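import Crest.Agent.R186.WTen_163

/-!
Row 186, half (A) (helper163): the tensor products `tP T.win X.toL : LM`, `tQ Y.toR T.win : RM` are the
windows of the global modules `T.ten X : TL w`, `T.tenR Y : TR w'` (maps both ways, linear over the
window algebras, mutually inverse on homogeneous elements, quasi-isomorphisms).
-/

set_option autoImplicit false
set_option linter.style.haveILetI false
set_option linter.unusedSectionVars false

open scoped MulOpposite

namespace Crest.Agent.R186.WBM163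

open Hat827 Win810 Win810.WD Frame515

variable {K : Type} [Field K]

namespace TB

variable {w w' : WD K} (T : TB w w')

/-- an entry -/
def ev (i : w.Ob) (j : w'.Ob) : T.X →ₗ[K] T.B where
  toFun m := m i j
  map_add' _ _ := rfl
  map_smul' _ _ := rfl

@[simp] theorem ev_apply (i : w.Ob) (j : w'.Ob) (m : T.X) : T.ev i j m = m i j := rfl

/-- the matrix with one column `j` -/
noncomputable def colM (j : w'.Ob) : (w.Ob → T.B) →ₗ[K] T.X where
  toFun x := fun i j' => if j = j' then x i else 0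
  map_add' x y := by
    funext i j'
    change (if j = j' then x i + y i else 0) = (if j = j' then x i else 0) + (if j = j' then y i else 0)
    split_ifs <;> simp
  map_smul' c x := by
    funext i j'
    change (if j = j' then c • x i else 0) = c • (if j = j' then x i else 0)
    split_ifs <;> simp

/-- the matrix with one row `i` -/
noncomputable def rowM (i : w.Ob) : (w'.Ob → T.B) →ₗ[K] T.X where
  toFun x := fun i' j => if i = i' then x j else 0
  map_add' x y := by
    funext i' j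
    change (if i = i' then x j + y j else 0) = (if i = i' then x j else 0) + (if i = i' then y j else 0)
    split_ifs <;> simp
  map_smul' c x := by
    funext i' j
    change (if i = i' then c • x j else 0) = c • (if i = i' then x j else 0)
    split_ifs <;> simp

theorem colM_apply (j : w'.Ob) (x : w.Ob → T.B) (i : w.Ob) (j' : w'.Ob) :
    T.colM j x i j' = if j = j' then x i else 0 := rfl

theorem rowM_apply (i : w.Ob) (x : w'.Ob → T.B) (i' : w.Ob) (j : w'.Ob) :
    T.rowM i x i' j = if i = i' then x j else 0 := rfl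

/-- coordinates of a finite family of finitely supported functions -/
noncomputable def crd (O ι M : Type) [Fintype O] [DecidableEq O] [AddCommGroup M] [Module K M] :
    (O → ι →₀ M) →ₗ[K] (ι →₀ (O → M)) :=
  ∑ i : O, (dm fun _ : ι => (LinearMap.single K (fun _ : O => M) i)) ∘ₗ
    (LinearMap.proj i : (O → ι →₀ M) →ₗ[K] (ι →₀ M))

theorem crd_apply {O ι M : Type} [Fintype O] [DecidableEq O] [AddCommGroup M] [Module K M]
    (y : O → ι →₀ M) (σ : ι) (i : O) : crd (K := K) O ι M y σ i = y i σ := by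
  unfold crd
  rw [LinearMap.sum_apply, Finsupp.finsetSum_apply, Finset.sum_apply]
  have h1 : ∀ a : O, ((dm fun _ : ι => (LinearMap.single K (fun _ : O => M) a)) ∘ₗ
      (LinearMap.proj a : (O → ι →₀ M) →ₗ[K] (ι →₀ M))) y σ i = if a = i then y i σ else 0 := by
    intro a
    rw [LinearMap.comp_apply, dm_apply, LinearMap.single_apply, LinearMap.proj_apply, Pi.single_apply]
    by_cases h : i = a
    · rw [if_pos h, if_pos h.symm, h]
    · rw [if_neg h, if_neg (fun h' => h h'.symm)]
  rw [Finset.sum_congr rfl fun a _ => h1 a, Finset.sum_ite_eq' , if_pos (Finset.mem_univ _)]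

section left

variable (X : WLC w')

/-- the differential of `tP T.win X.toL` -/
noncomputable def wd : (X.ι →₀ T.X) →ₗ[K] (X.ι →₀ T.X) := (twG T.win.toRM X.toL).dd

theorem op_cw_smul (σ τ : X.ι) (m : T.X) (i : w.Ob) :
    (MulOpposite.op (X.cw σ τ) • m) i (X.o τ) = T.r (.op (X.c σ τ)) (m i (X.o σ)) := by
  rw [op_smul_apply, Finset.sum_eq_single (X.o σ)]
  · congr 2
    unfold WLC.cw
    rw [ws_apply, if_pos ⟨rfl, rfl⟩]
  · intro l _ hl
    unfold WLC.cw
    rw [ws_apply, if_neg (fun h => hl h.1.symm), MulOpposite.op_zero, map_zero]; rfl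
  · intro h
    exact absurd (Finset.mem_univ _) h

theorem op_cw_smul' (σ τ : X.ι) (m : T.X) (i : w.Ob) (j : w'.Ob) :
    (MulOpposite.op (X.cw σ τ) • m) i j =
      if X.o τ = j then T.r (.op (X.c σ τ)) (m i (X.o σ)) else 0 := by
  by_cases h : X.o τ = j
  · subst h
    rw [if_pos rfl, op_cw_smul]
  · rw [if_neg h, op_smul_apply]
    refine Finset.sum_eq_zero fun l _ => ?_
    unfold WLC.cw
    rw [ws_apply, if_neg (fun h' => h h'.2), MulOpposite.op_zero, map_zero]; rfl

theorem wd_apply (x : X.ι →₀ T.X) (S : Finset X.ι) (hS : x.support ⊆ S) (τ : X.ι) :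
    T.wd X x τ = T.dX (x τ) + ∑ σ ∈ S, MulOpposite.op (X.cw σ τ) • x σ :=
  (twG T.win.toRM X.toL).dd_apply' x S hS τ

/-- reduction -/
noncomputable def rd : (X.ι →₀ T.X) →ₗ[K] (T.ten X).X where
  toFun x := fun i => dm (fun σ => T.ev i (X.o σ)) x
  map_add' _ _ := funext fun _ => map_add _ _ _
  map_smul' _ _ := funext fun _ => map_smul _ _ _

theorem rd_apply (x : X.ι →₀ T.X) (i : w.Ob) (σ : X.ι) :
    (show X.ι →₀ T.B from T.rd X x i) σ = x σ i (X.o σ) := dm_apply _ _ _

/-- inclusion -/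
noncomputable def ic : (T.ten X).X →ₗ[K] (X.ι →₀ T.X) :=
  (dm fun σ => T.colM (X.o σ)) ∘ₗ (crd (K := K) w.Ob X.ι T.B)

theorem ic_apply (y : (T.ten X).X) (σ : X.ι) (i : w.Ob) (j : w'.Ob) :
    T.ic X y σ i j = if X.o σ = j then (show X.ι →₀ T.B from y i) σ else 0 := by
  have h1 : T.ic X y σ = T.colM (X.o σ) (crd (K := K) w.Ob X.ι T.B y σ) := dm_apply _ _ _
  rw [h1, colM_apply]
  split_ifs
  · exact crd_apply (K := K) (O := w.Ob) (ι := X.ι) (M := T.B) y σ i
  · rfl

theorem rd_ic (y : (T.ten X).X) : T.rd X (T.ic X y) = y := by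
  refine TL.ext _ fun i => ?_
  refine Finsupp.ext fun σ => ?_
  refine (T.rd_apply X _ i σ).trans ?_
  rw [ic_apply, if_pos rfl]

theorem rd_wd (x : X.ι →₀ T.X) : T.rd X (T.wd X x) = (T.ten X).dX (T.rd X x) := by
  classical
  refine TL.ext _ fun i => ?_
  refine Finsupp.ext fun τ => ?_
  refine (T.rd_apply X _ i τ).trans ?_
  have hS : (show X.ι →₀ T.B from T.rd X x i).support ⊆ x.support := by
    intro σ hσ
    rw [Finsupp.mem_support_iff] at hσ ⊢
    intro h
    exact hσ ((T.rd_apply X x i σ).trans (by rw [h]; rfl))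
  have h2 := T.ten_d X (T.rd X x i) x.support hS τ
  refine Eq.trans ?_ h2.symm
  rw [T.wd_apply X x x.support (Finset.Subset.refl _) τ, add_apply, dX_apply, sum_apply]
  congr 1
  · exact congrArg _ (T.rd_apply X x i τ).symm
  · refine Finset.sum_congr rfl fun σ _ => ?_
    rw [op_cw_smul]
    exact congrArg _ (T.rd_apply X x i σ).symm

theorem ic_wd (y : (T.ten X).X) : T.ic X ((T.ten X).dX y) = T.wd X (T.ic X y) := by
  classical
  refine Finsupp.ext fun τ => TB.ext _ fun i j => ?_
  rw [ic_apply]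
  let S : Finset X.ι := (show X.ι →₀ T.B from y i).support ∪ (T.ic X y).support
  rw [T.wd_apply X (T.ic X y) S Finset.subset_union_right τ, add_apply, dX_apply, sum_apply, ic_apply]
  have h2 := T.ten_d X (y i) S Finset.subset_union_left τ
  have h3 : ∀ σ ∈ S, (MulOpposite.op (X.cw σ τ) • T.ic X y σ) i j =
      if X.o τ = j then T.r (.op (X.c σ τ)) ((show X.ι →₀ T.B from y i) σ) else 0 := by
    intro σ _
    rw [op_cw_smul', ic_apply, if_pos rfl]
  rw [Finset.sum_congr rfl h3]
  by_cases h : X.o τ = j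
  · simp only [if_pos h]
    exact h2
  · simp only [if_neg h, map_zero, Finset.sum_const_zero, add_zero]

theorem rd_smul (a : w.Win) (x : X.ι →₀ T.X) : T.rd X (a • x) = a • T.rd X x := by
  refine TL.ext _ fun i => ?_
  refine Finsupp.ext fun σ => ?_
  refine (T.rd_apply X _ i σ).trans ?_
  have h1 : (a • T.rd X x) i = ∑ l, (T.ten X).l (a.1 i l) (T.rd X x l) := TL.smul_apply _ _ _ _
  have h2 : (show X.ι →₀ T.B from (a • T.rd X x) i) σ =
      ∑ l, (show X.ι →₀ T.B from (T.ten X).l (a.1 i l) (T.rd X x l)) σ := by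
    rw [h1]
    exact Finsupp.finsetSum_apply _ _ _
  refine Eq.trans ?_ h2.symm
  change (a • x σ) i (X.o σ) = _
  rw [smul_apply]
  refine Finset.sum_congr rfl fun l _ => ?_
  refine Eq.trans ?_ (aF_apply T.l (a.1 i l) (show X.ι →₀ T.B from T.rd X x l) σ).symm
  exact congrArg _ (T.rd_apply X x l σ).symm

theorem ic_smul (a : w.Win) (y : (T.ten X).X) : T.ic X (a • y) = a • T.ic X y := by
  refine Finsupp.ext fun σ => TB.ext _ fun i j => ?_
  change T.ic X (a • y) σ i j = (a • T.ic X y σ) i j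
  rw [ic_apply, smul_apply]
  have h1 : (show X.ι →₀ T.B from (a • y) i) σ =
      ∑ l, T.l (a.1 i l) ((show X.ι →₀ T.B from y l) σ) := by
    have h1 : (a • y) i = ∑ l, (T.ten X).l (a.1 i l) (y l) := TL.smul_apply _ _ _ _
    rw [h1]
    refine (Finsupp.finsetSum_apply _ _ _).trans ?_
    exact Finset.sum_congr rfl fun l _ => aF_apply T.l (a.1 i l) (show X.ι →₀ T.B from y l) σ
  rw [h1]
  simp only [ic_apply]
  by_cases h : X.o σ = j
  · simp only [if_pos h]
  · simp only [if_neg h, map_zero, Finset.sum_const_zero]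

/-- reduction, as a map of complexes (linear: `rd_smul`) -/
noncomputable def red : GCHom (tP T.win X.toL).toGC (T.ten X).win.toGC where
  f := T.rd X
  f_mem {k x} hx i := by
    refine (T.ten_q X).2 fun σ => ?_
    have h1 := T.rd_apply X x i σ
    have h2 : (show X.ι →₀ T.X from x) σ i (X.o σ) ∈ T.q i (X.o σ) (k - X.s σ) := (hx σ).1 i (X.o σ)
    exact h1 ▸ h2
  f_d x := T.rd_wd X x

/-- inclusion, as a map of complexes (linear: `ic_smul`) -/
noncomputable def inc : GCHom (T.ten X).win.toGC (tP T.win X.toL).toGC where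
  f := T.ic X
  f_mem {k y} hy σ := by
    have hy' : ∀ i σ, (show X.ι →₀ T.B from (show (T.ten X).X from y) i) σ ∈
        T.q i (X.o σ) (k - X.s σ) := fun i => (T.ten_q X).1 (hy i)
    have h2 : T.ic X y σ ∈ T.gr (k - X.s σ) := fun i j => by
      rw [ic_apply]
      split_ifs with h
      · rw [← h]; exact hy' i σ
      · exact Submodule.zero_mem _
    have h3 : MulOpposite.op (e (X.o σ)) • T.ic X y σ = T.ic X y σ := by
      refine TB.ext _ fun i j => ?_
      rw [op_smul_apply, Finset.sum_eq_single j]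
      · unfold e
        rw [ws_apply, ic_apply]
        by_cases h : X.o σ = j
        · rw [if_pos ⟨h, h⟩, if_pos h, MulOpposite.op_one, map_one]; rfl
        · rw [if_neg h, map_zero]
      · intro l _ hl
        unfold e
        rw [ws_apply, if_neg (fun h => hl (h.1.symm.trans h.2)), MulOpposite.op_zero, map_zero]; rfl
      · intro h
        exact absurd (Finset.mem_univ _) h
    exact ⟨h2, h3⟩
  f_d y := T.ic_wd X y

theorem ic_rd {k : ℤ} (x : X.ι →₀ T.X) (hx : x ∈ (tP T.win X.toL).gr k) :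
    T.ic X (T.rd X x) = x := by
  refine Finsupp.ext fun σ => TB.ext _ fun i j => ?_
  have h : MulOpposite.op (e (X.o σ)) • x σ = x σ := (hx σ).2
  rw [ic_apply]
  split_ifs with hj
  · refine (T.rd_apply X x i σ).trans ?_
    rw [hj]
  · rw [← h, op_smul_apply]
    refine (Finset.sum_eq_zero fun l _ => ?_).symm
    unfold e
    rw [ws_apply, if_neg (fun h => hj h.2), MulOpposite.op_zero, map_zero]; rfl

theorem red_qi : QI (T.red X) :=
  qi_of_inv (T.red X) (T.inc X) (fun x hx => T.ic_rd X x hx) fun y _ => T.rd_ic X y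

theorem inc_qi : QI (T.inc X) :=
  qi_of_inv (T.inc X) (T.red X) (fun y _ => T.rd_ic X y) fun x hx => T.ic_rd X x hx

theorem ten_ac : Ac (tP T.win X.toL).toGC ↔ Ac (T.ten X).win.toGC :=
  ⟨ac_of_inv (T.red X) (T.inc X) fun y _ => T.rd_ic X y,
    ac_of_inv (T.inc X) (T.red X) fun x hx => T.ic_rd X x hx⟩

end left

section right

variable (Y : WRC w)

/-- the differential of `tQ Y.toR T.win` -/
noncomputable def wdR : (Y.ι →₀ T.X) →ₗ[K] (Y.ι →₀ T.X) := (twY Y.toR T.win.toLM).dd

theorem cw_smul (σ τ : Y.ι) (m : T.X) (j : w'.Ob) :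
    (Y.cw τ σ • m) (Y.o τ) j = T.l (Y.c τ σ) (m (Y.o σ) j) := by
  rw [smul_apply, Finset.sum_eq_single (Y.o σ)]
  · congr 2
    unfold WRC.cw
    rw [ws_apply, if_pos ⟨rfl, rfl⟩]
  · intro l _ hl
    unfold WRC.cw
    rw [ws_apply, if_neg (fun h => hl h.2.symm), map_zero]; rfl
  · intro h
    exact absurd (Finset.mem_univ _) h

theorem cw_smul' (σ τ : Y.ι) (m : T.X) (i : w.Ob) (j : w'.Ob) :
    (Y.cw τ σ • m) i j = if Y.o τ = i then T.l (Y.c τ σ) (m (Y.o σ) j) else 0 := by
  by_cases h : Y.o τ = i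
  · subst h
    rw [if_pos rfl, cw_smul]
  · rw [if_neg h, smul_apply]
    refine Finset.sum_eq_zero fun l _ => ?_
    unfold WRC.cw
    rw [ws_apply, if_neg (fun h' => h h'.1), map_zero]; rfl

theorem wdR_apply (x : Y.ι →₀ T.X) (S : Finset Y.ι) (hS : x.support ⊆ S) (τ : Y.ι) :
    T.wdR Y x τ = T.dX (x τ) + ∑ σ ∈ S, Y.cw τ σ • x σ :=
  (twY Y.toR T.win.toLM).dd_apply' x S hS τ

/-- reduction -/
noncomputable def rdR : (Y.ι →₀ T.X) →ₗ[K] (T.tenR Y).X where
  toFun x := fun j => dm (fun σ => T.ev (Y.o σ) j) x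
  map_add' _ _ := funext fun _ => map_add _ _ _
  map_smul' _ _ := funext fun _ => map_smul _ _ _

theorem rdR_apply (x : Y.ι →₀ T.X) (j : w'.Ob) (σ : Y.ι) :
    (show Y.ι →₀ T.B from T.rdR Y x j) σ = x σ (Y.o σ) j := dm_apply _ _ _

/-- inclusion -/
noncomputable def icR : (T.tenR Y).X →ₗ[K] (Y.ι →₀ T.X) :=
  (dm fun σ => T.rowM (Y.o σ)) ∘ₗ (crd (K := K) w'.Ob Y.ι T.B)

theorem icR_apply (y : (T.tenR Y).X) (σ : Y.ι) (i : w.Ob) (j : w'.Ob) :
    T.icR Y y σ i j = if Y.o σ = i then (show Y.ι →₀ T.B from y j) σ else 0 := by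
  have h1 : T.icR Y y σ = T.rowM (Y.o σ) (crd (K := K) w'.Ob Y.ι T.B y σ) := dm_apply _ _ _
  rw [h1, rowM_apply]
  split_ifs
  · exact crd_apply (K := K) (O := w'.Ob) (ι := Y.ι) (M := T.B) y σ j
  · rfl

theorem rdR_icR (y : (T.tenR Y).X) : T.rdR Y (T.icR Y y) = y := by
  refine TR.ext _ fun j => ?_
  refine Finsupp.ext fun σ => ?_
  refine (T.rdR_apply Y _ j σ).trans ?_
  rw [icR_apply, if_pos rfl]

theorem rdR_wd (x : Y.ι →₀ T.X) : T.rdR Y (T.wdR Y x) = (T.tenR Y).dX (T.rdR Y x) := by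
  classical
  refine TR.ext _ fun j => ?_
  refine Finsupp.ext fun τ => ?_
  refine (T.rdR_apply Y _ j τ).trans ?_
  have hS : (show Y.ι →₀ T.B from T.rdR Y x j).support ⊆ x.support := by
    intro σ hσ
    rw [Finsupp.mem_support_iff] at hσ ⊢
    intro h
    exact hσ ((T.rdR_apply Y x j σ).trans (by rw [h]; rfl))
  have h2 := T.tenR_d Y (T.rdR Y x j) x.support hS τ
  refine Eq.trans ?_ h2.symm
  rw [T.wdR_apply Y x x.support (Finset.Subset.refl _) τ, add_apply, dX_apply, sum_apply]
  congr 1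
  · exact congrArg _ (T.rdR_apply Y x j τ).symm
  · refine Finset.sum_congr rfl fun σ _ => ?_
    rw [cw_smul]
    exact congrArg _ (T.rdR_apply Y x j σ).symm

theorem icR_wd (y : (T.tenR Y).X) : T.icR Y ((T.tenR Y).dX y) = T.wdR Y (T.icR Y y) := by
  classical
  refine Finsupp.ext fun τ => TB.ext _ fun i j => ?_
  rw [icR_apply]
  let S : Finset Y.ι := (show Y.ι →₀ T.B from y j).support ∪ (T.icR Y y).support
  rw [T.wdR_apply Y (T.icR Y y) S Finset.subset_union_right τ, add_apply, dX_apply, sum_apply,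
    icR_apply]
  have h2 := T.tenR_d Y (y j) S Finset.subset_union_left τ
  have h3 : ∀ σ ∈ S, (Y.cw τ σ • T.icR Y y σ) i j =
      if Y.o τ = i then T.l (Y.c τ σ) ((show Y.ι →₀ T.B from y j) σ) else 0 := by
    intro σ _
    rw [cw_smul', icR_apply, if_pos rfl]
  rw [Finset.sum_congr rfl h3]
  by_cases h : Y.o τ = i
  · simp only [if_pos h]
    exact h2
  · simp only [if_neg h, map_zero, Finset.sum_const_zero, add_zero]

theorem rdR_smul (b : w'.Win) (x : Y.ι →₀ T.X) :
    T.rdR Y (MulOpposite.op b • x) = MulOpposite.op b • T.rdR Y x := by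
  refine TR.ext _ fun j => ?_
  refine Finsupp.ext fun σ => ?_
  refine (T.rdR_apply Y _ j σ).trans ?_
  have h1 : (MulOpposite.op b • T.rdR Y x) j = ∑ l, (T.tenR Y).r (.op (b.1 l j)) (T.rdR Y x l) :=
    TR.op_smul_apply _ _ _ _
  have h2 : (show Y.ι →₀ T.B from (MulOpposite.op b • T.rdR Y x) j) σ =
      ∑ l, (show Y.ι →₀ T.B from (T.tenR Y).r (.op (b.1 l j)) (T.rdR Y x l)) σ := by
    rw [h1]
    exact Finsupp.finsetSum_apply _ _ _
  refine Eq.trans ?_ h2.symm
  change (MulOpposite.op b • x σ) (Y.o σ) j = _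
  rw [op_smul_apply]
  refine Finset.sum_congr rfl fun l _ => ?_
  refine Eq.trans ?_ (aF_apply T.r (.op (b.1 l j)) (show Y.ι →₀ T.B from T.rdR Y x l) σ).symm
  exact congrArg _ (T.rdR_apply Y x l σ).symm

theorem icR_smul (b : w'.Win) (y : (T.tenR Y).X) :
    T.icR Y (MulOpposite.op b • y) = MulOpposite.op b • T.icR Y y := by
  refine Finsupp.ext fun σ => TB.ext _ fun i j => ?_
  change T.icR Y (MulOpposite.op b • y) σ i j = (MulOpposite.op b • T.icR Y y σ) i j
  rw [icR_apply, op_smul_apply]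
  have h1 : (show Y.ι →₀ T.B from (MulOpposite.op b • y) j) σ =
      ∑ l, T.r (.op (b.1 l j)) ((show Y.ι →₀ T.B from y l) σ) := by
    have h1 : (MulOpposite.op b • y) j = ∑ l, (T.tenR Y).r (.op (b.1 l j)) (y l) :=
      TR.op_smul_apply _ _ _ _
    rw [h1]
    refine (Finsupp.finsetSum_apply _ _ _).trans ?_
    exact Finset.sum_congr rfl fun l _ =>
      aF_apply T.r (.op (b.1 l j)) (show Y.ι →₀ T.B from y l) σ
  rw [h1]
  simp only [icR_apply]
  by_cases h : Y.o σ = i
  · simp only [if_pos h]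
  · simp only [if_neg h, map_zero, Finset.sum_const_zero]

/-- reduction, as a map of complexes (linear: `rdR_smul`) -/
noncomputable def redR : GCHom (tQ Y.toR T.win).toGC (T.tenR Y).win.toGC where
  f := T.rdR Y
  f_mem {k x} hx j := by
    refine (T.tenR_q Y).2 fun σ => ?_
    have h1 := T.rdR_apply Y x j σ
    have h2 : (show Y.ι →₀ T.X from x) σ (Y.o σ) j ∈ T.q (Y.o σ) j (k - Y.s σ) := (hx σ).1 (Y.o σ) j
    exact h1 ▸ h2
  f_d x := T.rdR_wd Y x

/-- inclusion, as a map of complexes (linear: `icR_smul`) -/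
noncomputable def incR : GCHom (T.tenR Y).win.toGC (tQ Y.toR T.win).toGC where
  f := T.icR Y
  f_mem {k y} hy σ := by
    have hy' : ∀ j σ, (show Y.ι →₀ T.B from (show (T.tenR Y).X from y) j) σ ∈
        T.q (Y.o σ) j (k - Y.s σ) := fun j => (T.tenR_q Y).1 (hy j)
    have h2 : T.icR Y y σ ∈ T.gr (k - Y.s σ) := fun i j => by
      rw [icR_apply]
      split_ifs with h
      · rw [← h]; exact hy' j σ
      · exact Submodule.zero_mem _
    have h3 : e (Y.o σ) • T.icR Y y σ = T.icR Y y σ := by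
      refine TB.ext _ fun i j => ?_
      rw [smul_apply, Finset.sum_eq_single i]
      · unfold e
        rw [ws_apply, icR_apply]
        by_cases h : Y.o σ = i
        · rw [if_pos ⟨h, h⟩, if_pos h, map_one]; rfl
        · rw [if_neg h, map_zero]
      · intro l _ hl
        unfold e
        rw [ws_apply, if_neg (fun h => hl (h.2.symm.trans h.1)), map_zero]; rfl
      · intro h
        exact absurd (Finset.mem_univ _) h
    exact ⟨h2, h3⟩
  f_d y := T.icR_wd Y y

theorem icR_rdR {k : ℤ} (x : Y.ι →₀ T.X) (hx : x ∈ (tQ Y.toR T.win).gr k) :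
    T.icR Y (T.rdR Y x) = x := by
  refine Finsupp.ext fun σ => TB.ext _ fun i j => ?_
  have h : e (Y.o σ) • x σ = x σ := (hx σ).2
  rw [icR_apply]
  split_ifs with hj
  · refine (T.rdR_apply Y x j σ).trans ?_
    rw [hj]
  · rw [← h, smul_apply]
    refine (Finset.sum_eq_zero fun l _ => ?_).symm
    unfold e
    rw [ws_apply, if_neg (fun h => hj h.1), map_zero]; rfl

theorem redR_qi : QI (T.redR Y) :=
  qi_of_inv (T.redR Y) (T.incR Y) (fun x hx => T.icR_rdR Y x hx) fun y _ => T.rdR_icR Y y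

theorem incR_qi : QI (T.incR Y) :=
  qi_of_inv (T.incR Y) (T.redR Y) (fun y _ => T.rdR_icR Y y) fun x hx => T.icR_rdR Y x hx

theorem tenR_ac : Ac (tQ Y.toR T.win).toGC ↔ Ac (T.tenR Y).win.toGC :=
  ⟨ac_of_inv (T.redR Y) (T.incR Y) fun y _ => T.rdR_icR Y y,
    ac_of_inv (T.incR Y) (T.redR Y) fun x hx => T.icR_rdR Y x hx⟩

end right

end TB

end Crest.Agent.R186.WBM163
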