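import Crest.Agent.R186.WBM_163
import Crest.Agent.R186.Frame2_515

/-!
Row 186, half (A) (helper163): cells and tensor products over window algebras in REDUCED FORM.

* `WLC w`, `WRC w` : cells at positions `o σ : w.Ob` with attaching elements in `w.S`
  (`c σ τ ∈ w.q (o σ) (o τ) (s σ - s τ - 1)`); `toL : LCells w.dga`, `toR : RCells w.dga`.
* `T.ten X : GC K` for `T : TR w`, `X : WLC w` : families `x σ ∈ T.q (o σ) (k - s σ)`;
  `red : GCHom (tG T.win X.toL) (T.ten X)`, `inc` back, both quasi-isomorphisms.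
* the same for `Y : WRC w`, `N : TL w`.
* `TB.ten X : TL w` (global left module) with `redL`, `incL` against `tP T.win X.toL`, and the mirror.
-/

set_option autoImplicit false
set_option linter.style.haveILetI false
set_option linter.unusedSectionVars false

open scoped MulOpposite

namespace Crest.Agent.R186.WBM163

open Hat827 Win810 Win810.WD Frame515

variable {K : Type} [Field K]

/-! ### diagonal maps of families -/

section dm

variable {ι M N Q : Type} [AddCommGroup M] [Module K M] [AddCommGroup N] [Module K N]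
  [AddCommGroup Q] [Module K Q]

/-- diagonal map -/
noncomputable def dm (f : ι → (M →ₗ[K] N)) : (ι →₀ M) →ₗ[K] (ι →₀ N) :=
  Finsupp.lsum K fun σ => (Finsupp.lsingle σ) ∘ₗ (f σ)

theorem dm_single (f : ι → (M →ₗ[K] N)) (σ : ι) (m : M) :
    dm f (Finsupp.single σ m) = Finsupp.single σ (f σ m) := by
  simp [dm]

theorem dm_apply (f : ι → (M →ₗ[K] N)) (x : ι →₀ M) (σ : ι) : dm f x σ = f σ (x σ) := by
  classical
  induction x using Finsupp.induction_linear with
  | zero => simp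
  | add a b ha hb => rw [map_add, Finsupp.add_apply, ha, hb, Finsupp.add_apply, map_add]
  | single τ a =>
    rw [dm_single, Finsupp.single_apply, Finsupp.single_apply]
    split_ifs with h
    · rw [h]
    · rw [map_zero]

/-- an algebra acting on families -/
noncomputable def aF {R : Type} [Ring R] [Algebra K R] (ι : Type) (f : R →ₐ[K] Module.End K M) :
    R →ₐ[K] Module.End K (ι →₀ M) where
  toFun a := dm fun _ => f a
  map_one' := by
    refine LinearMap.ext fun x => Finsupp.ext fun σ => ?_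
    rw [dm_apply, map_one]; rfl
  map_mul' a b := by
    refine LinearMap.ext fun x => Finsupp.ext fun σ => ?_
    rw [dm_apply, map_mul, Module.End.mul_apply, Module.End.mul_apply, dm_apply, dm_apply]
  map_zero' := by
    refine LinearMap.ext fun x => Finsupp.ext fun σ => ?_
    rw [dm_apply, map_zero]; rfl
  map_add' a b := by
    refine LinearMap.ext fun x => Finsupp.ext fun σ => ?_
    rw [dm_apply, map_add, LinearMap.add_apply, LinearMap.add_apply, Finsupp.add_apply, dm_apply,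
      dm_apply]
  commutes' c := by
    refine LinearMap.ext fun x => Finsupp.ext fun σ => ?_
    rw [dm_apply, AlgHom.commutes]; rfl

theorem aF_apply {R : Type} [Ring R] [Algebra K R] (f : R →ₐ[K] Module.End K M) (a : R)
    (x : ι →₀ M) (σ : ι) : aF ι f a x σ = f a (x σ) := dm_apply _ _ _

theorem aF_single {R : Type} [Ring R] [Algebra K R] (f : R →ₐ[K] Module.End K M) (a : R)
    (σ : ι) (m : M) : aF ι f a (Finsupp.single σ m) = Finsupp.single σ (f a m) := dm_single _ _ _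

end dm

/-- a complex without degrees -/
abbrev bare (B : Type) [AddCommGroup B] [Module K B] (d : B →ₗ[K] B) (h : ∀ x, d (d x) = 0) : GC K where
  X := B
  gr _ := ⊤
  d := d
  d_mem _ := Submodule.mem_top
  d_d := h

/-! ### cells -/

/-- left cells at positions -/
structure WLC (w : WD K) where
  ι : Type
  s : ι → ℕ
  F : ℕ → Finset ι
  mem_F : ∀ m σ, σ ∈ F m ↔ s σ ≤ m
  o : ι → w.Ob
  c : ι → ι → w.S
  c_mem : ∀ σ τ, c σ τ ∈ w.q (o σ) (o τ) ((s σ : ℤ) - s τ - 1)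
  mc : ∀ σ τ, w.D (c σ τ) + ∑ ρ ∈ F (s σ), c σ ρ * c ρ τ = 0

/-- right cells at positions -/
structure WRC (w : WD K) where
  ι : Type
  s : ι → ℕ
  F : ℕ → Finset ι
  mem_F : ∀ m σ, σ ∈ F m ↔ s σ ≤ m
  o : ι → w.Ob
  c : ι → ι → w.S
  c_mem : ∀ τ σ, c τ σ ∈ w.q (o τ) (o σ) ((s σ : ℤ) - s τ - 1)
  mc : ∀ τ σ, w.D (c τ σ) + ∑ ρ ∈ F (s σ), c τ ρ * c ρ σ = 0

theorem win_sum_apply {w : WD K} {κ : Type} (S : Finset κ) (f : κ → w.Win) (i j : w.Ob) :
    (∑ a ∈ S, f a).1 i j = ∑ a ∈ S, (f a).1 i j := by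
  classical
  induction S using Finset.induction_on with
  | empty => rfl
  | insert a s ha ih =>
    rw [Finset.sum_insert ha, Finset.sum_insert ha, ← ih]
    rfl

namespace WLC

variable {w : WD K} (X : WLC w)

theorem c_zero {σ τ : X.ι} (h : X.s σ ≤ X.s τ) : X.c σ τ = 0 := by
  have h1 := X.c_mem σ τ
  rw [show w.q (X.o σ) (X.o τ) ((X.s σ : ℤ) - X.s τ - 1) = ⊥ from w.neg _ _ _ (by omega)] at h1
  exact (Submodule.mem_bot K).1 h1

/-- attaching element in the window algebra -/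
def cw (σ τ : X.ι) : w.Win := ws (X.o σ) (X.o τ) (X.c σ τ) (q_le _ _ _ (X.c_mem σ τ))

/-- the cells over the window algebra -/
def toL : LCells w.dga where
  ι := X.ι
  s := X.s
  F := X.F
  mem_F := X.mem_F
  e σ := e (X.o σ)
  e_mem σ := e_mem _
  e_idem σ := e_mul_e _
  c σ τ := X.cw σ τ
  c_mem σ τ := ws_mem_G (X.c_mem σ τ)
  c_left σ τ := by
    refine (row_iff _ _).2 fun i' j' h => ?_
    change (ws _ _ _ _ : w.Win).1 i' j' = 0
    rw [ws_apply, if_neg (fun h' => h h'.1)]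
  c_right σ τ := by
    refine (col_iff _ _).2 fun i' j' h => ?_
    change (ws _ _ _ _ : w.Win).1 i' j' = 0
    rw [ws_apply, if_neg (fun h' => h h'.2)]
  mc σ τ := by
    change w.DW (X.cw σ τ) + ∑ ρ ∈ X.F (X.s σ), X.cw σ ρ * X.cw ρ τ = 0
    apply Subtype.ext
    ext i j : 2
    change w.D ((X.cw σ τ).1 i j) + (∑ ρ ∈ X.F (X.s σ), X.cw σ ρ * X.cw ρ τ).1 i j = 0
    rw [win_sum_apply]
    have h1 : ∀ ρ, (X.cw σ ρ * X.cw ρ τ).1 i j =
        if X.o σ = i ∧ X.o τ = j then X.c σ ρ * X.c ρ τ else 0 := by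
      intro ρ
      unfold cw
      rw [ws_mul_apply, ws_apply]
      by_cases h : X.o σ = i
      · by_cases h' : X.o τ = j
        · rw [if_pos h, if_pos ⟨rfl, h'⟩, if_pos ⟨h, h'⟩]
        · rw [if_pos h, if_neg (fun h2 => h' h2.2), if_neg (fun h2 => h' h2.2), mul_zero]
      · rw [if_neg h, if_neg (fun h2 => h h2.1)]
    rw [Finset.sum_congr rfl fun ρ _ => h1 ρ]
    unfold cw
    rw [ws_apply]
    by_cases h : X.o σ = i ∧ X.o τ = j
    · simp only [if_pos h]
      exact X.mc σ τ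
    · simp only [if_neg h, map_zero, Finset.sum_const_zero, add_zero]

end WLC

namespace WRC

variable {w : WD K} (X : WRC w)

theorem c_zero {σ τ : X.ι} (h : X.s σ ≤ X.s τ) : X.c τ σ = 0 := by
  have h1 := X.c_mem τ σ
  rw [show w.q (X.o τ) (X.o σ) ((X.s σ : ℤ) - X.s τ - 1) = ⊥ from w.neg _ _ _ (by omega)] at h1
  exact (Submodule.mem_bot K).1 h1

/-- attaching element in the window algebra -/
def cw (τ σ : X.ι) : w.Win := ws (X.o τ) (X.o σ) (X.c τ σ) (q_le _ _ _ (X.c_mem τ σ))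

/-- the cells over the window algebra -/
def toR : RCells w.dga where
  ι := X.ι
  s := X.s
  F := X.F
  mem_F := X.mem_F
  e σ := e (X.o σ)
  e_mem σ := e_mem _
  e_idem σ := e_mul_e _
  c τ σ := X.cw τ σ
  c_mem τ σ := ws_mem_G (X.c_mem τ σ)
  c_left τ σ := by
    refine (row_iff _ _).2 fun i' j' h => ?_
    change (ws _ _ _ _ : w.Win).1 i' j' = 0
    rw [ws_apply, if_neg (fun h' => h h'.1)]
  c_right τ σ := by
    refine (col_iff _ _).2 fun i' j' h => ?_
    change (ws _ _ _ _ : w.Win).1 i' j' = 0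
    rw [ws_apply, if_neg (fun h' => h h'.2)]
  mc τ σ := by
    change w.DW (X.cw τ σ) + ∑ ρ ∈ X.F (X.s σ), X.cw τ ρ * X.cw ρ σ = 0
    apply Subtype.ext
    ext i j : 2
    change w.D ((X.cw τ σ).1 i j) + (∑ ρ ∈ X.F (X.s σ), X.cw τ ρ * X.cw ρ σ).1 i j = 0
    rw [win_sum_apply]
    have h1 : ∀ ρ, (X.cw τ ρ * X.cw ρ σ).1 i j =
        if X.o τ = i ∧ X.o σ = j then X.c τ ρ * X.c ρ σ else 0 := by
      intro ρ
      unfold cw
      rw [ws_mul_apply, ws_apply]
      by_cases h : X.o τ = i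
      · by_cases h' : X.o σ = j
        · rw [if_pos h, if_pos ⟨rfl, h'⟩, if_pos ⟨h, h'⟩]
        · rw [if_pos h, if_neg (fun h2 => h' h2.2), if_neg (fun h2 => h' h2.2), mul_zero]
      · rw [if_neg h, if_neg (fun h2 => h h2.1)]
    rw [Finset.sum_congr rfl fun ρ _ => h1 ρ]
    unfold cw
    rw [ws_apply]
    by_cases h : X.o τ = i ∧ X.o σ = j
    · simp only [if_pos h]
      exact X.mc τ σ
    · simp only [if_neg h, map_zero, Finset.sum_const_zero, add_zero]

end WRC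

/-! ### `G ⊗ X` in reduced form -/

namespace TR

variable {w : WD K} (T : TR w) (X : WLC w)

/-- twisting data without degrees -/
noncomputable def tw : Tw (bare T.B T.d T.d_d) where
  ι := X.ι
  s := X.s
  F := X.F
  mem_F := X.mem_F
  p _ := LinearMap.id
  m σ τ := T.r (.op (X.c σ τ))
  p_mem _ _ _ _ := Submodule.mem_top
  p_p _ _ := rfl
  p_d _ _ := rfl
  m_zero σ τ h := by rw [X.c_zero h, MulOpposite.op_zero, map_zero]
  m_mem _ _ _ _ _ := Submodule.mem_top
  p_m _ _ _ := rfl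
  mc σ τ x := by
    change T.d (T.r (.op (X.c σ τ)) x) + T.r (.op (X.c σ τ)) (T.d x) +
      ∑ ρ ∈ X.F (X.s σ), T.r (.op (X.c ρ τ)) (T.r (.op (X.c σ ρ)) x) = 0
    have h2 : ∀ y : T.B, y + y = 0 := fun y => by
      have h1 : T.r 1 y = y := by rw [map_one]; rfl
      have h3 : T.r (1 + 1) y = y + y := by rw [map_add, LinearMap.add_apply, h1]
      have h4 : (1 : (w.S)ᵐᵒᵖ) + 1 = 0 := by
        rw [← MulOpposite.op_one, ← MulOpposite.op_add, w.two, MulOpposite.op_zero]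
      rw [← h3, h4, map_zero]; rfl
    rw [T.leib, add_assoc (T.r (.op (w.D (X.c σ τ))) x), h2, add_zero]
    have h := congrArg (fun a => T.r (.op a) x) (X.mc σ τ)
    simp only [MulOpposite.op_add, MulOpposite.op_zero, map_add, map_zero, LinearMap.add_apply,
      LinearMap.zero_apply, Finset.op_sum, map_sum, LinearMap.sum_apply, MulOpposite.op_mul, map_mul,
      Module.End.mul_apply] at h
    exact h

/-- the differential of `T ⊗ X` in reduced form -/
noncomputable def td : (X.ι →₀ T.B) →ₗ[K] (X.ι →₀ T.B) := (T.tw X).dd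

theorem td_single (σ : X.ι) (x : T.B) : T.td X (Finsupp.single σ x) =
    Finsupp.single σ (T.d x) + ∑ τ ∈ X.F (X.s σ), Finsupp.single τ (T.r (.op (X.c σ τ)) x) :=
  (T.tw X).dd_single σ x

theorem td_apply (x : X.ι →₀ T.B) (S : Finset X.ι) (hS : x.support ⊆ S) (τ : X.ι) :
    T.td X x τ = T.d (x τ) + ∑ σ ∈ S, T.r (.op (X.c σ τ)) (x σ) :=
  (T.tw X).dd_apply' x S hS τ

theorem td_td (x : X.ι →₀ T.B) : T.td X (T.td X x) = 0 := (T.tw X).dd_dd x

/-- `T ⊗ X` in reduced form -/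
noncomputable def ten : GC K where
  X := X.ι →₀ T.B
  gr k :=
    { carrier := {x | ∀ σ, x σ ∈ T.q (X.o σ) (k - X.s σ)}
      zero_mem' := fun σ => Submodule.zero_mem _
      add_mem' := fun hx hy σ => Submodule.add_mem _ (hx σ) (hy σ)
      smul_mem' := fun r x hx σ => Submodule.smul_mem _ r (hx σ) }
  d := T.td X
  d_mem {k x} hx τ := by
    have hx' : ∀ σ, x σ ∈ T.q (X.o σ) (k - X.s σ) := hx
    rw [T.td_apply X x x.support (Finset.Subset.refl _)]
    refine Submodule.add_mem _ ?_ (Submodule.sum_mem _ fun σ _ => ?_)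
    · have := T.d_mem (hx' τ)
      rw [show k - (X.s τ : ℤ) - 1 = k - 1 - X.s τ by ring] at this
      exact this
    · have := T.q_r (hx' σ) (X.c_mem σ τ)
      rwa [show k - (X.s σ : ℤ) + ((X.s σ : ℤ) - X.s τ - 1) = k - 1 - X.s τ by ring] at this
  d_d := T.td_td X

theorem ten_gr {k : ℤ} {x : X.ι →₀ T.B} :
    x ∈ (T.ten X).gr k ↔ ∀ σ, x σ ∈ T.q (X.o σ) (k - X.s σ) := Iff.rfl

/-- evaluation at the position of the cell -/
def ev (i : w.Ob) : T.X →ₗ[K] T.B where
  toFun m := m i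
  map_add' _ _ := rfl
  map_smul' _ _ := rfl

/-- the row with one entry -/
noncomputable def sgl (i : w.Ob) : T.B →ₗ[K] T.X where
  toFun x := fun j => if i = j then x else 0
  map_add' x y := by
    funext j
    change (if i = j then x + y else 0) = (if i = j then x else 0) + (if i = j then y else 0)
    split_ifs <;> simp
  map_smul' c x := by
    funext j
    change (if i = j then c • x else 0) = c • (if i = j then x else 0)
    split_ifs <;> simp

theorem sgl_apply (i j : w.Ob) (x : T.B) : T.sgl i x j = if i = j then x else 0 := rfl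

@[simp] theorem ev_apply (i : w.Ob) (m : T.X) : T.ev i m = m i := rfl

theorem ev_cw (σ τ : X.ι) (m : T.X) :
    T.ev (X.o τ) (MulOpposite.op (X.cw σ τ) • m) = T.r (.op (X.c σ τ)) (T.ev (X.o σ) m) := by
  change (MulOpposite.op (X.cw σ τ) • m) (X.o τ) = _
  unfold WLC.cw
  rw [op_ws_smul_apply, if_pos rfl]
  rfl

theorem cw_sgl (σ τ : X.ι) (x : T.B) :
    MulOpposite.op (X.cw σ τ) • T.sgl (X.o σ) x = T.sgl (X.o τ) (T.r (.op (X.c σ τ)) x) := by
  refine T.ext fun j => ?_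
  unfold WLC.cw
  rw [op_ws_smul_apply, sgl_apply, sgl_apply, if_pos rfl]

theorem dX_sgl (i : w.Ob) (x : T.B) : T.dX (T.sgl i x) = T.sgl i (T.d x) := by
  refine T.ext fun j => ?_
  rw [dX_apply, sgl_apply, sgl_apply]
  split_ifs
  · rfl
  · exact map_zero _

/-- the differential of `tG T.win X.toL` -/
noncomputable def wd : (X.ι →₀ T.X) →ₗ[K] (X.ι →₀ T.X) := (twG T.win X.toL).dd

theorem wd_single (σ : X.ι) (m : T.X) : T.wd X (Finsupp.single σ m) =
    Finsupp.single σ (T.dX m) +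
      ∑ τ ∈ X.F (X.s σ), Finsupp.single τ (MulOpposite.op (X.cw σ τ) • m) :=
  (twG T.win X.toL).dd_single σ m

/-- the reduction map -/
noncomputable def rd : (X.ι →₀ T.X) →ₗ[K] (X.ι →₀ T.B) := dm fun σ => T.ev (X.o σ)

/-- the inclusion map -/
noncomputable def ic : (X.ι →₀ T.B) →ₗ[K] (X.ι →₀ T.X) := dm fun σ => T.sgl (X.o σ)

theorem rd_apply (x : X.ι →₀ T.X) (σ : X.ι) : T.rd X x σ = x σ (X.o σ) := dm_apply _ _ _

theorem ic_apply (x : X.ι →₀ T.B) (σ : X.ι) : T.ic X x σ = T.sgl (X.o σ) (x σ) := dm_apply _ _ _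

theorem rd_wd (x : X.ι →₀ T.X) : T.rd X (T.wd X x) = T.td X (T.rd X x) := by
  have key : T.rd X ∘ₗ T.wd X = T.td X ∘ₗ T.rd X := by
    refine Finsupp.lhom_ext fun σ m => ?_
    rw [LinearMap.comp_apply, LinearMap.comp_apply, wd_single, map_add, map_sum]
    unfold rd
    simp only [dm_single]
    rw [td_single]
    congr 1
    exact Finset.sum_congr rfl fun τ _ => congrArg _ (T.ev_cw X σ τ m)
  exact LinearMap.congr_fun key x

theorem ic_td (x : X.ι →₀ T.B) : T.ic X (T.td X x) = T.wd X (T.ic X x) := by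
  have key : T.ic X ∘ₗ T.td X = T.wd X ∘ₗ T.ic X := by
    refine Finsupp.lhom_ext fun σ m => ?_
    rw [LinearMap.comp_apply, LinearMap.comp_apply, td_single, map_add, map_sum]
    unfold ic
    simp only [dm_single]
    rw [wd_single]
    congr 1
    · exact congrArg _ (T.dX_sgl _ _).symm
    · exact Finset.sum_congr rfl fun τ _ => congrArg _ (T.cw_sgl X σ τ m).symm
  exact LinearMap.congr_fun key x

/-- the reduction -/
noncomputable def red : GCHom (tG T.win X.toL) (T.ten X) where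
  f := T.rd X
  f_mem {k x} hx σ := by
    have h1 := T.rd_apply X x σ
    exact h1 ▸ (hx σ).1 (X.o σ)
  f_d x := T.rd_wd X x

/-- the inclusion -/
noncomputable def inc : GCHom (T.ten X) (tG T.win X.toL) where
  f := T.ic X
  f_mem {k x} hx σ := by
    have hx' : ∀ σ, (show X.ι →₀ T.B from x) σ ∈ T.q (X.o σ) (k - X.s σ) := hx
    have h1 := T.ic_apply X x σ
    have h2 : T.sgl (X.o σ) ((show X.ι →₀ T.B from x) σ) ∈ T.gr (k - X.s σ) := fun j => by
      rw [sgl_apply]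
      split_ifs with h
      · rw [← h]; exact hx' σ
      · exact Submodule.zero_mem _
    have h3 : MulOpposite.op (e (X.o σ)) • T.sgl (X.o σ) ((show X.ι →₀ T.B from x) σ) =
        T.sgl (X.o σ) ((show X.ι →₀ T.B from x) σ) := by
      refine (T.op_e_smul_iff _ _).2 fun j hj => ?_
      rw [sgl_apply, if_neg hj]
    have h4 : T.ic X x σ ∈ T.gr (k - X.s σ) ∧ MulOpposite.op (e (X.o σ)) • T.ic X x σ = T.ic X x σ := by
      rw [h1]
      exact ⟨h2, h3⟩
    exact h4
  f_d x := T.ic_td X x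

theorem red_inc (x : X.ι →₀ T.B) : T.rd X (T.ic X x) = x := by
  refine Finsupp.ext fun σ => ?_
  rw [rd_apply, ic_apply, sgl_apply, if_pos rfl]

theorem inc_red {k : ℤ} (x : X.ι →₀ T.X) (hx : x ∈ (tG T.win X.toL).gr k) :
    T.ic X (T.rd X x) = x := by
  refine Finsupp.ext fun σ => ?_
  rw [ic_apply, rd_apply]
  have h : MulOpposite.op (e (X.o σ)) • x σ = x σ := (hx σ).2
  have h1 := (T.op_e_smul_iff _ _).1 h
  refine T.ext fun j => ?_
  rw [sgl_apply]
  split_ifs with hj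
  · rw [hj]
  · exact (h1 j hj).symm

end TR

/-! ### `Y ⊗ N` in reduced form -/

namespace TL

variable {w : WD K} (Y : WRC w) (T : TL w)

/-- twisting data without degrees -/
noncomputable def tw : Tw (bare T.B T.d T.d_d) where
  ι := Y.ι
  s := Y.s
  F := Y.F
  mem_F := Y.mem_F
  p _ := LinearMap.id
  m σ τ := T.l (Y.c τ σ)
  p_mem _ _ _ _ := Submodule.mem_top
  p_p _ _ := rfl
  p_d _ _ := rfl
  m_zero σ τ h := by rw [Y.c_zero h, map_zero]
  m_mem _ _ _ _ _ := Submodule.mem_top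
  p_m _ _ _ := rfl
  mc σ τ x := by
    change T.d (T.l (Y.c τ σ) x) + T.l (Y.c τ σ) (T.d x) +
      ∑ ρ ∈ Y.F (Y.s σ), T.l (Y.c τ ρ) (T.l (Y.c ρ σ) x) = 0
    have h2 : ∀ y : T.B, y + y = 0 := fun y => by
      have h1 : T.l 1 y = y := by rw [map_one]; rfl
      have h3 : T.l (1 + 1) y = y + y := by rw [map_add, LinearMap.add_apply, h1]
      rw [← h3, w.two, map_zero]; rfl
    rw [T.leib, add_assoc (T.l (w.D (Y.c τ σ)) x), h2, add_zero]
    have h := congrArg (fun a => T.l a x) (Y.mc τ σ)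
    simp only [map_add, map_zero, LinearMap.add_apply,
      LinearMap.zero_apply, map_sum, LinearMap.sum_apply, map_mul,
      Module.End.mul_apply] at h
    exact h

/-- the differential of `Y ⊗ T` in reduced form -/
noncomputable def td : (Y.ι →₀ T.B) →ₗ[K] (Y.ι →₀ T.B) := (T.tw Y).dd

theorem td_single (σ : Y.ι) (x : T.B) : T.td Y (Finsupp.single σ x) =
    Finsupp.single σ (T.d x) + ∑ τ ∈ Y.F (Y.s σ), Finsupp.single τ (T.l (Y.c τ σ) x) :=
  (T.tw Y).dd_single σ x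

theorem td_apply (x : Y.ι →₀ T.B) (S : Finset Y.ι) (hS : x.support ⊆ S) (τ : Y.ι) :
    T.td Y x τ = T.d (x τ) + ∑ σ ∈ S, T.l (Y.c τ σ) (x σ) :=
  (T.tw Y).dd_apply' x S hS τ

theorem td_td (x : Y.ι →₀ T.B) : T.td Y (T.td Y x) = 0 := (T.tw Y).dd_dd x

/-- `Y ⊗ T` in reduced form -/
noncomputable def ten : GC K where
  X := Y.ι →₀ T.B
  gr k :=
    { carrier := {x | ∀ σ, x σ ∈ T.q (Y.o σ) (k - Y.s σ)}
      zero_mem' := fun σ => Submodule.zero_mem _
      add_mem' := fun hx hy σ => Submodule.add_mem _ (hx σ) (hy σ)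
      smul_mem' := fun r x hx σ => Submodule.smul_mem _ r (hx σ) }
  d := T.td Y
  d_mem {k x} hx τ := by
    have hx' : ∀ σ, x σ ∈ T.q (Y.o σ) (k - Y.s σ) := hx
    rw [T.td_apply Y x x.support (Finset.Subset.refl _)]
    refine Submodule.add_mem _ ?_ (Submodule.sum_mem _ fun σ _ => ?_)
    · have := T.d_mem (hx' τ)
      rw [show k - (Y.s τ : ℤ) - 1 = k - 1 - Y.s τ by ring] at this
      exact this
    · have := T.q_l (Y.c_mem τ σ) (hx' σ)
      rwa [show (Y.s σ : ℤ) - Y.s τ - 1 + (k - (Y.s σ : ℤ)) = k - 1 - Y.s τ by ring] at this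
  d_d := T.td_td Y

theorem ten_gr {k : ℤ} {x : Y.ι →₀ T.B} :
    x ∈ (T.ten Y).gr k ↔ ∀ σ, x σ ∈ T.q (Y.o σ) (k - Y.s σ) := Iff.rfl

/-- evaluation at the position of the cell -/
def ev (i : w.Ob) : T.X →ₗ[K] T.B where
  toFun m := m i
  map_add' _ _ := rfl
  map_smul' _ _ := rfl

/-- the column with one entry -/
noncomputable def sgl (i : w.Ob) : T.B →ₗ[K] T.X where
  toFun x := fun j => if i = j then x else 0
  map_add' x y := by
    funext j
    change (if i = j then x + y else 0) = (if i = j then x else 0) + (if i = j then y else 0)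
    split_ifs <;> simp
  map_smul' c x := by
    funext j
    change (if i = j then c • x else 0) = c • (if i = j then x else 0)
    split_ifs <;> simp

theorem sgl_apply (i j : w.Ob) (x : T.B) : T.sgl i x j = if i = j then x else 0 := rfl

@[simp] theorem ev_apply (i : w.Ob) (m : T.X) : T.ev i m = m i := rfl

theorem ev_cw (σ τ : Y.ι) (m : T.X) :
    T.ev (Y.o τ) (Y.cw τ σ • m) = T.l (Y.c τ σ) (T.ev (Y.o σ) m) := by
  change (Y.cw τ σ • m) (Y.o τ) = _
  unfold WRC.cw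
  rw [ws_smul_apply, if_pos rfl]
  rfl

theorem cw_sgl (σ τ : Y.ι) (x : T.B) :
    Y.cw τ σ • T.sgl (Y.o σ) x = T.sgl (Y.o τ) (T.l (Y.c τ σ) x) := by
  refine T.ext fun j => ?_
  unfold WRC.cw
  rw [ws_smul_apply, sgl_apply, sgl_apply, if_pos rfl]

theorem dX_sgl (i : w.Ob) (x : T.B) : T.dX (T.sgl i x) = T.sgl i (T.d x) := by
  refine T.ext fun j => ?_
  rw [dX_apply, sgl_apply, sgl_apply]
  split_ifs
  · rfl
  · exact map_zero _

/-- the differential of `tY Y.toR T.win` -/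
noncomputable def wd : (Y.ι →₀ T.X) →ₗ[K] (Y.ι →₀ T.X) := (twY Y.toR T.win).dd

theorem wd_single (σ : Y.ι) (m : T.X) : T.wd Y (Finsupp.single σ m) =
    Finsupp.single σ (T.dX m) +
      ∑ τ ∈ Y.F (Y.s σ), Finsupp.single τ (Y.cw τ σ • m) :=
  (twY Y.toR T.win).dd_single σ m

/-- the reduction map -/
noncomputable def rd : (Y.ι →₀ T.X) →ₗ[K] (Y.ι →₀ T.B) := dm fun σ => T.ev (Y.o σ)

/-- the inclusion map -/
noncomputable def ic : (Y.ι →₀ T.B) →ₗ[K] (Y.ι →₀ T.X) := dm fun σ => T.sgl (Y.o σ)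

theorem rd_apply (x : Y.ι →₀ T.X) (σ : Y.ι) : T.rd Y x σ = x σ (Y.o σ) := dm_apply _ _ _

theorem ic_apply (x : Y.ι →₀ T.B) (σ : Y.ι) : T.ic Y x σ = T.sgl (Y.o σ) (x σ) := dm_apply _ _ _

theorem rd_wd (x : Y.ι →₀ T.X) : T.rd Y (T.wd Y x) = T.td Y (T.rd Y x) := by
  have key : T.rd Y ∘ₗ T.wd Y = T.td Y ∘ₗ T.rd Y := by
    refine Finsupp.lhom_ext fun σ m => ?_
    rw [LinearMap.comp_apply, LinearMap.comp_apply, wd_single, map_add, map_sum]
    unfold rd
    simp only [dm_single]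
    rw [td_single]
    congr 1
    exact Finset.sum_congr rfl fun τ _ => congrArg _ (T.ev_cw Y σ τ m)
  exact LinearMap.congr_fun key x

theorem ic_td (x : Y.ι →₀ T.B) : T.ic Y (T.td Y x) = T.wd Y (T.ic Y x) := by
  have key : T.ic Y ∘ₗ T.td Y = T.wd Y ∘ₗ T.ic Y := by
    refine Finsupp.lhom_ext fun σ m => ?_
    rw [LinearMap.comp_apply, LinearMap.comp_apply, td_single, map_add, map_sum]
    unfold ic
    simp only [dm_single]
    rw [wd_single]
    congr 1
    · exact congrArg _ (T.dX_sgl _ _).symm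
    · exact Finset.sum_congr rfl fun τ _ => congrArg _ (T.cw_sgl Y σ τ m).symm
  exact LinearMap.congr_fun key x

/-- the reduction -/
noncomputable def red : GCHom (tY Y.toR T.win) (T.ten Y) where
  f := T.rd Y
  f_mem {k x} hx σ := by
    have h1 := T.rd_apply Y x σ
    exact h1 ▸ (hx σ).1 (Y.o σ)
  f_d x := T.rd_wd Y x

/-- the inclusion -/
noncomputable def inc : GCHom (T.ten Y) (tY Y.toR T.win) where
  f := T.ic Y
  f_mem {k x} hx σ := by
    have hx' : ∀ σ, (show Y.ι →₀ T.B from x) σ ∈ T.q (Y.o σ) (k - Y.s σ) := hx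
    have h1 := T.ic_apply Y x σ
    have h2 : T.sgl (Y.o σ) ((show Y.ι →₀ T.B from x) σ) ∈ T.gr (k - Y.s σ) := fun j => by
      rw [sgl_apply]
      split_ifs with h
      · rw [← h]; exact hx' σ
      · exact Submodule.zero_mem _
    have h3 : e (Y.o σ) • T.sgl (Y.o σ) ((show Y.ι →₀ T.B from x) σ) =
        T.sgl (Y.o σ) ((show Y.ι →₀ T.B from x) σ) := by
      refine (T.e_smul_iff _ _).2 fun j hj => ?_
      rw [sgl_apply, if_neg hj]
    have h4 : T.ic Y x σ ∈ T.gr (k - Y.s σ) ∧ e (Y.o σ) • T.ic Y x σ = T.ic Y x σ := by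
      rw [h1]
      exact ⟨h2, h3⟩
    exact h4
  f_d x := T.ic_td Y x

theorem red_inc (x : Y.ι →₀ T.B) : T.rd Y (T.ic Y x) = x := by
  refine Finsupp.ext fun σ => ?_
  rw [rd_apply, ic_apply, sgl_apply, if_pos rfl]

theorem inc_red {k : ℤ} (x : Y.ι →₀ T.X) (hx : x ∈ (tY Y.toR T.win).gr k) :
    T.ic Y (T.rd Y x) = x := by
  refine Finsupp.ext fun σ => ?_
  rw [ic_apply, rd_apply]
  have h : e (Y.o σ) • x σ = x σ := (hx σ).2
  have h1 := (T.e_smul_iff _ _).1 h
  refine T.ext fun j => ?_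
  rw [sgl_apply]
  split_ifs with hj
  · rw [hj]
  · exact (h1 j hj).symm

end TL

/-- two maps inverse to each other on homogeneous elements -/
theorem qi_of_inv {X Y : GC K} (φ : GCHom X Y) (ψ : GCHom Y X)
    (h1 : ∀ {k : ℤ} (x : X.X), x ∈ X.gr k → ψ.f (φ.f x) = x)
    (h2 : ∀ {k : ℤ} (y : Y.X), y ∈ Y.gr k → φ.f (ψ.f y) = y) : QI φ where
  surj k y hy hd := ⟨ψ.f y, ψ.f_mem hy, by rw [← ψ.f_d, hd, map_zero], 0, Submodule.zero_mem _, by
    rw [h2 y hy, map_zero, add_zero]⟩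
  inj k x hx hd := by
    rintro ⟨z, hz, hz'⟩
    refine ⟨ψ.f z, ψ.f_mem hz, ?_⟩
    rw [← ψ.f_d, ← hz', h1 x hx]

theorem ac_of_inv {X Y : GC K} (φ : GCHom X Y) (ψ : GCHom Y X)
    (h2 : ∀ {k : ℤ} (y : Y.X), y ∈ Y.gr k → φ.f (ψ.f y) = y) (hX : Ac X) : Ac Y := by
  intro k y hy hd
  obtain ⟨x, hx, hx'⟩ := hX k (ψ.f y) (ψ.f_mem hy) (by rw [← ψ.f_d, hd, map_zero])
  exact ⟨φ.f x, φ.f_mem hx, by rw [← φ.f_d, hx', h2 y hy]⟩

theorem TR.red_qi {w : WD K} (T : TR w) (X : WLC w) : QI (T.red X) :=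
  qi_of_inv (T.red X) (T.inc X) (fun x hx => T.inc_red X x hx) fun y _ => T.red_inc X y

theorem TR.inc_qi {w : WD K} (T : TR w) (X : WLC w) : QI (T.inc X) :=
  qi_of_inv (T.inc X) (T.red X) (fun y _ => T.red_inc X y) fun x hx => T.inc_red X x hx

theorem TR.ten_ac {w : WD K} (T : TR w) (X : WLC w) : Ac (tG T.win X.toL) ↔ Ac (T.ten X) :=
  ⟨ac_of_inv (T.red X) (T.inc X) fun y _ => T.red_inc X y,
    ac_of_inv (T.inc X) (T.red X) fun x hx => T.inc_red X x hx⟩

theorem TL.red_qi {w : WD K} (T : TL w) (Y : WRC w) : QI (T.red Y) :=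
  qi_of_inv (T.red Y) (T.inc Y) (fun x hx => T.inc_red Y x hx) fun y _ => T.red_inc Y y

theorem TL.inc_qi {w : WD K} (T : TL w) (Y : WRC w) : QI (T.inc Y) :=
  qi_of_inv (T.inc Y) (T.red Y) (fun y _ => T.red_inc Y y) fun x hx => T.inc_red Y x hx

theorem TL.ten_ac {w : WD K} (T : TL w) (Y : WRC w) : Ac (tY Y.toR T.win) ↔ Ac (T.ten Y) :=
  ⟨ac_of_inv (T.red Y) (T.inc Y) fun y _ => T.red_inc Y y,
    ac_of_inv (T.inc Y) (T.red Y) fun x hx => T.inc_red Y x hx⟩

/-! ### bimodule times cells as a global module -/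

namespace TB

variable {w w' : WD K} (T : TB w w')

/-- the right structure -/
abbrev rr : TR w' where
  B := T.B
  r := T.r
  p := T.p
  rm := T.rm
  d := T.d
  d_mem := T.d_mem
  d_d := T.d_d
  leib := T.leibr
  p0 := T.p0
  a0 := T.a0

/-- the left structure -/
abbrev ll : TL w where
  B := T.B
  l := T.l
  p := T.p
  lm := T.lm
  d := T.d
  d_mem := T.d_mem
  d_d := T.d_d
  leib := T.leibl
  p0 := T.p0
  a0 := T.a0

/-- `T ⊗ X` as a tri-graded left module -/
noncomputable def ten (X : WLC w') : TL w where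
  B := X.ι →₀ T.B
  l := aF X.ι T.l
  p P A C :=
    { carrier := {x | ∀ σ, x σ ∈ T.p (P - w'.P (X.o σ)) (A - w'.A (X.o σ)) (C - X.s σ)}
      zero_mem' := fun σ => Submodule.zero_mem _
      add_mem' := fun hx hy σ => Submodule.add_mem _ (hx σ) (hy σ)
      smul_mem' := fun r x hx σ => Submodule.smul_mem _ r (hx σ) }
  lm {P A C P' A' C' a x} ha hx σ := by
    have hx' : ∀ σ, x σ ∈ T.p (P' - w'.P (X.o σ)) (A' - w'.A (X.o σ)) (C' - X.s σ) := hx
    rw [aF_apply]
    have h := T.lm ha (hx' σ)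
    rwa [show P + (P' - w'.P (X.o σ)) = P + P' - w'.P (X.o σ) by ring,
      show A + (A' - w'.A (X.o σ)) = A + A' - w'.A (X.o σ) by ring,
      show C + (C' - (X.s σ : ℤ)) = C + C' - X.s σ by ring] at h
  d := (T.rr).td X
  d_mem {P A C x} hx τ := by
    have hx' : ∀ σ, x σ ∈ T.p (P - w'.P (X.o σ)) (A - w'.A (X.o σ)) (C - X.s σ) := hx
    have h0 := T.rr.td_apply X x x.support (Finset.Subset.refl _) τ
    have h1 : T.rr.d (x τ) + ∑ σ ∈ x.support, T.rr.r (.op (X.c σ τ)) (x σ) ∈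
        T.p (P - w'.P (X.o τ)) (A - w'.A (X.o τ)) (C - 1 - X.s τ) := by
      refine Submodule.add_mem _ ?_ (Submodule.sum_mem _ fun σ _ => ?_)
      · have := T.d_mem (hx' τ)
        rw [show C - (X.s τ : ℤ) - 1 = C - 1 - X.s τ by ring] at this
        exact this
      · have := T.rm (hx' σ) (X.c_mem σ τ)
        rw [show P - w'.P (X.o σ) + (w'.P (X.o σ) - w'.P (X.o τ)) = P - w'.P (X.o τ) by ring,
          show A - w'.A (X.o σ) + (w'.A (X.o σ) - w'.A (X.o τ)) = A - w'.A (X.o τ) by ring,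
          show C - (X.s σ : ℤ) + ((X.s σ : ℤ) - X.s τ - 1) = C - 1 - X.s τ by ring] at this
        exact this
    rw [← h0] at h1
    exact h1
  d_d := T.rr.td_td X
  leib a x := by
    have key : T.rr.td X ∘ₗ aF X.ι T.l a = aF X.ι T.l (w.D a) + aF X.ι T.l a ∘ₗ T.rr.td X := by
      refine Finsupp.lhom_ext fun σ b => ?_
      rw [LinearMap.add_apply, LinearMap.comp_apply, LinearMap.comp_apply, aF_single, aF_single]
      have h1 := T.rr.td_single X σ (T.l a b)
      have h2 := T.rr.td_single X σ b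
      refine h1.trans ?_
      rw [show T.rr.td X (Finsupp.single σ b) = _ from h2, map_add, map_sum, ← add_assoc]
      congr 1
      · have h3 : aF X.ι T.l a (Finsupp.single σ (T.rr.d b)) = Finsupp.single σ (T.l a (T.d b)) :=
          aF_single _ _ _ _
        rw [h3, ← Finsupp.single_add]
        exact congrArg _ (T.leibl a b)
      · refine Finset.sum_congr rfl fun τ _ => ?_
        have h4 : aF X.ι T.l a (Finsupp.single τ (T.rr.r (.op (X.c σ τ)) b)) =
          Finsupp.single τ (T.l a (T.r (.op (X.c σ τ)) b)) := aF_single _ _ _ _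
        rw [h4]
        exact congrArg _ (T.comm a _ b).symm
    exact LinearMap.congr_fun key x
  p0 := T.p0
  a0 := T.a0

theorem ten_q (X : WLC w') {i : w.Ob} {k : ℤ} {x : X.ι →₀ T.B} :
    x ∈ (T.ten X).q i k ↔ ∀ σ, x σ ∈ T.q i (X.o σ) (k - X.s σ) := by
  have h : ∀ σ, T.p (w.P i + T.p0 - w'.P (X.o σ)) (w.A i + T.a0 - w'.A (X.o σ)) (k - X.s σ) =
      T.q i (X.o σ) (k - X.s σ) := fun σ => T.q_row i (X.o σ) _
  constructor
  · intro hx σ
    rw [← h]
    exact hx σ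
  · intro hx σ
    change x σ ∈ T.p (w.P i + T.p0 - w'.P (X.o σ)) (w.A i + T.a0 - w'.A (X.o σ)) (k - X.s σ)
    rw [h]
    exact hx σ

theorem ten_d (X : WLC w') (x : X.ι →₀ T.B) (S : Finset X.ι) (hS : x.support ⊆ S) (τ : X.ι) :
    (show X.ι →₀ T.B from (T.ten X).d x) τ = T.d (x τ) + ∑ σ ∈ S, T.r (.op (X.c σ τ)) (x σ) :=
  T.rr.td_apply X x S hS τ

/-- `Y ⊗ T` as a tri-graded right module -/
noncomputable def tenR (Y : WRC w) : TR w' where
  B := Y.ι →₀ T.B
  r := aF Y.ι T.r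
  p P A C :=
    { carrier := {x | ∀ σ, x σ ∈ T.p (P + w.P (Y.o σ)) (A + w.A (Y.o σ)) (C - Y.s σ)}
      zero_mem' := fun σ => Submodule.zero_mem _
      add_mem' := fun hx hy σ => Submodule.add_mem _ (hx σ) (hy σ)
      smul_mem' := fun r x hx σ => Submodule.smul_mem _ r (hx σ) }
  rm {P A C P' A' C' x b} hx hb σ := by
    have hx' : ∀ σ, x σ ∈ T.p (P + w.P (Y.o σ)) (A + w.A (Y.o σ)) (C - Y.s σ) := hx
    rw [aF_apply]
    have h := T.rm (hx' σ) hb
    rwa [show P + w.P (Y.o σ) + P' = P + P' + w.P (Y.o σ) by ring,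
      show A + w.A (Y.o σ) + A' = A + A' + w.A (Y.o σ) by ring,
      show C - (Y.s σ : ℤ) + C' = C + C' - Y.s σ by ring] at h
  d := (T.ll).td Y
  d_mem {P A C x} hx τ := by
    have hx' : ∀ σ, x σ ∈ T.p (P + w.P (Y.o σ)) (A + w.A (Y.o σ)) (C - Y.s σ) := hx
    have h0 := T.ll.td_apply Y x x.support (Finset.Subset.refl _) τ
    have h1 : T.ll.d (x τ) + ∑ σ ∈ x.support, T.ll.l (Y.c τ σ) (x σ) ∈
        T.p (P + w.P (Y.o τ)) (A + w.A (Y.o τ)) (C - 1 - Y.s τ) := by
      refine Submodule.add_mem _ ?_ (Submodule.sum_mem _ fun σ _ => ?_)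
      · have := T.d_mem (hx' τ)
        rw [show C - (Y.s τ : ℤ) - 1 = C - 1 - Y.s τ by ring] at this
        exact this
      · have := T.lm (Y.c_mem τ σ) (hx' σ)
        rw [show w.P (Y.o τ) - w.P (Y.o σ) + (P + w.P (Y.o σ)) = P + w.P (Y.o τ) by ring,
          show w.A (Y.o τ) - w.A (Y.o σ) + (A + w.A (Y.o σ)) = A + w.A (Y.o τ) by ring,
          show (Y.s σ : ℤ) - Y.s τ - 1 + (C - (Y.s σ : ℤ)) = C - 1 - Y.s τ by ring] at this
        exact this
    rw [← h0] at h1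
    exact h1
  d_d := T.ll.td_td Y
  leib b x := by
    have key : T.ll.td Y ∘ₗ aF Y.ι T.r (.op b) =
        aF Y.ι T.r (.op (w'.D b)) + aF Y.ι T.r (.op b) ∘ₗ T.ll.td Y := by
      refine Finsupp.lhom_ext fun σ m => ?_
      rw [LinearMap.add_apply, LinearMap.comp_apply, LinearMap.comp_apply, aF_single, aF_single]
      have h1 := T.ll.td_single Y σ (T.r (.op b) m)
      have h2 := T.ll.td_single Y σ m
      refine h1.trans ?_
      rw [show T.ll.td Y (Finsupp.single σ m) = _ from h2, map_add, map_sum, ← add_assoc]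
      congr 1
      · have h3 : aF Y.ι T.r (.op b) (Finsupp.single σ (T.ll.d m)) =
          Finsupp.single σ (T.r (.op b) (T.d m)) := aF_single _ _ _ _
        rw [h3, ← Finsupp.single_add]
        exact congrArg _ (T.leibr b m)
      · refine Finset.sum_congr rfl fun τ _ => ?_
        have h4 : aF Y.ι T.r (.op b) (Finsupp.single τ (T.ll.l (Y.c τ σ) m)) =
          Finsupp.single τ (T.r (.op b) (T.l (Y.c τ σ) m)) := aF_single _ _ _ _
        rw [h4]
        exact congrArg _ (T.comm _ _ m)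
    exact LinearMap.congr_fun key x
  p0 := T.p0
  a0 := T.a0

theorem tenR_q (Y : WRC w) {j : w'.Ob} {k : ℤ} {x : Y.ι →₀ T.B} :
    x ∈ (T.tenR Y).q j k ↔ ∀ σ, x σ ∈ T.q (Y.o σ) j (k - Y.s σ) := by
  have h : ∀ σ, T.p (T.p0 - w'.P j + w.P (Y.o σ)) (T.a0 - w'.A j + w.A (Y.o σ)) (k - Y.s σ) =
      T.q (Y.o σ) j (k - Y.s σ) := fun σ => by
    unfold q
    rw [show T.p0 - w'.P j + w.P (Y.o σ) = w.P (Y.o σ) - w'.P j + T.p0 by ring,
      show T.a0 - w'.A j + w.A (Y.o σ) = w.A (Y.o σ) - w'.A j + T.a0 by ring]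
  constructor
  · intro hx σ
    rw [← h]
    exact hx σ
  · intro hx σ
    change x σ ∈ T.p (T.p0 - w'.P j + w.P (Y.o σ)) (T.a0 - w'.A j + w.A (Y.o σ)) (k - Y.s σ)
    rw [h]
    exact hx σ

theorem tenR_d (Y : WRC w) (x : Y.ι →₀ T.B) (S : Finset Y.ι) (hS : x.support ⊆ S) (τ : Y.ι) :
    (show Y.ι →₀ T.B from (T.tenR Y).d x) τ = T.d (x τ) + ∑ σ ∈ S, T.l (Y.c τ σ) (x σ) :=
  T.ll.td_apply Y x S hS τ

end TB

end Crest.Agent.R186.WBM163
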