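import Crest.Agent.R186.WinA_810
import Crest.Agent.R186.Hat_827

/-!
Row 186, leaf R3, part 3 (helper810): from graded cells over a tri-graded differential algebra `S`
(all statements about homogeneous elements of `S`, row by row / column by column) to
`Hat827.Cells` of the window algebra, hence to a null pair.
-/

set_option autoImplicit false
set_option linter.style.haveILetI false

namespace Crest.Agent.R186.Win810

open Hat827

variable {K : Type} [Field K]

open WD WMod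

/-- graded cells over `S` -/
structure GCells (w : WD K) (M : WMod w) where
  nt : ∃ (i : w.Ob) (u : M.V), u ∈ M.W i ∧ u ≠ 0
  ι : Type
  s : ι → ℕ
  F : ℕ → Finset ι
  mem_F : ∀ m σ, σ ∈ F m ↔ s σ ≤ m
  o : ι → w.Ob
  c : ι → ι → w.S
  c_mem : ∀ σ τ, c σ τ ∈ w.q (o σ) (o τ) ((s σ : ℤ) - s τ - 1)
  mc : ∀ σ τ, w.D (c σ τ) + ∑ ρ ∈ F (s σ), c σ ρ * c ρ τ = 0
  v : ι → M.V
  v_mem : ∀ σ, v σ ∈ M.W (o σ)
  v_zero : ∀ σ, s σ ≠ 0 → v σ = 0
  v_aug : ∀ σ, s σ = 1 → ∑ τ ∈ F 0, M.rho (c σ τ) (v τ) = 0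
  exR : ∀ (m : ℕ) (i : w.Ob) (x : ι → w.S), (∀ σ, x σ ∈ w.q i (o σ) ((m : ℤ) + 1 - s σ)) →
    (∀ τ, w.D (x τ) + ∑ σ ∈ F (m + 1), x σ * c σ τ = 0) →
    ∃ y : ι → w.S, (∀ σ, y σ ∈ w.q i (o σ) ((m : ℤ) + 2 - s σ)) ∧
      ∀ τ, x τ = w.D (y τ) + ∑ σ ∈ F (m + 2), y σ * c σ τ
  exR0 : ∀ (i : w.Ob) (x : ι → w.S), (∀ σ, x σ ∈ w.q i (o σ) (-(s σ : ℤ))) →
    ∑ σ ∈ F 0, M.rho (x σ) (v σ) = 0 →
    ∃ y : ι → w.S, (∀ σ, y σ ∈ w.q i (o σ) ((1 : ℤ) - s σ)) ∧
      ∀ τ, x τ = w.D (y τ) + ∑ σ ∈ F 1, y σ * c σ τ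
  gen : ∀ (i : w.Ob) (u : M.V), u ∈ M.W i →
    ∃ x : ι → w.S, (∀ σ, x σ ∈ w.q i (o σ) (-(s σ : ℤ))) ∧ ∑ σ ∈ F 0, M.rho (x σ) (v σ) = u
  exV : ∀ (m : ℕ) (φ : ι → M.V), (∀ σ, φ σ ∈ M.W (o σ)) → (∀ σ, s σ ≠ m + 1 → φ σ = 0) →
    (∀ σ, s σ = m + 2 → ∑ τ ∈ F (m + 1), M.rho (c σ τ) (φ τ) = 0) →
    ∃ ψ : ι → M.V, (∀ σ, ψ σ ∈ M.W (o σ)) ∧ (∀ σ, s σ ≠ m → ψ σ = 0) ∧
      ∀ σ, s σ = m + 1 → φ σ = ∑ τ ∈ F m, M.rho (c σ τ) (ψ τ)
  exC : ∀ (p : ℤ) (j : w.Ob) (φ : ι → w.S), (∀ σ, φ σ ∈ w.q (o σ) j ((s σ : ℤ) - p)) →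
    (∀ σ, w.D (φ σ) + ∑ τ ∈ F (s σ), c σ τ * φ τ = 0) →
    ∃ ψ : ι → w.S, (∀ σ, ψ σ ∈ w.q (o σ) j ((s σ : ℤ) - p + 1)) ∧
      ∀ σ, φ σ = w.D (ψ σ) + ∑ τ ∈ F (s σ), c σ τ * ψ τ

namespace GCells

variable {w : WD K} {M : WMod w} (R : GCells w M)

/-- the attaching elements in the window algebra -/
def cw (σ τ : R.ι) : w.Win := ws (R.o σ) (R.o τ) (R.c σ τ) (q_le _ _ _ (R.c_mem σ τ))

theorem mul_cw_apply (σ τ : R.ι) (x : w.Win) (i l : w.Ob) :
    (x * R.cw σ τ).1 i l = if R.o τ = l then x.1 i (R.o σ) * R.c σ τ else 0 :=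
  mul_ws_apply _ _ _ _

theorem cw_mul_apply (σ τ : R.ι) (x : w.Win) (i l : w.Ob) :
    (R.cw σ τ * x).1 i l = if R.o σ = i then R.c σ τ * x.1 (R.o τ) l else 0 :=
  ws_mul_apply _ _ _ _

theorem sum_apply {κ : Type} (s : Finset κ) (f : κ → w.Win) (i j : w.Ob) :
    (∑ k ∈ s, f k).1 i j = ∑ k ∈ s, (f k).1 i j := by
  classical
  induction s using Finset.induction_on with
  | empty => rfl
  | insert a s ha ih =>
    rw [Finset.sum_insert ha, Finset.sum_insert ha, ← ih]
    rfl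

theorem vsum_apply {κ : Type} (s : Finset κ) (f : κ → M.VM) (i : w.Ob) :
    ((∑ k ∈ s, f k : M.VM) i).1 = ∑ k ∈ s, (f k i).1 := by
  classical
  induction s using Finset.induction_on with
  | empty => rfl
  | insert a s ha ih =>
    rw [Finset.sum_insert ha, Finset.sum_insert ha, ← ih]
    rfl

theorem add_apply (a b : w.Win) (i j : w.Ob) : (a + b).1 i j = a.1 i j + b.1 i j := rfl

theorem cw_smul (σ τ : R.ι) (u : M.VM) (l : w.Ob) :
    ((R.cw σ τ • u : M.VM) l).1 = if R.o σ = l then M.rho (R.c σ τ) (u (R.o τ)).1 else 0 :=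
  M.ws_smul _ _ _

theorem rho_sum_col (x : w.Win) (o : w.Ob) (u : M.V) (hu : u ∈ M.W o) (i : w.Ob) :
    ((x • M.mkV o u hu : M.VM) i).1 = M.rho (x.1 i o) u := by
  rw [WMod.smul_apply, Finset.sum_eq_single o]
  · rw [mkV_apply, if_pos rfl]
  · intro j _ hj
    rw [mkV_apply, if_neg (Ne.symm hj), map_zero]
  · intro h
    exact absurd (Finset.mem_univ _) h

/-- **graded cells give cells of the window algebra** -/
noncomputable def toCells : Cells w.dga where
  V := M.VM
  grp := inferInstance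
  modK := inferInstance
  modC := inferInstanceAs (Module w.Win M.VM)
  tower := inferInstanceAs (IsScalarTower K w.Win M.VM)
  finV := inferInstance
  nt := by
    obtain ⟨i, u, hu, h0⟩ := R.nt
    refine ⟨M.mkV i u hu, 0, fun h => h0 ?_⟩
    have := congrArg Subtype.val (congrFun h i)
    rw [mkV_apply, if_pos rfl] at this
    exact this
  dpos := by
    intro x hx u
    exact M.D_smul hx u
  ι := R.ι
  s := R.s
  F := R.F
  mem_F := R.mem_F
  e σ := WD.e (R.o σ)
  e_mem σ := WD.e_mem _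
  e_idem σ := e_mul_e _
  c := R.cw
  c_mem σ τ := ws_mem_G (R.c_mem σ τ)
  c_left σ τ := by
    refine (row_iff _ _).2 fun i j h => ?_
    change (ws _ _ _ _ : w.Win).1 i j = 0
    rw [ws_apply, if_neg fun h0 => h h0.1]
  c_right σ τ := by
    refine (col_iff _ _).2 fun i j h => ?_
    change (ws _ _ _ _ : w.Win).1 i j = 0
    rw [ws_apply, if_neg fun h0 => h h0.2]
  mc σ τ := by
    apply Subtype.ext
    ext i j
    change w.D ((R.cw σ τ).1 i j) + (∑ ρ ∈ R.F (R.s σ), R.cw σ ρ * R.cw ρ τ).1 i j = 0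
    rw [sum_apply]
    have h1 : ∀ ρ, (R.cw σ ρ * R.cw ρ τ).1 i j =
        if R.o σ = i ∧ R.o τ = j then R.c σ ρ * R.c ρ τ else 0 := by
      intro ρ
      rw [cw_mul_apply]
      unfold cw
      rw [ws_apply]
      by_cases h : R.o σ = i
      · by_cases h' : R.o τ = j
        · simp [h, h']
        · simp [h']
      · simp [h]
    simp only [h1]
    unfold cw
    rw [ws_apply]
    by_cases h : R.o σ = i ∧ R.o τ = j
    · simp only [if_pos h]
      exact R.mc σ τ
    · simp only [if_neg h, map_zero, Finset.sum_const_zero, add_zero]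
  v σ := M.mkV (R.o σ) (R.v σ) (R.v_mem σ)
  v_e σ := by
    refine (M.e_smul_iff _ _).2 fun j hj => ?_
    rw [mkV_apply, if_neg hj]
  v_zero σ hσ := by
    apply M.vext
    intro i
    rw [mkV_apply, R.v_zero σ hσ]
    split_ifs <;> rfl
  v_aug σ hσ := by
    apply M.vext
    intro i
    change ((∑ τ ∈ R.F 0, (R.cw σ τ • M.mkV (R.o τ) (R.v τ) (R.v_mem τ) : M.VM) : M.VM) i).1 = 0
    rw [vsum_apply]
    have h1 : ∀ τ, ((R.cw σ τ • M.mkV (R.o τ) (R.v τ) (R.v_mem τ) : M.VM) i).1 =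
        if R.o σ = i then M.rho (R.c σ τ) (R.v τ) else 0 := by
      intro τ
      rw [cw_smul, mkV_apply, if_pos rfl]
    simp only [h1]
    by_cases h : R.o σ = i
    · simp only [if_pos h]
      exact R.v_aug σ hσ
    · simp only [if_neg h, Finset.sum_const_zero]
  exR := by
    intro m x hx hxe hc
    change R.ι → w.Win at x
    have key := fun i : w.Ob => R.exR m i (fun σ => (x σ).1 i (R.o σ)) (fun σ => hx σ i (R.o σ))
      (fun τ => by
        have h := congrArg (fun z : w.Win => z.1 i (R.o τ)) (hc τ)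
        change w.D ((x τ).1 i (R.o τ)) + (∑ σ ∈ R.F (m + 1), x σ * R.cw σ τ).1 i (R.o τ) = 0 at h
        rw [sum_apply] at h
        simpa only [mul_cw_apply, if_true] using h)
    choose y hy hxy using key
    refine ⟨fun σ => mkCol (R.o σ) (fun i => y i σ) (fun i => q_le _ _ _ (hy i σ)), ?_, ?_, ?_⟩
    · intro σ i l
      change (mkCol (R.o σ) (fun i => y i σ) _).1 i l ∈ _
      rw [mkCol_apply]
      split_ifs with h
      · subst h
        exact hy i σ
      · exact Submodule.zero_mem _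
    · intro σ
      refine (col_iff _ _).2 fun i j h => ?_
      rw [mkCol_apply, if_neg h]
    · intro τ
      apply Subtype.ext
      ext i l
      change (x τ).1 i l = w.D ((mkCol (R.o τ) (fun i => y i τ) _).1 i l) +
        (∑ σ ∈ R.F (m + 2), mkCol (R.o σ) (fun i => y i σ) _ * R.cw σ τ).1 i l
      rw [sum_apply]
      simp only [mul_cw_apply, mkCol_apply, if_true]
      by_cases h : R.o τ = l
      · subst h
        simp only [if_true]
        exact hxy i τ
      · simp only [if_neg h, map_zero, Finset.sum_const_zero, add_zero]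
        exact (col_iff _ _).1 (hxe τ) i l h
  exR0 := by
    intro x hx hxe hc
    change R.ι → w.Win at x
    have key := fun i : w.Ob => R.exR0 i (fun σ => (x σ).1 i (R.o σ)) (fun σ => hx σ i (R.o σ))
      (by
        have h := congrArg (fun z : M.VM => (z i).1) hc
        change ((∑ σ ∈ R.F 0, (x σ • M.mkV (R.o σ) (R.v σ) (R.v_mem σ) : M.VM) : M.VM) i).1 = 0 at h
        rw [vsum_apply] at h
        simpa only [rho_sum_col] using h)
    choose y hy hxy using key
    refine ⟨fun σ => mkCol (R.o σ) (fun i => y i σ) (fun i => q_le _ _ _ (hy i σ)), ?_, ?_, ?_⟩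
    · intro σ i l
      change (mkCol (R.o σ) (fun i => y i σ) _).1 i l ∈ _
      rw [mkCol_apply]
      split_ifs with h
      · subst h
        exact hy i σ
      · exact Submodule.zero_mem _
    · intro σ
      refine (col_iff _ _).2 fun i j h => ?_
      rw [mkCol_apply, if_neg h]
    · intro τ
      apply Subtype.ext
      ext i l
      change (x τ).1 i l = w.D ((mkCol (R.o τ) (fun i => y i τ) _).1 i l) +
        (∑ σ ∈ R.F 1, mkCol (R.o σ) (fun i => y i σ) _ * R.cw σ τ).1 i l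
      rw [sum_apply]
      simp only [mul_cw_apply, mkCol_apply, if_true]
      by_cases h : R.o τ = l
      · subst h
        simp only [if_true]
        exact hxy i τ
      · simp only [if_neg h, map_zero, Finset.sum_const_zero, add_zero]
        exact (col_iff _ _).1 (hxe τ) i l h
  gen := by
    intro u
    have key := fun i : w.Ob => R.gen i (u i).1 (u i).2
    choose x hx hu using key
    refine ⟨fun σ => mkCol (R.o σ) (fun i => x i σ) (fun i => q_le _ _ _ (hx i σ)), ?_, ?_⟩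
    · intro σ i l
      change (mkCol (R.o σ) (fun i => x i σ) _).1 i l ∈ _
      rw [mkCol_apply]
      split_ifs with h
      · subst h
        exact hx i σ
      · exact Submodule.zero_mem _
    · apply M.vext
      intro i
      change ((∑ σ ∈ R.F 0, (mkCol (R.o σ) (fun i => x i σ) _ •
        M.mkV (R.o σ) (R.v σ) (R.v_mem σ) : M.VM) : M.VM) i).1 = _
      rw [vsum_apply]
      simp only [rho_sum_col, mkCol_apply, if_true]
      exact hu i
  exV := by
    intro m φ h0 he hc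
    have hφ : ∀ σ j, R.o σ ≠ j → (φ σ j).1 = 0 := fun σ => (M.e_smul_iff _ _).1 (he σ)
    have hφ0 : ∀ σ, R.s σ ≠ m + 1 → ∀ j, (φ σ j).1 = 0 := by
      intro σ hσ j
      rw [h0 σ hσ]
      rfl
    obtain ⟨ψ, hψ, hψ0, hh⟩ := R.exV m (fun σ => (φ σ (R.o σ)).1) (fun σ => (φ σ (R.o σ)).2)
      (fun σ hσ => hφ0 σ hσ _) (fun σ hσ => by
        have h := congrArg (fun z : M.VM => (z (R.o σ)).1) (hc σ hσ)
        change ((∑ τ ∈ R.F (m + 1), (R.cw σ τ • φ τ : M.VM) : M.VM) (R.o σ)).1 = 0 at h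
        rw [vsum_apply] at h
        simpa only [cw_smul, if_true] using h)
    refine ⟨fun σ => M.mkV (R.o σ) (ψ σ) (hψ σ), ?_, ?_⟩
    · intro σ hσ
      apply M.vext
      intro i
      rw [mkV_apply, hψ0 σ hσ]
      split_ifs <;> rfl
    · intro σ hσ
      apply M.vext
      intro i
      change _ = ((∑ τ ∈ R.F m, (R.cw σ τ • M.mkV (R.o τ) (ψ τ) (hψ τ) : M.VM) : M.VM) i).1
      rw [vsum_apply]
      simp only [cw_smul, mkV_apply, if_true]
      by_cases h : R.o σ = i
      · subst h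
        simp only [if_true]
        exact hh σ hσ
      · simp only [if_neg h, Finset.sum_const_zero]
        exact hφ σ i h
  exC := by
    intro p φ hx hxe hc
    change R.ι → w.Win at φ
    have key := fun j : w.Ob => R.exC p j (fun σ => (φ σ).1 (R.o σ) j) (fun σ => hx σ (R.o σ) j)
      (fun σ => by
        have h := congrArg (fun z : w.Win => z.1 (R.o σ) j) (hc σ)
        change w.D ((φ σ).1 (R.o σ) j) + (∑ τ ∈ R.F (R.s σ), R.cw σ τ * φ τ).1 (R.o σ) j = 0 at h
        rw [sum_apply] at h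
        simpa only [cw_mul_apply, if_true] using h)
    choose y hy hxy using key
    refine ⟨fun σ => mkRow (R.o σ) (fun j => y j σ) (fun j => q_le _ _ _ (hy j σ)), ?_, ?_, ?_⟩
    · intro σ i l
      change (mkRow (R.o σ) (fun j => y j σ) _).1 i l ∈ _
      rw [mkRow_apply]
      split_ifs with h
      · subst h
        exact hy l σ
      · exact Submodule.zero_mem _
    · intro σ
      refine (row_iff _ _).2 fun i j h => ?_
      rw [mkRow_apply, if_neg h]
    · intro σ
      apply Subtype.ext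
      ext i l
      change (φ σ).1 i l = w.D ((mkRow (R.o σ) (fun j => y j σ) _).1 i l) +
        (∑ τ ∈ R.F (R.s σ), R.cw σ τ * mkRow (R.o τ) (fun j => y j τ) _).1 i l
      rw [sum_apply]
      simp only [cw_mul_apply, mkRow_apply, if_true]
      by_cases h : R.o σ = i
      · subst h
        simp only [if_true]
        exact hxy l σ
      · simp only [if_neg h, map_zero, Finset.sum_const_zero, add_zero]
        exact (row_iff _ _).1 (hxe σ) i l h

end GCells

/-- **the null pair** -/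
theorem null_of_gcells {w : WD K} {M : WMod w} (R : GCells w M) :
    Nonempty (Spine700.Null.{0, 0} K) := Hat827.null R.toCells

end Crest.Agent.R186.Win810
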