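import Crest.Agent.R186.JTRc_322
import Crest.Agent.R186.ThK_763
import Crest.Agent.R186.Rel_306

/-!
Row 186 (A) (helper322): the instance `XDHT (rowSys (Ec π s hs) Y) π.g` of 654's structure, and the
quasi-isomorphisms `thH` from 810's `(TR)` for 763's allowed elements `thE`, `thH`.
-/

set_option autoImplicit false
set_option linter.style.haveILetI false
set_option linter.unusedSectionVars false
set_option linter.unusedSimpArgs false
set_option linter.unusedVariables false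

open MulOpposite

namespace Crest.Agent.R186.JTR322

open Hat827 Hat827.DGA Frame515 Win810 KHev302 HB362 TR810 FamU654
open DefsQ830 PBW128 SM890 WL221 C2b44 Cells221

variable {K : Type} [Field K] (π : Par K)

theorem prL_add (a b : R π) : prL π (a + b) = prL π a + prL π b := map_add _ _ _
theorem prL_mul (a b : R π) : prL π (a * b) = prL π a * prL π b := map_mul _ _ _
theorem prL_smul (c : K) (a : R π) : prL π (c • a) = c • prL π a := map_smul (prL π) c a

theorem X_pcZ (a : Gen) : X π a ∈ pcZ π a.dP a.dA a.dC := by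
  rw [pcZ_nat]
  exact X_mem_pc π a

theorem pcZ_cast {P A C P' A' C' : ℤ} {r : R π} (h : r ∈ pcZ π P A C) (e1 : P = P') (e2 : A = A')
    (e3 : C = C') : r ∈ pcZ π P' A' C' := by
  subst e1 e2 e3
  exact h

theorem pX (a : Gen) {P A C : ℤ} (e1 : a.dP = P) (e2 : (a.dA : ℤ) = A) (e3 : (a.dC : ℤ) = C) :
    prL π (X π a) ∈ pcL π P A C :=
  prL_mem (pcZ_cast π (X_pcZ π a) e1 e2 e3)

theorem D_d (j : Fin 2) : Der580.D π (X π (.d j)) = 0 := by
  rw [Der580.D_X]
  simp [dGen]

/-- `t d_j = g d_j t + D (s_j)` in `R'` -/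
theorem td_eq {a b c : R π} (h : a + b = c) : a = b + c := by
  rw [← h, ← add_assoc, add_comm b a, add_assoc, Der580.add_self, add_zero]

variable (s : ℕ) (hs : 5 ≤ s) (Y : LCells (KHc302.WG π s (KHc302.two_le hs)).dga)

/-- the elements `s_j` -/
noncomputable def sj : Fin 2 → RL π :=
  ![((π.g - 1) * (π.c 1)⁻¹) • prL π (X π (.z 1)), ((π.g - 1) * (π.c 0)⁻¹) • prL π (X π (.z 0))]

theorem sj_mem (j : Fin 2) : sj π j ∈ pcL π (-1) 2 1 := by
  match j with
  | 0 => exact Submodule.smul_mem _ _ (pX π (.z 1) rfl rfl rfl)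
  | 1 => exact Submodule.smul_mem _ _ (pX π (.z 0) rfl rfl rfl)

theorem td' (j : Fin 2) : prL π (tR π) * prL π (X π (.d j)) =
    π.g • (prL π (X π (.d j)) * prL π (tR π)) + WL221.DL π (sj π j) := by
  match j with
  | 0 =>
    change _ = _ + WL221.DL π (((π.g - 1) * (π.c 1)⁻¹) • prL π (X π (.z 1)))
    rw [map_smul, DL_prL, ← prL_mul, ← prL_mul, ← prL_smul, ← prL_smul, ← prL_add]
    exact congrArg (prL π) (td_eq π (Rel306.td0 π))
  | 1 =>
    change _ = _ + WL221.DL π (((π.g - 1) * (π.c 0)⁻¹) • prL π (X π (.z 0)))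
    rw [map_smul, DL_prL, ← prL_mul, ← prL_mul, ← prL_smul, ← prL_smul, ← prL_add]
    exact congrArg (prL π) (td_eq π (Rel306.td1 π))

set_option maxHeartbeats 1000000 in
/-- **654's letters for the concrete rows** -/
noncomputable def xdht : XDHT (rowSys (Ec π s hs) Y) π.g where
  x j := (prL π (X π (.x j)) : RL π)
  d j := (prL π (X π (.d j)) : RL π)
  s := sj π
  h := (prL π (X π .h) : RL π)
  t := (prL π (tR π) : RL π)
  x_mem j := pX π (.x j) rfl rfl rfl
  d_mem j := pX π (.d j) rfl rfl rfl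
  s_mem := sj_mem π
  h_mem := pX π .h rfl rfl rfl
  t_mem := prL_mem (ThK763.tR_pcZ π)
  x_D j := (DL_prL (X π (.x j))).trans ((congrArg (prL π) (ThK763.D_x π j)).trans (map_zero _))
  d_D j := (DL_prL (X π (.d j))).trans ((congrArg (prL π) (D_d π j)).trans (map_zero _))
  h_D := (DL_prL (X π .h)).trans ((congrArg (prL π) (ThK763.D_h π)).trans (map_zero _))
  t_D := (DL_prL (tR π)).trans ((congrArg (prL π) (Cells221.D_tR π)).trans (map_zero _))
  ht0 := by
    have h := congrArg (prL π) (Rel306.ht0 π)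
    simp only [prL_add, prL_mul, prL_smul] at h
    exact h
  ht1 := by
    have h := congrArg (prL π) (Rel306.ht1 π)
    simp only [prL_add, prL_mul, prL_smul] at h
    exact h
  xt j := by
    have h := congrArg (prL π) (Rel306.xt π j)
    simp only [prL_mul, prL_smul] at h
    exact h
  td := td' π
  xh j := by
    have h := congrArg (prL π) (Rel306.xh π j)
    simp only [prL_mul] at h
    exact h
  hd j := by
    have h := congrArg (prL π) (Rel306.dh π j)
    simp only [prL_mul] at h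
    exact h.symm

/-- `thE 1 e` goes to `t + g^(-e-2) h` -/
theorem p_thE (e : ℤ) : (Ec π s hs).p (ThK763.thE π s (KHc302.two_le hs) 1 e).t =
    (xdht π s hs Y).t + π.g ^ (-e - 2) • (xdht π s hs Y).h := by
  have h : (ThK763.thE π s (KHc302.two_le hs) 1 e).t =
      (bdM π s (KHc302.two_le hs)).inl (ThK763.theta π e) := one_smul K _
  rw [h]
  change prL π (ThK763.theta π e) = prL π (tR π) + π.g ^ (-e - 2) • prL π (X π .h)
  rw [ThK763.theta, prL_add, prL_smul]

variable {π s hs Y}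

/-- **the chain map `theta_e = t + g^(-e-2) h` on the row `(p, a)` is a quasi-isomorphism** -/
theorem thE_qi (e p : ℤ) (a : ℕ)
    (H : ∀ n, AcQ (Yc (ThK763.thE π s (KHc302.two_le hs) 1 e) p a Y) ⊤ (TF Y (JW π s hs)) n) :
    QI ((xdht π s hs Y).thH (π.g ^ (-e - 2)) p a) :=
  thQIc (xdht π s hs Y) (π.g ^ (-e - 2)) p a (ThK763.thE π s (KHc302.two_le hs) 1 e)
    (p_thE π s hs Y e) H

/-- `theta_0` -/
theorem th0_qi (p : ℤ) (a : ℕ)
    (H : ∀ n, AcQ (Yc (ThK763.thE π s (KHc302.two_le hs) 1 0) p a Y) ⊤ (TF Y (JW π s hs)) n) :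
    QI ((xdht π s hs Y).thH (π.g ^ 2)⁻¹ p a) := by
  have h := thE_qi (hs := hs) (Y := Y) 0 p a H
  have e : π.g ^ (-(0 : ℤ) - 2) = (π.g ^ 2)⁻¹ := by
    rw [show (-(0 : ℤ) - 2) = -((2 : ℕ) : ℤ) by norm_num, zpow_neg, zpow_natCast]
  rwa [e] at h

/-- `theta_(-1)` -/
theorem thm1_qi (p : ℤ) (a : ℕ)
    (H : ∀ n, AcQ (Yc (ThK763.thE π s (KHc302.two_le hs) 1 (-1)) p a Y) ⊤ (TF Y (JW π s hs)) n) :
    QI ((xdht π s hs Y).thH π.g⁻¹ p a) := by
  have h := thE_qi (hs := hs) (Y := Y) (-1) p a H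
  have e : π.g ^ (-(-1 : ℤ) - 2) = π.g⁻¹ := by
    rw [show (-(-1 : ℤ) - 2) = -1 by norm_num, zpow_neg_one]
  rwa [e] at h

/-- `theta_(-2)` -/
theorem thm2_qi (p : ℤ) (a : ℕ)
    (H : ∀ n, AcQ (Yc (ThK763.thE π s (KHc302.two_le hs) 1 (-2)) p a Y) ⊤ (TF Y (JW π s hs)) n) :
    QI ((xdht π s hs Y).thH 1 p a) := by
  have h := thE_qi (hs := hs) (Y := Y) (-2) p a H
  have e : π.g ^ (-(-2 : ℤ) - 2) = 1 := by
    rw [show (-(-2 : ℤ) - 2) = 0 by norm_num, zpow_zero]
  rwa [e] at h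

end Crest.Agent.R186.JTR322
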