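import Mathlib

/-!
Row 186, half (A), leaf ZZ (helper380): the abstract zigzag ("hyper-Ext spectral sequence" of a
finite cell system).

Bare data: a differential `K`-space `U` with slots `W a n` (`a : ι` a cell, `n : ℤ` a degree), a level
function `l : ι → ℤ` on a FINITE index set, and operators `T a b` from the slot of `b` to the slot of
`a`, of degree `l a - l b - 1`, zero unless `l b < l a`, with `d T + T d + ∑ T T = 0`.
If the complex built from the operators of degree `0` (`l a = l b + 1`) is exact on the homology of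
`U`, then the total complex is acyclic.

Both uses are instances: `Hom_A(X, U)` for left cells (`l = s`, slot degree `s σ - p`), and
`Y ⊗_A N` for right cells (`l = - s`, slot degree `m - s κ`).
-/

set_option autoImplicit false

namespace Crest.Agent.R186.ZZ380

variable {K : Type*} [Field K] {ι : Type*} [Fintype ι]
  {U : Type*} [AddCommGroup U] [Module K U]

/-- the bare data -/
structure Dat (K : Type*) [Field K] (ι : Type*) [Fintype ι]
    (U : Type*) [AddCommGroup U] [Module K U] where
  l : ι → ℤ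
  W : ι → ℤ → Submodule K U
  d : U →ₗ[K] U
  T : ι → ι → U →ₗ[K] U
  d_mem : ∀ {a : ι} {n : ℤ} {u : U}, u ∈ W a n → d u ∈ W a (n - 1)
  d_d : ∀ u : U, d (d u) = 0
  T_mem : ∀ {a b : ι} {n : ℤ} {u : U}, u ∈ W b n → T a b u ∈ W a (n + l a - l b - 1)
  T_zero : ∀ {a b : ι}, l a ≤ l b → ∀ {n : ℤ} {u : U}, u ∈ W b n → T a b u = 0
  T_d : ∀ (a b : ι) {n : ℤ} {u : U}, u ∈ W b n →
    d (T a b u) + T a b (d u) + ∑ c, T a c (T c b u) = 0

namespace Dat

variable (S : Dat K ι U)

/-- the total differential -/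
def δ (φ : ι → U) (a : ι) : U := S.d (φ a) + ∑ b, S.T a b (φ b)

/-- homogeneous families: `φ a` has degree `l a + q` -/
def Mem (q : ℤ) (φ : ι → U) : Prop := ∀ a, φ a ∈ S.W a (S.l a + q)

/-- exactness at level `k` in degree `n` on the homology of `U` -/
def HZ (k n : ℤ) : Prop :=
  ∀ φ : ι → U, (∀ a, φ a ∈ S.W a n) → (∀ a, S.d (φ a) = 0) → (∀ a, S.l a ≠ k → φ a = 0) →
    (∀ a, S.l a = k + 1 → ∃ χ ∈ S.W a (n + 1), ∑ b, S.T a b (φ b) = S.d χ) →
    ∃ ψ : ι → U, (∀ a, ψ a ∈ S.W a n) ∧ (∀ a, S.d (ψ a) = 0) ∧ (∀ a, S.l a ≠ k - 1 → ψ a = 0) ∧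
      ∃ χ : ι → U, (∀ a, χ a ∈ S.W a (n + 1)) ∧
        ∀ a, S.l a = k → φ a = ∑ b, S.T a b (ψ b) + S.d (χ a)

variable {S}

theorem δ_mem {q : ℤ} {φ : ι → U} (h : S.Mem q φ) : S.Mem (q - 1) (S.δ φ) := by
  intro a
  refine Submodule.add_mem _ ?_ (Submodule.sum_mem _ fun b _ => ?_)
  · have := S.d_mem (h a)
    rwa [show S.l a + q - 1 = S.l a + (q - 1) by ring] at this
  · have := S.T_mem (a := a) (h b)
    rwa [show S.l b + q + S.l a - S.l b - 1 = S.l a + (q - 1) by ring] at this

theorem δ_δ {q : ℤ} {φ : ι → U} (h : S.Mem q φ) (a : ι) : S.δ (S.δ φ) a = 0 := by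
  unfold δ
  rw [map_add, S.d_d, zero_add, map_sum]
  have h1 : ∑ b, S.T a b (S.d (φ b) + ∑ c, S.T b c (φ c)) =
      ∑ b, S.T a b (S.d (φ b)) + ∑ b, ∑ c, S.T a c (S.T c b (φ b)) := by
    simp_rw [map_add, map_sum, Finset.sum_add_distrib]
    rw [add_right_inj]
    exact Finset.sum_comm
  rw [h1, ← add_assoc, ← Finset.sum_add_distrib, ← Finset.sum_add_distrib]
  exact Finset.sum_eq_zero fun b _ => S.T_d a b (h b)

theorem δ_add (φ ψ : ι → U) (a : ι) : S.δ (φ + ψ) a = S.δ φ a + S.δ ψ a := by
  simp only [δ, Pi.add_apply, map_add, Finset.sum_add_distrib]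
  abel

theorem δ_sub (φ ψ : ι → U) (a : ι) : S.δ (φ - ψ) a = S.δ φ a - S.δ ψ a := by
  simp only [δ, Pi.sub_apply, map_sub, Finset.sum_sub_distrib]
  abel

/-- **the zigzag**, inductive form -/
theorem zz_aux (q : ℤ) (N : ℕ) : ∀ (k : ℤ), (∀ j, k ≤ j → S.HZ j (j + q)) →
    (∀ a, S.l a < k + N) → ∀ φ : ι → U, S.Mem q φ → (∀ a, S.δ φ a = 0) →
    (∀ a, S.l a < k → φ a = 0) → ∃ ψ : ι → U, S.Mem (q + 1) ψ ∧ ∀ a, φ a = S.δ ψ a := by
  induction N with
  | zero =>
    intro k _ hl φ _ _ h0
    refine ⟨0, fun a => Submodule.zero_mem _, fun a => ?_⟩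
    rw [h0 a (by simpa using hl a)]
    simp [δ]
  | succ N ih =>
    intro k hz hl φ hm hd h0
    -- the restriction to level `k`
    let φk : ι → U := fun a => if S.l a = k then φ a else 0
    have hk : ∀ a, S.l a = k → φk a = φ a := fun a ha => if_pos ha
    have hk' : ∀ a, S.l a ≠ k → φk a = 0 := fun a ha => if_neg ha
    have sumk : ∀ a, S.l a ≤ k + 1 → ∑ b, S.T a b (φ b) = ∑ b, S.T a b (φk b) := by
      intro a ha
      refine Finset.sum_congr rfl fun b _ => ?_
      by_cases hb : S.l b = k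
      · rw [hk b hb]
      · rw [hk' b hb, map_zero]
        rcases lt_or_gt_of_ne hb with hb | hb
        · rw [h0 b hb, map_zero]
        · exact S.T_zero (by omega) (hm b)
    have sum0 : ∀ a, S.l a ≤ k → ∑ b, S.T a b (φk b) = 0 := by
      intro a ha
      refine Finset.sum_eq_zero fun b _ => ?_
      by_cases hb : S.l b = k
      · rw [hk b hb]
        exact S.T_zero (by omega) (hm b)
      · rw [hk' b hb, map_zero]
    have hdk : ∀ a, S.d (φk a) = 0 := by
      intro a
      by_cases ha : S.l a = k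
      · rw [hk a ha]
        have h1 := hd a
        unfold δ at h1
        rw [sumk a (by omega), sum0 a (by omega), add_zero] at h1
        exact h1
      · rw [hk' a ha, map_zero]
    obtain ⟨ψ, m1, m2, m3, χ, m4, m5⟩ := hz k le_rfl φk
      (fun a => by
        by_cases ha : S.l a = k
        · rw [hk a ha]
          have := hm a
          rwa [ha] at this
        · rw [hk' a ha]
          exact Submodule.zero_mem _)
      hdk hk'
      (fun a ha => ⟨-φ a, by
        have := hm a
        rw [ha, show k + 1 + q = k + q + 1 by ring] at this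
        exact Submodule.neg_mem _ this, by
        have h1 := hd a
        unfold δ at h1
        rw [sumk a (by omega)] at h1
        rw [map_neg]
        exact (neg_eq_of_add_eq_zero_right h1).symm⟩)
    let χk : ι → U := fun a => if S.l a = k then χ a else 0
    have ck : ∀ a, S.l a = k → χk a = χ a := fun a ha => if_pos ha
    have ck' : ∀ a, S.l a ≠ k → χk a = 0 := fun a ha => if_neg ha
    have memψ : S.Mem (q + 1) ψ := by
      intro a
      by_cases ha : S.l a = k - 1
      · have := m1 a
        rwa [show k + q = S.l a + (q + 1) by omega] at this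
      · rw [m3 a ha]
        exact Submodule.zero_mem _
    have memχ : S.Mem (q + 1) χk := by
      intro a
      by_cases ha : S.l a = k
      · rw [ck a ha]
        have := m4 a
        rwa [show k + q + 1 = S.l a + (q + 1) by omega] at this
      · rw [ck' a ha]
        exact Submodule.zero_mem _
    have memη : S.Mem (q + 1) (ψ + χk) := fun a => Submodule.add_mem _ (memψ a) (memχ a)
    have hη : ∀ a, S.l a ≤ k → S.δ (ψ + χk) a = φk a := by
      intro a ha
      rw [δ_add]
      have e1 : ∑ b, S.T a b (χk b) = 0 := by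
        refine Finset.sum_eq_zero fun b _ => ?_
        by_cases hb : S.l b = k
        · exact S.T_zero (by omega) (memχ b)
        · rw [ck' b hb, map_zero]
      unfold δ
      rw [e1, m2 a, zero_add, add_zero]
      by_cases ha' : S.l a = k
      · rw [ck a ha', ← m5 a ha']
      · rw [ck' a ha', map_zero, add_zero, hk' a ha']
        refine Finset.sum_eq_zero fun b _ => ?_
        by_cases hb : S.l b = k - 1
        · exact S.T_zero (by omega) (memψ b)
        · rw [m3 b hb, map_zero]
    obtain ⟨ψ', n1, n2⟩ := ih (k + 1) (fun j hj => hz j (by omega))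
      (fun a => by have := hl a; push_cast at this; omega) (φ - S.δ (ψ + χk))
      (fun a => Submodule.sub_mem _ (hm a) (by
        have := δ_mem memη a
        rwa [show q + 1 - 1 = q by ring] at this))
      (fun a => by rw [δ_sub, hd a, δ_δ memη a, sub_zero])
      (fun a ha => by
        rw [Pi.sub_apply, hη a (by omega)]
        by_cases ha' : S.l a = k
        · rw [hk a ha', sub_self]
        · rw [hk' a ha', h0 a (by omega), sub_zero])
    refine ⟨ψ' + (ψ + χk), fun a => Submodule.add_mem _ (n1 a) (memη a), fun a => ?_⟩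
    rw [δ_add, ← n2 a, Pi.sub_apply, sub_add_cancel]

/-- **the zigzag**: exactness on homology at every level implies acyclicity of the total complex -/
theorem zz (hz : ∀ k n, S.HZ k n) (q : ℤ) (φ : ι → U) (hm : S.Mem q φ) (hd : ∀ a, S.δ φ a = 0) :
    ∃ ψ : ι → U, S.Mem (q + 1) ψ ∧ ∀ a, φ a = S.δ ψ a := by
  classical
  obtain ⟨k, hk⟩ : ∃ k : ℤ, ∀ a, k ≤ S.l a := by
    obtain ⟨k, hk⟩ := (Finset.univ.image S.l).bddBelow
    exact ⟨k, fun a => hk (by simp)⟩
  obtain ⟨j, hj⟩ : ∃ j : ℤ, ∀ a, S.l a ≤ j := by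
    obtain ⟨j, hj⟩ := (Finset.univ.image S.l).bddAbove
    exact ⟨j, fun a => hj (by simp)⟩
  refine zz_aux q (j + 1 - k).toNat k (fun i _ => hz i (i + q)) (fun a => ?_) φ hm hd
    (fun a ha => absurd (hk a) (by omega))
  have h1 := hj a
  have h2 := Int.self_le_toNat (j + 1 - k)
  omega

end Dat

end Crest.Agent.R186.ZZ380
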