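import Crest.Agent.R186.Frame_515

/-!
Row 186 (A) (helper958): the zigzag lemma for twisted complexes (306's road): if the first page of
the level filtration of `T.cx` is exact, then `T.cx` is acyclic.
-/

set_option autoImplicit false
set_option linter.style.haveILetI false
set_option linter.unusedSectionVars false
set_option linter.unusedSimpArgs false

namespace Crest.Agent.R186.ZZ958

open Hat827 Hat827.DGA Frame515 MulOpposite

variable {K : Type} [Field K]

section zz

variable {B : GC K} (T : Tw B)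

theorem M_apply (x : T.ι →₀ B.X) (S : Finset T.ι) (hS : x.support ⊆ S) (τ : T.ι) :
    T.M x τ = ∑ σ ∈ S, T.m σ τ (x σ) :=
  mat_apply' T.s T.F T.m (fun _ _ h => T.notF h) x S hS τ

theorem dd_eq (x : T.ι →₀ B.X) (τ : T.ι) : T.dd x τ = B.d (x τ) + T.M x τ := by
  rw [T.dd_apply' x x.support (Finset.Subset.refl _), M_apply T x _ (Finset.Subset.refl _)]

theorem M_zero (x : T.ι →₀ B.X) (τ : T.ι) (h : ∀ σ, x σ ≠ 0 → T.s σ ≤ T.s τ) : T.M x τ = 0 := by
  rw [M_apply T x _ (Finset.Subset.refl _)]
  refine Finset.sum_eq_zero fun σ hσ => ?_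
  rw [T.m_zero σ τ (h σ (Finsupp.mem_support_iff.1 hσ)), LinearMap.zero_apply]

/-- the first page (in degree `n` of `B`, at level `j`) is exact -/
def E1 (n : ℤ) (j : ℕ) : Prop :=
  ∀ z : T.ι →₀ B.X, (∀ σ, z σ ≠ 0 → T.s σ = j) → (∀ σ, z σ ∈ B.gr n ∧ T.p σ (z σ) = z σ) →
    (∀ σ, B.d (z σ) = 0) → (∀ τ, T.s τ + 1 = j → ∃ u ∈ B.gr (n + 1), B.d u = T.M z τ) →
    ∃ w : T.ι →₀ B.X, (∀ σ, w σ ≠ 0 → T.s σ = j + 1) ∧
      (∀ σ, w σ ∈ B.gr n ∧ T.p σ (w σ) = w σ) ∧ (∀ σ, B.d (w σ) = 0) ∧
      ∀ σ, T.s σ = j → ∃ u ∈ B.gr (n + 1), z σ = T.M w σ + B.d u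

/-- exactness of a graded complex in degree `k` -/
def AcAt (X : GC K) (k : ℤ) : Prop := ∀ x : X.X, x ∈ X.gr k → X.d x = 0 → ∃ y ∈ X.gr (k + 1), X.d y = x

theorem ac_iff (X : GC K) : Ac X ↔ ∀ k, AcAt X k := Iff.rfl

/-- **the zigzag lemma** -/
theorem cx_acAt_of_E1 (k : ℤ) (h : ∀ j : ℕ, E1 T (k - j) j) : AcAt T.cx k := by
  classical
  have key : ∀ (n : ℕ) (x : T.ι →₀ B.X), x ∈ T.gr k → T.dd x = 0 →
      (∀ σ, x σ ≠ 0 → T.s σ < n) → ∃ y ∈ T.gr (k + 1), T.dd y = x := by
    intro n
    induction n with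
    | zero =>
      intro x _ _ hs
      have hx : x = 0 := by
        ext σ
        by_contra hne
        exact absurd (hs σ hne) (by omega)
      exact ⟨0, Submodule.zero_mem _, by rw [hx, map_zero]⟩
    | succ n ih =>
      intro x hx hd hs
      have hdx : ∀ τ, B.d (x τ) + T.M x τ = 0 := fun τ => by
        rw [← dd_eq, hd]; rfl
      -- the top part
      let z : T.ι →₀ B.X := x.filter fun σ => T.s σ = n
      have hz1 : ∀ σ, T.s σ = n → z σ = x σ := fun σ hσ => Finsupp.filter_apply_pos _ _ hσ
      have hz0 : ∀ σ, T.s σ ≠ n → z σ = 0 := fun σ hσ => Finsupp.filter_apply_neg _ _ hσ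
      have hzs : ∀ σ, z σ ≠ 0 → T.s σ = n := fun σ hσ => by
        by_contra hne
        exact hσ (hz0 σ hne)
      have hzg : ∀ σ, z σ ∈ B.gr (k - n) ∧ T.p σ (z σ) = z σ := by
        intro σ
        by_cases hσ : T.s σ = n
        · rw [hz1 σ hσ]
          have := hx σ
          rw [hσ] at this
          exact this
        · rw [hz0 σ hσ]
          exact ⟨Submodule.zero_mem _, map_zero _⟩
      have hzd : ∀ σ, B.d (z σ) = 0 := by
        intro σ
        by_cases hσ : T.s σ = n
        · rw [hz1 σ hσ]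
          have h1 := hdx σ
          rw [M_zero T x σ (fun ρ hρ => by have := hs ρ hρ; omega), add_zero] at h1
          exact h1
        · rw [hz0 σ hσ, map_zero]
      have hzM : ∀ τ, T.s τ + 1 = n → ∃ u ∈ B.gr (k - n + 1), B.d u = T.M z τ := by
        intro τ hτ
        refine ⟨-x τ, Submodule.neg_mem _ ?_, ?_⟩
        · have := (hx τ).1
          rwa [show k - (T.s τ : ℤ) = k - n + 1 by omega] at this
        · have h1 : T.M (x - z) τ = 0 := M_zero T _ _ fun σ hσ => by
            by_contra hne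
            apply hσ
            rw [Finsupp.sub_apply]
            by_cases hσn : T.s σ = n
            · rw [hz1 σ hσn, sub_self]
            · rw [hz0 σ hσn, sub_zero]
              by_contra hx0
              have := hs σ hx0
              omega
          rw [map_sub, Finsupp.sub_apply, sub_eq_zero] at h1
          rw [map_neg, ← h1]
          exact neg_eq_of_add_eq_zero_right (hdx τ)
      obtain ⟨w, hw1, hw2, hw3, hw4⟩ := h n z hzs hzg hzd hzM
      -- the correction
      let S : Finset T.ι := (T.F n).filter fun σ => T.s σ = n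
      have hS : ∀ σ, σ ∈ S ↔ T.s σ = n := fun σ => by
        simp only [S, Finset.mem_filter, T.mem_F]
        omega
      let g : T.ι → B.X := fun σ => if h : T.s σ = n then T.p σ (Classical.choose (hw4 σ h)) else 0
      have hg : ∀ σ (h : T.s σ = n), g σ ∈ B.gr (k - n + 1) ∧ T.p σ (g σ) = g σ ∧
          z σ = T.M w σ + B.d (g σ) := by
        intro σ hσ
        have h1 := Classical.choose_spec (hw4 σ hσ)
        simp only [g, dif_pos hσ]
        refine ⟨T.p_mem σ h1.1, T.p_p σ _, ?_⟩
        rw [← T.p_d]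
        have h2 : B.d (Classical.choose (hw4 σ hσ)) = z σ - T.M w σ := by
          rw [eq_sub_iff_add_eq, add_comm]
          exact h1.2.symm
        rw [h2, map_sub, (hzg σ).2]
        have h3 : T.p σ (T.M w σ) = T.M w σ := by
          rw [M_apply T w _ (Finset.Subset.refl _), map_sum]
          exact Finset.sum_congr rfl fun ρ _ => T.p_m ρ σ _
        rw [h3]
        abel
      have hg0 : ∀ σ, T.s σ ≠ n → g σ = 0 := fun σ h => by simp only [g, dif_neg h]
      let u : T.ι →₀ B.X := Finsupp.onFinset S g fun σ h => by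
        by_contra hc
        exact h (hg0 σ fun h' => hc ((hS σ).2 h'))
      have hu : ∀ σ, u σ = g σ := fun σ => rfl
      have hy : w + u ∈ T.gr (k + 1) := by
        refine Submodule.add_mem _ (fun σ => ?_) (fun σ => ?_)
        · refine ⟨?_, (hw2 σ).2⟩
          by_cases hσ : w σ = 0
          · rw [hσ]; exact Submodule.zero_mem _
          · have h1 := hw1 σ hσ
            have h2 := (hw2 σ).1
            rwa [show k - (n : ℤ) = k + 1 - T.s σ by rw [h1]; push_cast; ring] at h2
        · rw [hu]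
          by_cases hσ : T.s σ = n
          · refine ⟨?_, (hg σ hσ).2.1⟩
            have h2 := (hg σ hσ).1
            rwa [show k - (n : ℤ) + 1 = k + 1 - T.s σ by rw [hσ]; ring] at h2
          · rw [hg0 σ hσ]
            exact ⟨Submodule.zero_mem _, map_zero _⟩
      have hx' : x - T.dd (w + u) ∈ T.gr k := by
        have := T.dd_mem hy
        rw [add_sub_cancel_right] at this
        exact Submodule.sub_mem _ hx this
      have hd' : T.dd (x - T.dd (w + u)) = 0 := by rw [map_sub, hd, T.dd_dd, sub_zero]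
      have hMu : ∀ σ, n ≤ T.s σ → T.M u σ = 0 := fun σ hσ => M_zero T u σ fun ρ hρ => by
        by_contra hne
        exact hρ (hg0 ρ (by omega))
      have hs' : ∀ σ, (x - T.dd (w + u)) σ ≠ 0 → T.s σ < n := by
        intro σ hσ
        by_contra hc
        apply hσ
        rw [Finsupp.sub_apply, dd_eq, map_add, Finsupp.add_apply, map_add, Finsupp.add_apply,
          hw3 σ, zero_add, hMu σ (by omega), add_zero, hu]
        by_cases hσn : T.s σ = n
        · rw [← hz1 σ hσn, (hg σ hσn).2.2]
          abel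
        · rw [hg0 σ hσn, map_zero, zero_add, M_zero T w σ (fun ρ hρ => by
            have := hw1 ρ hρ; omega), sub_zero]
          by_contra hx0
          have := hs σ hx0
          omega
      obtain ⟨y, hy1, hy2⟩ := ih (x - T.dd (w + u)) hx' hd' hs'
      refine ⟨y + (w + u), Submodule.add_mem _ hy1 hy, ?_⟩
      rw [map_add, hy2, sub_add_cancel]
  intro x hx hd
  exact key (x.support.sup T.s + 1) x hx hd fun σ hσ =>
    Nat.lt_succ_of_le (Finset.le_sup (f := T.s) (Finsupp.mem_support_iff.2 hσ))

theorem cx_ac_of_E1 (h : ∀ n j, E1 T n j) : Ac T.cx := fun k => cx_acAt_of_E1 T k fun j => h _ j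

end zz

end Crest.Agent.R186.ZZ958
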